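import Vale.Agent.Lib.P154.PChain.BC.L

set_option linter.all false

namespace Vale.Agent.Lib.P154.PChain.BC.S0

open Vale.Agent.Lib.P154.Chain

noncomputable def pc0 : PT := (PT.nd (nat_lit 8247096) (PT.nd (nat_lit 7928622) (PT.nd (nat_lit 7769346) (PT.nd (nat_lit 7663266) (PT.nd (nat_lit 7610226) (PT.nd (nat_lit 7610148) PT.nil (PT.lf (nat_lit 76) (nat_lit 6) (nat_lit 1) (nat_lit 3) (nat_lit 183) (nat_lit 143) (nat_lit 184))) (PT.nd (nat_lit 52962) (PT.lf (nat_lit 76) (nat_lit 6) (nat_lit 1) (nat_lit 1) (nat_lit 184) (nat_lit 143) (nat_lit 183)) (PT.lf (nat_lit 152) (nat_lit 6) (nat_lit 2) (nat_lit 3) (nat_lit 182) (nat_lit 144) (nat_lit 184)))) (PT.nd (nat_lit 53040) (PT.nd (nat_lit 78) (PT.lf (nat_lit 228) (nat_lit 3) (nat_lit 3) (nat_lit 1) (nat_lit 183) (nat_lit 144) (nat_lit 183)) (PT.lf (nat_lit 152) (nat_lit 6) (nat_lit 2) (nat_lit 1) (nat_lit 184) (nat_lit 144) (nat_lit 182)))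 (PT.nd (nat_lit 78) (PT.lf (nat_lit 304) (nat_lit 6) (nat_lit 4) (nat_lit 3) (nat_lit 182) (nat_lit 145) (nat_lit 183)) (PT.lf (nat_lit 304) (nat_lit 6) (nat_lit 4) (nat_lit 1) (nat_lit 183) (nat_lit 145) (nat_lit 182))))) (PT.nd (nat_lit 53196) (PT.nd (nat_lit 156) (PT.nd (nat_lit 78) (PT.lf (nat_lit 380) (nat_lit 6) (nat_lit 5) (nat_lit 3) (nat_lit 181) (nat_lit 146) (nat_lit 183)) (PT.lf (nat_lit 456) (nat_lit 3) (nat_lit 6) (nat_lit 1) (nat_lit 182) (nat_lit 146) (nat_lit 182))) (PT.nd (nat_lit 52962) (PT.lf (nat_lit 380) (nat_lit 6) (nat_lit 5) (nat_lit 1) (nat_lit 183) (nat_lit 146) (nat_lit 181)) (PT.lf (nat_lit 532) (nat_lit 6) (nat_lit 7) (nat_lit 3) (nat_lit 181) (nat_lit 147) (nat_lit 182)))) (PT.nd (nat_lit 53040) (PT.nd (nat_lit 52962) (PT.lf (nat_lit 532) (nat_lit 6) (nat_lit 7) (nat_lit 1) (nat_lit 182) (nat_lit 147) (nat_lit 181)) (PT.lf (nat_lit 608) (nat_lit 6) (nat_lit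 8) (nat_lit 3) (nat_lit 180) (nat_lit 148) (nat_lit 182))) (PT.nd (nat_lit 78) (PT.lf (nat_lit 684) (nat_lit 3) (nat_lit 9) (nat_lit 1) (nat_lit 181) (nat_lit 148) (nat_lit 181)) (PT.lf (nat_lit 608) (nat_lit 6) (nat_lit 8) (nat_lit 1) (nat_lit 182) (nat_lit 148) (nat_lit 180)))))) (PT.nd (nat_lit 159198) (PT.nd (nat_lit 53118) (PT.nd (nat_lit 78) (PT.lf (nat_lit 760) (nat_lit 6) (nat_lit 10) (nat_lit 3) (nat_lit 180) (nat_lit 149) (nat_lit 181)) (PT.nd (nat_lit 52962) (PT.lf (nat_lit 760) (nat_lit 6) (nat_lit 10) (nat_lit 1) (nat_lit 181) (nat_lit 149) (nat_lit 180)) (PT.lf (nat_lit 836) (nat_lit 6) (nat_lit 11) (nat_lit 3) (nat_lit 179) (nat_lit 150) (nat_lit 181)))) (PT.nd (nat_lit 53040) (PT.nd (nat_lit 78) (PT.lf (nat_lit 912) (nat_lit 3) (nat_lit 12) (nat_lit 1) (nat_lit 180) (nat_lit 150) (nat_lit 180)) (PT.lf (nat_lit 836) (nat_lit 6) (nat_lit 11) (nat_lit 1) (nat_lit 181) (nat_lit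 150) (nat_lit 179))) (PT.nd (nat_lit 78) (PT.lf (nat_lit 988) (nat_lit 6) (nat_lit 13) (nat_lit 3) (nat_lit 179) (nat_lit 151) (nat_lit 180)) (PT.lf (nat_lit 988) (nat_lit 6) (nat_lit 13) (nat_lit 1) (nat_lit 180) (nat_lit 151) (nat_lit 179))))) (PT.nd (nat_lit 53196) (PT.nd (nat_lit 156) (PT.nd (nat_lit 78) (PT.lf (nat_lit 1064) (nat_lit 6) (nat_lit 14) (nat_lit 3) (nat_lit 178) (nat_lit 152) (nat_lit 180)) (PT.lf (nat_lit 1140) (nat_lit 3) (nat_lit 15) (nat_lit 1) (nat_lit 179) (nat_lit 152) (nat_lit 179))) (PT.nd (nat_lit 52962) (PT.lf (nat_lit 1064) (nat_lit 6) (nat_lit 14) (nat_lit 1) (nat_lit 180) (nat_lit 152) (nat_lit 178)) (PT.lf (nat_lit 1216) (nat_lit 6) (nat_lit 16) (nat_lit 3) (nat_lit 178) (nat_lit 153) (nat_lit 179)))) (PT.nd (nat_lit 53040) (PT.nd (nat_lit 52962) (PT.lf (nat_lit 1216) (nat_lit 6) (nat_lit 16) (nat_lit 1) (nat_lit 179) (nat_lit 153) (nat_lit 178)) (PT.lf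 (nat_lit 1292) (nat_lit 6) (nat_lit 17) (nat_lit 3) (nat_lit 177) (nat_lit 154) (nat_lit 179))) (PT.nd (nat_lit 78) (PT.lf (nat_lit 1368) (nat_lit 3) (nat_lit 18) (nat_lit 1) (nat_lit 178) (nat_lit 154) (nat_lit 178)) (PT.lf (nat_lit 1292) (nat_lit 6) (nat_lit 17) (nat_lit 1) (nat_lit 179) (nat_lit 154) (nat_lit 177))))))) (PT.nd (nat_lit 318474) (PT.nd (nat_lit 159198) (PT.nd (nat_lit 53118) (PT.nd (nat_lit 78) (PT.lf (nat_lit 1444) (nat_lit 6) (nat_lit 19) (nat_lit 3) (nat_lit 177) (nat_lit 155) (nat_lit 178)) (PT.nd (nat_lit 52962) (PT.lf (nat_lit 1444) (nat_lit 6) (nat_lit 19) (nat_lit 1) (nat_lit 178) (nat_lit 155) (nat_lit 177)) (PT.lf (nat_lit 1520) (nat_lit 6) (nat_lit 20) (nat_lit 3) (nat_lit 176) (nat_lit 156) (nat_lit 178)))) (PT.nd (nat_lit 53040) (PT.nd (nat_lit 78) (PT.lf (nat_lit 1596) (nat_lit 3) (nat_lit 21) (nat_lit 1) (nat_lit 177) (nat_lit 156) (nat_lit 177)) (PT.lf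 (nat_lit 1520) (nat_lit 6) (nat_lit 20) (nat_lit 1) (nat_lit 178) (nat_lit 156) (nat_lit 176))) (PT.nd (nat_lit 78) (PT.lf (nat_lit 1672) (nat_lit 6) (nat_lit 22) (nat_lit 3) (nat_lit 176) (nat_lit 157) (nat_lit 177)) (PT.lf (nat_lit 1672) (nat_lit 6) (nat_lit 22) (nat_lit 1) (nat_lit 177) (nat_lit 157) (nat_lit 176))))) (PT.nd (nat_lit 53196) (PT.nd (nat_lit 156) (PT.nd (nat_lit 78) (PT.lf (nat_lit 1748) (nat_lit 6) (nat_lit 23) (nat_lit 3) (nat_lit 175) (nat_lit 158) (nat_lit 177)) (PT.lf (nat_lit 1824) (nat_lit 3) (nat_lit 24) (nat_lit 1) (nat_lit 176) (nat_lit 158) (nat_lit 176))) (PT.nd (nat_lit 52962) (PT.lf (nat_lit 1748) (nat_lit 6) (nat_lit 23) (nat_lit 1) (nat_lit 177) (nat_lit 158) (nat_lit 175)) (PT.lf (nat_lit 1900) (nat_lit 6) (nat_lit 25) (nat_lit 3) (nat_lit 175) (nat_lit 159) (nat_lit 176)))) (PT.nd (nat_lit 53040) (PT.nd (nat_lit 52962) (PT.lf (nat_lit 1900) (nat_lit 6)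 (nat_lit 25) (nat_lit 1) (nat_lit 176) (nat_lit 159) (nat_lit 175)) (PT.lf (nat_lit 1976) (nat_lit 6) (nat_lit 26) (nat_lit 3) (nat_lit 174) (nat_lit 160) (nat_lit 176))) (PT.nd (nat_lit 78) (PT.lf (nat_lit 2052) (nat_lit 3) (nat_lit 27) (nat_lit 1) (nat_lit 175) (nat_lit 160) (nat_lit 175)) (PT.lf (nat_lit 1976) (nat_lit 6) (nat_lit 26) (nat_lit 1) (nat_lit 176) (nat_lit 160) (nat_lit 174)))))) (PT.nd (nat_lit 106314) (PT.nd (nat_lit 53196) (PT.nd (nat_lit 53040) (PT.nd (nat_lit 78) (PT.lf (nat_lit 2128) (nat_lit 6) (nat_lit 28) (nat_lit 3) (nat_lit 174) (nat_lit 161) (nat_lit 175)) (PT.lf (nat_lit 2128) (nat_lit 6) (nat_lit 28) (nat_lit 1) (nat_lit 175) (nat_lit 161) (nat_lit 174))) (PT.nd (nat_lit 78) (PT.lf (nat_lit 2204) (nat_lit 6) (nat_lit 29) (nat_lit 3) (nat_lit 173) (nat_lit 162) (nat_lit 175)) (PT.lf (nat_lit 2280) (nat_lit 3) (nat_lit 30) (nat_lit 1) (nat_lit 174) (nat_lit 162)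 (nat_lit 174)))) (PT.nd (nat_lit 52962) (PT.nd (nat_lit 52884) (PT.lf (nat_lit 2204) (nat_lit 6) (nat_lit 29) (nat_lit 1) (nat_lit 175) (nat_lit 162) (nat_lit 173)) (PT.lf (nat_lit 2356) (nat_lit 6) (nat_lit 31) (nat_lit 3) (nat_lit 172) (nat_lit 163) (nat_lit 175))) (PT.nd (nat_lit 78) (PT.lf (nat_lit 2432) (nat_lit 6) (nat_lit 32) (nat_lit 3) (nat_lit 173) (nat_lit 163) (nat_lit 174)) (PT.lf (nat_lit 2432) (nat_lit 6) (nat_lit 32) (nat_lit 1) (nat_lit 174) (nat_lit 163) (nat_lit 173))))) (PT.nd (nat_lit 105924) (PT.nd (nat_lit 52962) (PT.nd (nat_lit 52884) (PT.lf (nat_lit 2356) (nat_lit 6) (nat_lit 31) (nat_lit 1) (nat_lit 175) (nat_lit 163) (nat_lit 172)) (PT.lf (nat_lit 2508) (nat_lit 6) (nat_lit 33) (nat_lit 3) (nat_lit 172) (nat_lit 164) (nat_lit 174))) (PT.nd (nat_lit 78) (PT.lf (nat_lit 2584) (nat_lit 3) (nat_lit 34) (nat_lit 1) (nat_lit 173) (nat_lit 164) (nat_lit 173)) (PT.lf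 (nat_lit 2508) (nat_lit 6) (nat_lit 33) (nat_lit 1) (nat_lit 174) (nat_lit 164) (nat_lit 172)))) (PT.nd (nat_lit 156) (PT.nd (nat_lit 78) (PT.lf (nat_lit 2660) (nat_lit 6) (nat_lit 35) (nat_lit 3) (nat_lit 171) (nat_lit 165) (nat_lit 174)) (PT.lf (nat_lit 2736) (nat_lit 6) (nat_lit 36) (nat_lit 3) (nat_lit 172) (nat_lit 165) (nat_lit 173))) (PT.nd (nat_lit 78) (PT.lf (nat_lit 2736) (nat_lit 6) (nat_lit 36) (nat_lit 1) (nat_lit 173) (nat_lit 165) (nat_lit 172)) (PT.lf (nat_lit 2660) (nat_lit 6) (nat_lit 35) (nat_lit 1) (nat_lit 174) (nat_lit 165) (nat_lit 171))))))))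
noncomputable def pc1 : PT := (PT.nd (nat_lit 212472) (PT.nd (nat_lit 106392) (PT.nd (nat_lit 53196) (PT.nd (nat_lit 234) (PT.nd (nat_lit 78) (PT.lf (nat_lit 2964) (nat_lit 6) (nat_lit 39) (nat_lit 3) (nat_lit 170) (nat_lit 166) (nat_lit 174)) (PT.nd (nat_lit 78) (PT.lf (nat_lit 3040) (nat_lit 6) (nat_lit 40) (nat_lit 3) (nat_lit 171) (nat_lit 166) (nat_lit 173)) (PT.lf (nat_lit 3116) (nat_lit 3) (nat_lit 41) (nat_lit 1) (nat_lit 172) (nat_lit 166) (nat_lit 172)))) (PT.nd (nat_lit 52806) (PT.nd (nat_lit 78) (PT.lf (nat_lit 3040) (nat_lit 6) (nat_lit 40) (nat_lit 1) (nat_lit 173) (nat_lit 166) (nat_lit 171)) (PT.lf (nat_lit 2964) (nat_lit 6) (nat_lit 39) (nat_lit 1) (nat_lit 174) (nat_lit 166) (nat_lit 170))) (PT.nd (nat_lit 78) (PT.lf (nat_lit 2888) (nat_lit 6) (nat_lit 38) (nat_lit 3) (nat_lit 169) (nat_lit 167) (nat_lit 174)) (PT.lf (nat_lit 3268) (nat_lit 6) (nat_lit 43) (nat_lit 3)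 (nat_lit 170) (nat_lit 167) (nat_lit 173))))) (PT.nd (nat_lit 52884) (PT.nd (nat_lit 156) (PT.nd (nat_lit 78) (PT.lf (nat_lit 3344) (nat_lit 6) (nat_lit 44) (nat_lit 3) (nat_lit 171) (nat_lit 167) (nat_lit 172)) (PT.lf (nat_lit 3344) (nat_lit 6) (nat_lit 44) (nat_lit 1) (nat_lit 172) (nat_lit 167) (nat_lit 171))) (PT.nd (nat_lit 78) (PT.lf (nat_lit 3268) (nat_lit 6) (nat_lit 43) (nat_lit 1) (nat_lit 173) (nat_lit 167) (nat_lit 170)) (PT.lf (nat_lit 2888) (nat_lit 6) (nat_lit 38) (nat_lit 1) (nat_lit 174) (nat_lit 167) (nat_lit 169)))) (PT.nd (nat_lit 156) (PT.nd (nat_lit 78) (PT.lf (nat_lit 2812) (nat_lit 3) (nat_lit 37) (nat_lit 3) (nat_lit 168) (nat_lit 168) (nat_lit 174)) (PT.lf (nat_lit 3192) (nat_lit 6) (nat_lit 42) (nat_lit 3) (nat_lit 169) (nat_lit 168) (nat_lit 173))) (PT.nd (nat_lit 78) (PT.lf (nat_lit 3496) (nat_lit 6) (nat_lit 46) (nat_lit 3) (nat_lit 170) (nat_lit 168) (nat_lit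 172)) (PT.lf (nat_lit 3572) (nat_lit 3) (nat_lit 47) (nat_lit 1) (nat_lit 171) (nat_lit 168) (nat_lit 171)))))) (PT.nd (nat_lit 53040) (PT.nd (nat_lit 52728) (PT.nd (nat_lit 78) (PT.lf (nat_lit 3496) (nat_lit 6) (nat_lit 46) (nat_lit 1) (nat_lit 172) (nat_lit 168) (nat_lit 170)) (PT.nd (nat_lit 78) (PT.lf (nat_lit 3192) (nat_lit 6) (nat_lit 42) (nat_lit 1) (nat_lit 173) (nat_lit 168) (nat_lit 169)) (PT.lf (nat_lit 2812) (nat_lit 3) (nat_lit 37) (nat_lit 0) (nat_lit 174) (nat_lit 168) (nat_lit 168)))) (PT.nd (nat_lit 156) (PT.nd (nat_lit 78) (PT.lf (nat_lit 2888) (nat_lit 6) (nat_lit 38) (nat_lit 5) (nat_lit 167) (nat_lit 169) (nat_lit 174)) (PT.lf (nat_lit 3192) (nat_lit 6) (nat_lit 42) (nat_lit 5) (nat_lit 168) (nat_lit 169) (nat_lit 173))) (PT.nd (nat_lit 78) (PT.lf (nat_lit 3420) (nat_lit 3) (nat_lit 45) (nat_lit 3) (nat_lit 169) (nat_lit 169) (nat_lit 172)) (PT.lf (nat_lit 3648) (nat_lit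 6) (nat_lit 48) (nat_lit 3) (nat_lit 170) (nat_lit 169) (nat_lit 171))))) (PT.nd (nat_lit 52728) (PT.nd (nat_lit 156) (PT.nd (nat_lit 78) (PT.lf (nat_lit 3648) (nat_lit 6) (nat_lit 48) (nat_lit 1) (nat_lit 171) (nat_lit 169) (nat_lit 170)) (PT.lf (nat_lit 3420) (nat_lit 3) (nat_lit 45) (nat_lit 0) (nat_lit 172) (nat_lit 169) (nat_lit 169))) (PT.nd (nat_lit 78) (PT.lf (nat_lit 3192) (nat_lit 6) (nat_lit 42) (nat_lit 0) (nat_lit 173) (nat_lit 169) (nat_lit 168)) (PT.lf (nat_lit 2888) (nat_lit 6) (nat_lit 38) (nat_lit 0) (nat_lit 174) (nat_lit 169) (nat_lit 167)))) (PT.nd (nat_lit 156) (PT.nd (nat_lit 78) (PT.lf (nat_lit 2964) (nat_lit 6) (nat_lit 39) (nat_lit 5) (nat_lit 166) (nat_lit 170) (nat_lit 174)) (PT.lf (nat_lit 3268) (nat_lit 6) (nat_lit 43) (nat_lit 5) (nat_lit 167) (nat_lit 170) (nat_lit 173))) (PT.nd (nat_lit 78) (PT.lf (nat_lit 3496) (nat_lit 6) (nat_lit 46) (nat_lit 5) (nat_lit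 168) (nat_lit 170) (nat_lit 172)) (PT.lf (nat_lit 3648) (nat_lit 6) (nat_lit 48) (nat_lit 5) (nat_lit 169) (nat_lit 170) (nat_lit 171))))))) (PT.nd (nat_lit 105690) (PT.nd (nat_lit 52884) (PT.nd (nat_lit 234) (PT.nd (nat_lit 78) (PT.lf (nat_lit 3724) (nat_lit 1) (nat_lit 49) (nat_lit 0) (nat_lit 170) (nat_lit 170) (nat_lit 170)) (PT.nd (nat_lit 78) (PT.lf (nat_lit 3648) (nat_lit 6) (nat_lit 48) (nat_lit 0) (nat_lit 171) (nat_lit 170) (nat_lit 169)) (PT.lf (nat_lit 3496) (nat_lit 6) (nat_lit 46) (nat_lit 0) (nat_lit 172) (nat_lit 170) (nat_lit 168)))) (PT.nd (nat_lit 52494) (PT.nd (nat_lit 78) (PT.lf (nat_lit 3268) (nat_lit 6) (nat_lit 43) (nat_lit 0) (nat_lit 173) (nat_lit 170) (nat_lit 167)) (PT.lf (nat_lit 2964) (nat_lit 6) (nat_lit 39) (nat_lit 0) (nat_lit 174) (nat_lit 170) (nat_lit 166))) (PT.nd (nat_lit 78) (PT.lf (nat_lit 2660) (nat_lit 6) (nat_lit 35) (nat_lit 5) (nat_lit 165) (nat_lit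 171) (nat_lit 174)) (PT.lf (nat_lit 3040) (nat_lit 6) (nat_lit 40) (nat_lit 5) (nat_lit 166) (nat_lit 171) (nat_lit 173))))) (PT.nd (nat_lit 312) (PT.nd (nat_lit 156) (PT.nd (nat_lit 78) (PT.lf (nat_lit 3344) (nat_lit 6) (nat_lit 44) (nat_lit 5) (nat_lit 167) (nat_lit 171) (nat_lit 172)) (PT.lf (nat_lit 3572) (nat_lit 3) (nat_lit 47) (nat_lit 4) (nat_lit 168) (nat_lit 171) (nat_lit 171))) (PT.nd (nat_lit 78) (PT.lf (nat_lit 3648) (nat_lit 6) (nat_lit 48) (nat_lit 4) (nat_lit 169) (nat_lit 171) (nat_lit 170)) (PT.lf (nat_lit 3648) (nat_lit 6) (nat_lit 48) (nat_lit 2) (nat_lit 170) (nat_lit 171) (nat_lit 169)))) (PT.nd (nat_lit 156) (PT.nd (nat_lit 78) (PT.lf (nat_lit 3572) (nat_lit 3) (nat_lit 47) (nat_lit 0) (nat_lit 171) (nat_lit 171) (nat_lit 168)) (PT.lf (nat_lit 3344) (nat_lit 6) (nat_lit 44) (nat_lit 0) (nat_lit 172) (nat_lit 171) (nat_lit 167))) (PT.nd (nat_lit 78) (PT.lf (nat_lit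 3040) (nat_lit 6) (nat_lit 40) (nat_lit 0) (nat_lit 173) (nat_lit 171) (nat_lit 166)) (PT.lf (nat_lit 2660) (nat_lit 6) (nat_lit 35) (nat_lit 0) (nat_lit 174) (nat_lit 171) (nat_lit 165)))))) (PT.nd (nat_lit 624) (PT.nd (nat_lit 312) (PT.nd (nat_lit 156) (PT.nd (nat_lit 78) (PT.lf (nat_lit 2356) (nat_lit 6) (nat_lit 31) (nat_lit 5) (nat_lit 163) (nat_lit 172) (nat_lit 175)) (PT.lf (nat_lit 2508) (nat_lit 6) (nat_lit 33) (nat_lit 5) (nat_lit 164) (nat_lit 172) (nat_lit 174))) (PT.nd (nat_lit 78) (PT.lf (nat_lit 2736) (nat_lit 6) (nat_lit 36) (nat_lit 5) (nat_lit 165) (nat_lit 172) (nat_lit 173)) (PT.lf (nat_lit 3116) (nat_lit 3) (nat_lit 41) (nat_lit 4) (nat_lit 166) (nat_lit 172) (nat_lit 172)))) (PT.nd (nat_lit 156) (PT.nd (nat_lit 78) (PT.lf (nat_lit 3344) (nat_lit 6) (nat_lit 44) (nat_lit 4) (nat_lit 167) (nat_lit 172) (nat_lit 171)) (PT.lf (nat_lit 3496) (nat_lit 6) (nat_lit 46) (nat_lit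 4) (nat_lit 168) (nat_lit 172) (nat_lit 170))) (PT.nd (nat_lit 78) (PT.lf (nat_lit 3420) (nat_lit 3) (nat_lit 45) (nat_lit 2) (nat_lit 169) (nat_lit 172) (nat_lit 169)) (PT.lf (nat_lit 3496) (nat_lit 6) (nat_lit 46) (nat_lit 2) (nat_lit 170) (nat_lit 172) (nat_lit 168))))) (PT.nd (nat_lit 312) (PT.nd (nat_lit 156) (PT.nd (nat_lit 78) (PT.lf (nat_lit 3344) (nat_lit 6) (nat_lit 44) (nat_lit 2) (nat_lit 171) (nat_lit 172) (nat_lit 167)) (PT.lf (nat_lit 3116) (nat_lit 3) (nat_lit 41) (nat_lit 0) (nat_lit 172) (nat_lit 172) (nat_lit 166))) (PT.nd (nat_lit 78) (PT.lf (nat_lit 2736) (nat_lit 6) (nat_lit 36) (nat_lit 0) (nat_lit 173) (nat_lit 172) (nat_lit 165)) (PT.lf (nat_lit 2508) (nat_lit 6) (nat_lit 33) (nat_lit 0) (nat_lit 174) (nat_lit 172) (nat_lit 164)))) (PT.nd (nat_lit 52182) (PT.nd (nat_lit 52104) (PT.lf (nat_lit 2356) (nat_lit 6) (nat_lit 31) (nat_lit 0) (nat_lit 175) (nat_lit 172)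 (nat_lit 163)) (PT.lf (nat_lit 2204) (nat_lit 6) (nat_lit 29) (nat_lit 5) (nat_lit 162) (nat_lit 173) (nat_lit 175))) (PT.nd (nat_lit 78) (PT.lf (nat_lit 2432) (nat_lit 6) (nat_lit 32) (nat_lit 5) (nat_lit 163) (nat_lit 173) (nat_lit 174)) (PT.lf (nat_lit 2584) (nat_lit 3) (nat_lit 34) (nat_lit 4) (nat_lit 164) (nat_lit 173) (nat_lit 173))))))))
noncomputable def pc2 : PT := (PT.nd (nat_lit 105846) (PT.nd (nat_lit 53040) (PT.nd (nat_lit 546) (PT.nd (nat_lit 234) (PT.nd (nat_lit 78) (PT.lf (nat_lit 2736) (nat_lit 6) (nat_lit 36) (nat_lit 4) (nat_lit 165) (nat_lit 173) (nat_lit 172)) (PT.nd (nat_lit 78) (PT.lf (nat_lit 3040) (nat_lit 6) (nat_lit 40) (nat_lit 4) (nat_lit 166) (nat_lit 173) (nat_lit 171)) (PT.lf (nat_lit 3268) (nat_lit 6) (nat_lit 43) (nat_lit 4) (nat_lit 167) (nat_lit 173) (nat_lit 170)))) (PT.nd (nat_lit 156) (PT.nd (nat_lit 78) (PT.lf (nat_lit 3192) (nat_lit 6) (nat_lit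 42) (nat_lit 4) (nat_lit 168) (nat_lit 173) (nat_lit 169)) (PT.lf (nat_lit 3192) (nat_lit 6) (nat_lit 42) (nat_lit 2) (nat_lit 169) (nat_lit 173) (nat_lit 168))) (PT.nd (nat_lit 78) (PT.lf (nat_lit 3268) (nat_lit 6) (nat_lit 43) (nat_lit 2) (nat_lit 170) (nat_lit 173) (nat_lit 167)) (PT.lf (nat_lit 3040) (nat_lit 6) (nat_lit 40) (nat_lit 2) (nat_lit 171) (nat_lit 173) (nat_lit 166))))) (PT.nd (nat_lit 52182) (PT.nd (nat_lit 156) (PT.nd (nat_lit 78) (PT.lf (nat_lit 2736) (nat_lit 6) (nat_lit 36) (nat_lit 2) (nat_lit 172) (nat_lit 173) (nat_lit 165)) (PT.lf (nat_lit 2584) (nat_lit 3) (nat_lit 34) (nat_lit 0) (nat_lit 173) (nat_lit 173) (nat_lit 164))) (PT.nd (nat_lit 78) (PT.lf (nat_lit 2432) (nat_lit 6) (nat_lit 32) (nat_lit 0) (nat_lit 174) (nat_lit 173) (nat_lit 163)) (PT.lf (nat_lit 2204) (nat_lit 6) (nat_lit 29) (nat_lit 0) (nat_lit 175) (nat_lit 173) (nat_lit 162)))) (PT.nd (nat_lit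 156) (PT.nd (nat_lit 78) (PT.lf (nat_lit 1976) (nat_lit 6) (nat_lit 26) (nat_lit 5) (nat_lit 160) (nat_lit 174) (nat_lit 176)) (PT.lf (nat_lit 2128) (nat_lit 6) (nat_lit 28) (nat_lit 5) (nat_lit 161) (nat_lit 174) (nat_lit 175))) (PT.nd (nat_lit 78) (PT.lf (nat_lit 2280) (nat_lit 3) (nat_lit 30) (nat_lit 4) (nat_lit 162) (nat_lit 174) (nat_lit 174)) (PT.lf (nat_lit 2432) (nat_lit 6) (nat_lit 32) (nat_lit 4) (nat_lit 163) (nat_lit 174) (nat_lit 173)))))) (PT.nd (nat_lit 546) (PT.nd (nat_lit 234) (PT.nd (nat_lit 78) (PT.lf (nat_lit 2508) (nat_lit 6) (nat_lit 33) (nat_lit 4) (nat_lit 164) (nat_lit 174) (nat_lit 172)) (PT.nd (nat_lit 78) (PT.lf (nat_lit 2660) (nat_lit 6) (nat_lit 35) (nat_lit 4) (nat_lit 165) (nat_lit 174) (nat_lit 171)) (PT.lf (nat_lit 2964) (nat_lit 6) (nat_lit 39) (nat_lit 4) (nat_lit 166) (nat_lit 174) (nat_lit 170)))) (PT.nd (nat_lit 156) (PT.nd (nat_lit 78) (PT.lf (nat_lit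 2888) (nat_lit 6) (nat_lit 38) (nat_lit 4) (nat_lit 167) (nat_lit 174) (nat_lit 169)) (PT.lf (nat_lit 2812) (nat_lit 3) (nat_lit 37) (nat_lit 2) (nat_lit 168) (nat_lit 174) (nat_lit 168))) (PT.nd (nat_lit 78) (PT.lf (nat_lit 2888) (nat_lit 6) (nat_lit 38) (nat_lit 2) (nat_lit 169) (nat_lit 174) (nat_lit 167)) (PT.lf (nat_lit 2964) (nat_lit 6) (nat_lit 39) (nat_lit 2) (nat_lit 170) (nat_lit 174) (nat_lit 166))))) (PT.nd (nat_lit 312) (PT.nd (nat_lit 156) (PT.nd (nat_lit 78) (PT.lf (nat_lit 2660) (nat_lit 6) (nat_lit 35) (nat_lit 2) (nat_lit 171) (nat_lit 174) (nat_lit 165)) (PT.lf (nat_lit 2508) (nat_lit 6) (nat_lit 33) (nat_lit 2) (nat_lit 172) (nat_lit 174) (nat_lit 164))) (PT.nd (nat_lit 78) (PT.lf (nat_lit 2432) (nat_lit 6) (nat_lit 32) (nat_lit 2) (nat_lit 173) (nat_lit 174) (nat_lit 163)) (PT.lf (nat_lit 2280) (nat_lit 3) (nat_lit 30) (nat_lit 0) (nat_lit 174) (nat_lit 174) (nat_lit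 162)))) (PT.nd (nat_lit 51792) (PT.nd (nat_lit 78) (PT.lf (nat_lit 2128) (nat_lit 6) (nat_lit 28) (nat_lit 0) (nat_lit 175) (nat_lit 174) (nat_lit 161)) (PT.lf (nat_lit 1976) (nat_lit 6) (nat_lit 26) (nat_lit 0) (nat_lit 176) (nat_lit 174) (nat_lit 160))) (PT.nd (nat_lit 78) (PT.lf (nat_lit 1748) (nat_lit 6) (nat_lit 23) (nat_lit 5) (nat_lit 158) (nat_lit 175) (nat_lit 177)) (PT.lf (nat_lit 1900) (nat_lit 6) (nat_lit 25) (nat_lit 5) (nat_lit 159) (nat_lit 175) (nat_lit 176))))))) (PT.nd (nat_lit 54210) (PT.nd (nat_lit 1170) (PT.nd (nat_lit 234) (PT.nd (nat_lit 78) (PT.lf (nat_lit 2052) (nat_lit 3) (nat_lit 27) (nat_lit 4) (nat_lit 160) (nat_lit 175) (nat_lit 175)) (PT.nd (nat_lit 78) (PT.lf (nat_lit 2128) (nat_lit 6) (nat_lit 28) (nat_lit 4) (nat_lit 161) (nat_lit 175) (nat_lit 174)) (PT.lf (nat_lit 2204) (nat_lit 6) (nat_lit 29) (nat_lit 4) (nat_lit 162) (nat_lit 175) (nat_lit 173))))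 (PT.nd (nat_lit 780) (PT.nd (nat_lit 702) (PT.lf (nat_lit 2356) (nat_lit 6) (nat_lit 31) (nat_lit 4) (nat_lit 163) (nat_lit 175) (nat_lit 172)) (PT.lf (nat_lit 2356) (nat_lit 6) (nat_lit 31) (nat_lit 2) (nat_lit 172) (nat_lit 175) (nat_lit 163))) (PT.nd (nat_lit 78) (PT.lf (nat_lit 2204) (nat_lit 6) (nat_lit 29) (nat_lit 2) (nat_lit 173) (nat_lit 175) (nat_lit 162)) (PT.lf (nat_lit 2128) (nat_lit 6) (nat_lit 28) (nat_lit 2) (nat_lit 174) (nat_lit 175) (nat_lit 161))))) (PT.nd (nat_lit 51714) (PT.nd (nat_lit 156) (PT.nd (nat_lit 78) (PT.lf (nat_lit 2052) (nat_lit 3) (nat_lit 27) (nat_lit 0) (nat_lit 175) (nat_lit 175) (nat_lit 160)) (PT.lf (nat_lit 1900) (nat_lit 6) (nat_lit 25) (nat_lit 0) (nat_lit 176) (nat_lit 175) (nat_lit 159))) (PT.nd (nat_lit 51480) (PT.lf (nat_lit 1748) (nat_lit 6) (nat_lit 23) (nat_lit 0) (nat_lit 177) (nat_lit 175) (nat_lit 158)) (PT.lf (nat_lit 1520) (nat_lit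 6) (nat_lit 20) (nat_lit 5) (nat_lit 156) (nat_lit 176) (nat_lit 178)))) (PT.nd (nat_lit 156) (PT.nd (nat_lit 78) (PT.lf (nat_lit 1672) (nat_lit 6) (nat_lit 22) (nat_lit 5) (nat_lit 157) (nat_lit 176) (nat_lit 177)) (PT.lf (nat_lit 1824) (nat_lit 3) (nat_lit 24) (nat_lit 4) (nat_lit 158) (nat_lit 176) (nat_lit 176))) (PT.nd (nat_lit 78) (PT.lf (nat_lit 1900) (nat_lit 6) (nat_lit 25) (nat_lit 4) (nat_lit 159) (nat_lit 176) (nat_lit 175)) (PT.lf (nat_lit 1976) (nat_lit 6) (nat_lit 26) (nat_lit 4) (nat_lit 160) (nat_lit 176) (nat_lit 174)))))) (PT.nd (nat_lit 51792) (PT.nd (nat_lit 312) (PT.nd (nat_lit 156) (PT.nd (nat_lit 78) (PT.lf (nat_lit 1976) (nat_lit 6) (nat_lit 26) (nat_lit 2) (nat_lit 174) (nat_lit 176) (nat_lit 160)) (PT.lf (nat_lit 1900) (nat_lit 6) (nat_lit 25) (nat_lit 2) (nat_lit 175) (nat_lit 176) (nat_lit 159))) (PT.nd (nat_lit 78) (PT.lf (nat_lit 1824) (nat_lit 3) (nat_lit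 24) (nat_lit 0) (nat_lit 176) (nat_lit 176) (nat_lit 158)) (PT.lf (nat_lit 1672) (nat_lit 6) (nat_lit 22) (nat_lit 0) (nat_lit 177) (nat_lit 176) (nat_lit 157)))) (PT.nd (nat_lit 51324) (PT.nd (nat_lit 51246) (PT.lf (nat_lit 1520) (nat_lit 6) (nat_lit 20) (nat_lit 0) (nat_lit 178) (nat_lit 176) (nat_lit 156)) (PT.lf (nat_lit 1292) (nat_lit 6) (nat_lit 17) (nat_lit 5) (nat_lit 154) (nat_lit 177) (nat_lit 179))) (PT.nd (nat_lit 78) (PT.lf (nat_lit 1444) (nat_lit 6) (nat_lit 19) (nat_lit 5) (nat_lit 155) (nat_lit 177) (nat_lit 178)) (PT.lf (nat_lit 1596) (nat_lit 3) (nat_lit 21) (nat_lit 4) (nat_lit 156) (nat_lit 177) (nat_lit 177))))) (PT.nd (nat_lit 1560) (PT.nd (nat_lit 1404) (PT.nd (nat_lit 78) (PT.lf (nat_lit 1672) (nat_lit 6) (nat_lit 22) (nat_lit 4) (nat_lit 157) (nat_lit 177) (nat_lit 176)) (PT.lf (nat_lit 1748) (nat_lit 6) (nat_lit 23) (nat_lit 4) (nat_lit 158) (nat_lit 177) (nat_lit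 175))) (PT.nd (nat_lit 78) (PT.lf (nat_lit 1748) (nat_lit 6) (nat_lit 23) (nat_lit 2) (nat_lit 175) (nat_lit 177) (nat_lit 158)) (PT.lf (nat_lit 1672) (nat_lit 6) (nat_lit 22) (nat_lit 2) (nat_lit 176) (nat_lit 177) (nat_lit 157)))) (PT.nd (nat_lit 156) (PT.nd (nat_lit 78) (PT.lf (nat_lit 1596) (nat_lit 3) (nat_lit 21) (nat_lit 0) (nat_lit 177) (nat_lit 177) (nat_lit 156)) (PT.lf (nat_lit 1444) (nat_lit 6) (nat_lit 19) (nat_lit 0) (nat_lit 178) (nat_lit 177) (nat_lit 155))) (PT.nd (nat_lit 51012) (PT.lf (nat_lit 1292) (nat_lit 6) (nat_lit 17) (nat_lit 0) (nat_lit 179) (nat_lit 177) (nat_lit 154)) (PT.lf (nat_lit 1064) (nat_lit 6) (nat_lit 14) (nat_lit 5) (nat_lit 152) (nat_lit 178) (nat_lit 180))))))))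
noncomputable def pc3 : PT := (PT.nd (nat_lit 158886) (PT.nd (nat_lit 55068) (PT.nd (nat_lit 2028) (PT.nd (nat_lit 234) (PT.nd (nat_lit 78) (PT.lf (nat_lit 1216) (nat_lit 6) (nat_lit 16) (nat_lit 5) (nat_lit 153) (nat_lit 178) (nat_lit 179)) (PT.nd (nat_lit 78) (PT.lf (nat_lit 1368) (nat_lit 3) (nat_lit 18) (nat_lit 4) (nat_lit 154) (nat_lit 178) (nat_lit 178)) (PT.lf (nat_lit 1444) (nat_lit 6) (nat_lit 19) (nat_lit 4) (nat_lit 155) (nat_lit 178) (nat_lit 177)))) (PT.nd (nat_lit 1638) (PT.nd (nat_lit 1560) (PT.lf (nat_lit 1520) (nat_lit 6) (nat_lit 20) (nat_lit 4) (nat_lit 156) (nat_lit 178) (nat_lit 176)) (PT.lf (nat_lit 1520) (nat_lit 6) (nat_lit 20) (nat_lit 2) (nat_lit 176) (nat_lit 178) (nat_lit 156))) (PT.nd (nat_lit 78) (PT.lf (nat_lit 1444) (nat_lit 6) (nat_lit 19) (nat_lit 2) (nat_lit 177) (nat_lit 178) (nat_lit 155)) (PT.lf (nat_lit 1368) (nat_lit 3) (nat_lit 18) (nat_lit 0) (nat_lit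 178) (nat_lit 178) (nat_lit 154))))) (PT.nd (nat_lit 51012) (PT.nd (nat_lit 50856) (PT.nd (nat_lit 78) (PT.lf (nat_lit 1216) (nat_lit 6) (nat_lit 16) (nat_lit 0) (nat_lit 179) (nat_lit 178) (nat_lit 153)) (PT.lf (nat_lit 1064) (nat_lit 6) (nat_lit 14) (nat_lit 0) (nat_lit 180) (nat_lit 178) (nat_lit 152))) (PT.nd (nat_lit 78) (PT.lf (nat_lit 836) (nat_lit 6) (nat_lit 11) (nat_lit 5) (nat_lit 150) (nat_lit 179) (nat_lit 181)) (PT.lf (nat_lit 988) (nat_lit 6) (nat_lit 13) (nat_lit 5) (nat_lit 151) (nat_lit 179) (nat_lit 180)))) (PT.nd (nat_lit 156) (PT.nd (nat_lit 78) (PT.lf (nat_lit 1140) (nat_lit 3) (nat_lit 15) (nat_lit 4) (nat_lit 152) (nat_lit 179) (nat_lit 179)) (PT.lf (nat_lit 1216) (nat_lit 6) (nat_lit 16) (nat_lit 4) (nat_lit 153) (nat_lit 179) (nat_lit 178))) (PT.nd (nat_lit 1794) (PT.lf (nat_lit 1292) (nat_lit 6) (nat_lit 17) (nat_lit 4) (nat_lit 154) (nat_lit 179) (nat_lit 177))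 (PT.lf (nat_lit 1292) (nat_lit 6) (nat_lit 17) (nat_lit 2) (nat_lit 177) (nat_lit 179) (nat_lit 154)))))) (PT.nd (nat_lit 51012) (PT.nd (nat_lit 234) (PT.nd (nat_lit 78) (PT.lf (nat_lit 1216) (nat_lit 6) (nat_lit 16) (nat_lit 2) (nat_lit 178) (nat_lit 179) (nat_lit 153)) (PT.nd (nat_lit 78) (PT.lf (nat_lit 1140) (nat_lit 3) (nat_lit 15) (nat_lit 0) (nat_lit 179) (nat_lit 179) (nat_lit 152)) (PT.lf (nat_lit 988) (nat_lit 6) (nat_lit 13) (nat_lit 0) (nat_lit 180) (nat_lit 179) (nat_lit 151)))) (PT.nd (nat_lit 50622) (PT.nd (nat_lit 50544) (PT.lf (nat_lit 836) (nat_lit 6) (nat_lit 11) (nat_lit 0) (nat_lit 181) (nat_lit 179) (nat_lit 150)) (PT.lf (nat_lit 608) (nat_lit 6) (nat_lit 8) (nat_lit 5) (nat_lit 148) (nat_lit 180) (nat_lit 182))) (PT.nd (nat_lit 78) (PT.lf (nat_lit 760) (nat_lit 6) (nat_lit 10) (nat_lit 5) (nat_lit 149) (nat_lit 180) (nat_lit 181)) (PT.lf (nat_lit 912) (nat_lit 3)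 (nat_lit 12) (nat_lit 4) (nat_lit 150) (nat_lit 180) (nat_lit 180))))) (PT.nd (nat_lit 2262) (PT.nd (nat_lit 2106) (PT.nd (nat_lit 78) (PT.lf (nat_lit 988) (nat_lit 6) (nat_lit 13) (nat_lit 4) (nat_lit 151) (nat_lit 180) (nat_lit 179)) (PT.lf (nat_lit 1064) (nat_lit 6) (nat_lit 14) (nat_lit 4) (nat_lit 152) (nat_lit 180) (nat_lit 178))) (PT.nd (nat_lit 78) (PT.lf (nat_lit 1064) (nat_lit 6) (nat_lit 14) (nat_lit 2) (nat_lit 178) (nat_lit 180) (nat_lit 152)) (PT.lf (nat_lit 988) (nat_lit 6) (nat_lit 13) (nat_lit 2) (nat_lit 179) (nat_lit 180) (nat_lit 151)))) (PT.nd (nat_lit 156) (PT.nd (nat_lit 78) (PT.lf (nat_lit 912) (nat_lit 3) (nat_lit 12) (nat_lit 0) (nat_lit 180) (nat_lit 180) (nat_lit 150)) (PT.lf (nat_lit 760) (nat_lit 6) (nat_lit 10) (nat_lit 0) (nat_lit 181) (nat_lit 180) (nat_lit 149))) (PT.nd (nat_lit 50310) (PT.lf (nat_lit 608) (nat_lit 6) (nat_lit 8) (nat_lit 0) (nat_lit 182)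 (nat_lit 180) (nat_lit 148)) (PT.lf (nat_lit 380) (nat_lit 6) (nat_lit 5) (nat_lit 5) (nat_lit 146) (nat_lit 181) (nat_lit 183))))))) (PT.nd (nat_lit 55770) (PT.nd (nat_lit 2730) (PT.nd (nat_lit 234) (PT.nd (nat_lit 78) (PT.lf (nat_lit 532) (nat_lit 6) (nat_lit 7) (nat_lit 5) (nat_lit 147) (nat_lit 181) (nat_lit 182)) (PT.nd (nat_lit 78) (PT.lf (nat_lit 684) (nat_lit 3) (nat_lit 9) (nat_lit 4) (nat_lit 148) (nat_lit 181) (nat_lit 181)) (PT.lf (nat_lit 760) (nat_lit 6) (nat_lit 10) (nat_lit 4) (nat_lit 149) (nat_lit 181) (nat_lit 180)))) (PT.nd (nat_lit 2340) (PT.nd (nat_lit 2262) (PT.lf (nat_lit 836) (nat_lit 6) (nat_lit 11) (nat_lit 4) (nat_lit 150) (nat_lit 181) (nat_lit 179)) (PT.lf (nat_lit 836) (nat_lit 6) (nat_lit 11) (nat_lit 2) (nat_lit 179) (nat_lit 181) (nat_lit 150))) (PT.nd (nat_lit 78) (PT.lf (nat_lit 760) (nat_lit 6) (nat_lit 10) (nat_lit 2) (nat_lit 180) (nat_lit 181) (nat_lit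 149)) (PT.lf (nat_lit 684) (nat_lit 3) (nat_lit 9) (nat_lit 0) (nat_lit 181) (nat_lit 181) (nat_lit 148))))) (PT.nd (nat_lit 50310) (PT.nd (nat_lit 50154) (PT.nd (nat_lit 78) (PT.lf (nat_lit 532) (nat_lit 6) (nat_lit 7) (nat_lit 0) (nat_lit 182) (nat_lit 181) (nat_lit 147)) (PT.lf (nat_lit 380) (nat_lit 6) (nat_lit 5) (nat_lit 0) (nat_lit 183) (nat_lit 181) (nat_lit 146))) (PT.nd (nat_lit 78) (PT.lf (nat_lit 152) (nat_lit 6) (nat_lit 2) (nat_lit 5) (nat_lit 144) (nat_lit 182) (nat_lit 184)) (PT.lf (nat_lit 304) (nat_lit 6) (nat_lit 4) (nat_lit 5) (nat_lit 145) (nat_lit 182) (nat_lit 183)))) (PT.nd (nat_lit 156) (PT.nd (nat_lit 78) (PT.lf (nat_lit 456) (nat_lit 3) (nat_lit 6) (nat_lit 4) (nat_lit 146) (nat_lit 182) (nat_lit 182)) (PT.lf (nat_lit 532) (nat_lit 6) (nat_lit 7) (nat_lit 4) (nat_lit 147) (nat_lit 182) (nat_lit 181))) (PT.nd (nat_lit 2496) (PT.lf (nat_lit 608) (nat_lit 6) (nat_lit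 8) (nat_lit 4) (nat_lit 148) (nat_lit 182) (nat_lit 180)) (PT.lf (nat_lit 608) (nat_lit 6) (nat_lit 8) (nat_lit 2) (nat_lit 180) (nat_lit 182) (nat_lit 148)))))) (PT.nd (nat_lit 53118) (PT.nd (nat_lit 50154) (PT.nd (nat_lit 156) (PT.nd (nat_lit 78) (PT.lf (nat_lit 532) (nat_lit 6) (nat_lit 7) (nat_lit 2) (nat_lit 181) (nat_lit 182) (nat_lit 147)) (PT.lf (nat_lit 456) (nat_lit 3) (nat_lit 6) (nat_lit 0) (nat_lit 182) (nat_lit 182) (nat_lit 146))) (PT.nd (nat_lit 78) (PT.lf (nat_lit 304) (nat_lit 6) (nat_lit 4) (nat_lit 0) (nat_lit 183) (nat_lit 182) (nat_lit 145)) (PT.lf (nat_lit 152) (nat_lit 6) (nat_lit 2) (nat_lit 0) (nat_lit 184) (nat_lit 182) (nat_lit 144)))) (PT.nd (nat_lit 156) (PT.nd (nat_lit 78) (PT.lf (nat_lit 76) (nat_lit 6) (nat_lit 1) (nat_lit 5) (nat_lit 143) (nat_lit 183) (nat_lit 184)) (PT.lf (nat_lit 228) (nat_lit 3) (nat_lit 3) (nat_lit 4) (nat_lit 144) (nat_lit 183) (nat_lit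 183))) (PT.nd (nat_lit 78) (PT.lf (nat_lit 304) (nat_lit 6) (nat_lit 4) (nat_lit 4) (nat_lit 145) (nat_lit 183) (nat_lit 182)) (PT.lf (nat_lit 380) (nat_lit 6) (nat_lit 5) (nat_lit 4) (nat_lit 146) (nat_lit 183) (nat_lit 181))))) (PT.nd (nat_lit 50154) (PT.nd (nat_lit 156) (PT.nd (nat_lit 78) (PT.lf (nat_lit 380) (nat_lit 6) (nat_lit 5) (nat_lit 2) (nat_lit 181) (nat_lit 183) (nat_lit 146)) (PT.lf (nat_lit 304) (nat_lit 6) (nat_lit 4) (nat_lit 2) (nat_lit 182) (nat_lit 183) (nat_lit 145))) (PT.nd (nat_lit 78) (PT.lf (nat_lit 228) (nat_lit 3) (nat_lit 3) (nat_lit 0) (nat_lit 183) (nat_lit 183) (nat_lit 144)) (PT.lf (nat_lit 76) (nat_lit 6) (nat_lit 1) (nat_lit 0) (nat_lit 184) (nat_lit 183) (nat_lit 143)))) (PT.nd (nat_lit 3042) (PT.nd (nat_lit 78) (PT.lf (nat_lit 76) (nat_lit 6) (nat_lit 1) (nat_lit 4) (nat_lit 143) (nat_lit 184) (nat_lit 183)) (PT.lf (nat_lit 152) (nat_lit 6) (nat_lit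 2) (nat_lit 4) (nat_lit 144) (nat_lit 184) (nat_lit 182))) (PT.nd (nat_lit 78) (PT.lf (nat_lit 152) (nat_lit 6) (nat_lit 2) (nat_lit 2) (nat_lit 182) (nat_lit 184) (nat_lit 144)) (PT.lf (nat_lit 76) (nat_lit 6) (nat_lit 1) (nat_lit 2) (nat_lit 183) (nat_lit 184) (nat_lit 143))))))))
noncomputable def xc0 : XT := (XT.nd (nat_lit 265044) (nat_lit 0) (nat_lit 0) (XT.nd (nat_lit 159120) (nat_lit 0) (nat_lit 0) (XT.nd (nat_lit 106002) (nat_lit 0) (nat_lit 0) (XT.nd (nat_lit 53040) (nat_lit 0) (nat_lit 0) (XT.nd (nat_lit 78) (nat_lit 0) (nat_lit 0) (XT.lf (nat_lit 0) (nat_lit 151739872476346) (nat_lit 152) (nat_lit 612220867842417) (nat_lit 0) (nat_lit 151739872476346) (nat_lit 1) (nat_lit 5) (nat_lit 3) (nat_lit 4) (nat_lit 1) (nat_lit 4) (nat_lit 448) (nat_lit 286) (nat_lit 286)) (XT.nd (nat_lit 52884) (nat_lit 0) (nat_lit 0) (XT.lf (nat_lit 0) (nat_lit 349001773939082) (nat_lit 152) (nat_lit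 1408107851661166) (nat_lit 0) (nat_lit 349001773700324) (nat_lit 1) (nat_lit 5) (nat_lit 3) (nat_lit 4) (nat_lit 1) (nat_lit 4) (nat_lit 449) (nat_lit 286) (nat_lit 285)) (XT.lf (nat_lit 0) (nat_lit 114737082229528) (nat_lit 152) (nat_lit 462927064313241) (nat_lit 0) (nat_lit 114737082229528) (nat_lit 1) (nat_lit 5) (nat_lit 3) (nat_lit 4) (nat_lit 1) (nat_lit 4) (nat_lit 446) (nat_lit 287) (nat_lit 287)))) (XT.nd (nat_lit 78) (nat_lit 0) (nat_lit 0) (XT.lf (nat_lit 0) (nat_lit 263895366457922) (nat_lit 152) (nat_lit 1064732081887603) (nat_lit 0) (nat_lit 263895366183350) (nat_lit 1) (nat_lit 5) (nat_lit 3) (nat_lit 4) (nat_lit 1) (nat_lit 4) (nat_lit 447) (nat_lit 287) (nat_lit 286)) (XT.nd (nat_lit 52806) (nat_lit 0) (nat_lit 0) (XT.lf (nat_lit 0) (nat_lit 303479742158261) (nat_lit 152) (nat_lit 1224441742247398) (nat_lit 0) (nat_lit 303479741644934) (nat_lit 1) (nat_lit 5) (nat_lit 3)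 (nat_lit 4) (nat_lit 1) (nat_lit 4) (nat_lit 448) (nat_lit 287) (nat_lit 285)) (XT.lf (nat_lit 0) (nat_lit 86757647499102) (nat_lit 152) (nat_lit 350039520024092) (nat_lit 0) (nat_lit 86757647499102) (nat_lit 1) (nat_lit 5) (nat_lit 3) (nat_lit 4) (nat_lit 1) (nat_lit 4) (nat_lit 444) (nat_lit 288) (nat_lit 288))))) (XT.nd (nat_lit 52884) (nat_lit 0) (nat_lit 0) (XT.nd (nat_lit 78) (nat_lit 0) (nat_lit 0) (XT.lf (nat_lit 0) (nat_lit 199542678177444) (nat_lit 152) (nat_lit 805090705117629) (nat_lit 0) (nat_lit 199542677861688) (nat_lit 1) (nat_lit 5) (nat_lit 3) (nat_lit 4) (nat_lit 1) (nat_lit 4) (nat_lit 445) (nat_lit 288) (nat_lit 287)) (XT.nd (nat_lit 78) (nat_lit 0) (nat_lit 0) (XT.lf (nat_lit 0) (nat_lit 229474161245459) (nat_lit 152) (nat_lit 925854136173430) (nat_lit 0) (nat_lit 229474160655134) (nat_lit 1) (nat_lit 5) (nat_lit 3) (nat_lit 4) (nat_lit 1) (nat_lit 4) (nat_lit 446)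 (nat_lit 288) (nat_lit 286)) (XT.lf (nat_lit 0) (nat_lit 263895360175320) (nat_lit 152) (nat_lit 1064732095997113) (nat_lit 0) (nat_lit 263895359346241) (nat_lit 1) (nat_lit 5) (nat_lit 3) (nat_lit 4) (nat_lit 1) (nat_lit 4) (nat_lit 447) (nat_lit 288) (nat_lit 285)))) (XT.nd (nat_lit 78) (nat_lit 0) (nat_lit 0) (XT.lf (nat_lit 0) (nat_lit 65601164518217) (nat_lit 152) (nat_lit 264680341081668) (nat_lit 0) (nat_lit 65601164518217) (nat_lit 1) (nat_lit 5) (nat_lit 3) (nat_lit 4) (nat_lit 1) (nat_lit 4) (nat_lit 442) (nat_lit 289) (nat_lit 289)) (XT.nd (nat_lit 78) (nat_lit 0) (nat_lit 0) (XT.lf (nat_lit 0) (nat_lit 150882780660833) (nat_lit 152) (nat_lit 608764564909388) (nat_lit 0) (nat_lit 150882780297716) (nat_lit 1) (nat_lit 5) (nat_lit 3) (nat_lit 4) (nat_lit 1) (nat_lit 4) (nat_lit 443) (nat_lit 289) (nat_lit 288)) (XT.lf (nat_lit 0) (nat_lit 173515291302568) (nat_lit 152) (nat_lit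 700079048727174) (nat_lit 0) (nat_lit 173515290623696) (nat_lit 1) (nat_lit 5) (nat_lit 3) (nat_lit 4) (nat_lit 1) (nat_lit 4) (nat_lit 444) (nat_lit 289) (nat_lit 287)))))) (XT.nd (nat_lit 52962) (nat_lit 0) (nat_lit 0) (XT.nd (nat_lit 52728) (nat_lit 0) (nat_lit 0) (XT.nd (nat_lit 78) (nat_lit 0) (nat_lit 0) (XT.lf (nat_lit 0) (nat_lit 199542670952452) (nat_lit 152) (nat_lit 805090721343568) (nat_lit 0) (nat_lit 199542669999011) (nat_lit 1) (nat_lit 5) (nat_lit 3) (nat_lit 4) (nat_lit 1) (nat_lit 4) (nat_lit 445) (nat_lit 289) (nat_lit 286)) (XT.nd (nat_lit 78) (nat_lit 0) (nat_lit 0) (XT.lf (nat_lit 0) (nat_lit 229474150951466) (nat_lit 152) (nat_lit 925854158961931) (nat_lit 0) (nat_lit 229474149759268) (nat_lit 1) (nat_lit 5) (nat_lit 3) (nat_lit 4) (nat_lit 1) (nat_lit 4) (nat_lit 446) (nat_lit 289) (nat_lit 285)) (XT.lf (nat_lit 0) (nat_lit 263895347212631) (nat_lit 152) (nat_lit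 1064732124492191) (nat_lit 0) (nat_lit 263895345812818) (nat_lit 1) (nat_lit 5) (nat_lit 3) (nat_lit 4) (nat_lit 1) (nat_lit 4) (nat_lit 447) (nat_lit 289) (nat_lit 284)))) (XT.nd (nat_lit 78) (nat_lit 0) (nat_lit 0) (XT.lf (nat_lit 0) (nat_lit 49603811705780) (nat_lit 152) (nat_lit 200136564685477) (nat_lit 0) (nat_lit 49603811705780) (nat_lit 1) (nat_lit 5) (nat_lit 3) (nat_lit 4) (nat_lit 1) (nat_lit 4) (nat_lit 440) (nat_lit 290) (nat_lit 290)) (XT.nd (nat_lit 78) (nat_lit 0) (nat_lit 0) (XT.lf (nat_lit 0) (nat_lit 114088884532567) (nat_lit 152) (nat_lit 460313846261382) (nat_lit 0) (nat_lit 114088884114982) (nat_lit 1) (nat_lit 5) (nat_lit 3) (nat_lit 4) (nat_lit 1) (nat_lit 4) (nat_lit 441) (nat_lit 290) (nat_lit 289)) (XT.lf (nat_lit 0) (nat_lit 131202324786452) (nat_lit 152) (nat_lit 529360692144175) (nat_lit 0) (nat_lit 131202324005748) (nat_lit 1) (nat_lit 5) (nat_lit 3) (nat_lit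 4) (nat_lit 1) (nat_lit 4) (nat_lit 442) (nat_lit 290) (nat_lit 288))))) (XT.nd (nat_lit 234) (nat_lit 0) (nat_lit 0) (XT.nd (nat_lit 78) (nat_lit 0) (nat_lit 0) (XT.lf (nat_lit 0) (nat_lit 150882772352095) (nat_lit 152) (nat_lit 608764583569216) (nat_lit 0) (nat_lit 150882771255636) (nat_lit 1) (nat_lit 5) (nat_lit 3) (nat_lit 4) (nat_lit 1) (nat_lit 4) (nat_lit 443) (nat_lit 290) (nat_lit 287)) (XT.nd (nat_lit 78) (nat_lit 0) (nat_lit 0) (XT.lf (nat_lit 0) (nat_lit 173515279464476) (nat_lit 152) (nat_lit 700079074933952) (nat_lit 0) (nat_lit 173515278093448) (nat_lit 1) (nat_lit 5) (nat_lit 3) (nat_lit 4) (nat_lit 1) (nat_lit 4) (nat_lit 444) (nat_lit 290) (nat_lit 286)) (XT.lf (nat_lit 0) (nat_lit 199542656045358) (nat_lit 152) (nat_lit 805090754112909) (nat_lit 0) (nat_lit 199542654435573) (nat_lit 1) (nat_lit 5) (nat_lit 3) (nat_lit 4) (nat_lit 1) (nat_lit 4) (nat_lit 445) (nat_lit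 290) (nat_lit 285)))) (XT.nd (nat_lit 52572) (nat_lit 0) (nat_lit 0) (XT.nd (nat_lit 52494) (nat_lit 0) (nat_lit 0) (XT.lf (nat_lit 0) (nat_lit 229474133375675) (nat_lit 152) (nat_lit 925854197437849) (nat_lit 0) (nat_lit 229474131558275) (nat_lit 1) (nat_lit 5) (nat_lit 3) (nat_lit 4) (nat_lit 1) (nat_lit 4) (nat_lit 446) (nat_lit 290) (nat_lit 284)) (XT.lf (nat_lit 0) (nat_lit 37507500671348) (nat_lit 152) (nat_lit 151332227037871) (nat_lit 0) (nat_lit 37507500671348) (nat_lit 1) (nat_lit 5) (nat_lit 3) (nat_lit 4) (nat_lit 1) (nat_lit 4) (nat_lit 438) (nat_lit 291) (nat_lit 291))) (XT.nd (nat_lit 78) (nat_lit 0) (nat_lit 0) (XT.lf (nat_lit 0) (nat_lit 86267386794765) (nat_lit 152) (nat_lit 348063831794605) (nat_lit 0) (nat_lit 86267386314541) (nat_lit 1) (nat_lit 5) (nat_lit 3) (nat_lit 4) (nat_lit 1) (nat_lit 4) (nat_lit 439) (nat_lit 291) (nat_lit 290)) (XT.lf (nat_lit 0) (nat_lit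 99207618524079) (nat_lit 152) (nat_lit 400273140848919) (nat_lit 0) (nat_lit 99207617626270) (nat_lit 1) (nat_lit 5) (nat_lit 3) (nat_lit 4) (nat_lit 1) (nat_lit 4) (nat_lit 440) (nat_lit 291) (nat_lit 289))))))) (XT.nd (nat_lit 105924) (nat_lit 0) (nat_lit 0) (XT.nd (nat_lit 52962) (nat_lit 0) (nat_lit 0) (XT.nd (nat_lit 52728) (nat_lit 0) (nat_lit 0) (XT.nd (nat_lit 78) (nat_lit 0) (nat_lit 0) (XT.lf (nat_lit 0) (nat_lit 114088874977517) (nat_lit 152) (nat_lit 460313867720185) (nat_lit 0) (nat_lit 114088873716590) (nat_lit 1) (nat_lit 5) (nat_lit 3) (nat_lit 4) (nat_lit 1) (nat_lit 4) (nat_lit 441) (nat_lit 291) (nat_lit 288)) (XT.nd (nat_lit 156) (nat_lit 0) (nat_lit 0) (XT.lf (nat_lit 0) (nat_lit 131202311172647) (nat_lit 152) (nat_lit 529360722281968) (nat_lit 0) (nat_lit 131202309595964) (nat_lit 1) (nat_lit 5) (nat_lit 3) (nat_lit 4) (nat_lit 1) (nat_lit 4) (nat_lit 442) (nat_lit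 291) (nat_lit 287)) (XT.lf (nat_lit 0) (nat_lit 173515259252315) (nat_lit 152) (nat_lit 700079119181256) (nat_lit 0) (nat_lit 173515257162308) (nat_lit 1) (nat_lit 5) (nat_lit 3) (nat_lit 4) (nat_lit 1) (nat_lit 4) (nat_lit 444) (nat_lit 291) (nat_lit 285)))) (XT.nd (nat_lit 78) (nat_lit 0) (nat_lit 0) (XT.lf (nat_lit 0) (nat_lit 28360935571446) (nat_lit 152) (nat_lit 114429170847482) (nat_lit 0) (nat_lit 28360935571446) (nat_lit 1) (nat_lit 5) (nat_lit 3) (nat_lit 4) (nat_lit 1) (nat_lit 4) (nat_lit 436) (nat_lit 292) (nat_lit 292)) (XT.nd (nat_lit 78) (nat_lit 0) (nat_lit 0) (XT.lf (nat_lit 0) (nat_lit 65230307352590) (nat_lit 152) (nat_lit 263186758997834) (nat_lit 0) (nat_lit 65230306800333) (nat_lit 1) (nat_lit 5) (nat_lit 3) (nat_lit 4) (nat_lit 1) (nat_lit 4) (nat_lit 437) (nat_lit 292) (nat_lit 291)) (XT.lf (nat_lit 0) (nat_lit 75014995722093) (nat_lit 152) (nat_lit 302664467275402)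 (nat_lit 0) (nat_lit 75014994689613) (nat_lit 1) (nat_lit 5) (nat_lit 3) (nat_lit 4) (nat_lit 1) (nat_lit 4) (nat_lit 438) (nat_lit 292) (nat_lit 290))))) (XT.nd (nat_lit 234) (nat_lit 0) (nat_lit 0) (XT.nd (nat_lit 78) (nat_lit 0) (nat_lit 0) (XT.lf (nat_lit 0) (nat_lit 86267375806458) (nat_lit 152) (nat_lit 348063856472228) (nat_lit 0) (nat_lit 86267374356391) (nat_lit 1) (nat_lit 5) (nat_lit 3) (nat_lit 4) (nat_lit 1) (nat_lit 4) (nat_lit 439) (nat_lit 292) (nat_lit 289)) (XT.nd (nat_lit 78) (nat_lit 0) (nat_lit 0) (XT.lf (nat_lit 0) (nat_lit 99207602868204) (nat_lit 152) (nat_lit 400273175507382) (nat_lit 0) (nat_lit 99207601055017) (nat_lit 1) (nat_lit 5) (nat_lit 3) (nat_lit 4) (nat_lit 1) (nat_lit 4) (nat_lit 440) (nat_lit 292) (nat_lit 288)) (XT.lf (nat_lit 0) (nat_lit 114088855262886) (nat_lit 152) (nat_lit 460313911057637) (nat_lit 0) (nat_lit 114088853133945) (nat_lit 1) (nat_lit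 5) (nat_lit 3) (nat_lit 4) (nat_lit 1) (nat_lit 4) (nat_lit 441) (nat_lit 292) (nat_lit 287)))) (XT.nd (nat_lit 52572) (nat_lit 0) (nat_lit 0) (XT.nd (nat_lit 52494) (nat_lit 0) (nat_lit 0) (XT.lf (nat_lit 0) (nat_lit 131202287928662) (nat_lit 152) (nat_lit 529360773166368) (nat_lit 0) (nat_lit 131202285525153) (nat_lit 1) (nat_lit 5) (nat_lit 3) (nat_lit 4) (nat_lit 1) (nat_lit 4) (nat_lit 442) (nat_lit 292) (nat_lit 286)) (XT.lf (nat_lit 0) (nat_lit 21444799763039) (nat_lit 152) (nat_lit 86525198462453) (nat_lit 0) (nat_lit 21444799763039) (nat_lit 1) (nat_lit 5) (nat_lit 3) (nat_lit 4) (nat_lit 1) (nat_lit 4) (nat_lit 434) (nat_lit 293) (nat_lit 293))) (XT.nd (nat_lit 78) (nat_lit 0) (nat_lit 0) (XT.lf (nat_lit 0) (nat_lit 49323218323993) (nat_lit 152) (nat_lit 199007572419561) (nat_lit 0) (nat_lit 49323217688897) (nat_lit 1) (nat_lit 5) (nat_lit 3) (nat_lit 4) (nat_lit 1) (nat_lit 4)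 (nat_lit 435) (nat_lit 293) (nat_lit 292)) (XT.lf (nat_lit 0) (nat_lit 56721864679199) (nat_lit 152) (nat_lit 228858356874572) (nat_lit 0) (nat_lit 56721863491846) (nat_lit 1) (nat_lit 5) (nat_lit 3) (nat_lit 4) (nat_lit 1) (nat_lit 4) (nat_lit 436) (nat_lit 293) (nat_lit 291)))))) (XT.nd (nat_lit 52728) (nat_lit 0) (nat_lit 0) (XT.nd (nat_lit 234) (nat_lit 0) (nat_lit 0) (XT.nd (nat_lit 78) (nat_lit 0) (nat_lit 0) (XT.lf (nat_lit 0) (nat_lit 65230294716036) (nat_lit 152) (nat_lit 263186787377101) (nat_lit 0) (nat_lit 65230293048460) (nat_lit 1) (nat_lit 5) (nat_lit 3) (nat_lit 4) (nat_lit 1) (nat_lit 4) (nat_lit 437) (nat_lit 293) (nat_lit 290)) (XT.nd (nat_lit 78) (nat_lit 0) (nat_lit 0) (XT.lf (nat_lit 0) (nat_lit 75014977717835) (nat_lit 152) (nat_lit 302664507132633) (nat_lit 0) (nat_lit 75014975632673) (nat_lit 1) (nat_lit 5) (nat_lit 3) (nat_lit 4) (nat_lit 1) (nat_lit 4) (nat_lit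 438) (nat_lit 293) (nat_lit 289)) (XT.lf (nat_lit 0) (nat_lit 86267353134631) (nat_lit 152) (nat_lit 348063906310298) (nat_lit 0) (nat_lit 86267350686350) (nat_lit 1) (nat_lit 5) (nat_lit 3) (nat_lit 4) (nat_lit 1) (nat_lit 4) (nat_lit 439) (nat_lit 293) (nat_lit 288)))) (XT.nd (nat_lit 78) (nat_lit 0) (nat_lit 0) (XT.lf (nat_lit 0) (nat_lit 99207576137621) (nat_lit 152) (nat_lit 400273234024442) (nat_lit 0) (nat_lit 99207573373584) (nat_lit 1) (nat_lit 5) (nat_lit 3) (nat_lit 4) (nat_lit 1) (nat_lit 4) (nat_lit 440) (nat_lit 293) (nat_lit 287)) (XT.nd (nat_lit 78) (nat_lit 0) (nat_lit 0) (XT.lf (nat_lit 0) (nat_lit 114088825002951) (nat_lit 152) (nat_lit 460313977121645) (nat_lit 0) (nat_lit 114088821964345) (nat_lit 1) (nat_lit 5) (nat_lit 3) (nat_lit 4) (nat_lit 1) (nat_lit 4) (nat_lit 441) (nat_lit 293) (nat_lit 286)) (XT.lf (nat_lit 0) (nat_lit 131202254599724) (nat_lit 152) (nat_lit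 529360845792940) (nat_lit 0) (nat_lit 131202251322363) (nat_lit 1) (nat_lit 5) (nat_lit 3) (nat_lit 4) (nat_lit 1) (nat_lit 4) (nat_lit 442) (nat_lit 293) (nat_lit 285))))) (XT.nd (nat_lit 234) (nat_lit 0) (nat_lit 0) (XT.nd (nat_lit 78) (nat_lit 0) (nat_lit 0) (XT.lf (nat_lit 0) (nat_lit 16215186159159) (nat_lit 152) (nat_lit 65425832286905) (nat_lit 0) (nat_lit 16215186159159) (nat_lit 1) (nat_lit 5) (nat_lit 3) (nat_lit 4) (nat_lit 1) (nat_lit 4) (nat_lit 432) (nat_lit 294) (nat_lit 294)) (XT.nd (nat_lit 78) (nat_lit 0) (nat_lit 0) (XT.lf (nat_lit 0) (nat_lit 37295133865420) (nat_lit 152) (nat_lit 150478972609189) (nat_lit 0) (nat_lit 37295133135059) (nat_lit 1) (nat_lit 5) (nat_lit 3) (nat_lit 4) (nat_lit 1) (nat_lit 4) (nat_lit 433) (nat_lit 294) (nat_lit 293)) (XT.lf (nat_lit 0) (nat_lit 42889592092831) (nat_lit 152) (nat_lit 173050414381455) (nat_lit 0) (nat_lit 42889590727375) (nat_lit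 1) (nat_lit 5) (nat_lit 3) (nat_lit 4) (nat_lit 1) (nat_lit 4) (nat_lit 434) (nat_lit 294) (nat_lit 292)))) (XT.nd (nat_lit 156) (nat_lit 0) (nat_lit 0) (XT.nd (nat_lit 78) (nat_lit 0) (nat_lit 0) (XT.lf (nat_lit 0) (nat_lit 49323203791957) (nat_lit 152) (nat_lit 199007605055718) (nat_lit 0) (nat_lit 49323201874244) (nat_lit 1) (nat_lit 5) (nat_lit 3) (nat_lit 4) (nat_lit 1) (nat_lit 4) (nat_lit 435) (nat_lit 294) (nat_lit 291)) (XT.lf (nat_lit 0) (nat_lit 56721843974302) (nat_lit 152) (nat_lit 228858402710389) (nat_lit 0) (nat_lit 56721841576366) (nat_lit 1) (nat_lit 5) (nat_lit 3) (nat_lit 4) (nat_lit 1) (nat_lit 4) (nat_lit 436) (nat_lit 294) (nat_lit 290))) (XT.nd (nat_lit 78) (nat_lit 0) (nat_lit 0) (XT.lf (nat_lit 0) (nat_lit 65230268643436) (nat_lit 152) (nat_lit 263186844690882) (nat_lit 0) (nat_lit 65230265827913) (nat_lit 1) (nat_lit 5) (nat_lit 3) (nat_lit 4) (nat_lit 1) (nat_lit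 4) (nat_lit 437) (nat_lit 294) (nat_lit 289)) (XT.lf (nat_lit 0) (nat_lit 75014946977666) (nat_lit 152) (nat_lit 302664574427253) (nat_lit 0) (nat_lit 75014943799025) (nat_lit 1) (nat_lit 5) (nat_lit 3) (nat_lit 4) (nat_lit 1) (nat_lit 4) (nat_lit 438) (nat_lit 294) (nat_lit 288))))))))
noncomputable def xc1 : XT := (XT.nd (nat_lit 106158) (nat_lit 0) (nat_lit 0) (XT.nd (nat_lit 53118) (nat_lit 0) (nat_lit 0) (XT.nd (nat_lit 52650) (nat_lit 0) (nat_lit 0) (XT.nd (nat_lit 52416) (nat_lit 0) (nat_lit 0) (XT.nd (nat_lit 78) (nat_lit 0) (nat_lit 0) (XT.lf (nat_lit 0) (nat_lit 86267318335705) (nat_lit 152) (nat_lit 348063982283908) (nat_lit 0) (nat_lit 86267314841309) (nat_lit 1) (nat_lit 5) (nat_lit 3) (nat_lit 4) (nat_lit 1) (nat_lit 4) (nat_lit 439) (nat_lit 294) (nat_lit 287)) (XT.nd (nat_lit 78) (nat_lit 0) (nat_lit 0) (XT.lf (nat_lit 0) (nat_lit 99207537809342) (nat_lit 152) (nat_lit 400273317544999)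 (nat_lit 0) (nat_lit 99207534040377) (nat_lit 1) (nat_lit 5) (nat_lit 3) (nat_lit 4) (nat_lit 1) (nat_lit 4) (nat_lit 440) (nat_lit 294) (nat_lit 286)) (XT.lf (nat_lit 0) (nat_lit 114088783605669) (nat_lit 152) (nat_lit 460314067204766) (nat_lit 0) (nat_lit 114088779597948) (nat_lit 1) (nat_lit 5) (nat_lit 3) (nat_lit 4) (nat_lit 1) (nat_lit 4) (nat_lit 441) (nat_lit 294) (nat_lit 285)))) (XT.nd (nat_lit 78) (nat_lit 0) (nat_lit 0) (XT.lf (nat_lit 0) (nat_lit 12260822443459) (nat_lit 152) (nat_lit 49471732880477) (nat_lit 0) (nat_lit 12260822443459) (nat_lit 1) (nat_lit 5) (nat_lit 3) (nat_lit 4) (nat_lit 1) (nat_lit 4) (nat_lit 430) (nat_lit 295) (nat_lit 295)) (XT.nd (nat_lit 78) (nat_lit 0) (nat_lit 0) (XT.lf (nat_lit 0) (nat_lit 28200128174214) (nat_lit 152) (nat_lit 113784477726800) (nat_lit 0) (nat_lit 28200127334300) (nat_lit 1) (nat_lit 5) (nat_lit 3) (nat_lit 4) (nat_lit 1) (nat_lit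 4) (nat_lit 431) (nat_lit 295) (nat_lit 294)) (XT.lf (nat_lit 0) (nat_lit 32430363770084) (nat_lit 152) (nat_lit 130851684648842) (nat_lit 0) (nat_lit 32430362199809) (nat_lit 1) (nat_lit 5) (nat_lit 3) (nat_lit 4) (nat_lit 1) (nat_lit 4) (nat_lit 432) (nat_lit 295) (nat_lit 293))))) (XT.nd (nat_lit 234) (nat_lit 0) (nat_lit 0) (XT.nd (nat_lit 78) (nat_lit 0) (nat_lit 0) (XT.lf (nat_lit 0) (nat_lit 37295117153578) (nat_lit 152) (nat_lit 150479010140769) (nat_lit 0) (nat_lit 37295114948208) (nat_lit 1) (nat_lit 5) (nat_lit 3) (nat_lit 4) (nat_lit 1) (nat_lit 4) (nat_lit 433) (nat_lit 295) (nat_lit 292)) (XT.nd (nat_lit 78) (nat_lit 0) (nat_lit 0) (XT.lf (nat_lit 0) (nat_lit 42889568282200) (nat_lit 152) (nat_lit 173050467092643) (nat_lit 0) (nat_lit 42889565524572) (nat_lit 1) (nat_lit 5) (nat_lit 3) (nat_lit 4) (nat_lit 1) (nat_lit 4) (nat_lit 434) (nat_lit 295) (nat_lit 291)) (XT.lf (nat_lit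 0) (nat_lit 49323173808466) (nat_lit 152) (nat_lit 199007670966566) (nat_lit 0) (nat_lit 49323170570615) (nat_lit 1) (nat_lit 5) (nat_lit 3) (nat_lit 4) (nat_lit 1) (nat_lit 4) (nat_lit 435) (nat_lit 295) (nat_lit 290)))) (XT.nd (nat_lit 78) (nat_lit 0) (nat_lit 0) (XT.lf (nat_lit 0) (nat_lit 56721808623107) (nat_lit 152) (nat_lit 228858480099200) (nat_lit 0) (nat_lit 56721804967670) (nat_lit 1) (nat_lit 5) (nat_lit 3) (nat_lit 4) (nat_lit 1) (nat_lit 4) (nat_lit 436) (nat_lit 295) (nat_lit 289)) (XT.nd (nat_lit 78) (nat_lit 0) (nat_lit 0) (XT.lf (nat_lit 0) (nat_lit 65230228624672) (nat_lit 152) (nat_lit 263186932060532) (nat_lit 0) (nat_lit 65230224606116) (nat_lit 1) (nat_lit 5) (nat_lit 3) (nat_lit 4) (nat_lit 1) (nat_lit 4) (nat_lit 437) (nat_lit 295) (nat_lit 288)) (XT.lf (nat_lit 0) (nat_lit 75014902900146) (nat_lit 152) (nat_lit 302664670475894) (nat_lit 0) (nat_lit 75014898565836)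 (nat_lit 1) (nat_lit 5) (nat_lit 3) (nat_lit 4) (nat_lit 1) (nat_lit 4) (nat_lit 438) (nat_lit 295) (nat_lit 287)))))) (XT.nd (nat_lit 52494) (nat_lit 0) (nat_lit 0) (XT.nd (nat_lit 52260) (nat_lit 0) (nat_lit 0) (XT.nd (nat_lit 78) (nat_lit 0) (nat_lit 0) (XT.lf (nat_lit 0) (nat_lit 86267270728833) (nat_lit 152) (nat_lit 348064085879496) (nat_lit 0) (nat_lit 86267266119953) (nat_lit 1) (nat_lit 5) (nat_lit 3) (nat_lit 4) (nat_lit 1) (nat_lit 4) (nat_lit 439) (nat_lit 295) (nat_lit 286)) (XT.nd (nat_lit 78) (nat_lit 0) (nat_lit 0) (XT.lf (nat_lit 0) (nat_lit 99207487133467) (nat_lit 152) (nat_lit 400273427703151) (nat_lit 0) (nat_lit 99207482285831) (nat_lit 1) (nat_lit 5) (nat_lit 3) (nat_lit 4) (nat_lit 1) (nat_lit 4) (nat_lit 440) (nat_lit 295) (nat_lit 285)) (XT.lf (nat_lit 0) (nat_lit 114088730261097) (nat_lit 152) (nat_lit 460314183069494) (nat_lit 0) (nat_lit 114088725205848) (nat_lit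 1) (nat_lit 5) (nat_lit 3) (nat_lit 4) (nat_lit 1) (nat_lit 4) (nat_lit 441) (nat_lit 295) (nat_lit 284)))) (XT.nd (nat_lit 78) (nat_lit 0) (nat_lit 0) (XT.lf (nat_lit 0) (nat_lit 9270727178921) (nat_lit 152) (nat_lit 37408202264749) (nat_lit 0) (nat_lit 9270727178921) (nat_lit 1) (nat_lit 5) (nat_lit 3) (nat_lit 4) (nat_lit 1) (nat_lit 4) (nat_lit 428) (nat_lit 296) (nat_lit 296)) (XT.nd (nat_lit 78) (nat_lit 0) (nat_lit 0) (XT.lf (nat_lit 0) (nat_lit 21322944548914) (nat_lit 152) (nat_lit 86038281125883) (nat_lit 0) (nat_lit 21322943583013) (nat_lit 1) (nat_lit 5) (nat_lit 3) (nat_lit 4) (nat_lit 1) (nat_lit 4) (nat_lit 429) (nat_lit 296) (nat_lit 295)) (XT.lf (nat_lit 0) (nat_lit 24521635056449) (nat_lit 152) (nat_lit 98943488847240) (nat_lit 0) (nat_lit 24521633250634) (nat_lit 1) (nat_lit 5) (nat_lit 3) (nat_lit 4) (nat_lit 1) (nat_lit 4) (nat_lit 430) (nat_lit 296) (nat_lit 294)))))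 (XT.nd (nat_lit 234) (nat_lit 0) (nat_lit 0) (XT.nd (nat_lit 78) (nat_lit 0) (nat_lit 0) (XT.lf (nat_lit 0) (nat_lit 28200108955596) (nat_lit 152) (nat_lit 113784520888118) (nat_lit 0) (nat_lit 28200106419420) (nat_lit 1) (nat_lit 5) (nat_lit 3) (nat_lit 4) (nat_lit 1) (nat_lit 4) (nat_lit 431) (nat_lit 296) (nat_lit 293)) (XT.nd (nat_lit 78) (nat_lit 0) (nat_lit 0) (XT.lf (nat_lit 0) (nat_lit 32430336387858) (nat_lit 152) (nat_lit 130851745266708) (nat_lit 0) (nat_lit 32430333216587) (nat_lit 1) (nat_lit 5) (nat_lit 3) (nat_lit 4) (nat_lit 1) (nat_lit 4) (nat_lit 432) (nat_lit 296) (nat_lit 292)) (XT.lf (nat_lit 0) (nat_lit 37295082672563) (nat_lit 152) (nat_lit 150479085938244) (nat_lit 0) (nat_lit 37295078949035) (nat_lit 1) (nat_lit 5) (nat_lit 3) (nat_lit 4) (nat_lit 1) (nat_lit 4) (nat_lit 433) (nat_lit 296) (nat_lit 291)))) (XT.nd (nat_lit 156) (nat_lit 0) (nat_lit 0) (XT.nd (nat_lit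 78) (nat_lit 0) (nat_lit 0) (XT.lf (nat_lit 0) (nat_lit 42889527628325) (nat_lit 152) (nat_lit 173050556089777) (nat_lit 0) (nat_lit 42889523424573) (nat_lit 1) (nat_lit 5) (nat_lit 3) (nat_lit 4) (nat_lit 1) (nat_lit 4) (nat_lit 434) (nat_lit 296) (nat_lit 290)) (XT.lf (nat_lit 0) (nat_lit 49323127786886) (nat_lit 152) (nat_lit 199007771441664) (nat_lit 0) (nat_lit 49323123165549) (nat_lit 1) (nat_lit 5) (nat_lit 3) (nat_lit 4) (nat_lit 1) (nat_lit 4) (nat_lit 435) (nat_lit 296) (nat_lit 289))) (XT.nd (nat_lit 78) (nat_lit 0) (nat_lit 0) (XT.lf (nat_lit 0) (nat_lit 56721757933959) (nat_lit 152) (nat_lit 228858590555137) (nat_lit 0) (nat_lit 56721752949503) (nat_lit 1) (nat_lit 5) (nat_lit 3) (nat_lit 4) (nat_lit 1) (nat_lit 4) (nat_lit 436) (nat_lit 296) (nat_lit 288)) (XT.lf (nat_lit 0) (nat_lit 65230173876767) (nat_lit 152) (nat_lit 263187051195459) (nat_lit 0) (nat_lit 65230168576557)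 (nat_lit 1) (nat_lit 5) (nat_lit 3) (nat_lit 4) (nat_lit 1) (nat_lit 4) (nat_lit 437) (nat_lit 296) (nat_lit 287))))))) (XT.nd (nat_lit 52962) (nat_lit 0) (nat_lit 0) (XT.nd (nat_lit 52416) (nat_lit 0) (nat_lit 0) (XT.nd (nat_lit 52182) (nat_lit 0) (nat_lit 0) (XT.nd (nat_lit 78) (nat_lit 0) (nat_lit 0) (XT.lf (nat_lit 0) (nat_lit 75014844622889) (nat_lit 152) (nat_lit 302664797157768) (nat_lit 0) (nat_lit 75014839048109) (nat_lit 1) (nat_lit 5) (nat_lit 3) (nat_lit 4) (nat_lit 1) (nat_lit 4) (nat_lit 438) (nat_lit 296) (nat_lit 286)) (XT.nd (nat_lit 78) (nat_lit 0) (nat_lit 0) (XT.lf (nat_lit 0) (nat_lit 86267209382573) (nat_lit 152) (nat_lit 348064219123934) (nat_lit 0) (nat_lit 86267203569037) (nat_lit 1) (nat_lit 5) (nat_lit 3) (nat_lit 4) (nat_lit 1) (nat_lit 4) (nat_lit 439) (nat_lit 296) (nat_lit 285)) (XT.lf (nat_lit 0) (nat_lit 99207423118511) (nat_lit 152) (nat_lit 400273566654166)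 (nat_lit 0) (nat_lit 99207417097359) (nat_lit 1) (nat_lit 5) (nat_lit 3) (nat_lit 4) (nat_lit 1) (nat_lit 4) (nat_lit 440) (nat_lit 296) (nat_lit 284)))) (XT.nd (nat_lit 78) (nat_lit 0) (nat_lit 0) (XT.lf (nat_lit 0) (nat_lit 7009753169893) (nat_lit 152) (nat_lit 28286509694973) (nat_lit 0) (nat_lit 7009753169893) (nat_lit 1) (nat_lit 5) (nat_lit 3) (nat_lit 4) (nat_lit 1) (nat_lit 4) (nat_lit 426) (nat_lit 297) (nat_lit 297)) (XT.nd (nat_lit 78) (nat_lit 0) (nat_lit 0) (XT.lf (nat_lit 0) (nat_lit 16122745133760) (nat_lit 152) (nat_lit 65058300602942) (nat_lit 0) (nat_lit 16122744022974) (nat_lit 1) (nat_lit 5) (nat_lit 3) (nat_lit 4) (nat_lit 1) (nat_lit 4) (nat_lit 427) (nat_lit 297) (nat_lit 296)) (XT.lf (nat_lit 0) (nat_lit 18541443052802) (nat_lit 152) (nat_lit 74816431078728) (nat_lit 0) (nat_lit 18541440976114) (nat_lit 1) (nat_lit 5) (nat_lit 3) (nat_lit 4) (nat_lit 1) (nat_lit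 4) (nat_lit 428) (nat_lit 297) (nat_lit 295))))) (XT.nd (nat_lit 234) (nat_lit 0) (nat_lit 0) (XT.nd (nat_lit 78) (nat_lit 0) (nat_lit 0) (XT.lf (nat_lit 0) (nat_lit 21322922447503) (nat_lit 152) (nat_lit 86038330761398) (nat_lit 0) (nat_lit 21322919530901) (nat_lit 1) (nat_lit 5) (nat_lit 3) (nat_lit 4) (nat_lit 1) (nat_lit 4) (nat_lit 429) (nat_lit 297) (nat_lit 294)) (XT.nd (nat_lit 78) (nat_lit 0) (nat_lit 0) (XT.lf (nat_lit 0) (nat_lit 24521603566890) (nat_lit 152) (nat_lit 98943558557787) (nat_lit 0) (nat_lit 24521599919928) (nat_lit 1) (nat_lit 5) (nat_lit 3) (nat_lit 4) (nat_lit 1) (nat_lit 4) (nat_lit 430) (nat_lit 297) (nat_lit 293)) (XT.lf (nat_lit 0) (nat_lit 28200069302429) (nat_lit 152) (nat_lit 113784608055214) (nat_lit 0) (nat_lit 28200065020371) (nat_lit 1) (nat_lit 5) (nat_lit 3) (nat_lit 4) (nat_lit 1) (nat_lit 4) (nat_lit 431) (nat_lit 297) (nat_lit 292)))) (XT.nd (nat_lit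 156) (nat_lit 0) (nat_lit 0) (XT.nd (nat_lit 78) (nat_lit 0) (nat_lit 0) (XT.lf (nat_lit 0) (nat_lit 32430289635902) (nat_lit 152) (nat_lit 130851847613412) (nat_lit 0) (nat_lit 32430284801587) (nat_lit 1) (nat_lit 5) (nat_lit 3) (nat_lit 4) (nat_lit 1) (nat_lit 4) (nat_lit 432) (nat_lit 297) (nat_lit 291)) (XT.lf (nat_lit 0) (nat_lit 37295029747747) (nat_lit 152) (nat_lit 150479201484607) (nat_lit 0) (nat_lit 37295024433209) (nat_lit 1) (nat_lit 5) (nat_lit 3) (nat_lit 4) (nat_lit 1) (nat_lit 4) (nat_lit 433) (nat_lit 297) (nat_lit 290))) (XT.nd (nat_lit 78) (nat_lit 0) (nat_lit 0) (XT.lf (nat_lit 0) (nat_lit 42889469335805) (nat_lit 152) (nat_lit 173050683114105) (nat_lit 0) (nat_lit 42889463603680) (nat_lit 1) (nat_lit 5) (nat_lit 3) (nat_lit 4) (nat_lit 1) (nat_lit 4) (nat_lit 434) (nat_lit 297) (nat_lit 289)) (XT.lf (nat_lit 0) (nat_lit 49323064826798) (nat_lit 152) (nat_lit 199007908446830)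 (nat_lit 0) (nat_lit 49323058731555) (nat_lit 1) (nat_lit 5) (nat_lit 3) (nat_lit 4) (nat_lit 1) (nat_lit 4) (nat_lit 435) (nat_lit 297) (nat_lit 288)))))) (XT.nd (nat_lit 52338) (nat_lit 0) (nat_lit 0) (XT.nd (nat_lit 234) (nat_lit 0) (nat_lit 0) (XT.nd (nat_lit 78) (nat_lit 0) (nat_lit 0) (XT.lf (nat_lit 0) (nat_lit 56721690915115) (nat_lit 152) (nat_lit 228858736239293) (nat_lit 0) (nat_lit 56721684504116) (nat_lit 1) (nat_lit 5) (nat_lit 3) (nat_lit 4) (nat_lit 1) (nat_lit 4) (nat_lit 436) (nat_lit 297) (nat_lit 287)) (XT.nd (nat_lit 78) (nat_lit 0) (nat_lit 0) (XT.lf (nat_lit 0) (nat_lit 65230103328570) (nat_lit 152) (nat_lit 263187204426563) (nat_lit 0) (nat_lit 65230096643002) (nat_lit 1) (nat_lit 5) (nat_lit 3) (nat_lit 4) (nat_lit 1) (nat_lit 4) (nat_lit 437) (nat_lit 297) (nat_lit 286)) (XT.lf (nat_lit 0) (nat_lit 75014771005689) (nat_lit 152) (nat_lit 302664956951436) (nat_lit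 0) (nat_lit 75014764081365) (nat_lit 1) (nat_lit 5) (nat_lit 3) (nat_lit 4) (nat_lit 1) (nat_lit 4) (nat_lit 438) (nat_lit 297) (nat_lit 285)))) (XT.nd (nat_lit 51948) (nat_lit 0) (nat_lit 0) (XT.lf (nat_lit 0) (nat_lit 86267133096676) (nat_lit 152) (nat_lit 348064384624178) (nat_lit 0) (nat_lit 86267125964738) (nat_lit 1) (nat_lit 5) (nat_lit 3) (nat_lit 4) (nat_lit 1) (nat_lit 4) (nat_lit 439) (nat_lit 297) (nat_lit 284)) (XT.nd (nat_lit 78) (nat_lit 0) (nat_lit 0) (XT.lf (nat_lit 0) (nat_lit 5300094719392) (nat_lit 152) (nat_lit 21389279790438) (nat_lit 0) (nat_lit 5300094719392) (nat_lit 1) (nat_lit 5) (nat_lit 3) (nat_lit 4) (nat_lit 1) (nat_lit 4) (nat_lit 424) (nat_lit 298) (nat_lit 298)) (XT.lf (nat_lit 0) (nat_lit 12190577624058) (nat_lit 152) (nat_lit 49194571068185) (nat_lit 0) (nat_lit 12190576346653) (nat_lit 1) (nat_lit 5) (nat_lit 3) (nat_lit 4) (nat_lit 1) (nat_lit 4) (nat_lit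 425) (nat_lit 298) (nat_lit 297))))) (XT.nd (nat_lit 234) (nat_lit 0) (nat_lit 0) (XT.nd (nat_lit 78) (nat_lit 0) (nat_lit 0) (XT.lf (nat_lit 0) (nat_lit 14019493338991) (nat_lit 152) (nat_lit 56573049921560) (nat_lit 0) (nat_lit 14019490950800) (nat_lit 1) (nat_lit 5) (nat_lit 3) (nat_lit 4) (nat_lit 1) (nat_lit 4) (nat_lit 426) (nat_lit 298) (nat_lit 296)) (XT.nd (nat_lit 78) (nat_lit 0) (nat_lit 0) (XT.lf (nat_lit 0) (nat_lit 16122719717138) (nat_lit 152) (nat_lit 65058357683784) (nat_lit 0) (nat_lit 16122716363045) (nat_lit 1) (nat_lit 5) (nat_lit 3) (nat_lit 4) (nat_lit 1) (nat_lit 4) (nat_lit 427) (nat_lit 298) (nat_lit 295)) (XT.lf (nat_lit 0) (nat_lit 18541406839809) (nat_lit 152) (nat_lit 74816511245857) (nat_lit 0) (nat_lit 18541402645802) (nat_lit 1) (nat_lit 5) (nat_lit 3) (nat_lit 4) (nat_lit 1) (nat_lit 4) (nat_lit 428) (nat_lit 298) (nat_lit 294)))) (XT.nd (nat_lit 156) (nat_lit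 0) (nat_lit 0) (XT.nd (nat_lit 78) (nat_lit 0) (nat_lit 0) (XT.lf (nat_lit 0) (nat_lit 21322876846362) (nat_lit 152) (nat_lit 86038431003559) (nat_lit 0) (nat_lit 21322871921995) (nat_lit 1) (nat_lit 5) (nat_lit 3) (nat_lit 4) (nat_lit 1) (nat_lit 4) (nat_lit 429) (nat_lit 298) (nat_lit 293)) (XT.lf (nat_lit 0) (nat_lit 24521549802141) (nat_lit 152) (nat_lit 98943676256496) (nat_lit 0) (nat_lit 24521544242678) (nat_lit 1) (nat_lit 5) (nat_lit 3) (nat_lit 4) (nat_lit 1) (nat_lit 4) (nat_lit 430) (nat_lit 298) (nat_lit 292))) (XT.nd (nat_lit 78) (nat_lit 0) (nat_lit 0) (XT.lf (nat_lit 0) (nat_lit 28200008438891) (nat_lit 152) (nat_lit 113784740933531) (nat_lit 0) (nat_lit 28200002327171) (nat_lit 1) (nat_lit 5) (nat_lit 3) (nat_lit 4) (nat_lit 1) (nat_lit 4) (nat_lit 431) (nat_lit 298) (nat_lit 291)) (XT.lf (nat_lit 0) (nat_lit 32430222599504) (nat_lit 152) (nat_lit 130851993691388) (nat_lit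 0) (nat_lit 32430216007561) (nat_lit 1) (nat_lit 5) (nat_lit 3) (nat_lit 4) (nat_lit 1) (nat_lit 4) (nat_lit 432) (nat_lit 298) (nat_lit 290))))))))
noncomputable def xc2 : XT := (XT.nd (nat_lit 55146) (nat_lit 0) (nat_lit 0) (XT.nd (nat_lit 52650) (nat_lit 0) (nat_lit 0) (XT.nd (nat_lit 468) (nat_lit 0) (nat_lit 0) (XT.nd (nat_lit 234) (nat_lit 0) (nat_lit 0) (XT.nd (nat_lit 78) (nat_lit 0) (nat_lit 0) (XT.lf (nat_lit 0) (nat_lit 37294957343645) (nat_lit 152) (nat_lit 150479359040548) (nat_lit 0) (nat_lit 37294950334115) (nat_lit 1) (nat_lit 5) (nat_lit 3) (nat_lit 4) (nat_lit 1) (nat_lit 4) (nat_lit 433) (nat_lit 298) (nat_lit 289)) (XT.nd (nat_lit 78) (nat_lit 0) (nat_lit 0) (XT.lf (nat_lit 0) (nat_lit 42889392264133) (nat_lit 152) (nat_lit 173050850650884) (nat_lit 0) (nat_lit 42889384891486) (nat_lit 1) (nat_lit 5) (nat_lit 3) (nat_lit 4) (nat_lit 1) (nat_lit 4) (nat_lit 434) (nat_lit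 298) (nat_lit 288)) (XT.lf (nat_lit 0) (nat_lit 49322983696370) (nat_lit 152) (nat_lit 199008084662600) (nat_lit 0) (nat_lit 49322976007968) (nat_lit 1) (nat_lit 5) (nat_lit 3) (nat_lit 4) (nat_lit 1) (nat_lit 4) (nat_lit 435) (nat_lit 298) (nat_lit 287)))) (XT.nd (nat_lit 78) (nat_lit 0) (nat_lit 0) (XT.lf (nat_lit 0) (nat_lit 56721606255334) (nat_lit 152) (nat_lit 228858920002011) (nat_lit 0) (nat_lit 56721598292362) (nat_lit 1) (nat_lit 5) (nat_lit 3) (nat_lit 4) (nat_lit 1) (nat_lit 4) (nat_lit 436) (nat_lit 298) (nat_lit 286)) (XT.nd (nat_lit 78) (nat_lit 0) (nat_lit 0) (XT.lf (nat_lit 0) (nat_lit 65230015599787) (nat_lit 152) (nat_lit 263187394751844) (nat_lit 0) (nat_lit 65230007398060) (nat_lit 1) (nat_lit 5) (nat_lit 3) (nat_lit 4) (nat_lit 1) (nat_lit 4) (nat_lit 437) (nat_lit 298) (nat_lit 285)) (XT.lf (nat_lit 0) (nat_lit 75014680608209) (nat_lit 152) (nat_lit 302665152983294)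 (nat_lit 0) (nat_lit 75014672198867) (nat_lit 1) (nat_lit 5) (nat_lit 3) (nat_lit 4) (nat_lit 1) (nat_lit 4) (nat_lit 438) (nat_lit 298) (nat_lit 284))))) (XT.nd (nat_lit 51948) (nat_lit 0) (nat_lit 0) (XT.nd (nat_lit 51792) (nat_lit 0) (nat_lit 0) (XT.lf (nat_lit 0) (nat_lit 86267040378588) (nat_lit 152) (nat_lit 348064585618277) (nat_lit 0) (nat_lit 86267031788713) (nat_lit 1) (nat_lit 5) (nat_lit 3) (nat_lit 4) (nat_lit 1) (nat_lit 4) (nat_lit 439) (nat_lit 298) (nat_lit 283)) (XT.nd (nat_lit 78) (nat_lit 0) (nat_lit 0) (XT.lf (nat_lit 0) (nat_lit 4007304446405) (nat_lit 152) (nat_lit 16174075268431) (nat_lit 0) (nat_lit 4007304446405) (nat_lit 1) (nat_lit 5) (nat_lit 3) (nat_lit 4) (nat_lit 1) (nat_lit 4) (nat_lit 422) (nat_lit 299) (nat_lit 299)) (XT.lf (nat_lit 0) (nat_lit 9217213961605) (nat_lit 152) (nat_lit 37199484800097) (nat_lit 0) (nat_lit 9217212492590) (nat_lit 1) (nat_lit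 5) (nat_lit 3) (nat_lit 4) (nat_lit 1) (nat_lit 4) (nat_lit 423) (nat_lit 299) (nat_lit 298)))) (XT.nd (nat_lit 78) (nat_lit 0) (nat_lit 0) (XT.lf (nat_lit 0) (nat_lit 10600174487869) (nat_lit 152) (nat_lit 42778594692231) (nat_lit 0) (nat_lit 10600171741449) (nat_lit 1) (nat_lit 5) (nat_lit 3) (nat_lit 4) (nat_lit 1) (nat_lit 4) (nat_lit 424) (nat_lit 299) (nat_lit 297)) (XT.nd (nat_lit 78) (nat_lit 0) (nat_lit 0) (XT.lf (nat_lit 0) (nat_lit 12190548394942) (nat_lit 152) (nat_lit 49194636711154) (nat_lit 0) (nat_lit 12190544537736) (nat_lit 1) (nat_lit 5) (nat_lit 3) (nat_lit 4) (nat_lit 1) (nat_lit 4) (nat_lit 425) (nat_lit 299) (nat_lit 296)) (XT.lf (nat_lit 0) (nat_lit 14019451694049) (nat_lit 152) (nat_lit 56573142113758) (nat_lit 0) (nat_lit 14019446870942) (nat_lit 1) (nat_lit 5) (nat_lit 3) (nat_lit 4) (nat_lit 1) (nat_lit 4) (nat_lit 426) (nat_lit 299) (nat_lit 295)))))) (XT.nd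 (nat_lit 468) (nat_lit 0) (nat_lit 0) (XT.nd (nat_lit 234) (nat_lit 0) (nat_lit 0) (XT.nd (nat_lit 78) (nat_lit 0) (nat_lit 0) (XT.lf (nat_lit 0) (nat_lit 16122667275825) (nat_lit 152) (nat_lit 65058472962269) (nat_lit 0) (nat_lit 16122661612803) (nat_lit 1) (nat_lit 5) (nat_lit 3) (nat_lit 4) (nat_lit 1) (nat_lit 4) (nat_lit 427) (nat_lit 299) (nat_lit 294)) (XT.nd (nat_lit 78) (nat_lit 0) (nat_lit 0) (XT.lf (nat_lit 0) (nat_lit 18541345010347) (nat_lit 152) (nat_lit 74816646599373) (nat_lit 0) (nat_lit 18541338616965) (nat_lit 1) (nat_lit 5) (nat_lit 3) (nat_lit 4) (nat_lit 1) (nat_lit 4) (nat_lit 428) (nat_lit 299) (nat_lit 293)) (XT.lf (nat_lit 0) (nat_lit 21322806853293) (nat_lit 152) (nat_lit 86038583813624) (nat_lit 0) (nat_lit 21322799824815) (nat_lit 1) (nat_lit 5) (nat_lit 3) (nat_lit 4) (nat_lit 1) (nat_lit 4) (nat_lit 429) (nat_lit 299) (nat_lit 292)))) (XT.nd (nat_lit 78) (nat_lit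 0) (nat_lit 0) (XT.lf (nat_lit 0) (nat_lit 24521472710283) (nat_lit 152) (nat_lit 98943844246169) (nat_lit 0) (nat_lit 24521465129548) (nat_lit 1) (nat_lit 5) (nat_lit 3) (nat_lit 4) (nat_lit 1) (nat_lit 4) (nat_lit 430) (nat_lit 299) (nat_lit 291)) (XT.nd (nat_lit 78) (nat_lit 0) (nat_lit 0) (XT.lf (nat_lit 0) (nat_lit 28199925174173) (nat_lit 152) (nat_lit 113784922122863) (nat_lit 0) (nat_lit 28199917113214) (nat_lit 1) (nat_lit 5) (nat_lit 3) (nat_lit 4) (nat_lit 1) (nat_lit 4) (nat_lit 431) (nat_lit 299) (nat_lit 290)) (XT.lf (nat_lit 0) (nat_lit 32430133967082) (nat_lit 152) (nat_lit 130852186358685) (nat_lit 0) (nat_lit 32430125488537) (nat_lit 1) (nat_lit 5) (nat_lit 3) (nat_lit 4) (nat_lit 1) (nat_lit 4) (nat_lit 432) (nat_lit 299) (nat_lit 289))))) (XT.nd (nat_lit 234) (nat_lit 0) (nat_lit 0) (XT.nd (nat_lit 78) (nat_lit 0) (nat_lit 0) (XT.lf (nat_lit 0) (nat_lit 37294864043653)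 (nat_lit 152) (nat_lit 150479561688683) (nat_lit 0) (nat_lit 37294855201991) (nat_lit 1) (nat_lit 5) (nat_lit 3) (nat_lit 4) (nat_lit 1) (nat_lit 4) (nat_lit 433) (nat_lit 299) (nat_lit 288)) (XT.nd (nat_lit 78) (nat_lit 0) (nat_lit 0) (XT.lf (nat_lit 0) (nat_lit 42889294905386) (nat_lit 152) (nat_lit 173051061978009) (nat_lit 0) (nat_lit 42889285747968) (nat_lit 1) (nat_lit 5) (nat_lit 3) (nat_lit 4) (nat_lit 1) (nat_lit 4) (nat_lit 434) (nat_lit 299) (nat_lit 287)) (XT.lf (nat_lit 0) (nat_lit 49322882808270) (nat_lit 152) (nat_lit 199008303536673) (nat_lit 0) (nat_lit 49322873376283) (nat_lit 1) (nat_lit 5) (nat_lit 3) (nat_lit 4) (nat_lit 1) (nat_lit 4) (nat_lit 435) (nat_lit 299) (nat_lit 286)))) (XT.nd (nat_lit 156) (nat_lit 0) (nat_lit 0) (XT.nd (nat_lit 78) (nat_lit 0) (nat_lit 0) (XT.lf (nat_lit 0) (nat_lit 56721502298231) (nat_lit 152) (nat_lit 228859145438647) (nat_lit 0) (nat_lit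 56721492627488) (nat_lit 1) (nat_lit 5) (nat_lit 3) (nat_lit 4) (nat_lit 1) (nat_lit 4) (nat_lit 436) (nat_lit 299) (nat_lit 285)) (XT.lf (nat_lit 0) (nat_lit 65229908973987) (nat_lit 152) (nat_lit 263187625895057) (nat_lit 0) (nat_lit 65229899095630) (nat_lit 1) (nat_lit 5) (nat_lit 3) (nat_lit 4) (nat_lit 1) (nat_lit 4) (nat_lit 437) (nat_lit 299) (nat_lit 284))) (XT.nd (nat_lit 1560) (nat_lit 0) (nat_lit 0) (XT.lf (nat_lit 0) (nat_lit 75014571661801) (nat_lit 152) (nat_lit 302665389088748) (nat_lit 0) (nat_lit 75014561602911) (nat_lit 1) (nat_lit 5) (nat_lit 3) (nat_lit 4) (nat_lit 1) (nat_lit 4) (nat_lit 438) (nat_lit 299) (nat_lit 283)) (XT.lf (nat_lit 0) (nat_lit 1227745131425823) (nat_lit 152) (nat_lit 4953549099044961) (nat_lit 0) (nat_lit 1227745120236904) (nat_lit 1) (nat_lit 5) (nat_lit 3) (nat_lit 4) (nat_lit 1) (nat_lit 4) (nat_lit 458) (nat_lit 299) (nat_lit 263))))))) (XT.nd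 (nat_lit 50934) (nat_lit 0) (nat_lit 0) (XT.nd (nat_lit 50388) (nat_lit 0) (nat_lit 0) (XT.nd (nat_lit 50154) (nat_lit 0) (nat_lit 0) (XT.nd (nat_lit 78) (nat_lit 0) (nat_lit 0) (XT.lf (nat_lit 0) (nat_lit 1411907045986616) (nat_lit 152) (nat_lit 5696581150557648) (nat_lit 0) (nat_lit 1411907034788106) (nat_lit 1) (nat_lit 5) (nat_lit 3) (nat_lit 4) (nat_lit 1) (nat_lit 4) (nat_lit 459) (nat_lit 299) (nat_lit 262)) (XT.nd (nat_lit 49998) (nat_lit 0) (nat_lit 0) (XT.lf (nat_lit 0) (nat_lit 1623693247501014) (nat_lit 152) (nat_lit 6551068010290123) (nat_lit 0) (nat_lit 1623693236294162) (nat_lit 1) (nat_lit 5) (nat_lit 3) (nat_lit 4) (nat_lit 1) (nat_lit 4) (nat_lit 460) (nat_lit 299) (nat_lit 261)) (XT.lf (nat_lit 0) (nat_lit 3029719976582) (nat_lit 152) (nat_lit 12230737416486) (nat_lit 0) (nat_lit 3029719976582) (nat_lit 1) (nat_lit 5) (nat_lit 3) (nat_lit 4) (nat_lit 1) (nat_lit 4) (nat_lit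 420) (nat_lit 300) (nat_lit 300)))) (XT.nd (nat_lit 78) (nat_lit 0) (nat_lit 0) (XT.lf (nat_lit 0) (nat_lit 6968831741243) (nat_lit 152) (nat_lit 28129674493030) (nat_lit 0) (nat_lit 6968830051876) (nat_lit 1) (nat_lit 5) (nat_lit 3) (nat_lit 4) (nat_lit 1) (nat_lit 4) (nat_lit 421) (nat_lit 300) (nat_lit 299)) (XT.nd (nat_lit 78) (nat_lit 0) (nat_lit 0) (XT.lf (nat_lit 0) (nat_lit 8014591699257) (nat_lit 152) (nat_lit 32348190914922) (nat_lit 0) (nat_lit 8014588540874) (nat_lit 1) (nat_lit 5) (nat_lit 3) (nat_lit 4) (nat_lit 1) (nat_lit 4) (nat_lit 422) (nat_lit 300) (nat_lit 298)) (XT.lf (nat_lit 0) (nat_lit 9217180348122) (nat_lit 152) (nat_lit 37199560289512) (nat_lit 0) (nat_lit 9217175912335) (nat_lit 1) (nat_lit 5) (nat_lit 3) (nat_lit 4) (nat_lit 1) (nat_lit 4) (nat_lit 423) (nat_lit 300) (nat_lit 297))))) (XT.nd (nat_lit 234) (nat_lit 0) (nat_lit 0) (XT.nd (nat_lit 78) (nat_lit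 0) (nat_lit 0) (XT.lf (nat_lit 0) (nat_lit 10600126596186) (nat_lit 152) (nat_lit 42778700713259) (nat_lit 0) (nat_lit 10600121049612) (nat_lit 1) (nat_lit 5) (nat_lit 3) (nat_lit 4) (nat_lit 1) (nat_lit 4) (nat_lit 424) (nat_lit 300) (nat_lit 296)) (XT.nd (nat_lit 78) (nat_lit 0) (nat_lit 0) (XT.lf (nat_lit 0) (nat_lit 12190488087432) (nat_lit 152) (nat_lit 49194769281411) (nat_lit 0) (nat_lit 12190481574957) (nat_lit 1) (nat_lit 5) (nat_lit 3) (nat_lit 4) (nat_lit 1) (nat_lit 4) (nat_lit 425) (nat_lit 300) (nat_lit 295)) (XT.lf (nat_lit 0) (nat_lit 14019380590168) (nat_lit 152) (nat_lit 56573297770302) (nat_lit 0) (nat_lit 14019373237779) (nat_lit 1) (nat_lit 5) (nat_lit 3) (nat_lit 4) (nat_lit 1) (nat_lit 4) (nat_lit 426) (nat_lit 300) (nat_lit 294)))) (XT.nd (nat_lit 156) (nat_lit 0) (nat_lit 0) (XT.nd (nat_lit 78) (nat_lit 0) (nat_lit 0) (XT.lf (nat_lit 0) (nat_lit 16122586783795)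 (nat_lit 152) (nat_lit 65058648693844) (nat_lit 0) (nat_lit 16122578701046) (nat_lit 1) (nat_lit 5) (nat_lit 3) (nat_lit 4) (nat_lit 1) (nat_lit 4) (nat_lit 427) (nat_lit 300) (nat_lit 293)) (XT.lf (nat_lit 0) (nat_lit 18541256354711) (nat_lit 152) (nat_lit 74816839787497) (nat_lit 0) (nat_lit 18541247636865) (nat_lit 1) (nat_lit 5) (nat_lit 3) (nat_lit 4) (nat_lit 1) (nat_lit 4) (nat_lit 428) (nat_lit 300) (nat_lit 292))) (XT.nd (nat_lit 78) (nat_lit 0) (nat_lit 0) (XT.lf (nat_lit 0) (nat_lit 21322711098867) (nat_lit 152) (nat_lit 86038792181356) (nat_lit 0) (nat_lit 21322701828764) (nat_lit 1) (nat_lit 5) (nat_lit 3) (nat_lit 4) (nat_lit 1) (nat_lit 4) (nat_lit 429) (nat_lit 300) (nat_lit 291)) (XT.lf (nat_lit 0) (nat_lit 24521370782997) (nat_lit 152) (nat_lit 98944065813560) (nat_lit 0) (nat_lit 24521361032671) (nat_lit 1) (nat_lit 5) (nat_lit 3) (nat_lit 4) (nat_lit 1) (nat_lit 4) (nat_lit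 430) (nat_lit 300) (nat_lit 290)))))) (XT.nd (nat_lit 2028) (nat_lit 0) (nat_lit 0) (XT.nd (nat_lit 234) (nat_lit 0) (nat_lit 0) (XT.nd (nat_lit 78) (nat_lit 0) (nat_lit 0) (XT.lf (nat_lit 0) (nat_lit 28199817879183) (nat_lit 152) (nat_lit 113785155168218) (nat_lit 0) (nat_lit 28199807711270) (nat_lit 1) (nat_lit 5) (nat_lit 3) (nat_lit 4) (nat_lit 1) (nat_lit 4) (nat_lit 431) (nat_lit 300) (nat_lit 289)) (XT.nd (nat_lit 78) (nat_lit 0) (nat_lit 0) (XT.lf (nat_lit 0) (nat_lit 32430022004522) (nat_lit 152) (nat_lit 130852429384879) (nat_lit 0) (nat_lit 32430011473492) (nat_lit 1) (nat_lit 5) (nat_lit 3) (nat_lit 4) (nat_lit 1) (nat_lit 4) (nat_lit 432) (nat_lit 300) (nat_lit 288)) (XT.lf (nat_lit 0) (nat_lit 37294748022338) (nat_lit 152) (nat_lit 150479813393867) (nat_lit 0) (nat_lit 37294737175553) (nat_lit 1) (nat_lit 5) (nat_lit 3) (nat_lit 4) (nat_lit 1) (nat_lit 4) (nat_lit 433) (nat_lit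 300) (nat_lit 287)))) (XT.nd (nat_lit 78) (nat_lit 0) (nat_lit 0) (XT.lf (nat_lit 0) (nat_lit 42889175354718) (nat_lit 152) (nat_lit 173051321230141) (nat_lit 0) (nat_lit 42889164233364) (nat_lit 1) (nat_lit 5) (nat_lit 3) (nat_lit 4) (nat_lit 1) (nat_lit 4) (nat_lit 434) (nat_lit 300) (nat_lit 286)) (XT.nd (nat_lit 78) (nat_lit 0) (nat_lit 0) (XT.lf (nat_lit 0) (nat_lit 49322760188600) (nat_lit 152) (nat_lit 199008569351368) (nat_lit 0) (nat_lit 49322748828489) (nat_lit 1) (nat_lit 5) (nat_lit 3) (nat_lit 4) (nat_lit 1) (nat_lit 4) (nat_lit 435) (nat_lit 300) (nat_lit 285)) (XT.lf (nat_lit 0) (nat_lit 56721377009864) (nat_lit 152) (nat_lit 228859416959919) (nat_lit 0) (nat_lit 56721365442139) (nat_lit 1) (nat_lit 5) (nat_lit 3) (nat_lit 4) (nat_lit 1) (nat_lit 4) (nat_lit 436) (nat_lit 300) (nat_lit 284))))) (XT.nd (nat_lit 234) (nat_lit 0) (nat_lit 0) (XT.nd (nat_lit 78) (nat_lit 0) (nat_lit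 0) (XT.lf (nat_lit 0) (nat_lit 1067604193790638) (nat_lit 152) (nat_lit 4307434579679352) (nat_lit 0) (nat_lit 1067604180912352) (nat_lit 1) (nat_lit 5) (nat_lit 3) (nat_lit 4) (nat_lit 1) (nat_lit 4) (nat_lit 457) (nat_lit 300) (nat_lit 263)) (XT.nd (nat_lit 78) (nat_lit 0) (nat_lit 0) (XT.lf (nat_lit 0) (nat_lit 1227744989168105) (nat_lit 152) (nat_lit 4953549406852429) (nat_lit 0) (nat_lit 1227744976280231) (nat_lit 1) (nat_lit 5) (nat_lit 3) (nat_lit 4) (nat_lit 1) (nat_lit 4) (nat_lit 458) (nat_lit 300) (nat_lit 262)) (XT.lf (nat_lit 0) (nat_lit 1411906903621675) (nat_lit 152) (nat_lit 5696581458594380) (nat_lit 0) (nat_lit 1411906890725477) (nat_lit 1) (nat_lit 5) (nat_lit 3) (nat_lit 4) (nat_lit 1) (nat_lit 4) (nat_lit 459) (nat_lit 300) (nat_lit 261)))) (XT.nd (nat_lit 49920) (nat_lit 0) (nat_lit 0) (XT.nd (nat_lit 49842) (nat_lit 0) (nat_lit 0) (XT.lf (nat_lit 0) (nat_lit 1623693105042848)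 (nat_lit 152) (nat_lit 6551068318526209) (nat_lit 0) (nat_lit 1623693092139388) (nat_lit 1) (nat_lit 5) (nat_lit 3) (nat_lit 4) (nat_lit 1) (nat_lit 4) (nat_lit 460) (nat_lit 300) (nat_lit 260)) (XT.lf (nat_lit 0) (nat_lit 2290468984953) (nat_lit 152) (nat_lit 9249129395909) (nat_lit 0) (nat_lit 2290468984953) (nat_lit 1) (nat_lit 5) (nat_lit 3) (nat_lit 4) (nat_lit 1) (nat_lit 4) (nat_lit 418) (nat_lit 301) (nat_lit 301))) (XT.nd (nat_lit 78) (nat_lit 0) (nat_lit 0) (XT.lf (nat_lit 0) (nat_lit 5268625829763) (nat_lit 152) (nat_lit 21271822810968) (nat_lit 0) (nat_lit 5268623886990) (nat_lit 1) (nat_lit 5) (nat_lit 3) (nat_lit 4) (nat_lit 1) (nat_lit 4) (nat_lit 419) (nat_lit 301) (nat_lit 300)) (XT.lf (nat_lit 0) (nat_lit 6059420180578) (nat_lit 152) (nat_lit 24461521267741) (nat_lit 0) (nat_lit 6059416548438) (nat_lit 1) (nat_lit 5) (nat_lit 3) (nat_lit 4) (nat_lit 1) (nat_lit 4) (nat_lit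 420) (nat_lit 301) (nat_lit 299))))))))
noncomputable def xc3 : XT := (XT.nd (nat_lit 53274) (nat_lit 0) (nat_lit 0) (XT.nd (nat_lit 936) (nat_lit 0) (nat_lit 0) (XT.nd (nat_lit 468) (nat_lit 0) (nat_lit 0) (XT.nd (nat_lit 234) (nat_lit 0) (nat_lit 0) (XT.nd (nat_lit 78) (nat_lit 0) (nat_lit 0) (XT.lf (nat_lit 0) (nat_lit 6968793085738) (nat_lit 152) (nat_lit 28129761305856) (nat_lit 0) (nat_lit 6968787984583) (nat_lit 1) (nat_lit 5) (nat_lit 3) (nat_lit 4) (nat_lit 1) (nat_lit 4) (nat_lit 421) (nat_lit 301) (nat_lit 298)) (XT.nd (nat_lit 78) (nat_lit 0) (nat_lit 0) (XT.lf (nat_lit 0) (nat_lit 8014536623821) (nat_lit 152) (nat_lit 32348312839104) (nat_lit 0) (nat_lit 8014530245261) (nat_lit 1) (nat_lit 5) (nat_lit 3) (nat_lit 4) (nat_lit 1) (nat_lit 4) (nat_lit 422) (nat_lit 301) (nat_lit 297)) (XT.lf (nat_lit 0) (nat_lit 9217110994485) (nat_lit 152) (nat_lit 37199712745307) (nat_lit 0)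 (nat_lit 9217103505139) (nat_lit 1) (nat_lit 5) (nat_lit 3) (nat_lit 4) (nat_lit 1) (nat_lit 4) (nat_lit 423) (nat_lit 301) (nat_lit 296)))) (XT.nd (nat_lit 78) (nat_lit 0) (nat_lit 0) (XT.lf (nat_lit 0) (nat_lit 10600044826723) (nat_lit 152) (nat_lit 42778879718284) (nat_lit 0) (nat_lit 10600036371475) (nat_lit 1) (nat_lit 5) (nat_lit 3) (nat_lit 4) (nat_lit 1) (nat_lit 4) (nat_lit 424) (nat_lit 301) (nat_lit 295)) (XT.nd (nat_lit 78) (nat_lit 0) (nat_lit 0) (XT.lf (nat_lit 0) (nat_lit 12190395521598) (nat_lit 152) (nat_lit 49194971372722) (nat_lit 0) (nat_lit 12190386226436) (nat_lit 1) (nat_lit 5) (nat_lit 3) (nat_lit 4) (nat_lit 1) (nat_lit 4) (nat_lit 425) (nat_lit 301) (nat_lit 294)) (XT.lf (nat_lit 0) (nat_lit 14019278636186) (nat_lit 152) (nat_lit 56573519936644) (nat_lit 0) (nat_lit 14019268610664) (nat_lit 1) (nat_lit 5) (nat_lit 3) (nat_lit 4) (nat_lit 1) (nat_lit 4) (nat_lit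 426) (nat_lit 301) (nat_lit 293))))) (XT.nd (nat_lit 234) (nat_lit 0) (nat_lit 0) (XT.nd (nat_lit 78) (nat_lit 0) (nat_lit 0) (XT.lf (nat_lit 0) (nat_lit 16122476666206) (nat_lit 152) (nat_lit 65058888316735) (nat_lit 0) (nat_lit 16122466005588) (nat_lit 1) (nat_lit 5) (nat_lit 3) (nat_lit 4) (nat_lit 1) (nat_lit 4) (nat_lit 427) (nat_lit 301) (nat_lit 292)) (XT.nd (nat_lit 78) (nat_lit 0) (nat_lit 0) (XT.lf (nat_lit 0) (nat_lit 18541139138332) (nat_lit 152) (nat_lit 74817094589996) (nat_lit 0) (nat_lit 18541127925457) (nat_lit 1) (nat_lit 5) (nat_lit 3) (nat_lit 4) (nat_lit 1) (nat_lit 4) (nat_lit 428) (nat_lit 301) (nat_lit 291)) (XT.lf (nat_lit 0) (nat_lit 21322587709628) (nat_lit 152) (nat_lit 86039060183514) (nat_lit 0) (nat_lit 21322576016529) (nat_lit 1) (nat_lit 5) (nat_lit 3) (nat_lit 4) (nat_lit 1) (nat_lit 4) (nat_lit 429) (nat_lit 301) (nat_lit 290)))) (XT.nd (nat_lit 78) (nat_lit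 0) (nat_lit 0) (XT.lf (nat_lit 0) (nat_lit 24521242026054) (nat_lit 152) (nat_lit 98944345293683) (nat_lit 0) (nat_lit 24521229915369) (nat_lit 1) (nat_lit 5) (nat_lit 3) (nat_lit 4) (nat_lit 1) (nat_lit 4) (nat_lit 430) (nat_lit 301) (nat_lit 289)) (XT.nd (nat_lit 78) (nat_lit 0) (nat_lit 0) (XT.lf (nat_lit 0) (nat_lit 28199684454670) (nat_lit 152) (nat_lit 113785444629180) (nat_lit 0) (nat_lit 28199671980868) (nat_lit 1) (nat_lit 5) (nat_lit 3) (nat_lit 4) (nat_lit 1) (nat_lit 4) (nat_lit 431) (nat_lit 301) (nat_lit 288)) (XT.lf (nat_lit 0) (nat_lit 32429884521254) (nat_lit 152) (nat_lit 130852727524831) (nat_lit 0) (nat_lit 32429871731697) (nat_lit 1) (nat_lit 5) (nat_lit 3) (nat_lit 4) (nat_lit 1) (nat_lit 4) (nat_lit 432) (nat_lit 301) (nat_lit 287)))))) (XT.nd (nat_lit 51792) (nat_lit 0) (nat_lit 0) (XT.nd (nat_lit 1950) (nat_lit 0) (nat_lit 0) (XT.nd (nat_lit 78) (nat_lit 0) (nat_lit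 0) (XT.lf (nat_lit 0) (nat_lit 37294607009717) (nat_lit 152) (nat_lit 150480119080767) (nat_lit 0) (nat_lit 37294593945590) (nat_lit 1) (nat_lit 5) (nat_lit 3) (nat_lit 4) (nat_lit 1) (nat_lit 4) (nat_lit 433) (nat_lit 301) (nat_lit 286)) (XT.nd (nat_lit 1794) (nat_lit 0) (nat_lit 0) (XT.lf (nat_lit 0) (nat_lit 42889031273095) (nat_lit 152) (nat_lit 173051633479604) (nat_lit 0) (nat_lit 42889017970212) (nat_lit 1) (nat_lit 5) (nat_lit 3) (nat_lit 4) (nat_lit 1) (nat_lit 4) (nat_lit 434) (nat_lit 301) (nat_lit 285)) (XT.lf (nat_lit 0) (nat_lit 1067604030070968) (nat_lit 152) (nat_lit 4307434933921589) (nat_lit 0) (nat_lit 1067604015240318) (nat_lit 1) (nat_lit 5) (nat_lit 3) (nat_lit 4) (nat_lit 1) (nat_lit 4) (nat_lit 457) (nat_lit 301) (nat_lit 262)))) (XT.nd (nat_lit 78) (nat_lit 0) (nat_lit 0) (XT.lf (nat_lit 0) (nat_lit 1227744825341216) (nat_lit 152) (nat_lit 4953549761323925) (nat_lit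 0) (nat_lit 1227744810502240) (nat_lit 1) (nat_lit 5) (nat_lit 3) (nat_lit 4) (nat_lit 1) (nat_lit 4) (nat_lit 458) (nat_lit 301) (nat_lit 261)) (XT.nd (nat_lit 78) (nat_lit 0) (nat_lit 0) (XT.lf (nat_lit 0) (nat_lit 1411906739701571) (nat_lit 152) (nat_lit 5696581813265234) (nat_lit 0) (nat_lit 1411906724855329) (nat_lit 1) (nat_lit 5) (nat_lit 3) (nat_lit 4) (nat_lit 1) (nat_lit 4) (nat_lit 459) (nat_lit 301) (nat_lit 260)) (XT.lf (nat_lit 0) (nat_lit 1623692941041670) (nat_lit 152) (nat_lit 6551068673370407) (nat_lit 0) (nat_lit 1623692926189127) (nat_lit 1) (nat_lit 5) (nat_lit 3) (nat_lit 4) (nat_lit 1) (nat_lit 4) (nat_lit 460) (nat_lit 301) (nat_lit 259))))) (XT.nd (nat_lit 234) (nat_lit 0) (nat_lit 0) (XT.nd (nat_lit 78) (nat_lit 0) (nat_lit 0) (XT.lf (nat_lit 0) (nat_lit 1731423840737) (nat_lit 152) (nat_lit 6994745585597) (nat_lit 0) (nat_lit 1731423840737) (nat_lit 1) (nat_lit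 5) (nat_lit 3) (nat_lit 4) (nat_lit 1) (nat_lit 4) (nat_lit 416) (nat_lit 302) (nat_lit 302)) (XT.nd (nat_lit 78) (nat_lit 0) (nat_lit 0) (XT.lf (nat_lit 0) (nat_lit 3982904072721) (nat_lit 152) (nat_lit 16086563827308) (nat_lit 0) (nat_lit 3982901838533) (nat_lit 1) (nat_lit 5) (nat_lit 3) (nat_lit 4) (nat_lit 1) (nat_lit 4) (nat_lit 417) (nat_lit 302) (nat_lit 301)) (XT.lf (nat_lit 0) (nat_lit 4580915231433) (nat_lit 152) (nat_lit 18498312191801) (nat_lit 0) (nat_lit 4580911054472) (nat_lit 1) (nat_lit 5) (nat_lit 3) (nat_lit 4) (nat_lit 1) (nat_lit 4) (nat_lit 418) (nat_lit 302) (nat_lit 300)))) (XT.nd (nat_lit 156) (nat_lit 0) (nat_lit 0) (XT.nd (nat_lit 78) (nat_lit 0) (nat_lit 0) (XT.lf (nat_lit 0) (nat_lit 5268581375932) (nat_lit 152) (nat_lit 21271922645718) (nat_lit 0) (nat_lit 5268575509603) (nat_lit 1) (nat_lit 5) (nat_lit 3) (nat_lit 4) (nat_lit 1) (nat_lit 4) (nat_lit 419)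 (nat_lit 302) (nat_lit 299)) (XT.lf (nat_lit 0) (nat_lit 6059356843827) (nat_lit 152) (nat_lit 24461661480550) (nat_lit 0) (nat_lit 6059349508483) (nat_lit 1) (nat_lit 5) (nat_lit 3) (nat_lit 4) (nat_lit 1) (nat_lit 4) (nat_lit 420) (nat_lit 302) (nat_lit 298))) (XT.nd (nat_lit 78) (nat_lit 0) (nat_lit 0) (XT.lf (nat_lit 0) (nat_lit 6968713329056) (nat_lit 152) (nat_lit 28129936630021) (nat_lit 0) (nat_lit 6968704716308) (nat_lit 1) (nat_lit 5) (nat_lit 3) (nat_lit 4) (nat_lit 1) (nat_lit 4) (nat_lit 421) (nat_lit 302) (nat_lit 297)) (XT.lf (nat_lit 0) (nat_lit 8014442588939) (nat_lit 152) (nat_lit 32348518694882) (nat_lit 0) (nat_lit 8014432865404) (nat_lit 1) (nat_lit 5) (nat_lit 3) (nat_lit 4) (nat_lit 1) (nat_lit 4) (nat_lit 422) (nat_lit 302) (nat_lit 296))))))) (XT.nd (nat_lit 2808) (nat_lit 0) (nat_lit 0) (XT.nd (nat_lit 468) (nat_lit 0) (nat_lit 0) (XT.nd (nat_lit 234) (nat_lit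 0) (nat_lit 0) (XT.nd (nat_lit 78) (nat_lit 0) (nat_lit 0) (XT.lf (nat_lit 0) (nat_lit 9217004543777) (nat_lit 152) (nat_lit 37199945150315) (nat_lit 0) (nat_lit 9216993854340) (nat_lit 1) (nat_lit 5) (nat_lit 3) (nat_lit 4) (nat_lit 1) (nat_lit 4) (nat_lit 423) (nat_lit 302) (nat_lit 295)) (XT.nd (nat_lit 78) (nat_lit 0) (nat_lit 0) (XT.lf (nat_lit 0) (nat_lit 10599927579643) (nat_lit 152) (nat_lit 42779135209578) (nat_lit 0) (nat_lit 10599916050293) (nat_lit 1) (nat_lit 5) (nat_lit 3) (nat_lit 4) (nat_lit 1) (nat_lit 4) (nat_lit 424) (nat_lit 302) (nat_lit 294)) (XT.lf (nat_lit 0) (nat_lit 12190268886370) (nat_lit 152) (nat_lit 49195246939048) (nat_lit 0) (nat_lit 12190256626660) (nat_lit 1) (nat_lit 5) (nat_lit 3) (nat_lit 4) (nat_lit 1) (nat_lit 4) (nat_lit 425) (nat_lit 302) (nat_lit 293)))) (XT.nd (nat_lit 78) (nat_lit 0) (nat_lit 0) (XT.lf (nat_lit 0) (nat_lit 14019143837350) (nat_lit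 152) (nat_lit 56573812959519) (nat_lit 0) (nat_lit 14019130942544) (nat_lit 1) (nat_lit 5) (nat_lit 3) (nat_lit 4) (nat_lit 1) (nat_lit 4) (nat_lit 426) (nat_lit 302) (nat_lit 292)) (XT.nd (nat_lit 78) (nat_lit 0) (nat_lit 0) (XT.lf (nat_lit 0) (nat_lit 16122334768581) (nat_lit 152) (nat_lit 65059196519217) (nat_lit 0) (nat_lit 16122321321517) (nat_lit 1) (nat_lit 5) (nat_lit 3) (nat_lit 4) (nat_lit 1) (nat_lit 4) (nat_lit 427) (nat_lit 302) (nat_lit 291)) (XT.lf (nat_lit 0) (nat_lit 18540991067847) (nat_lit 152) (nat_lit 74817415992138) (nat_lit 0) (nat_lit 18540977140560) (nat_lit 1) (nat_lit 5) (nat_lit 3) (nat_lit 4) (nat_lit 1) (nat_lit 4) (nat_lit 428) (nat_lit 302) (nat_lit 290))))) (XT.nd (nat_lit 234) (nat_lit 0) (nat_lit 0) (XT.nd (nat_lit 78) (nat_lit 0) (nat_lit 0) (XT.lf (nat_lit 0) (nat_lit 21322434271439) (nat_lit 152) (nat_lit 86039393063620) (nat_lit 0) (nat_lit 21322419926566)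 (nat_lit 1) (nat_lit 5) (nat_lit 3) (nat_lit 4) (nat_lit 1) (nat_lit 4) (nat_lit 429) (nat_lit 302) (nat_lit 289)) (XT.nd (nat_lit 78) (nat_lit 0) (nat_lit 0) (XT.lf (nat_lit 0) (nat_lit 24521083920295) (nat_lit 152) (nat_lit 98944688154628) (nat_lit 0) (nat_lit 24521069212305) (nat_lit 1) (nat_lit 5) (nat_lit 3) (nat_lit 4) (nat_lit 1) (nat_lit 4) (nat_lit 430) (nat_lit 302) (nat_lit 288)) (XT.lf (nat_lit 0) (nat_lit 28199522290156) (nat_lit 152) (nat_lit 113785796169115) (nat_lit 0) (nat_lit 28199507266410) (nat_lit 1) (nat_lit 5) (nat_lit 3) (nat_lit 4) (nat_lit 1) (nat_lit 4) (nat_lit 431) (nat_lit 302) (nat_lit 287)))) (XT.nd (nat_lit 1950) (nat_lit 0) (nat_lit 0) (XT.nd (nat_lit 78) (nat_lit 0) (nat_lit 0) (XT.lf (nat_lit 0) (nat_lit 32429718827387) (nat_lit 152) (nat_lit 130853086611713) (nat_lit 0) (nat_lit 32429703529072) (nat_lit 1) (nat_lit 5) (nat_lit 3) (nat_lit 4) (nat_lit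 1) (nat_lit 4) (nat_lit 432) (nat_lit 302) (nat_lit 286)) (XT.lf (nat_lit 0) (nat_lit 37294438246848) (nat_lit 152) (nat_lit 150480484730213) (nat_lit 0) (nat_lit 37294422709777) (nat_lit 1) (nat_lit 5) (nat_lit 3) (nat_lit 4) (nat_lit 1) (nat_lit 4) (nat_lit 433) (nat_lit 302) (nat_lit 285))) (XT.nd (nat_lit 78) (nat_lit 0) (nat_lit 0) (XT.lf (nat_lit 0) (nat_lit 1067603841562831) (nat_lit 152) (nat_lit 4307435341793068) (nat_lit 0) (nat_lit 1067603824489666) (nat_lit 1) (nat_lit 5) (nat_lit 3) (nat_lit 4) (nat_lit 1) (nat_lit 4) (nat_lit 457) (nat_lit 302) (nat_lit 261)) (XT.lf (nat_lit 0) (nat_lit 1227744636739864) (nat_lit 152) (nat_lit 4953550169394753) (nat_lit 0) (nat_lit 1227744619659440) (nat_lit 1) (nat_lit 5) (nat_lit 3) (nat_lit 4) (nat_lit 1) (nat_lit 4) (nat_lit 458) (nat_lit 302) (nat_lit 260)))))) (XT.nd (nat_lit 49998) (nat_lit 0) (nat_lit 0) (XT.nd (nat_lit 49764) (nat_lit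 0) (nat_lit 0) (XT.nd (nat_lit 49608) (nat_lit 0) (nat_lit 0) (XT.lf (nat_lit 0) (nat_lit 1411906551019141) (nat_lit 152) (nat_lit 5696582221509416) (nat_lit 0) (nat_lit 1411906533932412) (nat_lit 1) (nat_lit 5) (nat_lit 3) (nat_lit 4) (nat_lit 1) (nat_lit 4) (nat_lit 459) (nat_lit 302) (nat_lit 259)) (XT.nd (nat_lit 78) (nat_lit 0) (nat_lit 0) (XT.lf (nat_lit 0) (nat_lit 1308630428598) (nat_lit 152) (nat_lit 5290268788504) (nat_lit 0) (nat_lit 1308630428598) (nat_lit 1) (nat_lit 5) (nat_lit 3) (nat_lit 4) (nat_lit 1) (nat_lit 4) (nat_lit 414) (nat_lit 303) (nat_lit 303)) (XT.lf (nat_lit 0) (nat_lit 3010573610657) (nat_lit 152) (nat_lit 12166064541059) (nat_lit 0) (nat_lit 3010571041340) (nat_lit 1) (nat_lit 5) (nat_lit 3) (nat_lit 4) (nat_lit 1) (nat_lit 4) (nat_lit 415) (nat_lit 303) (nat_lit 302)))) (XT.nd (nat_lit 78) (nat_lit 0) (nat_lit 0) (XT.lf (nat_lit 0) (nat_lit 3462821532229)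 (nat_lit 152) (nat_lit 13989552581175) (nat_lit 0) (nat_lit 3462816728724) (nat_lit 1) (nat_lit 5) (nat_lit 3) (nat_lit 4) (nat_lit 1) (nat_lit 4) (nat_lit 416) (nat_lit 303) (nat_lit 301)) (XT.nd (nat_lit 78) (nat_lit 0) (nat_lit 0) (XT.lf (nat_lit 0) (nat_lit 3982852950815) (nat_lit 152) (nat_lit 16086678637271) (nat_lit 0) (nat_lit 3982846204537) (nat_lit 1) (nat_lit 5) (nat_lit 3) (nat_lit 4) (nat_lit 1) (nat_lit 4) (nat_lit 417) (nat_lit 303) (nat_lit 300)) (XT.lf (nat_lit 0) (nat_lit 4580842394169) (nat_lit 152) (nat_lit 18498473436532) (nat_lit 0) (nat_lit 4580833958523) (nat_lit 1) (nat_lit 5) (nat_lit 3) (nat_lit 4) (nat_lit 1) (nat_lit 4) (nat_lit 418) (nat_lit 303) (nat_lit 299))))) (XT.nd (nat_lit 234) (nat_lit 0) (nat_lit 0) (XT.nd (nat_lit 78) (nat_lit 0) (nat_lit 0) (XT.lf (nat_lit 0) (nat_lit 5268489655747) (nat_lit 152) (nat_lit 21272124268508) (nat_lit 0) (nat_lit 5268479751087)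 (nat_lit 1) (nat_lit 5) (nat_lit 3) (nat_lit 4) (nat_lit 1) (nat_lit 4) (nat_lit 419) (nat_lit 303) (nat_lit 298)) (XT.nd (nat_lit 78) (nat_lit 0) (nat_lit 0) (XT.lf (nat_lit 0) (nat_lit 6059248703712) (nat_lit 152) (nat_lit 24461898214696) (nat_lit 0) (nat_lit 6059237521647) (nat_lit 1) (nat_lit 5) (nat_lit 3) (nat_lit 4) (nat_lit 1) (nat_lit 4) (nat_lit 420) (nat_lit 303) (nat_lit 297)) (XT.lf (nat_lit 0) (nat_lit 6968590910741) (nat_lit 152) (nat_lit 28130203895780) (nat_lit 0) (nat_lit 6968578617889) (nat_lit 1) (nat_lit 5) (nat_lit 3) (nat_lit 4) (nat_lit 1) (nat_lit 4) (nat_lit 421) (nat_lit 303) (nat_lit 296)))) (XT.nd (nat_lit 156) (nat_lit 0) (nat_lit 0) (XT.nd (nat_lit 78) (nat_lit 0) (nat_lit 0) (XT.lf (nat_lit 0) (nat_lit 8014307754797) (nat_lit 152) (nat_lit 32348812509870) (nat_lit 0) (nat_lit 8014294496044) (nat_lit 1) (nat_lit 5) (nat_lit 3) (nat_lit 4) (nat_lit 1) (nat_lit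 4) (nat_lit 422) (nat_lit 303) (nat_lit 295)) (XT.lf (nat_lit 0) (nat_lit 9216858913264) (nat_lit 152) (nat_lit 37200262051589) (nat_lit 0) (nat_lit 9216844814597) (nat_lit 1) (nat_lit 5) (nat_lit 3) (nat_lit 4) (nat_lit 1) (nat_lit 4) (nat_lit 423) (nat_lit 303) (nat_lit 294))) (XT.nd (nat_lit 78) (nat_lit 0) (nat_lit 0) (XT.lf (nat_lit 0) (nat_lit 10599772560982) (nat_lit 152) (nat_lit 42779472185883) (nat_lit 0) (nat_lit 10599757731955) (nat_lit 1) (nat_lit 5) (nat_lit 3) (nat_lit 4) (nat_lit 1) (nat_lit 4) (nat_lit 424) (nat_lit 303) (nat_lit 293)) (XT.lf (nat_lit 0) (nat_lit 12190105704102) (nat_lit 152) (nat_lit 49195601371902) (nat_lit 0) (nat_lit 12190090239979) (nat_lit 1) (nat_lit 5) (nat_lit 3) (nat_lit 4) (nat_lit 1) (nat_lit 4) (nat_lit 425) (nat_lit 303) (nat_lit 292))))))))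
noncomputable def xc4 : XT := (XT.nd (nat_lit 53196) (nat_lit 0) (nat_lit 0) (XT.nd (nat_lit 52182) (nat_lit 0) (nat_lit 0) (XT.nd (nat_lit 468) (nat_lit 0) (nat_lit 0) (XT.nd (nat_lit 234) (nat_lit 0) (nat_lit 0) (XT.nd (nat_lit 78) (nat_lit 0) (nat_lit 0) (XT.lf (nat_lit 0) (nat_lit 14018973556293) (nat_lit 152) (nat_lit 56574182571981) (nat_lit 0) (nat_lit 14018957539913) (nat_lit 1) (nat_lit 5) (nat_lit 3) (nat_lit 4) (nat_lit 1) (nat_lit 4) (nat_lit 426) (nat_lit 303) (nat_lit 291)) (XT.nd (nat_lit 78) (nat_lit 0) (nat_lit 0) (XT.lf (nat_lit 0) (nat_lit 16122158314663) (nat_lit 152) (nat_lit 65059579331339) (nat_lit 0) (nat_lit 16122141818059) (nat_lit 1) (nat_lit 5) (nat_lit 3) (nat_lit 4) (nat_lit 1) (nat_lit 4) (nat_lit 427) (nat_lit 303) (nat_lit 290)) (XT.lf (nat_lit 0) (nat_lit 18540809246225) (nat_lit 152) (nat_lit 74817810282224) (nat_lit 0) (nat_lit 18540792332035) (nat_lit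 1) (nat_lit 5) (nat_lit 3) (nat_lit 4) (nat_lit 1) (nat_lit 4) (nat_lit 428) (nat_lit 303) (nat_lit 289)))) (XT.nd (nat_lit 78) (nat_lit 0) (nat_lit 0) (XT.lf (nat_lit 0) (nat_lit 21322247782248) (nat_lit 152) (nat_lit 86039797334545) (nat_lit 0) (nat_lit 21322230504940) (nat_lit 1) (nat_lit 5) (nat_lit 3) (nat_lit 4) (nat_lit 1) (nat_lit 4) (nat_lit 429) (nat_lit 303) (nat_lit 288)) (XT.nd (nat_lit 78) (nat_lit 0) (nat_lit 0) (XT.lf (nat_lit 0) (nat_lit 24520893372349) (nat_lit 152) (nat_lit 98945101104542) (nat_lit 0) (nat_lit 24520875779286) (nat_lit 1) (nat_lit 5) (nat_lit 3) (nat_lit 4) (nat_lit 1) (nat_lit 4) (nat_lit 430) (nat_lit 303) (nat_lit 287)) (XT.lf (nat_lit 0) (nat_lit 28199328212857) (nat_lit 152) (nat_lit 113786216665977) (nat_lit 0) (nat_lit 28199310345224) (nat_lit 1) (nat_lit 5) (nat_lit 3) (nat_lit 4) (nat_lit 1) (nat_lit 4) (nat_lit 431) (nat_lit 303) (nat_lit 286)))))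 (XT.nd (nat_lit 2028) (nat_lit 0) (nat_lit 0) (XT.nd (nat_lit 78) (nat_lit 0) (nat_lit 0) (XT.lf (nat_lit 0) (nat_lit 32429521681086) (nat_lit 152) (nat_lit 130853513671139) (nat_lit 0) (nat_lit 32429503574697) (nat_lit 1) (nat_lit 5) (nat_lit 3) (nat_lit 4) (nat_lit 1) (nat_lit 4) (nat_lit 432) (nat_lit 303) (nat_lit 285)) (XT.nd (nat_lit 1872) (nat_lit 0) (nat_lit 0) (XT.lf (nat_lit 0) (nat_lit 37294238431849) (nat_lit 152) (nat_lit 150480917496215) (nat_lit 0) (nat_lit 37294220117846) (nat_lit 1) (nat_lit 5) (nat_lit 3) (nat_lit 4) (nat_lit 1) (nat_lit 4) (nat_lit 433) (nat_lit 303) (nat_lit 284)) (XT.lf (nat_lit 0) (nat_lit 1067603624578045) (nat_lit 152) (nat_lit 4307435811273888) (nat_lit 0) (nat_lit 1067603604928295) (nat_lit 1) (nat_lit 5) (nat_lit 3) (nat_lit 4) (nat_lit 1) (nat_lit 4) (nat_lit 457) (nat_lit 303) (nat_lit 260)))) (XT.nd (nat_lit 49530) (nat_lit 0) (nat_lit 0) (XT.lf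 (nat_lit 0) (nat_lit 1227744419674001) (nat_lit 152) (nat_lit 4953550639048927) (nat_lit 0) (nat_lit 1227744400017952) (nat_lit 1) (nat_lit 5) (nat_lit 3) (nat_lit 4) (nat_lit 1) (nat_lit 4) (nat_lit 458) (nat_lit 303) (nat_lit 259)) (XT.nd (nat_lit 78) (nat_lit 0) (nat_lit 0) (XT.lf (nat_lit 0) (nat_lit 988851655838) (nat_lit 152) (nat_lit 4001624883769) (nat_lit 0) (nat_lit 988851655838) (nat_lit 1) (nat_lit 5) (nat_lit 3) (nat_lit 4) (nat_lit 1) (nat_lit 4) (nat_lit 412) (nat_lit 304) (nat_lit 304)) (XT.lf (nat_lit 0) (nat_lit 2275190977039) (nat_lit 152) (nat_lit 9201950509292) (nat_lit 0) (nat_lit 2275188022325) (nat_lit 1) (nat_lit 5) (nat_lit 3) (nat_lit 4) (nat_lit 1) (nat_lit 4) (nat_lit 413) (nat_lit 304) (nat_lit 303)))))) (XT.nd (nat_lit 468) (nat_lit 0) (nat_lit 0) (XT.nd (nat_lit 234) (nat_lit 0) (nat_lit 0) (XT.nd (nat_lit 78) (nat_lit 0) (nat_lit 0) (XT.lf (nat_lit 0) (nat_lit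 2617230785566) (nat_lit 152) (nat_lit 10580608198486) (nat_lit 0) (nat_lit 2617225261535) (nat_lit 1) (nat_lit 5) (nat_lit 3) (nat_lit 4) (nat_lit 1) (nat_lit 4) (nat_lit 414) (nat_lit 304) (nat_lit 302)) (XT.nd (nat_lit 78) (nat_lit 0) (nat_lit 0) (XT.lf (nat_lit 0) (nat_lit 3010514820465) (nat_lit 152) (nat_lit 12166196572517) (nat_lit 0) (nat_lit 3010507062245) (nat_lit 1) (nat_lit 5) (nat_lit 3) (nat_lit 4) (nat_lit 1) (nat_lit 4) (nat_lit 415) (nat_lit 304) (nat_lit 301)) (XT.lf (nat_lit 0) (nat_lit 3462737769375) (nat_lit 152) (nat_lit 13989738012615) (nat_lit 0) (nat_lit 3462728068383) (nat_lit 1) (nat_lit 5) (nat_lit 3) (nat_lit 4) (nat_lit 1) (nat_lit 4) (nat_lit 416) (nat_lit 304) (nat_lit 300)))) (XT.nd (nat_lit 78) (nat_lit 0) (nat_lit 0) (XT.lf (nat_lit 0) (nat_lit 3982747472603) (nat_lit 152) (nat_lit 16086910503479) (nat_lit 0) (nat_lit 3982736082243) (nat_lit 1) (nat_lit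 5) (nat_lit 3) (nat_lit 4) (nat_lit 1) (nat_lit 4) (nat_lit 417) (nat_lit 304) (nat_lit 299)) (XT.nd (nat_lit 78) (nat_lit 0) (nat_lit 0) (XT.lf (nat_lit 0) (nat_lit 4580718033037) (nat_lit 152) (nat_lit 18498745680799) (nat_lit 0) (nat_lit 4580705173662) (nat_lit 1) (nat_lit 5) (nat_lit 3) (nat_lit 4) (nat_lit 1) (nat_lit 4) (nat_lit 418) (nat_lit 304) (nat_lit 298)) (XT.lf (nat_lit 0) (nat_lit 5268348874685) (nat_lit 152) (nat_lit 21272431624131) (nat_lit 0) (nat_lit 5268334737906) (nat_lit 1) (nat_lit 5) (nat_lit 3) (nat_lit 4) (nat_lit 1) (nat_lit 4) (nat_lit 419) (nat_lit 304) (nat_lit 297))))) (XT.nd (nat_lit 234) (nat_lit 0) (nat_lit 0) (XT.nd (nat_lit 78) (nat_lit 0) (nat_lit 0) (XT.lf (nat_lit 0) (nat_lit 6059093644449) (nat_lit 152) (nat_lit 24462236101932) (nat_lit 0) (nat_lit 6059078396883) (nat_lit 1) (nat_lit 5) (nat_lit 3) (nat_lit 4) (nat_lit 1) (nat_lit 4) (nat_lit 420)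 (nat_lit 304) (nat_lit 296)) (XT.nd (nat_lit 78) (nat_lit 0) (nat_lit 0) (XT.lf (nat_lit 0) (nat_lit 6968423435652) (nat_lit 152) (nat_lit 28130568332245) (nat_lit 0) (nat_lit 6968407222184) (nat_lit 1) (nat_lit 5) (nat_lit 3) (nat_lit 4) (nat_lit 1) (nat_lit 4) (nat_lit 421) (nat_lit 304) (nat_lit 295)) (XT.lf (nat_lit 0) (nat_lit 8014129483337) (nat_lit 152) (nat_lit 32349200032622) (nat_lit 0) (nat_lit 8014112429955) (nat_lit 1) (nat_lit 5) (nat_lit 3) (nat_lit 4) (nat_lit 1) (nat_lit 4) (nat_lit 422) (nat_lit 304) (nat_lit 294)))) (XT.nd (nat_lit 156) (nat_lit 0) (nat_lit 0) (XT.nd (nat_lit 78) (nat_lit 0) (nat_lit 0) (XT.lf (nat_lit 0) (nat_lit 9216671253656) (nat_lit 152) (nat_lit 37200669649372) (nat_lit 0) (nat_lit 9216653469914) (nat_lit 1) (nat_lit 5) (nat_lit 3) (nat_lit 4) (nat_lit 1) (nat_lit 4) (nat_lit 423) (nat_lit 304) (nat_lit 293)) (XT.lf (nat_lit 0) (nat_lit 10599576737766)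 (nat_lit 152) (nat_lit 42779897240215) (nat_lit 0) (nat_lit 10599558318929) (nat_lit 1) (nat_lit 5) (nat_lit 3) (nat_lit 4) (nat_lit 1) (nat_lit 4) (nat_lit 424) (nat_lit 304) (nat_lit 292))) (XT.nd (nat_lit 78) (nat_lit 0) (nat_lit 0) (XT.lf (nat_lit 0) (nat_lit 12189902782097) (nat_lit 152) (nat_lit 49196041605842) (nat_lit 0) (nat_lit 12189883811002) (nat_lit 1) (nat_lit 5) (nat_lit 3) (nat_lit 4) (nat_lit 1) (nat_lit 4) (nat_lit 425) (nat_lit 304) (nat_lit 291)) (XT.lf (nat_lit 0) (nat_lit 14018764461428) (nat_lit 152) (nat_lit 56574636005580) (nat_lit 0) (nat_lit 14018745010109) (nat_lit 1) (nat_lit 5) (nat_lit 3) (nat_lit 4) (nat_lit 1) (nat_lit 4) (nat_lit 426) (nat_lit 304) (nat_lit 290))))))) (XT.nd (nat_lit 52260) (nat_lit 0) (nat_lit 0) (XT.nd (nat_lit 468) (nat_lit 0) (nat_lit 0) (XT.nd (nat_lit 234) (nat_lit 0) (nat_lit 0) (XT.nd (nat_lit 78) (nat_lit 0) (nat_lit 0) (XT.lf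 (nat_lit 0) (nat_lit 16121943852094) (nat_lit 152) (nat_lit 65060044242903) (nat_lit 0) (nat_lit 16121923983190) (nat_lit 1) (nat_lit 5) (nat_lit 3) (nat_lit 4) (nat_lit 1) (nat_lit 4) (nat_lit 427) (nat_lit 304) (nat_lit 289)) (XT.nd (nat_lit 78) (nat_lit 0) (nat_lit 0) (XT.lf (nat_lit 0) (nat_lit 18540590116086) (nat_lit 152) (nat_lit 74818285174626) (nat_lit 0) (nat_lit 18540569884064) (nat_lit 1) (nat_lit 5) (nat_lit 3) (nat_lit 4) (nat_lit 1) (nat_lit 4) (nat_lit 428) (nat_lit 304) (nat_lit 288)) (XT.lf (nat_lit 0) (nat_lit 21322024593353) (nat_lit 152) (nat_lit 86040280905937) (nat_lit 0) (nat_lit 21322004045576) (nat_lit 1) (nat_lit 5) (nat_lit 3) (nat_lit 4) (nat_lit 1) (nat_lit 4) (nat_lit 429) (nat_lit 304) (nat_lit 287)))) (XT.nd (nat_lit 78) (nat_lit 0) (nat_lit 0) (XT.lf (nat_lit 0) (nat_lit 24520666654102) (nat_lit 152) (nat_lit 98945592222882) (nat_lit 0) (nat_lit 24520645831755)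 (nat_lit 1) (nat_lit 5) (nat_lit 3) (nat_lit 4) (nat_lit 1) (nat_lit 4) (nat_lit 430) (nat_lit 304) (nat_lit 286)) (XT.nd (nat_lit 78) (nat_lit 0) (nat_lit 0) (XT.lf (nat_lit 0) (nat_lit 28199098425607) (nat_lit 152) (nat_lit 113786714346881) (nat_lit 0) (nat_lit 28199077364505) (nat_lit 1) (nat_lit 5) (nat_lit 3) (nat_lit 4) (nat_lit 1) (nat_lit 4) (nat_lit 431) (nat_lit 304) (nat_lit 285)) (XT.lf (nat_lit 0) (nat_lit 32429289225138) (nat_lit 152) (nat_lit 130854017058620) (nat_lit 0) (nat_lit 32429267956422) (nat_lit 1) (nat_lit 5) (nat_lit 3) (nat_lit 4) (nat_lit 1) (nat_lit 4) (nat_lit 432) (nat_lit 304) (nat_lit 284))))) (XT.nd (nat_lit 51480) (nat_lit 0) (nat_lit 0) (XT.nd (nat_lit 51324) (nat_lit 0) (nat_lit 0) (XT.lf (nat_lit 0) (nat_lit 37294003655295) (nat_lit 152) (nat_lit 150481425845936) (nat_lit 0) (nat_lit 37293982206044) (nat_lit 1) (nat_lit 5) (nat_lit 3) (nat_lit 4) (nat_lit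 1) (nat_lit 4) (nat_lit 433) (nat_lit 304) (nat_lit 283)) (XT.nd (nat_lit 78) (nat_lit 0) (nat_lit 0) (XT.lf (nat_lit 0) (nat_lit 746953818542) (nat_lit 152) (nat_lit 3027438201959) (nat_lit 0) (nat_lit 746953818542) (nat_lit 1) (nat_lit 5) (nat_lit 3) (nat_lit 4) (nat_lit 1) (nat_lit 4) (nat_lit 410) (nat_lit 305) (nat_lit 305)) (XT.lf (nat_lit 0) (nat_lit 1718950776552) (nat_lit 152) (nat_lit 6961053132623) (nat_lit 0) (nat_lit 1718947378630) (nat_lit 1) (nat_lit 5) (nat_lit 3) (nat_lit 4) (nat_lit 1) (nat_lit 4) (nat_lit 411) (nat_lit 305) (nat_lit 304)))) (XT.nd (nat_lit 156) (nat_lit 0) (nat_lit 0) (XT.nd (nat_lit 78) (nat_lit 0) (nat_lit 0) (XT.lf (nat_lit 0) (nat_lit 1977668729300) (nat_lit 152) (nat_lit 8003330982237) (nat_lit 0) (nat_lit 1977662376664) (nat_lit 1) (nat_lit 5) (nat_lit 3) (nat_lit 4) (nat_lit 1) (nat_lit 4) (nat_lit 412) (nat_lit 305) (nat_lit 303)) (XT.lf (nat_lit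 0) (nat_lit 2275123368319) (nat_lit 152) (nat_lit 9202102345469) (nat_lit 0) (nat_lit 2275114446366) (nat_lit 1) (nat_lit 5) (nat_lit 3) (nat_lit 4) (nat_lit 1) (nat_lit 4) (nat_lit 413) (nat_lit 305) (nat_lit 302))) (XT.nd (nat_lit 78) (nat_lit 0) (nat_lit 0) (XT.lf (nat_lit 0) (nat_lit 2617134458284) (nat_lit 152) (nat_lit 10580821444643) (nat_lit 0) (nat_lit 2617123302143) (nat_lit 1) (nat_lit 5) (nat_lit 3) (nat_lit 4) (nat_lit 1) (nat_lit 4) (nat_lit 414) (nat_lit 305) (nat_lit 301)) (XT.lf (nat_lit 0) (nat_lit 3010393520521) (nat_lit 152) (nat_lit 12166463218656) (nat_lit 0) (nat_lit 3010380421607) (nat_lit 1) (nat_lit 5) (nat_lit 3) (nat_lit 4) (nat_lit 1) (nat_lit 4) (nat_lit 415) (nat_lit 305) (nat_lit 300)))))) (XT.nd (nat_lit 468) (nat_lit 0) (nat_lit 0) (XT.nd (nat_lit 234) (nat_lit 0) (nat_lit 0) (XT.nd (nat_lit 78) (nat_lit 0) (nat_lit 0) (XT.lf (nat_lit 0) (nat_lit 3462594754074)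 (nat_lit 152) (nat_lit 13990051093522) (nat_lit 0) (nat_lit 3462579965793) (nat_lit 1) (nat_lit 5) (nat_lit 3) (nat_lit 4) (nat_lit 1) (nat_lit 4) (nat_lit 416) (nat_lit 305) (nat_lit 299)) (XT.nd (nat_lit 78) (nat_lit 0) (nat_lit 0) (XT.lf (nat_lit 0) (nat_lit 3982585574381) (nat_lit 152) (nat_lit 16087263962445) (nat_lit 0) (nat_lit 3982569317085) (nat_lit 1) (nat_lit 5) (nat_lit 3) (nat_lit 4) (nat_lit 1) (nat_lit 4) (nat_lit 417) (nat_lit 305) (nat_lit 298)) (XT.lf (nat_lit 0) (nat_lit 4580539714885) (nat_lit 152) (nat_lit 18499134251120) (nat_lit 0) (nat_lit 4580522180184) (nat_lit 1) (nat_lit 5) (nat_lit 3) (nat_lit 4) (nat_lit 1) (nat_lit 4) (nat_lit 418) (nat_lit 305) (nat_lit 297)))) (XT.nd (nat_lit 78) (nat_lit 0) (nat_lit 0) (XT.lf (nat_lit 0) (nat_lit 5268156278332) (nat_lit 152) (nat_lit 21272850726066) (nat_lit 0) (nat_lit 5268137632845) (nat_lit 1) (nat_lit 5) (nat_lit 3)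 (nat_lit 4) (nat_lit 1) (nat_lit 4) (nat_lit 419) (nat_lit 305) (nat_lit 296)) (XT.nd (nat_lit 78) (nat_lit 0) (nat_lit 0) (XT.lf (nat_lit 0) (nat_lit 6058888632270) (nat_lit 152) (nat_lit 24462681753096) (nat_lit 0) (nat_lit 6058869020882) (nat_lit 1) (nat_lit 5) (nat_lit 3) (nat_lit 4) (nat_lit 1) (nat_lit 4) (nat_lit 420) (nat_lit 305) (nat_lit 295)) (XT.lf (nat_lit 0) (nat_lit 6968207627102) (nat_lit 152) (nat_lit 28131037069696) (nat_lit 0) (nat_lit 6968187175799) (nat_lit 1) (nat_lit 5) (nat_lit 3) (nat_lit 4) (nat_lit 1) (nat_lit 4) (nat_lit 421) (nat_lit 305) (nat_lit 294))))) (XT.nd (nat_lit 234) (nat_lit 0) (nat_lit 0) (XT.nd (nat_lit 78) (nat_lit 0) (nat_lit 0) (XT.lf (nat_lit 0) (nat_lit 8013904286638) (nat_lit 152) (nat_lit 32349688845103) (nat_lit 0) (nat_lit 8013883104975) (nat_lit 1) (nat_lit 5) (nat_lit 3) (nat_lit 4) (nat_lit 1) (nat_lit 4) (nat_lit 422) (nat_lit 305)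 (nat_lit 293)) (XT.nd (nat_lit 78) (nat_lit 0) (nat_lit 0) (XT.lf (nat_lit 0) (nat_lit 9216437893350) (nat_lit 152) (nat_lit 37201175918403) (nat_lit 0) (nat_lit 9216416076591) (nat_lit 1) (nat_lit 5) (nat_lit 3) (nat_lit 4) (nat_lit 1) (nat_lit 4) (nat_lit 423) (nat_lit 305) (nat_lit 292)) (XT.lf (nat_lit 0) (nat_lit 10599336278671) (nat_lit 152) (nat_lit 42780418688854) (nat_lit 0) (nat_lit 10599313909655) (nat_lit 1) (nat_lit 5) (nat_lit 3) (nat_lit 4) (nat_lit 1) (nat_lit 4) (nat_lit 424) (nat_lit 305) (nat_lit 291)))) (XT.nd (nat_lit 156) (nat_lit 0) (nat_lit 0) (XT.nd (nat_lit 78) (nat_lit 0) (nat_lit 0) (XT.lf (nat_lit 0) (nat_lit 12189656150142) (nat_lit 152) (nat_lit 49196576254140) (nat_lit 0) (nat_lit 12189633300902) (nat_lit 1) (nat_lit 5) (nat_lit 3) (nat_lit 4) (nat_lit 1) (nat_lit 4) (nat_lit 425) (nat_lit 305) (nat_lit 290)) (XT.lf (nat_lit 0) (nat_lit 14018512461768) (nat_lit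 152) (nat_lit 56575182131843) (nat_lit 0) (nat_lit 14018489194943) (nat_lit 1) (nat_lit 5) (nat_lit 3) (nat_lit 4) (nat_lit 1) (nat_lit 4) (nat_lit 426) (nat_lit 305) (nat_lit 289))) (XT.nd (nat_lit 78) (nat_lit 0) (nat_lit 0) (XT.lf (nat_lit 0) (nat_lit 16121687184865) (nat_lit 152) (nat_lit 65060600350003) (nat_lit 0) (nat_lit 16121663554922) (nat_lit 1) (nat_lit 5) (nat_lit 3) (nat_lit 4) (nat_lit 1) (nat_lit 4) (nat_lit 427) (nat_lit 305) (nat_lit 288)) (XT.lf (nat_lit 0) (nat_lit 18540329390102) (nat_lit 152) (nat_lit 74818849960717) (nat_lit 0) (nat_lit 18540305444404) (nat_lit 1) (nat_lit 5) (nat_lit 3) (nat_lit 4) (nat_lit 1) (nat_lit 4) (nat_lit 428) (nat_lit 305) (nat_lit 287))))))))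
noncomputable def xc5 : XT := (XT.nd (nat_lit 53040) (nat_lit 0) (nat_lit 0) (XT.nd (nat_lit 52026) (nat_lit 0) (nat_lit 0) (XT.nd (nat_lit 51558) (nat_lit 0) (nat_lit 0) (XT.nd (nat_lit 234) (nat_lit 0) (nat_lit 0) (XT.nd (nat_lit 78) (nat_lit 0) (nat_lit 0) (XT.lf (nat_lit 0) (nat_lit 21321760338016) (nat_lit 152) (nat_lit 86040853238976) (nat_lit 0) (nat_lit 21321736117748) (nat_lit 1) (nat_lit 5) (nat_lit 3) (nat_lit 4) (nat_lit 1) (nat_lit 4) (nat_lit 429) (nat_lit 305) (nat_lit 286)) (XT.nd (nat_lit 78) (nat_lit 0) (nat_lit 0) (XT.lf (nat_lit 0) (nat_lit 24520399329762) (nat_lit 152) (nat_lit 98946171118485) (nat_lit 0) (nat_lit 24520374870738) (nat_lit 1) (nat_lit 5) (nat_lit 3) (nat_lit 4) (nat_lit 1) (nat_lit 4) (nat_lit 430) (nat_lit 305) (nat_lit 285)) (XT.lf (nat_lit 0) (nat_lit 28198828432570) (nat_lit 152) (nat_lit 113787298949060) (nat_lit 0) (nat_lit 28198803765932) (nat_lit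 1) (nat_lit 5) (nat_lit 3) (nat_lit 4) (nat_lit 1) (nat_lit 4) (nat_lit 431) (nat_lit 305) (nat_lit 284)))) (XT.nd (nat_lit 78) (nat_lit 0) (nat_lit 0) (XT.lf (nat_lit 0) (nat_lit 32429016911494) (nat_lit 152) (nat_lit 130854606623039) (nat_lit 0) (nat_lit 32428992064323) (nat_lit 1) (nat_lit 5) (nat_lit 3) (nat_lit 4) (nat_lit 1) (nat_lit 4) (nat_lit 432) (nat_lit 305) (nat_lit 283)) (XT.nd (nat_lit 51168) (nat_lit 0) (nat_lit 0) (XT.lf (nat_lit 0) (nat_lit 37293729323732) (nat_lit 152) (nat_lit 150482019725348) (nat_lit 0) (nat_lit 37293704319574) (nat_lit 1) (nat_lit 5) (nat_lit 3) (nat_lit 4) (nat_lit 1) (nat_lit 4) (nat_lit 433) (nat_lit 305) (nat_lit 282)) (XT.lf (nat_lit 0) (nat_lit 563930285901) (nat_lit 152) (nat_lit 2291058344824) (nat_lit 0) (nat_lit 563930285901) (nat_lit 1) (nat_lit 5) (nat_lit 3) (nat_lit 4) (nat_lit 1) (nat_lit 4) (nat_lit 408) (nat_lit 306) (nat_lit 306)))))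 (XT.nd (nat_lit 234) (nat_lit 0) (nat_lit 0) (XT.nd (nat_lit 78) (nat_lit 0) (nat_lit 0) (XT.lf (nat_lit 0) (nat_lit 1298140200563) (nat_lit 152) (nat_lit 5267071251430) (nat_lit 0) (nat_lit 1298136292953) (nat_lit 1) (nat_lit 5) (nat_lit 3) (nat_lit 4) (nat_lit 1) (nat_lit 4) (nat_lit 409) (nat_lit 306) (nat_lit 305)) (XT.nd (nat_lit 78) (nat_lit 0) (nat_lit 0) (XT.lf (nat_lit 0) (nat_lit 1493867867353) (nat_lit 152) (nat_lit 6054969800822) (nat_lit 0) (nat_lit 1493860561822) (nat_lit 1) (nat_lit 5) (nat_lit 3) (nat_lit 4) (nat_lit 1) (nat_lit 4) (nat_lit 410) (nat_lit 306) (nat_lit 304)) (XT.lf (nat_lit 0) (nat_lit 1718873026523) (nat_lit 152) (nat_lit 6961227744226) (nat_lit 0) (nat_lit 1718862766277) (nat_lit 1) (nat_lit 5) (nat_lit 3) (nat_lit 4) (nat_lit 1) (nat_lit 4) (nat_lit 411) (nat_lit 306) (nat_lit 303)))) (XT.nd (nat_lit 78) (nat_lit 0) (nat_lit 0) (XT.lf (nat_lit 0) (nat_lit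 1977557952926) (nat_lit 152) (nat_lit 8003576215317) (nat_lit 0) (nat_lit 1977545123364) (nat_lit 1) (nat_lit 5) (nat_lit 3) (nat_lit 4) (nat_lit 1) (nat_lit 4) (nat_lit 412) (nat_lit 306) (nat_lit 302)) (XT.nd (nat_lit 78) (nat_lit 0) (nat_lit 0) (XT.lf (nat_lit 0) (nat_lit 2274983873384) (nat_lit 152) (nat_lit 9202408988529) (nat_lit 0) (nat_lit 2274968809633) (nat_lit 1) (nat_lit 5) (nat_lit 3) (nat_lit 4) (nat_lit 1) (nat_lit 4) (nat_lit 413) (nat_lit 306) (nat_lit 301)) (XT.lf (nat_lit 0) (nat_lit 2616969990687) (nat_lit 152) (nat_lit 10581181487686) (nat_lit 0) (nat_lit 2616952984164) (nat_lit 1) (nat_lit 5) (nat_lit 3) (nat_lit 4) (nat_lit 1) (nat_lit 4) (nat_lit 414) (nat_lit 306) (nat_lit 300)))))) (XT.nd (nat_lit 468) (nat_lit 0) (nat_lit 0) (XT.nd (nat_lit 234) (nat_lit 0) (nat_lit 0) (XT.nd (nat_lit 78) (nat_lit 0) (nat_lit 0) (XT.lf (nat_lit 0) (nat_lit 3010207337566) (nat_lit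 152) (nat_lit 12166869696467) (nat_lit 0) (nat_lit 3010188641675) (nat_lit 1) (nat_lit 5) (nat_lit 3) (nat_lit 4) (nat_lit 1) (nat_lit 4) (nat_lit 415) (nat_lit 306) (nat_lit 299)) (XT.nd (nat_lit 78) (nat_lit 0) (nat_lit 0) (XT.lf (nat_lit 0) (nat_lit 3462389688199) (nat_lit 152) (nat_lit 13990497949392) (nat_lit 0) (nat_lit 3462369523293) (nat_lit 1) (nat_lit 5) (nat_lit 3) (nat_lit 4) (nat_lit 1) (nat_lit 4) (nat_lit 416) (nat_lit 306) (nat_lit 298)) (XT.lf (nat_lit 0) (nat_lit 3982364088576) (nat_lit 152) (nat_lit 16087745929670) (nat_lit 0) (nat_lit 3982342646265) (nat_lit 1) (nat_lit 5) (nat_lit 3) (nat_lit 4) (nat_lit 1) (nat_lit 4) (nat_lit 417) (nat_lit 306) (nat_lit 297)))) (XT.nd (nat_lit 78) (nat_lit 0) (nat_lit 0) (XT.lf (nat_lit 0) (nat_lit 4580303950878) (nat_lit 152) (nat_lit 18499646749959) (nat_lit 0) (nat_lit 4580281397782) (nat_lit 1) (nat_lit 5) (nat_lit 3) (nat_lit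 4) (nat_lit 1) (nat_lit 4) (nat_lit 418) (nat_lit 306) (nat_lit 296)) (XT.nd (nat_lit 78) (nat_lit 0) (nat_lit 0) (XT.lf (nat_lit 0) (nat_lit 5267908098500) (nat_lit 152) (nat_lit 21273389774134) (nat_lit 0) (nat_lit 5267884579501) (nat_lit 1) (nat_lit 5) (nat_lit 3) (nat_lit 4) (nat_lit 1) (nat_lit 4) (nat_lit 419) (nat_lit 306) (nat_lit 295)) (XT.lf (nat_lit 0) (nat_lit 6058629656067) (nat_lit 152) (nat_lit 24463243887450) (nat_lit 0) (nat_lit 6058605297154) (nat_lit 1) (nat_lit 5) (nat_lit 3) (nat_lit 4) (nat_lit 1) (nat_lit 4) (nat_lit 420) (nat_lit 306) (nat_lit 294))))) (XT.nd (nat_lit 234) (nat_lit 0) (nat_lit 0) (XT.nd (nat_lit 78) (nat_lit 0) (nat_lit 0) (XT.lf (nat_lit 0) (nat_lit 6967939262750) (nat_lit 152) (nat_lit 28131619279081) (nat_lit 0) (nat_lit 6967914173477) (nat_lit 1) (nat_lit 5) (nat_lit 3) (nat_lit 4) (nat_lit 1) (nat_lit 4) (nat_lit 421) (nat_lit 306) (nat_lit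 293)) (XT.nd (nat_lit 78) (nat_lit 0) (nat_lit 0) (XT.lf (nat_lit 0) (nat_lit 8013627758679) (nat_lit 152) (nat_lit 32350288511038) (nat_lit 0) (nat_lit 8013602034311) (nat_lit 1) (nat_lit 5) (nat_lit 3) (nat_lit 4) (nat_lit 1) (nat_lit 4) (nat_lit 422) (nat_lit 306) (nat_lit 292)) (XT.lf (nat_lit 0) (nat_lit 9216154266601) (nat_lit 152) (nat_lit 37201790763945) (nat_lit 0) (nat_lit 9216127989976) (nat_lit 1) (nat_lit 5) (nat_lit 3) (nat_lit 4) (nat_lit 1) (nat_lit 4) (nat_lit 423) (nat_lit 306) (nat_lit 291)))) (XT.nd (nat_lit 156) (nat_lit 0) (nat_lit 0) (XT.nd (nat_lit 78) (nat_lit 0) (nat_lit 0) (XT.lf (nat_lit 0) (nat_lit 10599046479063) (nat_lit 152) (nat_lit 42781046734056) (nat_lit 0) (nat_lit 10599019722213) (nat_lit 1) (nat_lit 5) (nat_lit 3) (nat_lit 4) (nat_lit 1) (nat_lit 4) (nat_lit 424) (nat_lit 306) (nat_lit 290)) (XT.lf (nat_lit 0) (nat_lit 12189360982829) (nat_lit 152)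 (nat_lit 49197215777306) (nat_lit 0) (nat_lit 12189333808394) (nat_lit 1) (nat_lit 5) (nat_lit 3) (nat_lit 4) (nat_lit 1) (nat_lit 4) (nat_lit 425) (nat_lit 306) (nat_lit 289))) (XT.nd (nat_lit 78) (nat_lit 0) (nat_lit 0) (XT.lf (nat_lit 0) (nat_lit 14018212626886) (nat_lit 152) (nat_lit 56575831635847) (nat_lit 0) (nat_lit 14018185089333) (nat_lit 1) (nat_lit 5) (nat_lit 3) (nat_lit 4) (nat_lit 1) (nat_lit 4) (nat_lit 426) (nat_lit 306) (nat_lit 288)) (XT.lf (nat_lit 0) (nat_lit 16121383291228) (nat_lit 152) (nat_lit 65061258532998) (nat_lit 0) (nat_lit 16121355437920) (nat_lit 1) (nat_lit 5) (nat_lit 3) (nat_lit 4) (nat_lit 1) (nat_lit 4) (nat_lit 427) (nat_lit 306) (nat_lit 287))))))) (XT.nd (nat_lit 51870) (nat_lit 0) (nat_lit 0) (XT.nd (nat_lit 468) (nat_lit 0) (nat_lit 0) (XT.nd (nat_lit 234) (nat_lit 0) (nat_lit 0) (XT.nd (nat_lit 78) (nat_lit 0) (nat_lit 0) (XT.lf (nat_lit 0) (nat_lit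 18540021967112) (nat_lit 152) (nat_lit 74819515690660) (nat_lit 0) (nat_lit 18539993839234) (nat_lit 1) (nat_lit 5) (nat_lit 3) (nat_lit 4) (nat_lit 1) (nat_lit 4) (nat_lit 428) (nat_lit 306) (nat_lit 286)) (XT.nd (nat_lit 78) (nat_lit 0) (nat_lit 0) (XT.lf (nat_lit 0) (nat_lit 21321449846024) (nat_lit 152) (nat_lit 86041525531482) (nat_lit 0) (nat_lit 21321421479390) (nat_lit 1) (nat_lit 5) (nat_lit 3) (nat_lit 4) (nat_lit 1) (nat_lit 4) (nat_lit 429) (nat_lit 306) (nat_lit 285)) (XT.lf (nat_lit 0) (nat_lit 24520086169072) (nat_lit 152) (nat_lit 98946849117568) (nat_lit 0) (nat_lit 24520057594824) (nat_lit 1) (nat_lit 5) (nat_lit 3) (nat_lit 4) (nat_lit 1) (nat_lit 4) (nat_lit 430) (nat_lit 306) (nat_lit 284)))) (XT.nd (nat_lit 78) (nat_lit 0) (nat_lit 0) (XT.lf (nat_lit 0) (nat_lit 28198512951273) (nat_lit 152) (nat_lit 113787981910384) (nat_lit 0) (nat_lit 28198484196491) (nat_lit 1)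 (nat_lit 5) (nat_lit 3) (nat_lit 4) (nat_lit 1) (nat_lit 4) (nat_lit 431) (nat_lit 306) (nat_lit 283)) (XT.nd (nat_lit 78) (nat_lit 0) (nat_lit 0) (XT.lf (nat_lit 0) (nat_lit 32428699412278) (nat_lit 152) (nat_lit 130855293899355) (nat_lit 0) (nat_lit 32428670500511) (nat_lit 1) (nat_lit 5) (nat_lit 3) (nat_lit 4) (nat_lit 1) (nat_lit 4) (nat_lit 432) (nat_lit 306) (nat_lit 282)) (XT.lf (nat_lit 0) (nat_lit 37293410069803) (nat_lit 152) (nat_lit 150482710753831) (nat_lit 0) (nat_lit 37293381021527) (nat_lit 1) (nat_lit 5) (nat_lit 3) (nat_lit 4) (nat_lit 1) (nat_lit 4) (nat_lit 433) (nat_lit 306) (nat_lit 281))))) (XT.nd (nat_lit 51090) (nat_lit 0) (nat_lit 0) (XT.nd (nat_lit 50934) (nat_lit 0) (nat_lit 0) (XT.lf (nat_lit 0) (nat_lit 42887824045409) (nat_lit 152) (nat_lit 173054247151399) (nat_lit 0) (nat_lit 42887794878428) (nat_lit 1) (nat_lit 5) (nat_lit 3) (nat_lit 4) (nat_lit 1) (nat_lit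 4) (nat_lit 434) (nat_lit 306) (nat_lit 280)) (XT.nd (nat_lit 78) (nat_lit 0) (nat_lit 0) (XT.lf (nat_lit 0) (nat_lit 425407083665) (nat_lit 152) (nat_lit 1734531397168) (nat_lit 0) (nat_lit 425407083665) (nat_lit 1) (nat_lit 5) (nat_lit 3) (nat_lit 4) (nat_lit 1) (nat_lit 4) (nat_lit 406) (nat_lit 307) (nat_lit 307)) (XT.lf (nat_lit 0) (nat_lit 979701916869) (nat_lit 152) (nat_lit 3986704830571) (nat_lit 0) (nat_lit 979697423118) (nat_lit 1) (nat_lit 5) (nat_lit 3) (nat_lit 4) (nat_lit 1) (nat_lit 4) (nat_lit 407) (nat_lit 307) (nat_lit 306)))) (XT.nd (nat_lit 156) (nat_lit 0) (nat_lit 0) (XT.nd (nat_lit 78) (nat_lit 0) (nat_lit 0) (XT.lf (nat_lit 0) (nat_lit 1127814836611) (nat_lit 152) (nat_lit 4582224096087) (nat_lit 0) (nat_lit 1127806435250) (nat_lit 1) (nat_lit 5) (nat_lit 3) (nat_lit 4) (nat_lit 1) (nat_lit 4) (nat_lit 408) (nat_lit 307) (nat_lit 305)) (XT.lf (nat_lit 0) (nat_lit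 1298050788029) (nat_lit 152) (nat_lit 5267272054773) (nat_lit 0) (nat_lit 1298038988747) (nat_lit 1) (nat_lit 5) (nat_lit 3) (nat_lit 4) (nat_lit 1) (nat_lit 4) (nat_lit 409) (nat_lit 307) (nat_lit 304))) (XT.nd (nat_lit 78) (nat_lit 0) (nat_lit 0) (XT.lf (nat_lit 0) (nat_lit 1493740474522) (nat_lit 152) (nat_lit 6055251818864) (nat_lit 0) (nat_lit 1493725720526) (nat_lit 1) (nat_lit 5) (nat_lit 3) (nat_lit 4) (nat_lit 1) (nat_lit 4) (nat_lit 410) (nat_lit 307) (nat_lit 303)) (XT.lf (nat_lit 0) (nat_lit 1718712607347) (nat_lit 152) (nat_lit 6961580383745) (nat_lit 0) (nat_lit 1718695284034) (nat_lit 1) (nat_lit 5) (nat_lit 3) (nat_lit 4) (nat_lit 1) (nat_lit 4) (nat_lit 411) (nat_lit 307) (nat_lit 302)))))) (XT.nd (nat_lit 468) (nat_lit 0) (nat_lit 0) (XT.nd (nat_lit 234) (nat_lit 0) (nat_lit 0) (XT.nd (nat_lit 78) (nat_lit 0) (nat_lit 0) (XT.lf (nat_lit 0) (nat_lit 1977368815189) (nat_lit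 152) (nat_lit 8003990264816) (nat_lit 0) (nat_lit 1977349257688) (nat_lit 1) (nat_lit 5) (nat_lit 3) (nat_lit 4) (nat_lit 1) (nat_lit 4) (nat_lit 412) (nat_lit 307) (nat_lit 301)) (XT.nd (nat_lit 78) (nat_lit 0) (nat_lit 0) (XT.lf (nat_lit 0) (nat_lit 2274769762985) (nat_lit 152) (nat_lit 9202876438011) (nat_lit 0) (nat_lit 2274748262711) (nat_lit 1) (nat_lit 5) (nat_lit 3) (nat_lit 4) (nat_lit 1) (nat_lit 4) (nat_lit 413) (nat_lit 307) (nat_lit 300)) (XT.lf (nat_lit 0) (nat_lit 2616734164931) (nat_lit 152) (nat_lit 10581695371936) (nat_lit 0) (nat_lit 2616710975289) (nat_lit 1) (nat_lit 5) (nat_lit 3) (nat_lit 4) (nat_lit 1) (nat_lit 4) (nat_lit 414) (nat_lit 307) (nat_lit 299)))) (XT.nd (nat_lit 78) (nat_lit 0) (nat_lit 0) (XT.lf (nat_lit 0) (nat_lit 3009952628890) (nat_lit 152) (nat_lit 12167423958776) (nat_lit 0) (nat_lit 3009927970233) (nat_lit 1) (nat_lit 5) (nat_lit 3) (nat_lit 4)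 (nat_lit 1) (nat_lit 4) (nat_lit 415) (nat_lit 307) (nat_lit 298)) (XT.nd (nat_lit 78) (nat_lit 0) (nat_lit 0) (XT.lf (nat_lit 0) (nat_lit 3462118559592) (nat_lit 152) (nat_lit 13991087323057) (nat_lit 0) (nat_lit 3462092623530) (nat_lit 1) (nat_lit 5) (nat_lit 3) (nat_lit 4) (nat_lit 1) (nat_lit 4) (nat_lit 416) (nat_lit 307) (nat_lit 297)) (XT.lf (nat_lit 0) (nat_lit 3982078681768) (nat_lit 152) (nat_lit 16088365834948) (nat_lit 0) (nat_lit 3982051634920) (nat_lit 1) (nat_lit 5) (nat_lit 3) (nat_lit 4) (nat_lit 1) (nat_lit 4) (nat_lit 417) (nat_lit 307) (nat_lit 296))))) (XT.nd (nat_lit 234) (nat_lit 0) (nat_lit 0) (XT.nd (nat_lit 78) (nat_lit 0) (nat_lit 0) (XT.lf (nat_lit 0) (nat_lit 4580006128245) (nat_lit 152) (nat_lit 18500293204466) (nat_lit 0) (nat_lit 4579978115495) (nat_lit 1) (nat_lit 5) (nat_lit 3) (nat_lit 4) (nat_lit 1) (nat_lit 4) (nat_lit 418) (nat_lit 307) (nat_lit 295))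 (XT.nd (nat_lit 78) (nat_lit 0) (nat_lit 0) (XT.lf (nat_lit 0) (nat_lit 5267599479495) (nat_lit 152) (nat_lit 21274059314927) (nat_lit 0) (nat_lit 5267570626832) (nat_lit 1) (nat_lit 5) (nat_lit 3) (nat_lit 4) (nat_lit 1) (nat_lit 4) (nat_lit 419) (nat_lit 307) (nat_lit 294)) (XT.lf (nat_lit 0) (nat_lit 6058311648914) (nat_lit 152) (nat_lit 24463933503275) (nat_lit 0) (nat_lit 6058282065890) (nat_lit 1) (nat_lit 5) (nat_lit 3) (nat_lit 4) (nat_lit 1) (nat_lit 4) (nat_lit 420) (nat_lit 307) (nat_lit 293)))) (XT.nd (nat_lit 156) (nat_lit 0) (nat_lit 0) (XT.nd (nat_lit 78) (nat_lit 0) (nat_lit 0) (XT.lf (nat_lit 0) (nat_lit 6967613091989) (nat_lit 152) (nat_lit 28132326351455) (nat_lit 0) (nat_lit 6967582873870) (nat_lit 1) (nat_lit 5) (nat_lit 3) (nat_lit 4) (nat_lit 1) (nat_lit 4) (nat_lit 421) (nat_lit 307) (nat_lit 292)) (XT.lf (nat_lit 0) (nat_lit 8013294489129) (nat_lit 152) (nat_lit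 32351010763020) (nat_lit 0) (nat_lit 8013263718753) (nat_lit 1) (nat_lit 5) (nat_lit 3) (nat_lit 4) (nat_lit 1) (nat_lit 4) (nat_lit 422) (nat_lit 307) (nat_lit 291))) (XT.nd (nat_lit 78) (nat_lit 0) (nat_lit 0) (XT.lf (nat_lit 0) (nat_lit 9215814824191) (nat_lit 152) (nat_lit 37202526215586) (nat_lit 0) (nat_lit 9215783573591) (nat_lit 1) (nat_lit 5) (nat_lit 3) (nat_lit 4) (nat_lit 1) (nat_lit 4) (nat_lit 423) (nat_lit 307) (nat_lit 290)) (XT.lf (nat_lit 0) (nat_lit 10598701668948) (nat_lit 152) (nat_lit 42781793663661) (nat_lit 0) (nat_lit 10598670000762) (nat_lit 1) (nat_lit 5) (nat_lit 3) (nat_lit 4) (nat_lit 1) (nat_lit 4) (nat_lit 424) (nat_lit 307) (nat_lit 289))))))))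
noncomputable def xc6 : XT := (XT.nd (nat_lit 52650) (nat_lit 0) (nat_lit 0) (XT.nd (nat_lit 51636) (nat_lit 0) (nat_lit 0) (XT.nd (nat_lit 468) (nat_lit 0) (nat_lit 0) (XT.nd (nat_lit 234) (nat_lit 0) (nat_lit 0) (XT.nd (nat_lit 78) (nat_lit 0) (nat_lit 0) (XT.lf (nat_lit 0) (nat_lit 12189011505146) (nat_lit 152) (nat_lit 49197972687750) (nat_lit 0) (nat_lit 12188979473841) (nat_lit 1) (nat_lit 5) (nat_lit 3) (nat_lit 4) (nat_lit 1) (nat_lit 4) (nat_lit 425) (nat_lit 307) (nat_lit 288)) (XT.nd (nat_lit 78) (nat_lit 0) (nat_lit 0) (XT.lf (nat_lit 0) (nat_lit 14017859090447) (nat_lit 152) (nat_lit 56576597225281) (nat_lit 0) (nat_lit 14017826743388) (nat_lit 1) (nat_lit 5) (nat_lit 3) (nat_lit 4) (nat_lit 1) (nat_lit 4) (nat_lit 426) (nat_lit 307) (nat_lit 287)) (XT.lf (nat_lit 0) (nat_lit 16121026225436) (nat_lit 152) (nat_lit 65062031669380) (nat_lit 0) (nat_lit 16120993603807) (nat_lit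 1) (nat_lit 5) (nat_lit 3) (nat_lit 4) (nat_lit 1) (nat_lit 4) (nat_lit 427) (nat_lit 307) (nat_lit 286)))) (XT.nd (nat_lit 78) (nat_lit 0) (nat_lit 0) (XT.lf (nat_lit 0) (nat_lit 18539661832318) (nat_lit 152) (nat_lit 74820295389605) (nat_lit 0) (nat_lit 18539628971933) (nat_lit 1) (nat_lit 5) (nat_lit 3) (nat_lit 4) (nat_lit 1) (nat_lit 4) (nat_lit 428) (nat_lit 307) (nat_lit 285)) (XT.nd (nat_lit 78) (nat_lit 0) (nat_lit 0) (XT.lf (nat_lit 0) (nat_lit 21321087042532) (nat_lit 152) (nat_lit 86042310937004) (nat_lit 0) (nat_lit 21321053974533) (nat_lit 1) (nat_lit 5) (nat_lit 3) (nat_lit 4) (nat_lit 1) (nat_lit 4) (nat_lit 429) (nat_lit 307) (nat_lit 284)) (XT.lf (nat_lit 0) (nat_lit 24519721044973) (nat_lit 152) (nat_lit 98947639485331) (nat_lit 0) (nat_lit 24519687796441) (nat_lit 1) (nat_lit 5) (nat_lit 3) (nat_lit 4) (nat_lit 1) (nat_lit 4) (nat_lit 430) (nat_lit 307) (nat_lit 283)))))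 (XT.nd (nat_lit 234) (nat_lit 0) (nat_lit 0) (XT.nd (nat_lit 78) (nat_lit 0) (nat_lit 0) (XT.lf (nat_lit 0) (nat_lit 28198145809255) (nat_lit 152) (nat_lit 113788776593139) (nat_lit 0) (nat_lit 28198112403737) (nat_lit 1) (nat_lit 5) (nat_lit 3) (nat_lit 4) (nat_lit 1) (nat_lit 4) (nat_lit 431) (nat_lit 307) (nat_lit 282)) (XT.nd (nat_lit 78) (nat_lit 0) (nat_lit 0) (XT.lf (nat_lit 0) (nat_lit 32428330515549) (nat_lit 152) (nat_lit 130856092334277) (nat_lit 0) (nat_lit 32428296973521) (nat_lit 1) (nat_lit 5) (nat_lit 3) (nat_lit 4) (nat_lit 1) (nat_lit 4) (nat_lit 432) (nat_lit 307) (nat_lit 281)) (XT.lf (nat_lit 0) (nat_lit 37293039647237) (nat_lit 152) (nat_lit 150483512451507) (nat_lit 0) (nat_lit 37293005986505) (nat_lit 1) (nat_lit 5) (nat_lit 3) (nat_lit 4) (nat_lit 1) (nat_lit 4) (nat_lit 433) (nat_lit 307) (nat_lit 280)))) (XT.nd (nat_lit 50778) (nat_lit 0) (nat_lit 0) (XT.lf (nat_lit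 0) (nat_lit 42887452296028) (nat_lit 152) (nat_lit 173055051686252) (nat_lit 0) (nat_lit 42887418532075) (nat_lit 1) (nat_lit 5) (nat_lit 3) (nat_lit 4) (nat_lit 1) (nat_lit 4) (nat_lit 434) (nat_lit 307) (nat_lit 279)) (XT.nd (nat_lit 78) (nat_lit 0) (nat_lit 0) (XT.lf (nat_lit 0) (nat_lit 320512856898) (nat_lit 152) (nat_lit 1314041390766) (nat_lit 0) (nat_lit 320512856898) (nat_lit 1) (nat_lit 5) (nat_lit 3) (nat_lit 4) (nat_lit 1) (nat_lit 4) (nat_lit 404) (nat_lit 308) (nat_lit 308)) (XT.lf (nat_lit 0) (nat_lit 738635038971) (nat_lit 152) (nat_lit 3019170208410) (nat_lit 0) (nat_lit 738629871157) (nat_lit 1) (nat_lit 5) (nat_lit 3) (nat_lit 4) (nat_lit 1) (nat_lit 4) (nat_lit 405) (nat_lit 308) (nat_lit 307)))))) (XT.nd (nat_lit 468) (nat_lit 0) (nat_lit 0) (XT.nd (nat_lit 234) (nat_lit 0) (nat_lit 0) (XT.nd (nat_lit 78) (nat_lit 0) (nat_lit 0) (XT.lf (nat_lit 0) (nat_lit 850761571860)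 (nat_lit 152) (nat_lit 3469186311741) (nat_lit 0) (nat_lit 850751910295) (nat_lit 1) (nat_lit 5) (nat_lit 3) (nat_lit 4) (nat_lit 1) (nat_lit 4) (nat_lit 406) (nat_lit 308) (nat_lit 306)) (XT.nd (nat_lit 78) (nat_lit 0) (nat_lit 0) (XT.lf (nat_lit 0) (nat_lit 979599092455) (nat_lit 152) (nat_lit 3986935754416) (nat_lit 0) (nat_lit 979585523281) (nat_lit 1) (nat_lit 5) (nat_lit 3) (nat_lit 4) (nat_lit 1) (nat_lit 4) (nat_lit 407) (nat_lit 308) (nat_lit 305)) (XT.lf (nat_lit 0) (nat_lit 1127668334856) (nat_lit 152) (nat_lit 4582548416835) (nat_lit 0) (nat_lit 1127651367760) (nat_lit 1) (nat_lit 5) (nat_lit 3) (nat_lit 4) (nat_lit 1) (nat_lit 4) (nat_lit 408) (nat_lit 308) (nat_lit 304)))) (XT.nd (nat_lit 78) (nat_lit 0) (nat_lit 0) (XT.lf (nat_lit 0) (nat_lit 1297866305978) (nat_lit 152) (nat_lit 5267677590220) (nat_lit 0) (nat_lit 1297846384167) (nat_lit 1) (nat_lit 5) (nat_lit 3) (nat_lit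 4) (nat_lit 1) (nat_lit 4) (nat_lit 409) (nat_lit 308) (nat_lit 303)) (XT.nd (nat_lit 78) (nat_lit 0) (nat_lit 0) (XT.lf (nat_lit 0) (nat_lit 1493522966125) (nat_lit 152) (nat_lit 6055727975789) (nat_lit 0) (nat_lit 1493500474998) (nat_lit 1) (nat_lit 5) (nat_lit 3) (nat_lit 4) (nat_lit 1) (nat_lit 4) (nat_lit 410) (nat_lit 308) (nat_lit 302)) (XT.lf (nat_lit 0) (nat_lit 1718466380389) (nat_lit 152) (nat_lit 6962117950650) (nat_lit 0) (nat_lit 1718441655074) (nat_lit 1) (nat_lit 5) (nat_lit 3) (nat_lit 4) (nat_lit 1) (nat_lit 4) (nat_lit 411) (nat_lit 308) (nat_lit 301))))) (XT.nd (nat_lit 234) (nat_lit 0) (nat_lit 0) (XT.nd (nat_lit 78) (nat_lit 0) (nat_lit 0) (XT.lf (nat_lit 0) (nat_lit 1977097615570) (nat_lit 152) (nat_lit 8004581231704) (nat_lit 0) (nat_lit 1977070947482) (nat_lit 1) (nat_lit 5) (nat_lit 3) (nat_lit 4) (nat_lit 1) (nat_lit 4) (nat_lit 412) (nat_lit 308) (nat_lit 300))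 (XT.nd (nat_lit 78) (nat_lit 0) (nat_lit 0) (XT.lf (nat_lit 0) (nat_lit 2274476848007) (nat_lit 152) (nat_lit 9203513839667) (nat_lit 0) (nat_lit 2274448490552) (nat_lit 1) (nat_lit 5) (nat_lit 3) (nat_lit 4) (nat_lit 1) (nat_lit 4) (nat_lit 413) (nat_lit 308) (nat_lit 299)) (XT.lf (nat_lit 0) (nat_lit 2616422367033) (nat_lit 152) (nat_lit 10582373151650) (nat_lit 0) (nat_lit 2616392540562) (nat_lit 1) (nat_lit 5) (nat_lit 3) (nat_lit 4) (nat_lit 1) (nat_lit 4) (nat_lit 414) (nat_lit 308) (nat_lit 298)))) (XT.nd (nat_lit 156) (nat_lit 0) (nat_lit 0) (XT.nd (nat_lit 78) (nat_lit 0) (nat_lit 0) (XT.lf (nat_lit 0) (nat_lit 3009624411061) (nat_lit 152) (nat_lit 12168136849846) (nat_lit 0) (nat_lit 3009593307186) (nat_lit 1) (nat_lit 5) (nat_lit 3) (nat_lit 4) (nat_lit 1) (nat_lit 4) (nat_lit 415) (nat_lit 308) (nat_lit 297)) (XT.lf (nat_lit 0) (nat_lit 3461776063563) (nat_lit 152) (nat_lit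 13991830745740) (nat_lit 0) (nat_lit 3461743848901) (nat_lit 1) (nat_lit 5) (nat_lit 3) (nat_lit 4) (nat_lit 1) (nat_lit 4) (nat_lit 416) (nat_lit 308) (nat_lit 296))) (XT.nd (nat_lit 78) (nat_lit 0) (nat_lit 0) (XT.lf (nat_lit 0) (nat_lit 3981723769913) (nat_lit 152) (nat_lit 16089135806861) (nat_lit 0) (nat_lit 3981690589350) (nat_lit 1) (nat_lit 5) (nat_lit 3) (nat_lit 4) (nat_lit 1) (nat_lit 4) (nat_lit 417) (nat_lit 308) (nat_lit 295)) (XT.lf (nat_lit 0) (nat_lit 4579640420019) (nat_lit 152) (nat_lit 18501086262665) (nat_lit 0) (nat_lit 4579606399541) (nat_lit 1) (nat_lit 5) (nat_lit 3) (nat_lit 4) (nat_lit 1) (nat_lit 4) (nat_lit 418) (nat_lit 308) (nat_lit 294))))))) (XT.nd (nat_lit 1014) (nat_lit 0) (nat_lit 0) (XT.nd (nat_lit 468) (nat_lit 0) (nat_lit 0) (XT.nd (nat_lit 234) (nat_lit 0) (nat_lit 0) (XT.nd (nat_lit 78) (nat_lit 0) (nat_lit 0) (XT.lf (nat_lit 0) (nat_lit 5267224383120)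 (nat_lit 152) (nat_lit 21274872448157) (nat_lit 0) (nat_lit 5267189632283) (nat_lit 1) (nat_lit 5) (nat_lit 3) (nat_lit 4) (nat_lit 1) (nat_lit 4) (nat_lit 419) (nat_lit 308) (nat_lit 293)) (XT.nd (nat_lit 78) (nat_lit 0) (nat_lit 0) (XT.lf (nat_lit 0) (nat_lit 6057928388932) (nat_lit 152) (nat_lit 24464764093054) (nat_lit 0) (nat_lit 6057893002998) (nat_lit 1) (nat_lit 5) (nat_lit 3) (nat_lit 4) (nat_lit 1) (nat_lit 4) (nat_lit 420) (nat_lit 308) (nat_lit 292)) (XT.lf (nat_lit 0) (nat_lit 6967222733218) (nat_lit 152) (nat_lit 28133172120843) (nat_lit 0) (nat_lit 6967186795027) (nat_lit 1) (nat_lit 5) (nat_lit 3) (nat_lit 4) (nat_lit 1) (nat_lit 4) (nat_lit 421) (nat_lit 308) (nat_lit 291)))) (XT.nd (nat_lit 78) (nat_lit 0) (nat_lit 0) (XT.lf (nat_lit 0) (nat_lit 8012897957498) (nat_lit 152) (nat_lit 32351869732066) (nat_lit 0) (nat_lit 8012861539084) (nat_lit 1) (nat_lit 5) (nat_lit 3)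 (nat_lit 4) (nat_lit 1) (nat_lit 4) (nat_lit 422) (nat_lit 308) (nat_lit 290)) (XT.nd (nat_lit 78) (nat_lit 0) (nat_lit 0) (XT.lf (nat_lit 0) (nat_lit 9215412924856) (nat_lit 152) (nat_lit 37203396662597) (nat_lit 0) (nat_lit 9215376088856) (nat_lit 1) (nat_lit 5) (nat_lit 3) (nat_lit 4) (nat_lit 1) (nat_lit 4) (nat_lit 423) (nat_lit 308) (nat_lit 289)) (XT.lf (nat_lit 0) (nat_lit 10598295102044) (nat_lit 152) (nat_lit 42782674091511) (nat_lit 0) (nat_lit 10598257902926) (nat_lit 1) (nat_lit 5) (nat_lit 3) (nat_lit 4) (nat_lit 1) (nat_lit 4) (nat_lit 424) (nat_lit 308) (nat_lit 288))))) (XT.nd (nat_lit 234) (nat_lit 0) (nat_lit 0) (XT.nd (nat_lit 78) (nat_lit 0) (nat_lit 0) (XT.lf (nat_lit 0) (nat_lit 12188600879485) (nat_lit 152) (nat_lit 49198861794590) (nat_lit 0) (nat_lit 12188563364612) (nat_lit 1) (nat_lit 5) (nat_lit 3) (nat_lit 4) (nat_lit 1) (nat_lit 4) (nat_lit 425) (nat_lit 308)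 (nat_lit 287)) (XT.nd (nat_lit 78) (nat_lit 0) (nat_lit 0) (XT.lf (nat_lit 0) (nat_lit 14017444935434) (nat_lit 152) (nat_lit 56577493879069) (nat_lit 0) (nat_lit 14017407145992) (nat_lit 1) (nat_lit 5) (nat_lit 3) (nat_lit 4) (nat_lit 1) (nat_lit 4) (nat_lit 426) (nat_lit 308) (nat_lit 286)) (XT.lf (nat_lit 0) (nat_lit 16120609001420) (nat_lit 152) (nat_lit 65062934885731) (nat_lit 0) (nat_lit 16120570973222) (nat_lit 1) (nat_lit 5) (nat_lit 3) (nat_lit 4) (nat_lit 1) (nat_lit 4) (nat_lit 427) (nat_lit 308) (nat_lit 285)))) (XT.nd (nat_lit 156) (nat_lit 0) (nat_lit 0) (XT.nd (nat_lit 78) (nat_lit 0) (nat_lit 0) (XT.lf (nat_lit 0) (nat_lit 18539241939604) (nat_lit 152) (nat_lit 74821204312533) (nat_lit 0) (nat_lit 18539203703792) (nat_lit 1) (nat_lit 5) (nat_lit 3) (nat_lit 4) (nat_lit 1) (nat_lit 4) (nat_lit 428) (nat_lit 308) (nat_lit 284)) (XT.lf (nat_lit 0) (nat_lit 21320664829212)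 (nat_lit 152) (nat_lit 86043224822173) (nat_lit 0) (nat_lit 21320626412865) (nat_lit 1) (nat_lit 5) (nat_lit 3) (nat_lit 4) (nat_lit 1) (nat_lit 4) (nat_lit 429) (nat_lit 308) (nat_lit 283))) (XT.nd (nat_lit 78) (nat_lit 0) (nat_lit 0) (XT.lf (nat_lit 0) (nat_lit 24519296813734) (nat_lit 152) (nat_lit 98948557685491) (nat_lit 0) (nat_lit 24519258240402) (nat_lit 1) (nat_lit 5) (nat_lit 3) (nat_lit 4) (nat_lit 1) (nat_lit 4) (nat_lit 430) (nat_lit 308) (nat_lit 282)) (XT.lf (nat_lit 0) (nat_lit 28197719823304) (nat_lit 152) (nat_lit 113789698545466) (nat_lit 0) (nat_lit 28197681113462) (nat_lit 1) (nat_lit 5) (nat_lit 3) (nat_lit 4) (nat_lit 1) (nat_lit 4) (nat_lit 431) (nat_lit 308) (nat_lit 281)))))) (XT.nd (nat_lit 50934) (nat_lit 0) (nat_lit 0) (XT.nd (nat_lit 234) (nat_lit 0) (nat_lit 0) (XT.nd (nat_lit 78) (nat_lit 0) (nat_lit 0) (XT.lf (nat_lit 0) (nat_lit 32427903003761) (nat_lit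 152) (nat_lit 130857017549358) (nat_lit 0) (nat_lit 32427864175215) (nat_lit 1) (nat_lit 5) (nat_lit 3) (nat_lit 4) (nat_lit 1) (nat_lit 4) (nat_lit 432) (nat_lit 308) (nat_lit 280)) (XT.nd (nat_lit 78) (nat_lit 0) (nat_lit 0) (XT.lf (nat_lit 0) (nat_lit 37292610808635) (nat_lit 152) (nat_lit 150484440503765) (nat_lit 0) (nat_lit 37292571876869) (nat_lit 1) (nat_lit 5) (nat_lit 3) (nat_lit 4) (nat_lit 1) (nat_lit 4) (nat_lit 433) (nat_lit 308) (nat_lit 279)) (XT.lf (nat_lit 0) (nat_lit 42887022303675) (nat_lit 152) (nat_lit 173055982205621) (nat_lit 0) (nat_lit 42886983282151) (nat_lit 1) (nat_lit 5) (nat_lit 3) (nat_lit 4) (nat_lit 1) (nat_lit 4) (nat_lit 434) (nat_lit 308) (nat_lit 278)))) (XT.nd (nat_lit 50544) (nat_lit 0) (nat_lit 0) (XT.lf (nat_lit 0) (nat_lit 49320593365956) (nat_lit 152) (nat_lit 199013259775180) (nat_lit 0) (nat_lit 49320554266382) (nat_lit 1) (nat_lit 5) (nat_lit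 3) (nat_lit 4) (nat_lit 1) (nat_lit 4) (nat_lit 435) (nat_lit 308) (nat_lit 277)) (XT.nd (nat_lit 78) (nat_lit 0) (nat_lit 0) (XT.lf (nat_lit 0) (nat_lit 241024349277) (nat_lit 152) (nat_lit 996463504124) (nat_lit 0) (nat_lit 241024349277) (nat_lit 1) (nat_lit 5) (nat_lit 3) (nat_lit 4) (nat_lit 1) (nat_lit 4) (nat_lit 402) (nat_lit 309) (nat_lit 309)) (XT.lf (nat_lit 0) (nat_lit 556029791658) (nat_lit 152) (nat_lit 2288272320582) (nat_lit 0) (nat_lit 556023848672) (nat_lit 1) (nat_lit 5) (nat_lit 3) (nat_lit 4) (nat_lit 1) (nat_lit 4) (nat_lit 403) (nat_lit 309) (nat_lit 308))))) (XT.nd (nat_lit 234) (nat_lit 0) (nat_lit 0) (XT.nd (nat_lit 78) (nat_lit 0) (nat_lit 0) (XT.lf (nat_lit 0) (nat_lit 640965229006) (nat_lit 152) (nat_lit 2628224826549) (nat_lit 0) (nat_lit 640954118207) (nat_lit 1) (nat_lit 5) (nat_lit 3) (nat_lit 4) (nat_lit 1) (nat_lit 4) (nat_lit 404) (nat_lit 309) (nat_lit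 307)) (XT.nd (nat_lit 78) (nat_lit 0) (nat_lit 0) (XT.lf (nat_lit 0) (nat_lit 738516790896) (nat_lit 152) (nat_lit 3019435770832) (nat_lit 0) (nat_lit 738501186345) (nat_lit 1) (nat_lit 5) (nat_lit 3) (nat_lit 4) (nat_lit 1) (nat_lit 4) (nat_lit 405) (nat_lit 309) (nat_lit 306)) (XT.lf (nat_lit 0) (nat_lit 850593094842) (nat_lit 152) (nat_lit 3469559280602) (nat_lit 0) (nat_lit 850573582682) (nat_lit 1) (nat_lit 5) (nat_lit 3) (nat_lit 4) (nat_lit 1) (nat_lit 4) (nat_lit 406) (nat_lit 309) (nat_lit 305)))) (XT.nd (nat_lit 156) (nat_lit 0) (nat_lit 0) (XT.nd (nat_lit 78) (nat_lit 0) (nat_lit 0) (XT.lf (nat_lit 0) (nat_lit 979386938096) (nat_lit 152) (nat_lit 3987402120180) (nat_lit 0) (nat_lit 979364028014) (nat_lit 1) (nat_lit 5) (nat_lit 3) (nat_lit 4) (nat_lit 1) (nat_lit 4) (nat_lit 407) (nat_lit 309) (nat_lit 304)) (XT.lf (nat_lit 0) (nat_lit 1127418200199) (nat_lit 152) (nat_lit 4583095997298)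 (nat_lit 0) (nat_lit 1127392335403) (nat_lit 1) (nat_lit 5) (nat_lit 3) (nat_lit 4) (nat_lit 1) (nat_lit 4) (nat_lit 408) (nat_lit 309) (nat_lit 303))) (XT.nd (nat_lit 78) (nat_lit 0) (nat_lit 0) (XT.lf (nat_lit 0) (nat_lit 1297583144976) (nat_lit 152) (nat_lit 5268295792160) (nat_lit 0) (nat_lit 1297554710863) (nat_lit 1) (nat_lit 5) (nat_lit 3) (nat_lit 4) (nat_lit 1) (nat_lit 4) (nat_lit 409) (nat_lit 309) (nat_lit 302)) (XT.lf (nat_lit 0) (nat_lit 1493211086563) (nat_lit 152) (nat_lit 6056407587709) (nat_lit 0) (nat_lit 1493180418261) (nat_lit 1) (nat_lit 5) (nat_lit 3) (nat_lit 4) (nat_lit 1) (nat_lit 4) (nat_lit 410) (nat_lit 309) (nat_lit 301))))))))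
noncomputable def xc7 : XT := (XT.nd (nat_lit 52338) (nat_lit 0) (nat_lit 0) (XT.nd (nat_lit 1014) (nat_lit 0) (nat_lit 0) (XT.nd (nat_lit 468) (nat_lit 0) (nat_lit 0) (XT.nd (nat_lit 234) (nat_lit 0) (nat_lit 0) (XT.nd (nat_lit 78) (nat_lit 0) (nat_lit 0) (XT.lf (nat_lit 0) (nat_lit 1718129528165) (nat_lit 152) (nat_lit 6962850962554) (nat_lit 0) (nat_lit 1718096917091) (nat_lit 1) (nat_lit 5) (nat_lit 3) (nat_lit 4) (nat_lit 1) (nat_lit 4) (nat_lit 411) (nat_lit 309) (nat_lit 300)) (XT.nd (nat_lit 78) (nat_lit 0) (nat_lit 0) (XT.lf (nat_lit 0) (nat_lit 1976739047987) (nat_lit 152) (nat_lit 8005360678376) (nat_lit 0) (nat_lit 1976704747546) (nat_lit 1) (nat_lit 5) (nat_lit 3) (nat_lit 4) (nat_lit 1) (nat_lit 4) (nat_lit 412) (nat_lit 309) (nat_lit 299)) (XT.lf (nat_lit 0) (nat_lit 2274099397505) (nat_lit 152) (nat_lit 9204333664397) (nat_lit 0) (nat_lit 2274063628048) (nat_lit 1) (nat_lit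 5) (nat_lit 3) (nat_lit 4) (nat_lit 1) (nat_lit 4) (nat_lit 413) (nat_lit 309) (nat_lit 298)))) (XT.nd (nat_lit 78) (nat_lit 0) (nat_lit 0) (XT.lf (nat_lit 0) (nat_lit 2616028496599) (nat_lit 152) (nat_lit 10583228087736) (nat_lit 0) (nat_lit 2615991449738) (nat_lit 1) (nat_lit 5) (nat_lit 3) (nat_lit 4) (nat_lit 1) (nat_lit 4) (nat_lit 414) (nat_lit 309) (nat_lit 297)) (XT.nd (nat_lit 78) (nat_lit 0) (nat_lit 0) (XT.lf (nat_lit 0) (nat_lit 3009216262427) (nat_lit 152) (nat_lit 12169022317545) (nat_lit 0) (nat_lit 3009178104780) (nat_lit 1) (nat_lit 5) (nat_lit 3) (nat_lit 4) (nat_lit 1) (nat_lit 4) (nat_lit 415) (nat_lit 309) (nat_lit 296)) (XT.lf (nat_lit 0) (nat_lit 3461355499103) (nat_lit 152) (nat_lit 13992742762668) (nat_lit 0) (nat_lit 3461316375554) (nat_lit 1) (nat_lit 5) (nat_lit 3) (nat_lit 4) (nat_lit 1) (nat_lit 4) (nat_lit 416) (nat_lit 309) (nat_lit 295))))) (XT.nd (nat_lit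 234) (nat_lit 0) (nat_lit 0) (XT.nd (nat_lit 78) (nat_lit 0) (nat_lit 0) (XT.lf (nat_lit 0) (nat_lit 3981292409082) (nat_lit 152) (nat_lit 16090070910075) (nat_lit 0) (nat_lit 3981252445619) (nat_lit 1) (nat_lit 5) (nat_lit 3) (nat_lit 4) (nat_lit 1) (nat_lit 4) (nat_lit 417) (nat_lit 309) (nat_lit 294)) (XT.nd (nat_lit 78) (nat_lit 0) (nat_lit 0) (XT.lf (nat_lit 0) (nat_lit 4579199671039) (nat_lit 152) (nat_lit 18502041440911) (nat_lit 0) (nat_lit 4579158977216) (nat_lit 1) (nat_lit 5) (nat_lit 3) (nat_lit 4) (nat_lit 1) (nat_lit 4) (nat_lit 418) (nat_lit 309) (nat_lit 293)) (XT.lf (nat_lit 0) (nat_lit 5266775470534) (nat_lit 152) (nat_lit 21275845082952) (nat_lit 0) (nat_lit 5266734141614) (nat_lit 1) (nat_lit 5) (nat_lit 3) (nat_lit 4) (nat_lit 1) (nat_lit 4) (nat_lit 419) (nat_lit 309) (nat_lit 292)))) (XT.nd (nat_lit 156) (nat_lit 0) (nat_lit 0) (XT.nd (nat_lit 78) (nat_lit 0) (nat_lit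 0) (XT.lf (nat_lit 0) (nat_lit 6057472377556) (nat_lit 152) (nat_lit 24465751907457) (nat_lit 0) (nat_lit 6057430496379) (nat_lit 1) (nat_lit 5) (nat_lit 3) (nat_lit 4) (nat_lit 1) (nat_lit 4) (nat_lit 420) (nat_lit 309) (nat_lit 291)) (XT.lf (nat_lit 0) (nat_lit 6966760548982) (nat_lit 152) (nat_lit 28134173134905) (nat_lit 0) (nat_lit 6966718187582) (nat_lit 1) (nat_lit 5) (nat_lit 3) (nat_lit 4) (nat_lit 1) (nat_lit 4) (nat_lit 421) (nat_lit 309) (nat_lit 290))) (XT.nd (nat_lit 78) (nat_lit 0) (nat_lit 0) (XT.lf (nat_lit 0) (nat_lit 8012430405558) (nat_lit 152) (nat_lit 32352882224093) (nat_lit 0) (nat_lit 8012387626572) (nat_lit 1) (nat_lit 5) (nat_lit 3) (nat_lit 4) (nat_lit 1) (nat_lit 4) (nat_lit 422) (nat_lit 309) (nat_lit 289)) (XT.lf (nat_lit 0) (nat_lit 9214940705346) (nat_lit 152) (nat_lit 37204419135462) (nat_lit 0) (nat_lit 9214897563242) (nat_lit 1) (nat_lit 5) (nat_lit 3)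 (nat_lit 4) (nat_lit 1) (nat_lit 4) (nat_lit 423) (nat_lit 309) (nat_lit 288)))))) (XT.nd (nat_lit 468) (nat_lit 0) (nat_lit 0) (XT.nd (nat_lit 234) (nat_lit 0) (nat_lit 0) (XT.nd (nat_lit 78) (nat_lit 0) (nat_lit 0) (XT.lf (nat_lit 0) (nat_lit 10597818823779) (nat_lit 152) (nat_lit 42783705243366) (nat_lit 0) (nat_lit 10597775365920) (nat_lit 1) (nat_lit 5) (nat_lit 3) (nat_lit 4) (nat_lit 1) (nat_lit 4) (nat_lit 424) (nat_lit 309) (nat_lit 287)) (XT.nd (nat_lit 78) (nat_lit 0) (nat_lit 0) (XT.lf (nat_lit 0) (nat_lit 12188121071867) (nat_lit 152) (nat_lit 49199900493393) (nat_lit 0) (nat_lit 12188077339439) (nat_lit 1) (nat_lit 5) (nat_lit 3) (nat_lit 4) (nat_lit 1) (nat_lit 4) (nat_lit 425) (nat_lit 309) (nat_lit 286)) (XT.lf (nat_lit 0) (nat_lit 14016962058814) (nat_lit 152) (nat_lit 56578539140435) (nat_lit 0) (nat_lit 14016918087630) (nat_lit 1) (nat_lit 5) (nat_lit 3) (nat_lit 4)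 (nat_lit 1) (nat_lit 4) (nat_lit 426) (nat_lit 309) (nat_lit 285)))) (XT.nd (nat_lit 78) (nat_lit 0) (nat_lit 0) (XT.lf (nat_lit 0) (nat_lit 16120123456102) (nat_lit 152) (nat_lit 65063985853675) (nat_lit 0) (nat_lit 16120079277304) (nat_lit 1) (nat_lit 5) (nat_lit 3) (nat_lit 4) (nat_lit 1) (nat_lit 4) (nat_lit 427) (nat_lit 309) (nat_lit 284)) (XT.nd (nat_lit 78) (nat_lit 0) (nat_lit 0) (XT.lf (nat_lit 0) (nat_lit 18538754073680) (nat_lit 152) (nat_lit 74822260242717) (nat_lit 0) (nat_lit 18538709714348) (nat_lit 1) (nat_lit 5) (nat_lit 3) (nat_lit 4) (nat_lit 1) (nat_lit 4) (nat_lit 428) (nat_lit 309) (nat_lit 283)) (XT.lf (nat_lit 0) (nat_lit 21320174945368) (nat_lit 152) (nat_lit 86044285067349) (nat_lit 0) (nat_lit 21320130429050) (nat_lit 1) (nat_lit 5) (nat_lit 3) (nat_lit 4) (nat_lit 1) (nat_lit 4) (nat_lit 429) (nat_lit 309) (nat_lit 282))))) (XT.nd (nat_lit 234) (nat_lit 0) (nat_lit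 0) (XT.nd (nat_lit 78) (nat_lit 0) (nat_lit 0) (XT.lf (nat_lit 0) (nat_lit 24518805175178) (nat_lit 152) (nat_lit 98949621682834) (nat_lit 0) (nat_lit 24518760522351) (nat_lit 1) (nat_lit 5) (nat_lit 3) (nat_lit 4) (nat_lit 1) (nat_lit 4) (nat_lit 430) (nat_lit 309) (nat_lit 281)) (XT.nd (nat_lit 78) (nat_lit 0) (nat_lit 0) (XT.lf (nat_lit 0) (nat_lit 28197226658912) (nat_lit 152) (nat_lit 113790765805563) (nat_lit 0) (nat_lit 28197181887380) (nat_lit 1) (nat_lit 5) (nat_lit 3) (nat_lit 4) (nat_lit 1) (nat_lit 4) (nat_lit 431) (nat_lit 309) (nat_lit 280)) (XT.lf (nat_lit 0) (nat_lit 32427408512554) (nat_lit 152) (nat_lit 130858087646633) (nat_lit 0) (nat_lit 32427363637802) (nat_lit 1) (nat_lit 5) (nat_lit 3) (nat_lit 4) (nat_lit 1) (nat_lit 4) (nat_lit 432) (nat_lit 309) (nat_lit 279)))) (XT.nd (nat_lit 156) (nat_lit 0) (nat_lit 0) (XT.nd (nat_lit 78) (nat_lit 0) (nat_lit 0) (XT.lf (nat_lit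 0) (nat_lit 37292115163677) (nat_lit 152) (nat_lit 150485513068150) (nat_lit 0) (nat_lit 37292070199167) (nat_lit 1) (nat_lit 5) (nat_lit 3) (nat_lit 4) (nat_lit 1) (nat_lit 4) (nat_lit 433) (nat_lit 309) (nat_lit 278)) (XT.lf (nat_lit 0) (nat_lit 42886525655454) (nat_lit 152) (nat_lit 173057056915320) (nat_lit 0) (nat_lit 42886480612894) (nat_lit 1) (nat_lit 5) (nat_lit 3) (nat_lit 4) (nat_lit 1) (nat_lit 4) (nat_lit 434) (nat_lit 309) (nat_lit 277))) (XT.nd (nat_lit 50388) (nat_lit 0) (nat_lit 0) (XT.lf (nat_lit 0) (nat_lit 49320095845333) (nat_lit 152) (nat_lit 199014336350369) (nat_lit 0) (nat_lit 49320050734904) (nat_lit 1) (nat_lit 5) (nat_lit 3) (nat_lit 4) (nat_lit 1) (nat_lit 4) (nat_lit 435) (nat_lit 309) (nat_lit 276)) (XT.lf (nat_lit 0) (nat_lit 180720204953) (nat_lit 152) (nat_lit 756757910456) (nat_lit 0) (nat_lit 180720204953) (nat_lit 1) (nat_lit 5) (nat_lit 3) (nat_lit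 4) (nat_lit 1) (nat_lit 4) (nat_lit 400) (nat_lit 310) (nat_lit 310))))))) (XT.nd (nat_lit 1014) (nat_lit 0) (nat_lit 0) (XT.nd (nat_lit 468) (nat_lit 0) (nat_lit 0) (XT.nd (nat_lit 234) (nat_lit 0) (nat_lit 0) (XT.nd (nat_lit 78) (nat_lit 0) (nat_lit 0) (XT.lf (nat_lit 0) (nat_lit 417581327961) (nat_lit 152) (nat_lit 1736410394310) (nat_lit 0) (nat_lit 417574493528) (nat_lit 1) (nat_lit 5) (nat_lit 3) (nat_lit 4) (nat_lit 1) (nat_lit 4) (nat_lit 401) (nat_lit 310) (nat_lit 309)) (XT.nd (nat_lit 78) (nat_lit 0) (nat_lit 0) (XT.lf (nat_lit 0) (nat_lit 481979141045) (nat_lit 152) (nat_lit 1993090360018) (nat_lit 0) (nat_lit 481966363626) (nat_lit 1) (nat_lit 5) (nat_lit 3) (nat_lit 4) (nat_lit 1) (nat_lit 4) (nat_lit 402) (nat_lit 310) (nat_lit 308)) (XT.lf (nat_lit 0) (nat_lit 555893806371) (nat_lit 152) (nat_lit 2288577717366) (nat_lit 0) (nat_lit 555875861138) (nat_lit 1) (nat_lit 5) (nat_lit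 3) (nat_lit 4) (nat_lit 1) (nat_lit 4) (nat_lit 403) (nat_lit 310) (nat_lit 307)))) (XT.nd (nat_lit 78) (nat_lit 0) (nat_lit 0) (XT.lf (nat_lit 0) (nat_lit 640771480436) (nat_lit 152) (nat_lit 2628653740738) (nat_lit 0) (nat_lit 640749041451) (nat_lit 1) (nat_lit 5) (nat_lit 3) (nat_lit 4) (nat_lit 1) (nat_lit 4) (nat_lit 404) (nat_lit 310) (nat_lit 306)) (XT.nd (nat_lit 78) (nat_lit 0) (nat_lit 0) (XT.lf (nat_lit 0) (nat_lit 738272813383) (nat_lit 152) (nat_lit 3019972091461) (nat_lit 0) (nat_lit 738246466789) (nat_lit 1) (nat_lit 5) (nat_lit 3) (nat_lit 4) (nat_lit 1) (nat_lit 4) (nat_lit 405) (nat_lit 310) (nat_lit 305)) (XT.lf (nat_lit 0) (nat_lit 850305439987) (nat_lit 152) (nat_lit 3470188998134) (nat_lit 0) (nat_lit 850275695472) (nat_lit 1) (nat_lit 5) (nat_lit 3) (nat_lit 4) (nat_lit 1) (nat_lit 4) (nat_lit 406) (nat_lit 310) (nat_lit 304))))) (XT.nd (nat_lit 234) (nat_lit 0) (nat_lit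 0) (XT.nd (nat_lit 78) (nat_lit 0) (nat_lit 0) (XT.lf (nat_lit 0) (nat_lit 979061302944) (nat_lit 152) (nat_lit 3988113052412) (nat_lit 0) (nat_lit 979028603714) (nat_lit 1) (nat_lit 5) (nat_lit 3) (nat_lit 4) (nat_lit 1) (nat_lit 4) (nat_lit 407) (nat_lit 310) (nat_lit 303)) (XT.nd (nat_lit 78) (nat_lit 0) (nat_lit 0) (XT.lf (nat_lit 0) (nat_lit 1127059538702) (nat_lit 152) (nat_lit 4583877551007) (nat_lit 0) (nat_lit 1127024270156) (nat_lit 1) (nat_lit 5) (nat_lit 3) (nat_lit 4) (nat_lit 1) (nat_lit 4) (nat_lit 408) (nat_lit 310) (nat_lit 302)) (XT.lf (nat_lit 0) (nat_lit 1297195764918) (nat_lit 152) (nat_lit 5269138755850) (nat_lit 0) (nat_lit 1297158262183) (nat_lit 1) (nat_lit 5) (nat_lit 3) (nat_lit 4) (nat_lit 1) (nat_lit 4) (nat_lit 409) (nat_lit 310) (nat_lit 301)))) (XT.nd (nat_lit 156) (nat_lit 0) (nat_lit 0) (XT.nd (nat_lit 78) (nat_lit 0) (nat_lit 0) (XT.lf (nat_lit 0) (nat_lit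 1492798733843) (nat_lit 152) (nat_lit 6057303951382) (nat_lit 0) (nat_lit 1492759288335) (nat_lit 1) (nat_lit 5) (nat_lit 3) (nat_lit 4) (nat_lit 1) (nat_lit 4) (nat_lit 410) (nat_lit 310) (nat_lit 300)) (XT.lf (nat_lit 0) (nat_lit 1717695460087) (nat_lit 152) (nat_lit 6963793760994) (nat_lit 0) (nat_lit 1717654325212) (nat_lit 1) (nat_lit 5) (nat_lit 3) (nat_lit 4) (nat_lit 1) (nat_lit 4) (nat_lit 411) (nat_lit 310) (nat_lit 299))) (XT.nd (nat_lit 78) (nat_lit 0) (nat_lit 0) (XT.lf (nat_lit 0) (nat_lit 1976286096989) (nat_lit 152) (nat_lit 8006343854874) (nat_lit 0) (nat_lit 1976243493099) (nat_lit 1) (nat_lit 5) (nat_lit 3) (nat_lit 4) (nat_lit 1) (nat_lit 4) (nat_lit 412) (nat_lit 310) (nat_lit 298)) (XT.lf (nat_lit 0) (nat_lit 2273630026576) (nat_lit 152) (nat_lit 9205351952251) (nat_lit 0) (nat_lit 2273586145281) (nat_lit 1) (nat_lit 5) (nat_lit 3) (nat_lit 4) (nat_lit 1) (nat_lit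 4) (nat_lit 413) (nat_lit 310) (nat_lit 297)))))) (XT.nd (nat_lit 468) (nat_lit 0) (nat_lit 0) (XT.nd (nat_lit 234) (nat_lit 0) (nat_lit 0) (XT.nd (nat_lit 78) (nat_lit 0) (nat_lit 0) (XT.lf (nat_lit 0) (nat_lit 2615544847470) (nat_lit 152) (nat_lit 10584276907204) (nat_lit 0) (nat_lit 2615499855389) (nat_lit 1) (nat_lit 5) (nat_lit 3) (nat_lit 4) (nat_lit 1) (nat_lit 4) (nat_lit 414) (nat_lit 310) (nat_lit 296)) (XT.nd (nat_lit 78) (nat_lit 0) (nat_lit 0) (XT.lf (nat_lit 0) (nat_lit 3008720197472) (nat_lit 152) (nat_lit 12170097686242) (nat_lit 0) (nat_lit 3008674239489) (nat_lit 1) (nat_lit 5) (nat_lit 3) (nat_lit 4) (nat_lit 1) (nat_lit 4) (nat_lit 415) (nat_lit 310) (nat_lit 295)) (XT.lf (nat_lit 0) (nat_lit 3460848637776) (nat_lit 152) (nat_lit 13993841217651) (nat_lit 0) (nat_lit 3460801839880) (nat_lit 1) (nat_lit 5) (nat_lit 3) (nat_lit 4) (nat_lit 1) (nat_lit 4) (nat_lit 416) (nat_lit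 310) (nat_lit 294)))) (XT.nd (nat_lit 78) (nat_lit 0) (nat_lit 0) (XT.lf (nat_lit 0) (nat_lit 3980776159607) (nat_lit 152) (nat_lit 16091189440090) (nat_lit 0) (nat_lit 3980728631350) (nat_lit 1) (nat_lit 5) (nat_lit 3) (nat_lit 4) (nat_lit 1) (nat_lit 4) (nat_lit 417) (nat_lit 310) (nat_lit 293)) (XT.nd (nat_lit 78) (nat_lit 0) (nat_lit 0) (XT.lf (nat_lit 0) (nat_lit 4578675257957) (nat_lit 152) (nat_lit 18503177427475) (nat_lit 0) (nat_lit 4578627094604) (nat_lit 1) (nat_lit 5) (nat_lit 3) (nat_lit 4) (nat_lit 1) (nat_lit 4) (nat_lit 418) (nat_lit 310) (nat_lit 292)) (XT.lf (nat_lit 0) (nat_lit 5266243958662) (nat_lit 152) (nat_lit 21276996249124) (nat_lit 0) (nat_lit 5266195243052) (nat_lit 1) (nat_lit 5) (nat_lit 3) (nat_lit 4) (nat_lit 1) (nat_lit 4) (nat_lit 419) (nat_lit 310) (nat_lit 291))))) (XT.nd (nat_lit 234) (nat_lit 0) (nat_lit 0) (XT.nd (nat_lit 78) (nat_lit 0) (nat_lit 0)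 (XT.lf (nat_lit 0) (nat_lit 6056934692824) (nat_lit 152) (nat_lit 24466916273288) (nat_lit 0) (nat_lit 6056885496990) (nat_lit 1) (nat_lit 5) (nat_lit 3) (nat_lit 4) (nat_lit 1) (nat_lit 4) (nat_lit 420) (nat_lit 310) (nat_lit 290)) (XT.nd (nat_lit 78) (nat_lit 0) (nat_lit 0) (XT.lf (nat_lit 0) (nat_lit 6966217496546) (nat_lit 152) (nat_lit 28135348978700) (nat_lit 0) (nat_lit 6966167883127) (nat_lit 1) (nat_lit 5) (nat_lit 3) (nat_lit 4) (nat_lit 1) (nat_lit 4) (nat_lit 421) (nat_lit 310) (nat_lit 289)) (XT.lf (nat_lit 0) (nat_lit 8011882685553) (nat_lit 152) (nat_lit 32354068048727) (nat_lit 0) (nat_lit 8011832709015) (nat_lit 1) (nat_lit 5) (nat_lit 3) (nat_lit 4) (nat_lit 1) (nat_lit 4) (nat_lit 422) (nat_lit 310) (nat_lit 288)))) (XT.nd (nat_lit 156) (nat_lit 0) (nat_lit 0) (XT.nd (nat_lit 78) (nat_lit 0) (nat_lit 0) (XT.lf (nat_lit 0) (nat_lit 9214388926586) (nat_lit 152) (nat_lit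 37205613639086) (nat_lit 0) (nat_lit 9214338634293) (nat_lit 1) (nat_lit 5) (nat_lit 3) (nat_lit 4) (nat_lit 1) (nat_lit 4) (nat_lit 423) (nat_lit 310) (nat_lit 287)) (XT.lf (nat_lit 0) (nat_lit 10597263515665) (nat_lit 152) (nat_lit 42784907293938) (nat_lit 0) (nat_lit 10597212948803) (nat_lit 1) (nat_lit 5) (nat_lit 3) (nat_lit 4) (nat_lit 1) (nat_lit 4) (nat_lit 424) (nat_lit 310) (nat_lit 286))) (XT.nd (nat_lit 78) (nat_lit 0) (nat_lit 0) (XT.lf (nat_lit 0) (nat_lit 12187562694751) (nat_lit 152) (nat_lit 49201109106528) (nat_lit 0) (nat_lit 12187511889133) (nat_lit 1) (nat_lit 5) (nat_lit 3) (nat_lit 4) (nat_lit 1) (nat_lit 4) (nat_lit 425) (nat_lit 310) (nat_lit 285)) (XT.lf (nat_lit 0) (nat_lit 14016401013000) (nat_lit 152) (nat_lit 56579753460147) (nat_lit 0) (nat_lit 14016349999768) (nat_lit 1) (nat_lit 5) (nat_lit 3) (nat_lit 4) (nat_lit 1) (nat_lit 4) (nat_lit 426) (nat_lit 310)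 (nat_lit 284))))))))
noncomputable def xc8 : XT := (XT.nd (nat_lit 52104) (nat_lit 0) (nat_lit 0) (XT.nd (nat_lit 51090) (nat_lit 0) (nat_lit 0) (XT.nd (nat_lit 468) (nat_lit 0) (nat_lit 0) (XT.nd (nat_lit 234) (nat_lit 0) (nat_lit 0) (XT.nd (nat_lit 78) (nat_lit 0) (nat_lit 0) (XT.lf (nat_lit 0) (nat_lit 16119560089682) (nat_lit 152) (nat_lit 65065205135627) (nat_lit 0) (nat_lit 16119508895916) (nat_lit 1) (nat_lit 5) (nat_lit 3) (nat_lit 4) (nat_lit 1) (nat_lit 4) (nat_lit 427) (nat_lit 310) (nat_lit 283)) (XT.nd (nat_lit 78) (nat_lit 0) (nat_lit 0) (XT.lf (nat_lit 0) (nat_lit 18538188689340) (nat_lit 152) (nat_lit 74823483839662) (nat_lit 0) (nat_lit 18538137338589) (nat_lit 1) (nat_lit 5) (nat_lit 3) (nat_lit 4) (nat_lit 1) (nat_lit 4) (nat_lit 428) (nat_lit 310) (nat_lit 282)) (XT.lf (nat_lit 0) (nat_lit 21319607806317) (nat_lit 152) (nat_lit 86045512416460) (nat_lit 0) (nat_lit 21319556319055)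 (nat_lit 1) (nat_lit 5) (nat_lit 3) (nat_lit 4) (nat_lit 1) (nat_lit 4) (nat_lit 429) (nat_lit 310) (nat_lit 281)))) (XT.nd (nat_lit 78) (nat_lit 0) (nat_lit 0) (XT.lf (nat_lit 0) (nat_lit 24518236510290) (nat_lit 152) (nat_lit 98950852294700) (nat_lit 0) (nat_lit 24518184904325) (nat_lit 1) (nat_lit 5) (nat_lit 3) (nat_lit 4) (nat_lit 1) (nat_lit 4) (nat_lit 430) (nat_lit 310) (nat_lit 280)) (XT.nd (nat_lit 78) (nat_lit 0) (nat_lit 0) (XT.lf (nat_lit 0) (nat_lit 28196656667209) (nat_lit 152) (nat_lit 113791999254606) (nat_lit 0) (nat_lit 28196604958023) (nat_lit 1) (nat_lit 5) (nat_lit 3) (nat_lit 4) (nat_lit 1) (nat_lit 4) (nat_lit 431) (nat_lit 310) (nat_lit 279)) (XT.lf (nat_lit 0) (nat_lit 32426837367100) (nat_lit 152) (nat_lit 130859323562786) (nat_lit 0) (nat_lit 32426785568157) (nat_lit 1) (nat_lit 5) (nat_lit 3) (nat_lit 4) (nat_lit 1) (nat_lit 4) (nat_lit 432) (nat_lit 310) (nat_lit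 278))))) (XT.nd (nat_lit 50388) (nat_lit 0) (nat_lit 0) (XT.nd (nat_lit 78) (nat_lit 0) (nat_lit 0) (XT.lf (nat_lit 0) (nat_lit 37291543014960) (nat_lit 152) (nat_lit 150486751129617) (nat_lit 0) (nat_lit 37291491137967) (nat_lit 1) (nat_lit 5) (nat_lit 3) (nat_lit 4) (nat_lit 1) (nat_lit 4) (nat_lit 433) (nat_lit 310) (nat_lit 277)) (XT.nd (nat_lit 78) (nat_lit 0) (nat_lit 0) (XT.lf (nat_lit 0) (nat_lit 42885952634335) (nat_lit 152) (nat_lit 173058296842277) (nat_lit 0) (nat_lit 42885900689473) (nat_lit 1) (nat_lit 5) (nat_lit 3) (nat_lit 4) (nat_lit 1) (nat_lit 4) (nat_lit 434) (nat_lit 310) (nat_lit 276)) (XT.lf (nat_lit 0) (nat_lit 49319522065604) (nat_lit 152) (nat_lit 199015577899491) (nat_lit 0) (nat_lit 49319470061725) (nat_lit 1) (nat_lit 5) (nat_lit 3) (nat_lit 4) (nat_lit 1) (nat_lit 4) (nat_lit 435) (nat_lit 310) (nat_lit 275)))) (XT.nd (nat_lit 78) (nat_lit 0) (nat_lit 0) (XT.lf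 (nat_lit 0) (nat_lit 134892283549) (nat_lit 152) (nat_lit 575999295107) (nat_lit 0) (nat_lit 134892283549) (nat_lit 1) (nat_lit 5) (nat_lit 3) (nat_lit 4) (nat_lit 1) (nat_lit 4) (nat_lit 398) (nat_lit 311) (nat_lit 311)) (XT.nd (nat_lit 78) (nat_lit 0) (nat_lit 0) (XT.lf (nat_lit 0) (nat_lit 312465837216) (nat_lit 152) (nat_lit 1320045659045) (nat_lit 0) (nat_lit 312457977617) (nat_lit 1) (nat_lit 5) (nat_lit 3) (nat_lit 4) (nat_lit 1) (nat_lit 4) (nat_lit 399) (nat_lit 311) (nat_lit 310)) (XT.lf (nat_lit 0) (nat_lit 361360418771) (nat_lit 152) (nat_lit 1513703675447) (nat_lit 0) (nat_lit 361345724739) (nat_lit 1) (nat_lit 5) (nat_lit 3) (nat_lit 4) (nat_lit 1) (nat_lit 4) (nat_lit 400) (nat_lit 311) (nat_lit 309)))))) (XT.nd (nat_lit 468) (nat_lit 0) (nat_lit 0) (XT.nd (nat_lit 234) (nat_lit 0) (nat_lit 0) (XT.nd (nat_lit 78) (nat_lit 0) (nat_lit 0) (XT.lf (nat_lit 0) (nat_lit 417424944882)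 (nat_lit 152) (nat_lit 1736761600612) (nat_lit 0) (nat_lit 417404307864) (nat_lit 1) (nat_lit 5) (nat_lit 3) (nat_lit 4) (nat_lit 1) (nat_lit 4) (nat_lit 401) (nat_lit 311) (nat_lit 308)) (XT.nd (nat_lit 78) (nat_lit 0) (nat_lit 0) (XT.lf (nat_lit 0) (nat_lit 481756330189) (nat_lit 152) (nat_lit 1993583611336) (nat_lit 0) (nat_lit 481730525357) (nat_lit 1) (nat_lit 5) (nat_lit 3) (nat_lit 4) (nat_lit 1) (nat_lit 4) (nat_lit 402) (nat_lit 311) (nat_lit 307)) (XT.lf (nat_lit 0) (nat_lit 555613232231) (nat_lit 152) (nat_lit 2289194486089) (nat_lit 0) (nat_lit 555582933648) (nat_lit 1) (nat_lit 5) (nat_lit 3) (nat_lit 4) (nat_lit 1) (nat_lit 4) (nat_lit 403) (nat_lit 311) (nat_lit 306)))) (XT.nd (nat_lit 78) (nat_lit 0) (nat_lit 0) (XT.lf (nat_lit 0) (nat_lit 640440677352) (nat_lit 152) (nat_lit 2629377915901) (nat_lit 0) (nat_lit 640406471160) (nat_lit 1) (nat_lit 5) (nat_lit 3) (nat_lit 4)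 (nat_lit 1) (nat_lit 4) (nat_lit 404) (nat_lit 311) (nat_lit 305)) (XT.nd (nat_lit 78) (nat_lit 0) (nat_lit 0) (XT.lf (nat_lit 0) (nat_lit 737898332958) (nat_lit 152) (nat_lit 3020789663527) (nat_lit 0) (nat_lit 737860728844) (nat_lit 1) (nat_lit 5) (nat_lit 3) (nat_lit 4) (nat_lit 1) (nat_lit 4) (nat_lit 405) (nat_lit 311) (nat_lit 304)) (XT.lf (nat_lit 0) (nat_lit 849892979265) (nat_lit 152) (nat_lit 3471087784900) (nat_lit 0) (nat_lit 849852420437) (nat_lit 1) (nat_lit 5) (nat_lit 3) (nat_lit 4) (nat_lit 1) (nat_lit 4) (nat_lit 406) (nat_lit 311) (nat_lit 303))))) (XT.nd (nat_lit 234) (nat_lit 0) (nat_lit 0) (XT.nd (nat_lit 78) (nat_lit 0) (nat_lit 0) (XT.lf (nat_lit 0) (nat_lit 978615815877) (nat_lit 152) (nat_lit 3989082460655) (nat_lit 0) (nat_lit 978572687732) (nat_lit 1) (nat_lit 5) (nat_lit 3) (nat_lit 4) (nat_lit 1) (nat_lit 4) (nat_lit 407) (nat_lit 311) (nat_lit 302)) (XT.nd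 (nat_lit 78) (nat_lit 0) (nat_lit 0) (XT.lf (nat_lit 0) (nat_lit 1126585333074) (nat_lit 152) (nat_lit 4584908369230) (nat_lit 0) (nat_lit 1126539970740) (nat_lit 1) (nat_lit 5) (nat_lit 3) (nat_lit 4) (nat_lit 1) (nat_lit 4) (nat_lit 408) (nat_lit 311) (nat_lit 301)) (XT.lf (nat_lit 0) (nat_lit 1296696586628) (nat_lit 152) (nat_lit 5270222974055) (nat_lit 0) (nat_lit 1296649281522) (nat_lit 1) (nat_lit 5) (nat_lit 3) (nat_lit 4) (nat_lit 1) (nat_lit 4) (nat_lit 409) (nat_lit 311) (nat_lit 300)))) (XT.nd (nat_lit 156) (nat_lit 0) (nat_lit 0) (XT.nd (nat_lit 78) (nat_lit 0) (nat_lit 0) (XT.lf (nat_lit 0) (nat_lit 1492277840195) (nat_lit 152) (nat_lit 6058434604355) (nat_lit 0) (nat_lit 1492228845721) (nat_lit 1) (nat_lit 5) (nat_lit 3) (nat_lit 4) (nat_lit 1) (nat_lit 4) (nat_lit 410) (nat_lit 311) (nat_lit 299)) (XT.lf (nat_lit 0) (nat_lit 1717155683519) (nat_lit 152) (nat_lit 6964964792026)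 (nat_lit 0) (nat_lit 1717105220030) (nat_lit 1) (nat_lit 5) (nat_lit 3) (nat_lit 4) (nat_lit 1) (nat_lit 4) (nat_lit 411) (nat_lit 311) (nat_lit 298))) (XT.nd (nat_lit 78) (nat_lit 0) (nat_lit 0) (XT.lf (nat_lit 0) (nat_lit 1975729900490) (nat_lit 152) (nat_lit 8007549997262) (nat_lit 0) (nat_lit 1975678159597) (nat_lit 1) (nat_lit 5) (nat_lit 3) (nat_lit 4) (nat_lit 1) (nat_lit 4) (nat_lit 412) (nat_lit 311) (nat_lit 297)) (XT.lf (nat_lit 0) (nat_lit 2273059551877) (nat_lit 152) (nat_lit 9206588626253) (nat_lit 0) (nat_lit 2273006700197) (nat_lit 1) (nat_lit 5) (nat_lit 3) (nat_lit 4) (nat_lit 1) (nat_lit 4) (nat_lit 413) (nat_lit 311) (nat_lit 296))))))) (XT.nd (nat_lit 1014) (nat_lit 0) (nat_lit 0) (XT.nd (nat_lit 468) (nat_lit 0) (nat_lit 0) (XT.nd (nat_lit 234) (nat_lit 0) (nat_lit 0) (XT.nd (nat_lit 78) (nat_lit 0) (nat_lit 0) (XT.lf (nat_lit 0) (nat_lit 2614961956945) (nat_lit 152)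 (nat_lit 10585540130434) (nat_lit 0) (nat_lit 2614908139364) (nat_lit 1) (nat_lit 5) (nat_lit 3) (nat_lit 4) (nat_lit 1) (nat_lit 4) (nat_lit 414) (nat_lit 311) (nat_lit 295)) (XT.nd (nat_lit 78) (nat_lit 0) (nat_lit 0) (XT.lf (nat_lit 0) (nat_lit 3008126510576) (nat_lit 152) (nat_lit 12171383995759) (nat_lit 0) (nat_lit 3008071853080) (nat_lit 1) (nat_lit 5) (nat_lit 3) (nat_lit 4) (nat_lit 1) (nat_lit 4) (nat_lit 415) (nat_lit 311) (nat_lit 294)) (XT.lf (nat_lit 0) (nat_lit 3460245562732) (nat_lit 152) (nat_lit 13995147602200) (nat_lit 0) (nat_lit 3460190174876) (nat_lit 1) (nat_lit 5) (nat_lit 3) (nat_lit 4) (nat_lit 1) (nat_lit 4) (nat_lit 416) (nat_lit 311) (nat_lit 293)))) (XT.nd (nat_lit 78) (nat_lit 0) (nat_lit 0) (XT.lf (nat_lit 0) (nat_lit 3980164920955) (nat_lit 152) (nat_lit 16092513281187) (nat_lit 0) (nat_lit 3980108898004) (nat_lit 1) (nat_lit 5) (nat_lit 3) (nat_lit 4) (nat_lit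 1) (nat_lit 4) (nat_lit 417) (nat_lit 311) (nat_lit 292)) (XT.nd (nat_lit 78) (nat_lit 0) (nat_lit 0) (XT.lf (nat_lit 0) (nat_lit 4578056920516) (nat_lit 152) (nat_lit 18504516448180) (nat_lit 0) (nat_lit 4578000345307) (nat_lit 1) (nat_lit 5) (nat_lit 3) (nat_lit 4) (nat_lit 1) (nat_lit 4) (nat_lit 418) (nat_lit 311) (nat_lit 291)) (XT.lf (nat_lit 0) (nat_lit 5265619448361) (nat_lit 152) (nat_lit 21278348469488) (nat_lit 0) (nat_lit 5265562392928) (nat_lit 1) (nat_lit 5) (nat_lit 3) (nat_lit 4) (nat_lit 1) (nat_lit 4) (nat_lit 419) (nat_lit 311) (nat_lit 290))))) (XT.nd (nat_lit 234) (nat_lit 0) (nat_lit 0) (XT.nd (nat_lit 78) (nat_lit 0) (nat_lit 0) (XT.lf (nat_lit 0) (nat_lit 6056304814818) (nat_lit 152) (nat_lit 24468279971617) (nat_lit 0) (nat_lit 6056247341800) (nat_lit 1) (nat_lit 5) (nat_lit 3) (nat_lit 4) (nat_lit 1) (nat_lit 4) (nat_lit 420) (nat_lit 311) (nat_lit 289)) (XT.nd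 (nat_lit 78) (nat_lit 0) (nat_lit 0) (XT.lf (nat_lit 0) (nat_lit 6965582950971) (nat_lit 152) (nat_lit 28136722657867) (nat_lit 0) (nat_lit 6965525114835) (nat_lit 1) (nat_lit 5) (nat_lit 3) (nat_lit 4) (nat_lit 1) (nat_lit 4) (nat_lit 421) (nat_lit 311) (nat_lit 288)) (XT.lf (nat_lit 0) (nat_lit 8011244081222) (nat_lit 152) (nat_lit 32355450406884) (nat_lit 0) (nat_lit 8011185929331) (nat_lit 1) (nat_lit 5) (nat_lit 3) (nat_lit 4) (nat_lit 1) (nat_lit 4) (nat_lit 422) (nat_lit 311) (nat_lit 287)))) (XT.nd (nat_lit 156) (nat_lit 0) (nat_lit 0) (XT.nd (nat_lit 78) (nat_lit 0) (nat_lit 0) (XT.lf (nat_lit 0) (nat_lit 9213746792902) (nat_lit 152) (nat_lit 37207003544192) (nat_lit 0) (nat_lit 9213688366442) (nat_lit 1) (nat_lit 5) (nat_lit 3) (nat_lit 4) (nat_lit 1) (nat_lit 4) (nat_lit 423) (nat_lit 311) (nat_lit 286)) (XT.lf (nat_lit 0) (nat_lit 10596618312979) (nat_lit 152) (nat_lit 42786303761606)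 (nat_lit 0) (nat_lit 10596559647763) (nat_lit 1) (nat_lit 5) (nat_lit 3) (nat_lit 4) (nat_lit 1) (nat_lit 4) (nat_lit 424) (nat_lit 311) (nat_lit 285))) (XT.nd (nat_lit 78) (nat_lit 0) (nat_lit 0) (XT.lf (nat_lit 0) (nat_lit 12186914823368) (nat_lit 152) (nat_lit 49202511280774) (nat_lit 0) (nat_lit 12186855950537) (nat_lit 1) (nat_lit 5) (nat_lit 3) (nat_lit 4) (nat_lit 1) (nat_lit 4) (nat_lit 425) (nat_lit 311) (nat_lit 284)) (XT.lf (nat_lit 0) (nat_lit 14015750821010) (nat_lit 152) (nat_lit 56581160596634) (nat_lit 0) (nat_lit 14015691767646) (nat_lit 1) (nat_lit 5) (nat_lit 3) (nat_lit 4) (nat_lit 1) (nat_lit 4) (nat_lit 426) (nat_lit 311) (nat_lit 283)))))) (XT.nd (nat_lit 468) (nat_lit 0) (nat_lit 0) (XT.nd (nat_lit 234) (nat_lit 0) (nat_lit 0) (XT.nd (nat_lit 78) (nat_lit 0) (nat_lit 0) (XT.lf (nat_lit 0) (nat_lit 16118907879773) (nat_lit 152) (nat_lit 65066616587106) (nat_lit 0)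 (nat_lit 16118848669422) (nat_lit 1) (nat_lit 5) (nat_lit 3) (nat_lit 4) (nat_lit 1) (nat_lit 4) (nat_lit 427) (nat_lit 311) (nat_lit 282)) (XT.nd (nat_lit 78) (nat_lit 0) (nat_lit 0) (XT.lf (nat_lit 0) (nat_lit 18537534724719) (nat_lit 152) (nat_lit 74824899043307) (nat_lit 0) (nat_lit 18537475377859) (nat_lit 1) (nat_lit 5) (nat_lit 3) (nat_lit 4) (nat_lit 1) (nat_lit 4) (nat_lit 428) (nat_lit 311) (nat_lit 281)) (XT.lf (nat_lit 0) (nat_lit 21318952315859) (nat_lit 152) (nat_lit 86046930882860) (nat_lit 0) (nat_lit 21318892850295) (nat_lit 1) (nat_lit 5) (nat_lit 3) (nat_lit 4) (nat_lit 1) (nat_lit 4) (nat_lit 429) (nat_lit 311) (nat_lit 280)))) (XT.nd (nat_lit 78) (nat_lit 0) (nat_lit 0) (XT.lf (nat_lit 0) (nat_lit 24517579693018) (nat_lit 152) (nat_lit 98952273598276) (nat_lit 0) (nat_lit 24517520124233) (nat_lit 1) (nat_lit 5) (nat_lit 3) (nat_lit 4) (nat_lit 1) (nat_lit 4) (nat_lit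 430) (nat_lit 311) (nat_lit 279)) (XT.nd (nat_lit 78) (nat_lit 0) (nat_lit 0) (XT.lf (nat_lit 0) (nat_lit 28195998696186) (nat_lit 152) (nat_lit 113793423025293) (nat_lit 0) (nat_lit 28195939037644) (nat_lit 1) (nat_lit 5) (nat_lit 3) (nat_lit 4) (nat_lit 1) (nat_lit 4) (nat_lit 431) (nat_lit 311) (nat_lit 278)) (XT.lf (nat_lit 0) (nat_lit 32426178392814) (nat_lit 152) (nat_lit 130860749478787) (nat_lit 0) (nat_lit 32426118656222) (nat_lit 1) (nat_lit 5) (nat_lit 3) (nat_lit 4) (nat_lit 1) (nat_lit 4) (nat_lit 432) (nat_lit 311) (nat_lit 277))))) (XT.nd (nat_lit 234) (nat_lit 0) (nat_lit 0) (XT.nd (nat_lit 78) (nat_lit 0) (nat_lit 0) (XT.lf (nat_lit 0) (nat_lit 37290883168272) (nat_lit 152) (nat_lit 150488178911108) (nat_lit 0) (nat_lit 37290823363811) (nat_lit 1) (nat_lit 5) (nat_lit 3) (nat_lit 4) (nat_lit 1) (nat_lit 4) (nat_lit 433) (nat_lit 311) (nat_lit 276)) (XT.nd (nat_lit 78) (nat_lit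 0) (nat_lit 0) (XT.lf (nat_lit 0) (nat_lit 42885292029036) (nat_lit 152) (nat_lit 173059726245933) (nat_lit 0) (nat_lit 42885232165559) (nat_lit 1) (nat_lit 5) (nat_lit 3) (nat_lit 4) (nat_lit 1) (nat_lit 4) (nat_lit 434) (nat_lit 311) (nat_lit 275)) (XT.lf (nat_lit 0) (nat_lit 49318860800644) (nat_lit 152) (nat_lit 199017008713726) (nat_lit 0) (nat_lit 49318800885847) (nat_lit 1) (nat_lit 5) (nat_lit 3) (nat_lit 4) (nat_lit 1) (nat_lit 4) (nat_lit 435) (nat_lit 311) (nat_lit 274)))) (XT.nd (nat_lit 50076) (nat_lit 0) (nat_lit 0) (XT.nd (nat_lit 49998) (nat_lit 0) (nat_lit 0) (XT.lf (nat_lit 0) (nat_lit 56717463654713) (nat_lit 152) (nat_lit 228867886188856) (nat_lit 0) (nat_lit 56717403695291) (nat_lit 1) (nat_lit 5) (nat_lit 3) (nat_lit 4) (nat_lit 1) (nat_lit 4) (nat_lit 436) (nat_lit 311) (nat_lit 273)) (XT.lf (nat_lit 0) (nat_lit 99976067746) (nat_lit 152) (nat_lit 439887051817) (nat_lit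 0) (nat_lit 99976067746) (nat_lit 1) (nat_lit 5) (nat_lit 3) (nat_lit 4) (nat_lit 1) (nat_lit 4) (nat_lit 396) (nat_lit 312) (nat_lit 312))) (XT.nd (nat_lit 78) (nat_lit 0) (nat_lit 0) (XT.lf (nat_lit 0) (nat_lit 232490578628) (nat_lit 152) (nat_lit 1006274591522) (nat_lit 0) (nat_lit 232481540090) (nat_lit 1) (nat_lit 5) (nat_lit 3) (nat_lit 4) (nat_lit 1) (nat_lit 4) (nat_lit 397) (nat_lit 312) (nat_lit 311)) (XT.lf (nat_lit 0) (nat_lit 269692577292) (nat_lit 152) (nat_lit 1152214622928) (nat_lit 0) (nat_lit 269675679154) (nat_lit 1) (nat_lit 5) (nat_lit 3) (nat_lit 4) (nat_lit 1) (nat_lit 4) (nat_lit 398) (nat_lit 312) (nat_lit 310))))))))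
noncomputable def xc9 : XT := (XT.nd (nat_lit 1950) (nat_lit 0) (nat_lit 0) (XT.nd (nat_lit 936) (nat_lit 0) (nat_lit 0) (XT.nd (nat_lit 468) (nat_lit 0) (nat_lit 0) (XT.nd (nat_lit 234) (nat_lit 0) (nat_lit 0) (XT.nd (nat_lit 78) (nat_lit 0) (nat_lit 0) (XT.lf (nat_lit 0) (nat_lit 312285996674) (nat_lit 152) (nat_lit 1320449546292) (nat_lit 0) (nat_lit 312262264103) (nat_lit 1) (nat_lit 5) (nat_lit 3) (nat_lit 4) (nat_lit 1) (nat_lit 4) (nat_lit 399) (nat_lit 312) (nat_lit 309)) (XT.nd (nat_lit 78) (nat_lit 0) (nat_lit 0) (XT.lf (nat_lit 0) (nat_lit 361104186287) (nat_lit 152) (nat_lit 1514270914463) (nat_lit 0) (nat_lit 361074510730) (nat_lit 1) (nat_lit 5) (nat_lit 3) (nat_lit 4) (nat_lit 1) (nat_lit 4) (nat_lit 400) (nat_lit 312) (nat_lit 308)) (XT.lf (nat_lit 0) (nat_lit 417102284620) (nat_lit 152) (nat_lit 1737470884644) (nat_lit 0) (nat_lit 417067441250) (nat_lit 1) (nat_lit 5) (nat_lit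 3) (nat_lit 4) (nat_lit 1) (nat_lit 4) (nat_lit 401) (nat_lit 312) (nat_lit 307)))) (XT.nd (nat_lit 78) (nat_lit 0) (nat_lit 0) (XT.lf (nat_lit 0) (nat_lit 481375906643) (nat_lit 152) (nat_lit 1994416412773) (nat_lit 0) (nat_lit 481336569522) (nat_lit 1) (nat_lit 5) (nat_lit 3) (nat_lit 4) (nat_lit 1) (nat_lit 4) (nat_lit 402) (nat_lit 312) (nat_lit 306)) (XT.nd (nat_lit 78) (nat_lit 0) (nat_lit 0) (XT.lf (nat_lit 0) (nat_lit 555182579743) (nat_lit 152) (nat_lit 2290134693966) (nat_lit 0) (nat_lit 555139335011) (nat_lit 1) (nat_lit 5) (nat_lit 3) (nat_lit 4) (nat_lit 1) (nat_lit 4) (nat_lit 403) (nat_lit 312) (nat_lit 305)) (XT.lf (nat_lit 0) (nat_lit 639966347522) (nat_lit 152) (nat_lit 2630411520681) (nat_lit 0) (nat_lit 639919704870) (nat_lit 1) (nat_lit 5) (nat_lit 3) (nat_lit 4) (nat_lit 1) (nat_lit 4) (nat_lit 404) (nat_lit 312) (nat_lit 304))))) (XT.nd (nat_lit 234) (nat_lit 0) (nat_lit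 0) (XT.nd (nat_lit 78) (nat_lit 0) (nat_lit 0) (XT.lf (nat_lit 0) (nat_lit 737386022831) (nat_lit 152) (nat_lit 3021904483006) (nat_lit 0) (nat_lit 737336425464) (nat_lit 1) (nat_lit 5) (nat_lit 3) (nat_lit 4) (nat_lit 1) (nat_lit 4) (nat_lit 405) (nat_lit 312) (nat_lit 303)) (XT.nd (nat_lit 78) (nat_lit 0) (nat_lit 0) (XT.lf (nat_lit 0) (nat_lit 849347642793) (nat_lit 152) (nat_lit 3472273225856) (nat_lit 0) (nat_lit 849295476110) (nat_lit 1) (nat_lit 5) (nat_lit 3) (nat_lit 4) (nat_lit 1) (nat_lit 4) (nat_lit 406) (nat_lit 312) (nat_lit 302)) (XT.lf (nat_lit 0) (nat_lit 978041760844) (nat_lit 152) (nat_lit 3990329311591) (nat_lit 0) (nat_lit 977987359972) (nat_lit 1) (nat_lit 5) (nat_lit 3) (nat_lit 4) (nat_lit 1) (nat_lit 4) (nat_lit 407) (nat_lit 312) (nat_lit 301)))) (XT.nd (nat_lit 78) (nat_lit 0) (nat_lit 0) (XT.lf (nat_lit 0) (nat_lit 1125986305379) (nat_lit 152) (nat_lit 4586208620150)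 (nat_lit 0) (nat_lit 1125929961734) (nat_lit 1) (nat_lit 5) (nat_lit 3) (nat_lit 4) (nat_lit 1) (nat_lit 4) (nat_lit 408) (nat_lit 312) (nat_lit 300)) (XT.nd (nat_lit 78) (nat_lit 0) (nat_lit 0) (XT.lf (nat_lit 0) (nat_lit 1296075843575) (nat_lit 152) (nat_lit 5271569659743) (nat_lit 0) (nat_lit 1296017810562) (nat_lit 1) (nat_lit 5) (nat_lit 3) (nat_lit 4) (nat_lit 1) (nat_lit 4) (nat_lit 409) (nat_lit 312) (nat_lit 299)) (XT.lf (nat_lit 0) (nat_lit 1491638214222) (nat_lit 152) (nat_lit 6059821668101) (nat_lit 0) (nat_lit 1491578712194) (nat_lit 1) (nat_lit 5) (nat_lit 3) (nat_lit 4) (nat_lit 1) (nat_lit 4) (nat_lit 410) (nat_lit 312) (nat_lit 298)))))) (XT.nd (nat_lit 468) (nat_lit 0) (nat_lit 0) (XT.nd (nat_lit 234) (nat_lit 0) (nat_lit 0) (XT.nd (nat_lit 78) (nat_lit 0) (nat_lit 0) (XT.lf (nat_lit 0) (nat_lit 1716499637615) (nat_lit 152) (nat_lit 6966386967128) (nat_lit 0) (nat_lit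 1716438858183) (nat_lit 1) (nat_lit 5) (nat_lit 3) (nat_lit 4) (nat_lit 1) (nat_lit 4) (nat_lit 411) (nat_lit 312) (nat_lit 297)) (XT.nd (nat_lit 78) (nat_lit 0) (nat_lit 0) (XT.lf (nat_lit 0) (nat_lit 1975059576386) (nat_lit 152) (nat_lit 8009002703977) (nat_lit 0) (nat_lit 1974997686168) (nat_lit 1) (nat_lit 5) (nat_lit 3) (nat_lit 4) (nat_lit 1) (nat_lit 4) (nat_lit 412) (nat_lit 312) (nat_lit 296)) (XT.lf (nat_lit 0) (nat_lit 2272376811947) (nat_lit 152) (nat_lit 9208067882197) (nat_lit 0) (nat_lit 2272313955827) (nat_lit 1) (nat_lit 5) (nat_lit 3) (nat_lit 4) (nat_lit 1) (nat_lit 4) (nat_lit 413) (nat_lit 312) (nat_lit 295)))) (XT.nd (nat_lit 78) (nat_lit 0) (nat_lit 0) (XT.lf (nat_lit 0) (nat_lit 2614268420644) (nat_lit 152) (nat_lit 10587042472665) (nat_lit 0) (nat_lit 2614204724610) (nat_lit 1) (nat_lit 5) (nat_lit 3) (nat_lit 4) (nat_lit 1) (nat_lit 4) (nat_lit 414) (nat_lit 312)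 (nat_lit 294)) (XT.nd (nat_lit 78) (nat_lit 0) (nat_lit 0) (XT.lf (nat_lit 0) (nat_lit 3007423586126) (nat_lit 152) (nat_lit 12172906413021) (nat_lit 0) (nat_lit 3007359159732) (nat_lit 1) (nat_lit 5) (nat_lit 3) (nat_lit 4) (nat_lit 1) (nat_lit 4) (nat_lit 415) (nat_lit 312) (nat_lit 293)) (XT.lf (nat_lit 0) (nat_lit 3459534474674) (nat_lit 152) (nat_lit 13996687476011) (nat_lit 0) (nat_lit 3459469413184) (nat_lit 1) (nat_lit 5) (nat_lit 3) (nat_lit 4) (nat_lit 1) (nat_lit 4) (nat_lit 416) (nat_lit 312) (nat_lit 292))))) (XT.nd (nat_lit 234) (nat_lit 0) (nat_lit 0) (XT.nd (nat_lit 78) (nat_lit 0) (nat_lit 0) (XT.lf (nat_lit 0) (nat_lit 3979446734109) (nat_lit 152) (nat_lit 16094068334606) (nat_lit 0) (nat_lit 3979381120361) (nat_lit 1) (nat_lit 5) (nat_lit 3) (nat_lit 4) (nat_lit 1) (nat_lit 4) (nat_lit 417) (nat_lit 312) (nat_lit 291)) (XT.nd (nat_lit 78) (nat_lit 0) (nat_lit 0) (XT.lf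 (nat_lit 0) (nat_lit 4577332560809) (nat_lit 152) (nat_lit 18506084701258) (nat_lit 0) (nat_lit 4577266466838) (nat_lit 1) (nat_lit 5) (nat_lit 3) (nat_lit 4) (nat_lit 1) (nat_lit 4) (nat_lit 418) (nat_lit 312) (nat_lit 290)) (XT.lf (nat_lit 0) (nat_lit 5264889720950) (nat_lit 152) (nat_lit 21279928200531) (nat_lit 0) (nat_lit 5264823209393) (nat_lit 1) (nat_lit 5) (nat_lit 3) (nat_lit 4) (nat_lit 1) (nat_lit 4) (nat_lit 419) (nat_lit 312) (nat_lit 289)))) (XT.nd (nat_lit 156) (nat_lit 0) (nat_lit 0) (XT.nd (nat_lit 78) (nat_lit 0) (nat_lit 0) (XT.lf (nat_lit 0) (nat_lit 6055570419839) (nat_lit 152) (nat_lit 24469869683498) (nat_lit 0) (nat_lit 6055503545164) (nat_lit 1) (nat_lit 5) (nat_lit 3) (nat_lit 4) (nat_lit 1) (nat_lit 4) (nat_lit 420) (nat_lit 312) (nat_lit 288)) (XT.lf (nat_lit 0) (nat_lit 6964844497236) (nat_lit 152) (nat_lit 28138321048738) (nat_lit 0) (nat_lit 6964777306806)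 (nat_lit 1) (nat_lit 5) (nat_lit 3) (nat_lit 4) (nat_lit 1) (nat_lit 4) (nat_lit 421) (nat_lit 312) (nat_lit 287))) (XT.nd (nat_lit 78) (nat_lit 0) (nat_lit 0) (XT.lf (nat_lit 0) (nat_lit 8010502098134) (nat_lit 152) (nat_lit 32357056344703) (nat_lit 0) (nat_lit 8010434633135) (nat_lit 1) (nat_lit 5) (nat_lit 3) (nat_lit 4) (nat_lit 1) (nat_lit 4) (nat_lit 422) (nat_lit 312) (nat_lit 286)) (XT.lf (nat_lit 0) (nat_lit 9213001740812) (nat_lit 152) (nat_lit 37208616044574) (nat_lit 0) (nat_lit 9212934037056) (nat_lit 1) (nat_lit 5) (nat_lit 3) (nat_lit 4) (nat_lit 1) (nat_lit 4) (nat_lit 423) (nat_lit 312) (nat_lit 285))))))) (XT.nd (nat_lit 50778) (nat_lit 0) (nat_lit 0) (XT.nd (nat_lit 468) (nat_lit 0) (nat_lit 0) (XT.nd (nat_lit 234) (nat_lit 0) (nat_lit 0) (XT.nd (nat_lit 78) (nat_lit 0) (nat_lit 0) (XT.lf (nat_lit 0) (nat_lit 10595870592191) (nat_lit 152) (nat_lit 42787921968566) (nat_lit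 0) (nat_lit 10595802680822) (nat_lit 1) (nat_lit 5) (nat_lit 3) (nat_lit 4) (nat_lit 1) (nat_lit 4) (nat_lit 424) (nat_lit 312) (nat_lit 284)) (XT.nd (nat_lit 78) (nat_lit 0) (nat_lit 0) (XT.lf (nat_lit 0) (nat_lit 12186164781973) (nat_lit 152) (nat_lit 49204134449974) (nat_lit 0) (nat_lit 12186096690069) (nat_lit 1) (nat_lit 5) (nat_lit 3) (nat_lit 4) (nat_lit 1) (nat_lit 4) (nat_lit 425) (nat_lit 312) (nat_lit 283)) (XT.lf (nat_lit 0) (nat_lit 14014998761696) (nat_lit 152) (nat_lit 56582788080826) (nat_lit 0) (nat_lit 14014930512807) (nat_lit 1) (nat_lit 5) (nat_lit 3) (nat_lit 4) (nat_lit 1) (nat_lit 4) (nat_lit 426) (nat_lit 312) (nat_lit 282)))) (XT.nd (nat_lit 78) (nat_lit 0) (nat_lit 0) (XT.lf (nat_lit 0) (nat_lit 16118154065747) (nat_lit 152) (nat_lit 65068247823465) (nat_lit 0) (nat_lit 16118085680348) (nat_lit 1) (nat_lit 5) (nat_lit 3) (nat_lit 4) (nat_lit 1) (nat_lit 4) (nat_lit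 427) (nat_lit 312) (nat_lit 281)) (XT.nd (nat_lit 78) (nat_lit 0) (nat_lit 0) (XT.lf (nat_lit 0) (nat_lit 18536779384856) (nat_lit 152) (nat_lit 74826533542420) (nat_lit 0) (nat_lit 18536710880754) (nat_lit 1) (nat_lit 5) (nat_lit 3) (nat_lit 4) (nat_lit 1) (nat_lit 4) (nat_lit 428) (nat_lit 312) (nat_lit 280)) (XT.lf (nat_lit 0) (nat_lit 21318195649181) (nat_lit 152) (nat_lit 86048568219150) (nat_lit 0) (nat_lit 21318127041858) (nat_lit 1) (nat_lit 5) (nat_lit 3) (nat_lit 4) (nat_lit 1) (nat_lit 4) (nat_lit 429) (nat_lit 312) (nat_lit 279))))) (XT.nd (nat_lit 234) (nat_lit 0) (nat_lit 0) (XT.nd (nat_lit 78) (nat_lit 0) (nat_lit 0) (XT.lf (nat_lit 0) (nat_lit 24516821872589) (nat_lit 152) (nat_lit 98953913401677) (nat_lit 0) (nat_lit 24516753175509) (nat_lit 1) (nat_lit 5) (nat_lit 3) (nat_lit 4) (nat_lit 1) (nat_lit 4) (nat_lit 430) (nat_lit 312) (nat_lit 278)) (XT.nd (nat_lit 78) (nat_lit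 0) (nat_lit 0) (XT.lf (nat_lit 0) (nat_lit 28195239872494) (nat_lit 152) (nat_lit 113795064974007) (nat_lit 0) (nat_lit 28195171097364) (nat_lit 1) (nat_lit 5) (nat_lit 3) (nat_lit 4) (nat_lit 1) (nat_lit 4) (nat_lit 431) (nat_lit 312) (nat_lit 277)) (XT.lf (nat_lit 0) (nat_lit 32425418696720) (nat_lit 152) (nat_lit 130862393292991) (nat_lit 0) (nat_lit 32425349853721) (nat_lit 1) (nat_lit 5) (nat_lit 3) (nat_lit 4) (nat_lit 1) (nat_lit 4) (nat_lit 432) (nat_lit 312) (nat_lit 276)))) (XT.nd (nat_lit 156) (nat_lit 0) (nat_lit 0) (XT.nd (nat_lit 78) (nat_lit 0) (nat_lit 0) (XT.lf (nat_lit 0) (nat_lit 37290122713568) (nat_lit 152) (nat_lit 150489824347478) (nat_lit 0) (nat_lit 37290053811552) (nat_lit 1) (nat_lit 5) (nat_lit 3) (nat_lit 4) (nat_lit 1) (nat_lit 4) (nat_lit 433) (nat_lit 312) (nat_lit 275)) (XT.lf (nat_lit 0) (nat_lit 42884530914671) (nat_lit 152) (nat_lit 173061373092881) (nat_lit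 0) (nat_lit 42884461961336) (nat_lit 1) (nat_lit 5) (nat_lit 3) (nat_lit 4) (nat_lit 1) (nat_lit 4) (nat_lit 434) (nat_lit 312) (nat_lit 274))) (XT.nd (nat_lit 78) (nat_lit 0) (nat_lit 0) (XT.lf (nat_lit 0) (nat_lit 49318099112660) (nat_lit 152) (nat_lit 199018656787264) (nat_lit 0) (nat_lit 49318030114700) (nat_lit 1) (nat_lit 5) (nat_lit 3) (nat_lit 4) (nat_lit 1) (nat_lit 4) (nat_lit 435) (nat_lit 312) (nat_lit 273)) (XT.lf (nat_lit 0) (nat_lit 56716701467930) (nat_lit 152) (nat_lit 228869535328995) (nat_lit 0) (nat_lit 56716632431165) (nat_lit 1) (nat_lit 5) (nat_lit 3) (nat_lit 4) (nat_lit 1) (nat_lit 4) (nat_lit 436) (nat_lit 312) (nat_lit 272)))))) (XT.nd (nat_lit 468) (nat_lit 0) (nat_lit 0) (XT.nd (nat_lit 234) (nat_lit 0) (nat_lit 0) (XT.nd (nat_lit 78) (nat_lit 0) (nat_lit 0) (XT.lf (nat_lit 0) (nat_lit 73271110548) (nat_lit 152) (nat_lit 337618965880) (nat_lit 0) (nat_lit 73271110548)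 (nat_lit 1) (nat_lit 5) (nat_lit 3) (nat_lit 4) (nat_lit 1) (nat_lit 4) (nat_lit 394) (nat_lit 313) (nat_lit 313)) (XT.nd (nat_lit 78) (nat_lit 0) (nat_lit 0) (XT.lf (nat_lit 0) (nat_lit 171451020492) (nat_lit 152) (nat_lit 770238149718) (nat_lit 0) (nat_lit 171440626173) (nat_lit 1) (nat_lit 5) (nat_lit 3) (nat_lit 4) (nat_lit 1) (nat_lit 4) (nat_lit 395) (nat_lit 313) (nat_lit 312)) (XT.lf (nat_lit 0) (nat_lit 199846347216) (nat_lit 152) (nat_lit 880022541255) (nat_lit 0) (nat_lit 199826914358) (nat_lit 1) (nat_lit 5) (nat_lit 3) (nat_lit 4) (nat_lit 1) (nat_lit 4) (nat_lit 396) (nat_lit 313) (nat_lit 311)))) (XT.nd (nat_lit 78) (nat_lit 0) (nat_lit 0) (XT.lf (nat_lit 0) (nat_lit 232283762006) (nat_lit 152) (nat_lit 1006739061857) (nat_lit 0) (nat_lit 232256469549) (nat_lit 1) (nat_lit 5) (nat_lit 3) (nat_lit 4) (nat_lit 1) (nat_lit 4) (nat_lit 397) (nat_lit 313) (nat_lit 310)) (XT.nd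 (nat_lit 78) (nat_lit 0) (nat_lit 0) (XT.lf (nat_lit 0) (nat_lit 269397909934) (nat_lit 152) (nat_lit 1152866947796) (nat_lit 0) (nat_lit 269363783044) (nat_lit 1) (nat_lit 5) (nat_lit 3) (nat_lit 4) (nat_lit 1) (nat_lit 4) (nat_lit 398) (nat_lit 313) (nat_lit 309)) (XT.lf (nat_lit 0) (nat_lit 311914937374) (nat_lit 152) (nat_lit 1321265222929) (nat_lit 0) (nat_lit 311874867498) (nat_lit 1) (nat_lit 5) (nat_lit 3) (nat_lit 4) (nat_lit 1) (nat_lit 4) (nat_lit 399) (nat_lit 313) (nat_lit 308))))) (XT.nd (nat_lit 234) (nat_lit 0) (nat_lit 0) (XT.nd (nat_lit 78) (nat_lit 0) (nat_lit 0) (XT.lf (nat_lit 0) (nat_lit 360666699209) (nat_lit 152) (nat_lit 1515228636115) (nat_lit 0) (nat_lit 360621461519) (nat_lit 1) (nat_lit 5) (nat_lit 3) (nat_lit 4) (nat_lit 1) (nat_lit 4) (nat_lit 400) (nat_lit 313) (nat_lit 307)) (XT.nd (nat_lit 78) (nat_lit 0) (nat_lit 0) (XT.lf (nat_lit 0) (nat_lit 416607034259)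 (nat_lit 152) (nat_lit 1738552123701) (nat_lit 0) (nat_lit 416557302818) (nat_lit 1) (nat_lit 5) (nat_lit 3) (nat_lit 4) (nat_lit 1) (nat_lit 4) (nat_lit 401) (nat_lit 313) (nat_lit 306)) (XT.lf (nat_lit 0) (nat_lit 480830427339) (nat_lit 152) (nat_lit 1995605058270) (nat_lit 0) (nat_lit 480776788288) (nat_lit 1) (nat_lit 5) (nat_lit 3) (nat_lit 4) (nat_lit 1) (nat_lit 4) (nat_lit 402) (nat_lit 313) (nat_lit 305)))) (XT.nd (nat_lit 156) (nat_lit 0) (nat_lit 0) (XT.nd (nat_lit 78) (nat_lit 0) (nat_lit 0) (XT.lf (nat_lit 0) (nat_lit 554593423096) (nat_lit 152) (nat_lit 2291416736367) (nat_lit 0) (nat_lit 554536386124) (nat_lit 1) (nat_lit 5) (nat_lit 3) (nat_lit 4) (nat_lit 1) (nat_lit 4) (nat_lit 403) (nat_lit 313) (nat_lit 304)) (XT.lf (nat_lit 0) (nat_lit 639339210579) (nat_lit 152) (nat_lit 2631774777781) (nat_lit 0) (nat_lit 639279218893) (nat_lit 1) (nat_lit 5) (nat_lit 3) (nat_lit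 4) (nat_lit 1) (nat_lit 4) (nat_lit 404) (nat_lit 313) (nat_lit 303))) (XT.nd (nat_lit 78) (nat_lit 0) (nat_lit 0) (XT.lf (nat_lit 0) (nat_lit 736725859543) (nat_lit 152) (nat_lit 3023338361583) (nat_lit 0) (nat_lit 736663298539) (nat_lit 1) (nat_lit 5) (nat_lit 3) (nat_lit 4) (nat_lit 1) (nat_lit 4) (nat_lit 405) (nat_lit 313) (nat_lit 302)) (XT.lf (nat_lit 0) (nat_lit 848658760944) (nat_lit 152) (nat_lit 3473768514413) (nat_lit 0) (nat_lit 848593965752) (nat_lit 1) (nat_lit 5) (nat_lit 3) (nat_lit 4) (nat_lit 1) (nat_lit 4) (nat_lit 406) (nat_lit 313) (nat_lit 301))))))))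
noncomputable def xc10 : XT := (XT.nd (nat_lit 1950) (nat_lit 0) (nat_lit 0) (XT.nd (nat_lit 936) (nat_lit 0) (nat_lit 0) (XT.nd (nat_lit 468) (nat_lit 0) (nat_lit 0) (XT.nd (nat_lit 234) (nat_lit 0) (nat_lit 0) (XT.nd (nat_lit 78) (nat_lit 0) (nat_lit 0) (XT.lf (nat_lit 0) (nat_lit 977327906333) (nat_lit 152) (nat_lit 3991878000131) (nat_lit 0) (nat_lit 977261168368) (nat_lit 1) (nat_lit 5) (nat_lit 3) (nat_lit 4) (nat_lit 1) (nat_lit 4) (nat_lit 407) (nat_lit 313) (nat_lit 300)) (XT.nd (nat_lit 78) (nat_lit 0) (nat_lit 0) (XT.lf (nat_lit 0) (nat_lit 1125250735510) (nat_lit 152) (nat_lit 4587803743458) (nat_lit 0) (nat_lit 1125182308178) (nat_lit 1) (nat_lit 5) (nat_lit 3) (nat_lit 4) (nat_lit 1) (nat_lit 4) (nat_lit 408) (nat_lit 313) (nat_lit 299)) (XT.lf (nat_lit 0) (nat_lit 1295321390785) (nat_lit 152) (nat_lit 5273205161109) (nat_lit 0) (nat_lit 1295251494439) (nat_lit 1) (nat_lit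 5) (nat_lit 3) (nat_lit 4) (nat_lit 1) (nat_lit 4) (nat_lit 409) (nat_lit 313) (nat_lit 298)))) (XT.nd (nat_lit 78) (nat_lit 0) (nat_lit 0) (XT.lf (nat_lit 0) (nat_lit 1490867341502) (nat_lit 152) (nat_lit 6061492280823) (nat_lit 0) (nat_lit 1490796167750) (nat_lit 1) (nat_lit 5) (nat_lit 3) (nat_lit 4) (nat_lit 1) (nat_lit 4) (nat_lit 410) (nat_lit 313) (nat_lit 297)) (XT.nd (nat_lit 78) (nat_lit 0) (nat_lit 0) (XT.lf (nat_lit 0) (nat_lit 1715714486695) (nat_lit 152) (nat_lit 6968088111464) (nat_lit 0) (nat_lit 1715642202157) (nat_lit 1) (nat_lit 5) (nat_lit 3) (nat_lit 4) (nat_lit 1) (nat_lit 4) (nat_lit 411) (nat_lit 313) (nat_lit 296)) (XT.lf (nat_lit 0) (nat_lit 1974262009640) (nat_lit 152) (nat_lit 8010730397542) (nat_lit 0) (nat_lit 1974188759200) (nat_lit 1) (nat_lit 5) (nat_lit 3) (nat_lit 4) (nat_lit 1) (nat_lit 4) (nat_lit 412) (nat_lit 313) (nat_lit 295))))) (XT.nd (nat_lit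 234) (nat_lit 0) (nat_lit 0) (XT.nd (nat_lit 78) (nat_lit 0) (nat_lit 0) (XT.lf (nat_lit 0) (nat_lit 2271568448829) (nat_lit 152) (nat_lit 9209818662048) (nat_lit 0) (nat_lit 2271494358476) (nat_lit 1) (nat_lit 5) (nat_lit 3) (nat_lit 4) (nat_lit 1) (nat_lit 4) (nat_lit 413) (nat_lit 313) (nat_lit 294)) (XT.nd (nat_lit 78) (nat_lit 0) (nat_lit 0) (XT.lf (nat_lit 0) (nat_lit 2613450669378) (nat_lit 152) (nat_lit 10588813327548) (nat_lit 0) (nat_lit 2613375848664) (nat_lit 1) (nat_lit 5) (nat_lit 3) (nat_lit 4) (nat_lit 1) (nat_lit 4) (nat_lit 414) (nat_lit 313) (nat_lit 293)) (XT.lf (nat_lit 0) (nat_lit 3006597671252) (nat_lit 152) (nat_lit 12174694724453) (nat_lit 0) (nat_lit 3006522215443) (nat_lit 1) (nat_lit 5) (nat_lit 3) (nat_lit 4) (nat_lit 1) (nat_lit 4) (nat_lit 415) (nat_lit 313) (nat_lit 292)))) (XT.nd (nat_lit 78) (nat_lit 0) (nat_lit 0) (XT.lf (nat_lit 0) (nat_lit 3458701461012)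 (nat_lit 152) (nat_lit 13998490967050) (nat_lit 0) (nat_lit 3458625452945) (nat_lit 1) (nat_lit 5) (nat_lit 3) (nat_lit 4) (nat_lit 1) (nat_lit 4) (nat_lit 416) (nat_lit 313) (nat_lit 291)) (XT.nd (nat_lit 78) (nat_lit 0) (nat_lit 0) (XT.lf (nat_lit 0) (nat_lit 3978607547586) (nat_lit 152) (nat_lit 16095885025305) (nat_lit 0) (nat_lit 3978531059296) (nat_lit 1) (nat_lit 5) (nat_lit 3) (nat_lit 4) (nat_lit 1) (nat_lit 4) (nat_lit 417) (nat_lit 313) (nat_lit 290)) (XT.lf (nat_lit 0) (nat_lit 4576488006582) (nat_lit 152) (nat_lit 18507912869921) (nat_lit 0) (nat_lit 4576411100706) (nat_lit 1) (nat_lit 5) (nat_lit 3) (nat_lit 4) (nat_lit 1) (nat_lit 4) (nat_lit 418) (nat_lit 313) (nat_lit 289)))))) (XT.nd (nat_lit 468) (nat_lit 0) (nat_lit 0) (XT.nd (nat_lit 234) (nat_lit 0) (nat_lit 0) (XT.nd (nat_lit 78) (nat_lit 0) (nat_lit 0) (XT.lf (nat_lit 0) (nat_lit 5264040499154) (nat_lit 152) (nat_lit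 21281766350033) (nat_lit 0) (nat_lit 5263963230160) (nat_lit 1) (nat_lit 5) (nat_lit 3) (nat_lit 4) (nat_lit 1) (nat_lit 4) (nat_lit 419) (nat_lit 313) (nat_lit 288)) (XT.nd (nat_lit 78) (nat_lit 0) (nat_lit 0) (XT.lf (nat_lit 0) (nat_lit 6054717139287) (nat_lit 152) (nat_lit 24471716511990) (nat_lit 0) (nat_lit 6054639554538) (nat_lit 1) (nat_lit 5) (nat_lit 3) (nat_lit 4) (nat_lit 1) (nat_lit 4) (nat_lit 420) (nat_lit 313) (nat_lit 287)) (XT.lf (nat_lit 0) (nat_lit 6963987687331) (nat_lit 152) (nat_lit 28140175424178) (nat_lit 0) (nat_lit 6963909828013) (nat_lit 1) (nat_lit 5) (nat_lit 3) (nat_lit 4) (nat_lit 1) (nat_lit 4) (nat_lit 421) (nat_lit 313) (nat_lit 286)))) (XT.nd (nat_lit 78) (nat_lit 0) (nat_lit 0) (XT.lf (nat_lit 0) (nat_lit 8009642219227) (nat_lit 152) (nat_lit 32358917282706) (nat_lit 0) (nat_lit 8009564121152) (nat_lit 1) (nat_lit 5) (nat_lit 3) (nat_lit 4) (nat_lit 1)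 (nat_lit 4) (nat_lit 422) (nat_lit 313) (nat_lit 285)) (XT.nd (nat_lit 78) (nat_lit 0) (nat_lit 0) (XT.lf (nat_lit 0) (nat_lit 9212139193207) (nat_lit 152) (nat_lit 37210482689154) (nat_lit 0) (nat_lit 9212060887518) (nat_lit 1) (nat_lit 5) (nat_lit 3) (nat_lit 4) (nat_lit 1) (nat_lit 4) (nat_lit 423) (nat_lit 313) (nat_lit 284)) (XT.lf (nat_lit 0) (nat_lit 10595005723980) (nat_lit 152) (nat_lit 42789793575387) (nat_lit 0) (nat_lit 10594927237757) (nat_lit 1) (nat_lit 5) (nat_lit 3) (nat_lit 4) (nat_lit 1) (nat_lit 4) (nat_lit 424) (nat_lit 313) (nat_lit 283))))) (XT.nd (nat_lit 234) (nat_lit 0) (nat_lit 0) (XT.nd (nat_lit 78) (nat_lit 0) (nat_lit 0) (XT.lf (nat_lit 0) (nat_lit 12185297895842) (nat_lit 152) (nat_lit 49206010371787) (nat_lit 0) (nat_lit 12185219252634) (nat_lit 1) (nat_lit 5) (nat_lit 3) (nat_lit 4) (nat_lit 1) (nat_lit 4) (nat_lit 425) (nat_lit 313) (nat_lit 282)) (XT.nd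 (nat_lit 78) (nat_lit 0) (nat_lit 0) (XT.lf (nat_lit 0) (nat_lit 14014130120853) (nat_lit 152) (nat_lit 56584667754806) (nat_lit 0) (nat_lit 14014051341136) (nat_lit 1) (nat_lit 5) (nat_lit 3) (nat_lit 4) (nat_lit 1) (nat_lit 4) (nat_lit 426) (nat_lit 313) (nat_lit 281)) (XT.lf (nat_lit 0) (nat_lit 16117283899068) (nat_lit 152) (nat_lit 65070130760198) (nat_lit 0) (nat_lit 16117205000646) (nat_lit 1) (nat_lit 5) (nat_lit 3) (nat_lit 4) (nat_lit 1) (nat_lit 4) (nat_lit 427) (nat_lit 313) (nat_lit 280)))) (XT.nd (nat_lit 156) (nat_lit 0) (nat_lit 0) (XT.nd (nat_lit 78) (nat_lit 0) (nat_lit 0) (XT.lf (nat_lit 0) (nat_lit 18535907891363) (nat_lit 152) (nat_lit 74828419316331) (nat_lit 0) (nat_lit 18535828889720) (nat_lit 1) (nat_lit 5) (nat_lit 3) (nat_lit 4) (nat_lit 1) (nat_lit 4) (nat_lit 428) (nat_lit 313) (nat_lit 279)) (XT.lf (nat_lit 0) (nat_lit 21317323001936) (nat_lit 152) (nat_lit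 86050456460171) (nat_lit 0) (nat_lit 21317243910536) (nat_lit 1) (nat_lit 5) (nat_lit 3) (nat_lit 4) (nat_lit 1) (nat_lit 4) (nat_lit 429) (nat_lit 313) (nat_lit 278))) (XT.nd (nat_lit 78) (nat_lit 0) (nat_lit 0) (XT.lf (nat_lit 0) (nat_lit 24515948222082) (nat_lit 152) (nat_lit 98955803788012) (nat_lit 0) (nat_lit 24515869052632) (nat_lit 1) (nat_lit 5) (nat_lit 3) (nat_lit 4) (nat_lit 1) (nat_lit 4) (nat_lit 430) (nat_lit 313) (nat_lit 277)) (XT.lf (nat_lit 0) (nat_lit 28194365349585) (nat_lit 152) (nat_lit 113796957225832) (nat_lit 0) (nat_lit 28194286112266) (nat_lit 1) (nat_lit 5) (nat_lit 3) (nat_lit 4) (nat_lit 1) (nat_lit 4) (nat_lit 431) (nat_lit 313) (nat_lit 276))))))) (XT.nd (nat_lit 50622) (nat_lit 0) (nat_lit 0) (XT.nd (nat_lit 50076) (nat_lit 0) (nat_lit 0) (XT.nd (nat_lit 234) (nat_lit 0) (nat_lit 0) (XT.nd (nat_lit 78) (nat_lit 0) (nat_lit 0) (XT.lf (nat_lit 0) (nat_lit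 32424543415200) (nat_lit 152) (nat_lit 130864287166982) (nat_lit 0) (nat_lit 32424464118865) (nat_lit 1) (nat_lit 5) (nat_lit 3) (nat_lit 4) (nat_lit 1) (nat_lit 4) (nat_lit 432) (nat_lit 313) (nat_lit 275)) (XT.nd (nat_lit 78) (nat_lit 0) (nat_lit 0) (XT.lf (nat_lit 0) (nat_lit 37289246772387) (nat_lit 152) (nat_lit 150491719632047) (nat_lit 0) (nat_lit 37289167424732) (nat_lit 1) (nat_lit 5) (nat_lit 3) (nat_lit 4) (nat_lit 1) (nat_lit 4) (nat_lit 433) (nat_lit 313) (nat_lit 274)) (XT.lf (nat_lit 0) (nat_lit 42883654399872) (nat_lit 152) (nat_lit 173063269604040) (nat_lit 0) (nat_lit 42883575007592) (nat_lit 1) (nat_lit 5) (nat_lit 3) (nat_lit 4) (nat_lit 1) (nat_lit 4) (nat_lit 434) (nat_lit 313) (nat_lit 273)))) (XT.nd (nat_lit 78) (nat_lit 0) (nat_lit 0) (XT.lf (nat_lit 0) (nat_lit 49317222099062) (nat_lit 152) (nat_lit 199020554365023) (nat_lit 0) (nat_lit 49317142667977) (nat_lit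 1) (nat_lit 5) (nat_lit 3) (nat_lit 4) (nat_lit 1) (nat_lit 4) (nat_lit 435) (nat_lit 313) (nat_lit 272)) (XT.nd (nat_lit 49686) (nat_lit 0) (nat_lit 0) (XT.lf (nat_lit 0) (nat_lit 56715824020594) (nat_lit 152) (nat_lit 228871433834232) (nat_lit 0) (nat_lit 56715744555766) (nat_lit 1) (nat_lit 5) (nat_lit 3) (nat_lit 4) (nat_lit 1) (nat_lit 4) (nat_lit 436) (nat_lit 313) (nat_lit 271)) (XT.lf (nat_lit 0) (nat_lit 52729552282) (nat_lit 152) (nat_lit 261039773930) (nat_lit 0) (nat_lit 52729552282) (nat_lit 1) (nat_lit 5) (nat_lit 3) (nat_lit 4) (nat_lit 1) (nat_lit 4) (nat_lit 392) (nat_lit 314) (nat_lit 314))))) (XT.nd (nat_lit 234) (nat_lit 0) (nat_lit 0) (XT.nd (nat_lit 78) (nat_lit 0) (nat_lit 0) (XT.lf (nat_lit 0) (nat_lit 124644556417) (nat_lit 152) (nat_lit 593163187463) (nat_lit 0) (nat_lit 124632602950) (nat_lit 1) (nat_lit 5) (nat_lit 3) (nat_lit 4) (nat_lit 1) (nat_lit 4) (nat_lit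 393) (nat_lit 314) (nat_lit 313)) (XT.nd (nat_lit 78) (nat_lit 0) (nat_lit 0) (XT.lf (nat_lit 0) (nat_lit 146420564576) (nat_lit 152) (nat_lit 675523635024) (nat_lit 0) (nat_lit 146398216790) (nat_lit 1) (nat_lit 5) (nat_lit 3) (nat_lit 4) (nat_lit 1) (nat_lit 4) (nat_lit 394) (nat_lit 314) (nat_lit 312)) (XT.lf (nat_lit 0) (nat_lit 171213181377) (nat_lit 152) (nat_lit 770772290603) (nat_lit 0) (nat_lit 171181795051) (nat_lit 1) (nat_lit 5) (nat_lit 3) (nat_lit 4) (nat_lit 1) (nat_lit 4) (nat_lit 395) (nat_lit 314) (nat_lit 311)))) (XT.nd (nat_lit 156) (nat_lit 0) (nat_lit 0) (XT.nd (nat_lit 78) (nat_lit 0) (nat_lit 0) (XT.lf (nat_lit 0) (nat_lit 199507479755) (nat_lit 152) (nat_lit 880772714853) (nat_lit 0) (nat_lit 199468233831) (nat_lit 1) (nat_lit 5) (nat_lit 3) (nat_lit 4) (nat_lit 1) (nat_lit 4) (nat_lit 396) (nat_lit 314) (nat_lit 310)) (XT.lf (nat_lit 0) (nat_lit 231857043810) (nat_lit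 152) (nat_lit 1007677089989) (nat_lit 0) (nat_lit 231810963452) (nat_lit 1) (nat_lit 5) (nat_lit 3) (nat_lit 4) (nat_lit 1) (nat_lit 4) (nat_lit 397) (nat_lit 314) (nat_lit 309))) (XT.nd (nat_lit 78) (nat_lit 0) (nat_lit 0) (XT.lf (nat_lit 0) (nat_lit 268894799795) (nat_lit 152) (nat_lit 1153968327697) (nat_lit 0) (nat_lit 268842776452) (nat_lit 1) (nat_lit 5) (nat_lit 3) (nat_lit 4) (nat_lit 1) (nat_lit 4) (nat_lit 398) (nat_lit 314) (nat_lit 308)) (XT.lf (nat_lit 0) (nat_lit 311345399458) (nat_lit 152) (nat_lit 1322508647845) (nat_lit 0) (nat_lit 311288208301) (nat_lit 1) (nat_lit 5) (nat_lit 3) (nat_lit 4) (nat_lit 1) (nat_lit 4) (nat_lit 399) (nat_lit 314) (nat_lit 307)))))) (XT.nd (nat_lit 468) (nat_lit 0) (nat_lit 0) (XT.nd (nat_lit 234) (nat_lit 0) (nat_lit 0) (XT.nd (nat_lit 78) (nat_lit 0) (nat_lit 0) (XT.lf (nat_lit 0) (nat_lit 360039398009) (nat_lit 152) (nat_lit 1516595578437)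 (nat_lit 0) (nat_lit 359977713101) (nat_lit 1) (nat_lit 5) (nat_lit 3) (nat_lit 4) (nat_lit 1) (nat_lit 4) (nat_lit 400) (nat_lit 314) (nat_lit 306)) (XT.nd (nat_lit 78) (nat_lit 0) (nat_lit 0) (XT.lf (nat_lit 0) (nat_lit 415929504116) (nat_lit 152) (nat_lit 1740026472462) (nat_lit 0) (nat_lit 415863911598) (nat_lit 1) (nat_lit 5) (nat_lit 3) (nat_lit 4) (nat_lit 1) (nat_lit 4) (nat_lit 401) (nat_lit 314) (nat_lit 305)) (XT.lf (nat_lit 0) (nat_lit 480109219854) (nat_lit 152) (nat_lit 1997172803935) (nat_lit 0) (nat_lit 480040229415) (nat_lit 1) (nat_lit 5) (nat_lit 3) (nat_lit 4) (nat_lit 1) (nat_lit 4) (nat_lit 402) (nat_lit 314) (nat_lit 304)))) (XT.nd (nat_lit 78) (nat_lit 0) (nat_lit 0) (XT.lf (nat_lit 0) (nat_lit 553834235315) (nat_lit 152) (nat_lit 2293065696730) (nat_lit 0) (nat_lit 553762290161) (nat_lit 1) (nat_lit 5) (nat_lit 3) (nat_lit 4) (nat_lit 1) (nat_lit 4) (nat_lit 403)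 (nat_lit 314) (nat_lit 303)) (XT.nd (nat_lit 78) (nat_lit 0) (nat_lit 0) (XT.lf (nat_lit 0) (nat_lit 638546996453) (nat_lit 152) (nat_lit 2633494359622) (nat_lit 0) (nat_lit 638472481982) (nat_lit 1) (nat_lit 5) (nat_lit 3) (nat_lit 4) (nat_lit 1) (nat_lit 4) (nat_lit 404) (nat_lit 314) (nat_lit 302)) (XT.lf (nat_lit 0) (nat_lit 735904926855) (nat_lit 152) (nat_lit 3025119353404) (nat_lit 0) (nat_lit 735828178196) (nat_lit 1) (nat_lit 5) (nat_lit 3) (nat_lit 4) (nat_lit 1) (nat_lit 4) (nat_lit 405) (nat_lit 314) (nat_lit 301))))) (XT.nd (nat_lit 234) (nat_lit 0) (nat_lit 0) (XT.nd (nat_lit 78) (nat_lit 0) (nat_lit 0) (XT.lf (nat_lit 0) (nat_lit 847812855594) (nat_lit 152) (nat_lit 3475602906218) (nat_lit 0) (nat_lit 847734164163) (nat_lit 1) (nat_lit 5) (nat_lit 3) (nat_lit 4) (nat_lit 1) (nat_lit 4) (nat_lit 406) (nat_lit 314) (nat_lit 300)) (XT.nd (nat_lit 78) (nat_lit 0) (nat_lit 0)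 (XT.lf (nat_lit 0) (nat_lit 976460285625) (nat_lit 152) (nat_lit 3993758826703) (nat_lit 0) (nat_lit 976379904826) (nat_lit 1) (nat_lit 5) (nat_lit 3) (nat_lit 4) (nat_lit 1) (nat_lit 4) (nat_lit 407) (nat_lit 314) (nat_lit 299)) (XT.lf (nat_lit 0) (nat_lit 1124364231882) (nat_lit 152) (nat_lit 4589724948088) (nat_lit 0) (nat_lit 1124282382068) (nat_lit 1) (nat_lit 5) (nat_lit 3) (nat_lit 4) (nat_lit 1) (nat_lit 4) (nat_lit 408) (nat_lit 314) (nat_lit 298)))) (XT.nd (nat_lit 156) (nat_lit 0) (nat_lit 0) (XT.nd (nat_lit 78) (nat_lit 0) (nat_lit 0) (XT.lf (nat_lit 0) (nat_lit 1294418467227) (nat_lit 152) (nat_lit 5275161477096) (nat_lit 0) (nat_lit 1294335340009) (nat_lit 1) (nat_lit 5) (nat_lit 3) (nat_lit 4) (nat_lit 1) (nat_lit 4) (nat_lit 409) (nat_lit 314) (nat_lit 297)) (XT.lf (nat_lit 0) (nat_lit 1489950139743) (nat_lit 152) (nat_lit 6063479128423) (nat_lit 0) (nat_lit 1489865901738)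 (nat_lit 1) (nat_lit 5) (nat_lit 3) (nat_lit 4) (nat_lit 1) (nat_lit 4) (nat_lit 410) (nat_lit 314) (nat_lit 296))) (XT.nd (nat_lit 78) (nat_lit 0) (nat_lit 0) (XT.lf (nat_lit 0) (nat_lit 1714784869110) (nat_lit 152) (nat_lit 6970101508292) (nat_lit 0) (nat_lit 1714699665203) (nat_lit 1) (nat_lit 5) (nat_lit 3) (nat_lit 4) (nat_lit 1) (nat_lit 4) (nat_lit 411) (nat_lit 314) (nat_lit 295)) (XT.lf (nat_lit 0) (nat_lit 1973321595684) (nat_lit 152) (nat_lit 8012766880657) (nat_lit 0) (nat_lit 1973235551863) (nat_lit 1) (nat_lit 5) (nat_lit 3) (nat_lit 4) (nat_lit 1) (nat_lit 4) (nat_lit 412) (nat_lit 314) (nat_lit 294))))))))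
noncomputable def xc11 : XT := (XT.nd (nat_lit 51558) (nat_lit 0) (nat_lit 0) (XT.nd (nat_lit 1014) (nat_lit 0) (nat_lit 0) (XT.nd (nat_lit 468) (nat_lit 0) (nat_lit 0) (XT.nd (nat_lit 234) (nat_lit 0) (nat_lit 0) (XT.nd (nat_lit 78) (nat_lit 0) (nat_lit 0) (XT.lf (nat_lit 0) (nat_lit 2270618646725) (nat_lit 152) (nat_lit 9211875220195) (nat_lit 0) (nat_lit 2270531872544) (nat_lit 1) (nat_lit 5) (nat_lit 3) (nat_lit 4) (nat_lit 1) (nat_lit 4) (nat_lit 413) (nat_lit 314) (nat_lit 293)) (XT.nd (nat_lit 78) (nat_lit 0) (nat_lit 0) (XT.lf (nat_lit 0) (nat_lit 2612492703666) (nat_lit 152) (nat_lit 10590887342243) (nat_lit 0) (nat_lit 2612405294389) (nat_lit 1) (nat_lit 5) (nat_lit 3) (nat_lit 4) (nat_lit 1) (nat_lit 4) (nat_lit 414) (nat_lit 314) (nat_lit 292)) (XT.lf (nat_lit 0) (nat_lit 3005632606751) (nat_lit 152) (nat_lit 12176783918756) (nat_lit 0) (nat_lit 3005544645218) (nat_lit 1) (nat_lit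 5) (nat_lit 3) (nat_lit 4) (nat_lit 1) (nat_lit 4) (nat_lit 415) (nat_lit 314) (nat_lit 291)))) (XT.nd (nat_lit 78) (nat_lit 0) (nat_lit 0) (XT.lf (nat_lit 0) (nat_lit 3457730223651) (nat_lit 152) (nat_lit 14000593361013) (nat_lit 0) (nat_lit 3457641781893) (nat_lit 1) (nat_lit 5) (nat_lit 3) (nat_lit 4) (nat_lit 1) (nat_lit 4) (nat_lit 416) (nat_lit 314) (nat_lit 290)) (XT.nd (nat_lit 78) (nat_lit 0) (nat_lit 0) (XT.lf (nat_lit 0) (nat_lit 3977630942521) (nat_lit 152) (nat_lit 16097998897232) (nat_lit 0) (nat_lit 3977542083177) (nat_lit 1) (nat_lit 5) (nat_lit 3) (nat_lit 4) (nat_lit 1) (nat_lit 4) (nat_lit 417) (nat_lit 314) (nat_lit 289)) (XT.lf (nat_lit 0) (nat_lit 4575506733947) (nat_lit 152) (nat_lit 18510036722687) (nat_lit 0) (nat_lit 4575417511486) (nat_lit 1) (nat_lit 5) (nat_lit 3) (nat_lit 4) (nat_lit 1) (nat_lit 4) (nat_lit 418) (nat_lit 314) (nat_lit 288))))) (XT.nd (nat_lit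 234) (nat_lit 0) (nat_lit 0) (XT.nd (nat_lit 78) (nat_lit 0) (nat_lit 0) (XT.lf (nat_lit 0) (nat_lit 5263055167764) (nat_lit 152) (nat_lit 21283898881789) (nat_lit 0) (nat_lit 5262965629547) (nat_lit 1) (nat_lit 5) (nat_lit 3) (nat_lit 4) (nat_lit 1) (nat_lit 4) (nat_lit 419) (nat_lit 314) (nat_lit 287)) (XT.nd (nat_lit 78) (nat_lit 0) (nat_lit 0) (XT.lf (nat_lit 0) (nat_lit 6053728278544) (nat_lit 152) (nat_lit 24473856590693) (nat_lit 0) (nat_lit 6053638465758) (nat_lit 1) (nat_lit 5) (nat_lit 3) (nat_lit 4) (nat_lit 1) (nat_lit 4) (nat_lit 420) (nat_lit 314) (nat_lit 286)) (XT.lf (nat_lit 0) (nat_lit 6962995757586) (nat_lit 152) (nat_lit 28142322065445) (nat_lit 0) (nat_lit 6962905706044) (nat_lit 1) (nat_lit 5) (nat_lit 3) (nat_lit 4) (nat_lit 1) (nat_lit 4) (nat_lit 421) (nat_lit 314) (nat_lit 285)))) (XT.nd (nat_lit 156) (nat_lit 0) (nat_lit 0) (XT.nd (nat_lit 78) (nat_lit 0) (nat_lit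 0) (XT.lf (nat_lit 0) (nat_lit 8008647620784) (nat_lit 152) (nat_lit 32361069630551) (nat_lit 0) (nat_lit 8008557361628) (nat_lit 1) (nat_lit 5) (nat_lit 3) (nat_lit 4) (nat_lit 1) (nat_lit 4) (nat_lit 422) (nat_lit 314) (nat_lit 284)) (XT.lf (nat_lit 0) (nat_lit 9211142274157) (nat_lit 152) (nat_lit 37212639999239) (nat_lit 0) (nat_lit 9211051834467) (nat_lit 1) (nat_lit 5) (nat_lit 3) (nat_lit 4) (nat_lit 1) (nat_lit 4) (nat_lit 423) (nat_lit 314) (nat_lit 283))) (XT.nd (nat_lit 78) (nat_lit 0) (nat_lit 0) (XT.lf (nat_lit 0) (nat_lit 10594006787011) (nat_lit 152) (nat_lit 42791955200463) (nat_lit 0) (nat_lit 10593916190335) (nat_lit 1) (nat_lit 5) (nat_lit 3) (nat_lit 4) (nat_lit 1) (nat_lit 4) (nat_lit 424) (nat_lit 314) (nat_lit 282)) (XT.lf (nat_lit 0) (nat_lit 12184297204161) (nat_lit 152) (nat_lit 49208175749030) (nat_lit 0) (nat_lit 12184206470976) (nat_lit 1) (nat_lit 5) (nat_lit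 3) (nat_lit 4) (nat_lit 1) (nat_lit 4) (nat_lit 425) (nat_lit 314) (nat_lit 281)))))) (XT.nd (nat_lit 468) (nat_lit 0) (nat_lit 0) (XT.nd (nat_lit 234) (nat_lit 0) (nat_lit 0) (XT.nd (nat_lit 78) (nat_lit 0) (nat_lit 0) (XT.lf (nat_lit 0) (nat_lit 14013127903336) (nat_lit 152) (nat_lit 56586836394803) (nat_lit 0) (nat_lit 14013037051447) (nat_lit 1) (nat_lit 5) (nat_lit 3) (nat_lit 4) (nat_lit 1) (nat_lit 4) (nat_lit 426) (nat_lit 314) (nat_lit 280)) (XT.nd (nat_lit 78) (nat_lit 0) (nat_lit 0) (XT.lf (nat_lit 0) (nat_lit 16116280354736) (nat_lit 152) (nat_lit 65072302237373) (nat_lit 0) (nat_lit 16116189399626) (nat_lit 1) (nat_lit 5) (nat_lit 3) (nat_lit 4) (nat_lit 1) (nat_lit 4) (nat_lit 427) (nat_lit 314) (nat_lit 279)) (XT.lf (nat_lit 0) (nat_lit 18534903193279) (nat_lit 152) (nat_lit 74830593260616) (nat_lit 0) (nat_lit 18534812148412) (nat_lit 1) (nat_lit 5) (nat_lit 3) (nat_lit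 4) (nat_lit 1) (nat_lit 4) (nat_lit 428) (nat_lit 314) (nat_lit 278)))) (XT.nd (nat_lit 78) (nat_lit 0) (nat_lit 0) (XT.lf (nat_lit 0) (nat_lit 21316317300590) (nat_lit 152) (nat_lit 86052632549770) (nat_lit 0) (nat_lit 21316226177674) (nat_lit 1) (nat_lit 5) (nat_lit 3) (nat_lit 4) (nat_lit 1) (nat_lit 4) (nat_lit 429) (nat_lit 314) (nat_lit 277)) (XT.nd (nat_lit 78) (nat_lit 0) (nat_lit 0) (XT.lf (nat_lit 0) (nat_lit 24514941648334) (nat_lit 152) (nat_lit 98957981743101) (nat_lit 0) (nat_lit 24514850457548) (nat_lit 1) (nat_lit 5) (nat_lit 3) (nat_lit 4) (nat_lit 1) (nat_lit 4) (nat_lit 430) (nat_lit 314) (nat_lit 276)) (XT.lf (nat_lit 0) (nat_lit 28193358017226) (nat_lit 152) (nat_lit 113799136803087) (nat_lit 0) (nat_lit 28193266767423) (nat_lit 1) (nat_lit 5) (nat_lit 3) (nat_lit 4) (nat_lit 1) (nat_lit 4) (nat_lit 431) (nat_lit 314) (nat_lit 275))))) (XT.nd (nat_lit 234) (nat_lit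 0) (nat_lit 0) (XT.nd (nat_lit 78) (nat_lit 0) (nat_lit 0) (XT.lf (nat_lit 0) (nat_lit 32423535423181) (nat_lit 152) (nat_lit 130866468154815) (nat_lit 0) (nat_lit 32423444122059) (nat_lit 1) (nat_lit 5) (nat_lit 3) (nat_lit 4) (nat_lit 1) (nat_lit 4) (nat_lit 432) (nat_lit 314) (nat_lit 274)) (XT.nd (nat_lit 78) (nat_lit 0) (nat_lit 0) (XT.lf (nat_lit 0) (nat_lit 37288238206749) (nat_lit 152) (nat_lit 150493901846470) (nat_lit 0) (nat_lit 37288146861001) (nat_lit 1) (nat_lit 5) (nat_lit 3) (nat_lit 4) (nat_lit 1) (nat_lit 4) (nat_lit 433) (nat_lit 314) (nat_lit 273)) (XT.lf (nat_lit 0) (nat_lit 42882645335435) (nat_lit 152) (nat_lit 173065452885064) (nat_lit 0) (nat_lit 42882553950883) (nat_lit 1) (nat_lit 5) (nat_lit 3) (nat_lit 4) (nat_lit 1) (nat_lit 4) (nat_lit 434) (nat_lit 314) (nat_lit 272)))) (XT.nd (nat_lit 49686) (nat_lit 0) (nat_lit 0) (XT.nd (nat_lit 49608) (nat_lit 0) (nat_lit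 0) (XT.lf (nat_lit 0) (nat_lit 49316212600887) (nat_lit 152) (nat_lit 199022738573524) (nat_lit 0) (nat_lit 49316121182592) (nat_lit 1) (nat_lit 5) (nat_lit 3) (nat_lit 4) (nat_lit 1) (nat_lit 4) (nat_lit 435) (nat_lit 314) (nat_lit 271)) (XT.lf (nat_lit 0) (nat_lit 36796092990) (nat_lit 152) (nat_lit 203997602529) (nat_lit 0) (nat_lit 36796092990) (nat_lit 1) (nat_lit 5) (nat_lit 3) (nat_lit 4) (nat_lit 1) (nat_lit 4) (nat_lit 390) (nat_lit 315) (nat_lit 315))) (XT.nd (nat_lit 78) (nat_lit 0) (nat_lit 0) (XT.lf (nat_lit 0) (nat_lit 88502587971) (nat_lit 152) (nat_lit 460881949354) (nat_lit 0) (nat_lit 88488841484) (nat_lit 1) (nat_lit 5) (nat_lit 3) (nat_lit 4) (nat_lit 1) (nat_lit 4) (nat_lit 391) (nat_lit 315) (nat_lit 314)) (XT.lf (nat_lit 0) (nat_lit 105319199568) (nat_lit 152) (nat_lit 522408106614) (nat_lit 0) (nat_lit 105293499613) (nat_lit 1) (nat_lit 5) (nat_lit 3) (nat_lit 4)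 (nat_lit 1) (nat_lit 4) (nat_lit 392) (nat_lit 315) (nat_lit 313))))))) (XT.nd (nat_lit 1014) (nat_lit 0) (nat_lit 0) (XT.nd (nat_lit 468) (nat_lit 0) (nat_lit 0) (XT.nd (nat_lit 234) (nat_lit 0) (nat_lit 0) (XT.nd (nat_lit 78) (nat_lit 0) (nat_lit 0) (XT.lf (nat_lit 0) (nat_lit 124371041434) (nat_lit 152) (nat_lit 593777449481) (nat_lit 0) (nat_lit 124334947160) (nat_lit 1) (nat_lit 5) (nat_lit 3) (nat_lit 4) (nat_lit 1) (nat_lit 4) (nat_lit 393) (nat_lit 315) (nat_lit 312)) (XT.nd (nat_lit 78) (nat_lit 0) (nat_lit 0) (XT.lf (nat_lit 0) (nat_lit 146030866996) (nat_lit 152) (nat_lit 676386334662) (nat_lit 0) (nat_lit 145985734184) (nat_lit 1) (nat_lit 5) (nat_lit 3) (nat_lit 4) (nat_lit 1) (nat_lit 4) (nat_lit 394) (nat_lit 315) (nat_lit 311)) (XT.lf (nat_lit 0) (nat_lit 170722455451) (nat_lit 152) (nat_lit 771851022955) (nat_lit 0) (nat_lit 170669463040) (nat_lit 1) (nat_lit 5) (nat_lit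 3) (nat_lit 4) (nat_lit 1) (nat_lit 4) (nat_lit 395) (nat_lit 315) (nat_lit 310)))) (XT.nd (nat_lit 78) (nat_lit 0) (nat_lit 0) (XT.lf (nat_lit 0) (nat_lit 198928903095) (nat_lit 152) (nat_lit 882039301739) (nat_lit 0) (nat_lit 198869076250) (nat_lit 1) (nat_lit 5) (nat_lit 3) (nat_lit 4) (nat_lit 1) (nat_lit 4) (nat_lit 396) (nat_lit 315) (nat_lit 309)) (XT.nd (nat_lit 78) (nat_lit 0) (nat_lit 0) (XT.lf (nat_lit 0) (nat_lit 231202075206) (nat_lit 152) (nat_lit 1009107028643) (nat_lit 0) (nat_lit 231136305376) (nat_lit 1) (nat_lit 5) (nat_lit 3) (nat_lit 4) (nat_lit 1) (nat_lit 4) (nat_lit 397) (nat_lit 315) (nat_lit 308)) (XT.lf (nat_lit 0) (nat_lit 268173403415) (nat_lit 152) (nat_lit 1155540311367) (nat_lit 0) (nat_lit 268102465770) (nat_lit 1) (nat_lit 5) (nat_lit 3) (nat_lit 4) (nat_lit 1) (nat_lit 4) (nat_lit 398) (nat_lit 315) (nat_lit 307))))) (XT.nd (nat_lit 234) (nat_lit 0) (nat_lit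 0) (XT.nd (nat_lit 78) (nat_lit 0) (nat_lit 0) (XT.lf (nat_lit 0) (nat_lit 310566239793) (nat_lit 152) (nat_lit 1324204148920) (nat_lit 0) (nat_lit 310490808398) (nat_lit 1) (nat_lit 5) (nat_lit 3) (nat_lit 4) (nat_lit 1) (nat_lit 4) (nat_lit 399) (nat_lit 315) (nat_lit 306)) (XT.nd (nat_lit 78) (nat_lit 0) (nat_lit 0) (XT.lf (nat_lit 0) (nat_lit 359210009402) (nat_lit 152) (nat_lit 1518398485952) (nat_lit 0) (nat_lit 359130670396) (nat_lit 1) (nat_lit 5) (nat_lit 3) (nat_lit 4) (nat_lit 1) (nat_lit 4) (nat_lit 400) (nat_lit 315) (nat_lit 305)) (XT.lf (nat_lit 0) (nat_lit 415056438167) (nat_lit 152) (nat_lit 1741922776881) (nat_lit 0) (nat_lit 414973701240) (nat_lit 1) (nat_lit 5) (nat_lit 3) (nat_lit 4) (nat_lit 1) (nat_lit 4) (nat_lit 401) (nat_lit 315) (nat_lit 304)))) (XT.nd (nat_lit 156) (nat_lit 0) (nat_lit 0) (XT.nd (nat_lit 78) (nat_lit 0) (nat_lit 0) (XT.lf (nat_lit 0) (nat_lit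 479198173608) (nat_lit 152) (nat_lit 1999150323052) (nat_lit 0) (nat_lit 479112481968) (nat_lit 1) (nat_lit 5) (nat_lit 3) (nat_lit 4) (nat_lit 1) (nat_lit 4) (nat_lit 402) (nat_lit 315) (nat_lit 303)) (XT.lf (nat_lit 0) (nat_lit 552890162724) (nat_lit 152) (nat_lit 2295113837325) (nat_lit 0) (nat_lit 552801901766) (nat_lit 1) (nat_lit 5) (nat_lit 3) (nat_lit 4) (nat_lit 1) (nat_lit 4) (nat_lit 403) (nat_lit 315) (nat_lit 302))) (XT.nd (nat_lit 78) (nat_lit 0) (nat_lit 0) (XT.lf (nat_lit 0) (nat_lit 637574205301) (nat_lit 152) (nat_lit 2635603910197) (nat_lit 0) (nat_lit 637483710155) (nat_lit 1) (nat_lit 5) (nat_lit 3) (nat_lit 4) (nat_lit 1) (nat_lit 4) (nat_lit 404) (nat_lit 315) (nat_lit 301)) (XT.lf (nat_lit 0) (nat_lit 734907163041) (nat_lit 152) (nat_lit 3027282303962) (nat_lit 0) (nat_lit 734814725122) (nat_lit 1) (nat_lit 5) (nat_lit 3) (nat_lit 4) (nat_lit 1) (nat_lit 4) (nat_lit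 405) (nat_lit 315) (nat_lit 300)))))) (XT.nd (nat_lit 468) (nat_lit 0) (nat_lit 0) (XT.nd (nat_lit 234) (nat_lit 0) (nat_lit 0) (XT.nd (nat_lit 78) (nat_lit 0) (nat_lit 0) (XT.lf (nat_lit 0) (nat_lit 846793376422) (nat_lit 152) (nat_lit 3477812291543) (nat_lit 0) (nat_lit 846699249136) (nat_lit 1) (nat_lit 5) (nat_lit 3) (nat_lit 4) (nat_lit 1) (nat_lit 4) (nat_lit 406) (nat_lit 315) (nat_lit 299)) (XT.nd (nat_lit 78) (nat_lit 0) (nat_lit 0) (XT.lf (nat_lit 0) (nat_lit 975421923533) (nat_lit 152) (nat_lit 3996008590087) (nat_lit 0) (nat_lit 975326327232) (nat_lit 1) (nat_lit 5) (nat_lit 3) (nat_lit 4) (nat_lit 1) (nat_lit 4) (nat_lit 407) (nat_lit 315) (nat_lit 298)) (XT.lf (nat_lit 0) (nat_lit 1123309449860) (nat_lit 152) (nat_lit 4592009822828) (nat_lit 0) (nat_lit 1123212576154) (nat_lit 1) (nat_lit 5) (nat_lit 3) (nat_lit 4) (nat_lit 1) (nat_lit 4) (nat_lit 408) (nat_lit 315) (nat_lit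 297)))) (XT.nd (nat_lit 78) (nat_lit 0) (nat_lit 0) (XT.lf (nat_lit 0) (nat_lit 1293349407004) (nat_lit 152) (nat_lit 5277476883449) (nat_lit 0) (nat_lit 1293251422512) (nat_lit 1) (nat_lit 5) (nat_lit 3) (nat_lit 4) (nat_lit 1) (nat_lit 4) (nat_lit 409) (nat_lit 315) (nat_lit 296)) (XT.nd (nat_lit 78) (nat_lit 0) (nat_lit 0) (XT.lf (nat_lit 0) (nat_lit 1488868663694) (nat_lit 152) (nat_lit 6065821084006) (nat_lit 0) (nat_lit 1488769713300) (nat_lit 1) (nat_lit 5) (nat_lit 3) (nat_lit 4) (nat_lit 1) (nat_lit 4) (nat_lit 410) (nat_lit 315) (nat_lit 295)) (XT.lf (nat_lit 0) (nat_lit 1713692596689) (nat_lit 152) (nat_lit 6972466550161) (nat_lit 0) (nat_lit 1713592806382) (nat_lit 1) (nat_lit 5) (nat_lit 3) (nat_lit 4) (nat_lit 1) (nat_lit 4) (nat_lit 411) (nat_lit 315) (nat_lit 294))))) (XT.nd (nat_lit 234) (nat_lit 0) (nat_lit 0) (XT.nd (nat_lit 78) (nat_lit 0) (nat_lit 0) (XT.lf (nat_lit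 0) (nat_lit 1972219935115) (nat_lit 152) (nat_lit 8015151997557) (nat_lit 0) (nat_lit 1972119414447) (nat_lit 1) (nat_lit 5) (nat_lit 3) (nat_lit 4) (nat_lit 1) (nat_lit 4) (nat_lit 412) (nat_lit 315) (nat_lit 293)) (XT.nd (nat_lit 78) (nat_lit 0) (nat_lit 0) (XT.lf (nat_lit 0) (nat_lit 2269508822549) (nat_lit 152) (nat_lit 9214277793644) (nat_lit 0) (nat_lit 2269407666785) (nat_lit 1) (nat_lit 5) (nat_lit 3) (nat_lit 4) (nat_lit 1) (nat_lit 4) (nat_lit 413) (nat_lit 315) (nat_lit 292)) (XT.lf (nat_lit 0) (nat_lit 2611375780700) (nat_lit 152) (nat_lit 10593305095300) (nat_lit 0) (nat_lit 2611274072679) (nat_lit 1) (nat_lit 5) (nat_lit 3) (nat_lit 4) (nat_lit 1) (nat_lit 4) (nat_lit 414) (nat_lit 315) (nat_lit 291)))) (XT.nd (nat_lit 156) (nat_lit 0) (nat_lit 0) (XT.nd (nat_lit 78) (nat_lit 0) (nat_lit 0) (XT.lf (nat_lit 0) (nat_lit 3004509510926) (nat_lit 152) (nat_lit 12179214871473) (nat_lit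 0) (nat_lit 3004407322681) (nat_lit 1) (nat_lit 5) (nat_lit 3) (nat_lit 4) (nat_lit 1) (nat_lit 4) (nat_lit 415) (nat_lit 315) (nat_lit 290)) (XT.lf (nat_lit 0) (nat_lit 3456601760121) (nat_lit 152) (nat_lit 14003035791694) (nat_lit 0) (nat_lit 3456499154290) (nat_lit 1) (nat_lit 5) (nat_lit 3) (nat_lit 4) (nat_lit 1) (nat_lit 4) (nat_lit 416) (nat_lit 315) (nat_lit 289))) (XT.nd (nat_lit 78) (nat_lit 0) (nat_lit 0) (XT.lf (nat_lit 0) (nat_lit 3976497811422) (nat_lit 152) (nat_lit 16100451308751) (nat_lit 0) (nat_lit 3976394842473) (nat_lit 1) (nat_lit 5) (nat_lit 3) (nat_lit 4) (nat_lit 1) (nat_lit 4) (nat_lit 417) (nat_lit 315) (nat_lit 288)) (XT.lf (nat_lit 0) (nat_lit 4574369544093) (nat_lit 152) (nat_lit 18512497813196) (nat_lit 0) (nat_lit 4574266259390) (nat_lit 1) (nat_lit 5) (nat_lit 3) (nat_lit 4) (nat_lit 1) (nat_lit 4) (nat_lit 418) (nat_lit 315) (nat_lit 287))))))))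
noncomputable def xc12 : XT := (XT.nd (nat_lit 51324) (nat_lit 0) (nat_lit 0) (XT.nd (nat_lit 936) (nat_lit 0) (nat_lit 0) (XT.nd (nat_lit 468) (nat_lit 0) (nat_lit 0) (XT.nd (nat_lit 234) (nat_lit 0) (nat_lit 0) (XT.nd (nat_lit 78) (nat_lit 0) (nat_lit 0) (XT.lf (nat_lit 0) (nat_lit 5261914448556) (nat_lit 152) (nat_lit 21286367519246) (nat_lit 0) (nat_lit 5261810889283) (nat_lit 1) (nat_lit 5) (nat_lit 3) (nat_lit 4) (nat_lit 1) (nat_lit 4) (nat_lit 419) (nat_lit 315) (nat_lit 286)) (XT.nd (nat_lit 78) (nat_lit 0) (nat_lit 0) (XT.lf (nat_lit 0) (nat_lit 6052584490334) (nat_lit 152) (nat_lit 24476331790714) (nat_lit 0) (nat_lit 6052480692305) (nat_lit 1) (nat_lit 5) (nat_lit 3) (nat_lit 4) (nat_lit 1) (nat_lit 4) (nat_lit 420) (nat_lit 315) (nat_lit 285)) (XT.lf (nat_lit 0) (nat_lit 6961849300678) (nat_lit 152) (nat_lit 28144802972043) (nat_lit 0) (nat_lit 6961745295035) (nat_lit 1) (nat_lit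 5) (nat_lit 3) (nat_lit 4) (nat_lit 1) (nat_lit 4) (nat_lit 421) (nat_lit 315) (nat_lit 284)))) (XT.nd (nat_lit 78) (nat_lit 0) (nat_lit 0) (XT.lf (nat_lit 0) (nat_lit 8007498843270) (nat_lit 152) (nat_lit 32363555499389) (nat_lit 0) (nat_lit 8007394657093) (nat_lit 1) (nat_lit 5) (nat_lit 3) (nat_lit 4) (nat_lit 1) (nat_lit 4) (nat_lit 422) (nat_lit 315) (nat_lit 283)) (XT.nd (nat_lit 78) (nat_lit 0) (nat_lit 0) (XT.lf (nat_lit 0) (nat_lit 9209991478724) (nat_lit 152) (nat_lit 37215130183069) (nat_lit 0) (nat_lit 9209887135561) (nat_lit 1) (nat_lit 5) (nat_lit 3) (nat_lit 4) (nat_lit 1) (nat_lit 4) (nat_lit 423) (nat_lit 315) (nat_lit 282)) (XT.lf (nat_lit 0) (nat_lit 10592854236866) (nat_lit 152) (nat_lit 42794449136461) (nat_lit 0) (nat_lit 10592749757193) (nat_lit 1) (nat_lit 5) (nat_lit 3) (nat_lit 4) (nat_lit 1) (nat_lit 4) (nat_lit 424) (nat_lit 315) (nat_lit 281))))) (XT.nd (nat_lit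 234) (nat_lit 0) (nat_lit 0) (XT.nd (nat_lit 78) (nat_lit 0) (nat_lit 0) (XT.lf (nat_lit 0) (nat_lit 12183143128180) (nat_lit 152) (nat_lit 49210672947781) (nat_lit 0) (nat_lit 12183038529803) (nat_lit 1) (nat_lit 5) (nat_lit 3) (nat_lit 4) (nat_lit 1) (nat_lit 4) (nat_lit 425) (nat_lit 315) (nat_lit 280)) (XT.nd (nat_lit 78) (nat_lit 0) (nat_lit 0) (XT.lf (nat_lit 0) (nat_lit 14011972500540) (nat_lit 152) (nat_lit 56589336430731) (nat_lit 0) (nat_lit 14011867798943) (nat_lit 1) (nat_lit 5) (nat_lit 3) (nat_lit 4) (nat_lit 1) (nat_lit 4) (nat_lit 426) (nat_lit 315) (nat_lit 279)) (XT.lf (nat_lit 0) (nat_lit 16115123798188) (nat_lit 152) (nat_lit 65074804740412) (nat_lit 0) (nat_lit 16115019006834) (nat_lit 1) (nat_lit 5) (nat_lit 3) (nat_lit 4) (nat_lit 1) (nat_lit 4) (nat_lit 427) (nat_lit 315) (nat_lit 278)))) (XT.nd (nat_lit 78) (nat_lit 0) (nat_lit 0) (XT.lf (nat_lit 0) (nat_lit 18533745633469)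 (nat_lit 152) (nat_lit 74833097908969) (nat_lit 0) (nat_lit 18533640764065) (nat_lit 1) (nat_lit 5) (nat_lit 3) (nat_lit 4) (nat_lit 1) (nat_lit 4) (nat_lit 428) (nat_lit 315) (nat_lit 277)) (XT.nd (nat_lit 78) (nat_lit 0) (nat_lit 0) (XT.lf (nat_lit 0) (nat_lit 21315158868378) (nat_lit 152) (nat_lit 86055139063613) (nat_lit 0) (nat_lit 21315053931105) (nat_lit 1) (nat_lit 5) (nat_lit 3) (nat_lit 4) (nat_lit 1) (nat_lit 4) (nat_lit 429) (nat_lit 315) (nat_lit 276)) (XT.lf (nat_lit 0) (nat_lit 24513782457511) (nat_lit 152) (nat_lit 98960489879109) (nat_lit 0) (nat_lit 24513677461221) (nat_lit 1) (nat_lit 5) (nat_lit 3) (nat_lit 4) (nat_lit 1) (nat_lit 4) (nat_lit 430) (nat_lit 315) (nat_lit 275)))))) (XT.nd (nat_lit 49842) (nat_lit 0) (nat_lit 0) (XT.nd (nat_lit 234) (nat_lit 0) (nat_lit 0) (XT.nd (nat_lit 78) (nat_lit 0) (nat_lit 0) (XT.lf (nat_lit 0) (nat_lit 28192198166742) (nat_lit 152)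 (nat_lit 113801646349674) (nat_lit 0) (nat_lit 28192093119133) (nat_lit 1) (nat_lit 5) (nat_lit 3) (nat_lit 4) (nat_lit 1) (nat_lit 4) (nat_lit 431) (nat_lit 315) (nat_lit 274)) (XT.nd (nat_lit 78) (nat_lit 0) (nat_lit 0) (XT.lf (nat_lit 0) (nat_lit 32422374999078) (nat_lit 152) (nat_lit 130868978927991) (nat_lit 0) (nat_lit 32422269906844) (nat_lit 1) (nat_lit 5) (nat_lit 3) (nat_lit 4) (nat_lit 1) (nat_lit 4) (nat_lit 432) (nat_lit 315) (nat_lit 273)) (XT.lf (nat_lit 0) (nat_lit 37287077283848) (nat_lit 152) (nat_lit 150496413686247) (nat_lit 0) (nat_lit 37286972152809) (nat_lit 1) (nat_lit 5) (nat_lit 3) (nat_lit 4) (nat_lit 1) (nat_lit 4) (nat_lit 433) (nat_lit 315) (nat_lit 272)))) (XT.nd (nat_lit 78) (nat_lit 0) (nat_lit 0) (XT.lf (nat_lit 0) (nat_lit 42881483978796) (nat_lit 152) (nat_lit 173067965652318) (nat_lit 0) (nat_lit 42881378814013) (nat_lit 1) (nat_lit 5) (nat_lit 3) (nat_lit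 4) (nat_lit 1) (nat_lit 4) (nat_lit 434) (nat_lit 315) (nat_lit 271)) (XT.nd (nat_lit 49452) (nat_lit 0) (nat_lit 0) (XT.lf (nat_lit 0) (nat_lit 49315050867084) (nat_lit 152) (nat_lit 199025252147282) (nat_lit 0) (nat_lit 49314945672961) (nat_lit 1) (nat_lit 5) (nat_lit 3) (nat_lit 4) (nat_lit 1) (nat_lit 4) (nat_lit 435) (nat_lit 315) (nat_lit 270)) (XT.lf (nat_lit 0) (nat_lit 24286855042) (nat_lit 152) (nat_lit 161857630439) (nat_lit 0) (nat_lit 24286855042) (nat_lit 1) (nat_lit 5) (nat_lit 3) (nat_lit 4) (nat_lit 1) (nat_lit 4) (nat_lit 388) (nat_lit 316) (nat_lit 316))))) (XT.nd (nat_lit 234) (nat_lit 0) (nat_lit 0) (XT.nd (nat_lit 78) (nat_lit 0) (nat_lit 0) (XT.lf (nat_lit 0) (nat_lit 60312076803) (nat_lit 152) (nat_lit 362713133077) (nat_lit 0) (nat_lit 60296268342) (nat_lit 1) (nat_lit 5) (nat_lit 3) (nat_lit 4) (nat_lit 1) (nat_lit 4) (nat_lit 389) (nat_lit 316) (nat_lit 315))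 (XT.nd (nat_lit 78) (nat_lit 0) (nat_lit 0) (XT.lf (nat_lit 0) (nat_lit 73431295235) (nat_lit 152) (nat_lit 408373047624) (nat_lit 0) (nat_lit 73401740287) (nat_lit 1) (nat_lit 5) (nat_lit 3) (nat_lit 4) (nat_lit 1) (nat_lit 4) (nat_lit 390) (nat_lit 316) (nat_lit 314)) (XT.lf (nat_lit 0) (nat_lit 88188045740) (nat_lit 152) (nat_lit 461588350674) (nat_lit 0) (nat_lit 88146537325) (nat_lit 1) (nat_lit 5) (nat_lit 3) (nat_lit 4) (nat_lit 1) (nat_lit 4) (nat_lit 391) (nat_lit 316) (nat_lit 313)))) (XT.nd (nat_lit 156) (nat_lit 0) (nat_lit 0) (XT.nd (nat_lit 78) (nat_lit 0) (nat_lit 0) (XT.lf (nat_lit 0) (nat_lit 104871047351) (nat_lit 152) (nat_lit 523400211198) (nat_lit 0) (nat_lit 104819144616) (nat_lit 1) (nat_lit 5) (nat_lit 3) (nat_lit 4) (nat_lit 1) (nat_lit 4) (nat_lit 392) (nat_lit 316) (nat_lit 312)) (XT.lf (nat_lit 0) (nat_lit 123806706620) (nat_lit 152) (nat_lit 595017991685) (nat_lit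 0) (nat_lit 123745765347) (nat_lit 1) (nat_lit 5) (nat_lit 3) (nat_lit 4) (nat_lit 1) (nat_lit 4) (nat_lit 393) (nat_lit 316) (nat_lit 311))) (XT.nd (nat_lit 78) (nat_lit 0) (nat_lit 0) (XT.lf (nat_lit 0) (nat_lit 145365503837) (nat_lit 152) (nat_lit 677842909580) (nat_lit 0) (nat_lit 145296702966) (nat_lit 1) (nat_lit 5) (nat_lit 3) (nat_lit 4) (nat_lit 1) (nat_lit 4) (nat_lit 394) (nat_lit 316) (nat_lit 310)) (XT.lf (nat_lit 0) (nat_lit 169969241557) (nat_lit 152) (nat_lit 773495452407) (nat_lit 0) (nat_lit 169893606252) (nat_lit 1) (nat_lit 5) (nat_lit 3) (nat_lit 4) (nat_lit 1) (nat_lit 4) (nat_lit 395) (nat_lit 316) (nat_lit 309))))))) (XT.nd (nat_lit 1014) (nat_lit 0) (nat_lit 0) (XT.nd (nat_lit 468) (nat_lit 0) (nat_lit 0) (XT.nd (nat_lit 234) (nat_lit 0) (nat_lit 0) (XT.nd (nat_lit 78) (nat_lit 0) (nat_lit 0) (XT.lf (nat_lit 0) (nat_lit 198099297257) (nat_lit 152) (nat_lit 883847082959)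 (nat_lit 0) (nat_lit 198017718966) (nat_lit 1) (nat_lit 5) (nat_lit 3) (nat_lit 4) (nat_lit 1) (nat_lit 4) (nat_lit 396) (nat_lit 316) (nat_lit 308)) (XT.nd (nat_lit 78) (nat_lit 0) (nat_lit 0) (XT.lf (nat_lit 0) (nat_lit 230306041592) (nat_lit 152) (nat_lit 1011056854879) (nat_lit 0) (nat_lit 230219295488) (nat_lit 1) (nat_lit 5) (nat_lit 3) (nat_lit 4) (nat_lit 1) (nat_lit 4) (nat_lit 397) (nat_lit 316) (nat_lit 307)) (XT.lf (nat_lit 0) (nat_lit 267219606516) (nat_lit 152) (nat_lit 1157613655008) (nat_lit 0) (nat_lit 267128366661) (nat_lit 1) (nat_lit 5) (nat_lit 3) (nat_lit 4) (nat_lit 1) (nat_lit 4) (nat_lit 398) (nat_lit 316) (nat_lit 306)))) (XT.nd (nat_lit 78) (nat_lit 0) (nat_lit 0) (XT.lf (nat_lit 0) (nat_lit 309562213952) (nat_lit 152) (nat_lit 1326384899001) (nat_lit 0) (nat_lit 309467066487) (nat_lit 1) (nat_lit 5) (nat_lit 3) (nat_lit 4) (nat_lit 1) (nat_lit 4) (nat_lit 399)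 (nat_lit 316) (nat_lit 305)) (XT.nd (nat_lit 78) (nat_lit 0) (nat_lit 0) (XT.lf (nat_lit 0) (nat_lit 358162306219) (nat_lit 152) (nat_lit 1520672632936) (nat_lit 0) (nat_lit 358063760832) (nat_lit 1) (nat_lit 5) (nat_lit 3) (nat_lit 4) (nat_lit 1) (nat_lit 4) (nat_lit 400) (nat_lit 316) (nat_lit 304)) (XT.lf (nat_lit 0) (nat_lit 413970754687) (nat_lit 152) (nat_lit 1744278138564) (nat_lit 0) (nat_lit 413869254586) (nat_lit 1) (nat_lit 5) (nat_lit 3) (nat_lit 4) (nat_lit 1) (nat_lit 4) (nat_lit 401) (nat_lit 316) (nat_lit 303))))) (XT.nd (nat_lit 234) (nat_lit 0) (nat_lit 0) (XT.nd (nat_lit 78) (nat_lit 0) (nat_lit 0) (XT.lf (nat_lit 0) (nat_lit 478079463784) (nat_lit 152) (nat_lit 2001576306213) (nat_lit 0) (nat_lit 477975394366) (nat_lit 1) (nat_lit 5) (nat_lit 3) (nat_lit 4) (nat_lit 1) (nat_lit 4) (nat_lit 402) (nat_lit 316) (nat_lit 302)) (XT.nd (nat_lit 78) (nat_lit 0) (nat_lit 0)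 (XT.lf (nat_lit 0) (nat_lit 551742734338) (nat_lit 152) (nat_lit 2297601230466) (nat_lit 0) (nat_lit 551636430732) (nat_lit 1) (nat_lit 5) (nat_lit 3) (nat_lit 4) (nat_lit 1) (nat_lit 4) (nat_lit 403) (nat_lit 316) (nat_lit 301)) (XT.lf (nat_lit 0) (nat_lit 636401804253) (nat_lit 152) (nat_lit 2638144703321) (nat_lit 0) (nat_lit 636293557874) (nat_lit 1) (nat_lit 5) (nat_lit 3) (nat_lit 4) (nat_lit 1) (nat_lit 4) (nat_lit 404) (nat_lit 316) (nat_lit 300)))) (XT.nd (nat_lit 156) (nat_lit 0) (nat_lit 0) (XT.nd (nat_lit 78) (nat_lit 0) (nat_lit 0) (XT.lf (nat_lit 0) (nat_lit 733713046635) (nat_lit 152) (nat_lit 3029869531854) (nat_lit 0) (nat_lit 733603110889) (nat_lit 1) (nat_lit 5) (nat_lit 3) (nat_lit 4) (nat_lit 1) (nat_lit 4) (nat_lit 405) (nat_lit 316) (nat_lit 299)) (XT.lf (nat_lit 0) (nat_lit 845580377097) (nat_lit 152) (nat_lit 3480439897494) (nat_lit 0) (nat_lit 845468972335) (nat_lit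 1) (nat_lit 5) (nat_lit 3) (nat_lit 4) (nat_lit 1) (nat_lit 4) (nat_lit 406) (nat_lit 316) (nat_lit 298))) (XT.nd (nat_lit 78) (nat_lit 0) (nat_lit 0) (XT.lf (nat_lit 0) (nat_lit 974192504277) (nat_lit 152) (nat_lit 3998671307394) (nat_lit 0) (nat_lit 974079822110) (nat_lit 1) (nat_lit 5) (nat_lit 3) (nat_lit 4) (nat_lit 1) (nat_lit 4) (nat_lit 407) (nat_lit 316) (nat_lit 297)) (XT.lf (nat_lit 0) (nat_lit 1122065752403) (nat_lit 152) (nat_lit 4594703071748) (nat_lit 0) (nat_lit 1121951959450) (nat_lit 1) (nat_lit 5) (nat_lit 3) (nat_lit 4) (nat_lit 1) (nat_lit 4) (nat_lit 408) (nat_lit 316) (nat_lit 296)))))) (XT.nd (nat_lit 468) (nat_lit 0) (nat_lit 0) (XT.nd (nat_lit 234) (nat_lit 0) (nat_lit 0) (XT.nd (nat_lit 78) (nat_lit 0) (nat_lit 0) (XT.lf (nat_lit 0) (nat_lit 1292093293721) (nat_lit 152) (nat_lit 5280196681598) (nat_lit 0) (nat_lit 1291978534867) (nat_lit 1) (nat_lit 5) (nat_lit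 3) (nat_lit 4) (nat_lit 1) (nat_lit 4) (nat_lit 409) (nat_lit 316) (nat_lit 295)) (XT.nd (nat_lit 78) (nat_lit 0) (nat_lit 0) (XT.lf (nat_lit 0) (nat_lit 1487601754040) (nat_lit 152) (nat_lit 6068563968441) (nat_lit 0) (nat_lit 1487486155271) (nat_lit 1) (nat_lit 5) (nat_lit 3) (nat_lit 4) (nat_lit 1) (nat_lit 4) (nat_lit 410) (nat_lit 316) (nat_lit 294)) (XT.lf (nat_lit 0) (nat_lit 1712416298887) (nat_lit 152) (nat_lit 6975229509628) (nat_lit 0) (nat_lit 1712299969758) (nat_lit 1) (nat_lit 5) (nat_lit 3) (nat_lit 4) (nat_lit 1) (nat_lit 4) (nat_lit 411) (nat_lit 316) (nat_lit 293)))) (XT.nd (nat_lit 78) (nat_lit 0) (nat_lit 0) (XT.lf (nat_lit 0) (nat_lit 1970935473705) (nat_lit 152) (nat_lit 8017932413573) (nat_lit 0) (nat_lit 1970818509481) (nat_lit 1) (nat_lit 5) (nat_lit 3) (nat_lit 4) (nat_lit 1) (nat_lit 4) (nat_lit 412) (nat_lit 316) (nat_lit 292)) (XT.nd (nat_lit 78) (nat_lit 0)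 (nat_lit 0) (XT.lf (nat_lit 0) (nat_lit 2268217262349) (nat_lit 152) (nat_lit 9217073389268) (nat_lit 0) (nat_lit 2268099745868) (nat_lit 1) (nat_lit 5) (nat_lit 3) (nat_lit 4) (nat_lit 1) (nat_lit 4) (nat_lit 413) (nat_lit 316) (nat_lit 291)) (XT.lf (nat_lit 0) (nat_lit 2610078047641) (nat_lit 152) (nat_lit 10596113890583) (nat_lit 0) (nat_lit 2609960050936) (nat_lit 1) (nat_lit 5) (nat_lit 3) (nat_lit 4) (nat_lit 1) (nat_lit 4) (nat_lit 414) (nat_lit 316) (nat_lit 290))))) (XT.nd (nat_lit 234) (nat_lit 0) (nat_lit 0) (XT.nd (nat_lit 78) (nat_lit 0) (nat_lit 0) (XT.lf (nat_lit 0) (nat_lit 3003206410163) (nat_lit 152) (nat_lit 12182035144720) (nat_lit 0) (nat_lit 3003087995872) (nat_lit 1) (nat_lit 5) (nat_lit 3) (nat_lit 4) (nat_lit 1) (nat_lit 4) (nat_lit 415) (nat_lit 316) (nat_lit 289)) (XT.nd (nat_lit 78) (nat_lit 0) (nat_lit 0) (XT.lf (nat_lit 0) (nat_lit 3455293991789) (nat_lit 152)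 (nat_lit 14005866045780) (nat_lit 0) (nat_lit 3455175214379) (nat_lit 1) (nat_lit 5) (nat_lit 3) (nat_lit 4) (nat_lit 1) (nat_lit 4) (nat_lit 416) (nat_lit 316) (nat_lit 288)) (XT.lf (nat_lit 0) (nat_lit 3975185984334) (nat_lit 152) (nat_lit 16103290241827) (nat_lit 0) (nat_lit 3975066891170) (nat_lit 1) (nat_lit 5) (nat_lit 3) (nat_lit 4) (nat_lit 1) (nat_lit 4) (nat_lit 417) (nat_lit 316) (nat_lit 287)))) (XT.nd (nat_lit 156) (nat_lit 0) (nat_lit 0) (XT.nd (nat_lit 78) (nat_lit 0) (nat_lit 0) (XT.lf (nat_lit 0) (nat_lit 4573054187652) (nat_lit 152) (nat_lit 18515344293220) (nat_lit 0) (nat_lit 4572934819919) (nat_lit 1) (nat_lit 5) (nat_lit 3) (nat_lit 4) (nat_lit 1) (nat_lit 4) (nat_lit 418) (nat_lit 316) (nat_lit 286)) (XT.lf (nat_lit 0) (nat_lit 5260596023113) (nat_lit 152) (nat_lit 21289220561833) (nat_lit 0) (nat_lit 5260476416624) (nat_lit 1) (nat_lit 5) (nat_lit 3) (nat_lit 4)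 (nat_lit 1) (nat_lit 4) (nat_lit 419) (nat_lit 316) (nat_lit 285))) (XT.nd (nat_lit 78) (nat_lit 0) (nat_lit 0) (XT.lf (nat_lit 0) (nat_lit 6051263396193) (nat_lit 152) (nat_lit 24479190539878) (nat_lit 0) (nat_lit 6051143582090) (nat_lit 1) (nat_lit 5) (nat_lit 3) (nat_lit 4) (nat_lit 1) (nat_lit 4) (nat_lit 420) (nat_lit 316) (nat_lit 284)) (XT.lf (nat_lit 0) (nat_lit 6960525885930) (nat_lit 152) (nat_lit 28147666683448) (nat_lit 0) (nat_lit 6960405891293) (nat_lit 1) (nat_lit 5) (nat_lit 3) (nat_lit 4) (nat_lit 1) (nat_lit 4) (nat_lit 421) (nat_lit 316) (nat_lit 283))))))))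
noncomputable def xc13 : XT := (XT.nd (nat_lit 51168) (nat_lit 0) (nat_lit 0) (XT.nd (nat_lit 936) (nat_lit 0) (nat_lit 0) (XT.nd (nat_lit 468) (nat_lit 0) (nat_lit 0) (XT.nd (nat_lit 234) (nat_lit 0) (nat_lit 0) (XT.nd (nat_lit 78) (nat_lit 0) (nat_lit 0) (XT.lf (nat_lit 0) (nat_lit 8006173410603) (nat_lit 152) (nat_lit 32366423525785) (nat_lit 0) (nat_lit 8006053258980) (nat_lit 1) (nat_lit 5) (nat_lit 3) (nat_lit 4) (nat_lit 1) (nat_lit 4) (nat_lit 422) (nat_lit 316) (nat_lit 282)) (XT.nd (nat_lit 78) (nat_lit 0) (nat_lit 0) (XT.lf (nat_lit 0) (nat_lit 9208664291345) (nat_lit 152) (nat_lit 37218001961633) (nat_lit 0) (nat_lit 9208544003212) (nat_lit 1) (nat_lit 5) (nat_lit 3) (nat_lit 4) (nat_lit 1) (nat_lit 4) (nat_lit 423) (nat_lit 316) (nat_lit 281)) (XT.lf (nat_lit 0) (nat_lit 10591525523650) (nat_lit 152) (nat_lit 42797324177778) (nat_lit 0) (nat_lit 10591405116813) (nat_lit 1)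 (nat_lit 5) (nat_lit 3) (nat_lit 4) (nat_lit 1) (nat_lit 4) (nat_lit 424) (nat_lit 316) (nat_lit 280)))) (XT.nd (nat_lit 78) (nat_lit 0) (nat_lit 0) (XT.lf (nat_lit 0) (nat_lit 12181813088150) (nat_lit 152) (nat_lit 49213550826276) (nat_lit 0) (nat_lit 12181692578092) (nat_lit 1) (nat_lit 5) (nat_lit 3) (nat_lit 4) (nat_lit 1) (nat_lit 4) (nat_lit 425) (nat_lit 316) (nat_lit 279)) (XT.nd (nat_lit 78) (nat_lit 0) (nat_lit 0) (XT.lf (nat_lit 0) (nat_lit 14010641306758) (nat_lit 152) (nat_lit 56592216776337) (nat_lit 0) (nat_lit 14010520706943) (nat_lit 1) (nat_lit 5) (nat_lit 3) (nat_lit 4) (nat_lit 1) (nat_lit 4) (nat_lit 426) (nat_lit 316) (nat_lit 278)) (XT.lf (nat_lit 0) (nat_lit 16113791601144) (nat_lit 152) (nat_lit 65077687231331) (nat_lit 0) (nat_lit 16113670923279) (nat_lit 1) (nat_lit 5) (nat_lit 3) (nat_lit 4) (nat_lit 1) (nat_lit 4) (nat_lit 427) (nat_lit 316) (nat_lit 277)))))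 (XT.nd (nat_lit 234) (nat_lit 0) (nat_lit 0) (XT.nd (nat_lit 78) (nat_lit 0) (nat_lit 0) (XT.lf (nat_lit 0) (nat_lit 18532412564023) (nat_lit 152) (nat_lit 74835982265378) (nat_lit 0) (nat_lit 18532291818289) (nat_lit 1) (nat_lit 5) (nat_lit 3) (nat_lit 4) (nat_lit 1) (nat_lit 4) (nat_lit 428) (nat_lit 316) (nat_lit 276)) (XT.nd (nat_lit 78) (nat_lit 0) (nat_lit 0) (XT.lf (nat_lit 0) (nat_lit 21313825040322) (nat_lit 152) (nat_lit 86058025042187) (nat_lit 0) (nat_lit 21313704235571) (nat_lit 1) (nat_lit 5) (nat_lit 3) (nat_lit 4) (nat_lit 1) (nat_lit 4) (nat_lit 429) (nat_lit 316) (nat_lit 275)) (XT.lf (nat_lit 0) (nat_lit 24512447969793) (nat_lit 152) (nat_lit 98963377268262) (nat_lit 0) (nat_lit 24512327113724) (nat_lit 1) (nat_lit 5) (nat_lit 3) (nat_lit 4) (nat_lit 1) (nat_lit 4) (nat_lit 430) (nat_lit 316) (nat_lit 274)))) (XT.nd (nat_lit 78) (nat_lit 0) (nat_lit 0) (XT.lf (nat_lit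 0) (nat_lit 28190863105406) (nat_lit 152) (nat_lit 113804534965416) (nat_lit 0) (nat_lit 28190742204711) (nat_lit 1) (nat_lit 5) (nat_lit 3) (nat_lit 4) (nat_lit 1) (nat_lit 4) (nat_lit 431) (nat_lit 316) (nat_lit 273)) (XT.nd (nat_lit 78) (nat_lit 0) (nat_lit 0) (XT.lf (nat_lit 0) (nat_lit 32421039438943) (nat_lit 152) (nat_lit 130871868610334) (nat_lit 0) (nat_lit 32420918499444) (nat_lit 1) (nat_lit 5) (nat_lit 3) (nat_lit 4) (nat_lit 1) (nat_lit 4) (nat_lit 432) (nat_lit 316) (nat_lit 272)) (XT.lf (nat_lit 0) (nat_lit 37285741289975) (nat_lit 152) (nat_lit 150499304296068) (nat_lit 0) (nat_lit 37285620316732) (nat_lit 1) (nat_lit 5) (nat_lit 3) (nat_lit 4) (nat_lit 1) (nat_lit 4) (nat_lit 433) (nat_lit 316) (nat_lit 271)))))) (XT.nd (nat_lit 49686) (nat_lit 0) (nat_lit 0) (XT.nd (nat_lit 49452) (nat_lit 0) (nat_lit 0) (XT.nd (nat_lit 78) (nat_lit 0) (nat_lit 0) (XT.lf (nat_lit 0) (nat_lit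 42880147607759) (nat_lit 152) (nat_lit 173070857068642) (nat_lit 0) (nat_lit 42880026605175) (nat_lit 1) (nat_lit 5) (nat_lit 3) (nat_lit 4) (nat_lit 1) (nat_lit 4) (nat_lit 434) (nat_lit 316) (nat_lit 270)) (XT.nd (nat_lit 49296) (nat_lit 0) (nat_lit 0) (XT.lf (nat_lit 0) (nat_lit 49313714168080) (nat_lit 152) (nat_lit 199028144264913) (nat_lit 0) (nat_lit 49313593139981) (nat_lit 1) (nat_lit 5) (nat_lit 3) (nat_lit 4) (nat_lit 1) (nat_lit 4) (nat_lit 435) (nat_lit 316) (nat_lit 269)) (XT.lf (nat_lit 0) (nat_lit 14297632336) (nat_lit 152) (nat_lit 131134677674) (nat_lit 0) (nat_lit 14297632336) (nat_lit 1) (nat_lit 5) (nat_lit 3) (nat_lit 4) (nat_lit 1) (nat_lit 4) (nat_lit 386) (nat_lit 317) (nat_lit 317)))) (XT.nd (nat_lit 78) (nat_lit 0) (nat_lit 0) (XT.lf (nat_lit 0) (nat_lit 38004711110) (nat_lit 152) (nat_lit 290616429179) (nat_lit 0) (nat_lit 37986531381) (nat_lit 1) (nat_lit 5)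 (nat_lit 3) (nat_lit 4) (nat_lit 1) (nat_lit 4) (nat_lit 387) (nat_lit 317) (nat_lit 316)) (XT.nd (nat_lit 78) (nat_lit 0) (nat_lit 0) (XT.lf (nat_lit 0) (nat_lit 48388685725) (nat_lit 152) (nat_lit 324149779829) (nat_lit 0) (nat_lit 48354697535) (nat_lit 1) (nat_lit 5) (nat_lit 3) (nat_lit 4) (nat_lit 1) (nat_lit 4) (nat_lit 388) (nat_lit 317) (nat_lit 315)) (XT.lf (nat_lit 0) (nat_lit 59950353237) (nat_lit 152) (nat_lit 363525494595) (nat_lit 0) (nat_lit 59902618560) (nat_lit 1) (nat_lit 5) (nat_lit 3) (nat_lit 4) (nat_lit 1) (nat_lit 4) (nat_lit 389) (nat_lit 317) (nat_lit 314))))) (XT.nd (nat_lit 234) (nat_lit 0) (nat_lit 0) (XT.nd (nat_lit 78) (nat_lit 0) (nat_lit 0) (XT.lf (nat_lit 0) (nat_lit 72915920185) (nat_lit 152) (nat_lit 409513967896) (nat_lit 0) (nat_lit 72856232040) (nat_lit 1) (nat_lit 5) (nat_lit 3) (nat_lit 4) (nat_lit 1) (nat_lit 4) (nat_lit 390) (nat_lit 317) (nat_lit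 313)) (XT.nd (nat_lit 78) (nat_lit 0) (nat_lit 0) (XT.lf (nat_lit 0) (nat_lit 87539060704) (nat_lit 152) (nat_lit 463014974209) (nat_lit 0) (nat_lit 87468978240) (nat_lit 1) (nat_lit 5) (nat_lit 3) (nat_lit 4) (nat_lit 1) (nat_lit 4) (nat_lit 391) (nat_lit 317) (nat_lit 312)) (XT.lf (nat_lit 0) (nat_lit 104105879718) (nat_lit 152) (nat_lit 525075272354) (nat_lit 0) (nat_lit 104026758715) (nat_lit 1) (nat_lit 5) (nat_lit 3) (nat_lit 4) (nat_lit 1) (nat_lit 4) (nat_lit 392) (nat_lit 317) (nat_lit 311)))) (XT.nd (nat_lit 156) (nat_lit 0) (nat_lit 0) (XT.nd (nat_lit 78) (nat_lit 0) (nat_lit 0) (XT.lf (nat_lit 0) (nat_lit 122940510642) (nat_lit 152) (nat_lit 596909085555) (nat_lit 0) (nat_lit 122853530041) (nat_lit 1) (nat_lit 5) (nat_lit 3) (nat_lit 4) (nat_lit 1) (nat_lit 4) (nat_lit 393) (nat_lit 317) (nat_lit 310)) (XT.lf (nat_lit 0) (nat_lit 144411457124) (nat_lit 152) (nat_lit 679921857984)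 (nat_lit 0) (nat_lit 144317642090) (nat_lit 1) (nat_lit 5) (nat_lit 3) (nat_lit 4) (nat_lit 1) (nat_lit 4) (nat_lit 394) (nat_lit 317) (nat_lit 309))) (XT.nd (nat_lit 78) (nat_lit 0) (nat_lit 0) (XT.lf (nat_lit 0) (nat_lit 168938802901) (nat_lit 152) (nat_lit 775737752579) (nat_lit 0) (nat_lit 168839044881) (nat_lit 1) (nat_lit 5) (nat_lit 3) (nat_lit 4) (nat_lit 1) (nat_lit 4) (nat_lit 395) (nat_lit 317) (nat_lit 308)) (XT.lf (nat_lit 0) (nat_lit 197002430824) (nat_lit 152) (nat_lit 886231428147) (nat_lit 0) (nat_lit 196897504990) (nat_lit 1) (nat_lit 5) (nat_lit 3) (nat_lit 4) (nat_lit 1) (nat_lit 4) (nat_lit 396) (nat_lit 317) (nat_lit 307))))))) (XT.nd (nat_lit 1014) (nat_lit 0) (nat_lit 0) (XT.nd (nat_lit 468) (nat_lit 0) (nat_lit 0) (XT.nd (nat_lit 234) (nat_lit 0) (nat_lit 0) (XT.nd (nat_lit 78) (nat_lit 0) (nat_lit 0) (XT.lf (nat_lit 0) (nat_lit 229151411875) (nat_lit 152) (nat_lit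 1013564717472) (nat_lit 0) (nat_lit 229041992290) (nat_lit 1) (nat_lit 5) (nat_lit 3) (nat_lit 4) (nat_lit 1) (nat_lit 4) (nat_lit 397) (nat_lit 317) (nat_lit 306)) (XT.nd (nat_lit 78) (nat_lit 0) (nat_lit 0) (XT.lf (nat_lit 0) (nat_lit 266014747856) (nat_lit 152) (nat_lit 1160228924041) (nat_lit 0) (nat_lit 265901420661) (nat_lit 1) (nat_lit 5) (nat_lit 3) (nat_lit 4) (nat_lit 1) (nat_lit 4) (nat_lit 398) (nat_lit 317) (nat_lit 305)) (XT.lf (nat_lit 0) (nat_lit 308313677951) (nat_lit 152) (nat_lit 1329093564938) (nat_lit 0) (nat_lit 308196952834) (nat_lit 1) (nat_lit 5) (nat_lit 3) (nat_lit 4) (nat_lit 1) (nat_lit 4) (nat_lit 399) (nat_lit 317) (nat_lit 304)))) (XT.nd (nat_lit 78) (nat_lit 0) (nat_lit 0) (XT.lf (nat_lit 0) (nat_lit 356875789920) (nat_lit 152) (nat_lit 1523462513571) (nat_lit 0) (nat_lit 356756110090) (nat_lit 1) (nat_lit 5) (nat_lit 3) (nat_lit 4) (nat_lit 1) (nat_lit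 4) (nat_lit 400) (nat_lit 317) (nat_lit 303)) (XT.nd (nat_lit 78) (nat_lit 0) (nat_lit 0) (XT.lf (nat_lit 0) (nat_lit 412651212044) (nat_lit 152) (nat_lit 1747138640677) (nat_lit 0) (nat_lit 412528962896) (nat_lit 1) (nat_lit 5) (nat_lit 3) (nat_lit 4) (nat_lit 1) (nat_lit 4) (nat_lit 401) (nat_lit 317) (nat_lit 302)) (XT.lf (nat_lit 0) (nat_lit 476731202579) (nat_lit 152) (nat_lit 2004498218306) (nat_lit 0) (nat_lit 476606719243) (nat_lit 1) (nat_lit 5) (nat_lit 3) (nat_lit 4) (nat_lit 1) (nat_lit 4) (nat_lit 402) (nat_lit 317) (nat_lit 301))))) (XT.nd (nat_lit 234) (nat_lit 0) (nat_lit 0) (XT.nd (nat_lit 78) (nat_lit 0) (nat_lit 0) (XT.lf (nat_lit 0) (nat_lit 550369500472) (nat_lit 152) (nat_lit 2300576542542) (nat_lit 0) (nat_lit 550243074363) (nat_lit 1) (nat_lit 5) (nat_lit 3) (nat_lit 4) (nat_lit 1) (nat_lit 4) (nat_lit 403) (nat_lit 317) (nat_lit 300)) (XT.nd (nat_lit 78) (nat_lit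 0) (nat_lit 0) (XT.lf (nat_lit 0) (nat_lit 635006855028) (nat_lit 152) (nat_lit 2641166450164) (nat_lit 0) (nat_lit 634878739552) (nat_lit 1) (nat_lit 5) (nat_lit 3) (nat_lit 4) (nat_lit 1) (nat_lit 4) (nat_lit 404) (nat_lit 317) (nat_lit 299)) (XT.lf (nat_lit 0) (nat_lit 732299214490) (nat_lit 152) (nat_lit 3032931656756) (nat_lit 0) (nat_lit 732169629999) (nat_lit 1) (nat_lit 5) (nat_lit 3) (nat_lit 4) (nat_lit 1) (nat_lit 4) (nat_lit 405) (nat_lit 317) (nat_lit 298)))) (XT.nd (nat_lit 156) (nat_lit 0) (nat_lit 0) (XT.nd (nat_lit 78) (nat_lit 0) (nat_lit 0) (XT.lf (nat_lit 0) (nat_lit 844150125021) (nat_lit 152) (nat_lit 3483537133751) (nat_lit 0) (nat_lit 844019263126) (nat_lit 1) (nat_lit 5) (nat_lit 3) (nat_lit 4) (nat_lit 1) (nat_lit 4) (nat_lit 406) (nat_lit 317) (nat_lit 297)) (XT.lf (nat_lit 0) (nat_lit 972747974001) (nat_lit 152) (nat_lit 4001799075265) (nat_lit 0) (nat_lit 972616001319)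 (nat_lit 1) (nat_lit 5) (nat_lit 3) (nat_lit 4) (nat_lit 1) (nat_lit 4) (nat_lit 407) (nat_lit 317) (nat_lit 296))) (XT.nd (nat_lit 78) (nat_lit 0) (nat_lit 0) (XT.lf (nat_lit 0) (nat_lit 1120608806301) (nat_lit 152) (nat_lit 4597857388848) (nat_lit 0) (nat_lit 1120475867717) (nat_lit 1) (nat_lit 5) (nat_lit 3) (nat_lit 4) (nat_lit 1) (nat_lit 4) (nat_lit 408) (nat_lit 317) (nat_lit 295)) (XT.lf (nat_lit 0) (nat_lit 1290625551248) (nat_lit 152) (nat_lit 5283374084984) (nat_lit 0) (nat_lit 1290491772750) (nat_lit 1) (nat_lit 5) (nat_lit 3) (nat_lit 4) (nat_lit 1) (nat_lit 4) (nat_lit 409) (nat_lit 317) (nat_lit 294)))))) (XT.nd (nat_lit 468) (nat_lit 0) (nat_lit 0) (XT.nd (nat_lit 234) (nat_lit 0) (nat_lit 0) (XT.nd (nat_lit 78) (nat_lit 0) (nat_lit 0) (XT.lf (nat_lit 0) (nat_lit 1486124623418) (nat_lit 152) (nat_lit 6071761446859) (nat_lit 0) (nat_lit 1485990114560) (nat_lit 1) (nat_lit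 5) (nat_lit 3) (nat_lit 4) (nat_lit 1) (nat_lit 4) (nat_lit 410) (nat_lit 317) (nat_lit 293)) (XT.nd (nat_lit 78) (nat_lit 0) (nat_lit 0) (XT.lf (nat_lit 0) (nat_lit 1710931004658) (nat_lit 152) (nat_lit 6978444444595) (nat_lit 0) (nat_lit 1710795860704) (nat_lit 1) (nat_lit 5) (nat_lit 3) (nat_lit 4) (nat_lit 1) (nat_lit 4) (nat_lit 411) (nat_lit 317) (nat_lit 292)) (XT.lf (nat_lit 0) (nat_lit 1969443080687) (nat_lit 152) (nat_lit 8021162528148) (nat_lit 0) (nat_lit 1969307384476) (nat_lit 1) (nat_lit 5) (nat_lit 3) (nat_lit 4) (nat_lit 1) (nat_lit 4) (nat_lit 412) (nat_lit 317) (nat_lit 291)))) (XT.nd (nat_lit 78) (nat_lit 0) (nat_lit 0) (XT.lf (nat_lit 0) (nat_lit 2266718696471) (nat_lit 152) (nat_lit 9220316703502) (nat_lit 0) (nat_lit 2266582520037) (nat_lit 1) (nat_lit 5) (nat_lit 3) (nat_lit 4) (nat_lit 1) (nat_lit 4) (nat_lit 413) (nat_lit 317) (nat_lit 290)) (XT.nd (nat_lit 78)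 (nat_lit 0) (nat_lit 0) (XT.lf (nat_lit 0) (nat_lit 2608574114059) (nat_lit 152) (nat_lit 10599368682782) (nat_lit 0) (nat_lit 2608437520038) (nat_lit 1) (nat_lit 5) (nat_lit 3) (nat_lit 4) (nat_lit 1) (nat_lit 4) (nat_lit 414) (nat_lit 317) (nat_lit 289)) (XT.lf (nat_lit 0) (nat_lit 3001697809011) (nat_lit 152) (nat_lit 12185299917757) (nat_lit 0) (nat_lit 3001560851873) (nat_lit 1) (nat_lit 5) (nat_lit 3) (nat_lit 4) (nat_lit 1) (nat_lit 4) (nat_lit 415) (nat_lit 317) (nat_lit 288))))) (XT.nd (nat_lit 234) (nat_lit 0) (nat_lit 0) (XT.nd (nat_lit 78) (nat_lit 0) (nat_lit 0) (XT.lf (nat_lit 0) (nat_lit 3453781331881) (nat_lit 152) (nat_lit 14009139497807) (nat_lit 0) (nat_lit 3453644058988) (nat_lit 1) (nat_lit 5) (nat_lit 3) (nat_lit 4) (nat_lit 1) (nat_lit 4) (nat_lit 416) (nat_lit 317) (nat_lit 287)) (XT.nd (nat_lit 78) (nat_lit 0) (nat_lit 0) (XT.lf (nat_lit 0) (nat_lit 3973669795074)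 (nat_lit 152) (nat_lit 16106571240802) (nat_lit 0) (nat_lit 3973532247611) (nat_lit 1) (nat_lit 5) (nat_lit 3) (nat_lit 4) (nat_lit 1) (nat_lit 4) (nat_lit 417) (nat_lit 317) (nat_lit 286)) (XT.lf (nat_lit 0) (nat_lit 4571534929390) (nat_lit 152) (nat_lit 18518631854758) (nat_lit 0) (nat_lit 4571397143171) (nat_lit 1) (nat_lit 5) (nat_lit 3) (nat_lit 4) (nat_lit 1) (nat_lit 4) (nat_lit 418) (nat_lit 317) (nat_lit 285)))) (XT.nd (nat_lit 156) (nat_lit 0) (nat_lit 0) (XT.nd (nat_lit 78) (nat_lit 0) (nat_lit 0) (XT.lf (nat_lit 0) (nat_lit 5259074096153) (nat_lit 152) (nat_lit 21292513829948) (nat_lit 0) (nat_lit 5258936102320) (nat_lit 1) (nat_lit 5) (nat_lit 3) (nat_lit 4) (nat_lit 1) (nat_lit 4) (nat_lit 419) (nat_lit 317) (nat_lit 284)) (XT.lf (nat_lit 0) (nat_lit 6049739148626) (nat_lit 152) (nat_lit 24482488770234) (nat_lit 0) (nat_lit 6049600974259) (nat_lit 1) (nat_lit 5) (nat_lit 3)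 (nat_lit 4) (nat_lit 1) (nat_lit 4) (nat_lit 420) (nat_lit 317) (nat_lit 283))) (XT.nd (nat_lit 78) (nat_lit 0) (nat_lit 0) (XT.lf (nat_lit 0) (nat_lit 6958999620445) (nat_lit 152) (nat_lit 28150969228796) (nat_lit 0) (nat_lit 6958861289092) (nat_lit 1) (nat_lit 5) (nat_lit 3) (nat_lit 4) (nat_lit 1) (nat_lit 4) (nat_lit 421) (nat_lit 317) (nat_lit 282)) (XT.lf (nat_lit 0) (nat_lit 8004645390405) (nat_lit 152) (nat_lit 32369729823301) (nat_lit 0) (nat_lit 8004506922543) (nat_lit 1) (nat_lit 5) (nat_lit 3) (nat_lit 4) (nat_lit 1) (nat_lit 4) (nat_lit 422) (nat_lit 317) (nat_lit 281))))))))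
noncomputable def xc14 : XT := (XT.nd (nat_lit 51090) (nat_lit 0) (nat_lit 0) (XT.nd (nat_lit 50076) (nat_lit 0) (nat_lit 0) (XT.nd (nat_lit 468) (nat_lit 0) (nat_lit 0) (XT.nd (nat_lit 234) (nat_lit 0) (nat_lit 0) (XT.nd (nat_lit 78) (nat_lit 0) (nat_lit 0) (XT.lf (nat_lit 0) (nat_lit 9207134745311) (nat_lit 152) (nat_lit 37221311521902) (nat_lit 0) (nat_lit 9206996158744) (nat_lit 1) (nat_lit 5) (nat_lit 3) (nat_lit 4) (nat_lit 1) (nat_lit 4) (nat_lit 423) (nat_lit 317) (nat_lit 280)) (XT.nd (nat_lit 78) (nat_lit 0) (nat_lit 0) (XT.lf (nat_lit 0) (nat_lit 10589994650801) (nat_lit 152) (nat_lit 42800636575224) (nat_lit 0) (nat_lit 10589855961014) (nat_lit 1) (nat_lit 5) (nat_lit 3) (nat_lit 4) (nat_lit 1) (nat_lit 4) (nat_lit 424) (nat_lit 317) (nat_lit 279)) (XT.lf (nat_lit 0) (nat_lit 12180281061549) (nat_lit 152) (nat_lit 49216865690833) (nat_lit 0) (nat_lit 12180142282005) (nat_lit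 1) (nat_lit 5) (nat_lit 3) (nat_lit 4) (nat_lit 1) (nat_lit 4) (nat_lit 425) (nat_lit 317) (nat_lit 278)))) (XT.nd (nat_lit 78) (nat_lit 0) (nat_lit 0) (XT.lf (nat_lit 0) (nat_lit 14009108276895) (nat_lit 152) (nat_lit 56595533786208) (nat_lit 0) (nat_lit 14008969419301) (nat_lit 1) (nat_lit 5) (nat_lit 3) (nat_lit 4) (nat_lit 1) (nat_lit 4) (nat_lit 426) (nat_lit 317) (nat_lit 277)) (XT.nd (nat_lit 78) (nat_lit 0) (nat_lit 0) (XT.lf (nat_lit 0) (nat_lit 16112257698879) (nat_lit 152) (nat_lit 65081006106692) (nat_lit 0) (nat_lit 16112118773415) (nat_lit 1) (nat_lit 5) (nat_lit 3) (nat_lit 4) (nat_lit 1) (nat_lit 4) (nat_lit 427) (nat_lit 317) (nat_lit 276)) (XT.lf (nat_lit 0) (nat_lit 18530877903148) (nat_lit 152) (nat_lit 74839302762904) (nat_lit 0) (nat_lit 18530738918667) (nat_lit 1) (nat_lit 5) (nat_lit 3) (nat_lit 4) (nat_lit 1) (nat_lit 4) (nat_lit 428) (nat_lit 317) (nat_lit 275)))))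 (XT.nd (nat_lit 234) (nat_lit 0) (nat_lit 0) (XT.nd (nat_lit 78) (nat_lit 0) (nat_lit 0) (XT.lf (nat_lit 0) (nat_lit 21312289719785) (nat_lit 152) (nat_lit 86061346950292) (nat_lit 0) (nat_lit 21312150683986) (nat_lit 1) (nat_lit 5) (nat_lit 3) (nat_lit 4) (nat_lit 1) (nat_lit 4) (nat_lit 429) (nat_lit 317) (nat_lit 274)) (XT.nd (nat_lit 78) (nat_lit 0) (nat_lit 0) (XT.lf (nat_lit 0) (nat_lit 24510912075638) (nat_lit 152) (nat_lit 98966700402957) (nat_lit 0) (nat_lit 24510772995214) (nat_lit 1) (nat_lit 5) (nat_lit 3) (nat_lit 4) (nat_lit 1) (nat_lit 4) (nat_lit 430) (nat_lit 317) (nat_lit 273)) (XT.lf (nat_lit 0) (nat_lit 28189326712452) (nat_lit 152) (nat_lit 113807859166711) (nat_lit 0) (nat_lit 28189187593223) (nat_lit 1) (nat_lit 5) (nat_lit 3) (nat_lit 4) (nat_lit 1) (nat_lit 4) (nat_lit 431) (nat_lit 317) (nat_lit 272)))) (XT.nd (nat_lit 78) (nat_lit 0) (nat_lit 0) (XT.lf (nat_lit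 0) (nat_lit 32419502612252) (nat_lit 152) (nat_lit 130875193739107) (nat_lit 0) (nat_lit 32419363459279) (nat_lit 1) (nat_lit 5) (nat_lit 3) (nat_lit 4) (nat_lit 1) (nat_lit 4) (nat_lit 432) (nat_lit 317) (nat_lit 271)) (XT.nd (nat_lit 78) (nat_lit 0) (nat_lit 0) (XT.lf (nat_lit 0) (nat_lit 37284204086120) (nat_lit 152) (nat_lit 150502630231344) (nat_lit 0) (nat_lit 37284064903805) (nat_lit 1) (nat_lit 5) (nat_lit 3) (nat_lit 4) (nat_lit 1) (nat_lit 4) (nat_lit 433) (nat_lit 317) (nat_lit 270)) (XT.lf (nat_lit 0) (nat_lit 42878610075936) (nat_lit 152) (nat_lit 173074183705225) (nat_lit 0) (nat_lit 42878470868107) (nat_lit 1) (nat_lit 5) (nat_lit 3) (nat_lit 4) (nat_lit 1) (nat_lit 4) (nat_lit 434) (nat_lit 317) (nat_lit 269)))))) (XT.nd (nat_lit 468) (nat_lit 0) (nat_lit 0) (XT.nd (nat_lit 234) (nat_lit 0) (nat_lit 0) (XT.nd (nat_lit 78) (nat_lit 0) (nat_lit 0) (XT.lf (nat_lit 0) (nat_lit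 6134336950) (nat_lit 152) (nat_lit 109215769813) (nat_lit 0) (nat_lit 6134336950) (nat_lit 1) (nat_lit 5) (nat_lit 3) (nat_lit 4) (nat_lit 1) (nat_lit 4) (nat_lit 384) (nat_lit 318) (nat_lit 318)) (XT.nd (nat_lit 78) (nat_lit 0) (nat_lit 0) (XT.lf (nat_lit 0) (nat_lit 19997155234) (nat_lit 152) (nat_lit 238553941677) (nat_lit 0) (nat_lit 19976248545) (nat_lit 1) (nat_lit 5) (nat_lit 3) (nat_lit 4) (nat_lit 1) (nat_lit 4) (nat_lit 385) (nat_lit 318) (nat_lit 317)) (XT.lf (nat_lit 0) (nat_lit 28382486660) (nat_lit 152) (nat_lit 262769052143) (nat_lit 0) (nat_lit 28343400242) (nat_lit 1) (nat_lit 5) (nat_lit 3) (nat_lit 4) (nat_lit 1) (nat_lit 4) (nat_lit 386) (nat_lit 318) (nat_lit 316)))) (XT.nd (nat_lit 78) (nat_lit 0) (nat_lit 0) (XT.lf (nat_lit 0) (nat_lit 37588729010) (nat_lit 152) (nat_lit 291550644925) (nat_lit 0) (nat_lit 37533834131) (nat_lit 1) (nat_lit 5) (nat_lit 3) (nat_lit 4)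 (nat_lit 1) (nat_lit 4) (nat_lit 387) (nat_lit 318) (nat_lit 315)) (XT.nd (nat_lit 78) (nat_lit 0) (nat_lit 0) (XT.lf (nat_lit 0) (nat_lit 47796004418) (nat_lit 152) (nat_lit 325461838142) (nat_lit 0) (nat_lit 47727363052) (nat_lit 1) (nat_lit 5) (nat_lit 3) (nat_lit 4) (nat_lit 1) (nat_lit 4) (nat_lit 388) (nat_lit 318) (nat_lit 314)) (XT.lf (nat_lit 0) (nat_lit 59204020446) (nat_lit 152) (nat_lit 365166111661) (nat_lit 0) (nat_lit 59123425612) (nat_lit 1) (nat_lit 5) (nat_lit 3) (nat_lit 4) (nat_lit 1) (nat_lit 4) (nat_lit 389) (nat_lit 318) (nat_lit 313))))) (XT.nd (nat_lit 234) (nat_lit 0) (nat_lit 0) (XT.nd (nat_lit 78) (nat_lit 0) (nat_lit 0) (XT.lf (nat_lit 0) (nat_lit 72035977407) (nat_lit 152) (nat_lit 411440288225) (nat_lit 0) (nat_lit 71944988254) (nat_lit 1) (nat_lit 5) (nat_lit 3) (nat_lit 4) (nat_lit 1) (nat_lit 4) (nat_lit 390) (nat_lit 318) (nat_lit 312)) (XT.nd (nat_lit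 78) (nat_lit 0) (nat_lit 0) (XT.lf (nat_lit 0) (nat_lit 86542935329) (nat_lit 152) (nat_lit 465189732159) (nat_lit 0) (nat_lit 86442907638) (nat_lit 1) (nat_lit 5) (nat_lit 3) (nat_lit 4) (nat_lit 1) (nat_lit 4) (nat_lit 391) (nat_lit 318) (nat_lit 311)) (XT.lf (nat_lit 0) (nat_lit 103008725998) (nat_lit 152) (nat_lit 527466063018) (nat_lit 0) (nat_lit 102900838708) (nat_lit 1) (nat_lit 5) (nat_lit 3) (nat_lit 4) (nat_lit 1) (nat_lit 4) (nat_lit 392) (nat_lit 318) (nat_lit 310)))) (XT.nd (nat_lit 156) (nat_lit 0) (nat_lit 0) (XT.nd (nat_lit 78) (nat_lit 0) (nat_lit 0) (XT.lf (nat_lit 0) (nat_lit 121755506187) (nat_lit 152) (nat_lit 599487730753) (nat_lit 0) (nat_lit 121640784463) (nat_lit 1) (nat_lit 5) (nat_lit 3) (nat_lit 4) (nat_lit 1) (nat_lit 4) (nat_lit 393) (nat_lit 318) (nat_lit 309)) (XT.lf (nat_lit 0) (nat_lit 143150060726) (nat_lit 152) (nat_lit 682663854950) (nat_lit 0) (nat_lit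 143029396017) (nat_lit 1) (nat_lit 5) (nat_lit 3) (nat_lit 4) (nat_lit 1) (nat_lit 4) (nat_lit 394) (nat_lit 318) (nat_lit 308))) (XT.nd (nat_lit 78) (nat_lit 0) (nat_lit 0) (XT.lf (nat_lit 0) (nat_lit 167610978726) (nat_lit 152) (nat_lit 778621794561) (nat_lit 0) (nat_lit 167485146203) (nat_lit 1) (nat_lit 5) (nat_lit 3) (nat_lit 4) (nat_lit 1) (nat_lit 4) (nat_lit 395) (nat_lit 318) (nat_lit 307)) (XT.lf (nat_lit 0) (nat_lit 195616843365) (nat_lit 152) (nat_lit 889238987534) (nat_lit 0) (nat_lit 195486517091) (nat_lit 1) (nat_lit 5) (nat_lit 3) (nat_lit 4) (nat_lit 1) (nat_lit 4) (nat_lit 396) (nat_lit 318) (nat_lit 306))))))) (XT.nd (nat_lit 1014) (nat_lit 0) (nat_lit 0) (XT.nd (nat_lit 468) (nat_lit 0) (nat_lit 0) (XT.nd (nat_lit 234) (nat_lit 0) (nat_lit 0) (XT.nd (nat_lit 78) (nat_lit 0) (nat_lit 0) (XT.lf (nat_lit 0) (nat_lit 227715595473) (nat_lit 152) (nat_lit 1016679683299) (nat_lit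 0) (nat_lit 227581361589) (nat_lit 1) (nat_lit 5) (nat_lit 3) (nat_lit 4) (nat_lit 1) (nat_lit 4) (nat_lit 397) (nat_lit 318) (nat_lit 305)) (XT.nd (nat_lit 78) (nat_lit 0) (nat_lit 0) (XT.lf (nat_lit 0) (nat_lit 264535254113) (nat_lit 152) (nat_lit 1163437286771) (nat_lit 0) (nat_lit 264397622308) (nat_lit 1) (nat_lit 5) (nat_lit 3) (nat_lit 4) (nat_lit 1) (nat_lit 4) (nat_lit 398) (nat_lit 318) (nat_lit 304)) (XT.lf (nat_lit 0) (nat_lit 306796203910) (nat_lit 152) (nat_lit 1332383142367) (nat_lit 0) (nat_lit 306655617391) (nat_lit 1) (nat_lit 5) (nat_lit 3) (nat_lit 4) (nat_lit 1) (nat_lit 4) (nat_lit 399) (nat_lit 318) (nat_lit 303)))) (XT.nd (nat_lit 78) (nat_lit 0) (nat_lit 0) (XT.lf (nat_lit 0) (nat_lit 355325289535) (nat_lit 152) (nat_lit 1526822712478) (nat_lit 0) (nat_lit 355182133699) (nat_lit 1) (nat_lit 5) (nat_lit 3) (nat_lit 4) (nat_lit 1) (nat_lit 4) (nat_lit 400) (nat_lit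 318) (nat_lit 302)) (XT.nd (nat_lit 78) (nat_lit 0) (nat_lit 0) (XT.lf (nat_lit 0) (nat_lit 411071993097) (nat_lit 152) (nat_lit 1750560249564) (nat_lit 0) (nat_lit 410926603072) (nat_lit 1) (nat_lit 5) (nat_lit 3) (nat_lit 4) (nat_lit 1) (nat_lit 4) (nat_lit 401) (nat_lit 318) (nat_lit 301)) (XT.lf (nat_lit 0) (nat_lit 475127010970) (nat_lit 152) (nat_lit 2007973227175) (nat_lit 0) (nat_lit 474979678173) (nat_lit 1) (nat_lit 5) (nat_lit 3) (nat_lit 4) (nat_lit 1) (nat_lit 4) (nat_lit 402) (nat_lit 318) (nat_lit 300))))) (XT.nd (nat_lit 234) (nat_lit 0) (nat_lit 0) (XT.nd (nat_lit 78) (nat_lit 0) (nat_lit 0) (XT.lf (nat_lit 0) (nat_lit 548743593505) (nat_lit 152) (nat_lit 2304097986179) (nat_lit 0) (nat_lit 548594571340) (nat_lit 1) (nat_lit 5) (nat_lit 3) (nat_lit 4) (nat_lit 1) (nat_lit 4) (nat_lit 403) (nat_lit 318) (nat_lit 299)) (XT.nd (nat_lit 78) (nat_lit 0) (nat_lit 0) (XT.lf (nat_lit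 0) (nat_lit 633362065142) (nat_lit 152) (nat_lit 2644728271860) (nat_lit 0) (nat_lit 633211573962) (nat_lit 1) (nat_lit 5) (nat_lit 3) (nat_lit 4) (nat_lit 1) (nat_lit 4) (nat_lit 404) (nat_lit 318) (nat_lit 298)) (XT.lf (nat_lit 0) (nat_lit 730638004674) (nat_lit 152) (nat_lit 3036528589808) (nat_lit 0) (nat_lit 730486236089) (nat_lit 1) (nat_lit 5) (nat_lit 3) (nat_lit 4) (nat_lit 1) (nat_lit 4) (nat_lit 405) (nat_lit 318) (nat_lit 297)))) (XT.nd (nat_lit 156) (nat_lit 0) (nat_lit 0) (XT.nd (nat_lit 78) (nat_lit 0) (nat_lit 0) (XT.lf (nat_lit 0) (nat_lit 842474637004) (nat_lit 152) (nat_lit 3487164598417) (nat_lit 0) (nat_lit 842321757633) (nat_lit 1) (nat_lit 5) (nat_lit 3) (nat_lit 4) (nat_lit 1) (nat_lit 4) (nat_lit 406) (nat_lit 318) (nat_lit 296)) (XT.lf (nat_lit 0) (nat_lit 971060070157) (nat_lit 152) (nat_lit 4005453089160) (nat_lit 0) (nat_lit 970906224885) (nat_lit 1) (nat_lit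 5) (nat_lit 3) (nat_lit 4) (nat_lit 1) (nat_lit 4) (nat_lit 407) (nat_lit 318) (nat_lit 295))) (XT.nd (nat_lit 78) (nat_lit 0) (nat_lit 0) (XT.lf (nat_lit 0) (nat_lit 1118910106086) (nat_lit 152) (nat_lit 4601534489029) (nat_lit 0) (nat_lit 1118755420899) (nat_lit 1) (nat_lit 5) (nat_lit 3) (nat_lit 4) (nat_lit 1) (nat_lit 4) (nat_lit 408) (nat_lit 318) (nat_lit 294)) (XT.lf (nat_lit 0) (nat_lit 1288917462885) (nat_lit 152) (nat_lit 5287071260197) (nat_lit 0) (nat_lit 1288762047338) (nat_lit 1) (nat_lit 5) (nat_lit 3) (nat_lit 4) (nat_lit 1) (nat_lit 4) (nat_lit 409) (nat_lit 318) (nat_lit 293)))))) (XT.nd (nat_lit 468) (nat_lit 0) (nat_lit 0) (XT.nd (nat_lit 234) (nat_lit 0) (nat_lit 0) (XT.nd (nat_lit 78) (nat_lit 0) (nat_lit 0) (XT.lf (nat_lit 0) (nat_lit 1484408371448) (nat_lit 152) (nat_lit 6075476078620) (nat_lit 0) (nat_lit 1484252320805) (nat_lit 1) (nat_lit 5) (nat_lit 3) (nat_lit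 4) (nat_lit 1) (nat_lit 4) (nat_lit 410) (nat_lit 318) (nat_lit 292)) (XT.nd (nat_lit 78) (nat_lit 0) (nat_lit 0) (XT.lf (nat_lit 0) (nat_lit 1709207653898) (nat_lit 152) (nat_lit 6982174255964) (nat_lit 0) (nat_lit 1709051050998) (nat_lit 1) (nat_lit 5) (nat_lit 3) (nat_lit 4) (nat_lit 1) (nat_lit 4) (nat_lit 411) (nat_lit 318) (nat_lit 291)) (XT.lf (nat_lit 0) (nat_lit 1967713557067) (nat_lit 152) (nat_lit 8024905539177) (nat_lit 0) (nat_lit 1967556473944) (nat_lit 1) (nat_lit 5) (nat_lit 3) (nat_lit 4) (nat_lit 1) (nat_lit 4) (nat_lit 412) (nat_lit 318) (nat_lit 290)))) (XT.nd (nat_lit 78) (nat_lit 0) (nat_lit 0) (XT.lf (nat_lit 0) (nat_lit 2264983805147) (nat_lit 152) (nat_lit 9224071192495) (nat_lit 0) (nat_lit 2264826304438) (nat_lit 1) (nat_lit 5) (nat_lit 3) (nat_lit 4) (nat_lit 1) (nat_lit 4) (nat_lit 413) (nat_lit 318) (nat_lit 289)) (XT.nd (nat_lit 78) (nat_lit 0) (nat_lit 0)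 (XT.lf (nat_lit 0) (nat_lit 2606834555166) (nat_lit 152) (nat_lit 10603133152613) (nat_lit 0) (nat_lit 2606676691338) (nat_lit 1) (nat_lit 5) (nat_lit 3) (nat_lit 4) (nat_lit 1) (nat_lit 4) (nat_lit 414) (nat_lit 318) (nat_lit 288)) (XT.lf (nat_lit 0) (nat_lit 2999954191362) (nat_lit 152) (nat_lit 12189073066578) (nat_lit 0) (nat_lit 2999796011780) (nat_lit 1) (nat_lit 5) (nat_lit 3) (nat_lit 4) (nat_lit 1) (nat_lit 4) (nat_lit 415) (nat_lit 318) (nat_lit 287))))) (XT.nd (nat_lit 234) (nat_lit 0) (nat_lit 0) (XT.nd (nat_lit 78) (nat_lit 0) (nat_lit 0) (XT.lf (nat_lit 0) (nat_lit 3452034184880) (nat_lit 152) (nat_lit 14012920193576) (nat_lit 0) (nat_lit 3451875730728) (nat_lit 1) (nat_lit 5) (nat_lit 3) (nat_lit 4) (nat_lit 1) (nat_lit 4) (nat_lit 416) (nat_lit 318) (nat_lit 286)) (XT.nd (nat_lit 78) (nat_lit 0) (nat_lit 0) (XT.lf (nat_lit 0) (nat_lit 3971919579069) (nat_lit 152) (nat_lit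 16110358499135) (nat_lit 0) (nat_lit 3971760886162) (nat_lit 1) (nat_lit 5) (nat_lit 3) (nat_lit 4) (nat_lit 1) (nat_lit 4) (nat_lit 417) (nat_lit 318) (nat_lit 285)) (XT.lf (nat_lit 0) (nat_lit 4569782044688) (nat_lit 152) (nat_lit 18522424819668) (nat_lit 0) (nat_lit 4569623144166) (nat_lit 1) (nat_lit 5) (nat_lit 3) (nat_lit 4) (nat_lit 1) (nat_lit 4) (nat_lit 418) (nat_lit 318) (nat_lit 284)))) (XT.nd (nat_lit 156) (nat_lit 0) (nat_lit 0) (XT.nd (nat_lit 78) (nat_lit 0) (nat_lit 0) (XT.lf (nat_lit 0) (nat_lit 5257318890844) (nat_lit 152) (nat_lit 21296311757099) (nat_lit 0) (nat_lit 5257159809789) (nat_lit 1) (nat_lit 5) (nat_lit 3) (nat_lit 4) (nat_lit 1) (nat_lit 4) (nat_lit 419) (nat_lit 318) (nat_lit 283)) (XT.lf (nat_lit 0) (nat_lit 6047981925399) (nat_lit 152) (nat_lit 24486291012377) (nat_lit 0) (nat_lit 6047822687357) (nat_lit 1) (nat_lit 5) (nat_lit 3) (nat_lit 4) (nat_lit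 1) (nat_lit 4) (nat_lit 420) (nat_lit 318) (nat_lit 282))) (XT.nd (nat_lit 78) (nat_lit 0) (nat_lit 0) (XT.lf (nat_lit 0) (nat_lit 6957240642505) (nat_lit 152) (nat_lit 28154775223105) (nat_lit 0) (nat_lit 6957081267954) (nat_lit 1) (nat_lit 5) (nat_lit 3) (nat_lit 4) (nat_lit 1) (nat_lit 4) (nat_lit 421) (nat_lit 318) (nat_lit 281)) (XT.lf (nat_lit 0) (nat_lit 8002884886629) (nat_lit 152) (nat_lit 32373539080364) (nat_lit 0) (nat_lit 8002725393374) (nat_lit 1) (nat_lit 5) (nat_lit 3) (nat_lit 4) (nat_lit 1) (nat_lit 4) (nat_lit 422) (nat_lit 318) (nat_lit 280))))))))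
noncomputable def xc15 : XT := (XT.nd (nat_lit 51012) (nat_lit 0) (nat_lit 0) (XT.nd (nat_lit 49998) (nat_lit 0) (nat_lit 0) (XT.nd (nat_lit 468) (nat_lit 0) (nat_lit 0) (XT.nd (nat_lit 234) (nat_lit 0) (nat_lit 0) (XT.nd (nat_lit 78) (nat_lit 0) (nat_lit 0) (XT.lf (nat_lit 0) (nat_lit 9205372914720) (nat_lit 152) (nat_lit 37225123616142) (nat_lit 0) (nat_lit 9205213318244) (nat_lit 1) (nat_lit 5) (nat_lit 3) (nat_lit 4) (nat_lit 1) (nat_lit 4) (nat_lit 423) (nat_lit 318) (nat_lit 279)) (XT.nd (nat_lit 78) (nat_lit 0) (nat_lit 0) (XT.lf (nat_lit 0) (nat_lit 10588231666459) (nat_lit 152) (nat_lit 42804451136575) (nat_lit 0) (nat_lit 10588071980226) (nat_lit 1) (nat_lit 5) (nat_lit 3) (nat_lit 4) (nat_lit 1) (nat_lit 4) (nat_lit 424) (nat_lit 318) (nat_lit 278)) (XT.lf (nat_lit 0) (nat_lit 12178517073944) (nat_lit 152) (nat_lit 49220682397498) (nat_lit 0) (nat_lit 12178357309662) (nat_lit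 1) (nat_lit 5) (nat_lit 3) (nat_lit 4) (nat_lit 1) (nat_lit 4) (nat_lit 425) (nat_lit 318) (nat_lit 277)))) (XT.nd (nat_lit 78) (nat_lit 0) (nat_lit 0) (XT.lf (nat_lit 0) (nat_lit 14007343416889) (nat_lit 152) (nat_lit 56599352358362) (nat_lit 0) (nat_lit 14007183584736) (nat_lit 1) (nat_lit 5) (nat_lit 3) (nat_lit 4) (nat_lit 1) (nat_lit 4) (nat_lit 426) (nat_lit 318) (nat_lit 276)) (XT.nd (nat_lit 78) (nat_lit 0) (nat_lit 0) (XT.lf (nat_lit 0) (nat_lit 16110492080262) (nat_lit 152) (nat_lit 65084826301012) (nat_lit 0) (nat_lit 16110332189093) (nat_lit 1) (nat_lit 5) (nat_lit 3) (nat_lit 4) (nat_lit 1) (nat_lit 4) (nat_lit 427) (nat_lit 318) (nat_lit 275)) (XT.lf (nat_lit 0) (nat_lit 18529111624869) (nat_lit 152) (nat_lit 74843124367803) (nat_lit 0) (nat_lit 18528951682381) (nat_lit 1) (nat_lit 5) (nat_lit 3) (nat_lit 4) (nat_lit 1) (nat_lit 4) (nat_lit 428) (nat_lit 318) (nat_lit 274)))))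 (XT.nd (nat_lit 234) (nat_lit 0) (nat_lit 0) (XT.nd (nat_lit 78) (nat_lit 0) (nat_lit 0) (XT.lf (nat_lit 0) (nat_lit 21310522867888) (nat_lit 152) (nat_lit 86065169781781) (nat_lit 0) (nat_lit 21310362880775) (nat_lit 1) (nat_lit 5) (nat_lit 3) (nat_lit 4) (nat_lit 1) (nat_lit 4) (nat_lit 429) (nat_lit 318) (nat_lit 273)) (XT.nd (nat_lit 78) (nat_lit 0) (nat_lit 0) (XT.lf (nat_lit 0) (nat_lit 24509144724942) (nat_lit 152) (nat_lit 98970524301046) (nat_lit 0) (nat_lit 24508984699025) (nat_lit 1) (nat_lit 5) (nat_lit 3) (nat_lit 4) (nat_lit 1) (nat_lit 4) (nat_lit 430) (nat_lit 318) (nat_lit 272)) (XT.lf (nat_lit 0) (nat_lit 28187558928019) (nat_lit 152) (nat_lit 113811683992278) (nat_lit 0) (nat_lit 28187398868358) (nat_lit 1) (nat_lit 5) (nat_lit 3) (nat_lit 4) (nat_lit 1) (nat_lit 4) (nat_lit 431) (nat_lit 318) (nat_lit 271)))) (XT.nd (nat_lit 156) (nat_lit 0) (nat_lit 0) (XT.nd (nat_lit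 78) (nat_lit 0) (nat_lit 0) (XT.lf (nat_lit 0) (nat_lit 32417734450655) (nat_lit 152) (nat_lit 130879019371177) (nat_lit 0) (nat_lit 32417574361652) (nat_lit 1) (nat_lit 5) (nat_lit 3) (nat_lit 4) (nat_lit 1) (nat_lit 4) (nat_lit 432) (nat_lit 318) (nat_lit 270)) (XT.lf (nat_lit 0) (nat_lit 37282435596554) (nat_lit 152) (nat_lit 150506456564720) (nat_lit 0) (nat_lit 37282275482037) (nat_lit 1) (nat_lit 5) (nat_lit 3) (nat_lit 4) (nat_lit 1) (nat_lit 4) (nat_lit 433) (nat_lit 318) (nat_lit 269))) (XT.nd (nat_lit 49062) (nat_lit 0) (nat_lit 152) (XT.lf (nat_lit 0) (nat_lit 42876841301180) (nat_lit 152) (nat_lit 173078010648434) (nat_lit 0) (nat_lit 42876681164477) (nat_lit 1) (nat_lit 5) (nat_lit 3) (nat_lit 4) (nat_lit 1) (nat_lit 4) (nat_lit 434) (nat_lit 318) (nat_lit 268)) (XT.lf (nat_lit 0) (nat_lit 91240002328) (nat_lit 76) (nat_lit 706169137) (nat_lit 76) (nat_lit 706169137) (nat_lit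 3) (nat_lit 4) (nat_lit 4) (nat_lit 5) (nat_lit 4) (nat_lit 4) (nat_lit 382) (nat_lit 319) (nat_lit 319)))))) (XT.nd (nat_lit 468) (nat_lit 0) (nat_lit 0) (XT.nd (nat_lit 234) (nat_lit 0) (nat_lit 0) (XT.nd (nat_lit 78) (nat_lit 0) (nat_lit 0) (XT.lf (nat_lit 0) (nat_lit 5069875935) (nat_lit 152) (nat_lit 202008146820) (nat_lit 0) (nat_lit 5045833243) (nat_lit 1) (nat_lit 5) (nat_lit 3) (nat_lit 4) (nat_lit 1) (nat_lit 4) (nat_lit 383) (nat_lit 319) (nat_lit 318)) (XT.nd (nat_lit 78) (nat_lit 0) (nat_lit 0) (XT.lf (nat_lit 0) (nat_lit 12023979187) (nat_lit 152) (nat_lit 219006190940) (nat_lit 0) (nat_lit 11979029806) (nat_lit 1) (nat_lit 5) (nat_lit 3) (nat_lit 4) (nat_lit 1) (nat_lit 4) (nat_lit 384) (nat_lit 319) (nat_lit 317)) (XT.lf (nat_lit 0) (nat_lit 19518775819) (nat_lit 152) (nat_lit 239628289785) (nat_lit 0) (nat_lit 19455646708) (nat_lit 1) (nat_lit 5) (nat_lit 3) (nat_lit 4)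 (nat_lit 1) (nat_lit 4) (nat_lit 385) (nat_lit 319) (nat_lit 316)))) (XT.nd (nat_lit 78) (nat_lit 0) (nat_lit 0) (XT.lf (nat_lit 0) (nat_lit 27700903157) (nat_lit 152) (nat_lit 264277919202) (nat_lit 0) (nat_lit 27621965586) (nat_lit 1) (nat_lit 5) (nat_lit 3) (nat_lit 4) (nat_lit 1) (nat_lit 4) (nat_lit 386) (nat_lit 319) (nat_lit 315)) (XT.nd (nat_lit 78) (nat_lit 0) (nat_lit 0) (XT.lf (nat_lit 0) (nat_lit 36730446300) (nat_lit 152) (nat_lit 293437354550) (nat_lit 0) (nat_lit 36637762242) (nat_lit 1) (nat_lit 5) (nat_lit 3) (nat_lit 4) (nat_lit 1) (nat_lit 4) (nat_lit 387) (nat_lit 319) (nat_lit 314)) (XT.lf (nat_lit 0) (nat_lit 46784070223) (nat_lit 152) (nat_lit 327677106521) (nat_lit 0) (nat_lit 46679432698) (nat_lit 1) (nat_lit 5) (nat_lit 3) (nat_lit 4) (nat_lit 1) (nat_lit 4) (nat_lit 388) (nat_lit 319) (nat_lit 313))))) (XT.nd (nat_lit 234) (nat_lit 0) (nat_lit 0) (XT.nd (nat_lit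 78) (nat_lit 0) (nat_lit 0) (XT.lf (nat_lit 0) (nat_lit 58058476265) (nat_lit 152) (nat_lit 367667083304) (nat_lit 0) (nat_lit 57943444420) (nat_lit 1) (nat_lit 5) (nat_lit 3) (nat_lit 4) (nat_lit 1) (nat_lit 4) (nat_lit 389) (nat_lit 319) (nat_lit 312)) (XT.nd (nat_lit 78) (nat_lit 0) (nat_lit 0) (XT.lf (nat_lit 0) (nat_lit 70774250629) (nat_lit 152) (nat_lit 414189697489) (nat_lit 0) (nat_lit 70650180246) (nat_lit 1) (nat_lit 5) (nat_lit 3) (nat_lit 4) (nat_lit 1) (nat_lit 4) (nat_lit 390) (nat_lit 319) (nat_lit 311)) (XT.lf (nat_lit 0) (nat_lit 85180180206) (nat_lit 152) (nat_lit 468155174137) (nat_lit 0) (nat_lit 85048250224) (nat_lit 1) (nat_lit 5) (nat_lit 3) (nat_lit 4) (nat_lit 1) (nat_lit 4) (nat_lit 391) (nat_lit 319) (nat_lit 310)))) (XT.nd (nat_lit 156) (nat_lit 0) (nat_lit 0) (XT.nd (nat_lit 78) (nat_lit 0) (nat_lit 0) (XT.lf (nat_lit 0) (nat_lit 101558120140) (nat_lit 152)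 (nat_lit 530619359529) (nat_lit 0) (nat_lit 101419355724) (nat_lit 1) (nat_lit 5) (nat_lit 3) (nat_lit 4) (nat_lit 1) (nat_lit 4) (nat_lit 392) (nat_lit 319) (nat_lit 309)) (XT.lf (nat_lit 0) (nat_lit 120228508386) (nat_lit 152) (nat_lit 602804379032) (nat_lit 0) (nat_lit 120083800984) (nat_lit 1) (nat_lit 5) (nat_lit 3) (nat_lit 4) (nat_lit 1) (nat_lit 4) (nat_lit 393) (nat_lit 319) (nat_lit 308))) (XT.nd (nat_lit 78) (nat_lit 0) (nat_lit 0) (XT.lf (nat_lit 0) (nat_lit 141556635148) (nat_lit 152) (nat_lit 686122548245) (nat_lit 0) (nat_lit 141406759933) (nat_lit 1) (nat_lit 5) (nat_lit 3) (nat_lit 4) (nat_lit 1) (nat_lit 4) (nat_lit 394) (nat_lit 319) (nat_lit 307)) (XT.lf (nat_lit 0) (nat_lit 165959789864) (nat_lit 152) (nat_lit 782204005261) (nat_lit 0) (nat_lit 165805420898) (nat_lit 1) (nat_lit 5) (nat_lit 3) (nat_lit 4) (nat_lit 1) (nat_lit 4) (nat_lit 395) (nat_lit 319) (nat_lit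 306))))))) (XT.nd (nat_lit 1014) (nat_lit 0) (nat_lit 0) (XT.nd (nat_lit 468) (nat_lit 0) (nat_lit 0) (XT.nd (nat_lit 234) (nat_lit 0) (nat_lit 0) (XT.nd (nat_lit 78) (nat_lit 0) (nat_lit 0) (XT.lf (nat_lit 0) (nat_lit 193915425561) (nat_lit 152) (nat_lit 892928604674) (nat_lit 0) (nat_lit 193757148985) (nat_lit 1) (nat_lit 5) (nat_lit 3) (nat_lit 4) (nat_lit 1) (nat_lit 4) (nat_lit 396) (nat_lit 319) (nat_lit 305)) (XT.nd (nat_lit 78) (nat_lit 0) (nat_lit 0) (XT.lf (nat_lit 0) (nat_lit 225970500327) (nat_lit 152) (nat_lit 1020462697343) (nat_lit 0) (nat_lit 225808825829) (nat_lit 1) (nat_lit 5) (nat_lit 3) (nat_lit 4) (nat_lit 1) (nat_lit 4) (nat_lit 397) (nat_lit 319) (nat_lit 304)) (XT.lf (nat_lit 0) (nat_lit 262752178670) (nat_lit 152) (nat_lit 1167301515514) (nat_lit 0) (nat_lit 262587549458) (nat_lit 1) (nat_lit 5) (nat_lit 3) (nat_lit 4) (nat_lit 1) (nat_lit 4) (nat_lit 398) (nat_lit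 319) (nat_lit 303)))) (XT.nd (nat_lit 78) (nat_lit 0) (nat_lit 0) (XT.lf (nat_lit 0) (nat_lit 304980102122) (nat_lit 152) (nat_lit 1336317992587) (nat_lit 0) (nat_lit 304812903593) (nat_lit 1) (nat_lit 5) (nat_lit 3) (nat_lit 4) (nat_lit 1) (nat_lit 4) (nat_lit 399) (nat_lit 319) (nat_lit 302)) (XT.nd (nat_lit 78) (nat_lit 0) (nat_lit 0) (XT.lf (nat_lit 0) (nat_lit 353480469185) (nat_lit 152) (nat_lit 1530818972678) (nat_lit 0) (nat_lit 353311036468) (nat_lit 1) (nat_lit 5) (nat_lit 3) (nat_lit 4) (nat_lit 1) (nat_lit 4) (nat_lit 400) (nat_lit 319) (nat_lit 301)) (XT.lf (nat_lit 0) (nat_lit 409202200086) (nat_lit 152) (nat_lit 1754609909747) (nat_lit 0) (nat_lit 409030824596) (nat_lit 1) (nat_lit 5) (nat_lit 3) (nat_lit 4) (nat_lit 1) (nat_lit 4) (nat_lit 401) (nat_lit 319) (nat_lit 300))))) (XT.nd (nat_lit 234) (nat_lit 0) (nat_lit 0) (XT.nd (nat_lit 78) (nat_lit 0) (nat_lit 0) (XT.lf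 (nat_lit 0) (nat_lit 473235502601) (nat_lit 152) (nat_lit 2012069322126) (nat_lit 0) (nat_lit 473062437744) (nat_lit 1) (nat_lit 5) (nat_lit 3) (nat_lit 4) (nat_lit 1) (nat_lit 4) (nat_lit 402) (nat_lit 319) (nat_lit 299)) (XT.nd (nat_lit 78) (nat_lit 0) (nat_lit 0) (XT.lf (nat_lit 0) (nat_lit 546833202216) (nat_lit 152) (nat_lit 2308234459189) (nat_lit 0) (nat_lit 546658668343) (nat_lit 1) (nat_lit 5) (nat_lit 3) (nat_lit 4) (nat_lit 1) (nat_lit 4) (nat_lit 403) (nat_lit 319) (nat_lit 298)) (XT.lf (nat_lit 0) (nat_lit 631435253922) (nat_lit 152) (nat_lit 2648899856226) (nat_lit 0) (nat_lit 631259442645) (nat_lit 1) (nat_lit 5) (nat_lit 3) (nat_lit 4) (nat_lit 1) (nat_lit 4) (nat_lit 404) (nat_lit 319) (nat_lit 297)))) (XT.nd (nat_lit 156) (nat_lit 0) (nat_lit 0) (XT.nd (nat_lit 78) (nat_lit 0) (nat_lit 0) (XT.lf (nat_lit 0) (nat_lit 728696915253) (nat_lit 152) (nat_lit 3040730705787) (nat_lit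 0) (nat_lit 728519993190) (nat_lit 1) (nat_lit 5) (nat_lit 3) (nat_lit 4) (nat_lit 1) (nat_lit 4) (nat_lit 405) (nat_lit 319) (nat_lit 296)) (XT.lf (nat_lit 0) (nat_lit 840521131757) (nat_lit 152) (nat_lit 3491393263625) (nat_lit 0) (nat_lit 840343243792) (nat_lit 1) (nat_lit 5) (nat_lit 3) (nat_lit 4) (nat_lit 1) (nat_lit 4) (nat_lit 406) (nat_lit 319) (nat_lit 295))) (XT.nd (nat_lit 78) (nat_lit 0) (nat_lit 0) (XT.lf (nat_lit 0) (nat_lit 969095768539) (nat_lit 152) (nat_lit 4009704840654) (nat_lit 0) (nat_lit 968917040661) (nat_lit 1) (nat_lit 5) (nat_lit 3) (nat_lit 4) (nat_lit 1) (nat_lit 4) (nat_lit 407) (nat_lit 319) (nat_lit 294)) (XT.lf (nat_lit 0) (nat_lit 1116936416320) (nat_lit 152) (nat_lit 4605806315555) (nat_lit 0) (nat_lit 1116756958081) (nat_lit 1) (nat_lit 5) (nat_lit 3) (nat_lit 4) (nat_lit 1) (nat_lit 4) (nat_lit 408) (nat_lit 319) (nat_lit 293)))))) (XT.nd (nat_lit 468)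 (nat_lit 0) (nat_lit 0) (XT.nd (nat_lit 234) (nat_lit 0) (nat_lit 0) (XT.nd (nat_lit 78) (nat_lit 0) (nat_lit 0) (XT.lf (nat_lit 0) (nat_lit 1286935609511) (nat_lit 152) (nat_lit 5291360543271) (nat_lit 0) (nat_lit 1286755516176) (nat_lit 1) (nat_lit 5) (nat_lit 3) (nat_lit 4) (nat_lit 1) (nat_lit 4) (nat_lit 409) (nat_lit 319) (nat_lit 292)) (XT.nd (nat_lit 78) (nat_lit 0) (nat_lit 0) (XT.lf (nat_lit 0) (nat_lit 1482419419285) (nat_lit 152) (nat_lit 6079780541303) (nat_lit 0) (nat_lit 1482238773693) (nat_lit 1) (nat_lit 5) (nat_lit 3) (nat_lit 4) (nat_lit 1) (nat_lit 4) (nat_lit 410) (nat_lit 319) (nat_lit 291)) (XT.lf (nat_lit 0) (nat_lit 1707212528875) (nat_lit 152) (nat_lit 6986491918306) (nat_lit 0) (nat_lit 1707031403060) (nat_lit 1) (nat_lit 5) (nat_lit 3) (nat_lit 4) (nat_lit 1) (nat_lit 4) (nat_lit 411) (nat_lit 319) (nat_lit 290)))) (XT.nd (nat_lit 78) (nat_lit 0) (nat_lit 0)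 (XT.lf (nat_lit 0) (nat_lit 1965713064340) (nat_lit 152) (nat_lit 8029234679483) (nat_lit 0) (nat_lit 1965531520938) (nat_lit 1) (nat_lit 5) (nat_lit 3) (nat_lit 4) (nat_lit 1) (nat_lit 4) (nat_lit 412) (nat_lit 319) (nat_lit 289)) (XT.nd (nat_lit 78) (nat_lit 0) (nat_lit 0) (XT.lf (nat_lit 0) (nat_lit 2262978644851) (nat_lit 152) (nat_lit 9228410313639) (nat_lit 0) (nat_lit 2262796738331) (nat_lit 1) (nat_lit 5) (nat_lit 3) (nat_lit 4) (nat_lit 1) (nat_lit 4) (nat_lit 413) (nat_lit 319) (nat_lit 288)) (XT.lf (nat_lit 0) (nat_lit 2604825336114) (nat_lit 152) (nat_lit 10607480952748) (nat_lit 0) (nat_lit 2604643113839) (nat_lit 1) (nat_lit 5) (nat_lit 3) (nat_lit 4) (nat_lit 1) (nat_lit 4) (nat_lit 414) (nat_lit 319) (nat_lit 287))))) (XT.nd (nat_lit 234) (nat_lit 0) (nat_lit 0) (XT.nd (nat_lit 78) (nat_lit 0) (nat_lit 0) (XT.lf (nat_lit 0) (nat_lit 2997941442957) (nat_lit 152) (nat_lit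 12193428413661) (nat_lit 0) (nat_lit 2997758946113) (nat_lit 1) (nat_lit 5) (nat_lit 3) (nat_lit 4) (nat_lit 1) (nat_lit 4) (nat_lit 415) (nat_lit 319) (nat_lit 286)) (XT.nd (nat_lit 78) (nat_lit 0) (nat_lit 0) (XT.lf (nat_lit 0) (nat_lit 3450018367472) (nat_lit 152) (nat_lit 14017282103222) (nat_lit 0) (nat_lit 3449835631872) (nat_lit 1) (nat_lit 5) (nat_lit 3) (nat_lit 4) (nat_lit 1) (nat_lit 4) (nat_lit 416) (nat_lit 319) (nat_lit 285)) (XT.lf (nat_lit 0) (nat_lit 3969901092965) (nat_lit 152) (nat_lit 16114726115358) (nat_lit 0) (nat_lit 3969718149751) (nat_lit 1) (nat_lit 5) (nat_lit 3) (nat_lit 4) (nat_lit 1) (nat_lit 4) (nat_lit 417) (nat_lit 319) (nat_lit 284)))) (XT.nd (nat_lit 156) (nat_lit 0) (nat_lit 0) (XT.nd (nat_lit 78) (nat_lit 0) (nat_lit 0) (XT.lf (nat_lit 0) (nat_lit 4567761237976) (nat_lit 152) (nat_lit 18526797398132) (nat_lit 0) (nat_lit 4567578114228) (nat_lit 1) (nat_lit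 5) (nat_lit 3) (nat_lit 4) (nat_lit 1) (nat_lit 4) (nat_lit 418) (nat_lit 319) (nat_lit 283)) (XT.lf (nat_lit 0) (nat_lit 5255296066214) (nat_lit 152) (nat_lit 21300688650555) (nat_lit 0) (nat_lit 5255112785480) (nat_lit 1) (nat_lit 5) (nat_lit 3) (nat_lit 4) (nat_lit 1) (nat_lit 4) (nat_lit 419) (nat_lit 319) (nat_lit 282))) (XT.nd (nat_lit 78) (nat_lit 0) (nat_lit 0) (XT.lf (nat_lit 0) (nat_lit 6045957346056) (nat_lit 152) (nat_lit 24490671657999) (nat_lit 0) (nat_lit 6045773928812) (nat_lit 1) (nat_lit 5) (nat_lit 3) (nat_lit 4) (nat_lit 1) (nat_lit 4) (nat_lit 420) (nat_lit 319) (nat_lit 281)) (XT.lf (nat_lit 0) (nat_lit 6955214537326) (nat_lit 152) (nat_lit 28159159131482) (nat_lit 0) (nat_lit 6955031001378) (nat_lit 1) (nat_lit 5) (nat_lit 3) (nat_lit 4) (nat_lit 1) (nat_lit 4) (nat_lit 421) (nat_lit 319) (nat_lit 280))))))))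
noncomputable def xc16 : XT := (XT.nd (nat_lit 50856) (nat_lit 0) (nat_lit 0) (XT.nd (nat_lit 49842) (nat_lit 0) (nat_lit 0) (XT.nd (nat_lit 468) (nat_lit 0) (nat_lit 0) (XT.nd (nat_lit 234) (nat_lit 0) (nat_lit 0) (XT.nd (nat_lit 78) (nat_lit 0) (nat_lit 0) (XT.lf (nat_lit 0) (nat_lit 8000857454635) (nat_lit 152) (nat_lit 32377925825918) (nat_lit 0) (nat_lit 8000673815467) (nat_lit 1) (nat_lit 5) (nat_lit 3) (nat_lit 4) (nat_lit 1) (nat_lit 4) (nat_lit 422) (nat_lit 319) (nat_lit 279)) (XT.nd (nat_lit 78) (nat_lit 0) (nat_lit 0) (XT.lf (nat_lit 0) (nat_lit 9203344328975) (nat_lit 152) (nat_lit 37229512828807) (nat_lit 0) (nat_lit 9203160600049) (nat_lit 1) (nat_lit 5) (nat_lit 3) (nat_lit 4) (nat_lit 1) (nat_lit 4) (nat_lit 423) (nat_lit 319) (nat_lit 278)) (XT.lf (nat_lit 0) (nat_lit 10586202077451) (nat_lit 152) (nat_lit 42808842494553) (nat_lit 0) (nat_lit 10586018270476) (nat_lit 1)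 (nat_lit 5) (nat_lit 3) (nat_lit 4) (nat_lit 1) (nat_lit 4) (nat_lit 424) (nat_lit 319) (nat_lit 277)))) (XT.nd (nat_lit 78) (nat_lit 0) (nat_lit 0) (XT.lf (nat_lit 0) (nat_lit 12176486612535) (nat_lit 152) (nat_lit 49225075620966) (nat_lit 0) (nat_lit 12176302737690) (nat_lit 1) (nat_lit 5) (nat_lit 3) (nat_lit 4) (nat_lit 1) (nat_lit 4) (nat_lit 425) (nat_lit 319) (nat_lit 276)) (XT.nd (nat_lit 78) (nat_lit 0) (nat_lit 0) (XT.lf (nat_lit 0) (nat_lit 14005312196868) (nat_lit 152) (nat_lit 56603747203996) (nat_lit 0) (nat_lit 14005128263007) (nat_lit 1) (nat_lit 5) (nat_lit 3) (nat_lit 4) (nat_lit 1) (nat_lit 4) (nat_lit 426) (nat_lit 319) (nat_lit 275)) (XT.lf (nat_lit 0) (nat_lit 16108460200580) (nat_lit 152) (nat_lit 65089222557224) (nat_lit 0) (nat_lit 16108276215400) (nat_lit 1) (nat_lit 5) (nat_lit 3) (nat_lit 4) (nat_lit 1) (nat_lit 4) (nat_lit 427) (nat_lit 319) (nat_lit 274)))))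 (XT.nd (nat_lit 234) (nat_lit 0) (nat_lit 0) (XT.nd (nat_lit 78) (nat_lit 0) (nat_lit 0) (XT.lf (nat_lit 0) (nat_lit 18527079171569) (nat_lit 152) (nat_lit 74847521850605) (nat_lit 0) (nat_lit 18526895141764) (nat_lit 1) (nat_lit 5) (nat_lit 3) (nat_lit 4) (nat_lit 1) (nat_lit 4) (nat_lit 428) (nat_lit 319) (nat_lit 273)) (XT.nd (nat_lit 78) (nat_lit 0) (nat_lit 0) (XT.lf (nat_lit 0) (nat_lit 21308489915789) (nat_lit 152) (nat_lit 86069568331183) (nat_lit 0) (nat_lit 21308305847179) (nat_lit 1) (nat_lit 5) (nat_lit 3) (nat_lit 4) (nat_lit 1) (nat_lit 4) (nat_lit 429) (nat_lit 319) (nat_lit 272)) (XT.lf (nat_lit 0) (nat_lit 24507111339106) (nat_lit 152) (nat_lit 98974923777926) (nat_lit 0) (nat_lit 24506927236753) (nat_lit 1) (nat_lit 5) (nat_lit 3) (nat_lit 4) (nat_lit 1) (nat_lit 4) (nat_lit 430) (nat_lit 319) (nat_lit 271)))) (XT.nd (nat_lit 78) (nat_lit 0) (nat_lit 0) (XT.lf (nat_lit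 0) (nat_lit 28185525165019) (nat_lit 152) (nat_lit 113816084275661) (nat_lit 0) (nat_lit 28185341033323) (nat_lit 1) (nat_lit 5) (nat_lit 3) (nat_lit 4) (nat_lit 1) (nat_lit 4) (nat_lit 431) (nat_lit 319) (nat_lit 270)) (XT.nd (nat_lit 78) (nat_lit 0) (nat_lit 0) (XT.lf (nat_lit 0) (nat_lit 32415700359686) (nat_lit 152) (nat_lit 130883420355867) (nat_lit 0) (nat_lit 32415516202476) (nat_lit 1) (nat_lit 5) (nat_lit 3) (nat_lit 4) (nat_lit 1) (nat_lit 4) (nat_lit 432) (nat_lit 319) (nat_lit 269)) (XT.lf (nat_lit 0) (nat_lit 37280401220396) (nat_lit 152) (nat_lit 150510858159242) (nat_lit 0) (nat_lit 37280217041000) (nat_lit 1) (nat_lit 5) (nat_lit 3) (nat_lit 4) (nat_lit 1) (nat_lit 4) (nat_lit 433) (nat_lit 319) (nat_lit 268)))))) (XT.nd (nat_lit 468) (nat_lit 0) (nat_lit 0) (XT.nd (nat_lit 234) (nat_lit 152) (nat_lit 0) (XT.nd (nat_lit 78) (nat_lit 0) (nat_lit 0) (XT.lf (nat_lit 0) (nat_lit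 57958431040) (nat_lit 76) (nat_lit 6437801961) (nat_lit 76) (nat_lit 6437801961) (nat_lit 3) (nat_lit 4) (nat_lit 4) (nat_lit 5) (nat_lit 4) (nat_lit 4) (nat_lit 380) (nat_lit 320) (nat_lit 320)) (XT.nd (nat_lit 78) (nat_lit 0) (nat_lit 0) (XT.lf (nat_lit 0) (nat_lit 147169596581) (nat_lit 76) (nat_lit 7402880450) (nat_lit 76) (nat_lit 7371083989) (nat_lit 3) (nat_lit 4) (nat_lit 4) (nat_lit 5) (nat_lit 4) (nat_lit 4) (nat_lit 381) (nat_lit 320) (nat_lit 319)) (XT.lf (nat_lit 0) (nat_lit 181931972832) (nat_lit 76) (nat_lit 1735340194) (nat_lit 76) (nat_lit 1675894637) (nat_lit 3) (nat_lit 4) (nat_lit 4) (nat_lit 5) (nat_lit 4) (nat_lit 4) (nat_lit 382) (nat_lit 320) (nat_lit 318)))) (XT.nd (nat_lit 78) (nat_lit 0) (nat_lit 0) (XT.lf (nat_lit 0) (nat_lit 4519739608) (nat_lit 152) (nat_lit 203243647144) (nat_lit 0) (nat_lit 4447141130) (nat_lit 1) (nat_lit 5) (nat_lit 3) (nat_lit 4) (nat_lit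 1) (nat_lit 4) (nat_lit 383) (nat_lit 320) (nat_lit 317)) (XT.nd (nat_lit 78) (nat_lit 0) (nat_lit 0) (XT.lf (nat_lit 0) (nat_lit 11240158158) (nat_lit 152) (nat_lit 220741388057) (nat_lit 0) (nat_lit 11149379952) (nat_lit 1) (nat_lit 5) (nat_lit 3) (nat_lit 4) (nat_lit 1) (nat_lit 4) (nat_lit 384) (nat_lit 320) (nat_lit 316)) (XT.lf (nat_lit 0) (nat_lit 18531750702) (nat_lit 152) (nat_lit 241798005854) (nat_lit 0) (nat_lit 18425164035) (nat_lit 1) (nat_lit 5) (nat_lit 3) (nat_lit 4) (nat_lit 1) (nat_lit 4) (nat_lit 385) (nat_lit 320) (nat_lit 315))))) (XT.nd (nat_lit 234) (nat_lit 0) (nat_lit 0) (XT.nd (nat_lit 78) (nat_lit 0) (nat_lit 0) (XT.lf (nat_lit 0) (nat_lit 26537178833) (nat_lit 152) (nat_lit 266825477838) (nat_lit 0) (nat_lit 26416845678) (nat_lit 1) (nat_lit 5) (nat_lit 3) (nat_lit 4) (nat_lit 1) (nat_lit 4) (nat_lit 386) (nat_lit 320) (nat_lit 314)) (XT.nd (nat_lit 78) (nat_lit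 0) (nat_lit 0) (XT.lf (nat_lit 0) (nat_lit 35413070492) (nat_lit 152) (nat_lit 296313471940) (nat_lit 0) (nat_lit 35280783870) (nat_lit 1) (nat_lit 5) (nat_lit 3) (nat_lit 4) (nat_lit 1) (nat_lit 4) (nat_lit 387) (nat_lit 320) (nat_lit 313)) (XT.lf (nat_lit 0) (nat_lit 45333084429) (nat_lit 152) (nat_lit 330838927174) (nat_lit 0) (nat_lit 45190403488) (nat_lit 1) (nat_lit 5) (nat_lit 3) (nat_lit 4) (nat_lit 1) (nat_lit 4) (nat_lit 388) (nat_lit 320) (nat_lit 312)))) (XT.nd (nat_lit 156) (nat_lit 0) (nat_lit 0) (XT.nd (nat_lit 78) (nat_lit 0) (nat_lit 0) (XT.lf (nat_lit 0) (nat_lit 56491307873) (nat_lit 152) (nat_lit 371077341578) (nat_lit 0) (nat_lit 56339588394) (nat_lit 1) (nat_lit 5) (nat_lit 3) (nat_lit 4) (nat_lit 1) (nat_lit 4) (nat_lit 389) (nat_lit 320) (nat_lit 311)) (XT.lf (nat_lit 0) (nat_lit 69106053893) (nat_lit 152) (nat_lit 417815988477) (nat_lit 0) (nat_lit 68946474815)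 (nat_lit 1) (nat_lit 5) (nat_lit 3) (nat_lit 4) (nat_lit 1) (nat_lit 4) (nat_lit 390) (nat_lit 320) (nat_lit 310))) (XT.nd (nat_lit 78) (nat_lit 0) (nat_lit 0) (XT.lf (nat_lit 0) (nat_lit 83424132735) (nat_lit 152) (nat_lit 471969319658) (nat_lit 0) (nat_lit 83257719223) (nat_lit 1) (nat_lit 5) (nat_lit 3) (nat_lit 4) (nat_lit 1) (nat_lit 4) (nat_lit 391) (nat_lit 320) (nat_lit 309)) (XT.lf (nat_lit 0) (nat_lit 99725680726) (nat_lit 152) (nat_lit 534596856819) (nat_lit 0) (nat_lit 99553324228) (nat_lit 1) (nat_lit 5) (nat_lit 3) (nat_lit 4) (nat_lit 1) (nat_lit 4) (nat_lit 392) (nat_lit 320) (nat_lit 308))))))) (XT.nd (nat_lit 1014) (nat_lit 0) (nat_lit 0) (XT.nd (nat_lit 468) (nat_lit 0) (nat_lit 0) (XT.nd (nat_lit 234) (nat_lit 0) (nat_lit 0) (XT.nd (nat_lit 78) (nat_lit 0) (nat_lit 0) (XT.lf (nat_lit 0) (nat_lit 118329641195) (nat_lit 152) (nat_lit 606923921338) (nat_lit 0) (nat_lit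 118152116883) (nat_lit 1) (nat_lit 5) (nat_lit 3) (nat_lit 4) (nat_lit 1) (nat_lit 4) (nat_lit 393) (nat_lit 320) (nat_lit 307)) (XT.nd (nat_lit 78) (nat_lit 0) (nat_lit 0) (XT.lf (nat_lit 0) (nat_lit 139600004673) (nat_lit 152) (nat_lit 690365607956) (nat_lit 0) (nat_lit 139417986611) (nat_lit 1) (nat_lit 5) (nat_lit 3) (nat_lit 4) (nat_lit 1) (nat_lit 4) (nat_lit 394) (nat_lit 320) (nat_lit 306)) (XT.lf (nat_lit 0) (nat_lit 163952930446) (nat_lit 152) (nat_lit 786554471412) (nat_lit 0) (nat_lit 163767004774) (nat_lit 1) (nat_lit 5) (nat_lit 3) (nat_lit 4) (nat_lit 1) (nat_lit 4) (nat_lit 395) (nat_lit 320) (nat_lit 305)))) (XT.nd (nat_lit 78) (nat_lit 0) (nat_lit 0) (XT.lf (nat_lit 0) (nat_lit 191864888801) (nat_lit 152) (nat_lit 897372467729) (nat_lit 0) (nat_lit 191675565207) (nat_lit 1) (nat_lit 5) (nat_lit 3) (nat_lit 4) (nat_lit 1) (nat_lit 4) (nat_lit 396) (nat_lit 320) (nat_lit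 304)) (XT.nd (nat_lit 78) (nat_lit 0) (nat_lit 0) (XT.lf (nat_lit 0) (nat_lit 223881983270) (nat_lit 152) (nat_lit 1024987775096) (nat_lit 0) (nat_lit 223689704962) (nat_lit 1) (nat_lit 5) (nat_lit 3) (nat_lit 4) (nat_lit 1) (nat_lit 4) (nat_lit 397) (nat_lit 320) (nat_lit 303)) (XT.lf (nat_lit 0) (nat_lit 260630635268) (nat_lit 152) (nat_lit 1171897214744) (nat_lit 0) (nat_lit 260435787643) (nat_lit 1) (nat_lit 5) (nat_lit 3) (nat_lit 4) (nat_lit 1) (nat_lit 4) (nat_lit 398) (nat_lit 320) (nat_lit 302))))) (XT.nd (nat_lit 234) (nat_lit 0) (nat_lit 0) (XT.nd (nat_lit 78) (nat_lit 0) (nat_lit 0) (XT.lf (nat_lit 0) (nat_lit 302829840159) (nat_lit 152) (nat_lit 1340975101797) (nat_lit 0) (nat_lit 302632758346) (nat_lit 1) (nat_lit 5) (nat_lit 3) (nat_lit 4) (nat_lit 1) (nat_lit 4) (nat_lit 399) (nat_lit 320) (nat_lit 301)) (XT.nd (nat_lit 78) (nat_lit 0) (nat_lit 0) (XT.lf (nat_lit 0) (nat_lit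 351305234560) (nat_lit 152) (nat_lit 1535529481872) (nat_lit 0) (nat_lit 351106209975) (nat_lit 1) (nat_lit 5) (nat_lit 3) (nat_lit 4) (nat_lit 1) (nat_lit 4) (nat_lit 400) (nat_lit 320) (nat_lit 300)) (XT.lf (nat_lit 0) (nat_lit 407005250103) (nat_lit 152) (nat_lit 1759366853708) (nat_lit 0) (nat_lit 406804536149) (nat_lit 1) (nat_lit 5) (nat_lit 3) (nat_lit 4) (nat_lit 1) (nat_lit 4) (nat_lit 401) (nat_lit 320) (nat_lit 299)))) (XT.nd (nat_lit 156) (nat_lit 0) (nat_lit 0) (XT.nd (nat_lit 78) (nat_lit 0) (nat_lit 0) (XT.lf (nat_lit 0) (nat_lit 471019669698) (nat_lit 152) (nat_lit 2016866644146) (nat_lit 0) (nat_lit 470817486730) (nat_lit 1) (nat_lit 5) (nat_lit 3) (nat_lit 4) (nat_lit 1) (nat_lit 4) (nat_lit 402) (nat_lit 320) (nat_lit 298)) (XT.lf (nat_lit 0) (nat_lit 544600949382) (nat_lit 152) (nat_lit 2313066892565) (nat_lit 0) (nat_lit 544397489009) (nat_lit 1) (nat_lit 5) (nat_lit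 3) (nat_lit 4) (nat_lit 1) (nat_lit 4) (nat_lit 403) (nat_lit 320) (nat_lit 297))) (XT.nd (nat_lit 78) (nat_lit 0) (nat_lit 0) (XT.lf (nat_lit 0) (nat_lit 629188722888) (nat_lit 152) (nat_lit 2653762821215) (nat_lit 0) (nat_lit 628984151729) (nat_lit 1) (nat_lit 5) (nat_lit 3) (nat_lit 4) (nat_lit 1) (nat_lit 4) (nat_lit 404) (nat_lit 320) (nat_lit 296)) (XT.lf (nat_lit 0) (nat_lit 726437968393) (nat_lit 152) (nat_lit 3045620220005) (nat_lit 0) (nat_lit 726232431332) (nat_lit 1) (nat_lit 5) (nat_lit 3) (nat_lit 4) (nat_lit 1) (nat_lit 4) (nat_lit 405) (nat_lit 320) (nat_lit 295)))))) (XT.nd (nat_lit 468) (nat_lit 0) (nat_lit 0) (XT.nd (nat_lit 234) (nat_lit 0) (nat_lit 0) (XT.nd (nat_lit 78) (nat_lit 0) (nat_lit 0) (XT.lf (nat_lit 0) (nat_lit 838251388526) (nat_lit 152) (nat_lit 3496305864129) (nat_lit 0) (nat_lit 838045011551) (nat_lit 1) (nat_lit 5) (nat_lit 3) (nat_lit 4) (nat_lit 1)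 (nat_lit 4) (nat_lit 406) (nat_lit 320) (nat_lit 294)) (XT.nd (nat_lit 78) (nat_lit 0) (nat_lit 0) (XT.lf (nat_lit 0) (nat_lit 966816637160) (nat_lit 152) (nat_lit 4014637516189) (nat_lit 0) (nat_lit 966609529825) (nat_lit 1) (nat_lit 5) (nat_lit 3) (nat_lit 4) (nat_lit 1) (nat_lit 4) (nat_lit 407) (nat_lit 320) (nat_lit 293)) (XT.lf (nat_lit 0) (nat_lit 1114649121333) (nat_lit 152) (nat_lit 4610756447640) (nat_lit 0) (nat_lit 1114441378902) (nat_lit 1) (nat_lit 5) (nat_lit 3) (nat_lit 4) (nat_lit 1) (nat_lit 4) (nat_lit 408) (nat_lit 320) (nat_lit 292)))) (XT.nd (nat_lit 78) (nat_lit 0) (nat_lit 0) (XT.lf (nat_lit 0) (nat_lit 1284641215735) (nat_lit 152) (nat_lit 5296325854964) (nat_lit 0) (nat_lit 1284432921047) (nat_lit 1) (nat_lit 5) (nat_lit 3) (nat_lit 4) (nat_lit 1) (nat_lit 4) (nat_lit 409) (nat_lit 320) (nat_lit 291)) (XT.nd (nat_lit 78) (nat_lit 0) (nat_lit 0) (XT.lf (nat_lit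 0) (nat_lit 1480118852648) (nat_lit 152) (nat_lit 6084759052655) (nat_lit 0) (nat_lit 1479910077737) (nat_lit 1) (nat_lit 5) (nat_lit 3) (nat_lit 4) (nat_lit 1) (nat_lit 4) (nat_lit 410) (nat_lit 320) (nat_lit 290)) (XT.lf (nat_lit 0) (nat_lit 1704906594535) (nat_lit 152) (nat_lit 6991481907622) (nat_lit 0) (nat_lit 1704697402037) (nat_lit 1) (nat_lit 5) (nat_lit 3) (nat_lit 4) (nat_lit 1) (nat_lit 4) (nat_lit 411) (nat_lit 320) (nat_lit 289))))) (XT.nd (nat_lit 234) (nat_lit 0) (nat_lit 0) (XT.nd (nat_lit 78) (nat_lit 0) (nat_lit 0) (XT.lf (nat_lit 0) (nat_lit 1963402462430) (nat_lit 152) (nat_lit 8034234649638) (nat_lit 0) (nat_lit 1963192906815) (nat_lit 1) (nat_lit 5) (nat_lit 3) (nat_lit 4) (nat_lit 1) (nat_lit 4) (nat_lit 412) (nat_lit 320) (nat_lit 288)) (XT.nd (nat_lit 78) (nat_lit 0) (nat_lit 0) (XT.lf (nat_lit 0) (nat_lit 2260663984185) (nat_lit 152) (nat_lit 9233418962784) (nat_lit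 0) (nat_lit 2260454112815) (nat_lit 1) (nat_lit 5) (nat_lit 3) (nat_lit 4) (nat_lit 1) (nat_lit 4) (nat_lit 413) (nat_lit 320) (nat_lit 287)) (XT.lf (nat_lit 0) (nat_lit 2602507146095) (nat_lit 152) (nat_lit 10612497148841) (nat_lit 0) (nat_lit 2602297000155) (nat_lit 1) (nat_lit 5) (nat_lit 3) (nat_lit 4) (nat_lit 1) (nat_lit 4) (nat_lit 414) (nat_lit 320) (nat_lit 286)))) (XT.nd (nat_lit 156) (nat_lit 0) (nat_lit 0) (XT.nd (nat_lit 78) (nat_lit 0) (nat_lit 0) (XT.lf (nat_lit 0) (nat_lit 2995620183937) (nat_lit 152) (nat_lit 12198451172317) (nat_lit 0) (nat_lit 2995409799241) (nat_lit 1) (nat_lit 5) (nat_lit 3) (nat_lit 4) (nat_lit 1) (nat_lit 4) (nat_lit 415) (nat_lit 320) (nat_lit 285)) (XT.lf (nat_lit 0) (nat_lit 3447694439754) (nat_lit 152) (nat_lit 14022310568456) (nat_lit 0) (nat_lit 3447483847444) (nat_lit 1) (nat_lit 5) (nat_lit 3) (nat_lit 4) (nat_lit 1) (nat_lit 4) (nat_lit 416)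 (nat_lit 320) (nat_lit 284))) (XT.nd (nat_lit 78) (nat_lit 0) (nat_lit 0) (XT.lf (nat_lit 0) (nat_lit 3967574844639) (nat_lit 152) (nat_lit 16119759542832) (nat_lit 0) (nat_lit 3967364071796) (nat_lit 1) (nat_lit 5) (nat_lit 3) (nat_lit 4) (nat_lit 1) (nat_lit 4) (nat_lit 417) (nat_lit 320) (nat_lit 283)) (XT.lf (nat_lit 0) (nat_lit 4565432971732) (nat_lit 152) (nat_lit 18531835140598) (nat_lit 0) (nat_lit 4565222041902) (nat_lit 1) (nat_lit 5) (nat_lit 3) (nat_lit 4) (nat_lit 1) (nat_lit 4) (nat_lit 418) (nat_lit 320) (nat_lit 282))))))))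
noncomputable def xc17 : XT := (XT.nd (nat_lit 50700) (nat_lit 0) (nat_lit 0) (XT.nd (nat_lit 936) (nat_lit 0) (nat_lit 0) (XT.nd (nat_lit 468) (nat_lit 0) (nat_lit 0) (XT.nd (nat_lit 234) (nat_lit 0) (nat_lit 0) (XT.nd (nat_lit 78) (nat_lit 0) (nat_lit 0) (XT.lf (nat_lit 0) (nat_lit 5252966045257) (nat_lit 152) (nat_lit 21305730145187) (nat_lit 0) (nat_lit 5252754978918) (nat_lit 1) (nat_lit 5) (nat_lit 3) (nat_lit 4) (nat_lit 1) (nat_lit 4) (nat_lit 419) (nat_lit 320) (nat_lit 281)) (XT.nd (nat_lit 78) (nat_lit 0) (nat_lit 0) (XT.lf (nat_lit 0) (nat_lit 6043625799263) (nat_lit 152) (nat_lit 24495716415386) (nat_lit 0) (nat_lit 6043414614220) (nat_lit 1) (nat_lit 5) (nat_lit 3) (nat_lit 4) (nat_lit 1) (nat_lit 4) (nat_lit 420) (nat_lit 320) (nat_lit 280)) (XT.lf (nat_lit 0) (nat_lit 6952881663718) (nat_lit 152) (nat_lit 28164206726046) (nat_lit 0) (nat_lit 6952670375454) (nat_lit 1) (nat_lit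 5) (nat_lit 3) (nat_lit 4) (nat_lit 1) (nat_lit 4) (nat_lit 421) (nat_lit 320) (nat_lit 279)))) (XT.nd (nat_lit 78) (nat_lit 0) (nat_lit 0) (XT.lf (nat_lit 0) (nat_lit 7998523427276) (nat_lit 152) (nat_lit 32382975887592) (nat_lit 0) (nat_lit 7998312049255) (nat_lit 1) (nat_lit 5) (nat_lit 3) (nat_lit 4) (nat_lit 1) (nat_lit 4) (nat_lit 422) (nat_lit 320) (nat_lit 278)) (XT.nd (nat_lit 78) (nat_lit 0) (nat_lit 0) (XT.lf (nat_lit 0) (nat_lit 9201009298353) (nat_lit 152) (nat_lit 37234565035795) (nat_lit 0) (nat_lit 9200797842282) (nat_lit 1) (nat_lit 5) (nat_lit 3) (nat_lit 4) (nat_lit 1) (nat_lit 4) (nat_lit 423) (nat_lit 320) (nat_lit 277)) (XT.lf (nat_lit 0) (nat_lit 10583866174428) (nat_lit 152) (nat_lit 42813896567032) (nat_lit 0) (nat_lit 10583654650487) (nat_lit 1) (nat_lit 5) (nat_lit 3) (nat_lit 4) (nat_lit 1) (nat_lit 4) (nat_lit 424) (nat_lit 320) (nat_lit 276))))) (XT.nd (nat_lit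 234) (nat_lit 0) (nat_lit 0) (XT.nd (nat_lit 78) (nat_lit 0) (nat_lit 0) (XT.lf (nat_lit 0) (nat_lit 12174149950901) (nat_lit 152) (nat_lit 49230131315610) (nat_lit 0) (nat_lit 12173938367943) (nat_lit 1) (nat_lit 5) (nat_lit 3) (nat_lit 4) (nat_lit 1) (nat_lit 4) (nat_lit 425) (nat_lit 320) (nat_lit 275)) (XT.nd (nat_lit 78) (nat_lit 0) (nat_lit 0) (XT.lf (nat_lit 0) (nat_lit 14002974875573) (nat_lit 152) (nat_lit 56608804309218) (nat_lit 0) (nat_lit 14002763241297) (nat_lit 1) (nat_lit 5) (nat_lit 3) (nat_lit 4) (nat_lit 1) (nat_lit 4) (nat_lit 426) (nat_lit 320) (nat_lit 274)) (XT.lf (nat_lit 0) (nat_lit 16106122305667) (nat_lit 152) (nat_lit 65094280889036) (nat_lit 0) (nat_lit 16105910626765) (nat_lit 1) (nat_lit 5) (nat_lit 3) (nat_lit 4) (nat_lit 1) (nat_lit 4) (nat_lit 427) (nat_lit 320) (nat_lit 273)))) (XT.nd (nat_lit 78) (nat_lit 0) (nat_lit 0) (XT.lf (nat_lit 0) (nat_lit 18524740777857)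 (nat_lit 152) (nat_lit 74852581249017) (nat_lit 0) (nat_lit 18524529060151) (nat_lit 1) (nat_lit 5) (nat_lit 3) (nat_lit 4) (nat_lit 1) (nat_lit 4) (nat_lit 428) (nat_lit 320) (nat_lit 272)) (XT.nd (nat_lit 78) (nat_lit 0) (nat_lit 0) (XT.lf (nat_lit 0) (nat_lit 21306151088339) (nat_lit 152) (nat_lit 86074628657073) (nat_lit 0) (nat_lit 21305939336890) (nat_lit 1) (nat_lit 5) (nat_lit 3) (nat_lit 4) (nat_lit 1) (nat_lit 4) (nat_lit 429) (nat_lit 320) (nat_lit 271)) (XT.lf (nat_lit 0) (nat_lit 24504772134492) (nat_lit 152) (nat_lit 98979984910319) (nat_lit 0) (nat_lit 24504560353701) (nat_lit 1) (nat_lit 5) (nat_lit 3) (nat_lit 4) (nat_lit 1) (nat_lit 4) (nat_lit 430) (nat_lit 320) (nat_lit 270)))))) (XT.nd (nat_lit 49218) (nat_lit 0) (nat_lit 0) (XT.nd (nat_lit 48984) (nat_lit 0) (nat_lit 152) (XT.nd (nat_lit 78) (nat_lit 0) (nat_lit 0) (XT.lf (nat_lit 0) (nat_lit 28183185632436) (nat_lit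 152) (nat_lit 113821146109362) (nat_lit 0) (nat_lit 28182973826131) (nat_lit 1) (nat_lit 5) (nat_lit 3) (nat_lit 4) (nat_lit 1) (nat_lit 4) (nat_lit 431) (nat_lit 320) (nat_lit 269)) (XT.nd (nat_lit 78) (nat_lit 0) (nat_lit 0) (XT.lf (nat_lit 0) (nat_lit 32413360541914) (nat_lit 152) (nat_lit 130888482799399) (nat_lit 0) (nat_lit 32413148713422) (nat_lit 1) (nat_lit 5) (nat_lit 3) (nat_lit 4) (nat_lit 1) (nat_lit 4) (nat_lit 432) (nat_lit 320) (nat_lit 268)) (XT.lf (nat_lit 0) (nat_lit 37278061154633) (nat_lit 152) (nat_lit 150515921133063) (nat_lit 0) (nat_lit 37277849306848) (nat_lit 1) (nat_lit 5) (nat_lit 3) (nat_lit 4) (nat_lit 1) (nat_lit 4) (nat_lit 433) (nat_lit 320) (nat_lit 267)))) (XT.nd (nat_lit 78) (nat_lit 0) (nat_lit 0) (XT.lf (nat_lit 0) (nat_lit 31137963833) (nat_lit 76) (nat_lit 11657315321) (nat_lit 76) (nat_lit 11657315321) (nat_lit 3) (nat_lit 4) (nat_lit 4) (nat_lit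 5) (nat_lit 4) (nat_lit 4) (nat_lit 378) (nat_lit 321) (nat_lit 321)) (XT.nd (nat_lit 78) (nat_lit 0) (nat_lit 0) (XT.lf (nat_lit 0) (nat_lit 87562302784) (nat_lit 76) (nat_lit 18297151568) (nat_lit 76) (nat_lit 18260585639) (nat_lit 3) (nat_lit 4) (nat_lit 4) (nat_lit 5) (nat_lit 4) (nat_lit 4) (nat_lit 379) (nat_lit 321) (nat_lit 320)) (XT.lf (nat_lit 0) (nat_lit 115286625480) (nat_lit 76) (nat_lit 13247056131) (nat_lit 76) (nat_lit 13178693741) (nat_lit 3) (nat_lit 4) (nat_lit 4) (nat_lit 5) (nat_lit 4) (nat_lit 4) (nat_lit 380) (nat_lit 321) (nat_lit 319))))) (XT.nd (nat_lit 234) (nat_lit 0) (nat_lit 0) (XT.nd (nat_lit 78) (nat_lit 152) (nat_lit 0) (XT.lf (nat_lit 0) (nat_lit 145991328156) (nat_lit 76) (nat_lit 8065538118) (nat_lit 76) (nat_lit 7969526632) (nat_lit 3) (nat_lit 4) (nat_lit 4) (nat_lit 5) (nat_lit 4) (nat_lit 4) (nat_lit 381) (nat_lit 321) (nat_lit 318)) (XT.nd (nat_lit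 78) (nat_lit 152) (nat_lit 0) (XT.lf (nat_lit 0) (nat_lit 180277154993) (nat_lit 76) (nat_lit 2651220001) (nat_lit 76) (nat_lit 2531165823) (nat_lit 3) (nat_lit 4) (nat_lit 4) (nat_lit 5) (nat_lit 4) (nat_lit 4) (nat_lit 382) (nat_lit 321) (nat_lit 317)) (XT.lf (nat_lit 0) (nat_lit 3384660723) (nat_lit 152) (nat_lit 205738820623) (nat_lit 0) (nat_lit 3262086056) (nat_lit 1) (nat_lit 5) (nat_lit 3) (nat_lit 4) (nat_lit 1) (nat_lit 4) (nat_lit 383) (nat_lit 321) (nat_lit 316)))) (XT.nd (nat_lit 156) (nat_lit 0) (nat_lit 0) (XT.nd (nat_lit 78) (nat_lit 0) (nat_lit 0) (XT.lf (nat_lit 0) (nat_lit 9901875186) (nat_lit 152) (nat_lit 223671080489) (nat_lit 0) (nat_lit 9763492058) (nat_lit 1) (nat_lit 5) (nat_lit 3) (nat_lit 4) (nat_lit 1) (nat_lit 4) (nat_lit 384) (nat_lit 321) (nat_lit 315)) (XT.lf (nat_lit 0) (nat_lit 17016768523) (nat_lit 152) (nat_lit 245105540852) (nat_lit 0) (nat_lit 16864638908)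 (nat_lit 1) (nat_lit 5) (nat_lit 3) (nat_lit 4) (nat_lit 1) (nat_lit 4) (nat_lit 385) (nat_lit 321) (nat_lit 314))) (XT.nd (nat_lit 78) (nat_lit 0) (nat_lit 0) (XT.lf (nat_lit 0) (nat_lit 24868545169) (nat_lit 152) (nat_lit 270461571589) (nat_lit 0) (nat_lit 24704462087) (nat_lit 1) (nat_lit 5) (nat_lit 3) (nat_lit 4) (nat_lit 1) (nat_lit 4) (nat_lit 386) (nat_lit 321) (nat_lit 313)) (XT.lf (nat_lit 0) (nat_lit 33610826842) (nat_lit 152) (nat_lit 300235268955) (nat_lit 0) (nat_lit 33436349440) (nat_lit 1) (nat_lit 5) (nat_lit 3) (nat_lit 4) (nat_lit 1) (nat_lit 4) (nat_lit 387) (nat_lit 321) (nat_lit 312))))))) (XT.nd (nat_lit 1014) (nat_lit 0) (nat_lit 0) (XT.nd (nat_lit 468) (nat_lit 0) (nat_lit 0) (XT.nd (nat_lit 234) (nat_lit 0) (nat_lit 0) (XT.nd (nat_lit 78) (nat_lit 0) (nat_lit 0) (XT.lf (nat_lit 0) (nat_lit 43414658182) (nat_lit 152) (nat_lit 335009161810) (nat_lit 0) (nat_lit 43231142242)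 (nat_lit 1) (nat_lit 5) (nat_lit 3) (nat_lit 4) (nat_lit 1) (nat_lit 4) (nat_lit 388) (nat_lit 321) (nat_lit 311)) (XT.nd (nat_lit 78) (nat_lit 0) (nat_lit 0) (XT.lf (nat_lit 0) (nat_lit 54471853282) (nat_lit 152) (nat_lit 375463608927) (nat_lit 0) (nat_lit 54280477743) (nat_lit 1) (nat_lit 5) (nat_lit 3) (nat_lit 4) (nat_lit 1) (nat_lit 4) (nat_lit 389) (nat_lit 321) (nat_lit 310)) (XT.lf (nat_lit 0) (nat_lit 66998748566) (nat_lit 152) (nat_lit 422390110360) (nat_lit 0) (nat_lit 66800538594) (nat_lit 1) (nat_lit 5) (nat_lit 3) (nat_lit 4) (nat_lit 1) (nat_lit 4) (nat_lit 390) (nat_lit 321) (nat_lit 309)))) (XT.nd (nat_lit 78) (nat_lit 0) (nat_lit 0) (XT.lf (nat_lit 0) (nat_lit 81240435465) (nat_lit 152) (nat_lit 476706793310) (nat_lit 0) (nat_lit 81036282507) (nat_lit 1) (nat_lit 5) (nat_lit 3) (nat_lit 4) (nat_lit 1) (nat_lit 4) (nat_lit 391) (nat_lit 321) (nat_lit 308)) (XT.nd (nat_lit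 78) (nat_lit 0) (nat_lit 0) (XT.lf (nat_lit 0) (nat_lit 97475555679) (nat_lit 152) (nat_lit 539476375486) (nat_lit 0) (nat_lit 97266234907) (nat_lit 1) (nat_lit 5) (nat_lit 3) (nat_lit 4) (nat_lit 1) (nat_lit 4) (nat_lit 392) (nat_lit 321) (nat_lit 307)) (XT.lf (nat_lit 0) (nat_lit 116021752864) (nat_lit 152) (nat_lit 611926957411) (nat_lit 0) (nat_lit 115807938341) (nat_lit 1) (nat_lit 5) (nat_lit 3) (nat_lit 4) (nat_lit 1) (nat_lit 4) (nat_lit 393) (nat_lit 321) (nat_lit 306))))) (XT.nd (nat_lit 234) (nat_lit 0) (nat_lit 0) (XT.nd (nat_lit 78) (nat_lit 0) (nat_lit 0) (XT.lf (nat_lit 0) (nat_lit 137241887399) (nat_lit 152) (nat_lit 695476050468) (nat_lit 0) (nat_lit 137024165267) (nat_lit 1) (nat_lit 5) (nat_lit 3) (nat_lit 4) (nat_lit 1) (nat_lit 4) (nat_lit 394) (nat_lit 321) (nat_lit 305)) (XT.nd (nat_lit 78) (nat_lit 0) (nat_lit 0) (XT.lf (nat_lit 0) (nat_lit 161551135831) (nat_lit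 152) (nat_lit 791758310828) (nat_lit 0) (nat_lit 161330015777) (nat_lit 1) (nat_lit 5) (nat_lit 3) (nat_lit 4) (nat_lit 1) (nat_lit 4) (nat_lit 395) (nat_lit 321) (nat_lit 304)) (XT.lf (nat_lit 0) (nat_lit 189425113888) (nat_lit 152) (nat_lit 902657521843) (nat_lit 0) (nat_lit 189201039120) (nat_lit 1) (nat_lit 5) (nat_lit 3) (nat_lit 4) (nat_lit 1) (nat_lit 4) (nat_lit 396) (nat_lit 321) (nat_lit 303)))) (XT.nd (nat_lit 156) (nat_lit 0) (nat_lit 0) (XT.nd (nat_lit 78) (nat_lit 0) (nat_lit 0) (XT.lf (nat_lit 0) (nat_lit 221409182013) (nat_lit 152) (nat_lit 1030343450688) (nat_lit 0) (nat_lit 221182537928) (nat_lit 1) (nat_lit 5) (nat_lit 3) (nat_lit 4) (nat_lit 1) (nat_lit 4) (nat_lit 397) (nat_lit 321) (nat_lit 302)) (XT.lf (nat_lit 0) (nat_lit 258129115449) (nat_lit 152) (nat_lit 1177314300317) (nat_lit 0) (nat_lit 257900237176) (nat_lit 1) (nat_lit 5) (nat_lit 3) (nat_lit 4) (nat_lit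 1) (nat_lit 4) (nat_lit 398) (nat_lit 321) (nat_lit 301))) (XT.nd (nat_lit 78) (nat_lit 0) (nat_lit 0) (XT.lf (nat_lit 0) (nat_lit 300303347678) (nat_lit 152) (nat_lit 1346445587353) (nat_lit 0) (nat_lit 300072526632) (nat_lit 1) (nat_lit 5) (nat_lit 3) (nat_lit 4) (nat_lit 1) (nat_lit 4) (nat_lit 399) (nat_lit 321) (nat_lit 300)) (XT.lf (nat_lit 0) (nat_lit 348757026722) (nat_lit 152) (nat_lit 1541046402195) (nat_lit 0) (nat_lit 348524516308) (nat_lit 1) (nat_lit 5) (nat_lit 3) (nat_lit 4) (nat_lit 1) (nat_lit 4) (nat_lit 400) (nat_lit 321) (nat_lit 299)))))) (XT.nd (nat_lit 468) (nat_lit 0) (nat_lit 0) (XT.nd (nat_lit 234) (nat_lit 0) (nat_lit 0) (XT.nd (nat_lit 78) (nat_lit 0) (nat_lit 0) (XT.lf (nat_lit 0) (nat_lit 404438159344) (nat_lit 152) (nat_lit 1764924152090) (nat_lit 0) (nat_lit 404204179915) (nat_lit 1) (nat_lit 5) (nat_lit 3) (nat_lit 4) (nat_lit 1) (nat_lit 4) (nat_lit 401)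 (nat_lit 321) (nat_lit 298)) (XT.nd (nat_lit 78) (nat_lit 0) (nat_lit 0) (XT.lf (nat_lit 0) (nat_lit 468436159009) (nat_lit 152) (nat_lit 2022459053884) (nat_lit 0) (nat_lit 468200902176) (nat_lit 1) (nat_lit 5) (nat_lit 3) (nat_lit 4) (nat_lit 1) (nat_lit 4) (nat_lit 402) (nat_lit 321) (nat_lit 297)) (XT.lf (nat_lit 0) (nat_lit 542003160493) (nat_lit 152) (nat_lit 2318689833915) (nat_lit 0) (nat_lit 541766792873) (nat_lit 1) (nat_lit 5) (nat_lit 3) (nat_lit 4) (nat_lit 1) (nat_lit 4) (nat_lit 403) (nat_lit 321) (nat_lit 296)))) (XT.nd (nat_lit 78) (nat_lit 0) (nat_lit 0) (XT.lf (nat_lit 0) (nat_lit 626578518172) (nat_lit 152) (nat_lit 2659412311795) (nat_lit 0) (nat_lit 626341184651) (nat_lit 1) (nat_lit 5) (nat_lit 3) (nat_lit 4) (nat_lit 1) (nat_lit 4) (nat_lit 404) (nat_lit 321) (nat_lit 295)) (XT.nd (nat_lit 78) (nat_lit 0) (nat_lit 0) (XT.lf (nat_lit 0) (nat_lit 723816967306) (nat_lit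 152) (nat_lit 3051292796871) (nat_lit 0) (nat_lit 723578793871) (nat_lit 1) (nat_lit 5) (nat_lit 3) (nat_lit 4) (nat_lit 1) (nat_lit 4) (nat_lit 405) (nat_lit 321) (nat_lit 294)) (XT.lf (nat_lit 0) (nat_lit 835620999291) (nat_lit 152) (nat_lit 3501998516027) (nat_lit 0) (nat_lit 835382095495) (nat_lit 1) (nat_lit 5) (nat_lit 3) (nat_lit 4) (nat_lit 1) (nat_lit 4) (nat_lit 406) (nat_lit 321) (nat_lit 293))))) (XT.nd (nat_lit 234) (nat_lit 0) (nat_lit 0) (XT.nd (nat_lit 78) (nat_lit 0) (nat_lit 0) (XT.lf (nat_lit 0) (nat_lit 964178084317) (nat_lit 152) (nat_lit 4020347624636) (nat_lit 0) (nat_lit 963938545426) (nat_lit 1) (nat_lit 5) (nat_lit 3) (nat_lit 4) (nat_lit 1) (nat_lit 4) (nat_lit 407) (nat_lit 321) (nat_lit 292)) (XT.nd (nat_lit 78) (nat_lit 0) (nat_lit 0) (XT.lf (nat_lit 0) (nat_lit 1112003469701) (nat_lit 152) (nat_lit 4616481735694) (nat_lit 0) (nat_lit 1111763378552) (nat_lit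 1) (nat_lit 5) (nat_lit 3) (nat_lit 4) (nat_lit 1) (nat_lit 4) (nat_lit 408) (nat_lit 321) (nat_lit 291)) (XT.lf (nat_lit 0) (nat_lit 1281989391243) (nat_lit 152) (nat_lit 5302064342678) (nat_lit 0) (nat_lit 1281748819871) (nat_lit 1) (nat_lit 5) (nat_lit 3) (nat_lit 4) (nat_lit 1) (nat_lit 4) (nat_lit 409) (nat_lit 321) (nat_lit 290)))) (XT.nd (nat_lit 156) (nat_lit 0) (nat_lit 0) (XT.nd (nat_lit 78) (nat_lit 0) (nat_lit 0) (XT.lf (nat_lit 0) (nat_lit 1477461660452) (nat_lit 152) (nat_lit 6090509018333) (nat_lit 0) (nat_lit 1477220671494) (nat_lit 1) (nat_lit 5) (nat_lit 3) (nat_lit 4) (nat_lit 1) (nat_lit 4) (nat_lit 410) (nat_lit 321) (nat_lit 289)) (XT.lf (nat_lit 0) (nat_lit 1702244734769) (nat_lit 152) (nat_lit 6997241854139) (nat_lit 0) (nat_lit 1702003382693) (nat_lit 1) (nat_lit 5) (nat_lit 3) (nat_lit 4) (nat_lit 1) (nat_lit 4) (nat_lit 411) (nat_lit 321) (nat_lit 288))) (XT.nd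 (nat_lit 78) (nat_lit 0) (nat_lit 0) (XT.lf (nat_lit 0) (nat_lit 1960736543909) (nat_lit 152) (nat_lit 8040003275145) (nat_lit 0) (nat_lit 1960494876078) (nat_lit 1) (nat_lit 5) (nat_lit 3) (nat_lit 4) (nat_lit 1) (nat_lit 4) (nat_lit 412) (nat_lit 321) (nat_lit 287)) (XT.lf (nat_lit 0) (nat_lit 2257994536312) (nat_lit 152) (nat_lit 9239195135239) (nat_lit 0) (nat_lit 2257752593911) (nat_lit 1) (nat_lit 5) (nat_lit 3) (nat_lit 4) (nat_lit 1) (nat_lit 4) (nat_lit 413) (nat_lit 321) (nat_lit 286))))))))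
noncomputable def xc18 : XT := (XT.nd (nat_lit 1950) (nat_lit 0) (nat_lit 0) (XT.nd (nat_lit 936) (nat_lit 0) (nat_lit 0) (XT.nd (nat_lit 468) (nat_lit 0) (nat_lit 0) (XT.nd (nat_lit 234) (nat_lit 0) (nat_lit 0) (XT.nd (nat_lit 78) (nat_lit 0) (nat_lit 0) (XT.lf (nat_lit 0) (nat_lit 2599834629219) (nat_lit 152) (nat_lit 10618279883859) (nat_lit 0) (nat_lit 2599592448063) (nat_lit 1) (nat_lit 5) (nat_lit 3) (nat_lit 4) (nat_lit 1) (nat_lit 4) (nat_lit 414) (nat_lit 321) (nat_lit 285)) (XT.nd (nat_lit 78) (nat_lit 0) (nat_lit 0) (XT.lf (nat_lit 0) (nat_lit 2992944998363) (nat_lit 152) (nat_lit 12204239613913) (nat_lit 0) (nat_lit 2992702609592) (nat_lit 1) (nat_lit 5) (nat_lit 3) (nat_lit 4) (nat_lit 1) (nat_lit 4) (nat_lit 415) (nat_lit 321) (nat_lit 284)) (XT.lf (nat_lit 0) (nat_lit 3445016933573) (nat_lit 152) (nat_lit 14028103972292) (nat_lit 0) (nat_lit 3444774364269) (nat_lit 1) (nat_lit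 5) (nat_lit 3) (nat_lit 4) (nat_lit 1) (nat_lit 4) (nat_lit 416) (nat_lit 321) (nat_lit 283)))) (XT.nd (nat_lit 78) (nat_lit 0) (nat_lit 0) (XT.lf (nat_lit 0) (nat_lit 3964895320540) (nat_lit 152) (nat_lit 16125557261660) (nat_lit 0) (nat_lit 3964652594249) (nat_lit 1) (nat_lit 5) (nat_lit 3) (nat_lit 4) (nat_lit 1) (nat_lit 4) (nat_lit 417) (nat_lit 321) (nat_lit 282)) (XT.nd (nat_lit 78) (nat_lit 0) (nat_lit 0) (XT.lf (nat_lit 0) (nat_lit 4562751692920) (nat_lit 152) (nat_lit 18537636611593) (nat_lit 0) (nat_lit 4562508830120) (nat_lit 1) (nat_lit 5) (nat_lit 3) (nat_lit 4) (nat_lit 1) (nat_lit 4) (nat_lit 418) (nat_lit 321) (nat_lit 281)) (XT.lf (nat_lit 0) (nat_lit 5250283240609) (nat_lit 152) (nat_lit 21311534878936) (nat_lit 0) (nat_lit 5250040259105) (nat_lit 1) (nat_lit 5) (nat_lit 3) (nat_lit 4) (nat_lit 1) (nat_lit 4) (nat_lit 419) (nat_lit 321) (nat_lit 280))))) (XT.nd (nat_lit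 234) (nat_lit 0) (nat_lit 0) (XT.nd (nat_lit 78) (nat_lit 0) (nat_lit 0) (XT.lf (nat_lit 0) (nat_lit 6040941667800) (nat_lit 152) (nat_lit 24501523986312) (nat_lit 0) (nat_lit 6040698583076) (nat_lit 1) (nat_lit 5) (nat_lit 3) (nat_lit 4) (nat_lit 1) (nat_lit 4) (nat_lit 420) (nat_lit 321) (nat_lit 279)) (XT.nd (nat_lit 78) (nat_lit 0) (nat_lit 0) (XT.lf (nat_lit 0) (nat_lit 6950196378504) (nat_lit 152) (nat_lit 28170016764082) (nat_lit 0) (nat_lit 6949953204022) (nat_lit 1) (nat_lit 5) (nat_lit 3) (nat_lit 4) (nat_lit 1) (nat_lit 4) (nat_lit 421) (nat_lit 321) (nat_lit 278)) (XT.lf (nat_lit 0) (nat_lit 7995837138799) (nat_lit 152) (nat_lit 32388788070943) (nat_lit 0) (nat_lit 7995593886268) (nat_lit 1) (nat_lit 5) (nat_lit 3) (nat_lit 4) (nat_lit 1) (nat_lit 4) (nat_lit 422) (nat_lit 321) (nat_lit 277)))) (XT.nd (nat_lit 78) (nat_lit 0) (nat_lit 0) (XT.lf (nat_lit 0) (nat_lit 9198322137475)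 (nat_lit 152) (nat_lit 37240379084635) (nat_lit 0) (nat_lit 9198078817074) (nat_lit 1) (nat_lit 5) (nat_lit 3) (nat_lit 4) (nat_lit 1) (nat_lit 4) (nat_lit 423) (nat_lit 321) (nat_lit 276)) (XT.nd (nat_lit 78) (nat_lit 0) (nat_lit 0) (XT.lf (nat_lit 0) (nat_lit 10581178254939) (nat_lit 152) (nat_lit 42819712238038) (nat_lit 0) (nat_lit 10580934875521) (nat_lit 1) (nat_lit 5) (nat_lit 3) (nat_lit 4) (nat_lit 1) (nat_lit 4) (nat_lit 424) (nat_lit 321) (nat_lit 275)) (XT.lf (nat_lit 0) (nat_lit 12171461371750) (nat_lit 152) (nat_lit 49235948397194) (nat_lit 0) (nat_lit 12171217941014) (nat_lit 1) (nat_lit 5) (nat_lit 3) (nat_lit 4) (nat_lit 1) (nat_lit 4) (nat_lit 425) (nat_lit 321) (nat_lit 274)))))) (XT.nd (nat_lit 468) (nat_lit 0) (nat_lit 0) (XT.nd (nat_lit 234) (nat_lit 0) (nat_lit 0) (XT.nd (nat_lit 78) (nat_lit 0) (nat_lit 0) (XT.lf (nat_lit 0) (nat_lit 14000285722804) (nat_lit 152)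 (nat_lit 56614622617392) (nat_lit 0) (nat_lit 14000042247442) (nat_lit 1) (nat_lit 5) (nat_lit 3) (nat_lit 4) (nat_lit 1) (nat_lit 4) (nat_lit 426) (nat_lit 321) (nat_lit 273)) (XT.nd (nat_lit 78) (nat_lit 0) (nat_lit 0) (XT.lf (nat_lit 0) (nat_lit 16103432654099) (nat_lit 152) (nat_lit 65100100263810) (nat_lit 0) (nat_lit 16103189139933) (nat_lit 1) (nat_lit 5) (nat_lit 3) (nat_lit 4) (nat_lit 1) (nat_lit 4) (nat_lit 427) (nat_lit 321) (nat_lit 272)) (XT.lf (nat_lit 0) (nat_lit 18522050692551) (nat_lit 152) (nat_lit 74858401551269) (nat_lit 0) (nat_lit 18521807144642) (nat_lit 1) (nat_lit 5) (nat_lit 3) (nat_lit 4) (nat_lit 1) (nat_lit 4) (nat_lit 428) (nat_lit 321) (nat_lit 271)))) (XT.nd (nat_lit 78) (nat_lit 0) (nat_lit 0) (XT.lf (nat_lit 0) (nat_lit 21303460625870) (nat_lit 152) (nat_lit 86080449765829) (nat_lit 0) (nat_lit 21303217048619) (nat_lit 1) (nat_lit 5) (nat_lit 3) (nat_lit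 4) (nat_lit 1) (nat_lit 4) (nat_lit 429) (nat_lit 321) (nat_lit 270)) (XT.nd (nat_lit 78) (nat_lit 0) (nat_lit 0) (XT.lf (nat_lit 0) (nat_lit 24502081344055) (nat_lit 152) (nat_lit 98985806720381) (nat_lit 0) (nat_lit 24501837741289) (nat_lit 1) (nat_lit 5) (nat_lit 3) (nat_lit 4) (nat_lit 1) (nat_lit 4) (nat_lit 430) (nat_lit 321) (nat_lit 269)) (XT.lf (nat_lit 0) (nat_lit 28180494556809) (nat_lit 152) (nat_lit 113826968529255) (nat_lit 0) (nat_lit 28180250931857) (nat_lit 1) (nat_lit 5) (nat_lit 3) (nat_lit 4) (nat_lit 1) (nat_lit 4) (nat_lit 431) (nat_lit 321) (nat_lit 268))))) (XT.nd (nat_lit 234) (nat_lit 0) (nat_lit 0) (XT.nd (nat_lit 78) (nat_lit 0) (nat_lit 0) (XT.lf (nat_lit 0) (nat_lit 32410669218296) (nat_lit 152) (nat_lit 130894305749582) (nat_lit 0) (nat_lit 32410425574051) (nat_lit 1) (nat_lit 5) (nat_lit 3) (nat_lit 4) (nat_lit 1) (nat_lit 4) (nat_lit 432) (nat_lit 321) (nat_lit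 267)) (XT.nd (nat_lit 78) (nat_lit 0) (nat_lit 0) (XT.lf (nat_lit 0) (nat_lit 37275369615370) (nat_lit 152) (nat_lit 150521744544367) (nat_lit 0) (nat_lit 37275125954349) (nat_lit 1) (nat_lit 5) (nat_lit 3) (nat_lit 4) (nat_lit 1) (nat_lit 4) (nat_lit 433) (nat_lit 321) (nat_lit 266)) (XT.lf (nat_lit 0) (nat_lit 42869774668844) (nat_lit 152) (nat_lit 173093300020464) (nat_lit 0) (nat_lit 42869530993235) (nat_lit 1) (nat_lit 5) (nat_lit 3) (nat_lit 4) (nat_lit 1) (nat_lit 4) (nat_lit 434) (nat_lit 321) (nat_lit 265)))) (XT.nd (nat_lit 156) (nat_lit 0) (nat_lit 0) (XT.nd (nat_lit 78) (nat_lit 0) (nat_lit 0) (XT.lf (nat_lit 0) (nat_lit 49303340129765) (nat_lit 152) (nat_lit 199050589567624) (nat_lit 0) (nat_lit 49303096441470) (nat_lit 1) (nat_lit 5) (nat_lit 3) (nat_lit 4) (nat_lit 1) (nat_lit 4) (nat_lit 435) (nat_lit 321) (nat_lit 264)) (XT.lf (nat_lit 0) (nat_lit 56701940104975) (nat_lit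 152) (nat_lit 228901473198726) (nat_lit 0) (nat_lit 56701696405649) (nat_lit 1) (nat_lit 5) (nat_lit 3) (nat_lit 4) (nat_lit 1) (nat_lit 4) (nat_lit 436) (nat_lit 321) (nat_lit 263))) (XT.nd (nat_lit 78) (nat_lit 0) (nat_lit 0) (XT.lf (nat_lit 0) (nat_lit 65210329811382) (nat_lit 152) (nat_lit 263229989941334) (nat_lit 0) (nat_lit 65210086102464) (nat_lit 1) (nat_lit 5) (nat_lit 3) (nat_lit 4) (nat_lit 1) (nat_lit 4) (nat_lit 437) (nat_lit 321) (nat_lit 262)) (XT.lf (nat_lit 0) (nat_lit 74994977743240) (nat_lit 152) (nat_lit 302707784688239) (nat_lit 0) (nat_lit 74994734025982) (nat_lit 1) (nat_lit 5) (nat_lit 3) (nat_lit 4) (nat_lit 1) (nat_lit 4) (nat_lit 438) (nat_lit 321) (nat_lit 261))))))) (XT.nd (nat_lit 49062) (nat_lit 0) (nat_lit 0) (XT.nd (nat_lit 48516) (nat_lit 0) (nat_lit 0) (XT.nd (nat_lit 48282) (nat_lit 0) (nat_lit 152) (XT.nd (nat_lit 78) (nat_lit 0) (nat_lit 0) (XT.lf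 (nat_lit 0) (nat_lit 86247322664435) (nat_lit 152) (nat_lit 348107249075793) (nat_lit 0) (nat_lit 86247078939924) (nat_lit 1) (nat_lit 5) (nat_lit 3) (nat_lit 4) (nat_lit 1) (nat_lit 4) (nat_lit 439) (nat_lit 321) (nat_lit 260)) (XT.nd (nat_lit 48126) (nat_lit 0) (nat_lit 152) (XT.lf (nat_lit 0) (nat_lit 99187519149512) (nat_lit 152) (nat_lit 400316633494188) (nat_lit 0) (nat_lit 99187275418694) (nat_lit 1) (nat_lit 5) (nat_lit 3) (nat_lit 4) (nat_lit 1) (nat_lit 4) (nat_lit 440) (nat_lit 321) (nat_lit 259)) (XT.lf (nat_lit 0) (nat_lit 8954796887) (nat_lit 76) (nat_lit 16622429115) (nat_lit 76) (nat_lit 16622429115) (nat_lit 3) (nat_lit 4) (nat_lit 4) (nat_lit 5) (nat_lit 4) (nat_lit 4) (nat_lit 376) (nat_lit 322) (nat_lit 322)))) (XT.nd (nat_lit 78) (nat_lit 0) (nat_lit 0) (XT.lf (nat_lit 0) (nat_lit 38932766702) (nat_lit 76) (nat_lit 28439712243) (nat_lit 76) (nat_lit 28397661424) (nat_lit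 3) (nat_lit 4) (nat_lit 4) (nat_lit 5) (nat_lit 4) (nat_lit 4) (nat_lit 377) (nat_lit 322) (nat_lit 321)) (XT.nd (nat_lit 78) (nat_lit 0) (nat_lit 0) (XT.lf (nat_lit 0) (nat_lit 61551155578) (nat_lit 76) (nat_lit 23741800682) (nat_lit 76) (nat_lit 23663183934) (nat_lit 3) (nat_lit 4) (nat_lit 4) (nat_lit 5) (nat_lit 4) (nat_lit 4) (nat_lit 378) (nat_lit 322) (nat_lit 320)) (XT.lf (nat_lit 0) (nat_lit 86207294096) (nat_lit 76) (nat_lit 19059207886) (nat_lit 76) (nat_lit 18948794677) (nat_lit 3) (nat_lit 4) (nat_lit 4) (nat_lit 5) (nat_lit 4) (nat_lit 4) (nat_lit 379) (nat_lit 322) (nat_lit 319))))) (XT.nd (nat_lit 234) (nat_lit 152) (nat_lit 0) (XT.nd (nat_lit 78) (nat_lit 0) (nat_lit 0) (XT.lf (nat_lit 0) (nat_lit 113383584966) (nat_lit 76) (nat_lit 14300317909) (nat_lit 76) (nat_lit 14162255605) (nat_lit 3) (nat_lit 4) (nat_lit 4) (nat_lit 5) (nat_lit 4) (nat_lit 4) (nat_lit 380) (nat_lit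 322) (nat_lit 318)) (XT.nd (nat_lit 78) (nat_lit 0) (nat_lit 0) (XT.lf (nat_lit 0) (nat_lit 143611738228) (nat_lit 76) (nat_lit 9372022035) (nat_lit 76) (nat_lit 9209917038) (nat_lit 3) (nat_lit 4) (nat_lit 4) (nat_lit 5) (nat_lit 4) (nat_lit 4) (nat_lit 381) (nat_lit 322) (nat_lit 317)) (XT.lf (nat_lit 0) (nat_lit 177483174270) (nat_lit 76) (nat_lit 4177897082) (nat_lit 76) (nat_lit 3994885396) (nat_lit 3) (nat_lit 4) (nat_lit 4) (nat_lit 5) (nat_lit 4) (nat_lit 4) (nat_lit 382) (nat_lit 322) (nat_lit 316)))) (XT.nd (nat_lit 156) (nat_lit 0) (nat_lit 0) (XT.nd (nat_lit 78) (nat_lit 0) (nat_lit 0) (XT.lf (nat_lit 0) (nat_lit 1642431217) (nat_lit 152) (nat_lit 209542485871) (nat_lit 0) (nat_lit 1467482160) (nat_lit 1) (nat_lit 5) (nat_lit 3) (nat_lit 4) (nat_lit 1) (nat_lit 4) (nat_lit 383) (nat_lit 322) (nat_lit 315)) (XT.lf (nat_lit 0) (nat_lit 7982946473) (nat_lit 152) (nat_lit 227852588302)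 (nat_lit 0) (nat_lit 7794250928) (nat_lit 1) (nat_lit 5) (nat_lit 3) (nat_lit 4) (nat_lit 1) (nat_lit 4) (nat_lit 384) (nat_lit 322) (nat_lit 314))) (XT.nd (nat_lit 78) (nat_lit 0) (nat_lit 0) (XT.lf (nat_lit 0) (nat_lit 14944188325) (nat_lit 152) (nat_lit 249615607419) (nat_lit 0) (nat_lit 14743539314) (nat_lit 1) (nat_lit 5) (nat_lit 3) (nat_lit 4) (nat_lit 1) (nat_lit 4) (nat_lit 385) (nat_lit 322) (nat_lit 313)) (XT.lf (nat_lit 0) (nat_lit 22662354985) (nat_lit 152) (nat_lit 275257341420) (nat_lit 0) (nat_lit 22451311655) (nat_lit 1) (nat_lit 5) (nat_lit 3) (nat_lit 4) (nat_lit 1) (nat_lit 4) (nat_lit 386) (nat_lit 322) (nat_lit 312)))))) (XT.nd (nat_lit 468) (nat_lit 0) (nat_lit 0) (XT.nd (nat_lit 234) (nat_lit 0) (nat_lit 0) (XT.nd (nat_lit 78) (nat_lit 0) (nat_lit 0) (XT.lf (nat_lit 0) (nat_lit 31288454061) (nat_lit 152) (nat_lit 305279476407) (nat_lit 0) (nat_lit 31068372192) (nat_lit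 1) (nat_lit 5) (nat_lit 3) (nat_lit 4) (nat_lit 1) (nat_lit 4) (nat_lit 387) (nat_lit 322) (nat_lit 311)) (XT.nd (nat_lit 78) (nat_lit 0) (nat_lit 0) (XT.lf (nat_lit 0) (nat_lit 40991257056) (nat_lit 152) (nat_lit 340269401975) (nat_lit 0) (nat_lit 40763315588) (nat_lit 1) (nat_lit 5) (nat_lit 3) (nat_lit 4) (nat_lit 1) (nat_lit 4) (nat_lit 388) (nat_lit 322) (nat_lit 310)) (XT.lf (nat_lit 0) (nat_lit 51960601421) (nat_lit 152) (nat_lit 380911703627) (nat_lit 0) (nat_lit 51725825519) (nat_lit 1) (nat_lit 5) (nat_lit 3) (nat_lit 4) (nat_lit 1) (nat_lit 4) (nat_lit 389) (nat_lit 322) (nat_lit 309)))) (XT.nd (nat_lit 78) (nat_lit 0) (nat_lit 0) (XT.lf (nat_lit 0) (nat_lit 64411104762) (nat_lit 152) (nat_lit 428001556828) (nat_lit 0) (nat_lit 64170385875) (nat_lit 1) (nat_lit 5) (nat_lit 3) (nat_lit 4) (nat_lit 1) (nat_lit 4) (nat_lit 390) (nat_lit 322) (nat_lit 308)) (XT.nd (nat_lit 78) (nat_lit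 0) (nat_lit 0) (XT.lf (nat_lit 0) (nat_lit 78586363884) (nat_lit 152) (nat_lit 482460284794) (nat_lit 0) (nat_lit 78340477183) (nat_lit 1) (nat_lit 5) (nat_lit 3) (nat_lit 4) (nat_lit 1) (nat_lit 4) (nat_lit 391) (nat_lit 322) (nat_lit 307)) (XT.lf (nat_lit 0) (nat_lit 94763720814) (nat_lit 152) (nat_lit 545353384375) (nat_lit 0) (nat_lit 94513340362) (nat_lit 1) (nat_lit 5) (nat_lit 3) (nat_lit 4) (nat_lit 1) (nat_lit 4) (nat_lit 392) (nat_lit 322) (nat_lit 306))))) (XT.nd (nat_lit 234) (nat_lit 0) (nat_lit 0) (XT.nd (nat_lit 78) (nat_lit 0) (nat_lit 0) (XT.lf (nat_lit 0) (nat_lit 113259689056) (nat_lit 152) (nat_lit 617911372739) (nat_lit 0) (nat_lit 113005400994) (nat_lit 1) (nat_lit 5) (nat_lit 3) (nat_lit 4) (nat_lit 1) (nat_lit 4) (nat_lit 393) (nat_lit 322) (nat_lit 305)) (XT.nd (nat_lit 78) (nat_lit 0) (nat_lit 0) (XT.lf (nat_lit 0) (nat_lit 134436146250) (nat_lit 152) (nat_lit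 701553862700) (nat_lit 0) (nat_lit 134178460266) (nat_lit 1) (nat_lit 5) (nat_lit 3) (nat_lit 4) (nat_lit 1) (nat_lit 4) (nat_lit 394) (nat_lit 322) (nat_lit 304)) (XT.lf (nat_lit 0) (nat_lit 158707414384) (nat_lit 152) (nat_lit 797917337759) (nat_lit 0) (nat_lit 158446773687) (nat_lit 1) (nat_lit 5) (nat_lit 3) (nat_lit 4) (nat_lit 1) (nat_lit 4) (nat_lit 395) (nat_lit 322) (nat_lit 303)))) (XT.nd (nat_lit 156) (nat_lit 0) (nat_lit 0) (XT.nd (nat_lit 78) (nat_lit 0) (nat_lit 0) (XT.lf (nat_lit 0) (nat_lit 186548366097) (nat_lit 152) (nat_lit 908887170252) (nat_lit 0) (nat_lit 186285156082) (nat_lit 1) (nat_lit 5) (nat_lit 3) (nat_lit 4) (nat_lit 1) (nat_lit 4) (nat_lit 396) (nat_lit 322) (nat_lit 302)) (XT.lf (nat_lit 0) (nat_lit 218503715660) (nat_lit 152) (nat_lit 1036634509076) (nat_lit 0) (nat_lit 218238271457) (nat_lit 1) (nat_lit 5) (nat_lit 3) (nat_lit 4) (nat_lit 1) (nat_lit 4)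 (nat_lit 397) (nat_lit 322) (nat_lit 301))) (XT.nd (nat_lit 78) (nat_lit 0) (nat_lit 0) (XT.lf (nat_lit 0) (nat_lit 255198676435) (nat_lit 152) (nat_lit 1183658758688) (nat_lit 0) (nat_lit 254931289459) (nat_lit 1) (nat_lit 5) (nat_lit 3) (nat_lit 4) (nat_lit 1) (nat_lit 4) (nat_lit 398) (nat_lit 322) (nat_lit 300)) (XT.lf (nat_lit 0) (nat_lit 297351193306) (nat_lit 152) (nat_lit 1352836480492) (nat_lit 0) (nat_lit 297082116963) (nat_lit 1) (nat_lit 5) (nat_lit 3) (nat_lit 4) (nat_lit 1) (nat_lit 4) (nat_lit 399) (nat_lit 322) (nat_lit 299))))))))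
noncomputable def xc19 : XT := (XT.nd (nat_lit 2028) (nat_lit 0) (nat_lit 0) (XT.nd (nat_lit 1014) (nat_lit 0) (nat_lit 0) (XT.nd (nat_lit 468) (nat_lit 0) (nat_lit 0) (XT.nd (nat_lit 234) (nat_lit 0) (nat_lit 0) (XT.nd (nat_lit 78) (nat_lit 0) (nat_lit 0) (XT.lf (nat_lit 0) (nat_lit 345785989430) (nat_lit 152) (nat_lit 1547477673393) (nat_lit 0) (nat_lit 345515444071) (nat_lit 1) (nat_lit 5) (nat_lit 3) (nat_lit 4) (nat_lit 1) (nat_lit 4) (nat_lit 400) (nat_lit 322) (nat_lit 298)) (XT.nd (nat_lit 78) (nat_lit 0) (nat_lit 0) (XT.lf (nat_lit 0) (nat_lit 401450702121) (nat_lit 152) (nat_lit 1771390534644) (nat_lit 0) (nat_lit 401178879358) (nat_lit 1) (nat_lit 5) (nat_lit 3) (nat_lit 4) (nat_lit 1) (nat_lit 4) (nat_lit 401) (nat_lit 322) (nat_lit 297)) (XT.lf (nat_lit 0) (nat_lit 465434423586) (nat_lit 152) (nat_lit 2028955968051) (nat_lit 0) (nat_lit 465161490036) (nat_lit 1) (nat_lit 5)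 (nat_lit 3) (nat_lit 4) (nat_lit 1) (nat_lit 4) (nat_lit 402) (nat_lit 322) (nat_lit 296)))) (XT.nd (nat_lit 78) (nat_lit 0) (nat_lit 0) (XT.lf (nat_lit 0) (nat_lit 538989009243) (nat_lit 152) (nat_lit 2325213297312) (nat_lit 0) (nat_lit 538715109792) (nat_lit 1) (nat_lit 5) (nat_lit 3) (nat_lit 4) (nat_lit 1) (nat_lit 4) (nat_lit 403) (nat_lit 322) (nat_lit 295)) (XT.nd (nat_lit 78) (nat_lit 0) (nat_lit 0) (XT.lf (nat_lit 0) (nat_lit 623553570551) (nat_lit 152) (nat_lit 2665958861477) (nat_lit 0) (nat_lit 623278831186) (nat_lit 1) (nat_lit 5) (nat_lit 3) (nat_lit 4) (nat_lit 1) (nat_lit 4) (nat_lit 404) (nat_lit 322) (nat_lit 294)) (XT.lf (nat_lit 0) (nat_lit 720782631537) (nat_lit 152) (nat_lit 3057859421585) (nat_lit 0) (nat_lit 720507161812) (nat_lit 1) (nat_lit 5) (nat_lit 3) (nat_lit 4) (nat_lit 1) (nat_lit 4) (nat_lit 405) (nat_lit 322) (nat_lit 293))))) (XT.nd (nat_lit 234) (nat_lit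 0) (nat_lit 0) (XT.nd (nat_lit 78) (nat_lit 0) (nat_lit 0) (XT.lf (nat_lit 0) (nat_lit 832578499914) (nat_lit 152) (nat_lit 3508582597290) (nat_lit 0) (nat_lit 832302395093) (nat_lit 1) (nat_lit 5) (nat_lit 3) (nat_lit 4) (nat_lit 1) (nat_lit 4) (nat_lit 406) (nat_lit 322) (nat_lit 292)) (XT.nd (nat_lit 78) (nat_lit 0) (nat_lit 0) (XT.lf (nat_lit 0) (nat_lit 961128486151) (nat_lit 152) (nat_lit 4026946885507) (nat_lit 0) (nat_lit 960851829073) (nat_lit 1) (nat_lit 5) (nat_lit 3) (nat_lit 4) (nat_lit 1) (nat_lit 4) (nat_lit 407) (nat_lit 322) (nat_lit 291)) (XT.lf (nat_lit 0) (nat_lit 1108947698675) (nat_lit 152) (nat_lit 4623094196224) (nat_lit 0) (nat_lit 1108670561373) (nat_lit 1) (nat_lit 5) (nat_lit 3) (nat_lit 4) (nat_lit 1) (nat_lit 4) (nat_lit 408) (nat_lit 322) (nat_lit 290)))) (XT.nd (nat_lit 156) (nat_lit 0) (nat_lit 0) (XT.nd (nat_lit 78) (nat_lit 0) (nat_lit 0) (XT.lf (nat_lit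 0) (nat_lit 1278928252513) (nat_lit 152) (nat_lit 5308688281173) (nat_lit 0) (nat_lit 1278650697625) (nat_lit 1) (nat_lit 5) (nat_lit 3) (nat_lit 4) (nat_lit 1) (nat_lit 4) (nat_lit 409) (nat_lit 322) (nat_lit 289)) (XT.lf (nat_lit 0) (nat_lit 1474395854153) (nat_lit 152) (nat_lit 6097142937666) (nat_lit 0) (nat_lit 1474117936147) (nat_lit 1) (nat_lit 5) (nat_lit 3) (nat_lit 4) (nat_lit 1) (nat_lit 4) (nat_lit 410) (nat_lit 322) (nat_lit 288))) (XT.nd (nat_lit 78) (nat_lit 0) (nat_lit 0) (XT.lf (nat_lit 0) (nat_lit 1699174869714) (nat_lit 152) (nat_lit 7003884452462) (nat_lit 0) (nat_lit 1698896635954) (nat_lit 1) (nat_lit 5) (nat_lit 3) (nat_lit 4) (nat_lit 1) (nat_lit 4) (nat_lit 411) (nat_lit 322) (nat_lit 287)) (XT.lf (nat_lit 0) (nat_lit 1957663149502) (nat_lit 152) (nat_lit 8046653420416) (nat_lit 0) (nat_lit 1957384641172) (nat_lit 1) (nat_lit 5) (nat_lit 3) (nat_lit 4) (nat_lit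 1) (nat_lit 4) (nat_lit 412) (nat_lit 322) (nat_lit 286)))))) (XT.nd (nat_lit 468) (nat_lit 0) (nat_lit 0) (XT.nd (nat_lit 234) (nat_lit 0) (nat_lit 0) (XT.nd (nat_lit 78) (nat_lit 0) (nat_lit 0) (XT.lf (nat_lit 0) (nat_lit 2254918072902) (nat_lit 152) (nat_lit 9245851843074) (nat_lit 0) (nat_lit 2254639325816) (nat_lit 1) (nat_lit 5) (nat_lit 3) (nat_lit 4) (nat_lit 1) (nat_lit 4) (nat_lit 413) (nat_lit 322) (nat_lit 285)) (XT.nd (nat_lit 78) (nat_lit 0) (nat_lit 0) (XT.lf (nat_lit 0) (nat_lit 2596755497111) (nat_lit 152) (nat_lit 10624942298271) (nat_lit 0) (nat_lit 2596476542411) (nat_lit 1) (nat_lit 5) (nat_lit 3) (nat_lit 4) (nat_lit 1) (nat_lit 4) (nat_lit 414) (nat_lit 322) (nat_lit 284)) (XT.lf (nat_lit 0) (nat_lit 2989863545648) (nat_lit 152) (nat_lit 12210906990565) (nat_lit 0) (nat_lit 2989584410414) (nat_lit 1) (nat_lit 5) (nat_lit 3) (nat_lit 4) (nat_lit 1) (nat_lit 4) (nat_lit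 415) (nat_lit 322) (nat_lit 283)))) (XT.nd (nat_lit 78) (nat_lit 0) (nat_lit 0) (XT.lf (nat_lit 0) (nat_lit 3441933462940) (nat_lit 152) (nat_lit 14034775663936) (nat_lit 0) (nat_lit 3441654170720) (nat_lit 1) (nat_lit 5) (nat_lit 3) (nat_lit 4) (nat_lit 1) (nat_lit 4) (nat_lit 416) (nat_lit 322) (nat_lit 282)) (XT.nd (nat_lit 78) (nat_lit 0) (nat_lit 0) (XT.lf (nat_lit 0) (nat_lit 3961810095194) (nat_lit 152) (nat_lit 16132232705471) (nat_lit 0) (nat_lit 3961530666465) (nat_lit 1) (nat_lit 5) (nat_lit 3) (nat_lit 4) (nat_lit 1) (nat_lit 4) (nat_lit 417) (nat_lit 322) (nat_lit 281)) (XT.lf (nat_lit 0) (nat_lit 4559664941738) (nat_lit 152) (nat_lit 18544315318158) (nat_lit 0) (nat_lit 4559385394305) (nat_lit 1) (nat_lit 5) (nat_lit 3) (nat_lit 4) (nat_lit 1) (nat_lit 4) (nat_lit 418) (nat_lit 322) (nat_lit 280))))) (XT.nd (nat_lit 234) (nat_lit 0) (nat_lit 0) (XT.nd (nat_lit 78) (nat_lit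 0) (nat_lit 0) (XT.lf (nat_lit 0) (nat_lit 5247195162613) (nat_lit 152) (nat_lit 21318216422678) (nat_lit 0) (nat_lit 5246915511958) (nat_lit 1) (nat_lit 5) (nat_lit 3) (nat_lit 4) (nat_lit 1) (nat_lit 4) (nat_lit 419) (nat_lit 322) (nat_lit 279)) (XT.nd (nat_lit 78) (nat_lit 0) (nat_lit 0) (XT.lf (nat_lit 0) (nat_lit 6037852436052) (nat_lit 152) (nat_lit 24508207997165) (nat_lit 0) (nat_lit 6037572695641) (nat_lit 1) (nat_lit 5) (nat_lit 3) (nat_lit 4) (nat_lit 1) (nat_lit 4) (nat_lit 420) (nat_lit 322) (nat_lit 278)) (XT.lf (nat_lit 0) (nat_lit 6947106143493) (nat_lit 152) (nat_lit 28176702920249) (nat_lit 0) (nat_lit 6946826325032) (nat_lit 1) (nat_lit 5) (nat_lit 3) (nat_lit 4) (nat_lit 1) (nat_lit 4) (nat_lit 421) (nat_lit 322) (nat_lit 277)))) (XT.nd (nat_lit 156) (nat_lit 0) (nat_lit 0) (XT.nd (nat_lit 78) (nat_lit 0) (nat_lit 0) (XT.lf (nat_lit 0) (nat_lit 7992746031387) (nat_lit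 152) (nat_lit 32395476092599) (nat_lit 0) (nat_lit 7992466145056) (nat_lit 1) (nat_lit 5) (nat_lit 3) (nat_lit 4) (nat_lit 1) (nat_lit 4) (nat_lit 422) (nat_lit 322) (nat_lit 276)) (XT.lf (nat_lit 0) (nat_lit 9195230271451) (nat_lit 152) (nat_lit 37247068728457) (nat_lit 0) (nat_lit 9194950326104) (nat_lit 1) (nat_lit 5) (nat_lit 3) (nat_lit 4) (nat_lit 1) (nat_lit 4) (nat_lit 423) (nat_lit 322) (nat_lit 275))) (XT.nd (nat_lit 78) (nat_lit 0) (nat_lit 0) (XT.lf (nat_lit 0) (nat_lit 10578085729254) (nat_lit 152) (nat_lit 42826403292438) (nat_lit 0) (nat_lit 10577805732588) (nat_lit 1) (nat_lit 5) (nat_lit 3) (nat_lit 4) (nat_lit 1) (nat_lit 4) (nat_lit 424) (nat_lit 322) (nat_lit 274)) (XT.lf (nat_lit 0) (nat_lit 12168368272448) (nat_lit 152) (nat_lit 49242640678184) (nat_lit 0) (nat_lit 12168088231156) (nat_lit 1) (nat_lit 5) (nat_lit 3) (nat_lit 4) (nat_lit 1) (nat_lit 4) (nat_lit 425)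 (nat_lit 322) (nat_lit 273))))))) (XT.nd (nat_lit 1014) (nat_lit 0) (nat_lit 0) (XT.nd (nat_lit 468) (nat_lit 0) (nat_lit 0) (XT.nd (nat_lit 234) (nat_lit 0) (nat_lit 0) (XT.nd (nat_lit 78) (nat_lit 0) (nat_lit 0) (XT.lf (nat_lit 0) (nat_lit 13997192124703) (nat_lit 152) (nat_lit 56621315964982) (nat_lit 0) (nat_lit 13996912044607) (nat_lit 1) (nat_lit 5) (nat_lit 3) (nat_lit 4) (nat_lit 1) (nat_lit 4) (nat_lit 426) (nat_lit 322) (nat_lit 272)) (XT.nd (nat_lit 78) (nat_lit 0) (nat_lit 0) (XT.lf (nat_lit 0) (nat_lit 16100338622259) (nat_lit 152) (nat_lit 65106794538879) (nat_lit 0) (nat_lit 16100058508420) (nat_lit 1) (nat_lit 5) (nat_lit 3) (nat_lit 4) (nat_lit 1) (nat_lit 4) (nat_lit 427) (nat_lit 322) (nat_lit 271)) (XT.lf (nat_lit 0) (nat_lit 18518956283548) (nat_lit 152) (nat_lit 74865096632841) (nat_lit 0) (nat_lit 18518676140367) (nat_lit 1) (nat_lit 5) (nat_lit 3) (nat_lit 4) (nat_lit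 1) (nat_lit 4) (nat_lit 428) (nat_lit 322) (nat_lit 270)))) (XT.nd (nat_lit 78) (nat_lit 0) (nat_lit 0) (XT.lf (nat_lit 0) (nat_lit 21300365888899) (nat_lit 152) (nat_lit 86087145548707) (nat_lit 0) (nat_lit 21300085720203) (nat_lit 1) (nat_lit 5) (nat_lit 3) (nat_lit 4) (nat_lit 1) (nat_lit 4) (nat_lit 429) (nat_lit 322) (nat_lit 269)) (XT.nd (nat_lit 78) (nat_lit 0) (nat_lit 0) (XT.lf (nat_lit 0) (nat_lit 24498986321894) (nat_lit 152) (nat_lit 98992503113092) (nat_lit 0) (nat_lit 24498706131012) (nat_lit 1) (nat_lit 5) (nat_lit 3) (nat_lit 4) (nat_lit 1) (nat_lit 4) (nat_lit 430) (nat_lit 322) (nat_lit 268)) (XT.lf (nat_lit 0) (nat_lit 28177399286657) (nat_lit 152) (nat_lit 113833665452255) (nat_lit 0) (nat_lit 28177119076482) (nat_lit 1) (nat_lit 5) (nat_lit 3) (nat_lit 4) (nat_lit 1) (nat_lit 4) (nat_lit 431) (nat_lit 322) (nat_lit 267))))) (XT.nd (nat_lit 234) (nat_lit 0) (nat_lit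 0) (XT.nd (nat_lit 78) (nat_lit 0) (nat_lit 0) (XT.lf (nat_lit 0) (nat_lit 32407573732500) (nat_lit 152) (nat_lit 130901003133702) (nat_lit 0) (nat_lit 32407293505548) (nat_lit 1) (nat_lit 5) (nat_lit 3) (nat_lit 4) (nat_lit 1) (nat_lit 4) (nat_lit 432) (nat_lit 322) (nat_lit 266)) (XT.nd (nat_lit 78) (nat_lit 0) (nat_lit 0) (XT.lf (nat_lit 0) (nat_lit 37272273942057) (nat_lit 152) (nat_lit 150528442329461) (nat_lit 0) (nat_lit 37271993700518) (nat_lit 1) (nat_lit 5) (nat_lit 3) (nat_lit 4) (nat_lit 1) (nat_lit 4) (nat_lit 433) (nat_lit 322) (nat_lit 265)) (XT.lf (nat_lit 0) (nat_lit 42866678832473) (nat_lit 152) (nat_lit 173099998154231) (nat_lit 0) (nat_lit 42866398578249) (nat_lit 1) (nat_lit 5) (nat_lit 3) (nat_lit 4) (nat_lit 1) (nat_lit 4) (nat_lit 434) (nat_lit 322) (nat_lit 264)))) (XT.nd (nat_lit 156) (nat_lit 0) (nat_lit 0) (XT.nd (nat_lit 78) (nat_lit 0) (nat_lit 0) (XT.lf (nat_lit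 0) (nat_lit 49300244151603) (nat_lit 152) (nat_lit 199057288004586) (nat_lit 0) (nat_lit 49299963886348) (nat_lit 1) (nat_lit 5) (nat_lit 3) (nat_lit 4) (nat_lit 1) (nat_lit 4) (nat_lit 435) (nat_lit 322) (nat_lit 263)) (XT.lf (nat_lit 0) (nat_lit 56698844003518) (nat_lit 152) (nat_lit 228908171899335) (nat_lit 0) (nat_lit 56698563728671) (nat_lit 1) (nat_lit 5) (nat_lit 3) (nat_lit 4) (nat_lit 1) (nat_lit 4) (nat_lit 436) (nat_lit 322) (nat_lit 262))) (XT.nd (nat_lit 78) (nat_lit 0) (nat_lit 0) (XT.lf (nat_lit 0) (nat_lit 65207233602711) (nat_lit 152) (nat_lit 263236688871201) (nat_lit 0) (nat_lit 65206953319524) (nat_lit 1) (nat_lit 5) (nat_lit 3) (nat_lit 4) (nat_lit 1) (nat_lit 4) (nat_lit 437) (nat_lit 322) (nat_lit 261)) (XT.lf (nat_lit 0) (nat_lit 74991881441341) (nat_lit 152) (nat_lit 302714483817462) (nat_lit 0) (nat_lit 74991601150901) (nat_lit 1) (nat_lit 5) (nat_lit 3) (nat_lit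 4) (nat_lit 1) (nat_lit 4) (nat_lit 438) (nat_lit 322) (nat_lit 260)))))) (XT.nd (nat_lit 48282) (nat_lit 0) (nat_lit 152) (XT.nd (nat_lit 48048) (nat_lit 0) (nat_lit 152) (XT.nd (nat_lit 78) (nat_lit 0) (nat_lit 0) (XT.lf (nat_lit 0) (nat_lit 86244226281467) (nat_lit 152) (nat_lit 348113948378369) (nat_lit 0) (nat_lit 86243945984720) (nat_lit 1) (nat_lit 5) (nat_lit 3) (nat_lit 4) (nat_lit 1) (nat_lit 4) (nat_lit 439) (nat_lit 322) (nat_lit 259)) (XT.nd (nat_lit 78) (nat_lit 0) (nat_lit 0) (XT.lf (nat_lit 0) (nat_lit 99184422696050) (nat_lit 152) (nat_lit 400323332947505) (nat_lit 0) (nat_lit 99184142393818) (nat_lit 1) (nat_lit 5) (nat_lit 3) (nat_lit 4) (nat_lit 1) (nat_lit 4) (nat_lit 440) (nat_lit 322) (nat_lit 258)) (XT.lf (nat_lit 0) (nat_lit 114065648441025) (nat_lit 152) (nat_lit 460364125483833) (nat_lit 0) (nat_lit 114065368134024) (nat_lit 1) (nat_lit 5) (nat_lit 3) (nat_lit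 4) (nat_lit 1) (nat_lit 4) (nat_lit 441) (nat_lit 322) (nat_lit 257)))) (XT.nd (nat_lit 78) (nat_lit 76) (nat_lit 0) (XT.lf (nat_lit 0) (nat_lit 11954964624) (nat_lit 152) (nat_lit 9116436441) (nat_lit 0) (nat_lit 11954964624) (nat_lit 4) (nat_lit 5) (nat_lit 6) (nat_lit 4) (nat_lit 4) (nat_lit 4) (nat_lit 374) (nat_lit 323) (nat_lit 323)) (XT.nd (nat_lit 78) (nat_lit 76) (nat_lit 0) (XT.lf (nat_lit 0) (nat_lit 36449828845) (nat_lit 152) (nat_lit 1757892149) (nat_lit 0) (nat_lit 36401470403) (nat_lit 4) (nat_lit 5) (nat_lit 6) (nat_lit 4) (nat_lit 4) (nat_lit 4) (nat_lit 375) (nat_lit 323) (nat_lit 322)) (XT.lf (nat_lit 0) (nat_lit 17076105871) (nat_lit 76) (nat_lit 33736103776) (nat_lit 76) (nat_lit 33645694515) (nat_lit 3) (nat_lit 4) (nat_lit 4) (nat_lit 5) (nat_lit 4) (nat_lit 4) (nat_lit 376) (nat_lit 323) (nat_lit 321))))) (XT.nd (nat_lit 234) (nat_lit 0) (nat_lit 0) (XT.nd (nat_lit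 78) (nat_lit 0) (nat_lit 0) (XT.lf (nat_lit 0) (nat_lit 37374506710) (nat_lit 76) (nat_lit 29316077009) (nat_lit 76) (nat_lit 29189101819) (nat_lit 3) (nat_lit 4) (nat_lit 4) (nat_lit 5) (nat_lit 4) (nat_lit 4) (nat_lit 377) (nat_lit 323) (nat_lit 320)) (XT.nd (nat_lit 78) (nat_lit 0) (nat_lit 0) (XT.lf (nat_lit 0) (nat_lit 59362658986) (nat_lit 76) (nat_lit 24953051727) (nat_lit 76) (nat_lit 24794280076) (nat_lit 3) (nat_lit 4) (nat_lit 4) (nat_lit 5) (nat_lit 4) (nat_lit 4) (nat_lit 378) (nat_lit 323) (nat_lit 319)) (XT.lf (nat_lit 0) (nat_lit 83470765678) (nat_lit 76) (nat_lit 20561664391) (nat_lit 76) (nat_lit 20375243644) (nat_lit 3) (nat_lit 4) (nat_lit 4) (nat_lit 5) (nat_lit 4) (nat_lit 4) (nat_lit 379) (nat_lit 323) (nat_lit 318)))) (XT.nd (nat_lit 156) (nat_lit 0) (nat_lit 0) (XT.nd (nat_lit 78) (nat_lit 0) (nat_lit 0) (XT.lf (nat_lit 0) (nat_lit 110170507135) (nat_lit 76) (nat_lit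 16055996553) (nat_lit 76) (nat_lit 15845533114) (nat_lit 3) (nat_lit 4) (nat_lit 4) (nat_lit 5) (nat_lit 4) (nat_lit 4) (nat_lit 380) (nat_lit 323) (nat_lit 317)) (XT.lf (nat_lit 0) (nat_lit 139984269602) (nat_lit 76) (nat_lit 11347893843) (nat_lit 76) (nat_lit 11116523715) (nat_lit 3) (nat_lit 4) (nat_lit 4) (nat_lit 5) (nat_lit 4) (nat_lit 4) (nat_lit 381) (nat_lit 323) (nat_lit 316))) (XT.nd (nat_lit 78) (nat_lit 0) (nat_lit 0) (XT.lf (nat_lit 0) (nat_lit 173495365824) (nat_lit 76) (nat_lit 6345241207) (nat_lit 76) (nat_lit 6095691349) (nat_lit 3) (nat_lit 4) (nat_lit 4) (nat_lit 5) (nat_lit 4) (nat_lit 4) (nat_lit 382) (nat_lit 323) (nat_lit 315)) (XT.lf (nat_lit 0) (nat_lit 211359447682) (nat_lit 76) (nat_lit 950160659) (nat_lit 76) (nat_lit 684802341) (nat_lit 3) (nat_lit 4) (nat_lit 4) (nat_lit 5) (nat_lit 4) (nat_lit 4) (nat_lit 383) (nat_lit 323) (nat_lit 314))))))))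
noncomputable def xc20 : XT := (XT.nd (nat_lit 1950) (nat_lit 0) (nat_lit 0) (XT.nd (nat_lit 936) (nat_lit 0) (nat_lit 0) (XT.nd (nat_lit 468) (nat_lit 0) (nat_lit 0) (XT.nd (nat_lit 234) (nat_lit 0) (nat_lit 0) (XT.nd (nat_lit 78) (nat_lit 0) (nat_lit 0) (XT.lf (nat_lit 0) (nat_lit 5445827761) (nat_lit 152) (nat_lit 233367723608) (nat_lit 0) (nat_lit 5203127931) (nat_lit 1) (nat_lit 5) (nat_lit 3) (nat_lit 4) (nat_lit 1) (nat_lit 4) (nat_lit 384) (nat_lit 323) (nat_lit 313)) (XT.nd (nat_lit 78) (nat_lit 0) (nat_lit 0) (XT.lf (nat_lit 0) (nat_lit 12273459628) (nat_lit 152) (nat_lit 255416445989) (nat_lit 0) (nat_lit 12020365478) (nat_lit 1) (nat_lit 5) (nat_lit 3) (nat_lit 4) (nat_lit 1) (nat_lit 4) (nat_lit 385) (nat_lit 323) (nat_lit 312)) (XT.lf (nat_lit 0) (nat_lit 19875443691) (nat_lit 152) (nat_lit 281306617611) (nat_lit 0) (nat_lit 19613311002) (nat_lit 1) (nat_lit 5) (nat_lit 3)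 (nat_lit 4) (nat_lit 1) (nat_lit 4) (nat_lit 386) (nat_lit 323) (nat_lit 311)))) (XT.nd (nat_lit 78) (nat_lit 0) (nat_lit 0) (XT.lf (nat_lit 0) (nat_lit 28400514421) (nat_lit 152) (nat_lit 311544785311) (nat_lit 0) (nat_lit 28130522134) (nat_lit 1) (nat_lit 5) (nat_lit 3) (nat_lit 4) (nat_lit 1) (nat_lit 4) (nat_lit 387) (nat_lit 323) (nat_lit 310)) (XT.nd (nat_lit 78) (nat_lit 0) (nat_lit 0) (XT.lf (nat_lit 0) (nat_lit 38015466682) (nat_lit 152) (nat_lit 346722565413) (nat_lit 0) (nat_lit 37738639961) (nat_lit 1) (nat_lit 5) (nat_lit 3) (nat_lit 4) (nat_lit 1) (nat_lit 4) (nat_lit 388) (nat_lit 323) (nat_lit 309)) (XT.lf (nat_lit 0) (nat_lit 48908419103) (nat_lit 152) (nat_lit 387528218833) (nat_lit 0) (nat_lit 48625649397) (nat_lit 1) (nat_lit 5) (nat_lit 3) (nat_lit 4) (nat_lit 1) (nat_lit 4) (nat_lit 389) (nat_lit 323) (nat_lit 308))))) (XT.nd (nat_lit 234) (nat_lit 0) (nat_lit 0) (XT.nd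 (nat_lit 78) (nat_lit 0) (nat_lit 0) (XT.lf (nat_lit 0) (nat_lit 61292494668) (nat_lit 152) (nat_lit 434760117050) (nat_lit 0) (nat_lit 61004557147) (nat_lit 1) (nat_lit 5) (nat_lit 3) (nat_lit 4) (nat_lit 1) (nat_lit 4) (nat_lit 390) (nat_lit 323) (nat_lit 307)) (XT.nd (nat_lit 78) (nat_lit 0) (nat_lit 0) (XT.lf (nat_lit 0) (nat_lit 75409990506) (nat_lit 152) (nat_lit 489342362421) (nat_lit 0) (nat_lit 75117559234) (nat_lit 1) (nat_lit 5) (nat_lit 3) (nat_lit 4) (nat_lit 1) (nat_lit 4) (nat_lit 391) (nat_lit 323) (nat_lit 306)) (XT.lf (nat_lit 0) (nat_lit 91537118492) (nat_lit 152) (nat_lit 552342868442) (nat_lit 0) (nat_lit 91240779611) (nat_lit 1) (nat_lit 5) (nat_lit 3) (nat_lit 4) (nat_lit 1) (nat_lit 4) (nat_lit 392) (nat_lit 323) (nat_lit 305)))) (XT.nd (nat_lit 78) (nat_lit 0) (nat_lit 0) (XT.lf (nat_lit 0) (nat_lit 109989409393) (nat_lit 152) (nat_lit 624994253710) (nat_lit 0)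 (nat_lit 109689672590) (nat_lit 1) (nat_lit 5) (nat_lit 3) (nat_lit 4) (nat_lit 1) (nat_lit 4) (nat_lit 393) (nat_lit 323) (nat_lit 304)) (XT.nd (nat_lit 78) (nat_lit 0) (nat_lit 0) (XT.lf (nat_lit 0) (nat_lit 131127886290) (nat_lit 152) (nat_lit 708717958370) (nat_lit 0) (nat_lit 130825194773) (nat_lit 1) (nat_lit 5) (nat_lit 3) (nat_lit 4) (nat_lit 1) (nat_lit 4) (nat_lit 394) (nat_lit 323) (nat_lit 303)) (XT.lf (nat_lit 0) (nat_lit 155366128079) (nat_lit 152) (nat_lit 805152054905) (nat_lit 0) (nat_lit 155060867246) (nat_lit 1) (nat_lit 5) (nat_lit 3) (nat_lit 4) (nat_lit 1) (nat_lit 4) (nat_lit 395) (nat_lit 323) (nat_lit 302)))))) (XT.nd (nat_lit 468) (nat_lit 0) (nat_lit 0) (XT.nd (nat_lit 234) (nat_lit 0) (nat_lit 0) (XT.nd (nat_lit 78) (nat_lit 0) (nat_lit 0) (XT.lf (nat_lit 0) (nat_lit 183178361231) (nat_lit 152) (nat_lit 916183297379) (nat_lit 0) (nat_lit 182870866209) (nat_lit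 1) (nat_lit 5) (nat_lit 3) (nat_lit 4) (nat_lit 1) (nat_lit 4) (nat_lit 396) (nat_lit 323) (nat_lit 301)) (XT.nd (nat_lit 78) (nat_lit 0) (nat_lit 0) (XT.lf (nat_lit 0) (nat_lit 215108738132) (nat_lit 152) (nat_lit 1043984036186) (nat_lit 0) (nat_lit 214799300337) (nat_lit 1) (nat_lit 5) (nat_lit 3) (nat_lit 4) (nat_lit 1) (nat_lit 4) (nat_lit 397) (nat_lit 323) (nat_lit 300)) (XT.lf (nat_lit 0) (nat_lit 251781983549) (nat_lit 152) (nat_lit 1191054720566) (nat_lit 0) (nat_lit 251470856387) (nat_lit 1) (nat_lit 5) (nat_lit 3) (nat_lit 4) (nat_lit 1) (nat_lit 4) (nat_lit 398) (nat_lit 323) (nat_lit 299)))) (XT.nd (nat_lit 78) (nat_lit 0) (nat_lit 0) (XT.lf (nat_lit 0) (nat_lit 293915617500) (nat_lit 152) (nat_lit 1360272820429) (nat_lit 0) (nat_lit 293603021322) (nat_lit 1) (nat_lit 5) (nat_lit 3) (nat_lit 4) (nat_lit 1) (nat_lit 4) (nat_lit 399) (nat_lit 323) (nat_lit 298)) (XT.nd (nat_lit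 78) (nat_lit 0) (nat_lit 0) (XT.lf (nat_lit 0) (nat_lit 342333993693) (nat_lit 152) (nat_lit 1554949124685) (nat_lit 0) (nat_lit 342020120111) (nat_lit 1) (nat_lit 5) (nat_lit 3) (nat_lit 4) (nat_lit 1) (nat_lit 4) (nat_lit 400) (nat_lit 323) (nat_lit 297)) (XT.lf (nat_lit 0) (nat_lit 397984428184) (nat_lit 152) (nat_lit 1778892517549) (nat_lit 0) (nat_lit 397669443816) (nat_lit 1) (nat_lit 5) (nat_lit 3) (nat_lit 4) (nat_lit 1) (nat_lit 4) (nat_lit 401) (nat_lit 323) (nat_lit 296))))) (XT.nd (nat_lit 234) (nat_lit 0) (nat_lit 0) (XT.nd (nat_lit 78) (nat_lit 0) (nat_lit 0) (XT.lf (nat_lit 0) (nat_lit 461955733822) (nat_lit 152) (nat_lit 2036484500186) (nat_lit 0) (nat_lit 461639783552) (nat_lit 1) (nat_lit 5) (nat_lit 3) (nat_lit 4) (nat_lit 1) (nat_lit 4) (nat_lit 402) (nat_lit 323) (nat_lit 295)) (XT.nd (nat_lit 78) (nat_lit 0) (nat_lit 0) (XT.lf (nat_lit 0) (nat_lit 535499523108) (nat_lit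 152) (nat_lit 2332764915733) (nat_lit 0) (nat_lit 535182732925) (nat_lit 1) (nat_lit 5) (nat_lit 3) (nat_lit 4) (nat_lit 1) (nat_lit 4) (nat_lit 403) (nat_lit 323) (nat_lit 294)) (XT.lf (nat_lit 0) (nat_lit 620054696268) (nat_lit 152) (nat_lit 2673530554930) (nat_lit 0) (nat_lit 619737175724) (nat_lit 1) (nat_lit 5) (nat_lit 3) (nat_lit 4) (nat_lit 1) (nat_lit 4) (nat_lit 404) (nat_lit 323) (nat_lit 293)))) (XT.nd (nat_lit 156) (nat_lit 0) (nat_lit 0) (XT.nd (nat_lit 78) (nat_lit 0) (nat_lit 0) (XT.lf (nat_lit 0) (nat_lit 717275593646) (nat_lit 152) (nat_lit 3065448571587) (nat_lit 0) (nat_lit 716957438006) (nat_lit 1) (nat_lit 5) (nat_lit 3) (nat_lit 4) (nat_lit 1) (nat_lit 4) (nat_lit 405) (nat_lit 323) (nat_lit 292)) (XT.lf (nat_lit 0) (nat_lit 829064363234) (nat_lit 152) (nat_lit 3516186926899) (nat_lit 0) (nat_lit 828745655337) (nat_lit 1) (nat_lit 5) (nat_lit 3) (nat_lit 4) (nat_lit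 1) (nat_lit 4) (nat_lit 406) (nat_lit 323) (nat_lit 291))) (XT.nd (nat_lit 78) (nat_lit 0) (nat_lit 0) (XT.lf (nat_lit 0) (nat_lit 957608176612) (nat_lit 152) (nat_lit 4034564414776) (nat_lit 0) (nat_lit 957288988491) (nat_lit 1) (nat_lit 5) (nat_lit 3) (nat_lit 4) (nat_lit 1) (nat_lit 4) (nat_lit 407) (nat_lit 323) (nat_lit 290)) (XT.lf (nat_lit 0) (nat_lit 1105422021431) (nat_lit 152) (nat_lit 4630723203457) (nat_lit 0) (nat_lit 1105102415725) (nat_lit 1) (nat_lit 5) (nat_lit 3) (nat_lit 4) (nat_lit 1) (nat_lit 4) (nat_lit 408) (nat_lit 323) (nat_lit 289))))))) (XT.nd (nat_lit 1014) (nat_lit 0) (nat_lit 0) (XT.nd (nat_lit 468) (nat_lit 0) (nat_lit 0) (XT.nd (nat_lit 234) (nat_lit 0) (nat_lit 0) (XT.nd (nat_lit 78) (nat_lit 0) (nat_lit 0) (XT.lf (nat_lit 0) (nat_lit 1275397907700) (nat_lit 152) (nat_lit 5316327269244) (nat_lit 0) (nat_lit 1275077938875) (nat_lit 1) (nat_lit 5) (nat_lit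 3) (nat_lit 4) (nat_lit 1) (nat_lit 4) (nat_lit 409) (nat_lit 323) (nat_lit 288)) (XT.nd (nat_lit 78) (nat_lit 0) (nat_lit 0) (XT.lf (nat_lit 0) (nat_lit 1470861450584) (nat_lit 152) (nat_lit 6104790604728) (nat_lit 0) (nat_lit 1470541166005) (nat_lit 1) (nat_lit 5) (nat_lit 3) (nat_lit 4) (nat_lit 1) (nat_lit 4) (nat_lit 410) (nat_lit 323) (nat_lit 287)) (XT.lf (nat_lit 0) (nat_lit 1695636936793) (nat_lit 152) (nat_lit 7011539666472) (nat_lit 0) (nat_lit 1695316377644) (nat_lit 1) (nat_lit 5) (nat_lit 3) (nat_lit 4) (nat_lit 1) (nat_lit 4) (nat_lit 411) (nat_lit 323) (nat_lit 286)))) (XT.nd (nat_lit 78) (nat_lit 0) (nat_lit 0) (XT.lf (nat_lit 0) (nat_lit 1954122147578) (nat_lit 152) (nat_lit 8054315196989) (nat_lit 0) (nat_lit 1953801349673) (nat_lit 1) (nat_lit 5) (nat_lit 3) (nat_lit 4) (nat_lit 1) (nat_lit 4) (nat_lit 412) (nat_lit 323) (nat_lit 285)) (XT.nd (nat_lit 78) (nat_lit 0)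 (nat_lit 0) (XT.lf (nat_lit 0) (nat_lit 2251374402280) (nat_lit 152) (nat_lit 9253519326224) (nat_lit 0) (nat_lit 2251053396761) (nat_lit 1) (nat_lit 5) (nat_lit 3) (nat_lit 4) (nat_lit 1) (nat_lit 4) (nat_lit 413) (nat_lit 323) (nat_lit 284)) (XT.lf (nat_lit 0) (nat_lit 2593209505883) (nat_lit 152) (nat_lit 10632614743661) (nat_lit 0) (nat_lit 2592888319830) (nat_lit 1) (nat_lit 5) (nat_lit 3) (nat_lit 4) (nat_lit 1) (nat_lit 4) (nat_lit 414) (nat_lit 323) (nat_lit 283))))) (XT.nd (nat_lit 234) (nat_lit 0) (nat_lit 0) (XT.nd (nat_lit 78) (nat_lit 0) (nat_lit 0) (XT.lf (nat_lit 0) (nat_lit 2986315536501) (nat_lit 152) (nat_lit 12218583750947) (nat_lit 0) (nat_lit 2985994193462) (nat_lit 1) (nat_lit 5) (nat_lit 3) (nat_lit 4) (nat_lit 1) (nat_lit 4) (nat_lit 415) (nat_lit 323) (nat_lit 282)) (XT.nd (nat_lit 78) (nat_lit 0) (nat_lit 0) (XT.lf (nat_lit 0) (nat_lit 3438383699080) (nat_lit 152)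 (nat_lit 14042456176485) (nat_lit 0) (nat_lit 3438062219532) (nat_lit 1) (nat_lit 5) (nat_lit 3) (nat_lit 4) (nat_lit 1) (nat_lit 4) (nat_lit 416) (nat_lit 323) (nat_lit 281)) (XT.lf (nat_lit 0) (nat_lit 3958258805498) (nat_lit 152) (nat_lit 16139916480775) (nat_lit 0) (nat_lit 3957937207246) (nat_lit 1) (nat_lit 5) (nat_lit 3) (nat_lit 4) (nat_lit 1) (nat_lit 4) (nat_lit 417) (nat_lit 323) (nat_lit 280)))) (XT.nd (nat_lit 156) (nat_lit 0) (nat_lit 0) (XT.nd (nat_lit 78) (nat_lit 0) (nat_lit 0) (XT.lf (nat_lit 0) (nat_lit 4556112325228) (nat_lit 152) (nat_lit 18552001930638) (nat_lit 0) (nat_lit 4555790623755) (nat_lit 1) (nat_lit 5) (nat_lit 3) (nat_lit 4) (nat_lit 1) (nat_lit 4) (nat_lit 418) (nat_lit 323) (nat_lit 279)) (XT.lf (nat_lit 0) (nat_lit 5243641392350) (nat_lit 152) (nat_lit 21325905502270) (nat_lit 0) (nat_lit 5243319601120) (nat_lit 1) (nat_lit 5) (nat_lit 3) (nat_lit 4)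 (nat_lit 1) (nat_lit 4) (nat_lit 419) (nat_lit 323) (nat_lit 278))) (XT.nd (nat_lit 78) (nat_lit 0) (nat_lit 0) (XT.lf (nat_lit 0) (nat_lit 6034297662528) (nat_lit 152) (nat_lit 24515899222070) (nat_lit 0) (nat_lit 6033975793247) (nat_lit 1) (nat_lit 5) (nat_lit 3) (nat_lit 4) (nat_lit 1) (nat_lit 4) (nat_lit 420) (nat_lit 323) (nat_lit 277)) (XT.lf (nat_lit 0) (nat_lit 6943550497567) (nat_lit 152) (nat_lit 28184396010644) (nat_lit 0) (nat_lit 6943228560417) (nat_lit 1) (nat_lit 5) (nat_lit 3) (nat_lit 4) (nat_lit 1) (nat_lit 4) (nat_lit 421) (nat_lit 323) (nat_lit 276)))))) (XT.nd (nat_lit 468) (nat_lit 0) (nat_lit 0) (XT.nd (nat_lit 234) (nat_lit 0) (nat_lit 0) (XT.nd (nat_lit 78) (nat_lit 0) (nat_lit 0) (XT.lf (nat_lit 0) (nat_lit 7989189626850) (nat_lit 152) (nat_lit 32403170805159) (nat_lit 0) (nat_lit 7988867630683) (nat_lit 1) (nat_lit 5) (nat_lit 3) (nat_lit 4) (nat_lit 1) (nat_lit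 4) (nat_lit 422) (nat_lit 323) (nat_lit 275)) (XT.nd (nat_lit 78) (nat_lit 0) (nat_lit 0) (XT.lf (nat_lit 0) (nat_lit 9191673207253) (nat_lit 152) (nat_lit 37254764851596) (nat_lit 0) (nat_lit 9191351159768) (nat_lit 1) (nat_lit 5) (nat_lit 3) (nat_lit 4) (nat_lit 1) (nat_lit 4) (nat_lit 423) (nat_lit 323) (nat_lit 274)) (XT.lf (nat_lit 0) (nat_lit 10574528091437) (nat_lit 152) (nat_lit 42834100642167) (nat_lit 0) (nat_lit 10574205999327) (nat_lit 1) (nat_lit 5) (nat_lit 3) (nat_lit 4) (nat_lit 1) (nat_lit 4) (nat_lit 424) (nat_lit 323) (nat_lit 273)))) (XT.nd (nat_lit 78) (nat_lit 0) (nat_lit 0) (XT.lf (nat_lit 0) (nat_lit 12164810135832) (nat_lit 152) (nat_lit 49250339094513) (nat_lit 0) (nat_lit 12164488004917) (nat_lit 1) (nat_lit 5) (nat_lit 3) (nat_lit 4) (nat_lit 1) (nat_lit 4) (nat_lit 425) (nat_lit 323) (nat_lit 272)) (XT.nd (nat_lit 78) (nat_lit 0) (nat_lit 0) (XT.lf (nat_lit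 0) (nat_lit 13993633554349) (nat_lit 152) (nat_lit 56629015308790) (nat_lit 0) (nat_lit 13993311389691) (nat_lit 1) (nat_lit 5) (nat_lit 3) (nat_lit 4) (nat_lit 1) (nat_lit 4) (nat_lit 426) (nat_lit 323) (nat_lit 271)) (XT.lf (nat_lit 0) (nat_lit 16096779674743) (nat_lit 152) (nat_lit 65114494689189) (nat_lit 0) (nat_lit 16096457480743) (nat_lit 1) (nat_lit 5) (nat_lit 3) (nat_lit 4) (nat_lit 1) (nat_lit 4) (nat_lit 427) (nat_lit 323) (nat_lit 270))))) (XT.nd (nat_lit 234) (nat_lit 0) (nat_lit 0) (XT.nd (nat_lit 78) (nat_lit 0) (nat_lit 0) (XT.lf (nat_lit 0) (nat_lit 18515397008063) (nat_lit 152) (nat_lit 74872797484458) (nat_lit 0) (nat_lit 18515074788549) (nat_lit 1) (nat_lit 5) (nat_lit 3) (nat_lit 4) (nat_lit 1) (nat_lit 4) (nat_lit 428) (nat_lit 323) (nat_lit 269)) (XT.nd (nat_lit 78) (nat_lit 0) (nat_lit 0) (XT.lf (nat_lit 0) (nat_lit 21296806328224) (nat_lit 152) (nat_lit 86094847010156)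 (nat_lit 0) (nat_lit 21296484086523) (nat_lit 1) (nat_lit 5) (nat_lit 3) (nat_lit 4) (nat_lit 1) (nat_lit 4) (nat_lit 429) (nat_lit 323) (nat_lit 268)) (XT.lf (nat_lit 0) (nat_lit 24495426513228) (nat_lit 152) (nat_lit 99000205104829) (nat_lit 0) (nat_lit 24495104252234) (nat_lit 1) (nat_lit 5) (nat_lit 3) (nat_lit 4) (nat_lit 1) (nat_lit 4) (nat_lit 430) (nat_lit 323) (nat_lit 267)))) (XT.nd (nat_lit 156) (nat_lit 0) (nat_lit 0) (XT.nd (nat_lit 78) (nat_lit 0) (nat_lit 0) (XT.lf (nat_lit 0) (nat_lit 28173839262347) (nat_lit 152) (nat_lit 113841367905113) (nat_lit 0) (nat_lit 28173516984577) (nat_lit 1) (nat_lit 5) (nat_lit 3) (nat_lit 4) (nat_lit 1) (nat_lit 4) (nat_lit 431) (nat_lit 323) (nat_lit 266)) (XT.lf (nat_lit 0) (nat_lit 32404013520672) (nat_lit 152) (nat_lit 130908705987534) (nat_lit 0) (nat_lit 32403691228314) (nat_lit 1) (nat_lit 5) (nat_lit 3) (nat_lit 4) (nat_lit 1) (nat_lit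 4) (nat_lit 432) (nat_lit 323) (nat_lit 265))) (XT.nd (nat_lit 78) (nat_lit 0) (nat_lit 0) (XT.lf (nat_lit 0) (nat_lit 37268713567171) (nat_lit 152) (nat_lit 150536145531967) (nat_lit 0) (nat_lit 37268391262128) (nat_lit 1) (nat_lit 5) (nat_lit 3) (nat_lit 4) (nat_lit 1) (nat_lit 4) (nat_lit 433) (nat_lit 323) (nat_lit 264)) (XT.lf (nat_lit 0) (nat_lit 42863118315798) (nat_lit 152) (nat_lit 173107701659932) (nat_lit 0) (nat_lit 42862795999723) (nat_lit 1) (nat_lit 5) (nat_lit 3) (nat_lit 4) (nat_lit 1) (nat_lit 4) (nat_lit 434) (nat_lit 323) (nat_lit 263))))))))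
noncomputable def xc21 : XT := (XT.nd (nat_lit 49530) (nat_lit 0) (nat_lit 0) (XT.nd (nat_lit 48516) (nat_lit 0) (nat_lit 0) (XT.nd (nat_lit 468) (nat_lit 0) (nat_lit 0) (XT.nd (nat_lit 234) (nat_lit 0) (nat_lit 0) (XT.nd (nat_lit 78) (nat_lit 0) (nat_lit 0) (XT.lf (nat_lit 0) (nat_lit 49296683511632) (nat_lit 152) (nat_lit 199064991773933) (nat_lit 0) (nat_lit 49296361185967) (nat_lit 1) (nat_lit 5) (nat_lit 3) (nat_lit 4) (nat_lit 1) (nat_lit 4) (nat_lit 435) (nat_lit 323) (nat_lit 262)) (XT.nd (nat_lit 78) (nat_lit 0) (nat_lit 0) (XT.lf (nat_lit 0) (nat_lit 56695283256334) (nat_lit 152) (nat_lit 228915875897941) (nat_lit 0) (nat_lit 56694960922327) (nat_lit 1) (nat_lit 5) (nat_lit 3) (nat_lit 4) (nat_lit 1) (nat_lit 4) (nat_lit 436) (nat_lit 323) (nat_lit 261)) (XT.lf (nat_lit 0) (nat_lit 65203672762298) (nat_lit 152) (nat_lit 263244393069162) (nat_lit 0) (nat_lit 65203350421039) (nat_lit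 1) (nat_lit 5) (nat_lit 3) (nat_lit 4) (nat_lit 1) (nat_lit 4) (nat_lit 437) (nat_lit 323) (nat_lit 260)))) (XT.nd (nat_lit 78) (nat_lit 0) (nat_lit 0) (XT.lf (nat_lit 0) (nat_lit 74988320519859) (nat_lit 152) (nat_lit 302722188188776) (nat_lit 0) (nat_lit 74987998172293) (nat_lit 1) (nat_lit 5) (nat_lit 3) (nat_lit 4) (nat_lit 1) (nat_lit 4) (nat_lit 438) (nat_lit 323) (nat_lit 259)) (XT.nd (nat_lit 78) (nat_lit 0) (nat_lit 0) (XT.lf (nat_lit 0) (nat_lit 86240665289491) (nat_lit 152) (nat_lit 348121652900423) (nat_lit 0) (nat_lit 86240342936441) (nat_lit 1) (nat_lit 5) (nat_lit 3) (nat_lit 4) (nat_lit 1) (nat_lit 4) (nat_lit 439) (nat_lit 323) (nat_lit 258)) (XT.lf (nat_lit 0) (nat_lit 99180861642773) (nat_lit 152) (nat_lit 400331037600639) (nat_lit 0) (nat_lit 99180539284955) (nat_lit 1) (nat_lit 5) (nat_lit 3) (nat_lit 4) (nat_lit 1) (nat_lit 4) (nat_lit 440) (nat_lit 323) (nat_lit 257)))))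 (XT.nd (nat_lit 47814) (nat_lit 0) (nat_lit 228) (XT.nd (nat_lit 78) (nat_lit 0) (nat_lit 0) (XT.lf (nat_lit 0) (nat_lit 114062087334445) (nat_lit 152) (nat_lit 460371830250949) (nat_lit 0) (nat_lit 114061764972479) (nat_lit 1) (nat_lit 5) (nat_lit 3) (nat_lit 4) (nat_lit 1) (nat_lit 4) (nat_lit 441) (nat_lit 323) (nat_lit 256)) (XT.nd (nat_lit 47658) (nat_lit 0) (nat_lit 228) (XT.lf (nat_lit 0) (nat_lit 131175496780211) (nat_lit 152) (nat_lit 529418742011900) (nat_lit 0) (nat_lit 131175174414640) (nat_lit 1) (nat_lit 5) (nat_lit 3) (nat_lit 4) (nat_lit 1) (nat_lit 4) (nat_lit 442) (nat_lit 323) (nat_lit 255)) (XT.lf (nat_lit 0) (nat_lit 869247973) (nat_lit 152) (nat_lit 24470784499) (nat_lit 0) (nat_lit 869247973) (nat_lit 4) (nat_lit 5) (nat_lit 6) (nat_lit 4) (nat_lit 4) (nat_lit 4) (nat_lit 372) (nat_lit 324) (nat_lit 324)))) (XT.nd (nat_lit 78) (nat_lit 0) (nat_lit 0) (XT.lf (nat_lit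 0) (nat_lit 12295692077) (nat_lit 152) (nat_lit 34191405934) (nat_lit 0) (nat_lit 12240079869) (nat_lit 4) (nat_lit 5) (nat_lit 6) (nat_lit 4) (nat_lit 4) (nat_lit 4) (nat_lit 373) (nat_lit 324) (nat_lit 323)) (XT.nd (nat_lit 78) (nat_lit 0) (nat_lit 0) (XT.lf (nat_lit 0) (nat_lit 23556040438) (nat_lit 152) (nat_lit 19106050685) (nat_lit 0) (nat_lit 23452069788) (nat_lit 4) (nat_lit 5) (nat_lit 6) (nat_lit 4) (nat_lit 4) (nat_lit 4) (nat_lit 374) (nat_lit 324) (nat_lit 322)) (XT.lf (nat_lit 0) (nat_lit 35739852191) (nat_lit 152) (nat_lit 3390354998) (nat_lit 0) (nat_lit 35593830723) (nat_lit 4) (nat_lit 5) (nat_lit 6) (nat_lit 4) (nat_lit 4) (nat_lit 4) (nat_lit 375) (nat_lit 324) (nat_lit 321)))))) (XT.nd (nat_lit 468) (nat_lit 152) (nat_lit 0) (XT.nd (nat_lit 234) (nat_lit 0) (nat_lit 0) (XT.nd (nat_lit 78) (nat_lit 0) (nat_lit 0) (XT.lf (nat_lit 0) (nat_lit 14559334791) (nat_lit 76)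 (nat_lit 35129042477) (nat_lit 76) (nat_lit 34946455079) (nat_lit 3) (nat_lit 4) (nat_lit 4) (nat_lit 5) (nat_lit 4) (nat_lit 4) (nat_lit 376) (nat_lit 324) (nat_lit 320)) (XT.nd (nat_lit 78) (nat_lit 0) (nat_lit 0) (XT.lf (nat_lit 0) (nat_lit 34227499030) (nat_lit 76) (nat_lit 31043901990) (nat_lit 76) (nat_lit 30829518131) (nat_lit 3) (nat_lit 4) (nat_lit 4) (nat_lit 5) (nat_lit 4) (nat_lit 4) (nat_lit 377) (nat_lit 324) (nat_lit 319)) (XT.lf (nat_lit 0) (nat_lit 55667619480) (nat_lit 76) (nat_lit 26972082167) (nat_lit 76) (nat_lit 26730049212) (nat_lit 3) (nat_lit 4) (nat_lit 4) (nat_lit 5) (nat_lit 4) (nat_lit 4) (nat_lit 378) (nat_lit 324) (nat_lit 318)))) (XT.nd (nat_lit 78) (nat_lit 0) (nat_lit 0) (XT.lf (nat_lit 0) (nat_lit 79299176759) (nat_lit 76) (nat_lit 22833916970) (nat_lit 76) (nat_lit 22567841323) (nat_lit 3) (nat_lit 4) (nat_lit 4) (nat_lit 5) (nat_lit 4) (nat_lit 4) (nat_lit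 379) (nat_lit 324) (nat_lit 317)) (XT.nd (nat_lit 78) (nat_lit 0) (nat_lit 0) (XT.lf (nat_lit 0) (nat_lit 105584527421) (nat_lit 76) (nat_lit 18548442296) (nat_lit 76) (nat_lit 18261459960) (nat_lit 3) (nat_lit 4) (nat_lit 4) (nat_lit 5) (nat_lit 4) (nat_lit 4) (nat_lit 380) (nat_lit 324) (nat_lit 316)) (XT.lf (nat_lit 0) (nat_lit 135037950067) (nat_lit 76) (nat_lit 14031811903) (nat_lit 76) (nat_lit 13726649837) (nat_lit 3) (nat_lit 4) (nat_lit 4) (nat_lit 5) (nat_lit 4) (nat_lit 4) (nat_lit 381) (nat_lit 324) (nat_lit 315))))) (XT.nd (nat_lit 234) (nat_lit 0) (nat_lit 0) (XT.nd (nat_lit 78) (nat_lit 152) (nat_lit 0) (XT.lf (nat_lit 0) (nat_lit 168235707314) (nat_lit 76) (nat_lit 9195656933) (nat_lit 76) (nat_lit 8874686408) (nat_lit 3) (nat_lit 4) (nat_lit 4) (nat_lit 5) (nat_lit 4) (nat_lit 4) (nat_lit 382) (nat_lit 324) (nat_lit 314)) (XT.nd (nat_lit 78) (nat_lit 152) (nat_lit 0) (XT.lf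 (nat_lit 0) (nat_lit 205827320498) (nat_lit 76) (nat_lit 3945356966) (nat_lit 76) (nat_lit 3610639953) (nat_lit 3) (nat_lit 4) (nat_lit 4) (nat_lit 5) (nat_lit 4) (nat_lit 4) (nat_lit 383) (nat_lit 324) (nat_lit 313)) (XT.lf (nat_lit 0) (nat_lit 2240879772) (nat_lit 152) (nat_lit 240324391227) (nat_lit 0) (nat_lit 1939427181) (nat_lit 1) (nat_lit 5) (nat_lit 3) (nat_lit 4) (nat_lit 1) (nat_lit 4) (nat_lit 384) (nat_lit 324) (nat_lit 312)))) (XT.nd (nat_lit 156) (nat_lit 0) (nat_lit 0) (XT.nd (nat_lit 78) (nat_lit 0) (nat_lit 0) (XT.lf (nat_lit 0) (nat_lit 8952329042) (nat_lit 152) (nat_lit 262621551229) (nat_lit 0) (nat_lit 8641837912) (nat_lit 1) (nat_lit 5) (nat_lit 3) (nat_lit 4) (nat_lit 1) (nat_lit 4) (nat_lit 385) (nat_lit 324) (nat_lit 311)) (XT.lf (nat_lit 0) (nat_lit 16453284760) (nat_lit 152) (nat_lit 288727755564) (nat_lit 0) (nat_lit 16134934031) (nat_lit 1) (nat_lit 5) (nat_lit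 3) (nat_lit 4) (nat_lit 1) (nat_lit 4) (nat_lit 386) (nat_lit 324) (nat_lit 310))) (XT.nd (nat_lit 78) (nat_lit 0) (nat_lit 0) (XT.lf (nat_lit 0) (nat_lit 24890504756) (nat_lit 152) (nat_lit 319153777798) (nat_lit 0) (nat_lit 24565319594) (nat_lit 1) (nat_lit 5) (nat_lit 3) (nat_lit 4) (nat_lit 1) (nat_lit 4) (nat_lit 387) (nat_lit 324) (nat_lit 309)) (XT.lf (nat_lit 0) (nat_lit 34429065073) (nat_lit 152) (nat_lit 354494909669) (nat_lit 0) (nat_lit 34097936925) (nat_lit 1) (nat_lit 5) (nat_lit 3) (nat_lit 4) (nat_lit 1) (nat_lit 4) (nat_lit 388) (nat_lit 324) (nat_lit 308))))))) (XT.nd (nat_lit 1014) (nat_lit 0) (nat_lit 0) (XT.nd (nat_lit 468) (nat_lit 0) (nat_lit 0) (XT.nd (nat_lit 234) (nat_lit 0) (nat_lit 0) (XT.nd (nat_lit 78) (nat_lit 0) (nat_lit 0) (XT.lf (nat_lit 0) (nat_lit 45255589718) (nat_lit 152) (nat_lit 395442608105) (nat_lit 0) (nat_lit 44919293756) (nat_lit 1) (nat_lit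 5) (nat_lit 3) (nat_lit 4) (nat_lit 1) (nat_lit 4) (nat_lit 389) (nat_lit 324) (nat_lit 307)) (XT.nd (nat_lit 78) (nat_lit 0) (nat_lit 0) (XT.lf (nat_lit 0) (nat_lit 57581901998) (nat_lit 152) (nat_lit 442798023727) (nat_lit 0) (nat_lit 57241112285) (nat_lit 1) (nat_lit 5) (nat_lit 3) (nat_lit 4) (nat_lit 1) (nat_lit 4) (nat_lit 390) (nat_lit 324) (nat_lit 306)) (XT.lf (nat_lit 0) (nat_lit 71649168893) (nat_lit 152) (nat_lit 497487675537) (nat_lit 0) (nat_lit 71304471570) (nat_lit 1) (nat_lit 5) (nat_lit 3) (nat_lit 4) (nat_lit 1) (nat_lit 4) (nat_lit 391) (nat_lit 324) (nat_lit 305)))) (XT.nd (nat_lit 78) (nat_lit 0) (nat_lit 0) (XT.lf (nat_lit 0) (nat_lit 87732619538) (nat_lit 152) (nat_lit 560581578462) (nat_lit 0) (nat_lit 87384524294) (nat_lit 1) (nat_lit 5) (nat_lit 3) (nat_lit 4) (nat_lit 1) (nat_lit 4) (nat_lit 392) (nat_lit 324) (nat_lit 304)) (XT.nd (nat_lit 78) (nat_lit 0) (nat_lit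 0) (XT.lf (nat_lit 0) (nat_lit 106146930142) (nat_lit 152) (nat_lit 633314178429) (nat_lit 0) (nat_lit 105795880183) (nat_lit 1) (nat_lit 5) (nat_lit 3) (nat_lit 4) (nat_lit 1) (nat_lit 4) (nat_lit 393) (nat_lit 324) (nat_lit 303)) (XT.lf (nat_lit 0) (nat_lit 127252380693) (nat_lit 152) (nat_lit 717108504566) (nat_lit 0) (nat_lit 126898761418) (nat_lit 1) (nat_lit 5) (nat_lit 3) (nat_lit 4) (nat_lit 1) (nat_lit 4) (nat_lit 394) (nat_lit 324) (nat_lit 302))))) (XT.nd (nat_lit 234) (nat_lit 0) (nat_lit 0) (XT.nd (nat_lit 78) (nat_lit 0) (nat_lit 0) (XT.lf (nat_lit 0) (nat_lit 151461903922) (nat_lit 152) (nat_lit 813604011082) (nat_lit 0) (nat_lit 151106050458) (nat_lit 1) (nat_lit 5) (nat_lit 3) (nat_lit 4) (nat_lit 1) (nat_lit 4) (nat_lit 395) (nat_lit 324) (nat_lit 301)) (XT.nd (nat_lit 78) (nat_lit 0) (nat_lit 0) (XT.lf (nat_lit 0) (nat_lit 179249164411) (nat_lit 152) (nat_lit 924688653538)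 (nat_lit 0) (nat_lit 178891368175) (nat_lit 1) (nat_lit 5) (nat_lit 3) (nat_lit 4) (nat_lit 1) (nat_lit 4) (nat_lit 396) (nat_lit 324) (nat_lit 300)) (XT.lf (nat_lit 0) (nat_lit 211157825955) (nat_lit 152) (nat_lit 1052535827114) (nat_lit 0) (nat_lit 210798340351) (nat_lit 1) (nat_lit 5) (nat_lit 3) (nat_lit 4) (nat_lit 1) (nat_lit 4) (nat_lit 397) (nat_lit 324) (nat_lit 299)))) (XT.nd (nat_lit 156) (nat_lit 0) (nat_lit 0) (XT.nd (nat_lit 78) (nat_lit 0) (nat_lit 0) (XT.lf (nat_lit 0) (nat_lit 247812188451) (nat_lit 152) (nat_lit 1199646889552) (nat_lit 0) (nat_lit 247451233832) (nat_lit 1) (nat_lit 5) (nat_lit 3) (nat_lit 4) (nat_lit 1) (nat_lit 4) (nat_lit 398) (nat_lit 324) (nat_lit 298)) (XT.lf (nat_lit 0) (nat_lit 289929402472) (nat_lit 152) (nat_lit 1368900100770) (nat_lit 0) (nat_lit 289567170448) (nat_lit 1) (nat_lit 5) (nat_lit 3) (nat_lit 4) (nat_lit 1) (nat_lit 4) (nat_lit 399)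 (nat_lit 324) (nat_lit 297))) (XT.nd (nat_lit 78) (nat_lit 0) (nat_lit 0) (XT.lf (nat_lit 0) (nat_lit 338333500464) (nat_lit 152) (nat_lit 1563606936640) (nat_lit 0) (nat_lit 337970157654) (nat_lit 1) (nat_lit 5) (nat_lit 3) (nat_lit 4) (nat_lit 1) (nat_lit 4) (nat_lit 400) (nat_lit 324) (nat_lit 296)) (XT.lf (nat_lit 0) (nat_lit 393971519129) (nat_lit 152) (nat_lit 1787576878733) (nat_lit 0) (nat_lit 393607210418) (nat_lit 1) (nat_lit 5) (nat_lit 3) (nat_lit 4) (nat_lit 1) (nat_lit 4) (nat_lit 401) (nat_lit 324) (nat_lit 295)))))) (XT.nd (nat_lit 468) (nat_lit 0) (nat_lit 0) (XT.nd (nat_lit 234) (nat_lit 0) (nat_lit 0) (XT.nd (nat_lit 78) (nat_lit 0) (nat_lit 0) (XT.lf (nat_lit 0) (nat_lit 457932028396) (nat_lit 152) (nat_lit 2045191947656) (nat_lit 0) (nat_lit 457566879771) (nat_lit 1) (nat_lit 5) (nat_lit 3) (nat_lit 4) (nat_lit 1) (nat_lit 4) (nat_lit 402) (nat_lit 324) (nat_lit 294))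 (XT.nd (nat_lit 78) (nat_lit 0) (nat_lit 0) (XT.lf (nat_lit 0) (nat_lit 531466429534) (nat_lit 152) (nat_lit 2341492438235) (nat_lit 0) (nat_lit 531100550548) (nat_lit 1) (nat_lit 5) (nat_lit 3) (nat_lit 4) (nat_lit 1) (nat_lit 4) (nat_lit 403) (nat_lit 324) (nat_lit 293)) (XT.lf (nat_lit 0) (nat_lit 616013439087) (nat_lit 152) (nat_lit 2682275533981) (nat_lit 0) (nat_lit 615646925005) (nat_lit 1) (nat_lit 5) (nat_lit 3) (nat_lit 4) (nat_lit 1) (nat_lit 4) (nat_lit 404) (nat_lit 324) (nat_lit 292)))) (XT.nd (nat_lit 78) (nat_lit 0) (nat_lit 0) (XT.lf (nat_lit 0) (nat_lit 713227237676) (nat_lit 152) (nat_lit 3074208730246) (nat_lit 0) (nat_lit 712860171337) (nat_lit 1) (nat_lit 5) (nat_lit 3) (nat_lit 4) (nat_lit 1) (nat_lit 4) (nat_lit 405) (nat_lit 324) (nat_lit 291)) (XT.nd (nat_lit 78) (nat_lit 0) (nat_lit 0) (XT.lf (nat_lit 0) (nat_lit 825009834404) (nat_lit 152) (nat_lit 3524960285217)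 (nat_lit 0) (nat_lit 824642287841) (nat_lit 1) (nat_lit 5) (nat_lit 3) (nat_lit 4) (nat_lit 1) (nat_lit 4) (nat_lit 406) (nat_lit 324) (nat_lit 290)) (XT.lf (nat_lit 0) (nat_lit 953548280077) (nat_lit 152) (nat_lit 4043349251058) (nat_lit 0) (nat_lit 953180315928) (nat_lit 1) (nat_lit 5) (nat_lit 3) (nat_lit 4) (nat_lit 1) (nat_lit 4) (nat_lit 407) (nat_lit 324) (nat_lit 289))))) (XT.nd (nat_lit 234) (nat_lit 0) (nat_lit 0) (XT.nd (nat_lit 78) (nat_lit 0) (nat_lit 0) (XT.lf (nat_lit 0) (nat_lit 1101357457327) (nat_lit 152) (nat_lit 4639518020578) (nat_lit 0) (nat_lit 1100989130061) (nat_lit 1) (nat_lit 5) (nat_lit 3) (nat_lit 4) (nat_lit 1) (nat_lit 4) (nat_lit 408) (nat_lit 324) (nat_lit 288)) (XT.nd (nat_lit 78) (nat_lit 0) (nat_lit 0) (XT.lf (nat_lit 0) (nat_lit 1271329284840) (nat_lit 152) (nat_lit 5325130765355) (nat_lit 0) (nat_lit 1270960641819) (nat_lit 1) (nat_lit 5) (nat_lit 3)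 (nat_lit 4) (nat_lit 1) (nat_lit 4) (nat_lit 409) (nat_lit 324) (nat_lit 287)) (XT.lf (nat_lit 0) (nat_lit 1466789298372) (nat_lit 152) (nat_lit 6113601647787) (nat_lit 0) (nat_lit 1466420380781) (nat_lit 1) (nat_lit 5) (nat_lit 3) (nat_lit 4) (nat_lit 1) (nat_lit 4) (nat_lit 410) (nat_lit 324) (nat_lit 286)))) (XT.nd (nat_lit 156) (nat_lit 0) (nat_lit 0) (XT.nd (nat_lit 78) (nat_lit 0) (nat_lit 0) (XT.lf (nat_lit 0) (nat_lit 1691561715578) (nat_lit 152) (nat_lit 7020357272094) (nat_lit 0) (nat_lit 1691192559231) (nat_lit 1) (nat_lit 5) (nat_lit 3) (nat_lit 4) (nat_lit 1) (nat_lit 4) (nat_lit 411) (nat_lit 324) (nat_lit 285)) (XT.lf (nat_lit 0) (nat_lit 1950044257665) (nat_lit 152) (nat_lit 8063138509188) (nat_lit 0) (nat_lit 1949674893704) (nat_lit 1) (nat_lit 5) (nat_lit 3) (nat_lit 4) (nat_lit 1) (nat_lit 4) (nat_lit 412) (nat_lit 324) (nat_lit 284))) (XT.nd (nat_lit 78) (nat_lit 0)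 (nat_lit 0) (XT.lf (nat_lit 0) (nat_lit 2247294191760) (nat_lit 152) (nat_lit 9262347600664) (nat_lit 0) (nat_lit 2246924647266) (nat_lit 1) (nat_lit 5) (nat_lit 3) (nat_lit 4) (nat_lit 1) (nat_lit 4) (nat_lit 413) (nat_lit 324) (nat_lit 283)) (XT.lf (nat_lit 0) (nat_lit 2589127277444) (nat_lit 152) (nat_lit 10641447333093) (nat_lit 0) (nat_lit 2588757575964) (nat_lit 1) (nat_lit 5) (nat_lit 3) (nat_lit 4) (nat_lit 1) (nat_lit 4) (nat_lit 414) (nat_lit 324) (nat_lit 282))))))))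
noncomputable def xc22 : XT := (XT.nd (nat_lit 1950) (nat_lit 0) (nat_lit 0) (XT.nd (nat_lit 936) (nat_lit 0) (nat_lit 0) (XT.nd (nat_lit 468) (nat_lit 0) (nat_lit 0) (XT.nd (nat_lit 234) (nat_lit 0) (nat_lit 0) (XT.nd (nat_lit 78) (nat_lit 0) (nat_lit 0) (XT.lf (nat_lit 0) (nat_lit 2982231553350) (nat_lit 152) (nat_lit 12227420092546) (nat_lit 0) (nat_lit 2981861715360) (nat_lit 1) (nat_lit 5) (nat_lit 3) (nat_lit 4) (nat_lit 1) (nat_lit 4) (nat_lit 415) (nat_lit 324) (nat_lit 281)) (XT.nd (nat_lit 78) (nat_lit 0) (nat_lit 0) (XT.lf (nat_lit 0) (nat_lit 3434298190093) (nat_lit 152) (nat_lit 14051295780838) (nat_lit 0) (nat_lit 3433928233399) (nat_lit 1) (nat_lit 5) (nat_lit 3) (nat_lit 4) (nat_lit 1) (nat_lit 4) (nat_lit 416) (nat_lit 324) (nat_lit 280)) (XT.lf (nat_lit 0) (nat_lit 3954171969697) (nat_lit 152) (nat_lit 16148758922305) (nat_lit 0) (nat_lit 3953801909782) (nat_lit 1) (nat_lit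 5) (nat_lit 3) (nat_lit 4) (nat_lit 1) (nat_lit 4) (nat_lit 417) (nat_lit 324) (nat_lit 279)))) (XT.nd (nat_lit 78) (nat_lit 0) (nat_lit 0) (XT.lf (nat_lit 0) (nat_lit 4552024335674) (nat_lit 152) (nat_lit 18560846839279) (nat_lit 0) (nat_lit 4551654186002) (nat_lit 1) (nat_lit 5) (nat_lit 3) (nat_lit 4) (nat_lit 1) (nat_lit 4) (nat_lit 418) (nat_lit 324) (nat_lit 278)) (XT.nd (nat_lit 78) (nat_lit 0) (nat_lit 0) (XT.lf (nat_lit 0) (nat_lit 5239552399535) (nat_lit 152) (nat_lit 21334752556224) (nat_lit 0) (nat_lit 5239182171813) (nat_lit 1) (nat_lit 5) (nat_lit 3) (nat_lit 4) (nat_lit 1) (nat_lit 4) (nat_lit 419) (nat_lit 324) (nat_lit 277)) (XT.lf (nat_lit 0) (nat_lit 6030207797310) (nat_lit 152) (nat_lit 24524748141514) (nat_lit 0) (nat_lit 6029837501719) (nat_lit 1) (nat_lit 5) (nat_lit 3) (nat_lit 4) (nat_lit 1) (nat_lit 4) (nat_lit 420) (nat_lit 324) (nat_lit 276))))) (XT.nd (nat_lit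 234) (nat_lit 0) (nat_lit 0) (XT.nd (nat_lit 78) (nat_lit 0) (nat_lit 0) (XT.lf (nat_lit 0) (nat_lit 6939459873739) (nat_lit 152) (nat_lit 28193246552254) (nat_lit 0) (nat_lit 6939089519131) (nat_lit 1) (nat_lit 5) (nat_lit 3) (nat_lit 4) (nat_lit 1) (nat_lit 4) (nat_lit 421) (nat_lit 324) (nat_lit 275)) (XT.nd (nat_lit 78) (nat_lit 0) (nat_lit 0) (XT.lf (nat_lit 0) (nat_lit 7985098343360) (nat_lit 152) (nat_lit 32412022757348) (nat_lit 0) (nat_lit 7984727937433) (nat_lit 1) (nat_lit 5) (nat_lit 3) (nat_lit 4) (nat_lit 1) (nat_lit 4) (nat_lit 422) (nat_lit 324) (nat_lit 274)) (XT.lf (nat_lit 0) (nat_lit 9187581350145) (nat_lit 152) (nat_lit 37263618030374) (nat_lit 0) (nat_lit 9187210899593) (nat_lit 1) (nat_lit 5) (nat_lit 3) (nat_lit 4) (nat_lit 1) (nat_lit 4) (nat_lit 423) (nat_lit 324) (nat_lit 273)))) (XT.nd (nat_lit 78) (nat_lit 0) (nat_lit 0) (XT.lf (nat_lit 0) (nat_lit 10570435735531)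 (nat_lit 152) (nat_lit 42842954887545) (nat_lit 0) (nat_lit 10570065246174) (nat_lit 1) (nat_lit 5) (nat_lit 3) (nat_lit 4) (nat_lit 1) (nat_lit 4) (nat_lit 424) (nat_lit 324) (nat_lit 272)) (XT.nd (nat_lit 78) (nat_lit 0) (nat_lit 0) (XT.lf (nat_lit 0) (nat_lit 12160717346188) (nat_lit 152) (nat_lit 49259194267370) (nat_lit 0) (nat_lit 12160346823088) (nat_lit 1) (nat_lit 5) (nat_lit 3) (nat_lit 4) (nat_lit 1) (nat_lit 4) (nat_lit 425) (nat_lit 324) (nat_lit 271)) (XT.lf (nat_lit 0) (nat_lit 13989540387541) (nat_lit 152) (nat_lit 56637871288149) (nat_lit 0) (nat_lit 13989169835100) (nat_lit 1) (nat_lit 5) (nat_lit 3) (nat_lit 4) (nat_lit 1) (nat_lit 4) (nat_lit 426) (nat_lit 324) (nat_lit 270)))))) (XT.nd (nat_lit 468) (nat_lit 0) (nat_lit 0) (XT.nd (nat_lit 234) (nat_lit 0) (nat_lit 0) (XT.nd (nat_lit 78) (nat_lit 0) (nat_lit 0) (XT.lf (nat_lit 0) (nat_lit 16092686179966) (nat_lit 152)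 (nat_lit 65123351369855) (nat_lit 0) (nat_lit 16092315602010) (nat_lit 1) (nat_lit 5) (nat_lit 3) (nat_lit 4) (nat_lit 1) (nat_lit 4) (nat_lit 427) (nat_lit 324) (nat_lit 269)) (XT.nd (nat_lit 78) (nat_lit 0) (nat_lit 0) (XT.lf (nat_lit 0) (nat_lit 18511303228097) (nat_lit 152) (nat_lit 74881654774956) (nat_lit 0) (nat_lit 18510932627954) (nat_lit 1) (nat_lit 5) (nat_lit 3) (nat_lit 4) (nat_lit 1) (nat_lit 4) (nat_lit 428) (nat_lit 324) (nat_lit 268)) (XT.lf (nat_lit 0) (nat_lit 21292712300267) (nat_lit 152) (nat_lit 86103704830943) (nat_lit 0) (nat_lit 21292341680831) (nat_lit 1) (nat_lit 5) (nat_lit 3) (nat_lit 4) (nat_lit 1) (nat_lit 4) (nat_lit 429) (nat_lit 324) (nat_lit 267)))) (XT.nd (nat_lit 78) (nat_lit 0) (nat_lit 0) (XT.lf (nat_lit 0) (nat_lit 24491332269626) (nat_lit 152) (nat_lit 99009063386737) (nat_lit 0) (nat_lit 24490961633414) (nat_lit 1) (nat_lit 5) (nat_lit 3) (nat_lit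 4) (nat_lit 1) (nat_lit 4) (nat_lit 430) (nat_lit 324) (nat_lit 266)) (XT.nd (nat_lit 78) (nat_lit 0) (nat_lit 0) (XT.lf (nat_lit 0) (nat_lit 28169744831228) (nat_lit 152) (nat_lit 113850226587995) (nat_lit 0) (nat_lit 28169374180429) (nat_lit 1) (nat_lit 5) (nat_lit 3) (nat_lit 4) (nat_lit 1) (nat_lit 4) (nat_lit 431) (nat_lit 324) (nat_lit 265)) (XT.lf (nat_lit 0) (nat_lit 32399918926496) (nat_lit 152) (nat_lit 130917565019090) (nat_lit 0) (nat_lit 32399548263010) (nat_lit 1) (nat_lit 5) (nat_lit 3) (nat_lit 4) (nat_lit 1) (nat_lit 4) (nat_lit 432) (nat_lit 324) (nat_lit 264))))) (XT.nd (nat_lit 234) (nat_lit 0) (nat_lit 0) (XT.nd (nat_lit 78) (nat_lit 0) (nat_lit 0) (XT.lf (nat_lit 0) (nat_lit 37264618831205) (nat_lit 152) (nat_lit 150545004866717) (nat_lit 0) (nat_lit 37264248156689) (nat_lit 1) (nat_lit 5) (nat_lit 3) (nat_lit 4) (nat_lit 1) (nat_lit 4) (nat_lit 433) (nat_lit 324)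 (nat_lit 263)) (XT.nd (nat_lit 78) (nat_lit 0) (nat_lit 0) (XT.lf (nat_lit 0) (nat_lit 42859023456536) (nat_lit 152) (nat_lit 173116561258329) (nat_lit 0) (nat_lit 42858652772428) (nat_lit 1) (nat_lit 5) (nat_lit 3) (nat_lit 4) (nat_lit 1) (nat_lit 4) (nat_lit 434) (nat_lit 324) (nat_lit 262)) (XT.lf (nat_lit 0) (nat_lit 49292588545158) (nat_lit 152) (nat_lit 199073851601589) (nat_lit 0) (nat_lit 49292217852709) (nat_lit 1) (nat_lit 5) (nat_lit 3) (nat_lit 4) (nat_lit 1) (nat_lit 4) (nat_lit 435) (nat_lit 324) (nat_lit 261)))) (XT.nd (nat_lit 156) (nat_lit 0) (nat_lit 0) (XT.nd (nat_lit 78) (nat_lit 0) (nat_lit 0) (XT.lf (nat_lit 0) (nat_lit 56691188196630) (nat_lit 152) (nat_lit 228924735924951) (nat_lit 0) (nat_lit 56690817496929) (nat_lit 1) (nat_lit 5) (nat_lit 3) (nat_lit 4) (nat_lit 1) (nat_lit 4) (nat_lit 436) (nat_lit 324) (nat_lit 260)) (XT.lf (nat_lit 0) (nat_lit 65199577621525)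 (nat_lit 152) (nat_lit 263253253269525) (nat_lit 0) (nat_lit 65199206915517) (nat_lit 1) (nat_lit 5) (nat_lit 3) (nat_lit 4) (nat_lit 1) (nat_lit 4) (nat_lit 437) (nat_lit 324) (nat_lit 259))) (XT.nd (nat_lit 78) (nat_lit 0) (nat_lit 0) (XT.lf (nat_lit 0) (nat_lit 74984225308592) (nat_lit 152) (nat_lit 302731048539880) (nat_lit 0) (nat_lit 74983854597100) (nat_lit 1) (nat_lit 5) (nat_lit 3) (nat_lit 4) (nat_lit 1) (nat_lit 4) (nat_lit 438) (nat_lit 324) (nat_lit 258)) (XT.lf (nat_lit 0) (nat_lit 86236570016924) (nat_lit 152) (nat_lit 348130513382606) (nat_lit 0) (nat_lit 86236199300663) (nat_lit 1) (nat_lit 5) (nat_lit 3) (nat_lit 4) (nat_lit 1) (nat_lit 4) (nat_lit 439) (nat_lit 324) (nat_lit 257))))))) (XT.nd (nat_lit 48126) (nat_lit 0) (nat_lit 0) (XT.nd (nat_lit 624) (nat_lit 0) (nat_lit 0) (XT.nd (nat_lit 390) (nat_lit 0) (nat_lit 0) (XT.nd (nat_lit 78) (nat_lit 0) (nat_lit 0) (XT.lf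 (nat_lit 0) (nat_lit 99176766316902) (nat_lit 152) (nat_lit 400339898196804) (nat_lit 0) (nat_lit 99176395596495) (nat_lit 1) (nat_lit 5) (nat_lit 3) (nat_lit 4) (nat_lit 1) (nat_lit 4) (nat_lit 440) (nat_lit 324) (nat_lit 256)) (XT.nd (nat_lit 78) (nat_lit 0) (nat_lit 0) (XT.lf (nat_lit 0) (nat_lit 114057991962223) (nat_lit 152) (nat_lit 460380690946229) (nat_lit 0) (nat_lit 114057621238209) (nat_lit 1) (nat_lit 5) (nat_lit 3) (nat_lit 4) (nat_lit 1) (nat_lit 4) (nat_lit 441) (nat_lit 324) (nat_lit 255)) (XT.lf (nat_lit 0) (nat_lit 131171401367684) (nat_lit 152) (nat_lit 529427602793368) (nat_lit 0) (nat_lit 131171030640534) (nat_lit 1) (nat_lit 5) (nat_lit 3) (nat_lit 4) (nat_lit 1) (nat_lit 4) (nat_lit 442) (nat_lit 324) (nat_lit 254)))) (XT.nd (nat_lit 78) (nat_lit 0) (nat_lit 0) (XT.lf (nat_lit 0) (nat_lit 199511662192695) (nat_lit 152) (nat_lit 805157815373551) (nat_lit 0) (nat_lit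 199511291458385) (nat_lit 1) (nat_lit 5) (nat_lit 3) (nat_lit 4) (nat_lit 1) (nat_lit 4) (nat_lit 445) (nat_lit 324) (nat_lit 251)) (XT.nd (nat_lit 78) (nat_lit 0) (nat_lit 0) (XT.lf (nat_lit 0) (nat_lit 229443121885325) (nat_lit 152) (nat_lit 925921296413822) (nat_lit 0) (nat_lit 229442751149220) (nat_lit 1) (nat_lit 5) (nat_lit 3) (nat_lit 4) (nat_lit 1) (nat_lit 4) (nat_lit 446) (nat_lit 324) (nat_lit 250)) (XT.lf (nat_lit 0) (nat_lit 263864300488763) (nat_lit 152) (nat_lit 1064799299702260) (nat_lit 0) (nat_lit 263863929751102) (nat_lit 1) (nat_lit 5) (nat_lit 3) (nat_lit 4) (nat_lit 1) (nat_lit 4) (nat_lit 447) (nat_lit 324) (nat_lit 249))))) (XT.nd (nat_lit 47190) (nat_lit 0) (nat_lit 228) (XT.nd (nat_lit 47034) (nat_lit 0) (nat_lit 380) (XT.lf (nat_lit 0) (nat_lit 303448655845253) (nat_lit 152) (nat_lit 1224509003564073) (nat_lit 0) (nat_lit 303448285106237) (nat_lit 1) (nat_lit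 5) (nat_lit 3) (nat_lit 4) (nat_lit 1) (nat_lit 4) (nat_lit 448) (nat_lit 324) (nat_lit 248)) (XT.nd (nat_lit 78) (nat_lit 0) (nat_lit 0) (XT.lf (nat_lit 0) (nat_lit 4334298178) (nat_lit 76) (nat_lit 8341495807) (nat_lit 76) (nat_lit 8341495807) (nat_lit 6) (nat_lit 4) (nat_lit 7) (nat_lit 5) (nat_lit 7) (nat_lit 4) (nat_lit 370) (nat_lit 325) (nat_lit 325)) (XT.lf (nat_lit 0) (nat_lit 31026929607) (nat_lit 76) (nat_lit 7950074493) (nat_lit 76) (nat_lit 7876527348) (nat_lit 6) (nat_lit 4) (nat_lit 7) (nat_lit 5) (nat_lit 7) (nat_lit 4) (nat_lit 371) (nat_lit 325) (nat_lit 324)))) (XT.nd (nat_lit 156) (nat_lit 0) (nat_lit 0) (XT.nd (nat_lit 78) (nat_lit 0) (nat_lit 0) (XT.lf (nat_lit 0) (nat_lit 1331523813) (nat_lit 152) (nat_lit 49945723472) (nat_lit 0) (nat_lit 1211957566) (nat_lit 4) (nat_lit 5) (nat_lit 6) (nat_lit 4) (nat_lit 4) (nat_lit 4) (nat_lit 372) (nat_lit 325) (nat_lit 323))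 (XT.lf (nat_lit 0) (nat_lit 11479218926) (nat_lit 152) (nat_lit 36068738210) (nat_lit 0) (nat_lit 11311294237) (nat_lit 4) (nat_lit 5) (nat_lit 6) (nat_lit 4) (nat_lit 4) (nat_lit 4) (nat_lit 373) (nat_lit 325) (nat_lit 322))) (XT.nd (nat_lit 78) (nat_lit 0) (nat_lit 0) (XT.lf (nat_lit 0) (nat_lit 22383479444) (nat_lit 152) (nat_lit 21742668008) (nat_lit 0) (nat_lit 22173503936) (nat_lit 4) (nat_lit 5) (nat_lit 6) (nat_lit 4) (nat_lit 4) (nat_lit 4) (nat_lit 374) (nat_lit 325) (nat_lit 321)) (XT.lf (nat_lit 0) (nat_lit 34257649595) (nat_lit 152) (nat_lit 6687220187) (nat_lit 0) (nat_lit 34011108158) (nat_lit 4) (nat_lit 5) (nat_lit 6) (nat_lit 4) (nat_lit 4) (nat_lit 4) (nat_lit 375) (nat_lit 325) (nat_lit 320)))))) (XT.nd (nat_lit 468) (nat_lit 152) (nat_lit 0) (XT.nd (nat_lit 234) (nat_lit 0) (nat_lit 0) (XT.nd (nat_lit 78) (nat_lit 0) (nat_lit 0) (XT.lf (nat_lit 0) (nat_lit 10310039359)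 (nat_lit 76) (nat_lit 37450927483) (nat_lit 76) (nat_lit 37172589585) (nat_lit 3) (nat_lit 4) (nat_lit 4) (nat_lit 5) (nat_lit 4) (nat_lit 4) (nat_lit 376) (nat_lit 325) (nat_lit 319)) (XT.nd (nat_lit 78) (nat_lit 0) (nat_lit 0) (XT.lf (nat_lit 0) (nat_lit 29430171773) (nat_lit 76) (nat_lit 33656992455) (nat_lit 76) (nat_lit 33351005461) (nat_lit 3) (nat_lit 4) (nat_lit 4) (nat_lit 5) (nat_lit 4) (nat_lit 4) (nat_lit 377) (nat_lit 325) (nat_lit 318)) (XT.lf (nat_lit 0) (nat_lit 50393742810) (nat_lit 76) (nat_lit 29838394772) (nat_lit 76) (nat_lit 29508365085) (nat_lit 3) (nat_lit 4) (nat_lit 4) (nat_lit 5) (nat_lit 4) (nat_lit 4) (nat_lit 378) (nat_lit 325) (nat_lit 317)))) (XT.nd (nat_lit 78) (nat_lit 0) (nat_lit 0) (XT.lf (nat_lit 0) (nat_lit 73610909294) (nat_lit 76) (nat_lit 25920422739) (nat_lit 76) (nat_lit 25569486364) (nat_lit 3) (nat_lit 4) (nat_lit 4) (nat_lit 5) (nat_lit 4) (nat_lit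 4) (nat_lit 379) (nat_lit 325) (nat_lit 316)) (XT.nd (nat_lit 78) (nat_lit 0) (nat_lit 0) (XT.lf (nat_lit 0) (nat_lit 99535920135) (nat_lit 76) (nat_lit 21826420382) (nat_lit 76) (nat_lit 21457304277) (nat_lit 3) (nat_lit 4) (nat_lit 4) (nat_lit 5) (nat_lit 4) (nat_lit 4) (nat_lit 380) (nat_lit 325) (nat_lit 315)) (XT.lf (nat_lit 0) (nat_lit 128676003806) (nat_lit 76) (nat_lit 17476287655) (nat_lit 76) (nat_lit 17091363090) (nat_lit 3) (nat_lit 4) (nat_lit 4) (nat_lit 5) (nat_lit 4) (nat_lit 4) (nat_lit 381) (nat_lit 325) (nat_lit 314))))) (XT.nd (nat_lit 234) (nat_lit 152) (nat_lit 0) (XT.nd (nat_lit 78) (nat_lit 0) (nat_lit 0) (XT.lf (nat_lit 0) (nat_lit 161601292378) (nat_lit 76) (nat_lit 12784913266) (nat_lit 76) (nat_lit 12386242213) (nat_lit 3) (nat_lit 4) (nat_lit 4) (nat_lit 5) (nat_lit 4) (nat_lit 4) (nat_lit 382) (nat_lit 325) (nat_lit 313)) (XT.nd (nat_lit 78) (nat_lit 0) (nat_lit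 0) (XT.lf (nat_lit 0) (nat_lit 198955976281) (nat_lit 76) (nat_lit 7660509454) (nat_lit 76) (nat_lit 7249884935) (nat_lit 3) (nat_lit 4) (nat_lit 4) (nat_lit 5) (nat_lit 4) (nat_lit 4) (nat_lit 383) (nat_lit 325) (nat_lit 312)) (XT.lf (nat_lit 0) (nat_lit 241470908026) (nat_lit 76) (nat_lit 2002816146) (nat_lit 76) (nat_lit 1581797307) (nat_lit 3) (nat_lit 4) (nat_lit 4) (nat_lit 5) (nat_lit 4) (nat_lit 4) (nat_lit 384) (nat_lit 325) (nat_lit 311)))) (XT.nd (nat_lit 156) (nat_lit 0) (nat_lit 0) (XT.nd (nat_lit 78) (nat_lit 0) (nat_lit 0) (XT.lf (nat_lit 0) (nat_lit 4915817927) (nat_lit 152) (nat_lit 271371892589) (nat_lit 0) (nat_lit 4541854990) (nat_lit 1) (nat_lit 5) (nat_lit 3) (nat_lit 4) (nat_lit 1) (nat_lit 4) (nat_lit 385) (nat_lit 325) (nat_lit 310)) (XT.lf (nat_lit 0) (nat_lit 12328922910) (nat_lit 152) (nat_lit 297665951459) (nat_lit 0) (nat_lit 11948125539) (nat_lit 1) (nat_lit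 5) (nat_lit 3) (nat_lit 4) (nat_lit 1) (nat_lit 4) (nat_lit 386) (nat_lit 325) (nat_lit 309))) (XT.nd (nat_lit 78) (nat_lit 0) (nat_lit 0) (XT.lf (nat_lit 0) (nat_lit 20689750963) (nat_lit 152) (nat_lit 328255325461) (nat_lit 0) (nat_lit 20303010606) (nat_lit 1) (nat_lit 5) (nat_lit 3) (nat_lit 4) (nat_lit 1) (nat_lit 4) (nat_lit 387) (nat_lit 325) (nat_lit 308)) (XT.lf (nat_lit 0) (nat_lit 30161883503) (nat_lit 152) (nat_lit 363738502347) (nat_lit 0) (nat_lit 29769975333) (nat_lit 1) (nat_lit 5) (nat_lit 3) (nat_lit 4) (nat_lit 1) (nat_lit 4) (nat_lit 388) (nat_lit 325) (nat_lit 307))))))))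
noncomputable def xc23 : XT := (XT.nd (nat_lit 2028) (nat_lit 0) (nat_lit 0) (XT.nd (nat_lit 1014) (nat_lit 0) (nat_lit 0) (XT.nd (nat_lit 468) (nat_lit 0) (nat_lit 0) (XT.nd (nat_lit 234) (nat_lit 0) (nat_lit 0) (XT.nd (nat_lit 78) (nat_lit 0) (nat_lit 0) (XT.lf (nat_lit 0) (nat_lit 40930644863) (nat_lit 152) (nat_lit 404809718188) (nat_lit 0) (nat_lit 40534242942) (nat_lit 1) (nat_lit 5) (nat_lit 3) (nat_lit 4) (nat_lit 1) (nat_lit 4) (nat_lit 389) (nat_lit 325) (nat_lit 306)) (XT.nd (nat_lit 78) (nat_lit 0) (nat_lit 0) (XT.lf (nat_lit 0) (nat_lit 53206728200) (nat_lit 152) (nat_lit 452272540250) (nat_lit 0) (nat_lit 52806418670) (nat_lit 1) (nat_lit 5) (nat_lit 3) (nat_lit 4) (nat_lit 1) (nat_lit 4) (nat_lit 390) (nat_lit 325) (nat_lit 305)) (XT.lf (nat_lit 0) (nat_lit 67230317754) (nat_lit 152) (nat_lit 507055588964) (nat_lit 0) (nat_lit 66826610302) (nat_lit 1) (nat_lit 5) (nat_lit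 3) (nat_lit 4) (nat_lit 1) (nat_lit 4) (nat_lit 391) (nat_lit 325) (nat_lit 304)))) (XT.nd (nat_lit 78) (nat_lit 0) (nat_lit 0) (XT.lf (nat_lit 0) (nat_lit 83275788102) (nat_lit 152) (nat_lit 570230706588) (nat_lit 0) (nat_lit 82869125936) (nat_lit 1) (nat_lit 5) (nat_lit 3) (nat_lit 4) (nat_lit 1) (nat_lit 4) (nat_lit 392) (nat_lit 325) (nat_lit 303)) (XT.nd (nat_lit 78) (nat_lit 0) (nat_lit 0) (XT.lf (nat_lit 0) (nat_lit 101657072361) (nat_lit 152) (nat_lit 643033928032) (nat_lit 0) (nat_lit 101247840877) (nat_lit 1) (nat_lit 5) (nat_lit 3) (nat_lit 4) (nat_lit 1) (nat_lit 4) (nat_lit 393) (nat_lit 325) (nat_lit 302)) (XT.lf (nat_lit 0) (nat_lit 122733804351) (nat_lit 152) (nat_lit 726889664150) (nat_lit 0) (nat_lit 122322338680) (nat_lit 1) (nat_lit 5) (nat_lit 3) (nat_lit 4) (nat_lit 1) (nat_lit 4) (nat_lit 394) (nat_lit 325) (nat_lit 301))))) (XT.nd (nat_lit 234) (nat_lit 0) (nat_lit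 0) (XT.nd (nat_lit 78) (nat_lit 0) (nat_lit 0) (XT.lf (nat_lit 0) (nat_lit 146918354918) (nat_lit 152) (nat_lit 823438570648) (nat_lit 0) (nat_lit 146504946474) (nat_lit 1) (nat_lit 5) (nat_lit 3) (nat_lit 4) (nat_lit 1) (nat_lit 4) (nat_lit 395) (nat_lit 325) (nat_lit 300)) (XT.nd (nat_lit 78) (nat_lit 0) (nat_lit 0) (XT.lf (nat_lit 0) (nat_lit 174683900049) (nat_lit 152) (nat_lit 934569647872) (nat_lit 0) (nat_lit 174268802238) (nat_lit 1) (nat_lit 5) (nat_lit 3) (nat_lit 4) (nat_lit 1) (nat_lit 4) (nat_lit 396) (nat_lit 325) (nat_lit 299)) (XT.lf (nat_lit 0) (nat_lit 206573678673) (nat_lit 152) (nat_lit 1062457199506) (nat_lit 0) (nat_lit 206157111846) (nat_lit 1) (nat_lit 5) (nat_lit 3) (nat_lit 4) (nat_lit 1) (nat_lit 4) (nat_lit 397) (nat_lit 325) (nat_lit 298)))) (XT.nd (nat_lit 156) (nat_lit 0) (nat_lit 0) (XT.nd (nat_lit 78) (nat_lit 0) (nat_lit 0) (XT.lf (nat_lit 0) (nat_lit 243211621239)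 (nat_lit 152) (nat_lit 1209603373300) (nat_lit 0) (nat_lit 242793777007) (nat_lit 1) (nat_lit 5) (nat_lit 3) (nat_lit 4) (nat_lit 1) (nat_lit 4) (nat_lit 398) (nat_lit 325) (nat_lit 297)) (XT.lf (nat_lit 0) (nat_lit 285314557059) (nat_lit 152) (nat_lit 1378887116132) (nat_lit 0) (nat_lit 284895602041) (nat_lit 1) (nat_lit 5) (nat_lit 3) (nat_lit 4) (nat_lit 1) (nat_lit 4) (nat_lit 399) (nat_lit 325) (nat_lit 296))) (XT.nd (nat_lit 78) (nat_lit 0) (nat_lit 0) (XT.lf (nat_lit 0) (nat_lit 333706239225) (nat_lit 152) (nat_lit 1573620501231) (nat_lit 0) (nat_lit 333286318306) (nat_lit 1) (nat_lit 5) (nat_lit 3) (nat_lit 4) (nat_lit 1) (nat_lit 4) (nat_lit 400) (nat_lit 325) (nat_lit 295)) (XT.lf (nat_lit 0) (nat_lit 389333461519) (nat_lit 152) (nat_lit 1797613529610) (nat_lit 0) (nat_lit 388912700685) (nat_lit 1) (nat_lit 5) (nat_lit 3) (nat_lit 4) (nat_lit 1) (nat_lit 4) (nat_lit 401) (nat_lit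 325) (nat_lit 294)))))) (XT.nd (nat_lit 468) (nat_lit 0) (nat_lit 0) (XT.nd (nat_lit 234) (nat_lit 0) (nat_lit 0) (XT.nd (nat_lit 78) (nat_lit 0) (nat_lit 0) (XT.lf (nat_lit 0) (nat_lit 453284582638) (nat_lit 152) (nat_lit 2055248673564) (nat_lit 0) (nat_lit 452863091444) (nat_lit 1) (nat_lit 5) (nat_lit 3) (nat_lit 4) (nat_lit 1) (nat_lit 4) (nat_lit 402) (nat_lit 325) (nat_lit 293)) (XT.nd (nat_lit 78) (nat_lit 0) (nat_lit 0) (XT.lf (nat_lit 0) (nat_lit 526810820168) (nat_lit 152) (nat_lit 2351566620692) (nat_lit 0) (nat_lit 526388693878) (nat_lit 1) (nat_lit 5) (nat_lit 3) (nat_lit 4) (nat_lit 1) (nat_lit 4) (nat_lit 403) (nat_lit 325) (nat_lit 292)) (XT.lf (nat_lit 0) (nat_lit 611350730932) (nat_lit 152) (nat_lit 2692364896046) (nat_lit 0) (nat_lit 610928052385) (nat_lit 1) (nat_lit 5) (nat_lit 3) (nat_lit 4) (nat_lit 1) (nat_lit 4) (nat_lit 404) (nat_lit 325) (nat_lit 291)))) (XT.nd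 (nat_lit 78) (nat_lit 0) (nat_lit 0) (XT.lf (nat_lit 0) (nat_lit 708558356660) (nat_lit 152) (nat_lit 3084311291970) (nat_lit 0) (nat_lit 708135197890) (nat_lit 1) (nat_lit 5) (nat_lit 3) (nat_lit 4) (nat_lit 1) (nat_lit 4) (nat_lit 405) (nat_lit 325) (nat_lit 290)) (XT.nd (nat_lit 78) (nat_lit 0) (nat_lit 0) (XT.lf (nat_lit 0) (nat_lit 820335585684) (nat_lit 152) (nat_lit 3535074324906) (nat_lit 0) (nat_lit 819912009328) (nat_lit 1) (nat_lit 5) (nat_lit 3) (nat_lit 4) (nat_lit 1) (nat_lit 4) (nat_lit 406) (nat_lit 325) (nat_lit 289)) (XT.lf (nat_lit 0) (nat_lit 948869363788) (nat_lit 152) (nat_lit 4053473271586) (nat_lit 0) (nat_lit 948445424313) (nat_lit 1) (nat_lit 5) (nat_lit 3) (nat_lit 4) (nat_lit 1) (nat_lit 4) (nat_lit 407) (nat_lit 325) (nat_lit 288))))) (XT.nd (nat_lit 234) (nat_lit 0) (nat_lit 0) (XT.nd (nat_lit 78) (nat_lit 0) (nat_lit 0) (XT.lf (nat_lit 0) (nat_lit 1096674482282)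 (nat_lit 152) (nat_lit 4649650720096) (nat_lit 0) (nat_lit 1096250227053) (nat_lit 1) (nat_lit 5) (nat_lit 3) (nat_lit 4) (nat_lit 1) (nat_lit 4) (nat_lit 408) (nat_lit 325) (nat_lit 287)) (XT.nd (nat_lit 78) (nat_lit 0) (nat_lit 0) (XT.lf (nat_lit 0) (nat_lit 1266642780443) (nat_lit 152) (nat_lit 5335271011821) (nat_lit 0) (nat_lit 1266218250644) (nat_lit 1) (nat_lit 5) (nat_lit 3) (nat_lit 4) (nat_lit 1) (nat_lit 4) (nat_lit 409) (nat_lit 325) (nat_lit 286)) (XT.lf (nat_lit 0) (nat_lit 1462099724972) (nat_lit 152) (nat_lit 6123748456816) (nat_lit 0) (nat_lit 1461674956417) (nat_lit 1) (nat_lit 5) (nat_lit 3) (nat_lit 4) (nat_lit 1) (nat_lit 4) (nat_lit 410) (nat_lit 325) (nat_lit 285)))) (XT.nd (nat_lit 156) (nat_lit 0) (nat_lit 0) (XT.nd (nat_lit 78) (nat_lit 0) (nat_lit 0) (XT.lf (nat_lit 0) (nat_lit 1686869473480) (nat_lit 152) (nat_lit 7030509787700) (nat_lit 0) (nat_lit 1686444497312)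 (nat_lit 1) (nat_lit 5) (nat_lit 3) (nat_lit 4) (nat_lit 1) (nat_lit 4) (nat_lit 411) (nat_lit 325) (nat_lit 284)) (XT.lf (nat_lit 0) (nat_lit 1945349694961) (nat_lit 152) (nat_lit 8073295987035) (nat_lit 0) (nat_lit 1944924538258) (nat_lit 1) (nat_lit 5) (nat_lit 3) (nat_lit 4) (nat_lit 1) (nat_lit 4) (nat_lit 412) (nat_lit 325) (nat_lit 283))) (XT.nd (nat_lit 78) (nat_lit 0) (nat_lit 0) (XT.lf (nat_lit 0) (nat_lit 2242597611137) (nat_lit 152) (nat_lit 9272509393502) (nat_lit 0) (nat_lit 2242172297449) (nat_lit 1) (nat_lit 5) (nat_lit 3) (nat_lit 4) (nat_lit 1) (nat_lit 4) (nat_lit 413) (nat_lit 325) (nat_lit 282)) (XT.lf (nat_lit 0) (nat_lit 2584428942109) (nat_lit 152) (nat_lit 10651612878099) (nat_lit 0) (nat_lit 2584003491911) (nat_lit 1) (nat_lit 5) (nat_lit 3) (nat_lit 4) (nat_lit 1) (nat_lit 4) (nat_lit 414) (nat_lit 325) (nat_lit 281))))))) (XT.nd (nat_lit 1014) (nat_lit 0) (nat_lit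 0) (XT.nd (nat_lit 468) (nat_lit 0) (nat_lit 0) (XT.nd (nat_lit 234) (nat_lit 0) (nat_lit 0) (XT.nd (nat_lit 78) (nat_lit 0) (nat_lit 0) (XT.lf (nat_lit 0) (nat_lit 2977531692179) (nat_lit 152) (nat_lit 12237588900306) (nat_lit 0) (nat_lit 2977106123277) (nat_lit 1) (nat_lit 5) (nat_lit 3) (nat_lit 4) (nat_lit 1) (nat_lit 4) (nat_lit 415) (nat_lit 325) (nat_lit 280)) (XT.nd (nat_lit 78) (nat_lit 0) (nat_lit 0) (XT.lf (nat_lit 0) (nat_lit 3429597002107) (nat_lit 152) (nat_lit 14061467425775) (nat_lit 0) (nat_lit 3429171329984) (nat_lit 1) (nat_lit 5) (nat_lit 3) (nat_lit 4) (nat_lit 1) (nat_lit 4) (nat_lit 416) (nat_lit 325) (nat_lit 279)) (XT.lf (nat_lit 0) (nat_lit 3949469627959) (nat_lit 152) (nat_lit 16158933034352) (nat_lit 0) (nat_lit 3949043866079) (nat_lit 1) (nat_lit 5) (nat_lit 3) (nat_lit 4) (nat_lit 1) (nat_lit 4) (nat_lit 417) (nat_lit 325) (nat_lit 278)))) (XT.nd (nat_lit 78)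 (nat_lit 0) (nat_lit 0) (XT.lf (nat_lit 0) (nat_lit 4547320990674) (nat_lit 152) (nat_lit 18571023096640) (nat_lit 0) (nat_lit 4546895150744) (nat_lit 1) (nat_lit 5) (nat_lit 3) (nat_lit 4) (nat_lit 1) (nat_lit 4) (nat_lit 418) (nat_lit 325) (nat_lit 277)) (XT.nd (nat_lit 78) (nat_lit 0) (nat_lit 0) (XT.lf (nat_lit 0) (nat_lit 5234848182133) (nat_lit 152) (nat_lit 21344930679075) (nat_lit 0) (nat_lit 5234422274333) (nat_lit 1) (nat_lit 5) (nat_lit 3) (nat_lit 4) (nat_lit 1) (nat_lit 4) (nat_lit 419) (nat_lit 325) (nat_lit 276)) (XT.lf (nat_lit 0) (nat_lit 6025502821297) (nat_lit 152) (nat_lit 24534927886531) (nat_lit 0) (nat_lit 6025076854481) (nat_lit 1) (nat_lit 5) (nat_lit 3) (nat_lit 4) (nat_lit 1) (nat_lit 4) (nat_lit 420) (nat_lit 325) (nat_lit 275))))) (XT.nd (nat_lit 234) (nat_lit 0) (nat_lit 0) (XT.nd (nat_lit 78) (nat_lit 0) (nat_lit 0) (XT.lf (nat_lit 0) (nat_lit 6934754238065)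 (nat_lit 152) (nat_lit 28203427707849) (nat_lit 0) (nat_lit 6934328219930) (nat_lit 1) (nat_lit 5) (nat_lit 3) (nat_lit 4) (nat_lit 1) (nat_lit 4) (nat_lit 421) (nat_lit 325) (nat_lit 274)) (XT.nd (nat_lit 78) (nat_lit 0) (nat_lit 0) (XT.lf (nat_lit 0) (nat_lit 7980392134068) (nat_lit 152) (nat_lit 32422205139533) (nat_lit 0) (nat_lit 7979966071308) (nat_lit 1) (nat_lit 5) (nat_lit 3) (nat_lit 4) (nat_lit 1) (nat_lit 4) (nat_lit 422) (nat_lit 325) (nat_lit 273)) (XT.lf (nat_lit 0) (nat_lit 9182874642054) (nat_lit 152) (nat_lit 37273801479159) (nat_lit 0) (nat_lit 9182448540489) (nat_lit 1) (nat_lit 5) (nat_lit 3) (nat_lit 4) (nat_lit 1) (nat_lit 4) (nat_lit 423) (nat_lit 325) (nat_lit 272)))) (XT.nd (nat_lit 156) (nat_lit 0) (nat_lit 0) (XT.nd (nat_lit 78) (nat_lit 0) (nat_lit 0) (XT.lf (nat_lit 0) (nat_lit 10565728593702) (nat_lit 152) (nat_lit 42853139263808) (nat_lit 0) (nat_lit 10565302458394)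 (nat_lit 1) (nat_lit 5) (nat_lit 3) (nat_lit 4) (nat_lit 1) (nat_lit 4) (nat_lit 424) (nat_lit 325) (nat_lit 271)) (XT.lf (nat_lit 0) (nat_lit 12156009827195) (nat_lit 152) (nat_lit 49269379450136) (nat_lit 0) (nat_lit 12155583662545) (nat_lit 1) (nat_lit 5) (nat_lit 3) (nat_lit 4) (nat_lit 1) (nat_lit 4) (nat_lit 425) (nat_lit 325) (nat_lit 270))) (XT.nd (nat_lit 78) (nat_lit 0) (nat_lit 0) (XT.lf (nat_lit 0) (nat_lit 13984832540581) (nat_lit 152) (nat_lit 56648057172222) (nat_lit 0) (nat_lit 13984406350416) (nat_lit 1) (nat_lit 5) (nat_lit 3) (nat_lit 4) (nat_lit 1) (nat_lit 4) (nat_lit 426) (nat_lit 325) (nat_lit 269)) (XT.lf (nat_lit 0) (nat_lit 16087978047816) (nat_lit 152) (nat_lit 65133537863760) (nat_lit 0) (nat_lit 16087551835465) (nat_lit 1) (nat_lit 5) (nat_lit 3) (nat_lit 4) (nat_lit 1) (nat_lit 4) (nat_lit 427) (nat_lit 325) (nat_lit 268)))))) (XT.nd (nat_lit 468) (nat_lit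 0) (nat_lit 0) (XT.nd (nat_lit 234) (nat_lit 0) (nat_lit 0) (XT.nd (nat_lit 78) (nat_lit 0) (nat_lit 0) (XT.lf (nat_lit 0) (nat_lit 18506594847956) (nat_lit 152) (nat_lit 74891841799150) (nat_lit 0) (nat_lit 18506168616312) (nat_lit 1) (nat_lit 5) (nat_lit 3) (nat_lit 4) (nat_lit 1) (nat_lit 4) (nat_lit 428) (nat_lit 325) (nat_lit 267)) (XT.nd (nat_lit 78) (nat_lit 0) (nat_lit 0) (XT.lf (nat_lit 0) (nat_lit 21288003704481) (nat_lit 152) (nat_lit 86113892316257) (nat_lit 0) (nat_lit 21287577456061) (nat_lit 1) (nat_lit 5) (nat_lit 3) (nat_lit 4) (nat_lit 1) (nat_lit 4) (nat_lit 429) (nat_lit 325) (nat_lit 266)) (XT.lf (nat_lit 0) (nat_lit 24486623486323) (nat_lit 152) (nat_lit 99019251273026) (nat_lit 0) (nat_lit 24486197223315) (nat_lit 1) (nat_lit 5) (nat_lit 3) (nat_lit 4) (nat_lit 1) (nat_lit 4) (nat_lit 430) (nat_lit 325) (nat_lit 265)))) (XT.nd (nat_lit 78) (nat_lit 0) (nat_lit 0)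 (XT.lf (nat_lit 0) (nat_lit 28165035884867) (nat_lit 152) (nat_lit 113860414822957) (nat_lit 0) (nat_lit 28164609609174) (nat_lit 1) (nat_lit 5) (nat_lit 3) (nat_lit 4) (nat_lit 1) (nat_lit 4) (nat_lit 431) (nat_lit 325) (nat_lit 264)) (XT.nd (nat_lit 78) (nat_lit 0) (nat_lit 0) (XT.lf (nat_lit 0) (nat_lit 32395209838345) (nat_lit 152) (nat_lit 130927753557247) (nat_lit 0) (nat_lit 32394783551621) (nat_lit 1) (nat_lit 5) (nat_lit 3) (nat_lit 4) (nat_lit 1) (nat_lit 4) (nat_lit 432) (nat_lit 325) (nat_lit 263)) (XT.lf (nat_lit 0) (nat_lit 37259909619759) (nat_lit 152) (nat_lit 150555193668521) (nat_lit 0) (nat_lit 37259483323443) (nat_lit 1) (nat_lit 5) (nat_lit 3) (nat_lit 4) (nat_lit 1) (nat_lit 4) (nat_lit 433) (nat_lit 325) (nat_lit 262))))) (XT.nd (nat_lit 234) (nat_lit 0) (nat_lit 0) (XT.nd (nat_lit 78) (nat_lit 0) (nat_lit 0) (XT.lf (nat_lit 0) (nat_lit 42854314137876) (nat_lit 152)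 (nat_lit 173126750289391) (nat_lit 0) (nat_lit 42853887833220) (nat_lit 1) (nat_lit 5) (nat_lit 3) (nat_lit 4) (nat_lit 1) (nat_lit 4) (nat_lit 434) (nat_lit 325) (nat_lit 261)) (XT.nd (nat_lit 78) (nat_lit 0) (nat_lit 0) (XT.lf (nat_lit 0) (nat_lit 49287879133269) (nat_lit 152) (nat_lit 199084040832006) (nat_lit 0) (nat_lit 49287452821359) (nat_lit 1) (nat_lit 5) (nat_lit 3) (nat_lit 4) (nat_lit 1) (nat_lit 4) (nat_lit 435) (nat_lit 325) (nat_lit 260)) (XT.lf (nat_lit 0) (nat_lit 56686478703672) (nat_lit 152) (nat_lit 228934925328721) (nat_lit 0) (nat_lit 56686052385456) (nat_lit 1) (nat_lit 5) (nat_lit 3) (nat_lit 4) (nat_lit 1) (nat_lit 4) (nat_lit 436) (nat_lit 325) (nat_lit 259)))) (XT.nd (nat_lit 156) (nat_lit 0) (nat_lit 0) (XT.nd (nat_lit 78) (nat_lit 0) (nat_lit 0) (XT.lf (nat_lit 0) (nat_lit 65194868058073) (nat_lit 152) (nat_lit 263263442824036) (nat_lit 0) (nat_lit 65194441734373)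 (nat_lit 1) (nat_lit 5) (nat_lit 3) (nat_lit 4) (nat_lit 1) (nat_lit 4) (nat_lit 437) (nat_lit 325) (nat_lit 258)) (XT.lf (nat_lit 0) (nat_lit 74979515683840) (nat_lit 152) (nat_lit 302741238225470) (nat_lit 0) (nat_lit 74979089355371) (nat_lit 1) (nat_lit 5) (nat_lit 3) (nat_lit 4) (nat_lit 1) (nat_lit 4) (nat_lit 438) (nat_lit 325) (nat_lit 257))) (XT.nd (nat_lit 78) (nat_lit 0) (nat_lit 0) (XT.lf (nat_lit 0) (nat_lit 86231860338869) (nat_lit 152) (nat_lit 348140703182178) (nat_lit 0) (nat_lit 86231434006252) (nat_lit 1) (nat_lit 5) (nat_lit 3) (nat_lit 4) (nat_lit 1) (nat_lit 4) (nat_lit 439) (nat_lit 325) (nat_lit 256)) (XT.lf (nat_lit 0) (nat_lit 99172056592496) (nat_lit 152) (nat_lit 400350088095491) (nat_lit 0) (nat_lit 99171630256274) (nat_lit 1) (nat_lit 5) (nat_lit 3) (nat_lit 4) (nat_lit 1) (nat_lit 4) (nat_lit 440) (nat_lit 325) (nat_lit 255))))))))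
noncomputable def xc24 : XT := (XT.nd (nat_lit 48750) (nat_lit 0) (nat_lit 0) (XT.nd (nat_lit 47736) (nat_lit 0) (nat_lit 152) (XT.nd (nat_lit 546) (nat_lit 0) (nat_lit 0) (XT.nd (nat_lit 312) (nat_lit 0) (nat_lit 0) (XT.nd (nat_lit 78) (nat_lit 0) (nat_lit 0) (XT.lf (nat_lit 0) (nat_lit 114053282197511) (nat_lit 152) (nat_lit 460390880931102) (nat_lit 0) (nat_lit 114052855858152) (nat_lit 1) (nat_lit 5) (nat_lit 3) (nat_lit 4) (nat_lit 1) (nat_lit 4) (nat_lit 441) (nat_lit 325) (nat_lit 254)) (XT.nd (nat_lit 156) (nat_lit 0) (nat_lit 0) (XT.lf (nat_lit 0) (nat_lit 131166691567924) (nat_lit 152) (nat_lit 529437792853186) (nat_lit 0) (nat_lit 131166265225838) (nat_lit 1) (nat_lit 5) (nat_lit 3) (nat_lit 4) (nat_lit 1) (nat_lit 4) (nat_lit 442) (nat_lit 325) (nat_lit 253)) (XT.lf (nat_lit 0) (nat_lit 173479596038412) (nat_lit 152) (nat_lit 700156283003624) (nat_lit 0) (nat_lit 173479169691896)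 (nat_lit 1) (nat_lit 5) (nat_lit 3) (nat_lit 4) (nat_lit 1) (nat_lit 4) (nat_lit 444) (nat_lit 325) (nat_lit 251)))) (XT.nd (nat_lit 78) (nat_lit 0) (nat_lit 0) (XT.lf (nat_lit 0) (nat_lit 199506952312910) (nat_lit 152) (nat_lit 805168005604487) (nat_lit 0) (nat_lit 199506525964601) (nat_lit 1) (nat_lit 5) (nat_lit 3) (nat_lit 4) (nat_lit 1) (nat_lit 4) (nat_lit 445) (nat_lit 325) (nat_lit 250)) (XT.nd (nat_lit 78) (nat_lit 0) (nat_lit 0) (XT.lf (nat_lit 0) (nat_lit 229438411985500) (nat_lit 152) (nat_lit 925931486687606) (nat_lit 0) (nat_lit 229437985635632) (nat_lit 1) (nat_lit 5) (nat_lit 3) (nat_lit 4) (nat_lit 1) (nat_lit 4) (nat_lit 446) (nat_lit 325) (nat_lit 249)) (XT.lf (nat_lit 0) (nat_lit 263859590571513) (nat_lit 152) (nat_lit 1064809490013307) (nat_lit 0) (nat_lit 263859164220291) (nat_lit 1) (nat_lit 5) (nat_lit 3) (nat_lit 4) (nat_lit 1) (nat_lit 4) (nat_lit 447) (nat_lit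 325) (nat_lit 248))))) (XT.nd (nat_lit 46956) (nat_lit 0) (nat_lit 380) (XT.nd (nat_lit 78) (nat_lit 0) (nat_lit 0) (XT.lf (nat_lit 0) (nat_lit 303443945912852) (nat_lit 152) (nat_lit 1224519193907520) (nat_lit 0) (nat_lit 303443519560450) (nat_lit 1) (nat_lit 5) (nat_lit 3) (nat_lit 4) (nat_lit 1) (nat_lit 4) (nat_lit 448) (nat_lit 325) (nat_lit 247)) (XT.nd (nat_lit 46800) (nat_lit 0) (nat_lit 456) (XT.lf (nat_lit 0) (nat_lit 348965954527063) (nat_lit 152) (nat_lit 1408185353446443) (nat_lit 0) (nat_lit 348965528173637) (nat_lit 1) (nat_lit 5) (nat_lit 3) (nat_lit 4) (nat_lit 1) (nat_lit 4) (nat_lit 449) (nat_lit 325) (nat_lit 246)) (XT.lf (nat_lit 0) (nat_lit 1292585881) (nat_lit 152) (nat_lit 14567529221) (nat_lit 0) (nat_lit 1292585881) (nat_lit 7) (nat_lit 5) (nat_lit 9) (nat_lit 4) (nat_lit 7) (nat_lit 4) (nat_lit 368) (nat_lit 326) (nat_lit 326)))) (XT.nd (nat_lit 78) (nat_lit 76)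 (nat_lit 0) (XT.lf (nat_lit 0) (nat_lit 13266263160) (nat_lit 152) (nat_lit 11444509420) (nat_lit 0) (nat_lit 13181683943) (nat_lit 7) (nat_lit 5) (nat_lit 9) (nat_lit 4) (nat_lit 7) (nat_lit 4) (nat_lit 369) (nat_lit 326) (nat_lit 325)) (XT.nd (nat_lit 78) (nat_lit 0) (nat_lit 0) (XT.lf (nat_lit 0) (nat_lit 7711412547) (nat_lit 76) (nat_lit 17274424770) (nat_lit 76) (nat_lit 17116298408) (nat_lit 6) (nat_lit 4) (nat_lit 7) (nat_lit 5) (nat_lit 7) (nat_lit 4) (nat_lit 370) (nat_lit 326) (nat_lit 324)) (XT.lf (nat_lit 0) (nat_lit 29237412051) (nat_lit 76) (nat_lit 8982250203) (nat_lit 76) (nat_lit 8760169802) (nat_lit 6) (nat_lit 4) (nat_lit 7) (nat_lit 5) (nat_lit 7) (nat_lit 4) (nat_lit 371) (nat_lit 326) (nat_lit 323)))))) (XT.nd (nat_lit 468) (nat_lit 0) (nat_lit 0) (XT.nd (nat_lit 234) (nat_lit 76) (nat_lit 0) (XT.nd (nat_lit 78) (nat_lit 76) (nat_lit 0) (XT.lf (nat_lit 0) (nat_lit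 6783293) (nat_lit 152) (nat_lit 263108529) (nat_lit 76) (nat_lit 52429071384) (nat_lit 5) (nat_lit 5) (nat_lit 7) (nat_lit 5) (nat_lit 6) (nat_lit 4) (nat_lit 372) (nat_lit 326) (nat_lit 322)) (XT.nd (nat_lit 78) (nat_lit 0) (nat_lit 0) (XT.lf (nat_lit 0) (nat_lit 9774685940) (nat_lit 152) (nat_lit 39860133177) (nat_lit 0) (nat_lit 9491163287) (nat_lit 4) (nat_lit 5) (nat_lit 6) (nat_lit 4) (nat_lit 4) (nat_lit 4) (nat_lit 373) (nat_lit 326) (nat_lit 321)) (XT.lf (nat_lit 0) (nat_lit 20369304856) (nat_lit 152) (nat_lit 26194310841) (nat_lit 0) (nat_lit 20049216274) (nat_lit 4) (nat_lit 5) (nat_lit 6) (nat_lit 4) (nat_lit 4) (nat_lit 4) (nat_lit 374) (nat_lit 326) (nat_lit 320)))) (XT.nd (nat_lit 78) (nat_lit 76) (nat_lit 0) (XT.lf (nat_lit 0) (nat_lit 31974221440) (nat_lit 152) (nat_lit 11712991599) (nat_lit 0) (nat_lit 31622336397) (nat_lit 4) (nat_lit 5) (nat_lit 6) (nat_lit 4) (nat_lit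 4) (nat_lit 4) (nat_lit 375) (nat_lit 326) (nat_lit 319)) (XT.nd (nat_lit 78) (nat_lit 0) (nat_lit 0) (XT.lf (nat_lit 0) (nat_lit 4245081188) (nat_lit 76) (nat_lit 40747186979) (nat_lit 76) (nat_lit 40367652840) (nat_lit 3) (nat_lit 4) (nat_lit 4) (nat_lit 5) (nat_lit 4) (nat_lit 4) (nat_lit 376) (nat_lit 326) (nat_lit 318)) (XT.lf (nat_lit 0) (nat_lit 22888664188) (nat_lit 76) (nat_lit 37206474090) (nat_lit 76) (nat_lit 36802897258) (nat_lit 3) (nat_lit 4) (nat_lit 4) (nat_lit 5) (nat_lit 4) (nat_lit 4) (nat_lit 377) (nat_lit 326) (nat_lit 317))))) (XT.nd (nat_lit 234) (nat_lit 0) (nat_lit 0) (XT.nd (nat_lit 78) (nat_lit 0) (nat_lit 0) (XT.lf (nat_lit 0) (nat_lit 43437844430) (nat_lit 76) (nat_lit 33608069570) (nat_lit 76) (nat_lit 33183586050) (nat_lit 3) (nat_lit 4) (nat_lit 4) (nat_lit 5) (nat_lit 4) (nat_lit 4) (nat_lit 378) (nat_lit 326) (nat_lit 316)) (XT.nd (nat_lit 78) (nat_lit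 0) (nat_lit 0) (XT.lf (nat_lit 0) (nat_lit 66294671093) (nat_lit 76) (nat_lit 29881569854) (nat_lit 76) (nat_lit 29438906604) (nat_lit 3) (nat_lit 4) (nat_lit 4) (nat_lit 5) (nat_lit 4) (nat_lit 4) (nat_lit 379) (nat_lit 326) (nat_lit 315)) (XT.lf (nat_lit 0) (nat_lit 91906342959) (nat_lit 76) (nat_lit 25954065164) (nat_lit 76) (nat_lit 25495593454) (nat_lit 3) (nat_lit 4) (nat_lit 4) (nat_lit 5) (nat_lit 4) (nat_lit 4) (nat_lit 380) (nat_lit 326) (nat_lit 314)))) (XT.nd (nat_lit 156) (nat_lit 0) (nat_lit 0) (XT.nd (nat_lit 78) (nat_lit 0) (nat_lit 0) (XT.lf (nat_lit 0) (nat_lit 120773957956) (nat_lit 76) (nat_lit 21748713017) (nat_lit 76) (nat_lit 21276494820) (nat_lit 3) (nat_lit 4) (nat_lit 4) (nat_lit 5) (nat_lit 4) (nat_lit 4) (nat_lit 381) (nat_lit 326) (nat_lit 313)) (XT.lf (nat_lit 0) (nat_lit 153462317247) (nat_lit 76) (nat_lit 17183234784) (nat_lit 76) (nat_lit 16699063119) (nat_lit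 3) (nat_lit 4) (nat_lit 4) (nat_lit 5) (nat_lit 4) (nat_lit 4) (nat_lit 382) (nat_lit 326) (nat_lit 312))) (XT.nd (nat_lit 78) (nat_lit 0) (nat_lit 0) (XT.lf (nat_lit 0) (nat_lit 190610975688) (nat_lit 76) (nat_lit 12168305891) (nat_lit 76) (nat_lit 11673739907) (nat_lit 3) (nat_lit 4) (nat_lit 4) (nat_lit 5) (nat_lit 4) (nat_lit 4) (nat_lit 383) (nat_lit 326) (nat_lit 311)) (XT.lf (nat_lit 0) (nat_lit 232946754856) (nat_lit 76) (nat_lit 6605808164) (nat_lit 76) (nat_lit 6102203642) (nat_lit 3) (nat_lit 4) (nat_lit 4) (nat_lit 5) (nat_lit 4) (nat_lit 4) (nat_lit 384) (nat_lit 326) (nat_lit 310))))))) (XT.nd (nat_lit 1014) (nat_lit 0) (nat_lit 0) (XT.nd (nat_lit 468) (nat_lit 0) (nat_lit 0) (XT.nd (nat_lit 234) (nat_lit 0) (nat_lit 0) (XT.nd (nat_lit 78) (nat_lit 76) (nat_lit 0) (XT.lf (nat_lit 0) (nat_lit 113465337) (nat_lit 152) (nat_lit 267513646) (nat_lit 76) (nat_lit 281178566996) (nat_lit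 2) (nat_lit 5) (nat_lit 4) (nat_lit 5) (nat_lit 3) (nat_lit 4) (nat_lit 385) (nat_lit 326) (nat_lit 309)) (XT.nd (nat_lit 78) (nat_lit 0) (nat_lit 0) (XT.lf (nat_lit 0) (nat_lit 7421664104) (nat_lit 152) (nat_lit 308296083039) (nat_lit 0) (nat_lit 6970969709) (nat_lit 1) (nat_lit 5) (nat_lit 3) (nat_lit 4) (nat_lit 1) (nat_lit 4) (nat_lit 386) (nat_lit 326) (nat_lit 308)) (XT.lf (nat_lit 0) (nat_lit 15716064380) (nat_lit 152) (nat_lit 339027502057) (nat_lit 0) (nat_lit 15260202171) (nat_lit 1) (nat_lit 5) (nat_lit 3) (nat_lit 4) (nat_lit 1) (nat_lit 4) (nat_lit 387) (nat_lit 326) (nat_lit 307)))) (XT.nd (nat_lit 78) (nat_lit 0) (nat_lit 0) (XT.lf (nat_lit 0) (nat_lit 25130433636) (nat_lit 152) (nat_lit 374634196349) (nat_lit 0) (nat_lit 24670077676) (nat_lit 1) (nat_lit 5) (nat_lit 3) (nat_lit 4) (nat_lit 1) (nat_lit 4) (nat_lit 388) (nat_lit 326) (nat_lit 306)) (XT.nd (nat_lit 78) (nat_lit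 0) (nat_lit 0) (XT.lf (nat_lit 0) (nat_lit 35848966053) (nat_lit 152) (nat_lit 415812818629) (nat_lit 0) (nat_lit 35384702483) (nat_lit 1) (nat_lit 5) (nat_lit 3) (nat_lit 4) (nat_lit 1) (nat_lit 4) (nat_lit 389) (nat_lit 326) (nat_lit 305)) (XT.lf (nat_lit 0) (nat_lit 48081372049) (nat_lit 152) (nat_lit 463369037595) (nat_lit 0) (nat_lit 47613710558) (nat_lit 1) (nat_lit 5) (nat_lit 3) (nat_lit 4) (nat_lit 1) (nat_lit 4) (nat_lit 390) (nat_lit 326) (nat_lit 304))))) (XT.nd (nat_lit 234) (nat_lit 0) (nat_lit 0) (XT.nd (nat_lit 78) (nat_lit 0) (nat_lit 0) (XT.lf (nat_lit 0) (nat_lit 62066981306) (nat_lit 152) (nat_lit 518233301008) (nat_lit 0) (nat_lit 61596365100) (nat_lit 1) (nat_lit 5) (nat_lit 3) (nat_lit 4) (nat_lit 1) (nat_lit 4) (nat_lit 391) (nat_lit 326) (nat_lit 303)) (XT.nd (nat_lit 78) (nat_lit 0) (nat_lit 0) (XT.lf (nat_lit 0) (nat_lit 78079425309) (nat_lit 152) (nat_lit 581479040109)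 (nat_lit 0) (nat_lit 77606239787) (nat_lit 1) (nat_lit 5) (nat_lit 3) (nat_lit 4) (nat_lit 1) (nat_lit 4) (nat_lit 392) (nat_lit 326) (nat_lit 302)) (XT.lf (nat_lit 0) (nat_lit 96431991006) (nat_lit 152) (nat_lit 654343671533) (nat_lit 0) (nat_lit 95956571295) (nat_lit 1) (nat_lit 5) (nat_lit 3) (nat_lit 4) (nat_lit 1) (nat_lit 4) (nat_lit 393) (nat_lit 326) (nat_lit 301)))) (XT.nd (nat_lit 156) (nat_lit 0) (nat_lit 0) (XT.nd (nat_lit 78) (nat_lit 0) (nat_lit 0) (XT.lf (nat_lit 0) (nat_lit 117483750335) (nat_lit 152) (nat_lit 738252807633) (nat_lit 0) (nat_lit 117006387852) (nat_lit 1) (nat_lit 5) (nat_lit 3) (nat_lit 4) (nat_lit 1) (nat_lit 4) (nat_lit 394) (nat_lit 326) (nat_lit 300)) (XT.lf (nat_lit 0) (nat_lit 141646585544) (nat_lit 152) (nat_lit 834848148900) (nat_lit 0) (nat_lit 141167533693) (nat_lit 1) (nat_lit 5) (nat_lit 3) (nat_lit 4) (nat_lit 1) (nat_lit 4) (nat_lit 395) (nat_lit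 326) (nat_lit 299))) (XT.nd (nat_lit 78) (nat_lit 0) (nat_lit 0) (XT.lf (nat_lit 0) (nat_lit 169393247755) (nat_lit 152) (nat_lit 946019604183) (nat_lit 0) (nat_lit 168912726889) (nat_lit 1) (nat_lit 5) (nat_lit 3) (nat_lit 4) (nat_lit 1) (nat_lit 4) (nat_lit 396) (nat_lit 326) (nat_lit 298)) (XT.lf (nat_lit 0) (nat_lit 201266606448) (nat_lit 152) (nat_lit 1073942267172) (nat_lit 0) (nat_lit 200784808177) (nat_lit 1) (nat_lit 5) (nat_lit 3) (nat_lit 4) (nat_lit 1) (nat_lit 4) (nat_lit 397) (nat_lit 326) (nat_lit 297)))))) (XT.nd (nat_lit 468) (nat_lit 0) (nat_lit 0) (XT.nd (nat_lit 234) (nat_lit 0) (nat_lit 0) (XT.nd (nat_lit 78) (nat_lit 0) (nat_lit 0) (XT.lf (nat_lit 0) (nat_lit 237890270813) (nat_lit 152) (nat_lit 1221118972580) (nat_lit 0) (nat_lit 237407361756) (nat_lit 1) (nat_lit 5) (nat_lit 3) (nat_lit 4) (nat_lit 1) (nat_lit 4) (nat_lit 398) (nat_lit 326) (nat_lit 296)) (XT.nd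 (nat_lit 78) (nat_lit 0) (nat_lit 0) (XT.lf (nat_lit 0) (nat_lit 279980790807) (nat_lit 152) (nat_lit 1390429264640) (nat_lit 0) (nat_lit 279496915849) (nat_lit 1) (nat_lit 5) (nat_lit 3) (nat_lit 4) (nat_lit 1) (nat_lit 4) (nat_lit 399) (nat_lit 326) (nat_lit 295)) (XT.lf (nat_lit 0) (nat_lit 328361676603) (nat_lit 152) (nat_lit 1585185736026) (nat_lit 0) (nat_lit 327876961730) (nat_lit 1) (nat_lit 5) (nat_lit 3) (nat_lit 4) (nat_lit 1) (nat_lit 4) (nat_lit 400) (nat_lit 326) (nat_lit 294)))) (XT.nd (nat_lit 78) (nat_lit 0) (nat_lit 0) (XT.lf (nat_lit 0) (nat_lit 383979510748) (nat_lit 152) (nat_lit 1809198839437) (nat_lit 0) (nat_lit 383494065515) (nat_lit 1) (nat_lit 5) (nat_lit 3) (nat_lit 4) (nat_lit 1) (nat_lit 4) (nat_lit 401) (nat_lit 326) (nat_lit 293)) (XT.nd (nat_lit 78) (nat_lit 0) (nat_lit 0) (XT.lf (nat_lit 0) (nat_lit 447922468259) (nat_lit 152) (nat_lit 2066851439940) (nat_lit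 0) (nat_lit 447436387930) (nat_lit 1) (nat_lit 5) (nat_lit 3) (nat_lit 4) (nat_lit 1) (nat_lit 4) (nat_lit 402) (nat_lit 326) (nat_lit 292)) (XT.lf (nat_lit 0) (nat_lit 521441607000) (nat_lit 152) (nat_lit 2363184566676) (nat_lit 0) (nat_lit 520954974414) (nat_lit 1) (nat_lit 5) (nat_lit 3) (nat_lit 4) (nat_lit 1) (nat_lit 4) (nat_lit 403) (nat_lit 326) (nat_lit 291))))) (XT.nd (nat_lit 234) (nat_lit 0) (nat_lit 0) (XT.nd (nat_lit 78) (nat_lit 0) (nat_lit 0) (XT.lf (nat_lit 0) (nat_lit 605975344904) (nat_lit 152) (nat_lit 2703996041689) (nat_lit 0) (nat_lit 605488232094) (nat_lit 1) (nat_lit 5) (nat_lit 3) (nat_lit 4) (nat_lit 1) (nat_lit 4) (nat_lit 404) (nat_lit 326) (nat_lit 290)) (XT.nd (nat_lit 78) (nat_lit 0) (nat_lit 0) (XT.lf (nat_lit 0) (nat_lit 703177602928) (nat_lit 152) (nat_lit 3095953915577) (nat_lit 0) (nat_lit 702690072533) (nat_lit 1) (nat_lit 5) (nat_lit 3) (nat_lit 4)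 (nat_lit 1) (nat_lit 4) (nat_lit 405) (nat_lit 326) (nat_lit 289)) (XT.lf (nat_lit 0) (nat_lit 814950164383) (nat_lit 152) (nat_lit 3546726929352) (nat_lit 0) (nat_lit 814462270869) (nat_lit 1) (nat_lit 5) (nat_lit 3) (nat_lit 4) (nat_lit 1) (nat_lit 4) (nat_lit 406) (nat_lit 326) (nat_lit 288)))) (XT.nd (nat_lit 156) (nat_lit 0) (nat_lit 0) (XT.nd (nat_lit 78) (nat_lit 0) (nat_lit 0) (XT.lf (nat_lit 0) (nat_lit 943479883731) (nat_lit 152) (nat_lit 4065134555022) (nat_lit 0) (nat_lit 942991674462) (nat_lit 1) (nat_lit 5) (nat_lit 3) (nat_lit 4) (nat_lit 1) (nat_lit 4) (nat_lit 407) (nat_lit 326) (nat_lit 287)) (XT.lf (nat_lit 0) (nat_lit 1091281472873) (nat_lit 152) (nat_lit 4661319550480) (nat_lit 0) (nat_lit 1090792989035) (nat_lit 1) (nat_lit 5) (nat_lit 3) (nat_lit 4) (nat_lit 1) (nat_lit 4) (nat_lit 408) (nat_lit 326) (nat_lit 286))) (XT.nd (nat_lit 78) (nat_lit 0) (nat_lit 0) (XT.lf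 (nat_lit 0) (nat_lit 1261246702031) (nat_lit 152) (nat_lit 5346946404768) (nat_lit 0) (nat_lit 1260757979437) (nat_lit 1) (nat_lit 5) (nat_lit 3) (nat_lit 4) (nat_lit 1) (nat_lit 4) (nat_lit 409) (nat_lit 326) (nat_lit 285)) (XT.lf (nat_lit 0) (nat_lit 1456700977862) (nat_lit 152) (nat_lit 6135429556340) (nat_lit 0) (nat_lit 1456212047654) (nat_lit 1) (nat_lit 5) (nat_lit 3) (nat_lit 4) (nat_lit 1) (nat_lit 4) (nat_lit 410) (nat_lit 326) (nat_lit 284))))))))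
noncomputable def xc25 : XT := (XT.nd (nat_lit 1950) (nat_lit 0) (nat_lit 0) (XT.nd (nat_lit 936) (nat_lit 0) (nat_lit 0) (XT.nd (nat_lit 468) (nat_lit 0) (nat_lit 0) (XT.nd (nat_lit 234) (nat_lit 0) (nat_lit 0) (XT.nd (nat_lit 78) (nat_lit 0) (nat_lit 0) (XT.lf (nat_lit 0) (nat_lit 1681468405764) (nat_lit 152) (nat_lit 7042195849465) (nat_lit 0) (nat_lit 1680979295022) (nat_lit 1) (nat_lit 5) (nat_lit 3) (nat_lit 4) (nat_lit 1) (nat_lit 4) (nat_lit 411) (nat_lit 326) (nat_lit 283)) (XT.nd (nat_lit 78) (nat_lit 0) (nat_lit 0) (XT.lf (nat_lit 0) (nat_lit 1939946609325) (nat_lit 152) (nat_lit 8084986363791) (nat_lit 0) (nat_lit 1939457341597) (nat_lit 1) (nat_lit 5) (nat_lit 3) (nat_lit 4) (nat_lit 1) (nat_lit 4) (nat_lit 412) (nat_lit 326) (nat_lit 282)) (XT.lf (nat_lit 0) (nat_lit 2237192770790) (nat_lit 152) (nat_lit 9284203522426) (nat_lit 0) (nat_lit 2236703366552) (nat_lit 1) (nat_lit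 5) (nat_lit 3) (nat_lit 4) (nat_lit 1) (nat_lit 4) (nat_lit 413) (nat_lit 326) (nat_lit 281)))) (XT.nd (nat_lit 78) (nat_lit 0) (nat_lit 0) (XT.lf (nat_lit 0) (nat_lit 2579022575925) (nat_lit 152) (nat_lit 10663310269776) (nat_lit 0) (nat_lit 2578533052984) (nat_lit 1) (nat_lit 5) (nat_lit 3) (nat_lit 4) (nat_lit 1) (nat_lit 4) (nat_lit 414) (nat_lit 326) (nat_lit 280)) (XT.nd (nat_lit 78) (nat_lit 0) (nat_lit 0) (XT.lf (nat_lit 0) (nat_lit 2972123999180) (nat_lit 152) (nat_lit 12249289129160) (nat_lit 0) (nat_lit 2971634373018) (nat_lit 1) (nat_lit 5) (nat_lit 3) (nat_lit 4) (nat_lit 1) (nat_lit 4) (nat_lit 415) (nat_lit 326) (nat_lit 279)) (XT.lf (nat_lit 0) (nat_lit 3424188155357) (nat_lit 152) (nat_lit 14073170121740) (nat_lit 0) (nat_lit 3423698439437) (nat_lit 1) (nat_lit 5) (nat_lit 3) (nat_lit 4) (nat_lit 1) (nat_lit 4) (nat_lit 416) (nat_lit 326) (nat_lit 278))))) (XT.nd (nat_lit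 234) (nat_lit 0) (nat_lit 0) (XT.nd (nat_lit 78) (nat_lit 0) (nat_lit 0) (XT.lf (nat_lit 0) (nat_lit 3944059777946) (nat_lit 152) (nat_lit 16170637875631) (nat_lit 0) (nat_lit 3943569983977) (nat_lit 1) (nat_lit 5) (nat_lit 3) (nat_lit 4) (nat_lit 1) (nat_lit 4) (nat_lit 417) (nat_lit 326) (nat_lit 277)) (XT.nd (nat_lit 78) (nat_lit 0) (nat_lit 0) (XT.lf (nat_lit 0) (nat_lit 4541910268260) (nat_lit 152) (nat_lit 18582729803409) (nat_lit 0) (nat_lit 4541420406421) (nat_lit 1) (nat_lit 5) (nat_lit 3) (nat_lit 4) (nat_lit 1) (nat_lit 4) (nat_lit 418) (nat_lit 326) (nat_lit 276)) (XT.lf (nat_lit 0) (nat_lit 5229436701108) (nat_lit 152) (nat_lit 21356639008009) (nat_lit 0) (nat_lit 5228946780252) (nat_lit 1) (nat_lit 5) (nat_lit 3) (nat_lit 4) (nat_lit 1) (nat_lit 4) (nat_lit 419) (nat_lit 326) (nat_lit 275)))) (XT.nd (nat_lit 78) (nat_lit 0) (nat_lit 0) (XT.lf (nat_lit 0) (nat_lit 6020090680611)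 (nat_lit 152) (nat_lit 24546637626043) (nat_lit 0) (nat_lit 6019600708437) (nat_lit 1) (nat_lit 5) (nat_lit 3) (nat_lit 4) (nat_lit 1) (nat_lit 4) (nat_lit 420) (nat_lit 326) (nat_lit 274)) (XT.nd (nat_lit 78) (nat_lit 0) (nat_lit 0) (XT.lf (nat_lit 0) (nat_lit 6929341523760) (nat_lit 152) (nat_lit 28215138673951) (nat_lit 0) (nat_lit 6928851506961) (nat_lit 1) (nat_lit 5) (nat_lit 3) (nat_lit 4) (nat_lit 1) (nat_lit 4) (nat_lit 421) (nat_lit 326) (nat_lit 273)) (XT.lf (nat_lit 0) (nat_lit 7974978920964) (nat_lit 152) (nat_lit 32433917172235) (nat_lit 0) (nat_lit 7974488865360) (nat_lit 1) (nat_lit 5) (nat_lit 3) (nat_lit 4) (nat_lit 1) (nat_lit 4) (nat_lit 422) (nat_lit 326) (nat_lit 272)))))) (XT.nd (nat_lit 468) (nat_lit 0) (nat_lit 0) (XT.nd (nat_lit 234) (nat_lit 0) (nat_lit 0) (XT.nd (nat_lit 78) (nat_lit 0) (nat_lit 0) (XT.lf (nat_lit 0) (nat_lit 9177460995213) (nat_lit 152) (nat_lit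 37285514439340) (nat_lit 0) (nat_lit 9176970905866) (nat_lit 1) (nat_lit 5) (nat_lit 3) (nat_lit 4) (nat_lit 1) (nat_lit 4) (nat_lit 423) (nat_lit 326) (nat_lit 271)) (XT.nd (nat_lit 78) (nat_lit 0) (nat_lit 0) (XT.lf (nat_lit 0) (nat_lit 10560314569697) (nat_lit 152) (nat_lit 42864853030492) (nat_lit 0) (nat_lit 10559824451008) (nat_lit 1) (nat_lit 5) (nat_lit 3) (nat_lit 4) (nat_lit 1) (nat_lit 4) (nat_lit 424) (nat_lit 326) (nat_lit 270)) (XT.lf (nat_lit 0) (nat_lit 12150595475222) (nat_lit 152) (nat_lit 49281093918127) (nat_lit 0) (nat_lit 12150105331018) (nat_lit 1) (nat_lit 5) (nat_lit 3) (nat_lit 4) (nat_lit 1) (nat_lit 4) (nat_lit 425) (nat_lit 326) (nat_lit 269)))) (XT.nd (nat_lit 78) (nat_lit 0) (nat_lit 0) (XT.lf (nat_lit 0) (nat_lit 13979417903417) (nat_lit 152) (nat_lit 56659772250045) (nat_lit 0) (nat_lit 13978927737027) (nat_lit 1) (nat_lit 5) (nat_lit 3) (nat_lit 4) (nat_lit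 1) (nat_lit 4) (nat_lit 426) (nat_lit 326) (nat_lit 268)) (XT.nd (nat_lit 78) (nat_lit 0) (nat_lit 0) (XT.lf (nat_lit 0) (nat_lit 16082563162662) (nat_lit 152) (nat_lit 65145253471872) (nat_lit 0) (nat_lit 16082072976979) (nat_lit 1) (nat_lit 5) (nat_lit 3) (nat_lit 4) (nat_lit 1) (nat_lit 4) (nat_lit 427) (nat_lit 326) (nat_lit 267)) (XT.lf (nat_lit 0) (nat_lit 18501179747157) (nat_lit 152) (nat_lit 74903557868382) (nat_lit 0) (nat_lit 18500689544698) (nat_lit 1) (nat_lit 5) (nat_lit 3) (nat_lit 4) (nat_lit 1) (nat_lit 4) (nat_lit 428) (nat_lit 326) (nat_lit 266))))) (XT.nd (nat_lit 234) (nat_lit 0) (nat_lit 0) (XT.nd (nat_lit 78) (nat_lit 0) (nat_lit 0) (XT.lf (nat_lit 0) (nat_lit 21282588416165) (nat_lit 152) (nat_lit 86125608786464) (nat_lit 0) (nat_lit 21282098199118) (nat_lit 1) (nat_lit 5) (nat_lit 3) (nat_lit 4) (nat_lit 1) (nat_lit 4) (nat_lit 429) (nat_lit 326) (nat_lit 265))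 (XT.nd (nat_lit 78) (nat_lit 0) (nat_lit 0) (XT.lf (nat_lit 0) (nat_lit 24481208034950) (nat_lit 152) (nat_lit 99030968091906) (nat_lit 0) (nat_lit 24480717805217) (nat_lit 1) (nat_lit 5) (nat_lit 3) (nat_lit 4) (nat_lit 1) (nat_lit 4) (nat_lit 430) (nat_lit 326) (nat_lit 264)) (XT.lf (nat_lit 0) (nat_lit 28159620291704) (nat_lit 152) (nat_lit 113872131945031) (nat_lit 0) (nat_lit 28159130050941) (nat_lit 1) (nat_lit 5) (nat_lit 3) (nat_lit 4) (nat_lit 1) (nat_lit 4) (nat_lit 431) (nat_lit 326) (nat_lit 263)))) (XT.nd (nat_lit 156) (nat_lit 0) (nat_lit 0) (XT.nd (nat_lit 78) (nat_lit 0) (nat_lit 0) (XT.lf (nat_lit 0) (nat_lit 32389794121886) (nat_lit 152) (nat_lit 130939470942968) (nat_lit 0) (nat_lit 32389303871531) (nat_lit 1) (nat_lit 5) (nat_lit 3) (nat_lit 4) (nat_lit 1) (nat_lit 4) (nat_lit 432) (nat_lit 326) (nat_lit 262)) (XT.lf (nat_lit 0) (nat_lit 37254493796087) (nat_lit 152)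 (nat_lit 150566911283501) (nat_lit 0) (nat_lit 37254003537391) (nat_lit 1) (nat_lit 5) (nat_lit 3) (nat_lit 4) (nat_lit 1) (nat_lit 4) (nat_lit 433) (nat_lit 326) (nat_lit 261))) (XT.nd (nat_lit 78) (nat_lit 0) (nat_lit 0) (XT.lf (nat_lit 0) (nat_lit 42848898220975) (nat_lit 152) (nat_lit 173138468103726) (nat_lit 0) (nat_lit 42848407955026) (nat_lit 1) (nat_lit 5) (nat_lit 3) (nat_lit 4) (nat_lit 1) (nat_lit 4) (nat_lit 434) (nat_lit 326) (nat_lit 260)) (XT.lf (nat_lit 0) (nat_lit 49282463135299) (nat_lit 152) (nat_lit 199095758819694) (nat_lit 0) (nat_lit 49281972863043) (nat_lit 1) (nat_lit 5) (nat_lit 3) (nat_lit 4) (nat_lit 1) (nat_lit 4) (nat_lit 435) (nat_lit 326) (nat_lit 259))))))) (XT.nd (nat_lit 47736) (nat_lit 0) (nat_lit 152) (XT.nd (nat_lit 468) (nat_lit 0) (nat_lit 0) (XT.nd (nat_lit 234) (nat_lit 0) (nat_lit 0) (XT.nd (nat_lit 78) (nat_lit 0) (nat_lit 0) (XT.lf (nat_lit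 0) (nat_lit 56681062635208) (nat_lit 152) (nat_lit 228946643467150) (nat_lit 0) (nat_lit 56680572357468) (nat_lit 1) (nat_lit 5) (nat_lit 3) (nat_lit 4) (nat_lit 1) (nat_lit 4) (nat_lit 436) (nat_lit 326) (nat_lit 258)) (XT.nd (nat_lit 78) (nat_lit 0) (nat_lit 0) (XT.lf (nat_lit 0) (nat_lit 65189451928309) (nat_lit 152) (nat_lit 263275161093544) (nat_lit 0) (nat_lit 65188961645800) (nat_lit 1) (nat_lit 5) (nat_lit 3) (nat_lit 4) (nat_lit 1) (nat_lit 4) (nat_lit 437) (nat_lit 326) (nat_lit 257)) (XT.lf (nat_lit 0) (nat_lit 74974099500772) (nat_lit 152) (nat_lit 302752956608960) (nat_lit 0) (nat_lit 74973609214117) (nat_lit 1) (nat_lit 5) (nat_lit 3) (nat_lit 4) (nat_lit 1) (nat_lit 4) (nat_lit 438) (nat_lit 326) (nat_lit 256)))) (XT.nd (nat_lit 78) (nat_lit 0) (nat_lit 0) (XT.lf (nat_lit 0) (nat_lit 86226444109449) (nat_lit 152) (nat_lit 348152421664783) (nat_lit 0) (nat_lit 86225953819188)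 (nat_lit 1) (nat_lit 5) (nat_lit 3) (nat_lit 4) (nat_lit 1) (nat_lit 4) (nat_lit 439) (nat_lit 326) (nat_lit 255)) (XT.nd (nat_lit 78) (nat_lit 0) (nat_lit 0) (XT.lf (nat_lit 0) (nat_lit 99166640322771) (nat_lit 152) (nat_lit 400361806664282) (nat_lit 0) (nat_lit 99166150029374) (nat_lit 1) (nat_lit 5) (nat_lit 3) (nat_lit 4) (nat_lit 1) (nat_lit 4) (nat_lit 440) (nat_lit 326) (nat_lit 254)) (XT.lf (nat_lit 0) (nat_lit 114047865892737) (nat_lit 152) (nat_lit 460402599574839) (nat_lit 0) (nat_lit 114047375596613) (nat_lit 1) (nat_lit 5) (nat_lit 3) (nat_lit 4) (nat_lit 1) (nat_lit 4) (nat_lit 441) (nat_lit 326) (nat_lit 253))))) (XT.nd (nat_lit 312) (nat_lit 0) (nat_lit 0) (XT.nd (nat_lit 156) (nat_lit 0) (nat_lit 0) (XT.lf (nat_lit 0) (nat_lit 131161275232672) (nat_lit 152) (nat_lit 529449511562092) (nat_lit 0) (nat_lit 131160784934179) (nat_lit 1) (nat_lit 5) (nat_lit 3) (nat_lit 4) (nat_lit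 1) (nat_lit 4) (nat_lit 442) (nat_lit 326) (nat_lit 252)) (XT.nd (nat_lit 78) (nat_lit 0) (nat_lit 0) (XT.lf (nat_lit 0) (nat_lit 173474179653616) (nat_lit 152) (nat_lit 700168001818477) (nat_lit 0) (nat_lit 173473689351267) (nat_lit 1) (nat_lit 5) (nat_lit 3) (nat_lit 4) (nat_lit 1) (nat_lit 4) (nat_lit 444) (nat_lit 326) (nat_lit 250)) (XT.lf (nat_lit 0) (nat_lit 199501535908076) (nat_lit 152) (nat_lit 805179724462189) (nat_lit 0) (nat_lit 199501045604167) (nat_lit 1) (nat_lit 5) (nat_lit 3) (nat_lit 4) (nat_lit 1) (nat_lit 4) (nat_lit 445) (nat_lit 326) (nat_lit 249)))) (XT.nd (nat_lit 156) (nat_lit 0) (nat_lit 0) (XT.nd (nat_lit 78) (nat_lit 0) (nat_lit 0) (XT.lf (nat_lit 0) (nat_lit 229432995563241) (nat_lit 152) (nat_lit 925943205582571) (nat_lit 0) (nat_lit 229432505257976) (nat_lit 1) (nat_lit 5) (nat_lit 3) (nat_lit 4) (nat_lit 1) (nat_lit 4) (nat_lit 446) (nat_lit 326) (nat_lit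 248)) (XT.lf (nat_lit 0) (nat_lit 263854174134101) (nat_lit 152) (nat_lit 1064821208940671) (nat_lit 0) (nat_lit 263853683827659) (nat_lit 1) (nat_lit 5) (nat_lit 3) (nat_lit 4) (nat_lit 1) (nat_lit 4) (nat_lit 447) (nat_lit 326) (nat_lit 247))) (XT.nd (nat_lit 46722) (nat_lit 0) (nat_lit 684) (XT.lf (nat_lit 0) (nat_lit 303438529462264) (nat_lit 152) (nat_lit 1224530912863059) (nat_lit 0) (nat_lit 303438039154797) (nat_lit 1) (nat_lit 5) (nat_lit 3) (nat_lit 4) (nat_lit 1) (nat_lit 4) (nat_lit 448) (nat_lit 326) (nat_lit 246)) (XT.lf (nat_lit 0) (nat_lit 6238390230) (nat_lit 152) (nat_lit 1693656206) (nat_lit 0) (nat_lit 6238390230) (nat_lit 10) (nat_lit 5) (nat_lit 12) (nat_lit 4) (nat_lit 10) (nat_lit 4) (nat_lit 366) (nat_lit 327) (nat_lit 327)))))) (XT.nd (nat_lit 468) (nat_lit 228) (nat_lit 0) (XT.nd (nat_lit 234) (nat_lit 76) (nat_lit 0) (XT.nd (nat_lit 78) (nat_lit 152) (nat_lit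 0) (XT.lf (nat_lit 0) (nat_lit 16737537030) (nat_lit 76) (nat_lit 7250427637) (nat_lit 76) (nat_lit 7138571623) (nat_lit 9) (nat_lit 4) (nat_lit 10) (nat_lit 5) (nat_lit 10) (nat_lit 4) (nat_lit 367) (nat_lit 327) (nat_lit 326)) (XT.nd (nat_lit 78) (nat_lit 0) (nat_lit 0) (XT.lf (nat_lit 0) (nat_lit 2210138692) (nat_lit 152) (nat_lit 30137822432) (nat_lit 0) (nat_lit 2028293376) (nat_lit 7) (nat_lit 5) (nat_lit 9) (nat_lit 4) (nat_lit 7) (nat_lit 4) (nat_lit 368) (nat_lit 327) (nat_lit 325)) (XT.lf (nat_lit 0) (nat_lit 12480535160) (nat_lit 152) (nat_lit 13319242097) (nat_lit 0) (nat_lit 12225142698) (nat_lit 7) (nat_lit 5) (nat_lit 9) (nat_lit 4) (nat_lit 7) (nat_lit 4) (nat_lit 369) (nat_lit 327) (nat_lit 324)))) (XT.nd (nat_lit 78) (nat_lit 0) (nat_lit 0) (XT.lf (nat_lit 0) (nat_lit 4821133611) (nat_lit 76) (nat_lit 18902169392) (nat_lit 76) (nat_lit 18582822891) (nat_lit 6) (nat_lit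 4) (nat_lit 7) (nat_lit 5) (nat_lit 7) (nat_lit 4) (nat_lit 370) (nat_lit 327) (nat_lit 323)) (XT.nd (nat_lit 78) (nat_lit 0) (nat_lit 0) (XT.lf (nat_lit 0) (nat_lit 25623364639) (nat_lit 76) (nat_lit 10993249222) (nat_lit 76) (nat_lit 10618290513) (nat_lit 6) (nat_lit 4) (nat_lit 7) (nat_lit 5) (nat_lit 7) (nat_lit 4) (nat_lit 371) (nat_lit 327) (nat_lit 322)) (XT.lf (nat_lit 0) (nat_lit 48192797955) (nat_lit 76) (nat_lit 2614510113) (nat_lit 76) (nat_lit 2191192963) (nat_lit 6) (nat_lit 4) (nat_lit 7) (nat_lit 5) (nat_lit 7) (nat_lit 4) (nat_lit 372) (nat_lit 327) (nat_lit 321))))) (XT.nd (nat_lit 234) (nat_lit 76) (nat_lit 0) (XT.nd (nat_lit 78) (nat_lit 0) (nat_lit 0) (XT.lf (nat_lit 0) (nat_lit 7148743562) (nat_lit 152) (nat_lit 45639770301) (nat_lit 0) (nat_lit 6744075762) (nat_lit 4) (nat_lit 5) (nat_lit 6) (nat_lit 4) (nat_lit 4) (nat_lit 4) (nat_lit 373) (nat_lit 327) (nat_lit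 320)) (XT.nd (nat_lit 78) (nat_lit 0) (nat_lit 0) (XT.lf (nat_lit 0) (nat_lit 17474108911) (nat_lit 152) (nat_lit 32548076544) (nat_lit 0) (nat_lit 17037644651) (nat_lit 4) (nat_lit 5) (nat_lit 6) (nat_lit 4) (nat_lit 4) (nat_lit 4) (nat_lit 374) (nat_lit 327) (nat_lit 319)) (XT.lf (nat_lit 0) (nat_lit 28844891958) (nat_lit 152) (nat_lit 18565999545) (nat_lit 0) (nat_lit 28380778602) (nat_lit 4) (nat_lit 5) (nat_lit 6) (nat_lit 4) (nat_lit 4) (nat_lit 4) (nat_lit 375) (nat_lit 327) (nat_lit 318)))) (XT.nd (nat_lit 156) (nat_lit 0) (nat_lit 0) (XT.nd (nat_lit 78) (nat_lit 76) (nat_lit 0) (XT.lf (nat_lit 0) (nat_lit 41483564546) (nat_lit 152) (nat_lit 3419976929) (nat_lit 0) (nat_lit 40995408498) (nat_lit 4) (nat_lit 5) (nat_lit 6) (nat_lit 4) (nat_lit 4) (nat_lit 4) (nat_lit 376) (nat_lit 327) (nat_lit 317)) (XT.lf (nat_lit 0) (nat_lit 14474990257) (nat_lit 76) (nat_lit 41761793272) (nat_lit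 76) (nat_lit 41252730535) (nat_lit 3) (nat_lit 4) (nat_lit 4) (nat_lit 5) (nat_lit 4) (nat_lit 4) (nat_lit 377) (nat_lit 327) (nat_lit 316))) (XT.nd (nat_lit 78) (nat_lit 0) (nat_lit 0) (XT.lf (nat_lit 0) (nat_lit 34663830678) (nat_lit 76) (nat_lit 38354861070) (nat_lit 76) (nat_lit 37827618603) (nat_lit 3) (nat_lit 4) (nat_lit 4) (nat_lit 5) (nat_lit 4) (nat_lit 4) (nat_lit 378) (nat_lit 327) (nat_lit 315)) (XT.lf (nat_lit 0) (nat_lit 57207318366) (nat_lit 76) (nat_lit 34794859020) (nat_lit 76) (nat_lit 34251808093) (nat_lit 3) (nat_lit 4) (nat_lit 4) (nat_lit 5) (nat_lit 4) (nat_lit 4) (nat_lit 379) (nat_lit 327) (nat_lit 314))))))))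
noncomputable def xc26 : XT := (XT.nd (nat_lit 1950) (nat_lit 0) (nat_lit 0) (XT.nd (nat_lit 936) (nat_lit 0) (nat_lit 0) (XT.nd (nat_lit 468) (nat_lit 152) (nat_lit 0) (XT.nd (nat_lit 234) (nat_lit 0) (nat_lit 0) (XT.nd (nat_lit 78) (nat_lit 0) (nat_lit 0) (XT.lf (nat_lit 0) (nat_lit 82546521558) (nat_lit 76) (nat_lit 31012134910) (nat_lit 76) (nat_lit 30455337496) (nat_lit 3) (nat_lit 4) (nat_lit 4) (nat_lit 5) (nat_lit 4) (nat_lit 4) (nat_lit 380) (nat_lit 327) (nat_lit 313)) (XT.nd (nat_lit 78) (nat_lit 0) (nat_lit 0) (XT.lf (nat_lit 0) (nat_lit 111177207274) (nat_lit 76) (nat_lit 26932678919) (nat_lit 76) (nat_lit 26363928038) (nat_lit 3) (nat_lit 4) (nat_lit 4) (nat_lit 5) (nat_lit 4) (nat_lit 4) (nat_lit 381) (nat_lit 327) (nat_lit 312)) (XT.lf (nat_lit 0) (nat_lit 143659541102) (nat_lit 76) (nat_lit 22476675605) (nat_lit 76) (nat_lit 21897530404) (nat_lit 3) (nat_lit 4) (nat_lit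 4) (nat_lit 5) (nat_lit 4) (nat_lit 4) (nat_lit 382) (nat_lit 327) (nat_lit 311)))) (XT.nd (nat_lit 78) (nat_lit 0) (nat_lit 0) (XT.lf (nat_lit 0) (nat_lit 180629046967) (nat_lit 76) (nat_lit 17556942293) (nat_lit 76) (nat_lit 16968758554) (nat_lit 3) (nat_lit 4) (nat_lit 4) (nat_lit 5) (nat_lit 4) (nat_lit 4) (nat_lit 383) (nat_lit 327) (nat_lit 310)) (XT.nd (nat_lit 78) (nat_lit 0) (nat_lit 0) (XT.lf (nat_lit 0) (nat_lit 222809041287) (nat_lit 76) (nat_lit 12077223333) (nat_lit 76) (nat_lit 11481179995) (nat_lit 3) (nat_lit 4) (nat_lit 4) (nat_lit 5) (nat_lit 4) (nat_lit 4) (nat_lit 384) (nat_lit 327) (nat_lit 309)) (XT.lf (nat_lit 0) (nat_lit 271024784820) (nat_lit 76) (nat_lit 5930306830) (nat_lit 76) (nat_lit 5327429059) (nat_lit 3) (nat_lit 4) (nat_lit 4) (nat_lit 5) (nat_lit 4) (nat_lit 4) (nat_lit 385) (nat_lit 327) (nat_lit 308))))) (XT.nd (nat_lit 234) (nat_lit 0) (nat_lit 0)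 (XT.nd (nat_lit 78) (nat_lit 0) (nat_lit 0) (XT.lf (nat_lit 0) (nat_lit 1635496757) (nat_lit 152) (nat_lit 320826131140) (nat_lit 0) (nat_lit 1106087403) (nat_lit 1) (nat_lit 5) (nat_lit 3) (nat_lit 4) (nat_lit 1) (nat_lit 4) (nat_lit 386) (nat_lit 327) (nat_lit 307)) (XT.nd (nat_lit 78) (nat_lit 0) (nat_lit 0) (XT.lf (nat_lit 0) (nat_lit 9872133749) (nat_lit 152) (nat_lit 351681067564) (nat_lit 0) (nat_lit 9338230643) (nat_lit 1) (nat_lit 5) (nat_lit 3) (nat_lit 4) (nat_lit 1) (nat_lit 4) (nat_lit 387) (nat_lit 327) (nat_lit 306)) (XT.lf (nat_lit 0) (nat_lit 19236274062) (nat_lit 152) (nat_lit 387395168295) (nat_lit 0) (nat_lit 18698463347) (nat_lit 1) (nat_lit 5) (nat_lit 3) (nat_lit 4) (nat_lit 1) (nat_lit 4) (nat_lit 388) (nat_lit 327) (nat_lit 305)))) (XT.nd (nat_lit 78) (nat_lit 0) (nat_lit 0) (XT.lf (nat_lit 0) (nat_lit 29911129138) (nat_lit 152) (nat_lit 428667187479) (nat_lit 0)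 (nat_lit 29369920502) (nat_lit 1) (nat_lit 5) (nat_lit 3) (nat_lit 4) (nat_lit 1) (nat_lit 4) (nat_lit 389) (nat_lit 327) (nat_lit 304)) (XT.nd (nat_lit 78) (nat_lit 0) (nat_lit 0) (XT.lf (nat_lit 0) (nat_lit 42105554837) (nat_lit 152) (nat_lit 476304621144) (nat_lit 0) (nat_lit 41561391486) (nat_lit 1) (nat_lit 5) (nat_lit 3) (nat_lit 4) (nat_lit 1) (nat_lit 4) (nat_lit 390) (nat_lit 327) (nat_lit 303)) (XT.lf (nat_lit 0) (nat_lit 56058137748) (nat_lit 152) (nat_lit 531239506034) (nat_lit 0) (nat_lit 55511405081) (nat_lit 1) (nat_lit 5) (nat_lit 3) (nat_lit 4) (nat_lit 1) (nat_lit 4) (nat_lit 391) (nat_lit 327) (nat_lit 302)))))) (XT.nd (nat_lit 468) (nat_lit 0) (nat_lit 0) (XT.nd (nat_lit 234) (nat_lit 0) (nat_lit 0) (XT.nd (nat_lit 78) (nat_lit 0) (nat_lit 0) (XT.lf (nat_lit 0) (nat_lit 72041863190) (nat_lit 152) (nat_lit 594546655115) (nat_lit 0) (nat_lit 71492896334) (nat_lit 1) (nat_lit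 5) (nat_lit 3) (nat_lit 4) (nat_lit 1) (nat_lit 4) (nat_lit 392) (nat_lit 327) (nat_lit 301)) (XT.nd (nat_lit 78) (nat_lit 0) (nat_lit 0) (XT.lf (nat_lit 0) (nat_lit 90369456226) (nat_lit 152) (nat_lit 667464686522) (nat_lit 0) (nat_lit 89818546597) (nat_lit 1) (nat_lit 5) (nat_lit 3) (nat_lit 4) (nat_lit 1) (nat_lit 4) (nat_lit 393) (nat_lit 327) (nat_lit 300)) (XT.lf (nat_lit 0) (nat_lit 111399500197) (nat_lit 152) (nat_lit 751420257391) (nat_lit 0) (nat_lit 110846901200) (nat_lit 1) (nat_lit 5) (nat_lit 3) (nat_lit 4) (nat_lit 1) (nat_lit 4) (nat_lit 394) (nat_lit 327) (nat_lit 299)))) (XT.nd (nat_lit 78) (nat_lit 0) (nat_lit 0) (XT.lf (nat_lit 0) (nat_lit 135543452485) (nat_lit 152) (nat_lit 848055976716) (nat_lit 0) (nat_lit 134989384474) (nat_lit 1) (nat_lit 5) (nat_lit 3) (nat_lit 4) (nat_lit 1) (nat_lit 4) (nat_lit 395) (nat_lit 327) (nat_lit 298)) (XT.nd (nat_lit 78) (nat_lit 0)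 (nat_lit 0) (XT.lf (nat_lit 0) (nat_lit 163273694766) (nat_lit 152) (nat_lit 959262543354) (nat_lit 0) (nat_lit 162718349350) (nat_lit 1) (nat_lit 5) (nat_lit 3) (nat_lit 4) (nat_lit 1) (nat_lit 4) (nat_lit 396) (nat_lit 327) (nat_lit 297)) (XT.lf (nat_lit 0) (nat_lit 195132775258) (nat_lit 152) (nat_lit 1087215737957) (nat_lit 0) (nat_lit 194576319056) (nat_lit 1) (nat_lit 5) (nat_lit 3) (nat_lit 4) (nat_lit 1) (nat_lit 4) (nat_lit 397) (nat_lit 327) (nat_lit 296))))) (XT.nd (nat_lit 234) (nat_lit 0) (nat_lit 0) (XT.nd (nat_lit 78) (nat_lit 0) (nat_lit 0) (XT.lf (nat_lit 0) (nat_lit 231744023798) (nat_lit 152) (nat_lit 1234418992594) (nat_lit 0) (nat_lit 231186601694) (nat_lit 1) (nat_lit 5) (nat_lit 3) (nat_lit 4) (nat_lit 1) (nat_lit 4) (nat_lit 398) (nat_lit 327) (nat_lit 295)) (XT.nd (nat_lit 78) (nat_lit 0) (nat_lit 0) (XT.lf (nat_lit 0) (nat_lit 273823747420) (nat_lit 152) (nat_lit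 1403752370941) (nat_lit 0) (nat_lit 273265485402) (nat_lit 1) (nat_lit 5) (nat_lit 3) (nat_lit 4) (nat_lit 1) (nat_lit 4) (nat_lit 399) (nat_lit 327) (nat_lit 294)) (XT.lf (nat_lit 0) (nat_lit 322195245067) (nat_lit 152) (nat_lit 1598528917358) (nat_lit 0) (nat_lit 321636252689) (nat_lit 1) (nat_lit 5) (nat_lit 3) (nat_lit 4) (nat_lit 1) (nat_lit 4) (nat_lit 400) (nat_lit 327) (nat_lit 293)))) (XT.nd (nat_lit 156) (nat_lit 0) (nat_lit 0) (XT.nd (nat_lit 78) (nat_lit 0) (nat_lit 0) (XT.lf (nat_lit 0) (nat_lit 377804915605) (nat_lit 152) (nat_lit 1822559477318) (nat_lit 0) (nat_lit 377245288131) (nat_lit 1) (nat_lit 5) (nat_lit 3) (nat_lit 4) (nat_lit 1) (nat_lit 4) (nat_lit 401) (nat_lit 327) (nat_lit 292)) (XT.lf (nat_lit 0) (nat_lit 441740774327) (nat_lit 152) (nat_lit 2080227257429) (nat_lit 0) (nat_lit 441180594596) (nat_lit 1) (nat_lit 5) (nat_lit 3) (nat_lit 4) (nat_lit 1) (nat_lit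 4) (nat_lit 402) (nat_lit 327) (nat_lit 291))) (XT.nd (nat_lit 78) (nat_lit 0) (nat_lit 0) (XT.lf (nat_lit 0) (nat_lit 515253740209) (nat_lit 152) (nat_lit 2376573583824) (nat_lit 0) (nat_lit 514693080254) (nat_lit 1) (nat_lit 5) (nat_lit 3) (nat_lit 4) (nat_lit 1) (nat_lit 4) (nat_lit 403) (nat_lit 327) (nat_lit 290)) (XT.lf (nat_lit 0) (nat_lit 599782110408) (nat_lit 152) (nat_lit 2717396536801) (nat_lit 0) (nat_lit 599221032867) (nat_lit 1) (nat_lit 5) (nat_lit 3) (nat_lit 4) (nat_lit 1) (nat_lit 4) (nat_lit 404) (nat_lit 327) (nat_lit 289))))))) (XT.nd (nat_lit 1014) (nat_lit 0) (nat_lit 0) (XT.nd (nat_lit 468) (nat_lit 0) (nat_lit 0) (XT.nd (nat_lit 234) (nat_lit 0) (nat_lit 0) (XT.nd (nat_lit 78) (nat_lit 0) (nat_lit 0) (XT.lf (nat_lit 0) (nat_lit 696979700863) (nat_lit 152) (nat_lit 3109364391528) (nat_lit 0) (nat_lit 696418260204) (nat_lit 1) (nat_lit 5) (nat_lit 3) (nat_lit 4)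 (nat_lit 1) (nat_lit 4) (nat_lit 405) (nat_lit 327) (nat_lit 288)) (XT.nd (nat_lit 78) (nat_lit 0) (nat_lit 0) (XT.lf (nat_lit 0) (nat_lit 808748203562) (nat_lit 152) (nat_lit 3560146084293) (nat_lit 0) (nat_lit 808186447148) (nat_lit 1) (nat_lit 5) (nat_lit 3) (nat_lit 4) (nat_lit 1) (nat_lit 4) (nat_lit 406) (nat_lit 327) (nat_lit 287)) (XT.lf (nat_lit 0) (nat_lit 937274393557) (nat_lit 152) (nat_lit 4078561256911) (nat_lit 0) (nat_lit 936712362574) (nat_lit 1) (nat_lit 5) (nat_lit 3) (nat_lit 4) (nat_lit 1) (nat_lit 4) (nat_lit 407) (nat_lit 327) (nat_lit 286)))) (XT.nd (nat_lit 78) (nat_lit 0) (nat_lit 0) (XT.lf (nat_lit 0) (nat_lit 1085072913697) (nat_lit 152) (nat_lit 4674752814932) (nat_lit 0) (nat_lit 1084510643957) (nat_lit 1) (nat_lit 5) (nat_lit 3) (nat_lit 4) (nat_lit 1) (nat_lit 4) (nat_lit 408) (nat_lit 327) (nat_lit 285)) (XT.nd (nat_lit 78) (nat_lit 0) (nat_lit 0) (XT.lf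 (nat_lit 0) (nat_lit 1255035474157) (nat_lit 152) (nat_lit 5360385375797) (nat_lit 0) (nat_lit 1254472996804) (nat_lit 1) (nat_lit 5) (nat_lit 3) (nat_lit 4) (nat_lit 1) (nat_lit 4) (nat_lit 409) (nat_lit 327) (nat_lit 284)) (XT.lf (nat_lit 0) (nat_lit 1450487429382) (nat_lit 152) (nat_lit 6148873489610) (nat_lit 0) (nat_lit 1449924771495) (nat_lit 1) (nat_lit 5) (nat_lit 3) (nat_lit 4) (nat_lit 1) (nat_lit 4) (nat_lit 410) (nat_lit 327) (nat_lit 283))))) (XT.nd (nat_lit 234) (nat_lit 0) (nat_lit 0) (XT.nd (nat_lit 78) (nat_lit 0) (nat_lit 0) (XT.lf (nat_lit 0) (nat_lit 1675252839364) (nat_lit 152) (nat_lit 7055644097727) (nat_lit 0) (nat_lit 1674690024491) (nat_lit 1) (nat_lit 5) (nat_lit 3) (nat_lit 4) (nat_lit 1) (nat_lit 4) (nat_lit 411) (nat_lit 327) (nat_lit 282)) (XT.nd (nat_lit 78) (nat_lit 0) (nat_lit 0) (XT.lf (nat_lit 0) (nat_lit 1933729288214) (nat_lit 152) (nat_lit 8098438364220)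 (nat_lit 0) (nat_lit 1933166336831) (nat_lit 1) (nat_lit 5) (nat_lit 3) (nat_lit 4) (nat_lit 1) (nat_lit 4) (nat_lit 412) (nat_lit 327) (nat_lit 281)) (XT.lf (nat_lit 0) (nat_lit 2230973923841) (nat_lit 152) (nat_lit 9297658785609) (nat_lit 0) (nat_lit 2230410853755) (nat_lit 1) (nat_lit 5) (nat_lit 3) (nat_lit 4) (nat_lit 1) (nat_lit 4) (nat_lit 413) (nat_lit 327) (nat_lit 280)))) (XT.nd (nat_lit 156) (nat_lit 0) (nat_lit 0) (XT.nd (nat_lit 78) (nat_lit 0) (nat_lit 0) (XT.lf (nat_lit 0) (nat_lit 2572802402162) (nat_lit 152) (nat_lit 10676768370136) (nat_lit 0) (nat_lit 2572239228855) (nat_lit 1) (nat_lit 5) (nat_lit 3) (nat_lit 4) (nat_lit 1) (nat_lit 4) (nat_lit 414) (nat_lit 327) (nat_lit 279)) (XT.lf (nat_lit 0) (nat_lit 2965902671666) (nat_lit 152) (nat_lit 12262749696631) (nat_lit 0) (nat_lit 2965339408601) (nat_lit 1) (nat_lit 5) (nat_lit 3) (nat_lit 4) (nat_lit 1) (nat_lit 4) (nat_lit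 415) (nat_lit 327) (nat_lit 278))) (XT.nd (nat_lit 78) (nat_lit 0) (nat_lit 0) (XT.lf (nat_lit 0) (nat_lit 3417965824580) (nat_lit 152) (nat_lit 14086632834524) (nat_lit 0) (nat_lit 3417402483466) (nat_lit 1) (nat_lit 5) (nat_lit 3) (nat_lit 4) (nat_lit 1) (nat_lit 4) (nat_lit 416) (nat_lit 327) (nat_lit 277)) (XT.lf (nat_lit 0) (nat_lit 3937836574767) (nat_lit 152) (nat_lit 16184102453905) (nat_lit 0) (nat_lit 3937273165784) (nat_lit 1) (nat_lit 5) (nat_lit 3) (nat_lit 4) (nat_lit 1) (nat_lit 4) (nat_lit 417) (nat_lit 327) (nat_lit 276)))))) (XT.nd (nat_lit 468) (nat_lit 0) (nat_lit 0) (XT.nd (nat_lit 234) (nat_lit 0) (nat_lit 0) (XT.nd (nat_lit 78) (nat_lit 0) (nat_lit 0) (XT.lf (nat_lit 0) (nat_lit 4535686306470) (nat_lit 152) (nat_lit 18596196003849) (nat_lit 0) (nat_lit 4535122838470) (nat_lit 1) (nat_lit 5) (nat_lit 3) (nat_lit 4) (nat_lit 1) (nat_lit 4) (nat_lit 418) (nat_lit 327)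 (nat_lit 275)) (XT.nd (nat_lit 78) (nat_lit 0) (nat_lit 0) (XT.lf (nat_lit 0) (nat_lit 5223212079657) (nat_lit 152) (nat_lit 21370106619028) (nat_lit 0) (nat_lit 5222648560338) (nat_lit 1) (nat_lit 5) (nat_lit 3) (nat_lit 4) (nat_lit 1) (nat_lit 4) (nat_lit 419) (nat_lit 327) (nat_lit 274)) (XT.lf (nat_lit 0) (nat_lit 6013865485542) (nat_lit 152) (nat_lit 24560106463652) (nat_lit 0) (nat_lit 6013301921597) (nat_lit 1) (nat_lit 5) (nat_lit 3) (nat_lit 4) (nat_lit 1) (nat_lit 4) (nat_lit 420) (nat_lit 327) (nat_lit 273)))) (XT.nd (nat_lit 78) (nat_lit 0) (nat_lit 0) (XT.lf (nat_lit 0) (nat_lit 6923115829892) (nat_lit 152) (nat_lit 28228608578160) (nat_lit 0) (nat_lit 6922552227143) (nat_lit 1) (nat_lit 5) (nat_lit 3) (nat_lit 4) (nat_lit 1) (nat_lit 4) (nat_lit 421) (nat_lit 327) (nat_lit 272)) (XT.nd (nat_lit 78) (nat_lit 0) (nat_lit 0) (XT.lf (nat_lit 0) (nat_lit 7968752793359) (nat_lit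 152) (nat_lit 32447388003922) (nat_lit 0) (nat_lit 7968189156866) (nat_lit 1) (nat_lit 5) (nat_lit 3) (nat_lit 4) (nat_lit 1) (nat_lit 4) (nat_lit 422) (nat_lit 327) (nat_lit 271)) (XT.lf (nat_lit 0) (nat_lit 9171234490444) (nat_lit 152) (nat_lit 37298986077530) (nat_lit 0) (nat_lit 9170670824610) (nat_lit 1) (nat_lit 5) (nat_lit 3) (nat_lit 4) (nat_lit 1) (nat_lit 4) (nat_lit 423) (nat_lit 327) (nat_lit 270))))) (XT.nd (nat_lit 234) (nat_lit 0) (nat_lit 0) (XT.nd (nat_lit 78) (nat_lit 0) (nat_lit 0) (XT.lf (nat_lit 0) (nat_lit 10554087736959) (nat_lit 152) (nat_lit 42878325369988) (nat_lit 0) (nat_lit 10553524045611) (nat_lit 1) (nat_lit 5) (nat_lit 3) (nat_lit 4) (nat_lit 1) (nat_lit 4) (nat_lit 424) (nat_lit 327) (nat_lit 269)) (XT.nd (nat_lit 78) (nat_lit 0) (nat_lit 0) (XT.lf (nat_lit 0) (nat_lit 12144368357295) (nat_lit 152) (nat_lit 49294566867455) (nat_lit 0) (nat_lit 12143804643759)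 (nat_lit 1) (nat_lit 5) (nat_lit 3) (nat_lit 4) (nat_lit 1) (nat_lit 4) (nat_lit 425) (nat_lit 327) (nat_lit 268)) (XT.lf (nat_lit 0) (nat_lit 13973190537499) (nat_lit 152) (nat_lit 56673245729662) (nat_lit 0) (nat_lit 13972626804671) (nat_lit 1) (nat_lit 5) (nat_lit 3) (nat_lit 4) (nat_lit 1) (nat_lit 4) (nat_lit 426) (nat_lit 327) (nat_lit 267)))) (XT.nd (nat_lit 156) (nat_lit 0) (nat_lit 0) (XT.nd (nat_lit 78) (nat_lit 0) (nat_lit 0) (XT.lf (nat_lit 0) (nat_lit 16076335581099) (nat_lit 152) (nat_lit 65158727412609) (nat_lit 0) (nat_lit 16075771831495) (nat_lit 1) (nat_lit 5) (nat_lit 3) (nat_lit 4) (nat_lit 1) (nat_lit 4) (nat_lit 427) (nat_lit 327) (nat_lit 266)) (XT.lf (nat_lit 0) (nat_lit 18494951978077) (nat_lit 152) (nat_lit 74917032210094) (nat_lit 0) (nat_lit 18494388213885) (nat_lit 1) (nat_lit 5) (nat_lit 3) (nat_lit 4) (nat_lit 1) (nat_lit 4) (nat_lit 428) (nat_lit 327) (nat_lit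 265))) (XT.nd (nat_lit 78) (nat_lit 0) (nat_lit 0) (XT.lf (nat_lit 0) (nat_lit 21276360484027) (nat_lit 152) (nat_lit 86139083476849) (nat_lit 0) (nat_lit 21275796707150) (nat_lit 1) (nat_lit 5) (nat_lit 3) (nat_lit 4) (nat_lit 1) (nat_lit 4) (nat_lit 429) (nat_lit 327) (nat_lit 264)) (XT.lf (nat_lit 0) (nat_lit 24474979961022) (nat_lit 152) (nat_lit 99044443085485) (nat_lit 0) (nat_lit 24474416173114) (nat_lit 1) (nat_lit 5) (nat_lit 3) (nat_lit 4) (nat_lit 1) (nat_lit 4) (nat_lit 430) (nat_lit 327) (nat_lit 263))))))))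
noncomputable def xc27 : XT := (XT.nd (nat_lit 48594) (nat_lit 0) (nat_lit 0) (XT.nd (nat_lit 1092) (nat_lit 0) (nat_lit 0) (XT.nd (nat_lit 468) (nat_lit 0) (nat_lit 0) (XT.nd (nat_lit 234) (nat_lit 0) (nat_lit 0) (XT.nd (nat_lit 78) (nat_lit 0) (nat_lit 0) (XT.lf (nat_lit 0) (nat_lit 28153392094481) (nat_lit 152) (nat_lit 113885607202258) (nat_lit 0) (nat_lit 28152828296981) (nat_lit 1) (nat_lit 5) (nat_lit 3) (nat_lit 4) (nat_lit 1) (nat_lit 4) (nat_lit 431) (nat_lit 327) (nat_lit 262)) (XT.nd (nat_lit 78) (nat_lit 0) (nat_lit 0) (XT.lf (nat_lit 0) (nat_lit 32383565817450) (nat_lit 152) (nat_lit 130952946429453) (nat_lit 0) (nat_lit 32383002011609) (nat_lit 1) (nat_lit 5) (nat_lit 3) (nat_lit 4) (nat_lit 1) (nat_lit 4) (nat_lit 432) (nat_lit 327) (nat_lit 261)) (XT.lf (nat_lit 0) (nat_lit 37248265398421) (nat_lit 152) (nat_lit 150580386969341) (nat_lit 0) (nat_lit 37247701585327) (nat_lit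 1) (nat_lit 5) (nat_lit 3) (nat_lit 4) (nat_lit 1) (nat_lit 4) (nat_lit 433) (nat_lit 327) (nat_lit 260)))) (XT.nd (nat_lit 78) (nat_lit 0) (nat_lit 0) (XT.lf (nat_lit 0) (nat_lit 42842669742241) (nat_lit 152) (nat_lit 173151943962919) (nat_lit 0) (nat_lit 42842105922840) (nat_lit 1) (nat_lit 5) (nat_lit 3) (nat_lit 4) (nat_lit 1) (nat_lit 4) (nat_lit 434) (nat_lit 327) (nat_lit 259)) (XT.nd (nat_lit 78) (nat_lit 0) (nat_lit 0) (XT.lf (nat_lit 0) (nat_lit 49276234586070) (nat_lit 152) (nat_lit 199109234829628) (nat_lit 0) (nat_lit 49275670761185) (nat_lit 1) (nat_lit 5) (nat_lit 3) (nat_lit 4) (nat_lit 1) (nat_lit 4) (nat_lit 435) (nat_lit 327) (nat_lit 258)) (XT.lf (nat_lit 0) (nat_lit 56674834024679) (nat_lit 152) (nat_lit 228960119608163) (nat_lit 0) (nat_lit 56674270195026) (nat_lit 1) (nat_lit 5) (nat_lit 3) (nat_lit 4) (nat_lit 1) (nat_lit 4) (nat_lit 436) (nat_lit 327) (nat_lit 257)))))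 (XT.nd (nat_lit 234) (nat_lit 0) (nat_lit 0) (XT.nd (nat_lit 78) (nat_lit 0) (nat_lit 0) (XT.lf (nat_lit 0) (nat_lit 65183223264477) (nat_lit 152) (nat_lit 263288637348539) (nat_lit 0) (nat_lit 65182659430676) (nat_lit 1) (nat_lit 5) (nat_lit 3) (nat_lit 4) (nat_lit 1) (nat_lit 4) (nat_lit 437) (nat_lit 327) (nat_lit 256)) (XT.nd (nat_lit 78) (nat_lit 0) (nat_lit 0) (XT.lf (nat_lit 0) (nat_lit 74967870790588) (nat_lit 152) (nat_lit 302766432963070) (nat_lit 0) (nat_lit 74967306953182) (nat_lit 1) (nat_lit 5) (nat_lit 3) (nat_lit 4) (nat_lit 1) (nat_lit 4) (nat_lit 438) (nat_lit 327) (nat_lit 255)) (XT.lf (nat_lit 0) (nat_lit 86220215358960) (nat_lit 152) (nat_lit 348165898105080) (nat_lit 0) (nat_lit 86219651518418) (nat_lit 1) (nat_lit 5) (nat_lit 3) (nat_lit 4) (nat_lit 1) (nat_lit 4) (nat_lit 439) (nat_lit 327) (nat_lit 254)))) (XT.nd (nat_lit 156) (nat_lit 0) (nat_lit 0) (XT.nd (nat_lit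 78) (nat_lit 0) (nat_lit 0) (XT.lf (nat_lit 0) (nat_lit 99160411537234) (nat_lit 152) (nat_lit 400375283179525) (nat_lit 0) (nat_lit 99159847693964) (nat_lit 1) (nat_lit 5) (nat_lit 3) (nat_lit 4) (nat_lit 1) (nat_lit 4) (nat_lit 440) (nat_lit 327) (nat_lit 253)) (XT.lf (nat_lit 0) (nat_lit 114041637076723) (nat_lit 152) (nat_lit 460416076155251) (nat_lit 0) (nat_lit 114041073231083) (nat_lit 1) (nat_lit 5) (nat_lit 3) (nat_lit 4) (nat_lit 1) (nat_lit 4) (nat_lit 441) (nat_lit 327) (nat_lit 252))) (XT.nd (nat_lit 156) (nat_lit 0) (nat_lit 0) (XT.lf (nat_lit 0) (nat_lit 131155046390158) (nat_lit 152) (nat_lit 529462988199172) (nat_lit 0) (nat_lit 131154482542456) (nat_lit 1) (nat_lit 5) (nat_lit 3) (nat_lit 4) (nat_lit 1) (nat_lit 4) (nat_lit 442) (nat_lit 327) (nat_lit 251)) (XT.lf (nat_lit 0) (nat_lit 173467950768017) (nat_lit 152) (nat_lit 700181478547685) (nat_lit 0) (nat_lit 173467386916964)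 (nat_lit 1) (nat_lit 5) (nat_lit 3) (nat_lit 4) (nat_lit 1) (nat_lit 4) (nat_lit 444) (nat_lit 327) (nat_lit 249)))))) (XT.nd (nat_lit 46956) (nat_lit 0) (nat_lit 380) (XT.nd (nat_lit 234) (nat_lit 0) (nat_lit 0) (XT.nd (nat_lit 78) (nat_lit 0) (nat_lit 0) (XT.lf (nat_lit 0) (nat_lit 199495307005050) (nat_lit 152) (nat_lit 805193201228658) (nat_lit 0) (nat_lit 199494743152644) (nat_lit 1) (nat_lit 5) (nat_lit 3) (nat_lit 4) (nat_lit 1) (nat_lit 4) (nat_lit 445) (nat_lit 327) (nat_lit 248)) (XT.nd (nat_lit 78) (nat_lit 0) (nat_lit 0) (XT.lf (nat_lit 0) (nat_lit 229426766645063) (nat_lit 152) (nat_lit 925956682381439) (nat_lit 0) (nat_lit 229426202791477) (nat_lit 1) (nat_lit 5) (nat_lit 3) (nat_lit 4) (nat_lit 1) (nat_lit 4) (nat_lit 446) (nat_lit 327) (nat_lit 247)) (XT.lf (nat_lit 0) (nat_lit 263847945202747) (nat_lit 152) (nat_lit 1064834685767715) (nat_lit 0) (nat_lit 263847381348138)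 (nat_lit 1) (nat_lit 5) (nat_lit 3) (nat_lit 4) (nat_lit 1) (nat_lit 4) (nat_lit 447) (nat_lit 327) (nat_lit 246)))) (XT.nd (nat_lit 46566) (nat_lit 0) (nat_lit 684) (XT.lf (nat_lit 0) (nat_lit 303432300519454) (nat_lit 152) (nat_lit 1224544389714601) (nat_lit 0) (nat_lit 303431736663951) (nat_lit 1) (nat_lit 5) (nat_lit 3) (nat_lit 4) (nat_lit 1) (nat_lit 4) (nat_lit 448) (nat_lit 327) (nat_lit 245)) (XT.nd (nat_lit 78) (nat_lit 152) (nat_lit 0) (XT.lf (nat_lit 0) (nat_lit 5348237640) (nat_lit 76) (nat_lit 3262657947) (nat_lit 76) (nat_lit 3262657947) (nat_lit 12) (nat_lit 4) (nat_lit 13) (nat_lit 5) (nat_lit 13) (nat_lit 4) (nat_lit 364) (nat_lit 328) (nat_lit 328)) (XT.lf (nat_lit 0) (nat_lit 2427139627) (nat_lit 152) (nat_lit 21218214297) (nat_lit 0) (nat_lit 2298505210) (nat_lit 10) (nat_lit 5) (nat_lit 12) (nat_lit 4) (nat_lit 10) (nat_lit 4) (nat_lit 365) (nat_lit 328) (nat_lit 327)))))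 (XT.nd (nat_lit 234) (nat_lit 76) (nat_lit 0) (XT.nd (nat_lit 78) (nat_lit 228) (nat_lit 0) (XT.lf (nat_lit 0) (nat_lit 12192904158) (nat_lit 152) (nat_lit 4257442185) (nat_lit 0) (nat_lit 11952413727) (nat_lit 10) (nat_lit 5) (nat_lit 12) (nat_lit 4) (nat_lit 10) (nat_lit 4) (nat_lit 366) (nat_lit 328) (nat_lit 326)) (XT.nd (nat_lit 78) (nat_lit 152) (nat_lit 0) (XT.lf (nat_lit 0) (nat_lit 14951793426) (nat_lit 76) (nat_lit 8319646129) (nat_lit 76) (nat_lit 7981889598) (nat_lit 9) (nat_lit 4) (nat_lit 10) (nat_lit 5) (nat_lit 10) (nat_lit 4) (nat_lit 367) (nat_lit 328) (nat_lit 325)) (XT.lf (nat_lit 0) (nat_lit 895856561) (nat_lit 152) (nat_lit 33165733699) (nat_lit 0) (nat_lit 528608085) (nat_lit 7) (nat_lit 5) (nat_lit 9) (nat_lit 4) (nat_lit 7) (nat_lit 4) (nat_lit 368) (nat_lit 328) (nat_lit 324)))) (XT.nd (nat_lit 156) (nat_lit 76) (nat_lit 0) (XT.nd (nat_lit 78) (nat_lit 0) (nat_lit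 0) (XT.lf (nat_lit 0) (nat_lit 10809127003) (nat_lit 152) (nat_lit 17105387005) (nat_lit 0) (nat_lit 10377924488) (nat_lit 7) (nat_lit 5) (nat_lit 9) (nat_lit 4) (nat_lit 7) (nat_lit 4) (nat_lit 369) (nat_lit 328) (nat_lit 323)) (XT.lf (nat_lit 0) (nat_lit 21541717614) (nat_lit 152) (nat_lit 53555550) (nat_lit 0) (nat_lit 21054902891) (nat_lit 7) (nat_lit 5) (nat_lit 9) (nat_lit 4) (nat_lit 7) (nat_lit 4) (nat_lit 370) (nat_lit 328) (nat_lit 322))) (XT.nd (nat_lit 78) (nat_lit 0) (nat_lit 0) (XT.lf (nat_lit 0) (nat_lit 20114077748) (nat_lit 76) (nat_lit 14022417180) (nat_lit 76) (nat_lit 13487244016) (nat_lit 6) (nat_lit 4) (nat_lit 7) (nat_lit 5) (nat_lit 7) (nat_lit 4) (nat_lit 371) (nat_lit 328) (nat_lit 321)) (XT.lf (nat_lit 0) (nat_lit 42136238114) (nat_lit 76) (nat_lit 5933473457) (nat_lit 76) (nat_lit 5356249473) (nat_lit 6) (nat_lit 4) (nat_lit 7) (nat_lit 5) (nat_lit 7) (nat_lit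 4) (nat_lit 372) (nat_lit 328) (nat_lit 320))))))) (XT.nd (nat_lit 1014) (nat_lit 152) (nat_lit 0) (XT.nd (nat_lit 468) (nat_lit 0) (nat_lit 0) (XT.nd (nat_lit 234) (nat_lit 76) (nat_lit 0) (XT.nd (nat_lit 78) (nat_lit 0) (nat_lit 0) (XT.lf (nat_lit 0) (nat_lit 3550014658) (nat_lit 152) (nat_lit 53520729439) (nat_lit 0) (nat_lit 3016284298) (nat_lit 4) (nat_lit 5) (nat_lit 6) (nat_lit 4) (nat_lit 4) (nat_lit 4) (nat_lit 373) (nat_lit 328) (nat_lit 319)) (XT.nd (nat_lit 78) (nat_lit 0) (nat_lit 0) (XT.lf (nat_lit 0) (nat_lit 13641246470) (nat_lit 152) (nat_lit 40928277925) (nat_lit 0) (nat_lit 13079867014) (nat_lit 4) (nat_lit 5) (nat_lit 6) (nat_lit 4) (nat_lit 4) (nat_lit 4) (nat_lit 374) (nat_lit 328) (nat_lit 318)) (XT.lf (nat_lit 0) (nat_lit 24808435137) (nat_lit 152) (nat_lit 27380324616) (nat_lit 0) (nat_lit 24223012990) (nat_lit 4) (nat_lit 5) (nat_lit 6) (nat_lit 4) (nat_lit 4)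 (nat_lit 4) (nat_lit 375) (nat_lit 328) (nat_lit 317)))) (XT.nd (nat_lit 78) (nat_lit 76) (nat_lit 0) (XT.lf (nat_lit 0) (nat_lit 37270069134) (nat_lit 152) (nat_lit 12611800860) (nat_lit 0) (nat_lit 36663740298) (nat_lit 4) (nat_lit 5) (nat_lit 6) (nat_lit 4) (nat_lit 4) (nat_lit 4) (nat_lit 376) (nat_lit 328) (nat_lit 316)) (XT.nd (nat_lit 78) (nat_lit 0) (nat_lit 0) (XT.lf (nat_lit 0) (nat_lit 4024534621) (nat_lit 76) (nat_lit 47412075813) (nat_lit 76) (nat_lit 46787567247) (nat_lit 3) (nat_lit 4) (nat_lit 4) (nat_lit 5) (nat_lit 4) (nat_lit 4) (nat_lit 377) (nat_lit 328) (nat_lit 315)) (XT.lf (nat_lit 0) (nat_lit 23900036067) (nat_lit 76) (nat_lit 44171641278) (nat_lit 76) (nat_lit 43531324251) (nat_lit 3) (nat_lit 4) (nat_lit 4) (nat_lit 5) (nat_lit 4) (nat_lit 4) (nat_lit 378) (nat_lit 328) (nat_lit 314))))) (XT.nd (nat_lit 234) (nat_lit 0) (nat_lit 0) (XT.nd (nat_lit 78) (nat_lit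 0) (nat_lit 0) (XT.lf (nat_lit 0) (nat_lit 46171055081) (nat_lit 76) (nat_lit 40756419808) (nat_lit 76) (nat_lit 40102356294) (nat_lit 3) (nat_lit 4) (nat_lit 4) (nat_lit 5) (nat_lit 4) (nat_lit 4) (nat_lit 379) (nat_lit 328) (nat_lit 313)) (XT.nd (nat_lit 78) (nat_lit 0) (nat_lit 0) (XT.lf (nat_lit 0) (nat_lit 71273328992) (nat_lit 76) (nat_lit 37099591854) (nat_lit 76) (nat_lit 36433574873) (nat_lit 3) (nat_lit 4) (nat_lit 4) (nat_lit 5) (nat_lit 4) (nat_lit 4) (nat_lit 380) (nat_lit 328) (nat_lit 312)) (XT.lf (nat_lit 0) (nat_lit 99697989245) (nat_lit 76) (nat_lit 33129610782) (nat_lit 76) (nat_lit 32453199482) (nat_lit 3) (nat_lit 4) (nat_lit 4) (nat_lit 5) (nat_lit 4) (nat_lit 4) (nat_lit 381) (nat_lit 328) (nat_lit 311)))) (XT.nd (nat_lit 156) (nat_lit 0) (nat_lit 0) (XT.nd (nat_lit 78) (nat_lit 0) (nat_lit 0) (XT.lf (nat_lit 0) (nat_lit 132001170498) (nat_lit 76) (nat_lit 28768803049)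 (nat_lit 76) (nat_lit 28083353210) (nat_lit 3) (nat_lit 4) (nat_lit 4) (nat_lit 5) (nat_lit 4) (nat_lit 4) (nat_lit 382) (nat_lit 328) (nat_lit 310)) (XT.lf (nat_lit 0) (nat_lit 168814891514) (nat_lit 76) (nat_lit 23931848504) (nat_lit 76) (nat_lit 23238539066) (nat_lit 3) (nat_lit 4) (nat_lit 4) (nat_lit 5) (nat_lit 4) (nat_lit 4) (nat_lit 383) (nat_lit 328) (nat_lit 309))) (XT.nd (nat_lit 78) (nat_lit 0) (nat_lit 0) (XT.lf (nat_lit 0) (nat_lit 210859420748) (nat_lit 76) (nat_lit 18524111079) (nat_lit 76) (nat_lit 17823967208) (nat_lit 3) (nat_lit 4) (nat_lit 4) (nat_lit 5) (nat_lit 4) (nat_lit 4) (nat_lit 384) (nat_lit 328) (nat_lit 308)) (XT.lf (nat_lit 0) (nat_lit 258957368555) (nat_lit 76) (nat_lit 12439787217) (nat_lit 76) (nat_lit 11733700360) (nat_lit 3) (nat_lit 4) (nat_lit 4) (nat_lit 5) (nat_lit 4) (nat_lit 4) (nat_lit 385) (nat_lit 328) (nat_lit 307)))))) (XT.nd (nat_lit 468)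 (nat_lit 0) (nat_lit 0) (XT.nd (nat_lit 234) (nat_lit 0) (nat_lit 0) (XT.nd (nat_lit 78) (nat_lit 152) (nat_lit 0) (XT.lf (nat_lit 0) (nat_lit 314049781739) (nat_lit 76) (nat_lit 5559835798) (nat_lit 76) (nat_lit 4848581127) (nat_lit 3) (nat_lit 4) (nat_lit 4) (nat_lit 5) (nat_lit 4) (nat_lit 4) (nat_lit 386) (nat_lit 328) (nat_lit 306)) (XT.nd (nat_lit 78) (nat_lit 0) (nat_lit 0) (XT.lf (nat_lit 0) (nat_lit 3043621296) (nat_lit 152) (nat_lit 366463591741) (nat_lit 0) (nat_lit 2421231364) (nat_lit 1) (nat_lit 5) (nat_lit 3) (nat_lit 4) (nat_lit 1) (nat_lit 4) (nat_lit 387) (nat_lit 328) (nat_lit 305)) (XT.lf (nat_lit 0) (nat_lit 12364084268) (nat_lit 152) (nat_lit 402271089376) (nat_lit 0) (nat_lit 11738296414) (nat_lit 1) (nat_lit 5) (nat_lit 3) (nat_lit 4) (nat_lit 1) (nat_lit 4) (nat_lit 388) (nat_lit 328) (nat_lit 304)))) (XT.nd (nat_lit 78) (nat_lit 0) (nat_lit 0) (XT.lf (nat_lit 0)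 (nat_lit 23000959047) (nat_lit 152) (nat_lit 443624323259) (nat_lit 0) (nat_lit 22372216479) (nat_lit 1) (nat_lit 5) (nat_lit 3) (nat_lit 4) (nat_lit 1) (nat_lit 4) (nat_lit 389) (nat_lit 328) (nat_lit 303)) (XT.nd (nat_lit 78) (nat_lit 0) (nat_lit 0) (XT.lf (nat_lit 0) (nat_lit 35162358401) (nat_lit 152) (nat_lit 491332378401) (nat_lit 0) (nat_lit 34531046516) (nat_lit 1) (nat_lit 5) (nat_lit 3) (nat_lit 4) (nat_lit 1) (nat_lit 4) (nat_lit 390) (nat_lit 328) (nat_lit 302)) (XT.lf (nat_lit 0) (nat_lit 49086222751) (nat_lit 152) (nat_lit 546328673272) (nat_lit 0) (nat_lit 48452676678) (nat_lit 1) (nat_lit 5) (nat_lit 3) (nat_lit 4) (nat_lit 1) (nat_lit 4) (nat_lit 391) (nat_lit 328) (nat_lit 301))))) (XT.nd (nat_lit 234) (nat_lit 0) (nat_lit 0) (XT.nd (nat_lit 78) (nat_lit 0) (nat_lit 0) (XT.lf (nat_lit 0) (nat_lit 65044975531) (nat_lit 152) (nat_lit 609689222336) (nat_lit 0) (nat_lit 64409486686)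 (nat_lit 1) (nat_lit 5) (nat_lit 3) (nat_lit 4) (nat_lit 1) (nat_lit 4) (nat_lit 392) (nat_lit 328) (nat_lit 300)) (XT.nd (nat_lit 78) (nat_lit 0) (nat_lit 0) (XT.lf (nat_lit 0) (nat_lit 83350853208) (nat_lit 152) (nat_lit 682653688510) (nat_lit 0) (nat_lit 82713674995) (nat_lit 1) (nat_lit 5) (nat_lit 3) (nat_lit 4) (nat_lit 1) (nat_lit 4) (nat_lit 393) (nat_lit 328) (nat_lit 299)) (XT.lf (nat_lit 0) (nat_lit 104362014259) (nat_lit 152) (nat_lit 766649637438) (nat_lit 0) (nat_lit 103723367031) (nat_lit 1) (nat_lit 5) (nat_lit 3) (nat_lit 4) (nat_lit 1) (nat_lit 4) (nat_lit 394) (nat_lit 328) (nat_lit 298)))) (XT.nd (nat_lit 156) (nat_lit 0) (nat_lit 0) (XT.nd (nat_lit 78) (nat_lit 0) (nat_lit 0) (XT.lf (nat_lit 0) (nat_lit 128489546617) (nat_lit 152) (nat_lit 863320468118) (nat_lit 0) (nat_lit 127849621984) (nat_lit 1) (nat_lit 5) (nat_lit 3) (nat_lit 4) (nat_lit 1) (nat_lit 4) (nat_lit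 395) (nat_lit 328) (nat_lit 297)) (XT.lf (nat_lit 0) (nat_lit 156205510698) (nat_lit 152) (nat_lit 974557566370) (nat_lit 0) (nat_lit 155564475278) (nat_lit 1) (nat_lit 5) (nat_lit 3) (nat_lit 4) (nat_lit 1) (nat_lit 4) (nat_lit 396) (nat_lit 328) (nat_lit 296))) (XT.nd (nat_lit 78) (nat_lit 0) (nat_lit 0) (XT.lf (nat_lit 0) (nat_lit 188052175364) (nat_lit 152) (nat_lit 1102537310203) (nat_lit 0) (nat_lit 187410174043) (nat_lit 1) (nat_lit 5) (nat_lit 3) (nat_lit 4) (nat_lit 1) (nat_lit 4) (nat_lit 397) (nat_lit 328) (nat_lit 295)) (XT.lf (nat_lit 0) (nat_lit 224652627532) (nat_lit 152) (nat_lit 1249763651125) (nat_lit 0) (nat_lit 224009786297) (nat_lit 1) (nat_lit 5) (nat_lit 3) (nat_lit 4) (nat_lit 1) (nat_lit 4) (nat_lit 398) (nat_lit 328) (nat_lit 294))))))))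
noncomputable def xc28 : XT := (XT.nd (nat_lit 1950) (nat_lit 0) (nat_lit 0) (XT.nd (nat_lit 936) (nat_lit 0) (nat_lit 0) (XT.nd (nat_lit 468) (nat_lit 0) (nat_lit 0) (XT.nd (nat_lit 234) (nat_lit 0) (nat_lit 0) (XT.nd (nat_lit 78) (nat_lit 0) (nat_lit 0) (XT.lf (nat_lit 0) (nat_lit 266722963006) (nat_lit 152) (nat_lit 1419117104504) (nat_lit 0) (nat_lit 266079391411) (nat_lit 1) (nat_lit 5) (nat_lit 3) (nat_lit 4) (nat_lit 1) (nat_lit 4) (nat_lit 399) (nat_lit 328) (nat_lit 293)) (XT.nd (nat_lit 78) (nat_lit 0) (nat_lit 0) (XT.lf (nat_lit 0) (nat_lit 315086297046) (nat_lit 152) (nat_lit 1613911107470) (nat_lit 0) (nat_lit 314442090355) (nat_lit 1) (nat_lit 5) (nat_lit 3) (nat_lit 4) (nat_lit 1) (nat_lit 4) (nat_lit 400) (nat_lit 328) (nat_lit 292)) (XT.lf (nat_lit 0) (nat_lit 370688868794) (nat_lit 152) (nat_lit 1837956847038) (nat_lit 0) (nat_lit 370044109846) (nat_lit 1) (nat_lit 5)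 (nat_lit 3) (nat_lit 4) (nat_lit 1) (nat_lit 4) (nat_lit 401) (nat_lit 328) (nat_lit 291)))) (XT.nd (nat_lit 78) (nat_lit 0) (nat_lit 0) (XT.lf (nat_lit 0) (nat_lit 434618554657) (nat_lit 152) (nat_lit 2095637826808) (nat_lit 0) (nat_lit 433973315485) (nat_lit 1) (nat_lit 5) (nat_lit 3) (nat_lit 4) (nat_lit 1) (nat_lit 4) (nat_lit 402) (nat_lit 328) (nat_lit 290)) (XT.nd (nat_lit 78) (nat_lit 0) (nat_lit 0) (XT.lf (nat_lit 0) (nat_lit 508126152833) (nat_lit 152) (nat_lit 2391995631167) (nat_lit 0) (nat_lit 507480496076) (nat_lit 1) (nat_lit 5) (nat_lit 3) (nat_lit 4) (nat_lit 1) (nat_lit 4) (nat_lit 403) (nat_lit 328) (nat_lit 289)) (XT.lf (nat_lit 0) (nat_lit 592649855463) (nat_lit 152) (nat_lit 2732828564983) (nat_lit 0) (nat_lit 592003835588) (nat_lit 1) (nat_lit 5) (nat_lit 3) (nat_lit 4) (nat_lit 1) (nat_lit 4) (nat_lit 404) (nat_lit 328) (nat_lit 288))))) (XT.nd (nat_lit 234) (nat_lit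 0) (nat_lit 0) (XT.nd (nat_lit 78) (nat_lit 0) (nat_lit 0) (XT.lf (nat_lit 0) (nat_lit 689843387163) (nat_lit 152) (nat_lit 3124805098701) (nat_lit 0) (nat_lit 689197051532) (nat_lit 1) (nat_lit 5) (nat_lit 3) (nat_lit 4) (nat_lit 1) (nat_lit 4) (nat_lit 405) (nat_lit 328) (nat_lit 287)) (XT.nd (nat_lit 78) (nat_lit 0) (nat_lit 0) (XT.lf (nat_lit 0) (nat_lit 801608360509) (nat_lit 152) (nat_lit 3575594338413) (nat_lit 0) (nat_lit 800961750309) (nat_lit 1) (nat_lit 5) (nat_lit 3) (nat_lit 4) (nat_lit 1) (nat_lit 4) (nat_lit 406) (nat_lit 328) (nat_lit 286)) (XT.lf (nat_lit 0) (nat_lit 930131481502) (nat_lit 152) (nat_lit 4094016073594) (nat_lit 0) (nat_lit 929484632546) (nat_lit 1) (nat_lit 5) (nat_lit 3) (nat_lit 4) (nat_lit 1) (nat_lit 4) (nat_lit 407) (nat_lit 328) (nat_lit 285)))) (XT.nd (nat_lit 78) (nat_lit 0) (nat_lit 0) (XT.lf (nat_lit 0) (nat_lit 1077927332944) (nat_lit 152) (nat_lit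 4690213338193) (nat_lit 0) (nat_lit 1077280276374) (nat_lit 1) (nat_lit 5) (nat_lit 3) (nat_lit 4) (nat_lit 1) (nat_lit 4) (nat_lit 408) (nat_lit 328) (nat_lit 284)) (XT.nd (nat_lit 78) (nat_lit 0) (nat_lit 0) (XT.lf (nat_lit 0) (nat_lit 1247887572797) (nat_lit 152) (nat_lit 5375850861299) (nat_lit 0) (nat_lit 1247240335693) (nat_lit 1) (nat_lit 5) (nat_lit 3) (nat_lit 4) (nat_lit 1) (nat_lit 4) (nat_lit 409) (nat_lit 328) (nat_lit 283)) (XT.lf (nat_lit 0) (nat_lit 1443337510103) (nat_lit 152) (nat_lit 6164343290103) (nat_lit 0) (nat_lit 1442690116013) (nat_lit 1) (nat_lit 5) (nat_lit 3) (nat_lit 4) (nat_lit 1) (nat_lit 4) (nat_lit 410) (nat_lit 328) (nat_lit 282)))))) (XT.nd (nat_lit 468) (nat_lit 0) (nat_lit 0) (XT.nd (nat_lit 234) (nat_lit 0) (nat_lit 0) (XT.nd (nat_lit 78) (nat_lit 0) (nat_lit 0) (XT.lf (nat_lit 0) (nat_lit 1668101165374) (nat_lit 152) (nat_lit 7071117650387) (nat_lit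 0) (nat_lit 1667453634774) (nat_lit 1) (nat_lit 5) (nat_lit 3) (nat_lit 4) (nat_lit 1) (nat_lit 4) (nat_lit 411) (nat_lit 328) (nat_lit 281)) (XT.nd (nat_lit 78) (nat_lit 0) (nat_lit 0) (XT.lf (nat_lit 0) (nat_lit 1926576088386) (nat_lit 152) (nat_lit 8113915179634) (nat_lit 0) (nat_lit 1925928439083) (nat_lit 1) (nat_lit 5) (nat_lit 3) (nat_lit 4) (nat_lit 1) (nat_lit 4) (nat_lit 412) (nat_lit 328) (nat_lit 280)) (XT.lf (nat_lit 0) (nat_lit 2223819397200) (nat_lit 152) (nat_lit 9313138438200) (nat_lit 0) (nat_lit 2223171644676) (nat_lit 1) (nat_lit 5) (nat_lit 3) (nat_lit 4) (nat_lit 1) (nat_lit 4) (nat_lit 413) (nat_lit 328) (nat_lit 279)))) (XT.nd (nat_lit 78) (nat_lit 0) (nat_lit 0) (XT.lf (nat_lit 0) (nat_lit 2565646721769) (nat_lit 152) (nat_lit 10692250489838) (nat_lit 0) (nat_lit 2564998879488) (nat_lit 1) (nat_lit 5) (nat_lit 3) (nat_lit 4) (nat_lit 1) (nat_lit 4) (nat_lit 414)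 (nat_lit 328) (nat_lit 278)) (XT.nd (nat_lit 78) (nat_lit 0) (nat_lit 0) (XT.lf (nat_lit 0) (nat_lit 2958745988010) (nat_lit 152) (nat_lit 12278233961647) (nat_lit 0) (nat_lit 2958098067679) (nat_lit 1) (nat_lit 5) (nat_lit 3) (nat_lit 4) (nat_lit 1) (nat_lit 4) (nat_lit 415) (nat_lit 328) (nat_lit 277)) (XT.lf (nat_lit 0) (nat_lit 3410808268522) (nat_lit 152) (nat_lit 14102118965030) (nat_lit 0) (nat_lit 3410160280322) (nat_lit 1) (nat_lit 5) (nat_lit 3) (nat_lit 4) (nat_lit 1) (nat_lit 4) (nat_lit 416) (nat_lit 328) (nat_lit 276))))) (XT.nd (nat_lit 234) (nat_lit 0) (nat_lit 0) (XT.nd (nat_lit 78) (nat_lit 0) (nat_lit 0) (XT.lf (nat_lit 0) (nat_lit 3930678260099) (nat_lit 152) (nat_lit 16199590206576) (nat_lit 0) (nat_lit 3930030212882) (nat_lit 1) (nat_lit 5) (nat_lit 3) (nat_lit 4) (nat_lit 1) (nat_lit 4) (nat_lit 417) (nat_lit 328) (nat_lit 275)) (XT.nd (nat_lit 78) (nat_lit 0) (nat_lit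 0) (XT.lf (nat_lit 0) (nat_lit 4528527332141) (nat_lit 152) (nat_lit 18611685167098) (nat_lit 0) (nat_lit 4527879233605) (nat_lit 1) (nat_lit 5) (nat_lit 3) (nat_lit 4) (nat_lit 1) (nat_lit 4) (nat_lit 418) (nat_lit 328) (nat_lit 274)) (XT.lf (nat_lit 0) (nat_lit 5216052531709) (nat_lit 152) (nat_lit 21385597008867) (nat_lit 0) (nat_lit 5215404388548) (nat_lit 1) (nat_lit 5) (nat_lit 3) (nat_lit 4) (nat_lit 1) (nat_lit 4) (nat_lit 419) (nat_lit 328) (nat_lit 273)))) (XT.nd (nat_lit 156) (nat_lit 0) (nat_lit 0) (XT.nd (nat_lit 78) (nat_lit 0) (nat_lit 0) (XT.lf (nat_lit 0) (nat_lit 6006705438795) (nat_lit 152) (nat_lit 24575597920091) (nat_lit 0) (nat_lit 6006057256829) (nat_lit 1) (nat_lit 5) (nat_lit 3) (nat_lit 4) (nat_lit 1) (nat_lit 4) (nat_lit 420) (nat_lit 328) (nat_lit 272)) (XT.lf (nat_lit 0) (nat_lit 6915955349408) (nat_lit 152) (nat_lit 28244100962077) (nat_lit 0) (nat_lit 6915307133699)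 (nat_lit 1) (nat_lit 5) (nat_lit 3) (nat_lit 4) (nat_lit 1) (nat_lit 4) (nat_lit 421) (nat_lit 328) (nat_lit 271))) (XT.nd (nat_lit 78) (nat_lit 0) (nat_lit 0) (XT.lf (nat_lit 0) (nat_lit 7961591935711) (nat_lit 152) (nat_lit 32462881194343) (nat_lit 0) (nat_lit 7960943690660) (nat_lit 1) (nat_lit 5) (nat_lit 3) (nat_lit 4) (nat_lit 1) (nat_lit 4) (nat_lit 422) (nat_lit 328) (nat_lit 270)) (XT.lf (nat_lit 0) (nat_lit 9164073304827) (nat_lit 152) (nat_lit 37314479969257) (nat_lit 0) (nat_lit 9163425034262) (nat_lit 1) (nat_lit 5) (nat_lit 3) (nat_lit 4) (nat_lit 1) (nat_lit 4) (nat_lit 423) (nat_lit 328) (nat_lit 269))))))) (XT.nd (nat_lit 1014) (nat_lit 0) (nat_lit 0) (XT.nd (nat_lit 468) (nat_lit 0) (nat_lit 0) (XT.nd (nat_lit 234) (nat_lit 0) (nat_lit 0) (XT.nd (nat_lit 78) (nat_lit 0) (nat_lit 0) (XT.lf (nat_lit 0) (nat_lit 10546926266153) (nat_lit 152) (nat_lit 42893819871548) (nat_lit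 0) (nat_lit 10546277973401) (nat_lit 1) (nat_lit 5) (nat_lit 3) (nat_lit 4) (nat_lit 1) (nat_lit 4) (nat_lit 424) (nat_lit 328) (nat_lit 268)) (XT.nd (nat_lit 78) (nat_lit 0) (nat_lit 0) (XT.lf (nat_lit 0) (nat_lit 12137206638497) (nat_lit 152) (nat_lit 49310061899303) (nat_lit 0) (nat_lit 12136558326453) (nat_lit 1) (nat_lit 5) (nat_lit 3) (nat_lit 4) (nat_lit 1) (nat_lit 4) (nat_lit 425) (nat_lit 328) (nat_lit 267)) (XT.lf (nat_lit 0) (nat_lit 13966028603058) (nat_lit 152) (nat_lit 56688741222631) (nat_lit 0) (nat_lit 13965380274236) (nat_lit 1) (nat_lit 5) (nat_lit 3) (nat_lit 4) (nat_lit 1) (nat_lit 4) (nat_lit 426) (nat_lit 328) (nat_lit 266)))) (XT.nd (nat_lit 78) (nat_lit 0) (nat_lit 0) (XT.lf (nat_lit 0) (nat_lit 16069173459141) (nat_lit 152) (nat_lit 65174223306553) (nat_lit 0) (nat_lit 16068525115731) (nat_lit 1) (nat_lit 5) (nat_lit 3) (nat_lit 4) (nat_lit 1) (nat_lit 4) (nat_lit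 427) (nat_lit 328) (nat_lit 265)) (XT.nd (nat_lit 78) (nat_lit 0) (nat_lit 0) (XT.lf (nat_lit 0) (nat_lit 18487789693061) (nat_lit 152) (nat_lit 74932528452711) (nat_lit 0) (nat_lit 18487141336966) (nat_lit 1) (nat_lit 5) (nat_lit 3) (nat_lit 4) (nat_lit 1) (nat_lit 4) (nat_lit 428) (nat_lit 328) (nat_lit 264)) (XT.lf (nat_lit 0) (nat_lit 21269198057221) (nat_lit 152) (nat_lit 86154580022660) (nat_lit 0) (nat_lit 21268549690096) (nat_lit 1) (nat_lit 5) (nat_lit 3) (nat_lit 4) (nat_lit 1) (nat_lit 4) (nat_lit 429) (nat_lit 328) (nat_lit 263))))) (XT.nd (nat_lit 234) (nat_lit 0) (nat_lit 0) (XT.nd (nat_lit 78) (nat_lit 0) (nat_lit 0) (XT.lf (nat_lit 0) (nat_lit 24467817410920) (nat_lit 152) (nat_lit 99059939894944) (nat_lit 0) (nat_lit 24467169034203) (nat_lit 1) (nat_lit 5) (nat_lit 3) (nat_lit 4) (nat_lit 1) (nat_lit 4) (nat_lit 430) (nat_lit 328) (nat_lit 262)) (XT.nd (nat_lit 78) (nat_lit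 0) (nat_lit 0) (XT.lf (nat_lit 0) (nat_lit 28146229437166) (nat_lit 152) (nat_lit 113901104240975) (nat_lit 0) (nat_lit 28145581052108) (nat_lit 1) (nat_lit 5) (nat_lit 3) (nat_lit 4) (nat_lit 1) (nat_lit 4) (nat_lit 431) (nat_lit 328) (nat_lit 261)) (XT.lf (nat_lit 0) (nat_lit 32376403066905) (nat_lit 152) (nat_lit 130968443667525) (nat_lit 0) (nat_lit 32375754674595) (nat_lit 1) (nat_lit 5) (nat_lit 3) (nat_lit 4) (nat_lit 1) (nat_lit 4) (nat_lit 432) (nat_lit 328) (nat_lit 260)))) (XT.nd (nat_lit 156) (nat_lit 0) (nat_lit 0) (XT.nd (nat_lit 78) (nat_lit 0) (nat_lit 0) (XT.lf (nat_lit 0) (nat_lit 37241102566808) (nat_lit 152) (nat_lit 150595884380765) (nat_lit 0) (nat_lit 37240454168191) (nat_lit 1) (nat_lit 5) (nat_lit 3) (nat_lit 4) (nat_lit 1) (nat_lit 4) (nat_lit 433) (nat_lit 328) (nat_lit 259)) (XT.lf (nat_lit 0) (nat_lit 42835506840133) (nat_lit 152) (nat_lit 173167441525084) (nat_lit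 0) (nat_lit 42834858436032) (nat_lit 1) (nat_lit 5) (nat_lit 3) (nat_lit 4) (nat_lit 1) (nat_lit 4) (nat_lit 434) (nat_lit 328) (nat_lit 258))) (XT.nd (nat_lit 78) (nat_lit 0) (nat_lit 0) (XT.lf (nat_lit 0) (nat_lit 49269071622663) (nat_lit 152) (nat_lit 199124732522872) (nat_lit 0) (nat_lit 49268423213793) (nat_lit 1) (nat_lit 5) (nat_lit 3) (nat_lit 4) (nat_lit 1) (nat_lit 4) (nat_lit 435) (nat_lit 328) (nat_lit 257)) (XT.lf (nat_lit 0) (nat_lit 56667671007968) (nat_lit 152) (nat_lit 228975617415390) (nat_lit 0) (nat_lit 56667022594951) (nat_lit 1) (nat_lit 5) (nat_lit 3) (nat_lit 4) (nat_lit 1) (nat_lit 4) (nat_lit 436) (nat_lit 328) (nat_lit 256)))))) (XT.nd (nat_lit 546) (nat_lit 0) (nat_lit 0) (XT.nd (nat_lit 234) (nat_lit 0) (nat_lit 0) (XT.nd (nat_lit 78) (nat_lit 0) (nat_lit 0) (XT.lf (nat_lit 0) (nat_lit 65176060201414) (nat_lit 152) (nat_lit 263304135254881) (nat_lit 0) (nat_lit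 65175411784791) (nat_lit 1) (nat_lit 5) (nat_lit 3) (nat_lit 4) (nat_lit 1) (nat_lit 4) (nat_lit 437) (nat_lit 328) (nat_lit 255)) (XT.nd (nat_lit 78) (nat_lit 0) (nat_lit 0) (XT.lf (nat_lit 0) (nat_lit 74960707687220) (nat_lit 152) (nat_lit 302781930955597) (nat_lit 0) (nat_lit 74960059267462) (nat_lit 1) (nat_lit 5) (nat_lit 3) (nat_lit 4) (nat_lit 1) (nat_lit 4) (nat_lit 438) (nat_lit 328) (nat_lit 254)) (XT.lf (nat_lit 0) (nat_lit 86213052220543) (nat_lit 152) (nat_lit 348181396172553) (nat_lit 0) (nat_lit 86212403798058) (nat_lit 1) (nat_lit 5) (nat_lit 3) (nat_lit 4) (nat_lit 1) (nat_lit 4) (nat_lit 439) (nat_lit 328) (nat_lit 253)))) (XT.nd (nat_lit 78) (nat_lit 0) (nat_lit 0) (XT.lf (nat_lit 0) (nat_lit 99153248368340) (nat_lit 152) (nat_lit 400390781312167) (nat_lit 0) (nat_lit 99152599943484) (nat_lit 1) (nat_lit 5) (nat_lit 3) (nat_lit 4) (nat_lit 1) (nat_lit 4) (nat_lit 440)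 (nat_lit 328) (nat_lit 252)) (XT.nd (nat_lit 78) (nat_lit 0) (nat_lit 0) (XT.lf (nat_lit 0) (nat_lit 114034473881329) (nat_lit 152) (nat_lit 460431574344562) (nat_lit 0) (nat_lit 114033825454410) (nat_lit 1) (nat_lit 5) (nat_lit 3) (nat_lit 4) (nat_lit 1) (nat_lit 4) (nat_lit 441) (nat_lit 328) (nat_lit 251)) (XT.lf (nat_lit 0) (nat_lit 131147883171718) (nat_lit 152) (nat_lit 529478486437762) (nat_lit 0) (nat_lit 131147234743007) (nat_lit 1) (nat_lit 5) (nat_lit 3) (nat_lit 4) (nat_lit 1) (nat_lit 4) (nat_lit 442) (nat_lit 328) (nat_lit 250))))) (XT.nd (nat_lit 234) (nat_lit 0) (nat_lit 0) (XT.nd (nat_lit 78) (nat_lit 0) (nat_lit 0) (XT.lf (nat_lit 0) (nat_lit 173460787512113) (nat_lit 152) (nat_lit 700196976866386) (nat_lit 0) (nat_lit 173460139080488) (nat_lit 1) (nat_lit 5) (nat_lit 3) (nat_lit 4) (nat_lit 1) (nat_lit 4) (nat_lit 444) (nat_lit 328) (nat_lit 248)) (XT.nd (nat_lit 78)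 (nat_lit 0) (nat_lit 0) (XT.lf (nat_lit 0) (nat_lit 199488143733996) (nat_lit 152) (nat_lit 805208699579760) (nat_lit 0) (nat_lit 199487495301190) (nat_lit 1) (nat_lit 5) (nat_lit 3) (nat_lit 4) (nat_lit 1) (nat_lit 4) (nat_lit 445) (nat_lit 328) (nat_lit 247)) (XT.lf (nat_lit 0) (nat_lit 229419603360833) (nat_lit 152) (nat_lit 925972180760715) (nat_lit 0) (nat_lit 229418954927002) (nat_lit 1) (nat_lit 5) (nat_lit 3) (nat_lit 4) (nat_lit 1) (nat_lit 4) (nat_lit 446) (nat_lit 328) (nat_lit 246)))) (XT.nd (nat_lit 46566) (nat_lit 0) (nat_lit 836) (XT.nd (nat_lit 46488) (nat_lit 0) (nat_lit 1064) (XT.lf (nat_lit 0) (nat_lit 263840781907061) (nat_lit 152) (nat_lit 1064850184171490) (nat_lit 0) (nat_lit 263840133472338) (nat_lit 1) (nat_lit 5) (nat_lit 3) (nat_lit 4) (nat_lit 1) (nat_lit 4) (nat_lit 447) (nat_lit 328) (nat_lit 245)) (XT.lf (nat_lit 0) (nat_lit 8735288836) (nat_lit 76) (nat_lit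 670345942) (nat_lit 76) (nat_lit 670345942) (nat_lit 15) (nat_lit 4) (nat_lit 16) (nat_lit 5) (nat_lit 16) (nat_lit 4) (nat_lit 362) (nat_lit 329) (nat_lit 329))) (XT.nd (nat_lit 78) (nat_lit 76) (nat_lit 0) (XT.lf (nat_lit 0) (nat_lit 7325139424) (nat_lit 152) (nat_lit 7365036729) (nat_lit 0) (nat_lit 7155020408) (nat_lit 13) (nat_lit 5) (nat_lit 15) (nat_lit 4) (nat_lit 13) (nat_lit 4) (nat_lit 363) (nat_lit 329) (nat_lit 328)) (XT.lf (nat_lit 0) (nat_lit 9868566494) (nat_lit 76) (nat_lit 7127955405) (nat_lit 76) (nat_lit 6809906810) (nat_lit 12) (nat_lit 4) (nat_lit 13) (nat_lit 5) (nat_lit 13) (nat_lit 4) (nat_lit 364) (nat_lit 329) (nat_lit 327))))))))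
noncomputable def xc29 : XT := (XT.nd (nat_lit 1950) (nat_lit 0) (nat_lit 0) (XT.nd (nat_lit 936) (nat_lit 228) (nat_lit 0) (XT.nd (nat_lit 468) (nat_lit 228) (nat_lit 0) (XT.nd (nat_lit 234) (nat_lit 152) (nat_lit 0) (XT.nd (nat_lit 78) (nat_lit 76) (nat_lit 0) (XT.lf (nat_lit 0) (nat_lit 1688171158) (nat_lit 152) (nat_lit 23088993310) (nat_lit 0) (nat_lit 1299751148) (nat_lit 10) (nat_lit 5) (nat_lit 12) (nat_lit 4) (nat_lit 10) (nat_lit 4) (nat_lit 365) (nat_lit 329) (nat_lit 326)) (XT.nd (nat_lit 78) (nat_lit 76) (nat_lit 0) (XT.lf (nat_lit 0) (nat_lit 11095230715) (nat_lit 152) (nat_lit 6884855784) (nat_lit 0) (nat_lit 10609544606) (nat_lit 10) (nat_lit 5) (nat_lit 12) (nat_lit 4) (nat_lit 10) (nat_lit 4) (nat_lit 366) (nat_lit 329) (nat_lit 325)) (XT.lf (nat_lit 0) (nat_lit 11345367758) (nat_lit 76) (nat_lit 10367146590) (nat_lit 76) (nat_lit 9796881263) (nat_lit 9) (nat_lit 4) (nat_lit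 10) (nat_lit 5) (nat_lit 10) (nat_lit 4) (nat_lit 367) (nat_lit 329) (nat_lit 324)))) (XT.nd (nat_lit 78) (nat_lit 152) (nat_lit 0) (XT.lf (nat_lit 0) (nat_lit 31733610022) (nat_lit 76) (nat_lit 1909608668) (nat_lit 76) (nat_lit 1265796197) (nat_lit 9) (nat_lit 4) (nat_lit 10) (nat_lit 5) (nat_lit 10) (nat_lit 4) (nat_lit 368) (nat_lit 329) (nat_lit 323)) (XT.nd (nat_lit 78) (nat_lit 0) (nat_lit 0) (XT.lf (nat_lit 0) (nat_lit 8219337226) (nat_lit 152) (nat_lit 22877020891) (nat_lit 0) (nat_lit 7603888086) (nat_lit 7) (nat_lit 5) (nat_lit 9) (nat_lit 4) (nat_lit 7) (nat_lit 4) (nat_lit 369) (nat_lit 329) (nat_lit 322)) (XT.lf (nat_lit 0) (nat_lit 18681889254) (nat_lit 152) (nat_lit 6398523002) (nat_lit 0) (nat_lit 18018081672) (nat_lit 7) (nat_lit 5) (nat_lit 9) (nat_lit 4) (nat_lit 7) (nat_lit 4) (nat_lit 370) (nat_lit 329) (nat_lit 321))))) (XT.nd (nat_lit 234) (nat_lit 152) (nat_lit 0)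 (XT.nd (nat_lit 78) (nat_lit 0) (nat_lit 0) (XT.lf (nat_lit 0) (nat_lit 12601760982) (nat_lit 76) (nat_lit 18129020410) (nat_lit 76) (nat_lit 17423162009) (nat_lit 6) (nat_lit 4) (nat_lit 7) (nat_lit 5) (nat_lit 7) (nat_lit 4) (nat_lit 371) (nat_lit 329) (nat_lit 320)) (XT.nd (nat_lit 78) (nat_lit 0) (nat_lit 0) (XT.lf (nat_lit 0) (nat_lit 34148031827) (nat_lit 76) (nat_lit 10292072672) (nat_lit 76) (nat_lit 9549648342) (nat_lit 6) (nat_lit 4) (nat_lit 7) (nat_lit 5) (nat_lit 7) (nat_lit 4) (nat_lit 372) (nat_lit 329) (nat_lit 319)) (XT.lf (nat_lit 0) (nat_lit 58036536803) (nat_lit 76) (nat_lit 1750705705) (nat_lit 76) (nat_lit 976484915) (nat_lit 6) (nat_lit 4) (nat_lit 7) (nat_lit 5) (nat_lit 7) (nat_lit 4) (nat_lit 373) (nat_lit 329) (nat_lit 318)))) (XT.nd (nat_lit 78) (nat_lit 0) (nat_lit 0) (XT.lf (nat_lit 0) (nat_lit 8795726746) (nat_lit 152) (nat_lit 51498875445) (nat_lit 0) (nat_lit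 8098448584) (nat_lit 4) (nat_lit 5) (nat_lit 6) (nat_lit 4) (nat_lit 4) (nat_lit 4) (nat_lit 374) (nat_lit 329) (nat_lit 317)) (XT.nd (nat_lit 78) (nat_lit 0) (nat_lit 0) (XT.lf (nat_lit 0) (nat_lit 19785876823) (nat_lit 152) (nat_lit 38328420996) (nat_lit 0) (nat_lit 19067691972) (nat_lit 4) (nat_lit 5) (nat_lit 6) (nat_lit 4) (nat_lit 4) (nat_lit 4) (nat_lit 375) (nat_lit 329) (nat_lit 316)) (XT.lf (nat_lit 0) (nat_lit 32093564219) (nat_lit 152) (nat_lit 23888157119) (nat_lit 0) (nat_lit 31357199639) (nat_lit 4) (nat_lit 5) (nat_lit 6) (nat_lit 4) (nat_lit 4) (nat_lit 4) (nat_lit 376) (nat_lit 329) (nat_lit 315)))))) (XT.nd (nat_lit 468) (nat_lit 152) (nat_lit 0) (XT.nd (nat_lit 234) (nat_lit 0) (nat_lit 0) (XT.nd (nat_lit 78) (nat_lit 76) (nat_lit 0) (XT.lf (nat_lit 0) (nat_lit 45959591514) (nat_lit 152) (nat_lit 7895556912) (nat_lit 0) (nat_lit 45207418473) (nat_lit 4) (nat_lit 5) (nat_lit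 6) (nat_lit 4) (nat_lit 4) (nat_lit 4) (nat_lit 377) (nat_lit 329) (nat_lit 314)) (XT.nd (nat_lit 78) (nat_lit 0) (nat_lit 0) (XT.lf (nat_lit 0) (nat_lit 10935864616) (nat_lit 76) (nat_lit 51172216763) (nat_lit 76) (nat_lit 50406297235) (nat_lit 3) (nat_lit 4) (nat_lit 4) (nat_lit 5) (nat_lit 4) (nat_lit 4) (nat_lit 378) (nat_lit 329) (nat_lit 313)) (XT.lf (nat_lit 0) (nat_lit 32969954348) (nat_lit 76) (nat_lit 47882891450) (nat_lit 76) (nat_lit 47105018455) (nat_lit 3) (nat_lit 4) (nat_lit 4) (nat_lit 5) (nat_lit 4) (nat_lit 4) (nat_lit 379) (nat_lit 329) (nat_lit 312)))) (XT.nd (nat_lit 78) (nat_lit 0) (nat_lit 0) (XT.lf (nat_lit 0) (nat_lit 57866202796) (nat_lit 76) (nat_lit 44335538415) (nat_lit 76) (nat_lit 43547271100) (nat_lit 3) (nat_lit 4) (nat_lit 4) (nat_lit 5) (nat_lit 4) (nat_lit 4) (nat_lit 380) (nat_lit 329) (nat_lit 311)) (XT.nd (nat_lit 78) (nat_lit 0) (nat_lit 0) (XT.lf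 (nat_lit 0) (nat_lit 86111710473) (nat_lit 76) (nat_lit 40460752924) (nat_lit 76) (nat_lit 39663447071) (nat_lit 3) (nat_lit 4) (nat_lit 4) (nat_lit 5) (nat_lit 4) (nat_lit 4) (nat_lit 381) (nat_lit 329) (nat_lit 310)) (XT.lf (nat_lit 0) (nat_lit 118259106877) (nat_lit 76) (nat_lit 36182723957) (nat_lit 76) (nat_lit 35377558505) (nat_lit 3) (nat_lit 4) (nat_lit 4) (nat_lit 5) (nat_lit 4) (nat_lit 4) (nat_lit 382) (nat_lit 329) (nat_lit 309))))) (XT.nd (nat_lit 234) (nat_lit 152) (nat_lit 0) (XT.nd (nat_lit 78) (nat_lit 0) (nat_lit 0) (XT.lf (nat_lit 0) (nat_lit 154937362808) (nat_lit 76) (nat_lit 31417750948) (nat_lit 76) (nat_lit 30605751062) (nat_lit 3) (nat_lit 4) (nat_lit 4) (nat_lit 5) (nat_lit 4) (nat_lit 4) (nat_lit 383) (nat_lit 329) (nat_lit 308)) (XT.nd (nat_lit 78) (nat_lit 0) (nat_lit 0) (XT.lf (nat_lit 0) (nat_lit 196864096315) (nat_lit 76) (nat_lit 26072606163) (nat_lit 76)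 (nat_lit 25254663292) (nat_lit 3) (nat_lit 4) (nat_lit 4) (nat_lit 5) (nat_lit 4) (nat_lit 4) (nat_lit 384) (nat_lit 329) (nat_lit 307)) (XT.lf (nat_lit 0) (nat_lit 244859613055) (nat_lit 76) (nat_lit 20042710684) (nat_lit 76) (nat_lit 19219599999) (nat_lit 3) (nat_lit 4) (nat_lit 4) (nat_lit 5) (nat_lit 4) (nat_lit 4) (nat_lit 385) (nat_lit 329) (nat_lit 306)))) (XT.nd (nat_lit 156) (nat_lit 152) (nat_lit 0) (XT.nd (nat_lit 78) (nat_lit 0) (nat_lit 0) (XT.lf (nat_lit 0) (nat_lit 299862955747) (nat_lit 76) (nat_lit 13210088293) (nat_lit 76) (nat_lit 12382483857) (nat_lit 3) (nat_lit 4) (nat_lit 4) (nat_lit 5) (nat_lit 4) (nat_lit 4) (nat_lit 386) (nat_lit 329) (nat_lit 305)) (XT.lf (nat_lit 0) (nat_lit 362950276746) (nat_lit 76) (nat_lit 5441057249) (nat_lit 76) (nat_lit 4609545203) (nat_lit 3) (nat_lit 4) (nat_lit 4) (nat_lit 5) (nat_lit 4) (nat_lit 4) (nat_lit 387) (nat_lit 329) (nat_lit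 304))) (XT.nd (nat_lit 78) (nat_lit 0) (nat_lit 0) (XT.lf (nat_lit 0) (nat_lit 4379408366) (nat_lit 152) (nat_lit 419553010222) (nat_lit 0) (nat_lit 3653399699) (nat_lit 1) (nat_lit 5) (nat_lit 3) (nat_lit 4) (nat_lit 1) (nat_lit 4) (nat_lit 388) (nat_lit 329) (nat_lit 303)) (XT.lf (nat_lit 0) (nat_lit 14983256800) (nat_lit 152) (nat_lit 460976865583) (nat_lit 0) (nat_lit 14254678816) (nat_lit 1) (nat_lit 5) (nat_lit 3) (nat_lit 4) (nat_lit 1) (nat_lit 4) (nat_lit 389) (nat_lit 329) (nat_lit 302))))))) (XT.nd (nat_lit 1014) (nat_lit 0) (nat_lit 0) (XT.nd (nat_lit 468) (nat_lit 0) (nat_lit 0) (XT.nd (nat_lit 234) (nat_lit 0) (nat_lit 0) (XT.nd (nat_lit 78) (nat_lit 0) (nat_lit 0) (XT.lf (nat_lit 0) (nat_lit 27115937592) (nat_lit 152) (nat_lit 508746330705) (nat_lit 0) (nat_lit 26385125420) (nat_lit 1) (nat_lit 5) (nat_lit 3) (nat_lit 4) (nat_lit 1) (nat_lit 4) (nat_lit 390) (nat_lit 329)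 (nat_lit 301)) (XT.nd (nat_lit 78) (nat_lit 0) (nat_lit 0) (XT.lf (nat_lit 0) (nat_lit 41014829281) (nat_lit 152) (nat_lit 563796025558) (nat_lit 0) (nat_lit 40282074336) (nat_lit 1) (nat_lit 5) (nat_lit 3) (nat_lit 4) (nat_lit 1) (nat_lit 4) (nat_lit 391) (nat_lit 329) (nat_lit 300)) (XT.lf (nat_lit 0) (nat_lit 56951866703) (nat_lit 152) (nat_lit 627203009390) (nat_lit 0) (nat_lit 56217422391) (nat_lit 1) (nat_lit 5) (nat_lit 3) (nat_lit 4) (nat_lit 1) (nat_lit 4) (nat_lit 392) (nat_lit 329) (nat_lit 299)))) (XT.nd (nat_lit 78) (nat_lit 0) (nat_lit 0) (XT.lf (nat_lit 0) (nat_lit 75238861460) (nat_lit 152) (nat_lit 700207853624) (nat_lit 0) (nat_lit 74502948133) (nat_lit 1) (nat_lit 5) (nat_lit 3) (nat_lit 4) (nat_lit 1) (nat_lit 4) (nat_lit 393) (nat_lit 329) (nat_lit 298)) (XT.nd (nat_lit 78) (nat_lit 0) (nat_lit 0) (XT.lf (nat_lit 0) (nat_lit 96233602581) (nat_lit 152) (nat_lit 784238913906)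 (nat_lit 0) (nat_lit 95496411848) (nat_lit 1) (nat_lit 5) (nat_lit 3) (nat_lit 4) (nat_lit 1) (nat_lit 4) (nat_lit 394) (nat_lit 329) (nat_lit 297)) (XT.lf (nat_lit 0) (nat_lit 120346856738) (nat_lit 152) (nat_lit 880940276201) (nat_lit 0) (nat_lit 119608555219) (nat_lit 1) (nat_lit 5) (nat_lit 3) (nat_lit 4) (nat_lit 1) (nat_lit 4) (nat_lit 395) (nat_lit 329) (nat_lit 296))))) (XT.nd (nat_lit 234) (nat_lit 0) (nat_lit 0) (XT.nd (nat_lit 78) (nat_lit 0) (nat_lit 0) (XT.lf (nat_lit 0) (nat_lit 148050404992) (nat_lit 152) (nat_lit 992203923682) (nat_lit 0) (nat_lit 147311137572) (nat_lit 1) (nat_lit 5) (nat_lit 3) (nat_lit 4) (nat_lit 1) (nat_lit 4) (nat_lit 396) (nat_lit 329) (nat_lit 295)) (XT.nd (nat_lit 78) (nat_lit 0) (nat_lit 0) (XT.lf (nat_lit 0) (nat_lit 179886273287) (nat_lit 152) (nat_lit 1120206753800) (nat_lit 0) (nat_lit 179146165953) (nat_lit 1) (nat_lit 5) (nat_lit 3) (nat_lit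 4) (nat_lit 1) (nat_lit 4) (nat_lit 397) (nat_lit 329) (nat_lit 294)) (XT.lf (nat_lit 0) (nat_lit 216477337307) (nat_lit 152) (nat_lit 1267453169754) (nat_lit 0) (nat_lit 215736499613) (nat_lit 1) (nat_lit 5) (nat_lit 3) (nat_lit 4) (nat_lit 1) (nat_lit 4) (nat_lit 398) (nat_lit 329) (nat_lit 293)))) (XT.nd (nat_lit 156) (nat_lit 0) (nat_lit 0) (XT.nd (nat_lit 78) (nat_lit 0) (nat_lit 0) (XT.lf (nat_lit 0) (nat_lit 258539509174) (nat_lit 152) (nat_lit 1436824079682) (nat_lit 0) (nat_lit 257798036384) (nat_lit 1) (nat_lit 5) (nat_lit 3) (nat_lit 4) (nat_lit 1) (nat_lit 4) (nat_lit 399) (nat_lit 329) (nat_lit 292)) (XT.lf (nat_lit 0) (nat_lit 306895744424) (nat_lit 152) (nat_lit 1631633262256) (nat_lit 0) (nat_lit 306153719377) (nat_lit 1) (nat_lit 5) (nat_lit 3) (nat_lit 4) (nat_lit 1) (nat_lit 4) (nat_lit 400) (nat_lit 329) (nat_lit 291))) (XT.nd (nat_lit 78) (nat_lit 0) (nat_lit 0) (XT.lf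 (nat_lit 0) (nat_lit 362492143313) (nat_lit 152) (nat_lit 1855692201483) (nat_lit 0) (nat_lit 361749638042) (nat_lit 1) (nat_lit 5) (nat_lit 3) (nat_lit 4) (nat_lit 1) (nat_lit 4) (nat_lit 401) (nat_lit 329) (nat_lit 290)) (XT.lf (nat_lit 0) (nat_lit 426416461471) (nat_lit 152) (nat_lit 2113384659218) (nat_lit 0) (nat_lit 425673538614) (nat_lit 1) (nat_lit 5) (nat_lit 3) (nat_lit 4) (nat_lit 1) (nat_lit 4) (nat_lit 402) (nat_lit 329) (nat_lit 289)))))) (XT.nd (nat_lit 468) (nat_lit 0) (nat_lit 0) (XT.nd (nat_lit 234) (nat_lit 0) (nat_lit 0) (XT.nd (nat_lit 78) (nat_lit 0) (nat_lit 0) (XT.lf (nat_lit 0) (nat_lit 499919392078) (nat_lit 152) (nat_lit 2409752444415) (nat_lit 0) (nat_lit 499176106103) (nat_lit 1) (nat_lit 5) (nat_lit 3) (nat_lit 4) (nat_lit 1) (nat_lit 4) (nat_lit 403) (nat_lit 329) (nat_lit 288)) (XT.nd (nat_lit 78) (nat_lit 0) (nat_lit 0) (XT.lf (nat_lit 0) (nat_lit 584439035953)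 (nat_lit 152) (nat_lit 2750594057222) (nat_lit 0) (nat_lit 583695434223) (nat_lit 1) (nat_lit 5) (nat_lit 3) (nat_lit 4) (nat_lit 1) (nat_lit 4) (nat_lit 404) (nat_lit 329) (nat_lit 287)) (XT.lf (nat_lit 0) (nat_lit 681629038300) (nat_lit 152) (nat_lit 3142578137887) (nat_lit 0) (nat_lit 680885162000) (nat_lit 1) (nat_lit 5) (nat_lit 3) (nat_lit 4) (nat_lit 1) (nat_lit 4) (nat_lit 405) (nat_lit 329) (nat_lit 286)))) (XT.nd (nat_lit 78) (nat_lit 0) (nat_lit 0) (XT.lf (nat_lit 0) (nat_lit 793390942643) (nat_lit 152) (nat_lit 3593373940163) (nat_lit 0) (nat_lit 792646827588) (nat_lit 1) (nat_lit 5) (nat_lit 3) (nat_lit 4) (nat_lit 1) (nat_lit 4) (nat_lit 406) (nat_lit 329) (nat_lit 285)) (XT.nd (nat_lit 78) (nat_lit 0) (nat_lit 0) (XT.lf (nat_lit 0) (nat_lit 921911394939) (nat_lit 152) (nat_lit 4111801381921) (nat_lit 0) (nat_lit 921167072269) (nat_lit 1) (nat_lit 5) (nat_lit 3) (nat_lit 4)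 (nat_lit 1) (nat_lit 4) (nat_lit 407) (nat_lit 329) (nat_lit 284)) (XT.lf (nat_lit 0) (nat_lit 1069704925774) (nat_lit 152) (nat_lit 4708003608760) (nat_lit 0) (nat_lit 1068960422570) (nat_lit 1) (nat_lit 5) (nat_lit 3) (nat_lit 4) (nat_lit 1) (nat_lit 4) (nat_lit 408) (nat_lit 329) (nat_lit 283))))) (XT.nd (nat_lit 234) (nat_lit 0) (nat_lit 0) (XT.nd (nat_lit 78) (nat_lit 0) (nat_lit 0) (XT.lf (nat_lit 0) (nat_lit 1239663147708) (nat_lit 152) (nat_lit 5393645446858) (nat_lit 0) (nat_lit 1238918487519) (nat_lit 1) (nat_lit 5) (nat_lit 3) (nat_lit 4) (nat_lit 1) (nat_lit 4) (nat_lit 409) (nat_lit 329) (nat_lit 282)) (XT.nd (nat_lit 78) (nat_lit 0) (nat_lit 0) (XT.lf (nat_lit 0) (nat_lit 1435111330302) (nat_lit 152) (nat_lit 6182141627829) (nat_lit 0) (nat_lit 1434366533603) (nat_lit 1) (nat_lit 5) (nat_lit 3) (nat_lit 4) (nat_lit 1) (nat_lit 4) (nat_lit 410) (nat_lit 329) (nat_lit 281))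 (XT.lf (nat_lit 0) (nat_lit 1659873459736) (nat_lit 152) (nat_lit 7088919250867) (nat_lit 0) (nat_lit 1659128544333) (nat_lit 1) (nat_lit 5) (nat_lit 3) (nat_lit 4) (nat_lit 1) (nat_lit 4) (nat_lit 411) (nat_lit 329) (nat_lit 280)))) (XT.nd (nat_lit 156) (nat_lit 0) (nat_lit 0) (XT.nd (nat_lit 78) (nat_lit 0) (nat_lit 0) (XT.lf (nat_lit 0) (nat_lit 1918347055934) (nat_lit 152) (nat_lit 8131719617292) (nat_lit 0) (nat_lit 1917602037310) (nat_lit 1) (nat_lit 5) (nat_lit 3) (nat_lit 4) (nat_lit 1) (nat_lit 4) (nat_lit 412) (nat_lit 329) (nat_lit 279)) (XT.lf (nat_lit 0) (nat_lit 2215589210996) (nat_lit 152) (nat_lit 9330945342968) (nat_lit 0) (nat_lit 2214844102615) (nat_lit 1) (nat_lit 5) (nat_lit 3) (nat_lit 4) (nat_lit 1) (nat_lit 4) (nat_lit 413) (nat_lit 329) (nat_lit 278))) (XT.nd (nat_lit 78) (nat_lit 0) (nat_lit 0) (XT.lf (nat_lit 0) (nat_lit 2557415532303) (nat_lit 152) (nat_lit 10710059539920)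 (nat_lit 0) (nat_lit 2556670345872) (nat_lit 1) (nat_lit 5) (nat_lit 3) (nat_lit 4) (nat_lit 1) (nat_lit 4) (nat_lit 414) (nat_lit 329) (nat_lit 277)) (XT.lf (nat_lit 0) (nat_lit 2950513926142) (nat_lit 152) (nat_lit 12296044877218) (nat_lit 0) (nat_lit 2949768671842) (nat_lit 1) (nat_lit 5) (nat_lit 3) (nat_lit 4) (nat_lit 1) (nat_lit 4) (nat_lit 415) (nat_lit 329) (nat_lit 276))))))))
noncomputable def xc30 : XT := (XT.nd (nat_lit 1950) (nat_lit 0) (nat_lit 0) (XT.nd (nat_lit 936) (nat_lit 0) (nat_lit 0) (XT.nd (nat_lit 468) (nat_lit 0) (nat_lit 0) (XT.nd (nat_lit 234) (nat_lit 0) (nat_lit 0) (XT.nd (nat_lit 78) (nat_lit 0) (nat_lit 0) (XT.lf (nat_lit 0) (nat_lit 3402575448044) (nat_lit 152) (nat_lit 14119931502767) (nat_lit 0) (nat_lit 3401830134727) (nat_lit 1) (nat_lit 5) (nat_lit 3) (nat_lit 4) (nat_lit 1) (nat_lit 4) (nat_lit 416) (nat_lit 329) (nat_lit 275)) (XT.nd (nat_lit 78)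 (nat_lit 0) (nat_lit 0) (XT.lf (nat_lit 0) (nat_lit 3922444779959) (nat_lit 152) (nat_lit 16217404154892) (nat_lit 0) (nat_lit 3921699415323) (nat_lit 1) (nat_lit 5) (nat_lit 3) (nat_lit 4) (nat_lit 1) (nat_lit 4) (nat_lit 417) (nat_lit 329) (nat_lit 274)) (XT.lf (nat_lit 0) (nat_lit 4520293278382) (nat_lit 152) (nat_lit 18629500342004) (nat_lit 0) (nat_lit 4519547869121) (nat_lit 1) (nat_lit 5) (nat_lit 3) (nat_lit 4) (nat_lit 1) (nat_lit 4) (nat_lit 418) (nat_lit 329) (nat_lit 273)))) (XT.nd (nat_lit 78) (nat_lit 0) (nat_lit 0) (XT.lf (nat_lit 0) (nat_lit 5207817979152) (nat_lit 152) (nat_lit 21403413250373) (nat_lit 0) (nat_lit 5207072531086) (nat_lit 1) (nat_lit 5) (nat_lit 3) (nat_lit 4) (nat_lit 1) (nat_lit 4) (nat_lit 419) (nat_lit 329) (nat_lit 272)) (XT.nd (nat_lit 78) (nat_lit 0) (nat_lit 0) (XT.lf (nat_lit 0) (nat_lit 5998470452500) (nat_lit 152) (nat_lit 24593415089075) (nat_lit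 0) (nat_lit 5997724970692) (nat_lit 1) (nat_lit 5) (nat_lit 3) (nat_lit 4) (nat_lit 1) (nat_lit 4) (nat_lit 420) (nat_lit 329) (nat_lit 271)) (XT.lf (nat_lit 0) (nat_lit 6907719985949) (nat_lit 152) (nat_lit 28261918937564) (nat_lit 0) (nat_lit 6906974474799) (nat_lit 1) (nat_lit 5) (nat_lit 3) (nat_lit 4) (nat_lit 1) (nat_lit 4) (nat_lit 421) (nat_lit 329) (nat_lit 270))))) (XT.nd (nat_lit 234) (nat_lit 0) (nat_lit 0) (XT.nd (nat_lit 78) (nat_lit 0) (nat_lit 0) (XT.lf (nat_lit 0) (nat_lit 7953356244284) (nat_lit 152) (nat_lit 32480699871136) (nat_lit 0) (nat_lit 7952610707619) (nat_lit 1) (nat_lit 5) (nat_lit 3) (nat_lit 4) (nat_lit 1) (nat_lit 4) (nat_lit 422) (nat_lit 329) (nat_lit 269)) (XT.nd (nat_lit 78) (nat_lit 0) (nat_lit 0) (XT.lf (nat_lit 0) (nat_lit 9155837328211) (nat_lit 152) (nat_lit 37332299255883) (nat_lit 0) (nat_lit 9155091769359) (nat_lit 1) (nat_lit 5) (nat_lit 3) (nat_lit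 4) (nat_lit 1) (nat_lit 4) (nat_lit 423) (nat_lit 329) (nat_lit 268)) (XT.lf (nat_lit 0) (nat_lit 10538690041546) (nat_lit 152) (nat_lit 42911639688462) (nat_lit 0) (nat_lit 10537944463401) (nat_lit 1) (nat_lit 5) (nat_lit 3) (nat_lit 4) (nat_lit 1) (nat_lit 4) (nat_lit 424) (nat_lit 329) (nat_lit 267)))) (XT.nd (nat_lit 78) (nat_lit 0) (nat_lit 0) (XT.lf (nat_lit 0) (nat_lit 12128970198245) (nat_lit 152) (nat_lit 49327882177338) (nat_lit 0) (nat_lit 12128224603325) (nat_lit 1) (nat_lit 5) (nat_lit 3) (nat_lit 4) (nat_lit 1) (nat_lit 4) (nat_lit 425) (nat_lit 329) (nat_lit 266)) (XT.nd (nat_lit 78) (nat_lit 0) (nat_lit 0) (XT.lf (nat_lit 0) (nat_lit 13957791975288) (nat_lit 152) (nat_lit 56706561901640) (nat_lit 0) (nat_lit 13957046365780) (nat_lit 1) (nat_lit 5) (nat_lit 3) (nat_lit 4) (nat_lit 1) (nat_lit 4) (nat_lit 426) (nat_lit 329) (nat_lit 265)) (XT.lf (nat_lit 0) (nat_lit 16060936668313)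 (nat_lit 152) (nat_lit 65192044334235) (nat_lit 0) (nat_lit 16060191046119) (nat_lit 1) (nat_lit 5) (nat_lit 3) (nat_lit 4) (nat_lit 1) (nat_lit 4) (nat_lit 427) (nat_lit 329) (nat_lit 264)))))) (XT.nd (nat_lit 468) (nat_lit 0) (nat_lit 0) (XT.nd (nat_lit 234) (nat_lit 0) (nat_lit 0) (XT.nd (nat_lit 78) (nat_lit 0) (nat_lit 0) (XT.lf (nat_lit 0) (nat_lit 18479552760444) (nat_lit 152) (nat_lit 74950349783588) (nat_lit 0) (nat_lit 18478807127219) (nat_lit 1) (nat_lit 5) (nat_lit 3) (nat_lit 4) (nat_lit 1) (nat_lit 4) (nat_lit 428) (nat_lit 329) (nat_lit 263)) (XT.nd (nat_lit 78) (nat_lit 0) (nat_lit 0) (XT.lf (nat_lit 0) (nat_lit 21260961001309) (nat_lit 152) (nat_lit 86172401617184) (nat_lit 0) (nat_lit 21260215358492) (nat_lit 1) (nat_lit 5) (nat_lit 3) (nat_lit 4) (nat_lit 1) (nat_lit 4) (nat_lit 429) (nat_lit 329) (nat_lit 262)) (XT.lf (nat_lit 0) (nat_lit 24459580247794) (nat_lit 152)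 (nat_lit 99077761718726) (nat_lit 0) (nat_lit 24458834596637) (nat_lit 1) (nat_lit 5) (nat_lit 3) (nat_lit 4) (nat_lit 1) (nat_lit 4) (nat_lit 430) (nat_lit 329) (nat_lit 261)))) (XT.nd (nat_lit 78) (nat_lit 0) (nat_lit 0) (XT.lf (nat_lit 0) (nat_lit 28137992180811) (nat_lit 152) (nat_lit 113918926264113) (nat_lit 0) (nat_lit 28137246522401) (nat_lit 1) (nat_lit 5) (nat_lit 3) (nat_lit 4) (nat_lit 1) (nat_lit 4) (nat_lit 431) (nat_lit 329) (nat_lit 260)) (XT.nd (nat_lit 78) (nat_lit 0) (nat_lit 0) (XT.lf (nat_lit 0) (nat_lit 32368165729482) (nat_lit 152) (nat_lit 130986265864016) (nat_lit 0) (nat_lit 32367420064765) (nat_lit 1) (nat_lit 5) (nat_lit 3) (nat_lit 4) (nat_lit 1) (nat_lit 4) (nat_lit 432) (nat_lit 329) (nat_lit 259)) (XT.lf (nat_lit 0) (nat_lit 37232865158890) (nat_lit 152) (nat_lit 150613706727997) (nat_lit 0) (nat_lit 37232119488689) (nat_lit 1) (nat_lit 5) (nat_lit 3) (nat_lit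 4) (nat_lit 1) (nat_lit 4) (nat_lit 433) (nat_lit 329) (nat_lit 258))))) (XT.nd (nat_lit 234) (nat_lit 0) (nat_lit 0) (XT.nd (nat_lit 78) (nat_lit 0) (nat_lit 0) (XT.lf (nat_lit 0) (nat_lit 42827269370916) (nat_lit 152) (nat_lit 173185264003395) (nat_lit 0) (nat_lit 42826523695946) (nat_lit 1) (nat_lit 5) (nat_lit 3) (nat_lit 4) (nat_lit 1) (nat_lit 4) (nat_lit 434) (nat_lit 329) (nat_lit 257)) (XT.nd (nat_lit 78) (nat_lit 0) (nat_lit 0) (XT.lf (nat_lit 0) (nat_lit 49260834100141) (nat_lit 152) (nat_lit 199142555115165) (nat_lit 0) (nat_lit 49260088421025) (nat_lit 1) (nat_lit 5) (nat_lit 3) (nat_lit 4) (nat_lit 1) (nat_lit 4) (nat_lit 435) (nat_lit 329) (nat_lit 256)) (XT.lf (nat_lit 0) (nat_lit 56659433439095) (nat_lit 152) (nat_lit 228993440106797) (nat_lit 0) (nat_lit 56658687756372) (nat_lit 1) (nat_lit 5) (nat_lit 3) (nat_lit 4) (nat_lit 1) (nat_lit 4) (nat_lit 436) (nat_lit 329)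 (nat_lit 255)))) (XT.nd (nat_lit 156) (nat_lit 0) (nat_lit 0) (XT.nd (nat_lit 78) (nat_lit 0) (nat_lit 0) (XT.lf (nat_lit 0) (nat_lit 65167822592236) (nat_lit 152) (nat_lit 263321958032475) (nat_lit 0) (nat_lit 65167076906377) (nat_lit 1) (nat_lit 5) (nat_lit 3) (nat_lit 4) (nat_lit 1) (nat_lit 4) (nat_lit 437) (nat_lit 329) (nat_lit 254)) (XT.lf (nat_lit 0) (nat_lit 74952470042994) (nat_lit 152) (nat_lit 302799753808137) (nat_lit 0) (nat_lit 74951724354409) (nat_lit 1) (nat_lit 5) (nat_lit 3) (nat_lit 4) (nat_lit 1) (nat_lit 4) (nat_lit 438) (nat_lit 329) (nat_lit 253))) (XT.nd (nat_lit 78) (nat_lit 0) (nat_lit 0) (XT.lf (nat_lit 0) (nat_lit 86204814545840) (nat_lit 152) (nat_lit 348199219090261) (nat_lit 0) (nat_lit 86204068854884) (nat_lit 1) (nat_lit 5) (nat_lit 3) (nat_lit 4) (nat_lit 1) (nat_lit 4) (nat_lit 439) (nat_lit 329) (nat_lit 252)) (XT.lf (nat_lit 0) (nat_lit 99145010667135)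 (nat_lit 152) (nat_lit 400408604286545) (nat_lit 0) (nat_lit 99144264974117) (nat_lit 1) (nat_lit 5) (nat_lit 3) (nat_lit 4) (nat_lit 1) (nat_lit 4) (nat_lit 440) (nat_lit 329) (nat_lit 251))))))) (XT.nd (nat_lit 47424) (nat_lit 0) (nat_lit 152) (XT.nd (nat_lit 46878) (nat_lit 0) (nat_lit 608) (XT.nd (nat_lit 312) (nat_lit 0) (nat_lit 0) (XT.nd (nat_lit 78) (nat_lit 0) (nat_lit 0) (XT.lf (nat_lit 0) (nat_lit 114026236157079) (nat_lit 152) (nat_lit 460449397368217) (nat_lit 0) (nat_lit 114025490462268) (nat_lit 1) (nat_lit 5) (nat_lit 3) (nat_lit 4) (nat_lit 1) (nat_lit 4) (nat_lit 441) (nat_lit 329) (nat_lit 250)) (XT.nd (nat_lit 156) (nat_lit 0) (nat_lit 0) (XT.lf (nat_lit 0) (nat_lit 131139645427429) (nat_lit 152) (nat_lit 529496309504268) (nat_lit 0) (nat_lit 131138899731059) (nat_lit 1) (nat_lit 5) (nat_lit 3) (nat_lit 4) (nat_lit 1) (nat_lit 4) (nat_lit 442) (nat_lit 329) (nat_lit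 249)) (XT.lf (nat_lit 0) (nat_lit 173452549735247) (nat_lit 152) (nat_lit 700214800002552) (nat_lit 0) (nat_lit 173451804036343) (nat_lit 1) (nat_lit 5) (nat_lit 3) (nat_lit 4) (nat_lit 1) (nat_lit 4) (nat_lit 444) (nat_lit 329) (nat_lit 247)))) (XT.nd (nat_lit 78) (nat_lit 0) (nat_lit 0) (XT.lf (nat_lit 0) (nat_lit 199479905943954) (nat_lit 152) (nat_lit 805226522744101) (nat_lit 0) (nat_lit 199479160244023) (nat_lit 1) (nat_lit 5) (nat_lit 3) (nat_lit 4) (nat_lit 1) (nat_lit 4) (nat_lit 445) (nat_lit 329) (nat_lit 246)) (XT.nd (nat_lit 46410) (nat_lit 0) (nat_lit 1140) (XT.lf (nat_lit 0) (nat_lit 229411365559332) (nat_lit 152) (nat_lit 925990003949557) (nat_lit 0) (nat_lit 229410619858512) (nat_lit 1) (nat_lit 5) (nat_lit 3) (nat_lit 4) (nat_lit 1) (nat_lit 4) (nat_lit 446) (nat_lit 329) (nat_lit 245)) (XT.lf (nat_lit 0) (nat_lit 748877261) (nat_lit 152) (nat_lit 7120266531) (nat_lit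 0) (nat_lit 748877261) (nat_lit 16) (nat_lit 5) (nat_lit 18) (nat_lit 4) (nat_lit 16) (nat_lit 4) (nat_lit 360) (nat_lit 330) (nat_lit 330))))) (XT.nd (nat_lit 234) (nat_lit 304) (nat_lit 0) (XT.nd (nat_lit 78) (nat_lit 152) (nat_lit 0) (XT.lf (nat_lit 0) (nat_lit 147614666) (nat_lit 76) (nat_lit 9346873951) (nat_lit 76) (nat_lit 9121891552) (nat_lit 15) (nat_lit 4) (nat_lit 16) (nat_lit 5) (nat_lit 16) (nat_lit 4) (nat_lit 361) (nat_lit 330) (nat_lit 329)) (XT.nd (nat_lit 78) (nat_lit 152) (nat_lit 0) (XT.lf (nat_lit 0) (nat_lit 16754187577) (nat_lit 76) (nat_lit 1935218838) (nat_lit 76) (nat_lit 1514599571) (nat_lit 15) (nat_lit 4) (nat_lit 16) (nat_lit 5) (nat_lit 16) (nat_lit 4) (nat_lit 362) (nat_lit 330) (nat_lit 328)) (XT.lf (nat_lit 0) (nat_lit 6744397627) (nat_lit 152) (nat_lit 8986572367) (nat_lit 0) (nat_lit 6230712164) (nat_lit 13) (nat_lit 5) (nat_lit 15) (nat_lit 4) (nat_lit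 13) (nat_lit 4) (nat_lit 363) (nat_lit 330) (nat_lit 327)))) (XT.nd (nat_lit 156) (nat_lit 152) (nat_lit 0) (XT.nd (nat_lit 78) (nat_lit 76) (nat_lit 0) (XT.lf (nat_lit 0) (nat_lit 7368641916) (nat_lit 76) (nat_lit 8629616114) (nat_lit 76) (nat_lit 7987296234) (nat_lit 12) (nat_lit 4) (nat_lit 13) (nat_lit 5) (nat_lit 13) (nat_lit 4) (nat_lit 364) (nat_lit 330) (nat_lit 326)) (XT.lf (nat_lit 0) (nat_lit 116768416) (nat_lit 152) (nat_lit 503123798) (nat_lit 76) (nat_lit 25718295641) (nat_lit 11) (nat_lit 5) (nat_lit 13) (nat_lit 5) (nat_lit 12) (nat_lit 4) (nat_lit 365) (nat_lit 330) (nat_lit 325))) (XT.nd (nat_lit 78) (nat_lit 76) (nat_lit 0) (XT.lf (nat_lit 0) (nat_lit 9162283914) (nat_lit 152) (nat_lit 11320959126) (nat_lit 0) (nat_lit 8421899572) (nat_lit 10) (nat_lit 5) (nat_lit 12) (nat_lit 4) (nat_lit 10) (nat_lit 4) (nat_lit 366) (nat_lit 330) (nat_lit 324)) (XT.lf (nat_lit 0) (nat_lit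 5847699523) (nat_lit 76) (nat_lit 13432988812) (nat_lit 76) (nat_lit 12619057324) (nat_lit 9) (nat_lit 4) (nat_lit 10) (nat_lit 5) (nat_lit 10) (nat_lit 4) (nat_lit 367) (nat_lit 330) (nat_lit 323)))))) (XT.nd (nat_lit 468) (nat_lit 228) (nat_lit 0) (XT.nd (nat_lit 234) (nat_lit 76) (nat_lit 0) (XT.nd (nat_lit 78) (nat_lit 152) (nat_lit 0) (XT.lf (nat_lit 0) (nat_lit 25689822992) (nat_lit 76) (nat_lit 5263101726) (nat_lit 76) (nat_lit 4385216200) (nat_lit 9) (nat_lit 4) (nat_lit 10) (nat_lit 5) (nat_lit 10) (nat_lit 4) (nat_lit 368) (nat_lit 330) (nat_lit 322)) (XT.nd (nat_lit 78) (nat_lit 0) (nat_lit 0) (XT.lf (nat_lit 0) (nat_lit 4660496028) (nat_lit 152) (nat_lit 30747067027) (nat_lit 0) (nat_lit 3848758868) (nat_lit 7) (nat_lit 5) (nat_lit 9) (nat_lit 4) (nat_lit 7) (nat_lit 4) (nat_lit 369) (nat_lit 330) (nat_lit 321)) (XT.lf (nat_lit 0) (nat_lit 14888231897) (nat_lit 152) (nat_lit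 14767120065) (nat_lit 0) (nat_lit 14034443917) (nat_lit 7) (nat_lit 5) (nat_lit 9) (nat_lit 4) (nat_lit 7) (nat_lit 4) (nat_lit 370) (nat_lit 330) (nat_lit 320)))) (XT.nd (nat_lit 78) (nat_lit 0) (nat_lit 0) (XT.lf (nat_lit 0) (nat_lit 2939434231) (nat_lit 76) (nat_lit 23393405494) (nat_lit 76) (nat_lit 22503051585) (nat_lit 6) (nat_lit 4) (nat_lit 7) (nat_lit 5) (nat_lit 7) (nat_lit 4) (nat_lit 371) (nat_lit 330) (nat_lit 319)) (XT.nd (nat_lit 78) (nat_lit 0) (nat_lit 0) (XT.lf (nat_lit 0) (nat_lit 24071888101) (nat_lit 76) (nat_lit 15775584701) (nat_lit 76) (nat_lit 14853434332) (nat_lit 6) (nat_lit 4) (nat_lit 7) (nat_lit 5) (nat_lit 7) (nat_lit 4) (nat_lit 372) (nat_lit 330) (nat_lit 318)) (XT.lf (nat_lit 0) (nat_lit 47600552228) (nat_lit 76) (nat_lit 7424762903) (nat_lit 76) (nat_lit 6474963438) (nat_lit 6) (nat_lit 4) (nat_lit 7) (nat_lit 5) (nat_lit 7) (nat_lit 4) (nat_lit 373) (nat_lit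 330) (nat_lit 317))))) (XT.nd (nat_lit 234) (nat_lit 76) (nat_lit 0) (XT.nd (nat_lit 78) (nat_lit 0) (nat_lit 0) (XT.lf (nat_lit 0) (nat_lit 2842746094) (nat_lit 152) (nat_lit 64466685143) (nat_lit 0) (nat_lit 1995926826) (nat_lit 4) (nat_lit 5) (nat_lit 6) (nat_lit 4) (nat_lit 4) (nat_lit 4) (nat_lit 374) (nat_lit 330) (nat_lit 316)) (XT.nd (nat_lit 78) (nat_lit 0) (nat_lit 0) (XT.lf (nat_lit 0) (nat_lit 13678949569) (nat_lit 152) (nat_lit 51624490573) (nat_lit 0) (nat_lit 12813950572) (nat_lit 4) (nat_lit 5) (nat_lit 6) (nat_lit 4) (nat_lit 4) (nat_lit 4) (nat_lit 375) (nat_lit 330) (nat_lit 315)) (XT.lf (nat_lit 0) (nat_lit 25852770356) (nat_lit 152) (nat_lit 37469670068) (nat_lit 0) (nat_lit 24971962899) (nat_lit 4) (nat_lit 5) (nat_lit 6) (nat_lit 4) (nat_lit 4) (nat_lit 4) (nat_lit 376) (nat_lit 330) (nat_lit 314)))) (XT.nd (nat_lit 156) (nat_lit 76) (nat_lit 0) (XT.nd (nat_lit 78)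 (nat_lit 0) (nat_lit 0) (XT.lf (nat_lit 0) (nat_lit 39602391904) (nat_lit 152) (nat_lit 21725281489) (nat_lit 0) (nat_lit 38707837959) (nat_lit 4) (nat_lit 5) (nat_lit 6) (nat_lit 4) (nat_lit 4) (nat_lit 4) (nat_lit 377) (nat_lit 330) (nat_lit 313)) (XT.lf (nat_lit 0) (nat_lit 55196828547) (nat_lit 152) (nat_lit 4083282450) (nat_lit 0) (nat_lit 54290321135) (nat_lit 4) (nat_lit 5) (nat_lit 6) (nat_lit 4) (nat_lit 4) (nat_lit 4) (nat_lit 378) (nat_lit 330) (nat_lit 312))) (XT.nd (nat_lit 78) (nat_lit 0) (nat_lit 0) (XT.lf (nat_lit 0) (nat_lit 17345733761) (nat_lit 76) (nat_lit 56313704913) (nat_lit 76) (nat_lit 55396803182) (nat_lit 3) (nat_lit 4) (nat_lit 4) (nat_lit 5) (nat_lit 4) (nat_lit 4) (nat_lit 379) (nat_lit 330) (nat_lit 311)) (XT.lf (nat_lit 0) (nat_lit 42062829633) (nat_lit 76) (nat_lit 52861547459) (nat_lit 76) (nat_lit 51935607189) (nat_lit 3) (nat_lit 4) (nat_lit 4) (nat_lit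 5) (nat_lit 4) (nat_lit 4) (nat_lit 380) (nat_lit 330) (nat_lit 310))))))))
noncomputable def xc31 : XT := (XT.nd (nat_lit 2028) (nat_lit 0) (nat_lit 0) (XT.nd (nat_lit 1014) (nat_lit 0) (nat_lit 0) (XT.nd (nat_lit 468) (nat_lit 152) (nat_lit 0) (XT.nd (nat_lit 234) (nat_lit 0) (nat_lit 0) (XT.nd (nat_lit 78) (nat_lit 0) (nat_lit 0) (XT.lf (nat_lit 0) (nat_lit 70152552462) (nat_lit 76) (nat_lit 49069540735) (nat_lit 76) (nat_lit 48135740866) (nat_lit 3) (nat_lit 4) (nat_lit 4) (nat_lit 5) (nat_lit 4) (nat_lit 4) (nat_lit 381) (nat_lit 330) (nat_lit 309)) (XT.nd (nat_lit 78) (nat_lit 0) (nat_lit 0) (XT.lf (nat_lit 0) (nat_lit 102164483780) (nat_lit 76) (nat_lit 44863493304) (nat_lit 76) (nat_lit 43922859002) (nat_lit 3) (nat_lit 4) (nat_lit 4) (nat_lit 5) (nat_lit 4) (nat_lit 4) (nat_lit 382) (nat_lit 330) (nat_lit 308)) (XT.lf (nat_lit 0) (nat_lit 138724943983) (nat_lit 76) (nat_lit 40161112935)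 (nat_lit 76) (nat_lit 39214535647) (nat_lit 3) (nat_lit 4) (nat_lit 4) (nat_lit 5) (nat_lit 4) (nat_lit 4) (nat_lit 383) (nat_lit 330) (nat_lit 307)))) (XT.nd (nat_lit 78) (nat_lit 0) (nat_lit 0) (XT.lf (nat_lit 0) (nat_lit 180549246424) (nat_lit 76) (nat_lit 34870396533) (nat_lit 76) (nat_lit 33918651431) (nat_lit 3) (nat_lit 4) (nat_lit 4) (nat_lit 5) (nat_lit 4) (nat_lit 4) (nat_lit 384) (nat_lit 330) (nat_lit 306)) (XT.nd (nat_lit 78) (nat_lit 0) (nat_lit 0) (XT.lf (nat_lit 0) (nat_lit 228455692671) (nat_lit 76) (nat_lit 28887830082) (nat_lit 76) (nat_lit 27931591229) (nat_lit 3) (nat_lit 4) (nat_lit 4) (nat_lit 5) (nat_lit 4) (nat_lit 4) (nat_lit 385) (nat_lit 330) (nat_lit 305)) (XT.lf (nat_lit 0) (nat_lit 283381582760) (nat_lit 76) (nat_lit 22096363368) (nat_lit 76) (nat_lit 21136216905) (nat_lit 3) (nat_lit 4) (nat_lit 4) (nat_lit 5) (nat_lit 4) (nat_lit 4) (nat_lit 386) (nat_lit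 330) (nat_lit 304))))) (XT.nd (nat_lit 234) (nat_lit 0) (nat_lit 0) (XT.nd (nat_lit 78) (nat_lit 152) (nat_lit 0) (XT.lf (nat_lit 0) (nat_lit 346401553671) (nat_lit 76) (nat_lit 14363119869) (nat_lit 76) (nat_lit 13399575485) (nat_lit 3) (nat_lit 4) (nat_lit 4) (nat_lit 5) (nat_lit 4) (nat_lit 4) (nat_lit 387) (nat_lit 330) (nat_lit 303)) (XT.nd (nat_lit 78) (nat_lit 152) (nat_lit 0) (XT.lf (nat_lit 0) (nat_lit 418748604834) (nat_lit 76) (nat_lit 5536796994) (nat_lit 76) (nat_lit 4570297896) (nat_lit 3) (nat_lit 4) (nat_lit 4) (nat_lit 5) (nat_lit 4) (nat_lit 4) (nat_lit 388) (nat_lit 330) (nat_lit 302)) (XT.lf (nat_lit 0) (nat_lit 5701154309) (nat_lit 152) (nat_lit 481064320712) (nat_lit 0) (nat_lit 4858486122) (nat_lit 1) (nat_lit 5) (nat_lit 3) (nat_lit 4) (nat_lit 1) (nat_lit 4) (nat_lit 389) (nat_lit 330) (nat_lit 301)))) (XT.nd (nat_lit 156) (nat_lit 0) (nat_lit 0) (XT.nd (nat_lit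 78) (nat_lit 0) (nat_lit 0) (XT.lf (nat_lit 0) (nat_lit 17808862440) (nat_lit 152) (nat_lit 528887185817) (nat_lit 0) (nat_lit 16964251481) (nat_lit 1) (nat_lit 5) (nat_lit 3) (nat_lit 4) (nat_lit 1) (nat_lit 4) (nat_lit 390) (nat_lit 330) (nat_lit 300)) (XT.lf (nat_lit 0) (nat_lit 31686038771) (nat_lit 152) (nat_lit 583983315438) (nat_lit 0) (nat_lit 30839738444) (nat_lit 1) (nat_lit 5) (nat_lit 3) (nat_lit 4) (nat_lit 1) (nat_lit 4) (nat_lit 391) (nat_lit 330) (nat_lit 299))) (XT.nd (nat_lit 78) (nat_lit 0) (nat_lit 0) (XT.lf (nat_lit 0) (nat_lit 47604193273) (nat_lit 152) (nat_lit 647430677329) (nat_lit 0) (nat_lit 46756423931) (nat_lit 1) (nat_lit 5) (nat_lit 3) (nat_lit 4) (nat_lit 1) (nat_lit 4) (nat_lit 392) (nat_lit 330) (nat_lit 298)) (XT.lf (nat_lit 0) (nat_lit 65874768100) (nat_lit 152) (nat_lit 720470632918) (nat_lit 0) (nat_lit 65025721353) (nat_lit 1) (nat_lit 5) (nat_lit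 3) (nat_lit 4) (nat_lit 1) (nat_lit 4) (nat_lit 393) (nat_lit 330) (nat_lit 297)))))) (XT.nd (nat_lit 468) (nat_lit 0) (nat_lit 0) (XT.nd (nat_lit 234) (nat_lit 0) (nat_lit 0) (XT.nd (nat_lit 78) (nat_lit 0) (nat_lit 0) (XT.lf (nat_lit 0) (nat_lit 86855231019) (nat_lit 152) (nat_lit 804532224814) (nat_lit 0) (nat_lit 86005073486) (nat_lit 1) (nat_lit 5) (nat_lit 3) (nat_lit 4) (nat_lit 1) (nat_lit 4) (nat_lit 394) (nat_lit 330) (nat_lit 296)) (XT.nd (nat_lit 78) (nat_lit 0) (nat_lit 0) (XT.lf (nat_lit 0) (nat_lit 110956069350) (nat_lit 152) (nat_lit 901260136338) (nat_lit 0) (nat_lit 110104945916) (nat_lit 1) (nat_lit 5) (nat_lit 3) (nat_lit 4) (nat_lit 1) (nat_lit 4) (nat_lit 395) (nat_lit 330) (nat_lit 295)) (XT.lf (nat_lit 0) (nat_lit 138648821234) (nat_lit 152) (nat_lit 1012546870105) (nat_lit 0) (nat_lit 137796857885) (nat_lit 1) (nat_lit 5) (nat_lit 3) (nat_lit 4) (nat_lit 1) (nat_lit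 4) (nat_lit 396) (nat_lit 330) (nat_lit 294)))) (XT.nd (nat_lit 78) (nat_lit 0) (nat_lit 0) (XT.lf (nat_lit 0) (nat_lit 170475301380) (nat_lit 152) (nat_lit 1140569775255) (nat_lit 0) (nat_lit 169622607671) (nat_lit 1) (nat_lit 5) (nat_lit 3) (nat_lit 4) (nat_lit 1) (nat_lit 4) (nat_lit 397) (nat_lit 330) (nat_lit 293)) (XT.nd (nat_lit 78) (nat_lit 0) (nat_lit 0) (XT.lf (nat_lit 0) (nat_lit 207058201793) (nat_lit 152) (nat_lit 1287833647758) (nat_lit 0) (nat_lit 206204872988) (nat_lit 1) (nat_lit 5) (nat_lit 3) (nat_lit 4) (nat_lit 1) (nat_lit 4) (nat_lit 398) (nat_lit 330) (nat_lit 292)) (XT.lf (nat_lit 0) (nat_lit 249113274870) (nat_lit 152) (nat_lit 1457219737294) (nat_lit 0) (nat_lit 248259393808) (nat_lit 1) (nat_lit 5) (nat_lit 3) (nat_lit 4) (nat_lit 1) (nat_lit 4) (nat_lit 399) (nat_lit 330) (nat_lit 291))))) (XT.nd (nat_lit 234) (nat_lit 0) (nat_lit 0) (XT.nd (nat_lit 78) (nat_lit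 0) (nat_lit 0) (XT.lf (nat_lit 0) (nat_lit 297463337261) (nat_lit 152) (nat_lit 1652042119527) (nat_lit 0) (nat_lit 296608975975) (nat_lit 1) (nat_lit 5) (nat_lit 3) (nat_lit 4) (nat_lit 1) (nat_lit 4) (nat_lit 400) (nat_lit 330) (nat_lit 290)) (XT.nd (nat_lit 78) (nat_lit 0) (nat_lit 0) (XT.lf (nat_lit 0) (nat_lit 353054368445) (nat_lit 152) (nat_lit 1876112536718) (nat_lit 0) (nat_lit 352199589574) (nat_lit 1) (nat_lit 5) (nat_lit 3) (nat_lit 4) (nat_lit 1) (nat_lit 4) (nat_lit 401) (nat_lit 330) (nat_lit 289)) (XT.lf (nat_lit 0) (nat_lit 416974019034) (nat_lit 152) (nat_lit 2133814975292) (nat_lit 0) (nat_lit 416118877044) (nat_lit 1) (nat_lit 5) (nat_lit 3) (nat_lit 4) (nat_lit 1) (nat_lit 4) (nat_lit 402) (nat_lit 330) (nat_lit 288)))) (XT.nd (nat_lit 156) (nat_lit 0) (nat_lit 0) (XT.nd (nat_lit 78) (nat_lit 0) (nat_lit 0) (XT.lf (nat_lit 0) (nat_lit 490472890886) (nat_lit 152) (nat_lit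 2430191439480) (nat_lit 0) (nat_lit 489617433141) (nat_lit 1) (nat_lit 5) (nat_lit 3) (nat_lit 4) (nat_lit 1) (nat_lit 4) (nat_lit 403) (nat_lit 330) (nat_lit 287)) (XT.lf (nat_lit 0) (nat_lit 574989005407) (nat_lit 152) (nat_lit 2771040599234) (nat_lit 0) (nat_lit 574133273093) (nat_lit 1) (nat_lit 5) (nat_lit 3) (nat_lit 4) (nat_lit 1) (nat_lit 4) (nat_lit 404) (nat_lit 330) (nat_lit 286))) (XT.nd (nat_lit 78) (nat_lit 0) (nat_lit 0) (XT.lf (nat_lit 0) (nat_lit 672175938752) (nat_lit 152) (nat_lit 3163031242462) (nat_lit 0) (nat_lit 671319967682) (nat_lit 1) (nat_lit 5) (nat_lit 3) (nat_lit 4) (nat_lit 1) (nat_lit 4) (nat_lit 405) (nat_lit 330) (nat_lit 285)) (XT.lf (nat_lit 0) (nat_lit 783935174398) (nat_lit 152) (nat_lit 3613832751315) (nat_lit 0) (nat_lit 783078995714) (nat_lit 1) (nat_lit 5) (nat_lit 3) (nat_lit 4) (nat_lit 1) (nat_lit 4) (nat_lit 406) (nat_lit 330) (nat_lit 284)))))))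 (XT.nd (nat_lit 1014) (nat_lit 0) (nat_lit 0) (XT.nd (nat_lit 468) (nat_lit 0) (nat_lit 0) (XT.nd (nat_lit 234) (nat_lit 0) (nat_lit 0) (XT.nd (nat_lit 78) (nat_lit 0) (nat_lit 0) (XT.lf (nat_lit 0) (nat_lit 912453306086) (nat_lit 152) (nat_lit 4132265155314) (nat_lit 0) (nat_lit 911596946868) (nat_lit 1) (nat_lit 5) (nat_lit 3) (nat_lit 4) (nat_lit 1) (nat_lit 4) (nat_lit 407) (nat_lit 330) (nat_lit 283)) (XT.nd (nat_lit 78) (nat_lit 0) (nat_lit 0) (XT.lf (nat_lit 0) (nat_lit 1060244819002) (nat_lit 152) (nat_lit 4728471697145) (nat_lit 0) (nat_lit 1059388302798) (nat_lit 1) (nat_lit 5) (nat_lit 3) (nat_lit 4) (nat_lit 1) (nat_lit 4) (nat_lit 408) (nat_lit 330) (nat_lit 282)) (XT.lf (nat_lit 0) (nat_lit 1230201286225) (nat_lit 152) (nat_lit 5414117287410) (nat_lit 0) (nat_lit 1229344633511) (nat_lit 1) (nat_lit 5) (nat_lit 3) (nat_lit 4) (nat_lit 1) (nat_lit 4) (nat_lit 409) (nat_lit 330)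 (nat_lit 281)))) (XT.nd (nat_lit 78) (nat_lit 0) (nat_lit 0) (XT.lf (nat_lit 0) (nat_lit 1425647942982) (nat_lit 152) (nat_lit 6202616731135) (nat_lit 0) (nat_lit 1424791171565) (nat_lit 1) (nat_lit 5) (nat_lit 3) (nat_lit 4) (nat_lit 1) (nat_lit 4) (nat_lit 410) (nat_lit 330) (nat_lit 280)) (XT.nd (nat_lit 78) (nat_lit 0) (nat_lit 0) (XT.lf (nat_lit 0) (nat_lit 1650408745601) (nat_lit 152) (nat_lit 7109397191350) (nat_lit 0) (nat_lit 1649551870963) (nat_lit 1) (nat_lit 5) (nat_lit 3) (nat_lit 4) (nat_lit 1) (nat_lit 4) (nat_lit 411) (nat_lit 330) (nat_lit 279)) (XT.lf (nat_lit 0) (nat_lit 1908881188048) (nat_lit 152) (nat_lit 8152200024885) (nat_lit 0) (nat_lit 1908024223653) (nat_lit 1) (nat_lit 5) (nat_lit 3) (nat_lit 4) (nat_lit 1) (nat_lit 4) (nat_lit 412) (nat_lit 330) (nat_lit 278))))) (XT.nd (nat_lit 234) (nat_lit 0) (nat_lit 0) (XT.nd (nat_lit 78) (nat_lit 0) (nat_lit 0) (XT.lf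 (nat_lit 0) (nat_lit 2206122339847) (nat_lit 152) (nat_lit 9351427895875) (nat_lit 0) (nat_lit 2205265297402) (nat_lit 1) (nat_lit 5) (nat_lit 3) (nat_lit 4) (nat_lit 1) (nat_lit 4) (nat_lit 413) (nat_lit 330) (nat_lit 277)) (XT.nd (nat_lit 78) (nat_lit 0) (nat_lit 0) (XT.lf (nat_lit 0) (nat_lit 2547947788752) (nat_lit 152) (nat_lit 10730543958317) (nat_lit 0) (nat_lit 2547090678438) (nat_lit 1) (nat_lit 5) (nat_lit 3) (nat_lit 4) (nat_lit 1) (nat_lit 4) (nat_lit 414) (nat_lit 330) (nat_lit 276)) (XT.lf (nat_lit 0) (nat_lit 2941045423981) (nat_lit 152) (nat_lit 12316530917781) (nat_lit 0) (nat_lit 2940188254649) (nat_lit 1) (nat_lit 5) (nat_lit 3) (nat_lit 4) (nat_lit 1) (nat_lit 4) (nat_lit 415) (nat_lit 330) (nat_lit 275)))) (XT.nd (nat_lit 156) (nat_lit 0) (nat_lit 0) (XT.nd (nat_lit 78) (nat_lit 0) (nat_lit 0) (XT.lf (nat_lit 0) (nat_lit 3393106286221) (nat_lit 152) (nat_lit 14140418953908)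 (nat_lit 0) (nat_lit 3392249065571) (nat_lit 1) (nat_lit 5) (nat_lit 3) (nat_lit 4) (nat_lit 1) (nat_lit 4) (nat_lit 416) (nat_lit 330) (nat_lit 274)) (XT.lf (nat_lit 0) (nat_lit 3912975044518) (nat_lit 152) (nat_lit 16237892832623) (nat_lit 0) (nat_lit 3912117779243) (nat_lit 1) (nat_lit 5) (nat_lit 3) (nat_lit 4) (nat_lit 1) (nat_lit 4) (nat_lit 417) (nat_lit 330) (nat_lit 273))) (XT.nd (nat_lit 78) (nat_lit 0) (nat_lit 0) (XT.lf (nat_lit 0) (nat_lit 4510823044143) (nat_lit 152) (nat_lit 18649990086335) (nat_lit 0) (nat_lit 4509965740063) (nat_lit 1) (nat_lit 5) (nat_lit 3) (nat_lit 4) (nat_lit 1) (nat_lit 4) (nat_lit 418) (nat_lit 330) (nat_lit 272)) (XT.lf (nat_lit 0) (nat_lit 5198347311174) (nat_lit 152) (nat_lit 21423903922182) (nat_lit 0) (nat_lit 5197489973351) (nat_lit 1) (nat_lit 5) (nat_lit 3) (nat_lit 4) (nat_lit 1) (nat_lit 4) (nat_lit 419) (nat_lit 330) (nat_lit 271))))))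 (XT.nd (nat_lit 468) (nat_lit 0) (nat_lit 0) (XT.nd (nat_lit 234) (nat_lit 0) (nat_lit 0) (XT.nd (nat_lit 78) (nat_lit 0) (nat_lit 0) (XT.lf (nat_lit 0) (nat_lit 5988999407359) (nat_lit 152) (nat_lit 24613906567387) (nat_lit 0) (nat_lit 5988142040194) (nat_lit 1) (nat_lit 5) (nat_lit 3) (nat_lit 4) (nat_lit 1) (nat_lit 4) (nat_lit 420) (nat_lit 330) (nat_lit 270)) (XT.nd (nat_lit 78) (nat_lit 0) (nat_lit 0) (XT.lf (nat_lit 0) (nat_lit 6898248612840) (nat_lit 152) (nat_lit 28282411117183) (nat_lit 0) (nat_lit 6897391220161) (nat_lit 1) (nat_lit 5) (nat_lit 3) (nat_lit 4) (nat_lit 1) (nat_lit 4) (nat_lit 421) (nat_lit 330) (nat_lit 269)) (XT.lf (nat_lit 0) (nat_lit 7943884585985) (nat_lit 152) (nat_lit 32501192660587) (nat_lit 0) (nat_lit 7943027171119) (nat_lit 1) (nat_lit 5) (nat_lit 3) (nat_lit 4) (nat_lit 1) (nat_lit 4) (nat_lit 422) (nat_lit 330) (nat_lit 268)))) (XT.nd (nat_lit 78)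 (nat_lit 0) (nat_lit 0) (XT.lf (nat_lit 0) (nat_lit 9146365421920) (nat_lit 152) (nat_lit 37352792575623) (nat_lit 0) (nat_lit 9145507987762) (nat_lit 1) (nat_lit 5) (nat_lit 3) (nat_lit 4) (nat_lit 1) (nat_lit 4) (nat_lit 423) (nat_lit 330) (nat_lit 267)) (XT.nd (nat_lit 78) (nat_lit 0) (nat_lit 0) (XT.lf (nat_lit 0) (nat_lit 10529217919611) (nat_lit 152) (nat_lit 42932133469323) (nat_lit 0) (nat_lit 10528360468676) (nat_lit 1) (nat_lit 5) (nat_lit 3) (nat_lit 4) (nat_lit 1) (nat_lit 4) (nat_lit 424) (nat_lit 330) (nat_lit 266)) (XT.lf (nat_lit 0) (nat_lit 12119497888794) (nat_lit 152) (nat_lit 49348376359173) (nat_lit 0) (nat_lit 12118640423271) (nat_lit 1) (nat_lit 5) (nat_lit 3) (nat_lit 4) (nat_lit 1) (nat_lit 4) (nat_lit 425) (nat_lit 330) (nat_lit 265))))) (XT.nd (nat_lit 234) (nat_lit 0) (nat_lit 0) (XT.nd (nat_lit 78) (nat_lit 0) (nat_lit 0) (XT.lf (nat_lit 0) (nat_lit 13948319502779)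 (nat_lit 152) (nat_lit 56727056432149) (nat_lit 0) (nat_lit 13947462024571) (nat_lit 1) (nat_lit 5) (nat_lit 3) (nat_lit 4) (nat_lit 1) (nat_lit 4) (nat_lit 426) (nat_lit 330) (nat_lit 264)) (XT.nd (nat_lit 78) (nat_lit 0) (nat_lit 0) (XT.lf (nat_lit 0) (nat_lit 16051464054014) (nat_lit 152) (nat_lit 65212539167938) (nat_lit 0) (nat_lit 16050606564775) (nat_lit 1) (nat_lit 5) (nat_lit 3) (nat_lit 4) (nat_lit 1) (nat_lit 4) (nat_lit 427) (nat_lit 330) (nat_lit 263)) (XT.lf (nat_lit 0) (nat_lit 18470080022849) (nat_lit 152) (nat_lit 74970844880938) (nat_lit 0) (nat_lit 18469222524018) (nat_lit 1) (nat_lit 5) (nat_lit 3) (nat_lit 4) (nat_lit 1) (nat_lit 4) (nat_lit 428) (nat_lit 330) (nat_lit 262)))) (XT.nd (nat_lit 156) (nat_lit 0) (nat_lit 0) (XT.nd (nat_lit 78) (nat_lit 0) (nat_lit 0) (XT.lf (nat_lit 0) (nat_lit 21251488156500) (nat_lit 152) (nat_lit 86192896943793) (nat_lit 0) (nat_lit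 21250630649329) (nat_lit 1) (nat_lit 5) (nat_lit 3) (nat_lit 4) (nat_lit 1) (nat_lit 4) (nat_lit 429) (nat_lit 330) (nat_lit 261)) (XT.lf (nat_lit 0) (nat_lit 24450107309757) (nat_lit 152) (nat_lit 99098257244690) (nat_lit 0) (nat_lit 24449249795333) (nat_lit 1) (nat_lit 5) (nat_lit 3) (nat_lit 4) (nat_lit 1) (nat_lit 4) (nat_lit 430) (nat_lit 330) (nat_lit 260))) (XT.nd (nat_lit 78) (nat_lit 0) (nat_lit 0) (XT.lf (nat_lit 0) (nat_lit 28128519161705) (nat_lit 152) (nat_lit 113939421963429) (nat_lit 0) (nat_lit 28127661640974) (nat_lit 1) (nat_lit 5) (nat_lit 3) (nat_lit 4) (nat_lit 1) (nat_lit 4) (nat_lit 431) (nat_lit 330) (nat_lit 259)) (XT.lf (nat_lit 0) (nat_lit 32358692639881) (nat_lit 152) (nat_lit 131006761714073) (nat_lit 0) (nat_lit 32357835113666) (nat_lit 1) (nat_lit 5) (nat_lit 3) (nat_lit 4) (nat_lit 1) (nat_lit 4) (nat_lit 432) (nat_lit 330) (nat_lit 258))))))))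
noncomputable def xc32 : XT := (XT.nd (nat_lit 48360) (nat_lit 0) (nat_lit 0) (XT.nd (nat_lit 47346) (nat_lit 0) (nat_lit 456) (XT.nd (nat_lit 468) (nat_lit 0) (nat_lit 0) (XT.nd (nat_lit 234) (nat_lit 0) (nat_lit 0) (XT.nd (nat_lit 78) (nat_lit 0) (nat_lit 0) (XT.lf (nat_lit 0) (nat_lit 37223392007990) (nat_lit 152) (nat_lit 150634202709133) (nat_lit 0) (nat_lit 37222534477006) (nat_lit 1) (nat_lit 5) (nat_lit 3) (nat_lit 4) (nat_lit 1) (nat_lit 4) (nat_lit 433) (nat_lit 330) (nat_lit 257)) (XT.nd (nat_lit 78) (nat_lit 0) (nat_lit 0) (XT.lf (nat_lit 0) (nat_lit 42817796166712) (nat_lit 152) (nat_lit 173205760098513) (nat_lit 0) (nat_lit 42816938631580) (nat_lit 1) (nat_lit 5) (nat_lit 3) (nat_lit 4) (nat_lit 1) (nat_lit 4) (nat_lit 434) (nat_lit 330) (nat_lit 256)) (XT.lf (nat_lit 0) (nat_lit 49251360849586) (nat_lit 152) (nat_lit 199163051309398) (nat_lit 0) (nat_lit 49250503310848) (nat_lit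 1) (nat_lit 5) (nat_lit 3) (nat_lit 4) (nat_lit 1) (nat_lit 4) (nat_lit 435) (nat_lit 330) (nat_lit 255)))) (XT.nd (nat_lit 78) (nat_lit 0) (nat_lit 0) (XT.lf (nat_lit 0) (nat_lit 56649960148234) (nat_lit 152) (nat_lit 229013936387217) (nat_lit 0) (nat_lit 56649102606362) (nat_lit 1) (nat_lit 5) (nat_lit 3) (nat_lit 4) (nat_lit 1) (nat_lit 4) (nat_lit 436) (nat_lit 330) (nat_lit 254)) (XT.nd (nat_lit 78) (nat_lit 0) (nat_lit 0) (XT.lf (nat_lit 0) (nat_lit 65158349266327) (nat_lit 152) (nat_lit 263342454387839) (nat_lit 0) (nat_lit 65157491721728) (nat_lit 1) (nat_lit 5) (nat_lit 3) (nat_lit 4) (nat_lit 1) (nat_lit 4) (nat_lit 437) (nat_lit 330) (nat_lit 253)) (XT.lf (nat_lit 0) (nat_lit 74942996686608) (nat_lit 152) (nat_lit 302820250228671) (nat_lit 0) (nat_lit 74942139139637) (nat_lit 1) (nat_lit 5) (nat_lit 3) (nat_lit 4) (nat_lit 1) (nat_lit 4) (nat_lit 438) (nat_lit 330) (nat_lit 252)))))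 (XT.nd (nat_lit 390) (nat_lit 0) (nat_lit 0) (XT.nd (nat_lit 78) (nat_lit 0) (nat_lit 0) (XT.lf (nat_lit 0) (nat_lit 86195341162953) (nat_lit 152) (nat_lit 348219715567465) (nat_lit 0) (nat_lit 86194483613921) (nat_lit 1) (nat_lit 5) (nat_lit 3) (nat_lit 4) (nat_lit 1) (nat_lit 4) (nat_lit 439) (nat_lit 330) (nat_lit 251)) (XT.nd (nat_lit 78) (nat_lit 0) (nat_lit 0) (XT.lf (nat_lit 0) (nat_lit 99135537261203) (nat_lit 152) (nat_lit 400429100813025) (nat_lit 0) (nat_lit 99134679710379) (nat_lit 1) (nat_lit 5) (nat_lit 3) (nat_lit 4) (nat_lit 1) (nat_lit 4) (nat_lit 440) (nat_lit 330) (nat_lit 250)) (XT.lf (nat_lit 0) (nat_lit 114016762731107) (nat_lit 152) (nat_lit 460469893937549) (nat_lit 0) (nat_lit 114015905178723) (nat_lit 1) (nat_lit 5) (nat_lit 3) (nat_lit 4) (nat_lit 1) (nat_lit 4) (nat_lit 441) (nat_lit 330) (nat_lit 249)))) (XT.nd (nat_lit 78) (nat_lit 0) (nat_lit 0) (XT.lf (nat_lit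 0) (nat_lit 173443076263522) (nat_lit 152) (nat_lit 700235296669720) (nat_lit 0) (nat_lit 173442218707579) (nat_lit 1) (nat_lit 5) (nat_lit 3) (nat_lit 4) (nat_lit 1) (nat_lit 4) (nat_lit 444) (nat_lit 330) (nat_lit 246)) (XT.nd (nat_lit 46332) (nat_lit 0) (nat_lit 1368) (XT.lf (nat_lit 0) (nat_lit 199470432460772) (nat_lit 152) (nat_lit 805247019435768) (nat_lit 0) (nat_lit 199469574903935) (nat_lit 1) (nat_lit 5) (nat_lit 3) (nat_lit 4) (nat_lit 1) (nat_lit 4) (nat_lit 445) (nat_lit 330) (nat_lit 245)) (XT.lf (nat_lit 0) (nat_lit 1510128487) (nat_lit 152) (nat_lit 4403900180) (nat_lit 0) (nat_lit 1510128487) (nat_lit 19) (nat_lit 5) (nat_lit 21) (nat_lit 4) (nat_lit 19) (nat_lit 4) (nat_lit 358) (nat_lit 331) (nat_lit 331)))))) (XT.nd (nat_lit 468) (nat_lit 380) (nat_lit 0) (XT.nd (nat_lit 234) (nat_lit 304) (nat_lit 0) (XT.nd (nat_lit 78) (nat_lit 152) (nat_lit 0) (XT.lf (nat_lit 0)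 (nat_lit 4523604165) (nat_lit 76) (nat_lit 5879084659) (nat_lit 76) (nat_lit 5581545437) (nat_lit 18) (nat_lit 4) (nat_lit 19) (nat_lit 5) (nat_lit 19) (nat_lit 4) (nat_lit 359) (nat_lit 331) (nat_lit 330)) (XT.nd (nat_lit 78) (nat_lit 0) (nat_lit 0) (XT.lf (nat_lit 0) (nat_lit 1391725723) (nat_lit 152) (nat_lit 14991036973) (nat_lit 0) (nat_lit 908013566) (nat_lit 16) (nat_lit 5) (nat_lit 18) (nat_lit 4) (nat_lit 16) (nat_lit 4) (nat_lit 360) (nat_lit 331) (nat_lit 329)) (XT.lf (nat_lit 0) (nat_lit 9065166055) (nat_lit 152) (nat_lit 1268643017) (nat_lit 0) (nat_lit 8385817030) (nat_lit 16) (nat_lit 5) (nat_lit 18) (nat_lit 4) (nat_lit 16) (nat_lit 4) (nat_lit 361) (nat_lit 331) (nat_lit 328)))) (XT.nd (nat_lit 78) (nat_lit 228) (nat_lit 0) (XT.lf (nat_lit 0) (nat_lit 14591000962) (nat_lit 76) (nat_lit 3309812480) (nat_lit 76) (nat_lit 2460344439) (nat_lit 15) (nat_lit 4) (nat_lit 16) (nat_lit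 5) (nat_lit 16) (nat_lit 4) (nat_lit 362) (nat_lit 331) (nat_lit 327)) (XT.nd (nat_lit 78) (nat_lit 76) (nat_lit 0) (XT.lf (nat_lit 0) (nat_lit 5401432678) (nat_lit 152) (nat_lit 12261369339) (nat_lit 0) (nat_lit 4534130400) (nat_lit 13) (nat_lit 5) (nat_lit 15) (nat_lit 4) (nat_lit 13) (nat_lit 4) (nat_lit 363) (nat_lit 331) (nat_lit 326)) (XT.lf (nat_lit 0) (nat_lit 3147789980) (nat_lit 76) (nat_lit 11059678339) (nat_lit 76) (nat_lit 10080520047) (nat_lit 12) (nat_lit 4) (nat_lit 13) (nat_lit 5) (nat_lit 13) (nat_lit 4) (nat_lit 364) (nat_lit 331) (nat_lit 325))))) (XT.nd (nat_lit 234) (nat_lit 228) (nat_lit 0) (XT.nd (nat_lit 78) (nat_lit 152) (nat_lit 0) (XT.lf (nat_lit 0) (nat_lit 21075952458) (nat_lit 76) (nat_lit 3340447489) (nat_lit 76) (nat_lit 2264023098) (nat_lit 12) (nat_lit 4) (nat_lit 13) (nat_lit 5) (nat_lit 13) (nat_lit 4) (nat_lit 365) (nat_lit 331) (nat_lit 324)) (XT.nd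 (nat_lit 78) (nat_lit 0) (nat_lit 0) (XT.lf (nat_lit 0) (nat_lit 6356245229) (nat_lit 152) (nat_lit 17652545537) (nat_lit 0) (nat_lit 5346676874) (nat_lit 10) (nat_lit 5) (nat_lit 12) (nat_lit 4) (nat_lit 10) (nat_lit 4) (nat_lit 366) (nat_lit 331) (nat_lit 323)) (XT.lf (nat_lit 0) (nat_lit 15996654540) (nat_lit 152) (nat_lit 1501989059) (nat_lit 0) (nat_lit 14923132145) (nat_lit 10) (nat_lit 5) (nat_lit 12) (nat_lit 4) (nat_lit 10) (nat_lit 4) (nat_lit 367) (nat_lit 331) (nat_lit 322)))) (XT.nd (nat_lit 156) (nat_lit 76) (nat_lit 0) (XT.nd (nat_lit 78) (nat_lit 76) (nat_lit 0) (XT.lf (nat_lit 0) (nat_lit 17718463208) (nat_lit 76) (nat_lit 9657400740) (nat_lit 76) (nat_lit 8528266137) (nat_lit 9) (nat_lit 4) (nat_lit 10) (nat_lit 5) (nat_lit 10) (nat_lit 4) (nat_lit 368) (nat_lit 331) (nat_lit 321)) (XT.lf (nat_lit 0) (nat_lit 145915201) (nat_lit 152) (nat_lit 863775360) (nat_lit 76) (nat_lit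 38949413642) (nat_lit 8) (nat_lit 5) (nat_lit 10) (nat_lit 5) (nat_lit 9) (nat_lit 4) (nat_lit 369) (nat_lit 331) (nat_lit 320))) (XT.nd (nat_lit 78) (nat_lit 0) (nat_lit 0) (XT.lf (nat_lit 0) (nat_lit 10086521812) (nat_lit 152) (nat_lit 25323080159) (nat_lit 0) (nat_lit 9026048888) (nat_lit 7) (nat_lit 5) (nat_lit 9) (nat_lit 4) (nat_lit 7) (nat_lit 4) (nat_lit 370) (nat_lit 331) (nat_lit 319)) (XT.lf (nat_lit 0) (nat_lit 21231859186) (nat_lit 152) (nat_lit 8255190751) (nat_lit 0) (nat_lit 20139589801) (nat_lit 7) (nat_lit 5) (nat_lit 9) (nat_lit 4) (nat_lit 7) (nat_lit 4) (nat_lit 371) (nat_lit 331) (nat_lit 318))))))) (XT.nd (nat_lit 1014) (nat_lit 152) (nat_lit 0) (XT.nd (nat_lit 468) (nat_lit 76) (nat_lit 0) (XT.nd (nat_lit 234) (nat_lit 152) (nat_lit 0) (XT.nd (nat_lit 78) (nat_lit 0) (nat_lit 0) (XT.lf (nat_lit 0) (nat_lit 11710664992) (nat_lit 76) (nat_lit 22491295648) (nat_lit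 76) (nat_lit 21371377167) (nat_lit 6) (nat_lit 4) (nat_lit 7) (nat_lit 5) (nat_lit 7) (nat_lit 4) (nat_lit 372) (nat_lit 331) (nat_lit 317)) (XT.nd (nat_lit 78) (nat_lit 0) (nat_lit 0) (XT.lf (nat_lit 0) (nat_lit 34926424035) (nat_lit 76) (nat_lit 14306165302) (nat_lit 76) (nat_lit 13162204129) (nat_lit 6) (nat_lit 4) (nat_lit 7) (nat_lit 5) (nat_lit 7) (nat_lit 4) (nat_lit 373) (nat_lit 331) (nat_lit 316)) (XT.lf (nat_lit 0) (nat_lit 61039550470) (nat_lit 76) (nat_lit 5203036379) (nat_lit 76) (nat_lit 4038168517) (nat_lit 6) (nat_lit 4) (nat_lit 7) (nat_lit 5) (nat_lit 7) (nat_lit 4) (nat_lit 374) (nat_lit 331) (nat_lit 315)))) (XT.nd (nat_lit 78) (nat_lit 0) (nat_lit 0) (XT.lf (nat_lit 0) (nat_lit 6368170017) (nat_lit 152) (nat_lit 67528673837) (nat_lit 0) (nat_lit 5339432981) (nat_lit 4) (nat_lit 5) (nat_lit 6) (nat_lit 4) (nat_lit 4) (nat_lit 4) (nat_lit 375) (nat_lit 331) (nat_lit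 314)) (XT.nd (nat_lit 78) (nat_lit 0) (nat_lit 0) (XT.lf (nat_lit 0) (nat_lit 18425585056) (nat_lit 152) (nat_lit 53622064961) (nat_lit 0) (nat_lit 17383101533) (nat_lit 4) (nat_lit 5) (nat_lit 6) (nat_lit 4) (nat_lit 4) (nat_lit 4) (nat_lit 376) (nat_lit 331) (nat_lit 313)) (XT.lf (nat_lit 0) (nat_lit 32073984215) (nat_lit 152) (nat_lit 38093512581) (nat_lit 0) (nat_lit 31019547224) (nat_lit 4) (nat_lit 5) (nat_lit 6) (nat_lit 4) (nat_lit 4) (nat_lit 4) (nat_lit 377) (nat_lit 331) (nat_lit 312))))) (XT.nd (nat_lit 234) (nat_lit 0) (nat_lit 0) (XT.nd (nat_lit 78) (nat_lit 76) (nat_lit 0) (XT.lf (nat_lit 0) (nat_lit 47580401390) (nat_lit 152) (nat_lit 20639197193) (nat_lit 0) (nat_lit 46515570080) (nat_lit 4) (nat_lit 5) (nat_lit 6) (nat_lit 4) (nat_lit 4) (nat_lit 4) (nat_lit 378) (nat_lit 331) (nat_lit 311)) (XT.nd (nat_lit 78) (nat_lit 76) (nat_lit 0) (XT.lf (nat_lit 0) (nat_lit 65248223004)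 (nat_lit 152) (nat_lit 917621322) (nat_lit 0) (nat_lit 64174353155) (nat_lit 4) (nat_lit 5) (nat_lit 6) (nat_lit 4) (nat_lit 4) (nat_lit 4) (nat_lit 379) (nat_lit 331) (nat_lit 310)) (XT.lf (nat_lit 0) (nat_lit 23554013071) (nat_lit 76) (nat_lit 62844432208) (nat_lit 76) (nat_lit 61762702761) (nat_lit 3) (nat_lit 4) (nat_lit 4) (nat_lit 5) (nat_lit 4) (nat_lit 4) (nat_lit 380) (nat_lit 331) (nat_lit 309)))) (XT.nd (nat_lit 156) (nat_lit 0) (nat_lit 0) (XT.nd (nat_lit 78) (nat_lit 0) (nat_lit 0) (XT.lf (nat_lit 0) (nat_lit 51508270814) (nat_lit 76) (nat_lit 59124407020) (nat_lit 76) (nat_lit 58035843139) (nat_lit 3) (nat_lit 4) (nat_lit 4) (nat_lit 5) (nat_lit 4) (nat_lit 4) (nat_lit 381) (nat_lit 331) (nat_lit 308)) (XT.lf (nat_lit 0) (nat_lit 83402406405) (nat_lit 76) (nat_lit 54980952229) (nat_lit 76) (nat_lit 53886445362) (nat_lit 3) (nat_lit 4) (nat_lit 4) (nat_lit 5) (nat_lit 4) (nat_lit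 4) (nat_lit 382) (nat_lit 331) (nat_lit 307))) (XT.nd (nat_lit 78) (nat_lit 0) (nat_lit 0) (XT.lf (nat_lit 0) (nat_lit 119860435542) (nat_lit 76) (nat_lit 50333000243) (nat_lit 76) (nat_lit 49233325562) (nat_lit 3) (nat_lit 4) (nat_lit 4) (nat_lit 5) (nat_lit 4) (nat_lit 4) (nat_lit 383) (nat_lit 331) (nat_lit 306)) (XT.lf (nat_lit 0) (nat_lit 161595667490) (nat_lit 76) (nat_lit 45089612869) (nat_lit 76) (nat_lit 43985444437) (nat_lit 3) (nat_lit 4) (nat_lit 4) (nat_lit 5) (nat_lit 4) (nat_lit 4) (nat_lit 384) (nat_lit 331) (nat_lit 305)))))) (XT.nd (nat_lit 468) (nat_lit 0) (nat_lit 0) (XT.nd (nat_lit 234) (nat_lit 152) (nat_lit 0) (XT.nd (nat_lit 78) (nat_lit 0) (nat_lit 0) (XT.lf (nat_lit 0) (nat_lit 209424661135) (nat_lit 76) (nat_lit 39148202094) (nat_lit 76) (nat_lit 38040126053) (nat_lit 3) (nat_lit 4) (nat_lit 4) (nat_lit 5) (nat_lit 4) (nat_lit 4) (nat_lit 385) (nat_lit 331) (nat_lit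 304)) (XT.nd (nat_lit 78) (nat_lit 0) (nat_lit 0) (XT.lf (nat_lit 0) (nat_lit 264283201134) (nat_lit 76) (nat_lit 32392522926) (nat_lit 76) (nat_lit 31281048963) (nat_lit 3) (nat_lit 4) (nat_lit 4) (nat_lit 5) (nat_lit 4) (nat_lit 4) (nat_lit 386) (nat_lit 331) (nat_lit 303)) (XT.lf (nat_lit 0) (nat_lit 327244606750) (nat_lit 76) (nat_lit 24690399031) (nat_lit 76) (nat_lit 23575970354) (nat_lit 3) (nat_lit 4) (nat_lit 4) (nat_lit 5) (nat_lit 4) (nat_lit 4) (nat_lit 387) (nat_lit 331) (nat_lit 302)))) (XT.nd (nat_lit 78) (nat_lit 152) (nat_lit 0) (XT.lf (nat_lit 0) (nat_lit 399540731570) (nat_lit 76) (nat_lit 15891136682) (nat_lit 76) (nat_lit 14774138688) (nat_lit 3) (nat_lit 4) (nat_lit 4) (nat_lit 5) (nat_lit 4) (nat_lit 4) (nat_lit 388) (nat_lit 331) (nat_lit 301)) (XT.nd (nat_lit 78) (nat_lit 152) (nat_lit 0) (XT.lf (nat_lit 0) (nat_lit 482586064993) (nat_lit 76) (nat_lit 5822576398)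 (nat_lit 76) (nat_lit 4703344216) (nat_lit 3) (nat_lit 4) (nat_lit 4) (nat_lit 5) (nat_lit 4) (nat_lit 4) (nat_lit 389) (nat_lit 331) (nat_lit 300)) (XT.lf (nat_lit 0) (nat_lit 7059037995) (nat_lit 152) (nat_lit 552149003947) (nat_lit 0) (nat_lit 6084103252) (nat_lit 1) (nat_lit 5) (nat_lit 3) (nat_lit 4) (nat_lit 1) (nat_lit 4) (nat_lit 390) (nat_lit 331) (nat_lit 299))))) (XT.nd (nat_lit 234) (nat_lit 0) (nat_lit 0) (XT.nd (nat_lit 78) (nat_lit 0) (nat_lit 0) (XT.lf (nat_lit 0) (nat_lit 20917331406) (nat_lit 152) (nat_lit 607285511627) (nat_lit 0) (nat_lit 19940927647) (nat_lit 1) (nat_lit 5) (nat_lit 3) (nat_lit 4) (nat_lit 1) (nat_lit 4) (nat_lit 391) (nat_lit 331) (nat_lit 298)) (XT.nd (nat_lit 78) (nat_lit 0) (nat_lit 0) (XT.lf (nat_lit 0) (nat_lit 36819065977) (nat_lit 152) (nat_lit 670767984874) (nat_lit 0) (nat_lit 35841384814) (nat_lit 1) (nat_lit 5) (nat_lit 3) (nat_lit 4) (nat_lit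 1) (nat_lit 4) (nat_lit 392) (nat_lit 331) (nat_lit 297)) (XT.lf (nat_lit 0) (nat_lit 55075362604) (nat_lit 152) (nat_lit 743838472076) (nat_lit 0) (nat_lit 54096570654) (nat_lit 1) (nat_lit 5) (nat_lit 3) (nat_lit 4) (nat_lit 1) (nat_lit 4) (nat_lit 393) (nat_lit 331) (nat_lit 296)))) (XT.nd (nat_lit 156) (nat_lit 0) (nat_lit 0) (XT.nd (nat_lit 78) (nat_lit 0) (nat_lit 0) (XT.lf (nat_lit 0) (nat_lit 76043409697) (nat_lit 152) (nat_lit 827926613201) (nat_lit 0) (nat_lit 75063651846) (nat_lit 1) (nat_lit 5) (nat_lit 3) (nat_lit 4) (nat_lit 1) (nat_lit 4) (nat_lit 394) (nat_lit 331) (nat_lit 295)) (XT.lf (nat_lit 0) (nat_lit 100133451657) (nat_lit 152) (nat_lit 924677611011) (nat_lit 0) (nat_lit 99152853892) (nat_lit 1) (nat_lit 5) (nat_lit 3) (nat_lit 4) (nat_lit 1) (nat_lit 4) (nat_lit 395) (nat_lit 331) (nat_lit 294))) (XT.nd (nat_lit 78) (nat_lit 0) (nat_lit 0) (XT.lf (nat_lit 0) (nat_lit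 127816815392) (nat_lit 152) (nat_lit 1035984419810) (nat_lit 0) (nat_lit 126835487267) (nat_lit 1) (nat_lit 5) (nat_lit 3) (nat_lit 4) (nat_lit 1) (nat_lit 4) (nat_lit 396) (nat_lit 331) (nat_lit 293)) (XT.lf (nat_lit 0) (nat_lit 159635131931) (nat_lit 152) (nat_lit 1164024781509) (nat_lit 0) (nat_lit 158653168710) (nat_lit 1) (nat_lit 5) (nat_lit 3) (nat_lit 4) (nat_lit 1) (nat_lit 4) (nat_lit 397) (nat_lit 331) (nat_lit 292))))))))
noncomputable def xc33 : XT := (XT.nd (nat_lit 1950) (nat_lit 0) (nat_lit 0) (XT.nd (nat_lit 936) (nat_lit 0) (nat_lit 0) (XT.nd (nat_lit 468) (nat_lit 0) (nat_lit 0) (XT.nd (nat_lit 234) (nat_lit 0) (nat_lit 0) (XT.nd (nat_lit 78) (nat_lit 0) (nat_lit 0) (XT.lf (nat_lit 0) (nat_lit 196210933554) (nat_lit 152) (nat_lit 1311303833620) (nat_lit 0) (nat_lit 195228418076) (nat_lit 1) (nat_lit 5) (nat_lit 3) (nat_lit 4) (nat_lit 1) (nat_lit 4) (nat_lit 398) (nat_lit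 331) (nat_lit 291)) (XT.nd (nat_lit 78) (nat_lit 0) (nat_lit 0) (XT.lf (nat_lit 0) (nat_lit 238259833772) (nat_lit 152) (nat_lit 1480703122815) (nat_lit 0) (nat_lit 237276838070) (nat_lit 1) (nat_lit 5) (nat_lit 3) (nat_lit 4) (nat_lit 1) (nat_lit 4) (nat_lit 399) (nat_lit 331) (nat_lit 290)) (XT.lf (nat_lit 0) (nat_lit 286604528458) (nat_lit 152) (nat_lit 1675536983012) (nat_lit 0) (nat_lit 285621115170) (nat_lit 1) (nat_lit 5) (nat_lit 3) (nat_lit 4) (nat_lit 1) (nat_lit 4) (nat_lit 400) (nat_lit 331) (nat_lit 289)))) (XT.nd (nat_lit 78) (nat_lit 0) (nat_lit 0) (XT.lf (nat_lit 0) (nat_lit 342190892073) (nat_lit 152) (nat_lit 1899617381042) (nat_lit 0) (nat_lit 341207115667) (nat_lit 1) (nat_lit 5) (nat_lit 3) (nat_lit 4) (nat_lit 1) (nat_lit 4) (nat_lit 401) (nat_lit 331) (nat_lit 288)) (XT.nd (nat_lit 78) (nat_lit 0) (nat_lit 0) (XT.lf (nat_lit 0) (nat_lit 406106483906) (nat_lit 152)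 (nat_lit 2157328498606) (nat_lit 0) (nat_lit 405122391745) (nat_lit 1) (nat_lit 5) (nat_lit 3) (nat_lit 4) (nat_lit 1) (nat_lit 4) (nat_lit 402) (nat_lit 331) (nat_lit 287)) (XT.lf (nat_lit 0) (nat_lit 479601826405) (nat_lit 152) (nat_lit 2453712509741) (nat_lit 0) (nat_lit 478617459675) (nat_lit 1) (nat_lit 5) (nat_lit 3) (nat_lit 4) (nat_lit 1) (nat_lit 4) (nat_lit 403) (nat_lit 331) (nat_lit 286))))) (XT.nd (nat_lit 234) (nat_lit 0) (nat_lit 0) (XT.nd (nat_lit 78) (nat_lit 0) (nat_lit 0) (XT.lf (nat_lit 0) (nat_lit 564114871924) (nat_lit 152) (nat_lit 2794568232059) (nat_lit 0) (nat_lit 563130266438) (nat_lit 1) (nat_lit 5) (nat_lit 3) (nat_lit 4) (nat_lit 1) (nat_lit 4) (nat_lit 404) (nat_lit 331) (nat_lit 285)) (XT.nd (nat_lit 78) (nat_lit 0) (nat_lit 0) (XT.lf (nat_lit 0) (nat_lit 661299136571) (nat_lit 152) (nat_lit 3186564581864) (nat_lit 0) (nat_lit 660314323471) (nat_lit 1) (nat_lit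 5) (nat_lit 3) (nat_lit 4) (nat_lit 1) (nat_lit 4) (nat_lit 405) (nat_lit 331) (nat_lit 284)) (XT.lf (nat_lit 0) (nat_lit 773056051610) (nat_lit 152) (nat_lit 3637371052958) (nat_lit 0) (nat_lit 772071057976) (nat_lit 1) (nat_lit 5) (nat_lit 3) (nat_lit 4) (nat_lit 1) (nat_lit 4) (nat_lit 406) (nat_lit 331) (nat_lit 283)))) (XT.nd (nat_lit 78) (nat_lit 0) (nat_lit 0) (XT.lf (nat_lit 0) (nat_lit 901572165380) (nat_lit 152) (nat_lit 4155807771949) (nat_lit 0) (nat_lit 900587014760) (nat_lit 1) (nat_lit 5) (nat_lit 3) (nat_lit 4) (nat_lit 1) (nat_lit 4) (nat_lit 407) (nat_lit 331) (nat_lit 282)) (XT.nd (nat_lit 78) (nat_lit 0) (nat_lit 0) (XT.lf (nat_lit 0) (nat_lit 1049361923584) (nat_lit 152) (nat_lit 4752018065947) (nat_lit 0) (nat_lit 1048376636454) (nat_lit 1) (nat_lit 5) (nat_lit 3) (nat_lit 4) (nat_lit 1) (nat_lit 4) (nat_lit 408) (nat_lit 331) (nat_lit 281)) (XT.lf (nat_lit 0) (nat_lit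 1219316864970) (nat_lit 152) (nat_lit 5437666918965) (nat_lit 0) (nat_lit 1218331459136) (nat_lit 1) (nat_lit 5) (nat_lit 3) (nat_lit 4) (nat_lit 1) (nat_lit 4) (nat_lit 409) (nat_lit 331) (nat_lit 280)))))) (XT.nd (nat_lit 468) (nat_lit 0) (nat_lit 0) (XT.nd (nat_lit 234) (nat_lit 0) (nat_lit 0) (XT.nd (nat_lit 78) (nat_lit 0) (nat_lit 0) (XT.lf (nat_lit 0) (nat_lit 1414762194912) (nat_lit 152) (nat_lit 6226169199868) (nat_lit 0) (nat_lit 1413776685858) (nat_lit 1) (nat_lit 5) (nat_lit 3) (nat_lit 4) (nat_lit 1) (nat_lit 4) (nat_lit 410) (nat_lit 331) (nat_lit 279)) (XT.nd (nat_lit 78) (nat_lit 0) (nat_lit 0) (XT.lf (nat_lit 0) (nat_lit 1639521843780) (nat_lit 152) (nat_lit 7132952127193) (nat_lit 0) (nat_lit 1638536244969) (nat_lit 1) (nat_lit 5) (nat_lit 3) (nat_lit 4) (nat_lit 1) (nat_lit 4) (nat_lit 411) (nat_lit 331) (nat_lit 278)) (XT.lf (nat_lit 0) (nat_lit 1897993282965) (nat_lit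 152) (nat_lit 8175757106042) (nat_lit 0) (nat_lit 1897007606103) (nat_lit 1) (nat_lit 5) (nat_lit 3) (nat_lit 4) (nat_lit 1) (nat_lit 4) (nat_lit 412) (nat_lit 331) (nat_lit 277)))) (XT.nd (nat_lit 78) (nat_lit 0) (nat_lit 0) (XT.lf (nat_lit 0) (nat_lit 2195233562362) (nat_lit 152) (nat_lit 9374986842522) (nat_lit 0) (nat_lit 2194247817631) (nat_lit 1) (nat_lit 5) (nat_lit 3) (nat_lit 4) (nat_lit 1) (nat_lit 4) (nat_lit 413) (nat_lit 331) (nat_lit 276)) (XT.nd (nat_lit 78) (nat_lit 0) (nat_lit 0) (XT.lf (nat_lit 0) (nat_lit 2537058252657) (nat_lit 152) (nat_lit 10754104527130) (nat_lit 0) (nat_lit 2536072448909) (nat_lit 1) (nat_lit 5) (nat_lit 3) (nat_lit 4) (nat_lit 1) (nat_lit 4) (nat_lit 414) (nat_lit 331) (nat_lit 275)) (XT.lf (nat_lit 0) (nat_lit 2930155228224) (nat_lit 152) (nat_lit 12340092897172) (nat_lit 0) (nat_lit 2929169373157) (nat_lit 1) (nat_lit 5) (nat_lit 3) (nat_lit 4)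 (nat_lit 1) (nat_lit 4) (nat_lit 415) (nat_lit 331) (nat_lit 274))))) (XT.nd (nat_lit 234) (nat_lit 0) (nat_lit 0) (XT.nd (nat_lit 78) (nat_lit 0) (nat_lit 0) (XT.lf (nat_lit 0) (nat_lit 3382215516846) (nat_lit 152) (nat_lit 14163982159889) (nat_lit 0) (nat_lit 3381229617154) (nat_lit 1) (nat_lit 5) (nat_lit 3) (nat_lit 4) (nat_lit 1) (nat_lit 4) (nat_lit 416) (nat_lit 331) (nat_lit 273)) (XT.nd (nat_lit 78) (nat_lit 0) (nat_lit 0) (XT.lf (nat_lit 0) (nat_lit 3902083776344) (nat_lit 152) (nat_lit 16261457105204) (nat_lit 0) (nat_lit 3901097837848) (nat_lit 1) (nat_lit 5) (nat_lit 3) (nat_lit 4) (nat_lit 1) (nat_lit 4) (nat_lit 417) (nat_lit 331) (nat_lit 272)) (XT.lf (nat_lit 0) (nat_lit 4499931342231) (nat_lit 152) (nat_lit 18673555286394) (nat_lit 0) (nat_lit 4498945369991) (nat_lit 1) (nat_lit 5) (nat_lit 3) (nat_lit 4) (nat_lit 1) (nat_lit 4) (nat_lit 418) (nat_lit 331) (nat_lit 271))))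 (XT.nd (nat_lit 156) (nat_lit 0) (nat_lit 0) (XT.nd (nat_lit 78) (nat_lit 0) (nat_lit 0) (XT.lf (nat_lit 0) (nat_lit 5187455232099) (nat_lit 152) (nat_lit 21447469928744) (nat_lit 0) (nat_lit 5186469230518) (nat_lit 1) (nat_lit 5) (nat_lit 3) (nat_lit 4) (nat_lit 1) (nat_lit 4) (nat_lit 419) (nat_lit 331) (nat_lit 270)) (XT.lf (nat_lit 0) (nat_lit 5978107000315) (nat_lit 152) (nat_lit 24637473275256) (nat_lit 0) (nat_lit 5977120973219) (nat_lit 1) (nat_lit 5) (nat_lit 3) (nat_lit 4) (nat_lit 1) (nat_lit 4) (nat_lit 420) (nat_lit 331) (nat_lit 269))) (XT.nd (nat_lit 78) (nat_lit 0) (nat_lit 0) (XT.lf (nat_lit 0) (nat_lit 6887355920606) (nat_lit 152) (nat_lit 28305978434884) (nat_lit 0) (nat_lit 6886369871324) (nat_lit 1) (nat_lit 5) (nat_lit 3) (nat_lit 4) (nat_lit 1) (nat_lit 4) (nat_lit 421) (nat_lit 331) (nat_lit 268)) (XT.lf (nat_lit 0) (nat_lit 7932991645760) (nat_lit 152) (nat_lit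 32524760508577) (nat_lit 0) (nat_lit 7932005577185) (nat_lit 1) (nat_lit 5) (nat_lit 3) (nat_lit 4) (nat_lit 1) (nat_lit 4) (nat_lit 422) (nat_lit 331) (nat_lit 267))))))) (XT.nd (nat_lit 1014) (nat_lit 0) (nat_lit 0) (XT.nd (nat_lit 468) (nat_lit 0) (nat_lit 0) (XT.nd (nat_lit 234) (nat_lit 0) (nat_lit 0) (XT.nd (nat_lit 78) (nat_lit 0) (nat_lit 0) (XT.lf (nat_lit 0) (nat_lit 9135472266051) (nat_lit 152) (nat_lit 37376360884733) (nat_lit 0) (nat_lit 9134486180700) (nat_lit 1) (nat_lit 5) (nat_lit 3) (nat_lit 4) (nat_lit 1) (nat_lit 4) (nat_lit 423) (nat_lit 331) (nat_lit 266)) (XT.nd (nat_lit 78) (nat_lit 0) (nat_lit 0) (XT.lf (nat_lit 0) (nat_lit 10518324576225) (nat_lit 152) (nat_lit 42955702179408) (nat_lit 0) (nat_lit 10517338476285) (nat_lit 1) (nat_lit 5) (nat_lit 3) (nat_lit 4) (nat_lit 1) (nat_lit 4) (nat_lit 424) (nat_lit 331) (nat_lit 265)) (XT.lf (nat_lit 0) (nat_lit 12108604382350)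 (nat_lit 152) (nat_lit 49371945417931) (nat_lit 0) (nat_lit 12107618269725) (nat_lit 1) (nat_lit 5) (nat_lit 3) (nat_lit 4) (nat_lit 1) (nat_lit 4) (nat_lit 425) (nat_lit 331) (nat_lit 264)))) (XT.nd (nat_lit 78) (nat_lit 0) (nat_lit 0) (XT.lf (nat_lit 0) (nat_lit 13937425854545) (nat_lit 152) (nat_lit 56750625794101) (nat_lit 0) (nat_lit 13936439730889) (nat_lit 1) (nat_lit 5) (nat_lit 3) (nat_lit 4) (nat_lit 1) (nat_lit 4) (nat_lit 426) (nat_lit 331) (nat_lit 263)) (XT.nd (nat_lit 78) (nat_lit 0) (nat_lit 0) (XT.lf (nat_lit 0) (nat_lit 16040570282484) (nat_lit 152) (nat_lit 65236108793538) (nat_lit 0) (nat_lit 16039584149237) (nat_lit 1) (nat_lit 5) (nat_lit 3) (nat_lit 4) (nat_lit 1) (nat_lit 4) (nat_lit 427) (nat_lit 331) (nat_lit 262)) (XT.lf (nat_lit 0) (nat_lit 18459186144106) (nat_lit 152) (nat_lit 74994414735796) (nat_lit 0) (nat_lit 18458200002518) (nat_lit 1) (nat_lit 5) (nat_lit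 3) (nat_lit 4) (nat_lit 1) (nat_lit 4) (nat_lit 428) (nat_lit 331) (nat_lit 261))))) (XT.nd (nat_lit 234) (nat_lit 0) (nat_lit 0) (XT.nd (nat_lit 78) (nat_lit 0) (nat_lit 0) (XT.lf (nat_lit 0) (nat_lit 21240594184529) (nat_lit 152) (nat_lit 86216466998006) (nat_lit 0) (nat_lit 21239608035688) (nat_lit 1) (nat_lit 5) (nat_lit 3) (nat_lit 4) (nat_lit 1) (nat_lit 4) (nat_lit 429) (nat_lit 331) (nat_lit 260)) (XT.nd (nat_lit 78) (nat_lit 0) (nat_lit 0) (XT.lf (nat_lit 0) (nat_lit 24439213256717) (nat_lit 152) (nat_lit 99121827472256) (nat_lit 0) (nat_lit 24438227101569) (nat_lit 1) (nat_lit 5) (nat_lit 3) (nat_lit 4) (nat_lit 1) (nat_lit 4) (nat_lit 430) (nat_lit 331) (nat_lit 259)) (XT.lf (nat_lit 0) (nat_lit 28117625038170) (nat_lit 152) (nat_lit 113962992341736) (nat_lit 0) (nat_lit 28116638877538) (nat_lit 1) (nat_lit 5) (nat_lit 3) (nat_lit 4) (nat_lit 1) (nat_lit 4) (nat_lit 431) (nat_lit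 331) (nat_lit 258)))) (XT.nd (nat_lit 156) (nat_lit 0) (nat_lit 0) (XT.nd (nat_lit 78) (nat_lit 0) (nat_lit 0) (XT.lf (nat_lit 0) (nat_lit 32347798455047) (nat_lit 152) (nat_lit 131030332223459) (nat_lit 0) (nat_lit 32346812289646) (nat_lit 1) (nat_lit 5) (nat_lit 3) (nat_lit 4) (nat_lit 1) (nat_lit 4) (nat_lit 432) (nat_lit 331) (nat_lit 257)) (XT.lf (nat_lit 0) (nat_lit 37212497769852) (nat_lit 152) (nat_lit 150657773332501) (nat_lit 0) (nat_lit 37211511600303) (nat_lit 1) (nat_lit 5) (nat_lit 3) (nat_lit 4) (nat_lit 1) (nat_lit 4) (nat_lit 433) (nat_lit 331) (nat_lit 256))) (XT.nd (nat_lit 78) (nat_lit 0) (nat_lit 0) (XT.lf (nat_lit 0) (nat_lit 42806901882222) (nat_lit 152) (nat_lit 173229330820996) (nat_lit 0) (nat_lit 42805915709068) (nat_lit 1) (nat_lit 5) (nat_lit 3) (nat_lit 4) (nat_lit 1) (nat_lit 4) (nat_lit 434) (nat_lit 331) (nat_lit 255)) (XT.lf (nat_lit 0) (nat_lit 49240466524790)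 (nat_lit 152) (nat_lit 199186622118068) (nat_lit 0) (nat_lit 49239480348501) (nat_lit 1) (nat_lit 5) (nat_lit 3) (nat_lit 4) (nat_lit 1) (nat_lit 4) (nat_lit 435) (nat_lit 331) (nat_lit 254)))))) (XT.nd (nat_lit 46878) (nat_lit 0) (nat_lit 1064) (XT.nd (nat_lit 234) (nat_lit 0) (nat_lit 0) (XT.nd (nat_lit 78) (nat_lit 0) (nat_lit 0) (XT.lf (nat_lit 0) (nat_lit 56639065788390) (nat_lit 152) (nat_lit 229037507270831) (nat_lit 0) (nat_lit 56638079609375) (nat_lit 1) (nat_lit 5) (nat_lit 3) (nat_lit 4) (nat_lit 1) (nat_lit 4) (nat_lit 436) (nat_lit 331) (nat_lit 253)) (XT.nd (nat_lit 78) (nat_lit 0) (nat_lit 0) (XT.lf (nat_lit 0) (nat_lit 65147454876006) (nat_lit 152) (nat_lit 263366025336623) (nat_lit 0) (nat_lit 65146468694620) (nat_lit 1) (nat_lit 5) (nat_lit 3) (nat_lit 4) (nat_lit 1) (nat_lit 4) (nat_lit 437) (nat_lit 331) (nat_lit 252)) (XT.lf (nat_lit 0) (nat_lit 74932102269786) (nat_lit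 152) (nat_lit 302843821234124) (nat_lit 0) (nat_lit 74931116086337) (nat_lit 1) (nat_lit 5) (nat_lit 3) (nat_lit 4) (nat_lit 1) (nat_lit 4) (nat_lit 438) (nat_lit 331) (nat_lit 251)))) (XT.nd (nat_lit 78) (nat_lit 0) (nat_lit 0) (XT.lf (nat_lit 0) (nat_lit 86184446723086) (nat_lit 152) (nat_lit 348243286622196) (nat_lit 0) (nat_lit 86183460537845) (nat_lit 1) (nat_lit 5) (nat_lit 3) (nat_lit 4) (nat_lit 1) (nat_lit 4) (nat_lit 439) (nat_lit 331) (nat_lit 250)) (XT.nd (nat_lit 78) (nat_lit 0) (nat_lit 0) (XT.lf (nat_lit 0) (nat_lit 99124642801298) (nat_lit 152) (nat_lit 400452671910607) (nat_lit 0) (nat_lit 99123656614496) (nat_lit 1) (nat_lit 5) (nat_lit 3) (nat_lit 4) (nat_lit 1) (nat_lit 4) (nat_lit 440) (nat_lit 331) (nat_lit 249)) (XT.lf (nat_lit 0) (nat_lit 114005868253776) (nat_lit 152) (nat_lit 460493465072390) (nat_lit 0) (nat_lit 114004882065621) (nat_lit 1) (nat_lit 5) (nat_lit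 3) (nat_lit 4) (nat_lit 1) (nat_lit 4) (nat_lit 441) (nat_lit 331) (nat_lit 248))))) (XT.nd (nat_lit 234) (nat_lit 304) (nat_lit 0) (XT.nd (nat_lit 78) (nat_lit 228) (nat_lit 0) (XT.lf (nat_lit 0) (nat_lit 1912176924) (nat_lit 152) (nat_lit 2619695759) (nat_lit 0) (nat_lit 1912176924) (nat_lit 22) (nat_lit 5) (nat_lit 24) (nat_lit 4) (nat_lit 22) (nat_lit 4) (nat_lit 356) (nat_lit 332) (nat_lit 332)) (XT.nd (nat_lit 78) (nat_lit 152) (nat_lit 0) (XT.lf (nat_lit 0) (nat_lit 6831767029) (nat_lit 76) (nat_lit 3697356678) (nat_lit 76) (nat_lit 3303861057) (nat_lit 21) (nat_lit 4) (nat_lit 22) (nat_lit 5) (nat_lit 22) (nat_lit 4) (nat_lit 357) (nat_lit 332) (nat_lit 331)) (XT.lf (nat_lit 0) (nat_lit 3040415688) (nat_lit 152) (nat_lit 9455520908) (nat_lit 0) (nat_lit 2400706361) (nat_lit 19) (nat_lit 5) (nat_lit 21) (nat_lit 4) (nat_lit 19) (nat_lit 4) (nat_lit 358) (nat_lit 332) (nat_lit 330))))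 (XT.nd (nat_lit 156) (nat_lit 76) (nat_lit 0) (XT.nd (nat_lit 78) (nat_lit 152) (nat_lit 0) (XT.lf (nat_lit 0) (nat_lit 3194304949) (nat_lit 76) (nat_lit 6893489237) (nat_lit 76) (nat_lit 5995050152) (nat_lit 18) (nat_lit 4) (nat_lit 19) (nat_lit 5) (nat_lit 19) (nat_lit 4) (nat_lit 359) (nat_lit 332) (nat_lit 329)) (XT.lf (nat_lit 0) (nat_lit 178481188) (nat_lit 76) (nat_lit 427054938) (nat_lit 152) (nat_lit 16847860970) (nat_lit 16) (nat_lit 5) (nat_lit 17) (nat_lit 5) (nat_lit 18) (nat_lit 4) (nat_lit 360) (nat_lit 332) (nat_lit 328))) (XT.nd (nat_lit 78) (nat_lit 76) (nat_lit 0) (XT.lf (nat_lit 0) (nat_lit 7985483150) (nat_lit 152) (nat_lit 4102327296) (nat_lit 0) (nat_lit 6838475888) (nat_lit 16) (nat_lit 5) (nat_lit 18) (nat_lit 4) (nat_lit 16) (nat_lit 4) (nat_lit 361) (nat_lit 332) (nat_lit 327)) (XT.lf (nat_lit 0) (nat_lit 10938694612) (nat_lit 76) (nat_lit 5491367036) (nat_lit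 76) (nat_lit 4196430194) (nat_lit 15) (nat_lit 4) (nat_lit 16) (nat_lit 5) (nat_lit 16) (nat_lit 4) (nat_lit 362) (nat_lit 332) (nat_lit 326))))))))
noncomputable def xc34 : XT := (XT.nd (nat_lit 1950) (nat_lit 152) (nat_lit 0) (XT.nd (nat_lit 936) (nat_lit 228) (nat_lit 0) (XT.nd (nat_lit 468) (nat_lit 228) (nat_lit 0) (XT.nd (nat_lit 234) (nat_lit 228) (nat_lit 0) (XT.nd (nat_lit 78) (nat_lit 76) (nat_lit 0) (XT.lf (nat_lit 0) (nat_lit 3269969176) (nat_lit 152) (nat_lit 17253499761) (nat_lit 0) (nat_lit 2032081126) (nat_lit 13) (nat_lit 5) (nat_lit 15) (nat_lit 4) (nat_lit 13) (nat_lit 4) (nat_lit 363) (nat_lit 332) (nat_lit 325)) (XT.nd (nat_lit 78) (nat_lit 76) (nat_lit 0) (XT.lf (nat_lit 0) (nat_lit 11708228257) (nat_lit 152) (nat_lit 2620478939) (nat_lit 0) (nat_lit 10373074107) (nat_lit 13) (nat_lit 5) (nat_lit 15) (nat_lit 4) (nat_lit 13) (nat_lit 4) (nat_lit 364) (nat_lit 332)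 (nat_lit 324)) (XT.lf (nat_lit 0) (nat_lit 14578231742) (nat_lit 76) (nat_lit 6993750923) (nat_lit 76) (nat_lit 5574017557) (nat_lit 12) (nat_lit 4) (nat_lit 13) (nat_lit 5) (nat_lit 13) (nat_lit 4) (nat_lit 365) (nat_lit 332) (nat_lit 323)))) (XT.nd (nat_lit 78) (nat_lit 76) (nat_lit 0) (XT.lf (nat_lit 0) (nat_lit 2622213904) (nat_lit 152) (nat_lit 26003493883) (nat_lit 0) (nat_lit 1323709111) (nat_lit 10) (nat_lit 5) (nat_lit 12) (nat_lit 4) (nat_lit 10) (nat_lit 4) (nat_lit 366) (nat_lit 332) (nat_lit 322)) (XT.nd (nat_lit 78) (nat_lit 76) (nat_lit 0) (XT.lf (nat_lit 0) (nat_lit 12057532482) (nat_lit 152) (nat_lit 10285545685) (nat_lit 0) (nat_lit 10703415481) (nat_lit 10) (nat_lit 5) (nat_lit 12) (nat_lit 4) (nat_lit 10) (nat_lit 4) (nat_lit 367) (nat_lit 332) (nat_lit 321)) (XT.lf (nat_lit 0) (nat_lit 7663569281) (nat_lit 76) (nat_lit 15178481126) (nat_lit 76) (nat_lit 13776005683)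 (nat_lit 9) (nat_lit 4) (nat_lit 10) (nat_lit 5) (nat_lit 10) (nat_lit 4) (nat_lit 368) (nat_lit 332) (nat_lit 320))))) (XT.nd (nat_lit 234) (nat_lit 76) (nat_lit 0) (XT.nd (nat_lit 78) (nat_lit 152) (nat_lit 0) (XT.lf (nat_lit 0) (nat_lit 28688980331) (nat_lit 76) (nat_lit 6727533427) (nat_lit 76) (nat_lit 5283007165) (nat_lit 9) (nat_lit 4) (nat_lit 10) (nat_lit 5) (nat_lit 10) (nat_lit 4) (nat_lit 369) (nat_lit 332) (nat_lit 319)) (XT.nd (nat_lit 78) (nat_lit 0) (nat_lit 0) (XT.lf (nat_lit 0) (nat_lit 4182812499) (nat_lit 152) (nat_lit 38272932939) (nat_lit 0) (nat_lit 2894906246) (nat_lit 7) (nat_lit 5) (nat_lit 9) (nat_lit 4) (nat_lit 7) (nat_lit 4) (nat_lit 370) (nat_lit 332) (nat_lit 318)) (XT.lf (nat_lit 0) (nat_lit 15173754436) (nat_lit 152) (nat_lit 21532848858) (nat_lit 0) (nat_lit 13858199087) (nat_lit 7) (nat_lit 5) (nat_lit 9) (nat_lit 4) (nat_lit 7) (nat_lit 4) (nat_lit 371)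 (nat_lit 332) (nat_lit 317)))) (XT.nd (nat_lit 78) (nat_lit 76) (nat_lit 0) (XT.lf (nat_lit 0) (nat_lit 27524685326) (nat_lit 152) (nat_lit 2894605603) (nat_lit 0) (nat_lit 26185087284) (nat_lit 7) (nat_lit 5) (nat_lit 9) (nat_lit 4) (nat_lit 7) (nat_lit 4) (nat_lit 372) (nat_lit 332) (nat_lit 316)) (XT.nd (nat_lit 78) (nat_lit 0) (nat_lit 0) (XT.lf (nat_lit 0) (nat_lit 19766180149) (nat_lit 76) (nat_lit 22529549036) (nat_lit 76) (nat_lit 21169044305) (nat_lit 6) (nat_lit 4) (nat_lit 7) (nat_lit 5) (nat_lit 7) (nat_lit 4) (nat_lit 373) (nat_lit 332) (nat_lit 315)) (XT.lf (nat_lit 0) (nat_lit 45642705386) (nat_lit 76) (nat_lit 13551706654) (nat_lit 76) (nat_lit 12173022194) (nat_lit 6) (nat_lit 4) (nat_lit 7) (nat_lit 5) (nat_lit 7) (nat_lit 4) (nat_lit 374) (nat_lit 332) (nat_lit 314)))))) (XT.nd (nat_lit 468) (nat_lit 0) (nat_lit 0) (XT.nd (nat_lit 234) (nat_lit 76) (nat_lit 0) (XT.nd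 (nat_lit 78) (nat_lit 152) (nat_lit 0) (XT.lf (nat_lit 0) (nat_lit 74958368037) (nat_lit 76) (nat_lit 3461419276) (nat_lit 76) (nat_lit 2066926356) (nat_lit 6) (nat_lit 4) (nat_lit 7) (nat_lit 5) (nat_lit 7) (nat_lit 4) (nat_lit 375) (nat_lit 332) (nat_lit 313)) (XT.nd (nat_lit 78) (nat_lit 0) (nat_lit 0) (XT.lf (nat_lit 0) (nat_lit 9666693826) (nat_lit 152) (nat_lit 72661366915) (nat_lit 0) (nat_lit 8442137819) (nat_lit 4) (nat_lit 5) (nat_lit 6) (nat_lit 4) (nat_lit 4) (nat_lit 4) (nat_lit 376) (nat_lit 332) (nat_lit 312)) (XT.lf (nat_lit 0) (nat_lit 23227073516) (nat_lit 152) (nat_lit 57320498185) (nat_lit 0) (nat_lit 21992123190) (nat_lit 4) (nat_lit 5) (nat_lit 6) (nat_lit 4) (nat_lit 4) (nat_lit 4) (nat_lit 377) (nat_lit 332) (nat_lit 311)))) (XT.nd (nat_lit 78) (nat_lit 76) (nat_lit 0) (XT.lf (nat_lit 0) (nat_lit 38656952022) (nat_lit 152) (nat_lit 40029385972) (nat_lit 0) (nat_lit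 37412963157) (nat_lit 4) (nat_lit 5) (nat_lit 6) (nat_lit 4) (nat_lit 4) (nat_lit 4) (nat_lit 378) (nat_lit 332) (nat_lit 310)) (XT.nd (nat_lit 78) (nat_lit 76) (nat_lit 0) (XT.lf (nat_lit 0) (nat_lit 56258218272) (nat_lit 152) (nat_lit 20449725906) (nat_lit 0) (nat_lit 55006369809) (nat_lit 4) (nat_lit 5) (nat_lit 6) (nat_lit 4) (nat_lit 4) (nat_lit 4) (nat_lit 379) (nat_lit 332) (nat_lit 309)) (XT.lf (nat_lit 0) (nat_lit 1977624090) (nat_lit 76) (nat_lit 74479509972) (nat_lit 76) (nat_lit 73220827075) (nat_lit 3) (nat_lit 4) (nat_lit 4) (nat_lit 5) (nat_lit 4) (nat_lit 4) (nat_lit 380) (nat_lit 332) (nat_lit 308))))) (XT.nd (nat_lit 234) (nat_lit 0) (nat_lit 0) (XT.nd (nat_lit 78) (nat_lit 0) (nat_lit 0) (XT.lf (nat_lit 0) (nat_lit 29814086106) (nat_lit 76) (nat_lit 70822077424) (nat_lit 76) (nat_lit 69557451541) (nat_lit 3) (nat_lit 4) (nat_lit 4) (nat_lit 5) (nat_lit 4) (nat_lit 4)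 (nat_lit 381) (nat_lit 332) (nat_lit 307)) (XT.nd (nat_lit 78) (nat_lit 0) (nat_lit 0) (XT.lf (nat_lit 0) (nat_lit 61605790631) (nat_lit 76) (nat_lit 66733051016) (nat_lit 76) (nat_lit 65463257319) (nat_lit 3) (nat_lit 4) (nat_lit 4) (nat_lit 5) (nat_lit 4) (nat_lit 4) (nat_lit 382) (nat_lit 332) (nat_lit 306)) (XT.lf (nat_lit 0) (nat_lit 97974749275) (nat_lit 76) (nat_lit 62132428057) (nat_lit 76) (nat_lit 60858140610) (nat_lit 3) (nat_lit 4) (nat_lit 4) (nat_lit 5) (nat_lit 4) (nat_lit 4) (nat_lit 383) (nat_lit 332) (nat_lit 305)))) (XT.nd (nat_lit 156) (nat_lit 0) (nat_lit 0) (XT.nd (nat_lit 78) (nat_lit 0) (nat_lit 0) (XT.lf (nat_lit 0) (nat_lit 139632528620) (nat_lit 76) (nat_lit 56930196360) (nat_lit 76) (nat_lit 55652001303) (nat_lit 3) (nat_lit 4) (nat_lit 4) (nat_lit 5) (nat_lit 4) (nat_lit 4) (nat_lit 384) (nat_lit 332) (nat_lit 304)) (XT.lf (nat_lit 0) (nat_lit 187394172176)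 (nat_lit 76) (nat_lit 51024573131) (nat_lit 76) (nat_lit 49742980152) (nat_lit 3) (nat_lit 4) (nat_lit 4) (nat_lit 5) (nat_lit 4) (nat_lit 4) (nat_lit 385) (nat_lit 332) (nat_lit 303))) (XT.nd (nat_lit 78) (nat_lit 0) (nat_lit 0) (XT.lf (nat_lit 0) (nat_lit 242194146881) (nat_lit 76) (nat_lit 44300013567) (nat_lit 76) (nat_lit 43015465874) (nat_lit 3) (nat_lit 4) (nat_lit 4) (nat_lit 5) (nat_lit 4) (nat_lit 4) (nat_lit 386) (nat_lit 332) (nat_lit 302)) (XT.lf (nat_lit 0) (nat_lit 305104626153) (nat_lit 76) (nat_lit 36624950197) (nat_lit 76) (nat_lit 35337833188) (nat_lit 3) (nat_lit 4) (nat_lit 4) (nat_lit 5) (nat_lit 4) (nat_lit 4) (nat_lit 387) (nat_lit 332) (nat_lit 301))))))) (XT.nd (nat_lit 1014) (nat_lit 0) (nat_lit 0) (XT.nd (nat_lit 468) (nat_lit 0) (nat_lit 0) (XT.nd (nat_lit 234) (nat_lit 152) (nat_lit 0) (XT.nd (nat_lit 78) (nat_lit 0) (nat_lit 0) (XT.lf (nat_lit 0) (nat_lit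 377356467197) (nat_lit 76) (nat_lit 27849218740) (nat_lit 76) (nat_lit 26559867542) (nat_lit 3) (nat_lit 4) (nat_lit 4) (nat_lit 5) (nat_lit 4) (nat_lit 4) (nat_lit 388) (nat_lit 332) (nat_lit 300)) (XT.nd (nat_lit 78) (nat_lit 0) (nat_lit 0) (XT.lf (nat_lit 0) (nat_lit 460363292987) (nat_lit 76) (nat_lit 17801120102) (nat_lit 76) (nat_lit 16509826131) (nat_lit 3) (nat_lit 4) (nat_lit 4) (nat_lit 5) (nat_lit 4) (nat_lit 4) (nat_lit 389) (nat_lit 332) (nat_lit 299)) (XT.lf (nat_lit 0) (nat_lit 555749150118) (nat_lit 76) (nat_lit 6284061047) (nat_lit 76) (nat_lit 4991077709) (nat_lit 3) (nat_lit 4) (nat_lit 4) (nat_lit 5) (nat_lit 4) (nat_lit 4) (nat_lit 390) (nat_lit 332) (nat_lit 298)))) (XT.nd (nat_lit 78) (nat_lit 0) (nat_lit 0) (XT.lf (nat_lit 0) (nat_lit 8498015085) (nat_lit 152) (nat_lit 634158526659) (nat_lit 0) (nat_lit 7372404343) (nat_lit 1) (nat_lit 5) (nat_lit 3) (nat_lit 4)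 (nat_lit 1) (nat_lit 4) (nat_lit 391) (nat_lit 332) (nat_lit 297)) (XT.nd (nat_lit 78) (nat_lit 0) (nat_lit 0) (XT.lf (nat_lit 0) (nat_lit 24385471457) (nat_lit 152) (nat_lit 697671531518) (nat_lit 0) (nat_lit 23258749928) (nat_lit 1) (nat_lit 5) (nat_lit 3) (nat_lit 4) (nat_lit 1) (nat_lit 4) (nat_lit 392) (nat_lit 332) (nat_lit 296)) (XT.lf (nat_lit 0) (nat_lit 42629352256) (nat_lit 152) (nat_lit 770768567950) (nat_lit 0) (nat_lit 41501664826) (nat_lit 1) (nat_lit 5) (nat_lit 3) (nat_lit 4) (nat_lit 1) (nat_lit 4) (nat_lit 393) (nat_lit 332) (nat_lit 295))))) (XT.nd (nat_lit 234) (nat_lit 0) (nat_lit 0) (XT.nd (nat_lit 78) (nat_lit 0) (nat_lit 0) (XT.lf (nat_lit 0) (nat_lit 63586602979) (nat_lit 152) (nat_lit 854879795362) (nat_lit 0) (nat_lit 62458075635) (nat_lit 1) (nat_lit 5) (nat_lit 3) (nat_lit 4) (nat_lit 1) (nat_lit 4) (nat_lit 394) (nat_lit 332) (nat_lit 294)) (XT.nd (nat_lit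 78) (nat_lit 0) (nat_lit 0) (XT.lf (nat_lit 0) (nat_lit 87667256791) (nat_lit 152) (nat_lit 951650868203) (nat_lit 0) (nat_lit 86537999086) (nat_lit 1) (nat_lit 5) (nat_lit 3) (nat_lit 4) (nat_lit 1) (nat_lit 4) (nat_lit 395) (nat_lit 332) (nat_lit 293)) (XT.lf (nat_lit 0) (nat_lit 115342456918) (nat_lit 152) (nat_lit 1062975133551) (nat_lit 0) (nat_lit 114212564118) (nat_lit 1) (nat_lit 5) (nat_lit 3) (nat_lit 4) (nat_lit 1) (nat_lit 4) (nat_lit 396) (nat_lit 332) (nat_lit 292)))) (XT.nd (nat_lit 156) (nat_lit 0) (nat_lit 0) (XT.nd (nat_lit 78) (nat_lit 0) (nat_lit 0) (XT.lf (nat_lit 0) (nat_lit 147153674668) (nat_lit 152) (nat_lit 1191030674858) (nat_lit 0) (nat_lit 146023229610) (nat_lit 1) (nat_lit 5) (nat_lit 3) (nat_lit 4) (nat_lit 1) (nat_lit 4) (nat_lit 397) (nat_lit 332) (nat_lit 291)) (XT.lf (nat_lit 0) (nat_lit 183723303431) (nat_lit 152) (nat_lit 1338322926628) (nat_lit 0) (nat_lit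 182592378150) (nat_lit 1) (nat_lit 5) (nat_lit 3) (nat_lit 4) (nat_lit 1) (nat_lit 4) (nat_lit 398) (nat_lit 332) (nat_lit 290))) (XT.nd (nat_lit 78) (nat_lit 0) (nat_lit 0) (XT.lf (nat_lit 0) (nat_lit 225766835944) (nat_lit 152) (nat_lit 1507733693787) (nat_lit 0) (nat_lit 224635493078) (nat_lit 1) (nat_lit 5) (nat_lit 3) (nat_lit 4) (nat_lit 1) (nat_lit 4) (nat_lit 399) (nat_lit 332) (nat_lit 289)) (XT.lf (nat_lit 0) (nat_lit 274106863061) (nat_lit 152) (nat_lit 1702577534823) (nat_lit 0) (nat_lit 272975157076) (nat_lit 1) (nat_lit 5) (nat_lit 3) (nat_lit 4) (nat_lit 1) (nat_lit 4) (nat_lit 400) (nat_lit 332) (nat_lit 288)))))) (XT.nd (nat_lit 468) (nat_lit 0) (nat_lit 0) (XT.nd (nat_lit 234) (nat_lit 0) (nat_lit 0) (XT.nd (nat_lit 78) (nat_lit 0) (nat_lit 0) (XT.lf (nat_lit 0) (nat_lit 329689167921) (nat_lit 152) (nat_lit 1926666611843) (nat_lit 0) (nat_lit 328557146181) (nat_lit 1)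 (nat_lit 5) (nat_lit 3) (nat_lit 4) (nat_lit 1) (nat_lit 4) (nat_lit 401) (nat_lit 332) (nat_lit 287)) (XT.nd (nat_lit 78) (nat_lit 0) (nat_lit 0) (XT.lf (nat_lit 0) (nat_lit 393601230401) (nat_lit 152) (nat_lit 2184385276354) (nat_lit 0) (nat_lit 392468934092) (nat_lit 1) (nat_lit 5) (nat_lit 3) (nat_lit 4) (nat_lit 1) (nat_lit 4) (nat_lit 402) (nat_lit 332) (nat_lit 286)) (XT.lf (nat_lit 0) (nat_lit 467093503898) (nat_lit 152) (nat_lit 2480775850054) (nat_lit 0) (nat_lit 465960968833) (nat_lit 1) (nat_lit 5) (nat_lit 3) (nat_lit 4) (nat_lit 1) (nat_lit 4) (nat_lit 403) (nat_lit 332) (nat_lit 285)))) (XT.nd (nat_lit 78) (nat_lit 0) (nat_lit 0) (XT.lf (nat_lit 0) (nat_lit 551603880719) (nat_lit 152) (nat_lit 2821637278948) (nat_lit 0) (nat_lit 550471138040) (nat_lit 1) (nat_lit 5) (nat_lit 3) (nat_lit 4) (nat_lit 1) (nat_lit 4) (nat_lit 404) (nat_lit 332) (nat_lit 284)) (XT.nd (nat_lit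 78) (nat_lit 0) (nat_lit 0) (XT.lf (nat_lit 0) (nat_lit 648785824759) (nat_lit 152) (nat_lit 3213638590994) (nat_lit 0) (nat_lit 647652901546) (nat_lit 1) (nat_lit 5) (nat_lit 3) (nat_lit 4) (nat_lit 1) (nat_lit 4) (nat_lit 405) (nat_lit 332) (nat_lit 283)) (XT.lf (nat_lit 0) (nat_lit 760540721880) (nat_lit 152) (nat_lit 3664449377080) (nat_lit 0) (nat_lit 759407641680) (nat_lit 1) (nat_lit 5) (nat_lit 3) (nat_lit 4) (nat_lit 1) (nat_lit 4) (nat_lit 406) (nat_lit 332) (nat_lit 282))))) (XT.nd (nat_lit 234) (nat_lit 0) (nat_lit 0) (XT.nd (nat_lit 78) (nat_lit 0) (nat_lit 0) (XT.lf (nat_lit 0) (nat_lit 889055080937) (nat_lit 152) (nat_lit 4182889848237) (nat_lit 0) (nat_lit 887921864228) (nat_lit 1) (nat_lit 5) (nat_lit 3) (nat_lit 4) (nat_lit 1) (nat_lit 4) (nat_lit 407) (nat_lit 332) (nat_lit 281)) (XT.nd (nat_lit 78) (nat_lit 0) (nat_lit 0) (XT.lf (nat_lit 0) (nat_lit 1036843313304) (nat_lit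 152) (nat_lit 4779103404989) (nat_lit 0) (nat_lit 1035709977892) (nat_lit 1) (nat_lit 5) (nat_lit 3) (nat_lit 4) (nat_lit 1) (nat_lit 4) (nat_lit 408) (nat_lit 332) (nat_lit 280)) (XT.lf (nat_lit 0) (nat_lit 1206796927876) (nat_lit 152) (nat_lit 5464755095185) (nat_lit 0) (nat_lit 1205663489242) (nat_lit 1) (nat_lit 5) (nat_lit 3) (nat_lit 4) (nat_lit 1) (nat_lit 4) (nat_lit 409) (nat_lit 332) (nat_lit 279)))) (XT.nd (nat_lit 156) (nat_lit 0) (nat_lit 0) (XT.nd (nat_lit 78) (nat_lit 0) (nat_lit 0) (XT.lf (nat_lit 0) (nat_lit 1402241104067) (nat_lit 152) (nat_lit 6253259843198) (nat_lit 0) (nat_lit 1401107575676) (nat_lit 1) (nat_lit 5) (nat_lit 3) (nat_lit 4) (nat_lit 1) (nat_lit 4) (nat_lit 410) (nat_lit 332) (nat_lit 278)) (XT.lf (nat_lit 0) (nat_lit 1626999749672) (nat_lit 152) (nat_lit 7160044915838) (nat_lit 0) (nat_lit 1625866143232) (nat_lit 1) (nat_lit 5) (nat_lit 3) (nat_lit 4)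 (nat_lit 1) (nat_lit 4) (nat_lit 411) (nat_lit 332) (nat_lit 277))) (XT.nd (nat_lit 78) (nat_lit 0) (nat_lit 0) (XT.lf (nat_lit 0) (nat_lit 1885470316455) (nat_lit 152) (nat_lit 8202851760177) (nat_lit 0) (nat_lit 1884336642145) (nat_lit 1) (nat_lit 5) (nat_lit 3) (nat_lit 4) (nat_lit 1) (nat_lit 4) (nat_lit 412) (nat_lit 332) (nat_lit 276)) (XT.lf (nat_lit 0) (nat_lit 2182709837242) (nat_lit 152) (nat_lit 9402083118822) (nat_lit 0) (nat_lit 2181576103915) (nat_lit 1) (nat_lit 5) (nat_lit 3) (nat_lit 4) (nat_lit 1) (nat_lit 4) (nat_lit 413) (nat_lit 332) (nat_lit 275))))))))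
noncomputable def xc35 : XT := (XT.nd (nat_lit 2028) (nat_lit 0) (nat_lit 0) (XT.nd (nat_lit 1014) (nat_lit 0) (nat_lit 0) (XT.nd (nat_lit 468) (nat_lit 0) (nat_lit 0) (XT.nd (nat_lit 234) (nat_lit 0) (nat_lit 0) (XT.nd (nat_lit 78) (nat_lit 0) (nat_lit 0) (XT.lf (nat_lit 0) (nat_lit 2524533867875) (nat_lit 152) (nat_lit 10781202214008) (nat_lit 0) (nat_lit 2523400083229) (nat_lit 1) (nat_lit 5) (nat_lit 3) (nat_lit 4) (nat_lit 1) (nat_lit 4) (nat_lit 414) (nat_lit 332) (nat_lit 274)) (XT.nd (nat_lit 78) (nat_lit 0) (nat_lit 0) (XT.lf (nat_lit 0) (nat_lit 2917630269823) (nat_lit 152) (nat_lit 12367191810640) (nat_lit 0) (nat_lit 2916496440552) (nat_lit 1) (nat_lit 5) (nat_lit 3) (nat_lit 4) (nat_lit 1) (nat_lit 4) (nat_lit 415) (nat_lit 332) (nat_lit 273)) (XT.lf (nat_lit 0) (nat_lit 3369690059647) (nat_lit 152) (nat_lit 14191082139957) (nat_lit 0) (nat_lit 3368556191571) (nat_lit 1) (nat_lit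 5) (nat_lit 3) (nat_lit 4) (nat_lit 1) (nat_lit 4) (nat_lit 416) (nat_lit 332) (nat_lit 272)))) (XT.nd (nat_lit 78) (nat_lit 0) (nat_lit 0) (XT.lf (nat_lit 0) (nat_lit 3889557885407) (nat_lit 152) (nat_lit 16288558012750) (nat_lit 0) (nat_lit 3888423983589) (nat_lit 1) (nat_lit 5) (nat_lit 3) (nat_lit 4) (nat_lit 1) (nat_lit 4) (nat_lit 417) (nat_lit 332) (nat_lit 271)) (XT.nd (nat_lit 78) (nat_lit 0) (nat_lit 0) (XT.lf (nat_lit 0) (nat_lit 4487405074130) (nat_lit 152) (nat_lit 18700657000444) (nat_lit 0) (nat_lit 4486271142970) (nat_lit 1) (nat_lit 5) (nat_lit 3) (nat_lit 4) (nat_lit 1) (nat_lit 4) (nat_lit 418) (nat_lit 332) (nat_lit 270)) (XT.lf (nat_lit 0) (nat_lit 5174928636030) (nat_lit 152) (nat_lit 21474572344100) (nat_lit 0) (nat_lit 5173794679355) (nat_lit 1) (nat_lit 5) (nat_lit 3) (nat_lit 4) (nat_lit 1) (nat_lit 4) (nat_lit 419) (nat_lit 332) (nat_lit 269))))) (XT.nd (nat_lit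 234) (nat_lit 0) (nat_lit 0) (XT.nd (nat_lit 78) (nat_lit 0) (nat_lit 0) (XT.lf (nat_lit 0) (nat_lit 5965580119057) (nat_lit 152) (nat_lit 24664576300445) (nat_lit 0) (nat_lit 5964446140195) (nat_lit 1) (nat_lit 5) (nat_lit 3) (nat_lit 4) (nat_lit 1) (nat_lit 4) (nat_lit 420) (nat_lit 332) (nat_lit 268)) (XT.nd (nat_lit 78) (nat_lit 0) (nat_lit 0) (XT.lf (nat_lit 0) (nat_lit 6874828791357) (nat_lit 152) (nat_lit 28333081990361) (nat_lit 0) (nat_lit 6873694793203) (nat_lit 1) (nat_lit 5) (nat_lit 3) (nat_lit 4) (nat_lit 1) (nat_lit 4) (nat_lit 421) (nat_lit 332) (nat_lit 267)) (XT.lf (nat_lit 0) (nat_lit 7920464300866) (nat_lit 152) (nat_lit 32551864525175) (nat_lit 0) (nat_lit 7919330285936) (nat_lit 1) (nat_lit 5) (nat_lit 3) (nat_lit 4) (nat_lit 1) (nat_lit 4) (nat_lit 422) (nat_lit 332) (nat_lit 266)))) (XT.nd (nat_lit 156) (nat_lit 0) (nat_lit 0) (XT.nd (nat_lit 78) (nat_lit 0) (nat_lit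 0) (XT.lf (nat_lit 0) (nat_lit 9122944733640) (nat_lit 152) (nat_lit 37403465302305) (nat_lit 0) (nat_lit 9121810704122) (nat_lit 1) (nat_lit 5) (nat_lit 3) (nat_lit 4) (nat_lit 1) (nat_lit 4) (nat_lit 423) (nat_lit 332) (nat_lit 265)) (XT.lf (nat_lit 0) (nat_lit 10505796880756) (nat_lit 152) (nat_lit 42982806945653) (nat_lit 0) (nat_lit 10504662838552) (nat_lit 1) (nat_lit 5) (nat_lit 3) (nat_lit 4) (nat_lit 1) (nat_lit 4) (nat_lit 424) (nat_lit 332) (nat_lit 264))) (XT.nd (nat_lit 78) (nat_lit 0) (nat_lit 0) (XT.lf (nat_lit 0) (nat_lit 12096076545091) (nat_lit 152) (nat_lit 49399050487371) (nat_lit 0) (nat_lit 12094942491856) (nat_lit 1) (nat_lit 5) (nat_lit 3) (nat_lit 4) (nat_lit 1) (nat_lit 4) (nat_lit 425) (nat_lit 332) (nat_lit 263)) (XT.lf (nat_lit 0) (nat_lit 13924897893991) (nat_lit 152) (nat_lit 56777731127188) (nat_lit 0) (nat_lit 13923763831164) (nat_lit 1) (nat_lit 5) (nat_lit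 3) (nat_lit 4) (nat_lit 1) (nat_lit 4) (nat_lit 426) (nat_lit 332) (nat_lit 262)))))) (XT.nd (nat_lit 468) (nat_lit 0) (nat_lit 0) (XT.nd (nat_lit 234) (nat_lit 0) (nat_lit 0) (XT.nd (nat_lit 78) (nat_lit 0) (nat_lit 0) (XT.lf (nat_lit 0) (nat_lit 16028042214717) (nat_lit 152) (nat_lit 65263214355883) (nat_lit 0) (nat_lit 16026908143550) (nat_lit 1) (nat_lit 5) (nat_lit 3) (nat_lit 4) (nat_lit 1) (nat_lit 4) (nat_lit 427) (nat_lit 332) (nat_lit 261)) (XT.nd (nat_lit 78) (nat_lit 0) (nat_lit 0) (XT.lf (nat_lit 0) (nat_lit 18446657983110) (nat_lit 152) (nat_lit 75021520497496) (nat_lit 0) (nat_lit 18445523904690) (nat_lit 1) (nat_lit 5) (nat_lit 3) (nat_lit 4) (nat_lit 1) (nat_lit 4) (nat_lit 428) (nat_lit 332) (nat_lit 260)) (XT.lf (nat_lit 0) (nat_lit 21228065942463) (nat_lit 152) (nat_lit 86243572933059) (nat_lit 0) (nat_lit 21226931857736) (nat_lit 1) (nat_lit 5) (nat_lit 3) (nat_lit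 4) (nat_lit 1) (nat_lit 4) (nat_lit 429) (nat_lit 332) (nat_lit 259)))) (XT.nd (nat_lit 78) (nat_lit 0) (nat_lit 0) (XT.lf (nat_lit 0) (nat_lit 24426684944157) (nat_lit 152) (nat_lit 99148933558050) (nat_lit 0) (nat_lit 24425550853946) (nat_lit 1) (nat_lit 5) (nat_lit 3) (nat_lit 4) (nat_lit 1) (nat_lit 4) (nat_lit 430) (nat_lit 332) (nat_lit 258)) (XT.nd (nat_lit 78) (nat_lit 0) (nat_lit 0) (XT.lf (nat_lit 0) (nat_lit 28105096664310) (nat_lit 152) (nat_lit 113990098558609) (nat_lit 0) (nat_lit 28103962569330) (nat_lit 1) (nat_lit 5) (nat_lit 3) (nat_lit 4) (nat_lit 1) (nat_lit 4) (nat_lit 431) (nat_lit 332) (nat_lit 257)) (XT.lf (nat_lit 0) (nat_lit 32335270027883) (nat_lit 152) (nat_lit 131057438554314) (nat_lit 0) (nat_lit 32334135928756) (nat_lit 1) (nat_lit 5) (nat_lit 3) (nat_lit 4) (nat_lit 1) (nat_lit 4) (nat_lit 432) (nat_lit 332) (nat_lit 256))))) (XT.nd (nat_lit 234) (nat_lit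 0) (nat_lit 0) (XT.nd (nat_lit 78) (nat_lit 0) (nat_lit 0) (XT.lf (nat_lit 0) (nat_lit 37199969296336) (nat_lit 152) (nat_lit 150684879762471) (nat_lit 0) (nat_lit 37198835193604) (nat_lit 1) (nat_lit 5) (nat_lit 3) (nat_lit 4) (nat_lit 1) (nat_lit 4) (nat_lit 433) (nat_lit 332) (nat_lit 255)) (XT.nd (nat_lit 78) (nat_lit 0) (nat_lit 0) (XT.lf (nat_lit 0) (nat_lit 42794373368401) (nat_lit 152) (nat_lit 173256437337153) (nat_lit 0) (nat_lit 42793239262533) (nat_lit 1) (nat_lit 5) (nat_lit 3) (nat_lit 4) (nat_lit 1) (nat_lit 4) (nat_lit 434) (nat_lit 332) (nat_lit 254)) (XT.lf (nat_lit 0) (nat_lit 49227937975922) (nat_lit 152) (nat_lit 199213728709169) (nat_lit 0) (nat_lit 49226803867327) (nat_lit 1) (nat_lit 5) (nat_lit 3) (nat_lit 4) (nat_lit 1) (nat_lit 4) (nat_lit 435) (nat_lit 332) (nat_lit 253)))) (XT.nd (nat_lit 156) (nat_lit 0) (nat_lit 0) (XT.nd (nat_lit 78) (nat_lit 0) (nat_lit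 0) (XT.lf (nat_lit 0) (nat_lit 56626537209046) (nat_lit 152) (nat_lit 229064613927103) (nat_lit 0) (nat_lit 56625403098079) (nat_lit 1) (nat_lit 5) (nat_lit 3) (nat_lit 4) (nat_lit 1) (nat_lit 4) (nat_lit 436) (nat_lit 332) (nat_lit 252)) (XT.lf (nat_lit 0) (nat_lit 65134926270159) (nat_lit 152) (nat_lit 263393132049564) (nat_lit 0) (nat_lit 65133792157132) (nat_lit 1) (nat_lit 5) (nat_lit 3) (nat_lit 4) (nat_lit 1) (nat_lit 4) (nat_lit 437) (nat_lit 332) (nat_lit 251))) (XT.nd (nat_lit 78) (nat_lit 0) (nat_lit 0) (XT.lf (nat_lit 0) (nat_lit 74919573640894) (nat_lit 152) (nat_lit 302870927996342) (nat_lit 0) (nat_lit 74918439526074) (nat_lit 1) (nat_lit 5) (nat_lit 3) (nat_lit 4) (nat_lit 1) (nat_lit 4) (nat_lit 438) (nat_lit 332) (nat_lit 250)) (XT.lf (nat_lit 0) (nat_lit 86171918074155) (nat_lit 152) (nat_lit 348270393427265) (nat_lit 0) (nat_lit 86170783957776) (nat_lit 1) (nat_lit 5)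 (nat_lit 3) (nat_lit 4) (nat_lit 1) (nat_lit 4) (nat_lit 439) (nat_lit 332) (nat_lit 249))))))) (XT.nd (nat_lit 47346) (nat_lit 0) (nat_lit 228) (XT.nd (nat_lit 46800) (nat_lit 0) (nat_lit 836) (XT.nd (nat_lit 46566) (nat_lit 0) (nat_lit 1368) (XT.nd (nat_lit 46410) (nat_lit 0) (nat_lit 1748) (XT.lf (nat_lit 0) (nat_lit 99112114134942) (nat_lit 152) (nat_lit 400479778752935) (nat_lit 0) (nat_lit 99110980017207) (nat_lit 1) (nat_lit 5) (nat_lit 3) (nat_lit 4) (nat_lit 1) (nat_lit 4) (nat_lit 440) (nat_lit 332) (nat_lit 248)) (XT.nd (nat_lit 78) (nat_lit 76) (nat_lit 0) (XT.lf (nat_lit 0) (nat_lit 2147986240) (nat_lit 152) (nat_lit 1338071175) (nat_lit 0) (nat_lit 2147986240) (nat_lit 25) (nat_lit 5) (nat_lit 27) (nat_lit 4) (nat_lit 25) (nat_lit 4) (nat_lit 354) (nat_lit 333) (nat_lit 333)) (XT.lf (nat_lit 0) (nat_lit 8107152706) (nat_lit 76) (nat_lit 2235219886) (nat_lit 76) (nat_lit 1714821927)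 (nat_lit 24) (nat_lit 4) (nat_lit 25) (nat_lit 5) (nat_lit 25) (nat_lit 4) (nat_lit 355) (nat_lit 333) (nat_lit 332)))) (XT.nd (nat_lit 78) (nat_lit 228) (nat_lit 0) (XT.lf (nat_lit 0) (nat_lit 3990476184) (nat_lit 152) (nat_lit 5796157705) (nat_lit 0) (nat_lit 3144460599) (nat_lit 22) (nat_lit 5) (nat_lit 24) (nat_lit 4) (nat_lit 22) (nat_lit 4) (nat_lit 356) (nat_lit 333) (nat_lit 331)) (XT.nd (nat_lit 78) (nat_lit 152) (nat_lit 0) (XT.lf (nat_lit 0) (nat_lit 5689130966) (nat_lit 76) (nat_lit 4709759536) (nat_lit 76) (nat_lit 3521573846) (nat_lit 21) (nat_lit 4) (nat_lit 22) (nat_lit 5) (nat_lit 22) (nat_lit 4) (nat_lit 357) (nat_lit 333) (nat_lit 330)) (XT.lf (nat_lit 0) (nat_lit 2461576913) (nat_lit 152) (nat_lit 11411355345) (nat_lit 0) (nat_lit 1169642207) (nat_lit 19) (nat_lit 5) (nat_lit 21) (nat_lit 4) (nat_lit 19) (nat_lit 4) (nat_lit 358) (nat_lit 333) (nat_lit 329))))) (XT.nd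 (nat_lit 234) (nat_lit 304) (nat_lit 0) (XT.nd (nat_lit 78) (nat_lit 152) (nat_lit 0) (XT.lf (nat_lit 0) (nat_lit 509698490) (nat_lit 76) (nat_lit 8644606218) (nat_lit 76) (nat_lit 7127689113) (nat_lit 18) (nat_lit 4) (nat_lit 19) (nat_lit 5) (nat_lit 19) (nat_lit 4) (nat_lit 359) (nat_lit 333) (nat_lit 328)) (XT.nd (nat_lit 78) (nat_lit 152) (nat_lit 0) (XT.lf (nat_lit 0) (nat_lit 14496249949) (nat_lit 76) (nat_lit 2454359046) (nat_lit 76) (nat_lit 741805072) (nat_lit 18) (nat_lit 4) (nat_lit 19) (nat_lit 5) (nat_lit 19) (nat_lit 4) (nat_lit 360) (nat_lit 333) (nat_lit 327)) (XT.lf (nat_lit 0) (nat_lit 6228203264) (nat_lit 152) (nat_lit 8422021499) (nat_lit 0) (nat_lit 4591096317) (nat_lit 16) (nat_lit 5) (nat_lit 18) (nat_lit 4) (nat_lit 16) (nat_lit 4) (nat_lit 361) (nat_lit 333) (nat_lit 326)))) (XT.nd (nat_lit 156) (nat_lit 152) (nat_lit 0) (XT.nd (nat_lit 78) (nat_lit 76) (nat_lit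 0) (XT.lf (nat_lit 0) (nat_lit 5725810359) (nat_lit 76) (nat_lit 8522565093) (nat_lit 76) (nat_lit 6756823730) (nat_lit 15) (nat_lit 4) (nat_lit 16) (nat_lit 5) (nat_lit 16) (nat_lit 4) (nat_lit 362) (nat_lit 333) (nat_lit 325)) (XT.lf (nat_lit 0) (nat_lit 413444589) (nat_lit 152) (nat_lit 988691511) (nat_lit 76) (nat_lit 21626644424) (nat_lit 14) (nat_lit 5) (nat_lit 16) (nat_lit 5) (nat_lit 15) (nat_lit 4) (nat_lit 363) (nat_lit 333) (nat_lit 324))) (XT.nd (nat_lit 78) (nat_lit 76) (nat_lit 0) (XT.lf (nat_lit 0) (nat_lit 8540099924) (nat_lit 152) (nat_lit 9858832724) (nat_lit 0) (nat_lit 6822827335) (nat_lit 13) (nat_lit 5) (nat_lit 15) (nat_lit 4) (nat_lit 13) (nat_lit 4) (nat_lit 364) (nat_lit 333) (nat_lit 323)) (XT.lf (nat_lit 0) (nat_lit 6220876394) (nat_lit 76) (nat_lit 11657383996) (nat_lit 76) (nat_lit 9866564262) (nat_lit 12) (nat_lit 4) (nat_lit 13) (nat_lit 5) (nat_lit 13)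 (nat_lit 4) (nat_lit 365) (nat_lit 333) (nat_lit 322)))))) (XT.nd (nat_lit 468) (nat_lit 228) (nat_lit 0) (XT.nd (nat_lit 234) (nat_lit 228) (nat_lit 0) (XT.nd (nat_lit 78) (nat_lit 152) (nat_lit 0) (XT.lf (nat_lit 0) (nat_lit 25050995437) (nat_lit 76) (nat_lit 3713982434) (nat_lit 76) (nat_lit 1859208661) (nat_lit 12) (nat_lit 4) (nat_lit 13) (nat_lit 5) (nat_lit 13) (nat_lit 4) (nat_lit 366) (nat_lit 333) (nat_lit 321)) (XT.nd (nat_lit 78) (nat_lit 0) (nat_lit 0) (XT.lf (nat_lit 0) (nat_lit 7144111615) (nat_lit 152) (nat_lit 21195425198) (nat_lit 0) (nat_lit 5482906414) (nat_lit 10) (nat_lit 5) (nat_lit 12) (nat_lit 4) (nat_lit 10) (nat_lit 4) (nat_lit 367) (nat_lit 333) (nat_lit 320)) (XT.lf (nat_lit 0) (nat_lit 17456219420) (nat_lit 152) (nat_lit 4255688174) (nat_lit 0) (nat_lit 15752963400) (nat_lit 10) (nat_lit 5) (nat_lit 12) (nat_lit 4) (nat_lit 10) (nat_lit 4) (nat_lit 368) (nat_lit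 333) (nat_lit 319)))) (XT.nd (nat_lit 78) (nat_lit 152) (nat_lit 0) (XT.lf (nat_lit 0) (nat_lit 16041580884) (nat_lit 76) (nat_lit 13647881622) (nat_lit 76) (nat_lit 11908059673) (nat_lit 9) (nat_lit 4) (nat_lit 10) (nat_lit 5) (nat_lit 10) (nat_lit 4) (nat_lit 369) (nat_lit 333) (nat_lit 318)) (XT.nd (nat_lit 78) (nat_lit 152) (nat_lit 0) (XT.lf (nat_lit 0) (nat_lit 39277958869) (nat_lit 76) (nat_lit 4425905465) (nat_lit 76) (nat_lit 2654287055) (nat_lit 9) (nat_lit 4) (nat_lit 10) (nat_lit 5) (nat_lit 10) (nat_lit 4) (nat_lit 370) (nat_lit 333) (nat_lit 317)) (XT.lf (nat_lit 0) (nat_lit 7918281636) (nat_lit 152) (nat_lit 37415009120) (nat_lit 0) (nat_lit 6353701196) (nat_lit 7) (nat_lit 5) (nat_lit 9) (nat_lit 4) (nat_lit 7) (nat_lit 4) (nat_lit 371) (nat_lit 333) (nat_lit 316))))) (XT.nd (nat_lit 234) (nat_lit 152) (nat_lit 0) (XT.nd (nat_lit 78) (nat_lit 76) (nat_lit 0) (XT.lf (nat_lit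 0) (nat_lit 20152467395) (nat_lit 152) (nat_lit 19024633787) (nat_lit 0) (nat_lit 18566980266) (nat_lit 7) (nat_lit 5) (nat_lit 9) (nat_lit 4) (nat_lit 7) (nat_lit 4) (nat_lit 372) (nat_lit 333) (nat_lit 315)) (XT.nd (nat_lit 78) (nat_lit 0) (nat_lit 0) (XT.lf (nat_lit 0) (nat_lit 1823207104) (nat_lit 76) (nat_lit 32255806394) (nat_lit 76) (nat_lit 30652139536) (nat_lit 6) (nat_lit 4) (nat_lit 7) (nat_lit 5) (nat_lit 7) (nat_lit 4) (nat_lit 373) (nat_lit 333) (nat_lit 314)) (XT.lf (nat_lit 0) (nat_lit 27493992168) (nat_lit 76) (nat_lit 23386908832) (nat_lit 76) (nat_lit 21767433513) (nat_lit 6) (nat_lit 4) (nat_lit 7) (nat_lit 5) (nat_lit 7) (nat_lit 4) (nat_lit 374) (nat_lit 333) (nat_lit 313)))) (XT.nd (nat_lit 156) (nat_lit 152) (nat_lit 0) (XT.nd (nat_lit 78) (nat_lit 0) (nat_lit 0) (XT.lf (nat_lit 0) (nat_lit 56630750321) (nat_lit 76) (nat_lit 13391356079) (nat_lit 76) (nat_lit 11758134273)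 (nat_lit 6) (nat_lit 4) (nat_lit 7) (nat_lit 5) (nat_lit 7) (nat_lit 4) (nat_lit 375) (nat_lit 333) (nat_lit 312)) (XT.lf (nat_lit 0) (nat_lit 89803548571) (nat_lit 76) (nat_lit 2073582974) (nat_lit 76) (nat_lit 428407700) (nat_lit 6) (nat_lit 4) (nat_lit 7) (nat_lit 5) (nat_lit 7) (nat_lit 4) (nat_lit 376) (nat_lit 333) (nat_lit 311))) (XT.nd (nat_lit 78) (nat_lit 0) (nat_lit 0) (XT.lf (nat_lit 0) (nat_lit 12888568074) (nat_lit 152) (nat_lit 79782418456) (nat_lit 0) (nat_lit 11448942341) (nat_lit 4) (nat_lit 5) (nat_lit 6) (nat_lit 4) (nat_lit 4) (nat_lit 4) (nat_lit 377) (nat_lit 333) (nat_lit 310)) (XT.lf (nat_lit 0) (nat_lit 28251891217) (nat_lit 152) (nat_lit 62633222047) (nat_lit 0) (nat_lit 26804405885) (nat_lit 4) (nat_lit 5) (nat_lit 6) (nat_lit 4) (nat_lit 4) (nat_lit 4) (nat_lit 378) (nat_lit 333) (nat_lit 309))))))))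
noncomputable def xc36 : XT := (XT.nd (nat_lit 1950) (nat_lit 0) (nat_lit 0) (XT.nd (nat_lit 936) (nat_lit 152) (nat_lit 0) (XT.nd (nat_lit 468) (nat_lit 0) (nat_lit 0) (XT.nd (nat_lit 234) (nat_lit 0) (nat_lit 0) (XT.nd (nat_lit 78) (nat_lit 76) (nat_lit 0) (XT.lf (nat_lit 0) (nat_lit 45795283237) (nat_lit 152) (nat_lit 43176967028) (nat_lit 0) (nat_lit 44340963472) (nat_lit 4) (nat_lit 5) (nat_lit 6) (nat_lit 4) (nat_lit 4) (nat_lit 4) (nat_lit 379) (nat_lit 333) (nat_lit 308)) (XT.nd (nat_lit 78) (nat_lit 76) (nat_lit 0) (XT.lf (nat_lit 0) (nat_lit 65861984414) (nat_lit 152) (nat_lit 21032987540) (nat_lit 0) (nat_lit 64401721663) (nat_lit 4) (nat_lit 5) (nat_lit 6) (nat_lit 4) (nat_lit 4) (nat_lit 4) (nat_lit 380) (nat_lit 333) (nat_lit 307)) (XT.lf (nat_lit 0) (nat_lit 4645546899) (nat_lit 76) (nat_lit 84391419410) (nat_lit 76) (nat_lit 82925988846) (nat_lit 3) (nat_lit 4) (nat_lit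 4) (nat_lit 5) (nat_lit 4) (nat_lit 4) (nat_lit 381) (nat_lit 333) (nat_lit 306)))) (XT.nd (nat_lit 78) (nat_lit 0) (nat_lit 0) (XT.lf (nat_lit 0) (nat_lit 36348180931) (nat_lit 76) (nat_lit 80349722031) (nat_lit 76) (nat_lit 78879797715) (nat_lit 3) (nat_lit 4) (nat_lit 4) (nat_lit 5) (nat_lit 4) (nat_lit 4) (nat_lit 382) (nat_lit 333) (nat_lit 305)) (XT.nd (nat_lit 78) (nat_lit 0) (nat_lit 0) (XT.lf (nat_lit 0) (nat_lit 72639686972) (nat_lit 76) (nat_lit 75790254749) (nat_lit 76) (nat_lit 74316422824) (nat_lit 3) (nat_lit 4) (nat_lit 4) (nat_lit 5) (nat_lit 4) (nat_lit 4) (nat_lit 383) (nat_lit 333) (nat_lit 304)) (XT.lf (nat_lit 0) (nat_lit 114230116229) (nat_lit 76) (nat_lit 70623810598) (nat_lit 76) (nat_lit 69146580751) (nat_lit 3) (nat_lit 4) (nat_lit 4) (nat_lit 5) (nat_lit 4) (nat_lit 4) (nat_lit 384) (nat_lit 333) (nat_lit 303))))) (XT.nd (nat_lit 234) (nat_lit 0) (nat_lit 0)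 (XT.nd (nat_lit 78) (nat_lit 0) (nat_lit 0) (XT.lf (nat_lit 0) (nat_lit 161933194489) (nat_lit 76) (nat_lit 64749306973) (nat_lit 76) (nat_lit 63269122411) (nat_lit 3) (nat_lit 4) (nat_lit 4) (nat_lit 5) (nat_lit 4) (nat_lit 4) (nat_lit 385) (nat_lit 333) (nat_lit 302)) (XT.nd (nat_lit 78) (nat_lit 0) (nat_lit 0) (XT.lf (nat_lit 0) (nat_lit 216682242851) (nat_lit 76) (nat_lit 58051807934) (nat_lit 76) (nat_lit 56569054056) (nat_lit 3) (nat_lit 4) (nat_lit 4) (nat_lit 5) (nat_lit 4) (nat_lit 4) (nat_lit 386) (nat_lit 333) (nat_lit 301)) (XT.lf (nat_lit 0) (nat_lit 279548438347) (nat_lit 76) (nat_lit 50400275456) (nat_lit 76) (nat_lit 48915287390) (nat_lit 3) (nat_lit 4) (nat_lit 4) (nat_lit 5) (nat_lit 4) (nat_lit 4) (nat_lit 387) (nat_lit 333) (nat_lit 300)))) (XT.nd (nat_lit 78) (nat_lit 0) (nat_lit 0) (XT.lf (nat_lit 0) (nat_lit 351761771758) (nat_lit 76) (nat_lit 41645005644) (nat_lit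 76) (nat_lit 40158074805) (nat_lit 3) (nat_lit 4) (nat_lit 4) (nat_lit 5) (nat_lit 4) (nat_lit 4) (nat_lit 388) (nat_lit 333) (nat_lit 299)) (XT.nd (nat_lit 78) (nat_lit 0) (nat_lit 0) (XT.lf (nat_lit 0) (nat_lit 434735112651) (nat_lit 76) (nat_lit 31614699740) (nat_lit 76) (nat_lit 30126079534) (nat_lit 3) (nat_lit 4) (nat_lit 4) (nat_lit 5) (nat_lit 4) (nat_lit 4) (nat_lit 389) (nat_lit 333) (nat_lit 298)) (XT.lf (nat_lit 0) (nat_lit 530091852479) (nat_lit 76) (nat_lit 20113112629) (nat_lit 76) (nat_lit 18623023407) (nat_lit 3) (nat_lit 4) (nat_lit 4) (nat_lit 5) (nat_lit 4) (nat_lit 4) (nat_lit 390) (nat_lit 333) (nat_lit 297)))))) (XT.nd (nat_lit 468) (nat_lit 0) (nat_lit 0) (XT.nd (nat_lit 234) (nat_lit 0) (nat_lit 0) (XT.nd (nat_lit 78) (nat_lit 152) (nat_lit 0) (XT.lf (nat_lit 0) (nat_lit 639697666586) (nat_lit 76) (nat_lit 6915213258) (nat_lit 76) (nat_lit 5423846632) (nat_lit 3)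 (nat_lit 4) (nat_lit 4) (nat_lit 5) (nat_lit 4) (nat_lit 4) (nat_lit 391) (nat_lit 333) (nat_lit 296)) (XT.nd (nat_lit 78) (nat_lit 0) (nat_lit 0) (XT.lf (nat_lit 0) (nat_lit 10060143731) (nat_lit 152) (nat_lit 728667691003) (nat_lit 0) (nat_lit 8762337285) (nat_lit 1) (nat_lit 5) (nat_lit 3) (nat_lit 4) (nat_lit 1) (nat_lit 4) (nat_lit 392) (nat_lit 333) (nat_lit 295)) (XT.lf (nat_lit 0) (nat_lit 28293228160) (nat_lit 152) (nat_lit 801787813721) (nat_lit 0) (nat_lit 26994581800) (nat_lit 1) (nat_lit 5) (nat_lit 3) (nat_lit 4) (nat_lit 1) (nat_lit 4) (nat_lit 393) (nat_lit 333) (nat_lit 294)))) (XT.nd (nat_lit 78) (nat_lit 0) (nat_lit 0) (XT.lf (nat_lit 0) (nat_lit 49241090734) (nat_lit 152) (nat_lit 885919116164) (nat_lit 0) (nat_lit 47941714014) (nat_lit 1) (nat_lit 5) (nat_lit 3) (nat_lit 4) (nat_lit 1) (nat_lit 4) (nat_lit 394) (nat_lit 333) (nat_lit 293)) (XT.nd (nat_lit 78) (nat_lit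 0) (nat_lit 0) (XT.lf (nat_lit 0) (nat_lit 73313580938) (nat_lit 152) (nat_lit 982707645554) (nat_lit 0) (nat_lit 72013569122) (nat_lit 1) (nat_lit 5) (nat_lit 3) (nat_lit 4) (nat_lit 1) (nat_lit 4) (nat_lit 395) (nat_lit 333) (nat_lit 292)) (XT.lf (nat_lit 0) (nat_lit 100981682276) (nat_lit 152) (nat_lit 1094047090510) (nat_lit 0) (nat_lit 99681118203) (nat_lit 1) (nat_lit 5) (nat_lit 3) (nat_lit 4) (nat_lit 1) (nat_lit 4) (nat_lit 396) (nat_lit 333) (nat_lit 291))))) (XT.nd (nat_lit 234) (nat_lit 0) (nat_lit 0) (XT.nd (nat_lit 78) (nat_lit 0) (nat_lit 0) (XT.lf (nat_lit 0) (nat_lit 132786727166) (nat_lit 152) (nat_lit 1222115831476) (nat_lit 0) (nat_lit 131485682869) (nat_lit 1) (nat_lit 5) (nat_lit 3) (nat_lit 4) (nat_lit 1) (nat_lit 4) (nat_lit 397) (nat_lit 333) (nat_lit 290)) (XT.nd (nat_lit 78) (nat_lit 0) (nat_lit 0) (XT.lf (nat_lit 0) (nat_lit 169350988225) (nat_lit 152) (nat_lit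 1369419561210) (nat_lit 0) (nat_lit 168049526342) (nat_lit 1) (nat_lit 5) (nat_lit 3) (nat_lit 4) (nat_lit 1) (nat_lit 4) (nat_lit 398) (nat_lit 333) (nat_lit 289)) (XT.lf (nat_lit 0) (nat_lit 211389853169) (nat_lit 152) (nat_lit 1538840309208) (nat_lit 0) (nat_lit 210088028168) (nat_lit 1) (nat_lit 5) (nat_lit 3) (nat_lit 4) (nat_lit 1) (nat_lit 4) (nat_lit 399) (nat_lit 333) (nat_lit 288)))) (XT.nd (nat_lit 156) (nat_lit 0) (nat_lit 0) (XT.nd (nat_lit 78) (nat_lit 0) (nat_lit 0) (XT.lf (nat_lit 0) (nat_lit 259725821530) (nat_lit 152) (nat_lit 1733692829234) (nat_lit 0) (nat_lit 258423680775) (nat_lit 1) (nat_lit 5) (nat_lit 3) (nat_lit 4) (nat_lit 1) (nat_lit 4) (nat_lit 400) (nat_lit 333) (nat_lit 287)) (XT.lf (nat_lit 0) (nat_lit 315304597037) (nat_lit 152) (nat_lit 1957789453202) (nat_lit 0) (nat_lit 314002181712) (nat_lit 1) (nat_lit 5) (nat_lit 3) (nat_lit 4) (nat_lit 1) (nat_lit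 4) (nat_lit 401) (nat_lit 333) (nat_lit 286))) (XT.nd (nat_lit 78) (nat_lit 0) (nat_lit 0) (XT.lf (nat_lit 0) (nat_lit 379213590515) (nat_lit 152) (nat_lit 2215514680277) (nat_lit 0) (nat_lit 377910936434) (nat_lit 1) (nat_lit 5) (nat_lit 3) (nat_lit 4) (nat_lit 1) (nat_lit 4) (nat_lit 402) (nat_lit 333) (nat_lit 285)) (XT.lf (nat_lit 0) (nat_lit 452703195314) (nat_lit 152) (nat_lit 2511910960553) (nat_lit 0) (nat_lit 451400333619) (nat_lit 1) (nat_lit 5) (nat_lit 3) (nat_lit 4) (nat_lit 1) (nat_lit 4) (nat_lit 403) (nat_lit 333) (nat_lit 284))))))) (XT.nd (nat_lit 1014) (nat_lit 0) (nat_lit 0) (XT.nd (nat_lit 468) (nat_lit 0) (nat_lit 0) (XT.nd (nat_lit 234) (nat_lit 0) (nat_lit 0) (XT.nd (nat_lit 78) (nat_lit 0) (nat_lit 0) (XT.lf (nat_lit 0) (nat_lit 537211251529) (nat_lit 152) (nat_lit 2852777351688) (nat_lit 0) (nat_lit 535908209300) (nat_lit 1) (nat_lit 5) (nat_lit 3) (nat_lit 4)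 (nat_lit 1) (nat_lit 4) (nat_lit 404) (nat_lit 333) (nat_lit 283)) (XT.nd (nat_lit 78) (nat_lit 0) (nat_lit 0) (XT.lf (nat_lit 0) (nat_lit 634391177650) (nat_lit 152) (nat_lit 3244782978726) (nat_lit 0) (nat_lit 633087978435) (nat_lit 1) (nat_lit 5) (nat_lit 3) (nat_lit 4) (nat_lit 1) (nat_lit 4) (nat_lit 405) (nat_lit 333) (nat_lit 282)) (XT.lf (nat_lit 0) (nat_lit 746144320058) (nat_lit 152) (nat_lit 3695597516979) (nat_lit 0) (nat_lit 744840984334) (nat_lit 1) (nat_lit 5) (nat_lit 3) (nat_lit 4) (nat_lit 1) (nat_lit 4) (nat_lit 406) (nat_lit 333) (nat_lit 281)))) (XT.nd (nat_lit 78) (nat_lit 0) (nat_lit 0) (XT.lf (nat_lit 0) (nat_lit 874657153279) (nat_lit 152) (nat_lit 4214041250890) (nat_lit 0) (nat_lit 873353698850) (nat_lit 1) (nat_lit 5) (nat_lit 3) (nat_lit 4) (nat_lit 1) (nat_lit 4) (nat_lit 407) (nat_lit 333) (nat_lit 280)) (XT.nd (nat_lit 78) (nat_lit 0) (nat_lit 0) (XT.lf (nat_lit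 0) (nat_lit 1022444058832) (nat_lit 152) (nat_lit 4810257644820) (nat_lit 0) (nat_lit 1021140501183) (nat_lit 1) (nat_lit 5) (nat_lit 3) (nat_lit 4) (nat_lit 1) (nat_lit 4) (nat_lit 408) (nat_lit 333) (nat_lit 279)) (XT.lf (nat_lit 0) (nat_lit 1192396519652) (nat_lit 152) (nat_lit 5495911802126) (nat_lit 0) (nat_lit 1191092872245) (nat_lit 1) (nat_lit 5) (nat_lit 3) (nat_lit 4) (nat_lit 1) (nat_lit 4) (nat_lit 409) (nat_lit 333) (nat_lit 278))))) (XT.nd (nat_lit 234) (nat_lit 0) (nat_lit 0) (XT.nd (nat_lit 78) (nat_lit 0) (nat_lit 0) (XT.lf (nat_lit 0) (nat_lit 1387839692580) (nat_lit 152) (nat_lit 6284418695453) (nat_lit 0) (nat_lit 1386535967124) (nat_lit 1) (nat_lit 5) (nat_lit 3) (nat_lit 4) (nat_lit 1) (nat_lit 4) (nat_lit 410) (nat_lit 333) (nat_lit 277)) (XT.nd (nat_lit 78) (nat_lit 0) (nat_lit 0) (XT.lf (nat_lit 0) (nat_lit 1612597465784) (nat_lit 152) (nat_lit 7191205633582) (nat_lit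 0) (nat_lit 1611293672458) (nat_lit 1) (nat_lit 5) (nat_lit 3) (nat_lit 4) (nat_lit 1) (nat_lit 4) (nat_lit 411) (nat_lit 333) (nat_lit 276)) (XT.lf (nat_lit 0) (nat_lit 1871067273956) (nat_lit 152) (nat_lit 8234014100087) (nat_lit 0) (nat_lit 1869763421613) (nat_lit 1) (nat_lit 5) (nat_lit 3) (nat_lit 4) (nat_lit 1) (nat_lit 4) (nat_lit 412) (nat_lit 333) (nat_lit 275)))) (XT.nd (nat_lit 156) (nat_lit 0) (nat_lit 0) (XT.nd (nat_lit 78) (nat_lit 0) (nat_lit 0) (XT.lf (nat_lit 0) (nat_lit 2168306135081) (nat_lit 152) (nat_lit 9433246869310) (nat_lit 0) (nat_lit 2167002231420) (nat_lit 1) (nat_lit 5) (nat_lit 3) (nat_lit 4) (nat_lit 1) (nat_lit 4) (nat_lit 413) (nat_lit 333) (nat_lit 274)) (XT.lf (nat_lit 0) (nat_lit 2510129592096) (nat_lit 152) (nat_lit 10812367191086) (nat_lit 0) (nat_lit 2508825643809) (nat_lit 1) (nat_lit 5) (nat_lit 3) (nat_lit 4) (nat_lit 1) (nat_lit 4) (nat_lit 414)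 (nat_lit 333) (nat_lit 273))) (XT.nd (nat_lit 78) (nat_lit 0) (nat_lit 0) (XT.lf (nat_lit 0) (nat_lit 2903225495246) (nat_lit 152) (nat_lit 12398357854319) (nat_lit 0) (nat_lit 2901921508155) (nat_lit 1) (nat_lit 5) (nat_lit 3) (nat_lit 4) (nat_lit 1) (nat_lit 4) (nat_lit 415) (nat_lit 333) (nat_lit 272)) (XT.lf (nat_lit 0) (nat_lit 3355284851331) (nat_lit 152) (nat_lit 14222249111114) (nat_lit 0) (nat_lit 3353980830497) (nat_lit 1) (nat_lit 5) (nat_lit 3) (nat_lit 4) (nat_lit 1) (nat_lit 4) (nat_lit 416) (nat_lit 333) (nat_lit 271)))))) (XT.nd (nat_lit 468) (nat_lit 0) (nat_lit 0) (XT.nd (nat_lit 234) (nat_lit 0) (nat_lit 0) (XT.nd (nat_lit 78) (nat_lit 0) (nat_lit 0) (XT.lf (nat_lit 0) (nat_lit 3875152299928) (nat_lit 152) (nat_lit 16319725790410) (nat_lit 0) (nat_lit 3873848249752) (nat_lit 1) (nat_lit 5) (nat_lit 3) (nat_lit 4) (nat_lit 1) (nat_lit 4) (nat_lit 417) (nat_lit 333) (nat_lit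 270)) (XT.nd (nat_lit 78) (nat_lit 0) (nat_lit 0) (XT.lf (nat_lit 0) (nat_lit 4472999160683) (nat_lit 152) (nat_lit 18731825479410) (nat_lit 0) (nat_lit 4471695084992) (nat_lit 1) (nat_lit 5) (nat_lit 3) (nat_lit 4) (nat_lit 1) (nat_lit 4) (nat_lit 418) (nat_lit 333) (nat_lit 269)) (XT.lf (nat_lit 0) (nat_lit 5160522437393) (nat_lit 152) (nat_lit 21505741432899) (nat_lit 0) (nat_lit 5159218339516) (nat_lit 1) (nat_lit 5) (nat_lit 3) (nat_lit 4) (nat_lit 1) (nat_lit 4) (nat_lit 419) (nat_lit 333) (nat_lit 268)))) (XT.nd (nat_lit 78) (nat_lit 0) (nat_lit 0) (XT.lf (nat_lit 0) (nat_lit 5951173672429) (nat_lit 152) (nat_lit 24695745919532) (nat_lit 0) (nat_lit 5949869555259) (nat_lit 1) (nat_lit 5) (nat_lit 3) (nat_lit 4) (nat_lit 1) (nat_lit 4) (nat_lit 420) (nat_lit 333) (nat_lit 267)) (XT.nd (nat_lit 78) (nat_lit 0) (nat_lit 0) (XT.lf (nat_lit 0) (nat_lit 6860422129084) (nat_lit 152) (nat_lit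 28364252070569) (nat_lit 0) (nat_lit 6859117995138) (nat_lit 1) (nat_lit 5) (nat_lit 3) (nat_lit 4) (nat_lit 1) (nat_lit 4) (nat_lit 421) (nat_lit 333) (nat_lit 266)) (XT.lf (nat_lit 0) (nat_lit 7906057451077) (nat_lit 152) (nat_lit 32583035006357) (nat_lit 0) (nat_lit 7904753302542) (nat_lit 1) (nat_lit 5) (nat_lit 3) (nat_lit 4) (nat_lit 1) (nat_lit 4) (nat_lit 422) (nat_lit 333) (nat_lit 265))))) (XT.nd (nat_lit 234) (nat_lit 0) (nat_lit 0) (XT.nd (nat_lit 78) (nat_lit 0) (nat_lit 0) (XT.lf (nat_lit 0) (nat_lit 9108537720793) (nat_lit 152) (nat_lit 37434636132161) (nat_lit 0) (nat_lit 9107233559573) (nat_lit 1) (nat_lit 5) (nat_lit 3) (nat_lit 4) (nat_lit 1) (nat_lit 4) (nat_lit 423) (nat_lit 333) (nat_lit 264)) (XT.nd (nat_lit 78) (nat_lit 0) (nat_lit 0) (XT.lf (nat_lit 0) (nat_lit 10491389726119) (nat_lit 152) (nat_lit 43013978078703) (nat_lit 0) (nat_lit 10490085553868) (nat_lit 1)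 (nat_lit 5) (nat_lit 3) (nat_lit 4) (nat_lit 1) (nat_lit 4) (nat_lit 424) (nat_lit 333) (nat_lit 263)) (XT.lf (nat_lit 0) (nat_lit 12081669267158) (nat_lit 152) (nat_lit 49430221884068) (nat_lit 0) (nat_lit 12080365085316) (nat_lit 1) (nat_lit 5) (nat_lit 3) (nat_lit 4) (nat_lit 1) (nat_lit 4) (nat_lit 425) (nat_lit 333) (nat_lit 262)))) (XT.nd (nat_lit 156) (nat_lit 0) (nat_lit 0) (XT.nd (nat_lit 78) (nat_lit 0) (nat_lit 0) (XT.lf (nat_lit 0) (nat_lit 13910490508845) (nat_lit 152) (nat_lit 56808902753144) (nat_lit 0) (nat_lit 13909186318662) (nat_lit 1) (nat_lit 5) (nat_lit 3) (nat_lit 4) (nat_lit 1) (nat_lit 4) (nat_lit 426) (nat_lit 333) (nat_lit 261)) (XT.lf (nat_lit 0) (nat_lit 16013634736342) (nat_lit 152) (nat_lit 65294386181194) (nat_lit 0) (nat_lit 16012330538906) (nat_lit 1) (nat_lit 5) (nat_lit 3) (nat_lit 4) (nat_lit 1) (nat_lit 4) (nat_lit 427) (nat_lit 333) (nat_lit 260)))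 (XT.nd (nat_lit 78) (nat_lit 0) (nat_lit 0) (XT.lf (nat_lit 0) (nat_lit 18432250423666) (nat_lit 152) (nat_lit 75052692496160) (nat_lit 0) (nat_lit 18430946219923) (nat_lit 1) (nat_lit 5) (nat_lit 3) (nat_lit 4) (nat_lit 1) (nat_lit 4) (nat_lit 428) (nat_lit 333) (nat_lit 259)) (XT.lf (nat_lit 0) (nat_lit 21213658312525) (nat_lit 152) (nat_lit 86274745082463) (nat_lit 0) (nat_lit 21212354103298) (nat_lit 1) (nat_lit 5) (nat_lit 3) (nat_lit 4) (nat_lit 1) (nat_lit 4) (nat_lit 429) (nat_lit 333) (nat_lit 258))))))))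
noncomputable def xc37 : XT := (XT.nd (nat_lit 48126) (nat_lit 0) (nat_lit 152) (XT.nd (nat_lit 47112) (nat_lit 0) (nat_lit 912) (XT.nd (nat_lit 468) (nat_lit 0) (nat_lit 0) (XT.nd (nat_lit 234) (nat_lit 0) (nat_lit 0) (XT.nd (nat_lit 78) (nat_lit 0) (nat_lit 0) (XT.lf (nat_lit 0) (nat_lit 24412277252919) (nat_lit 152) (nat_lit 99180105838533) (nat_lit 0) (nat_lit 24410973038923) (nat_lit 1) (nat_lit 5) (nat_lit 3) (nat_lit 4) (nat_lit 1) (nat_lit 4) (nat_lit 430) (nat_lit 333) (nat_lit 257)) (XT.nd (nat_lit 78) (nat_lit 0) (nat_lit 0) (XT.lf (nat_lit 0) (nat_lit 28090688919768) (nat_lit 152) (nat_lit 114021270953075) (nat_lit 0) (nat_lit 28089384701626) (nat_lit 1) (nat_lit 5) (nat_lit 3) (nat_lit 4) (nat_lit 1) (nat_lit 4) (nat_lit 431) (nat_lit 333) (nat_lit 256)) (XT.lf (nat_lit 0) (nat_lit 32320862236989) (nat_lit 152) (nat_lit 131088611047894) (nat_lit 0) (nat_lit 32319558015241)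 (nat_lit 1) (nat_lit 5) (nat_lit 3) (nat_lit 4) (nat_lit 1) (nat_lit 4) (nat_lit 432) (nat_lit 333) (nat_lit 255)))) (XT.nd (nat_lit 78) (nat_lit 0) (nat_lit 0) (XT.lf (nat_lit 0) (nat_lit 37185561465137) (nat_lit 152) (nat_lit 150716052342238) (nat_lit 0) (nat_lit 37184257240254) (nat_lit 1) (nat_lit 5) (nat_lit 3) (nat_lit 4) (nat_lit 1) (nat_lit 4) (nat_lit 433) (nat_lit 333) (nat_lit 254)) (XT.nd (nat_lit 78) (nat_lit 0) (nat_lit 0) (XT.lf (nat_lit 0) (nat_lit 42779965502154) (nat_lit 152) (nat_lit 173287609991865) (nat_lit 0) (nat_lit 42778661274543) (nat_lit 1) (nat_lit 5) (nat_lit 3) (nat_lit 4) (nat_lit 1) (nat_lit 4) (nat_lit 434) (nat_lit 333) (nat_lit 253)) (XT.lf (nat_lit 0) (nat_lit 49213530079198) (nat_lit 152) (nat_lit 199244901429051) (nat_lit 0) (nat_lit 49212225849216) (nat_lit 1) (nat_lit 5) (nat_lit 3) (nat_lit 4) (nat_lit 1) (nat_lit 4) (nat_lit 435) (nat_lit 333) (nat_lit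 252))))) (XT.nd (nat_lit 234) (nat_lit 0) (nat_lit 0) (XT.nd (nat_lit 78) (nat_lit 0) (nat_lit 0) (XT.lf (nat_lit 0) (nat_lit 56612129285820) (nat_lit 152) (nat_lit 229095786703653) (nat_lit 0) (nat_lit 56610825053777) (nat_lit 1) (nat_lit 5) (nat_lit 3) (nat_lit 4) (nat_lit 1) (nat_lit 4) (nat_lit 436) (nat_lit 333) (nat_lit 251)) (XT.nd (nat_lit 78) (nat_lit 0) (nat_lit 0) (XT.lf (nat_lit 0) (nat_lit 65120518323889) (nat_lit 152) (nat_lit 263424304875392) (nat_lit 0) (nat_lit 65119214090053) (nat_lit 1) (nat_lit 5) (nat_lit 3) (nat_lit 4) (nat_lit 1) (nat_lit 4) (nat_lit 437) (nat_lit 333) (nat_lit 250)) (XT.lf (nat_lit 0) (nat_lit 74905165674585) (nat_lit 152) (nat_lit 302902100865021) (nat_lit 0) (nat_lit 74903861439190) (nat_lit 1) (nat_lit 5) (nat_lit 3) (nat_lit 4) (nat_lit 1) (nat_lit 4) (nat_lit 438) (nat_lit 333) (nat_lit 249)))) (XT.nd (nat_lit 78) (nat_lit 0) (nat_lit 0) (XT.lf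 (nat_lit 0) (nat_lit 86157510090421) (nat_lit 152) (nat_lit 348301566333203) (nat_lit 0) (nat_lit 86156205853670) (nat_lit 1) (nat_lit 5) (nat_lit 3) (nat_lit 4) (nat_lit 1) (nat_lit 4) (nat_lit 439) (nat_lit 333) (nat_lit 248)) (XT.nd (nat_lit 46254) (nat_lit 0) (nat_lit 2052) (XT.lf (nat_lit 0) (nat_lit 99097706136055) (nat_lit 152) (nat_lit 400510951691276) (nat_lit 0) (nat_lit 99096401898125) (nat_lit 1) (nat_lit 5) (nat_lit 3) (nat_lit 4) (nat_lit 1) (nat_lit 4) (nat_lit 440) (nat_lit 333) (nat_lit 247)) (XT.lf (nat_lit 0) (nat_lit 2334004206) (nat_lit 152) (nat_lit 297853408) (nat_lit 0) (nat_lit 2334004206) (nat_lit 28) (nat_lit 5) (nat_lit 30) (nat_lit 4) (nat_lit 28) (nat_lit 4) (nat_lit 352) (nat_lit 334) (nat_lit 334)))))) (XT.nd (nat_lit 468) (nat_lit 456) (nat_lit 0) (XT.nd (nat_lit 234) (nat_lit 380) (nat_lit 0) (XT.nd (nat_lit 78) (nat_lit 228) (nat_lit 0) (XT.lf (nat_lit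 0) (nat_lit 8962116412) (nat_lit 76) (nat_lit 1157402845) (nat_lit 76) (nat_lit 469176544) (nat_lit 27) (nat_lit 4) (nat_lit 28) (nat_lit 5) (nat_lit 28) (nat_lit 4) (nat_lit 353) (nat_lit 334) (nat_lit 333)) (XT.nd (nat_lit 78) (nat_lit 76) (nat_lit 0) (XT.lf (nat_lit 0) (nat_lit 4636940952) (nat_lit 152) (nat_lit 3151731515) (nat_lit 0) (nat_lit 3518085341) (nat_lit 25) (nat_lit 5) (nat_lit 27) (nat_lit 4) (nat_lit 25) (nat_lit 4) (nat_lit 354) (nat_lit 334) (nat_lit 332)) (XT.lf (nat_lit 0) (nat_lit 7131114035) (nat_lit 76) (nat_lit 3287907713) (nat_lit 76) (nat_lit 1716532137) (nat_lit 24) (nat_lit 4) (nat_lit 25) (nat_lit 5) (nat_lit 25) (nat_lit 4) (nat_lit 355) (nat_lit 334) (nat_lit 331)))) (XT.nd (nat_lit 78) (nat_lit 228) (nat_lit 0) (XT.lf (nat_lit 0) (nat_lit 3646077824) (nat_lit 152) (nat_lit 7477349520) (nat_lit 0) (nat_lit 1937494175) (nat_lit 22) (nat_lit 5) (nat_lit 24)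 (nat_lit 4) (nat_lit 22) (nat_lit 4) (nat_lit 356) (nat_lit 334) (nat_lit 330)) (XT.nd (nat_lit 78) (nat_lit 152) (nat_lit 0) (XT.lf (nat_lit 0) (nat_lit 3381502918) (nat_lit 76) (nat_lit 6360877514) (nat_lit 76) (nat_lit 4354754643) (nat_lit 21) (nat_lit 4) (nat_lit 22) (nat_lit 5) (nat_lit 22) (nat_lit 4) (nat_lit 357) (nat_lit 334) (nat_lit 329)) (XT.lf (nat_lit 0) (nat_lit 538958798) (nat_lit 76) (nat_lit 765139539) (nat_lit 152) (nat_lit 13980113255) (nat_lit 19) (nat_lit 5) (nat_lit 20) (nat_lit 5) (nat_lit 21) (nat_lit 4) (nat_lit 358) (nat_lit 334) (nat_lit 328))))) (XT.nd (nat_lit 234) (nat_lit 228) (nat_lit 0) (XT.nd (nat_lit 78) (nat_lit 228) (nat_lit 0) (XT.lf (nat_lit 0) (nat_lit 7732310093) (nat_lit 152) (nat_lit 3263779820) (nat_lit 0) (nat_lit 5567236155) (nat_lit 19) (nat_lit 5) (nat_lit 21) (nat_lit 4) (nat_lit 19) (nat_lit 4) (nat_lit 359) (nat_lit 334) (nat_lit 327))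 (XT.nd (nat_lit 78) (nat_lit 152) (nat_lit 0) (XT.lf (nat_lit 0) (nat_lit 9997283053) (nat_lit 76) (nat_lit 5182033171) (nat_lit 76) (nat_lit 2846840217) (nat_lit 18) (nat_lit 4) (nat_lit 19) (nat_lit 5) (nat_lit 19) (nat_lit 4) (nat_lit 360) (nat_lit 334) (nat_lit 326)) (XT.lf (nat_lit 0) (nat_lit 3758944833) (nat_lit 152) (nat_lit 14312241381) (nat_lit 0) (nat_lit 1599707849) (nat_lit 16) (nat_lit 5) (nat_lit 18) (nat_lit 4) (nat_lit 16) (nat_lit 4) (nat_lit 361) (nat_lit 334) (nat_lit 325)))) (XT.nd (nat_lit 156) (nat_lit 152) (nat_lit 0) (XT.nd (nat_lit 78) (nat_lit 76) (nat_lit 0) (XT.lf (nat_lit 0) (nat_lit 11360673957) (nat_lit 152) (nat_lit 1047293839) (nat_lit 0) (nat_lit 9089580958) (nat_lit 16) (nat_lit 5) (nat_lit 18) (nat_lit 4) (nat_lit 16) (nat_lit 4) (nat_lit 362) (nat_lit 334) (nat_lit 324)) (XT.lf (nat_lit 0) (nat_lit 14830075031) (nat_lit 76) (nat_lit 5547624540) (nat_lit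 76) (nat_lit 3179265441) (nat_lit 15) (nat_lit 4) (nat_lit 16) (nat_lit 5) (nat_lit 16) (nat_lit 4) (nat_lit 363) (nat_lit 334) (nat_lit 323))) (XT.nd (nat_lit 78) (nat_lit 0) (nat_lit 0) (XT.lf (nat_lit 0) (nat_lit 4510754931) (nat_lit 152) (nat_lit 18989129371) (nat_lit 0) (nat_lit 2377765092) (nat_lit 13) (nat_lit 5) (nat_lit 15) (nat_lit 4) (nat_lit 13) (nat_lit 4) (nat_lit 364) (nat_lit 334) (nat_lit 322)) (XT.lf (nat_lit 0) (nat_lit 13435205930) (nat_lit 152) (nat_lit 3789308293) (nat_lit 0) (nat_lit 11238262052) (nat_lit 13) (nat_lit 5) (nat_lit 15) (nat_lit 4) (nat_lit 13) (nat_lit 4) (nat_lit 365) (nat_lit 334) (nat_lit 321))))))) (XT.nd (nat_lit 1014) (nat_lit 76) (nat_lit 0) (XT.nd (nat_lit 468) (nat_lit 380) (nat_lit 0) (XT.nd (nat_lit 234) (nat_lit 76) (nat_lit 0) (XT.nd (nat_lit 78) (nat_lit 152) (nat_lit 0) (XT.lf (nat_lit 0) (nat_lit 14359250404) (nat_lit 76) (nat_lit 9641790615)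 (nat_lit 76) (nat_lit 7389234529) (nat_lit 12) (nat_lit 4) (nat_lit 13) (nat_lit 5) (nat_lit 13) (nat_lit 4) (nat_lit 366) (nat_lit 334) (nat_lit 320)) (XT.nd (nat_lit 78) (nat_lit 0) (nat_lit 0) (XT.lf (nat_lit 0) (nat_lit 275787261) (nat_lit 76) (nat_lit 922678687) (nat_lit 152) (nat_lit 33560609231) (nat_lit 10) (nat_lit 5) (nat_lit 11) (nat_lit 5) (nat_lit 12) (nat_lit 4) (nat_lit 367) (nat_lit 334) (nat_lit 319)) (XT.lf (nat_lit 0) (nat_lit 11337517110) (nat_lit 152) (nat_lit 17789791705) (nat_lit 0) (nat_lit 9300155939) (nat_lit 10) (nat_lit 5) (nat_lit 12) (nat_lit 4) (nat_lit 10) (nat_lit 4) (nat_lit 368) (nat_lit 334) (nat_lit 318)))) (XT.nd (nat_lit 78) (nat_lit 0) (nat_lit 0) (XT.lf (nat_lit 0) (nat_lit 913308768) (nat_lit 76) (nat_lit 21913760649) (nat_lit 76) (nat_lit 19844603017) (nat_lit 9) (nat_lit 4) (nat_lit 10) (nat_lit 5) (nat_lit 10) (nat_lit 4) (nat_lit 369) (nat_lit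 334) (nat_lit 317)) (XT.nd (nat_lit 78) (nat_lit 0) (nat_lit 0) (XT.lf (nat_lit 0) (nat_lit 23913584527) (nat_lit 76) (nat_lit 12816143886) (nat_lit 76) (nat_lit 10719337158) (nat_lit 9) (nat_lit 4) (nat_lit 10) (nat_lit 5) (nat_lit 10) (nat_lit 4) (nat_lit 370) (nat_lit 334) (nat_lit 316)) (XT.lf (nat_lit 0) (nat_lit 49922493143) (nat_lit 76) (nat_lit 2586382607) (nat_lit 76) (nat_lit 465533187) (nat_lit 9) (nat_lit 4) (nat_lit 10) (nat_lit 5) (nat_lit 10) (nat_lit 4) (nat_lit 371) (nat_lit 334) (nat_lit 315))))) (XT.nd (nat_lit 234) (nat_lit 152) (nat_lit 0) (XT.nd (nat_lit 78) (nat_lit 76) (nat_lit 0) (XT.lf (nat_lit 0) (nat_lit 11456154137) (nat_lit 152) (nat_lit 38037571444) (nat_lit 0) (nat_lit 9593757520) (nat_lit 7) (nat_lit 5) (nat_lit 9) (nat_lit 4) (nat_lit 7) (nat_lit 4) (nat_lit 372) (nat_lit 334) (nat_lit 314)) (XT.nd (nat_lit 78) (nat_lit 76) (nat_lit 0) (XT.lf (nat_lit 0)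 (nat_lit 25218929030) (nat_lit 152) (nat_lit 17539468816) (nat_lit 0) (nat_lit 23340723953) (nat_lit 7) (nat_lit 5) (nat_lit 9) (nat_lit 4) (nat_lit 7) (nat_lit 4) (nat_lit 373) (nat_lit 334) (nat_lit 313)) (XT.lf (nat_lit 0) (nat_lit 6238327296) (nat_lit 76) (nat_lit 34901070780) (nat_lit 76) (nat_lit 33009119216) (nat_lit 6) (nat_lit 4) (nat_lit 7) (nat_lit 5) (nat_lit 7) (nat_lit 4) (nat_lit 374) (nat_lit 334) (nat_lit 312)))) (XT.nd (nat_lit 156) (nat_lit 152) (nat_lit 0) (XT.nd (nat_lit 78) (nat_lit 0) (nat_lit 0) (XT.lf (nat_lit 0) (nat_lit 35219516321) (nat_lit 76) (nat_lit 24987895962) (nat_lit 76) (nat_lit 23083990931) (nat_lit 6) (nat_lit 4) (nat_lit 7) (nat_lit 5) (nat_lit 7) (nat_lit 4) (nat_lit 375) (nat_lit 334) (nat_lit 311)) (XT.lf (nat_lit 0) (nat_lit 68257037068) (nat_lit 76) (nat_lit 13741755844) (nat_lit 76) (nat_lit 11827456493) (nat_lit 6) (nat_lit 4) (nat_lit 7) (nat_lit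 5) (nat_lit 7) (nat_lit 4) (nat_lit 376) (nat_lit 334) (nat_lit 310))) (XT.nd (nat_lit 78) (nat_lit 76) (nat_lit 0) (XT.lf (nat_lit 0) (nat_lit 893410107) (nat_lit 152) (nat_lit 2506158) (nat_lit 76) (nat_lit 105057164722) (nat_lit 5) (nat_lit 5) (nat_lit 7) (nat_lit 5) (nat_lit 6) (nat_lit 4) (nat_lit 377) (nat_lit 334) (nat_lit 309)) (XT.lf (nat_lit 0) (nat_lit 16161641697) (nat_lit 152) (nat_lit 88892954385) (nat_lit 0) (nat_lit 14482339533) (nat_lit 4) (nat_lit 5) (nat_lit 6) (nat_lit 4) (nat_lit 4) (nat_lit 4) (nat_lit 378) (nat_lit 334) (nat_lit 308)))))) (XT.nd (nat_lit 468) (nat_lit 0) (nat_lit 0) (XT.nd (nat_lit 234) (nat_lit 76) (nat_lit 0) (XT.nd (nat_lit 78) (nat_lit 0) (nat_lit 0) (XT.lf (nat_lit 0) (nat_lit 33654708301) (nat_lit 152) (nat_lit 69544008103) (nat_lit 0) (nat_lit 31969463151) (nat_lit 4) (nat_lit 5) (nat_lit 6) (nat_lit 4) (nat_lit 4) (nat_lit 4) (nat_lit 379)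 (nat_lit 334) (nat_lit 307)) (XT.nd (nat_lit 78) (nat_lit 0) (nat_lit 0) (XT.lf (nat_lit 0) (nat_lit 53677648246) (nat_lit 152) (nat_lit 47493340559) (nat_lit 0) (nat_lit 51987235283) (nat_lit 4) (nat_lit 5) (nat_lit 6) (nat_lit 4) (nat_lit 4) (nat_lit 4) (nat_lit 380) (nat_lit 334) (nat_lit 306)) (XT.lf (nat_lit 0) (nat_lit 76622214705) (nat_lit 152) (nat_lit 22309525651) (nat_lit 0) (nat_lit 74927307991) (nat_lit 4) (nat_lit 5) (nat_lit 6) (nat_lit 4) (nat_lit 4) (nat_lit 4) (nat_lit 381) (nat_lit 334) (nat_lit 305)))) (XT.nd (nat_lit 78) (nat_lit 0) (nat_lit 0) (XT.lf (nat_lit 0) (nat_lit 7135406680) (nat_lit 76) (nat_lit 96097378404) (nat_lit 76) (nat_lit 94398564080) (nat_lit 3) (nat_lit 4) (nat_lit 4) (nat_lit 5) (nat_lit 4) (nat_lit 4) (nat_lit 382) (nat_lit 334) (nat_lit 304)) (XT.nd (nat_lit 78) (nat_lit 0) (nat_lit 0) (XT.lf (nat_lit 0) (nat_lit 43359562633) (nat_lit 76) (nat_lit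 91573698667) (nat_lit 76) (nat_lit 89871486422) (nat_lit 3) (nat_lit 4) (nat_lit 4) (nat_lit 5) (nat_lit 4) (nat_lit 4) (nat_lit 383) (nat_lit 334) (nat_lit 303)) (XT.lf (nat_lit 0) (nat_lit 84891426594) (nat_lit 76) (nat_lit 86438374120) (nat_lit 76) (nat_lit 84733207160) (nat_lit 3) (nat_lit 4) (nat_lit 4) (nat_lit 5) (nat_lit 4) (nat_lit 4) (nat_lit 384) (nat_lit 334) (nat_lit 302))))) (XT.nd (nat_lit 234) (nat_lit 0) (nat_lit 0) (XT.nd (nat_lit 78) (nat_lit 0) (nat_lit 0) (XT.lf (nat_lit 0) (nat_lit 132543578512) (nat_lit 76) (nat_lit 80590931020) (nat_lit 76) (nat_lit 78883194744) (nat_lit 3) (nat_lit 4) (nat_lit 4) (nat_lit 5) (nat_lit 4) (nat_lit 4) (nat_lit 385) (nat_lit 334) (nat_lit 301)) (XT.nd (nat_lit 78) (nat_lit 0) (nat_lit 0) (XT.lf (nat_lit 0) (nat_lit 187248343096) (nat_lit 76) (nat_lit 73916962873) (nat_lit 76) (nat_lit 72206992408) (nat_lit 3) (nat_lit 4) (nat_lit 4)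 (nat_lit 5) (nat_lit 4) (nat_lit 4) (nat_lit 386) (nat_lit 334) (nat_lit 300)) (XT.lf (nat_lit 0) (nat_lit 250076030960) (nat_lit 76) (nat_lit 66285892041) (nat_lit 76) (nat_lit 64573978804) (nat_lit 3) (nat_lit 4) (nat_lit 4) (nat_lit 5) (nat_lit 4) (nat_lit 4) (nat_lit 387) (nat_lit 334) (nat_lit 299)))) (XT.nd (nat_lit 156) (nat_lit 0) (nat_lit 0) (XT.nd (nat_lit 78) (nat_lit 0) (nat_lit 0) (XT.lf (nat_lit 0) (nat_lit 322255879474) (nat_lit 76) (nat_lit 57548414964) (nat_lit 76) (nat_lit 55834812359) (nat_lit 3) (nat_lit 4) (nat_lit 4) (nat_lit 5) (nat_lit 4) (nat_lit 4) (nat_lit 388) (nat_lit 334) (nat_lit 298)) (XT.lf (nat_lit 0) (nat_lit 405200103065) (nat_lit 76) (nat_lit 47533581003) (nat_lit 76) (nat_lit 45818509383) (nat_lit 3) (nat_lit 4) (nat_lit 4) (nat_lit 5) (nat_lit 4) (nat_lit 4) (nat_lit 389) (nat_lit 334) (nat_lit 297))) (XT.nd (nat_lit 78) (nat_lit 0) (nat_lit 0) (XT.lf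 (nat_lit 0) (nat_lit 500531523500) (nat_lit 76) (nat_lit 36045447756) (nat_lit 76) (nat_lit 34329098731) (nat_lit 3) (nat_lit 4) (nat_lit 4) (nat_lit 5) (nat_lit 4) (nat_lit 4) (nat_lit 390) (nat_lit 334) (nat_lit 296)) (XT.lf (nat_lit 0) (nat_lit 610115320743) (nat_lit 76) (nat_lit 22859247396) (nat_lit 76) (nat_lit 21141787585) (nat_lit 3) (nat_lit 4) (nat_lit 4) (nat_lit 5) (nat_lit 4) (nat_lit 4) (nat_lit 391) (nat_lit 334) (nat_lit 295))))))))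
noncomputable def xc38 : XT := (XT.nd (nat_lit 1950) (nat_lit 0) (nat_lit 0) (XT.nd (nat_lit 936) (nat_lit 0) (nat_lit 0) (XT.nd (nat_lit 468) (nat_lit 0) (nat_lit 0) (XT.nd (nat_lit 234) (nat_lit 0) (nat_lit 0) (XT.nd (nat_lit 78) (nat_lit 152) (nat_lit 0) (XT.lf (nat_lit 0) (nat_lit 736095525611) (nat_lit 76) (nat_lit 7716989049) (nat_lit 76) (nat_lit 5998563337) (nat_lit 3) (nat_lit 4) (nat_lit 4) (nat_lit 5) (nat_lit 4) (nat_lit 4) (nat_lit 392) (nat_lit 334) (nat_lit 294)) (XT.nd (nat_lit 78) (nat_lit 0) (nat_lit 0) (XT.lf (nat_lit 0) (nat_lit 11786500929) (nat_lit 152) (nat_lit 837503107674) (nat_lit 0) (nat_lit 10291487341) (nat_lit 1) (nat_lit 5) (nat_lit 3) (nat_lit 4) (nat_lit 1) (nat_lit 4) (nat_lit 393) (nat_lit 334) (nat_lit 293)) (XT.lf (nat_lit 0) (nat_lit 32726199896) (nat_lit 152) (nat_lit 921651866667) (nat_lit 0) (nat_lit 31230551212) (nat_lit 1) (nat_lit 5) (nat_lit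 3) (nat_lit 4) (nat_lit 1) (nat_lit 4) (nat_lit 394) (nat_lit 334) (nat_lit 292)))) (XT.nd (nat_lit 78) (nat_lit 0) (nat_lit 0) (XT.lf (nat_lit 0) (nat_lit 56791591311) (nat_lit 152) (nat_lit 1018455575665) (nat_lit 0) (nat_lit 55295390370) (nat_lit 1) (nat_lit 5) (nat_lit 3) (nat_lit 4) (nat_lit 1) (nat_lit 4) (nat_lit 395) (nat_lit 334) (nat_lit 291)) (XT.nd (nat_lit 78) (nat_lit 0) (nat_lit 0) (XT.lf (nat_lit 0) (nat_lit 84453519789) (nat_lit 152) (nat_lit 1129808220280) (nat_lit 0) (nat_lit 82956838624) (nat_lit 1) (nat_lit 5) (nat_lit 3) (nat_lit 4) (nat_lit 1) (nat_lit 4) (nat_lit 396) (nat_lit 334) (nat_lit 290)) (XT.lf (nat_lit 0) (nat_lit 116253196975) (nat_lit 152) (nat_lit 1257888439210) (nat_lit 0) (nat_lit 114756098224) (nat_lit 1) (nat_lit 5) (nat_lit 3) (nat_lit 4) (nat_lit 1) (nat_lit 4) (nat_lit 397) (nat_lit 334) (nat_lit 289))))) (XT.nd (nat_lit 234) (nat_lit 0) (nat_lit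 0) (XT.nd (nat_lit 78) (nat_lit 0) (nat_lit 0) (XT.lf (nat_lit 0) (nat_lit 152812790465) (nat_lit 152) (nat_lit 1405202149783) (nat_lit 0) (nat_lit 151315328596) (nat_lit 1) (nat_lit 5) (nat_lit 3) (nat_lit 4) (nat_lit 1) (nat_lit 4) (nat_lit 398) (nat_lit 334) (nat_lit 288)) (XT.nd (nat_lit 78) (nat_lit 0) (nat_lit 0) (XT.lf (nat_lit 0) (nat_lit 194847596653) (nat_lit 152) (nat_lit 1574631576771) (nat_lit 0) (nat_lit 193349819029) (nat_lit 1) (nat_lit 5) (nat_lit 3) (nat_lit 4) (nat_lit 1) (nat_lit 4) (nat_lit 399) (nat_lit 334) (nat_lit 287)) (XT.lf (nat_lit 0) (nat_lit 243180035662) (nat_lit 152) (nat_lit 1769491643745) (nat_lit 0) (nat_lit 241681983468) (nat_lit 1) (nat_lit 5) (nat_lit 3) (nat_lit 4) (nat_lit 1) (nat_lit 4) (nat_lit 400) (nat_lit 334) (nat_lit 286)))) (XT.nd (nat_lit 78) (nat_lit 0) (nat_lit 0) (XT.lf (nat_lit 0) (nat_lit 298755742166) (nat_lit 152) (nat_lit 1993594830277)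 (nat_lit 0) (nat_lit 297257451217) (nat_lit 1) (nat_lit 5) (nat_lit 3) (nat_lit 4) (nat_lit 1) (nat_lit 4) (nat_lit 401) (nat_lit 334) (nat_lit 285)) (XT.nd (nat_lit 78) (nat_lit 0) (nat_lit 0) (XT.lf (nat_lit 0) (nat_lit 362662066946) (nat_lit 152) (nat_lit 2251325763928) (nat_lit 0) (nat_lit 361163568383) (nat_lit 1) (nat_lit 5) (nat_lit 3) (nat_lit 4) (nat_lit 1) (nat_lit 4) (nat_lit 402) (nat_lit 334) (nat_lit 284)) (XT.lf (nat_lit 0) (nat_lit 436149351138) (nat_lit 152) (nat_lit 2547727006445) (nat_lit 0) (nat_lit 434650672041) (nat_lit 1) (nat_lit 5) (nat_lit 3) (nat_lit 4) (nat_lit 1) (nat_lit 4) (nat_lit 403) (nat_lit 334) (nat_lit 283)))))) (XT.nd (nat_lit 468) (nat_lit 0) (nat_lit 0) (XT.nd (nat_lit 234) (nat_lit 0) (nat_lit 0) (XT.nd (nat_lit 78) (nat_lit 0) (nat_lit 0) (XT.lf (nat_lit 0) (nat_lit 520655389434) (nat_lit 152) (nat_lit 2888597712572) (nat_lit 0) (nat_lit 519156553351)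 (nat_lit 1) (nat_lit 5) (nat_lit 3) (nat_lit 4) (nat_lit 1) (nat_lit 4) (nat_lit 404) (nat_lit 334) (nat_lit 282)) (XT.nd (nat_lit 78) (nat_lit 0) (nat_lit 0) (XT.lf (nat_lit 0) (nat_lit 617833560843) (nat_lit 152) (nat_lit 3280607091777) (nat_lit 0) (nat_lit 616334588250) (nat_lit 1) (nat_lit 5) (nat_lit 3) (nat_lit 4) (nat_lit 1) (nat_lit 4) (nat_lit 405) (nat_lit 334) (nat_lit 281)) (XT.lf (nat_lit 0) (nat_lit 729585177415) (nat_lit 152) (nat_lit 3731424892784) (nat_lit 0) (nat_lit 728086086118) (nat_lit 1) (nat_lit 5) (nat_lit 3) (nat_lit 4) (nat_lit 1) (nat_lit 4) (nat_lit 406) (nat_lit 334) (nat_lit 280)))) (XT.nd (nat_lit 78) (nat_lit 0) (nat_lit 0) (XT.lf (nat_lit 0) (nat_lit 858096683821) (nat_lit 152) (nat_lit 4249871463872) (nat_lit 0) (nat_lit 856597489304) (nat_lit 1) (nat_lit 5) (nat_lit 3) (nat_lit 4) (nat_lit 1) (nat_lit 4) (nat_lit 407) (nat_lit 334) (nat_lit 279)) (XT.nd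 (nat_lit 78) (nat_lit 0) (nat_lit 0) (XT.lf (nat_lit 0) (nat_lit 1005882435622) (nat_lit 152) (nat_lit 4846090324912) (nat_lit 0) (nat_lit 1004383151348) (nat_lit 1) (nat_lit 5) (nat_lit 3) (nat_lit 4) (nat_lit 1) (nat_lit 4) (nat_lit 408) (nat_lit 334) (nat_lit 278)) (XT.lf (nat_lit 0) (nat_lit 1175833893180) (nat_lit 152) (nat_lit 5531746627532) (nat_lit 0) (nat_lit 1174334530855) (nat_lit 1) (nat_lit 5) (nat_lit 3) (nat_lit 4) (nat_lit 1) (nat_lit 4) (nat_lit 409) (nat_lit 334) (nat_lit 277))))) (XT.nd (nat_lit 234) (nat_lit 0) (nat_lit 0) (XT.nd (nat_lit 78) (nat_lit 0) (nat_lit 0) (XT.lf (nat_lit 0) (nat_lit 1371276193706) (nat_lit 152) (nat_lit 6320255386349) (nat_lit 0) (nat_lit 1369776763512) (nat_lit 1) (nat_lit 5) (nat_lit 3) (nat_lit 4) (nat_lit 1) (nat_lit 4) (nat_lit 410) (nat_lit 334) (nat_lit 276)) (XT.nd (nat_lit 78) (nat_lit 0) (nat_lit 0) (XT.lf (nat_lit 0) (nat_lit 1596033208300)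 (nat_lit 152) (nat_lit 7227043946644) (nat_lit 0) (nat_lit 1594533719089) (nat_lit 1) (nat_lit 5) (nat_lit 3) (nat_lit 4) (nat_lit 1) (nat_lit 4) (nat_lit 411) (nat_lit 334) (nat_lit 275)) (XT.lf (nat_lit 0) (nat_lit 1854502356810) (nat_lit 152) (nat_lit 8269853823727) (nat_lit 0) (nat_lit 1853002816280) (nat_lit 1) (nat_lit 5) (nat_lit 3) (nat_lit 4) (nat_lit 1) (nat_lit 4) (nat_lit 412) (nat_lit 334) (nat_lit 274)))) (XT.nd (nat_lit 156) (nat_lit 0) (nat_lit 0) (XT.nd (nat_lit 78) (nat_lit 0) (nat_lit 0) (XT.lf (nat_lit 0) (nat_lit 2151740644317) (nat_lit 152) (nat_lit 9469087819541) (nat_lit 0) (nat_lit 2150241059162) (nat_lit 1) (nat_lit 5) (nat_lit 3) (nat_lit 4) (nat_lit 1) (nat_lit 4) (nat_lit 413) (nat_lit 334) (nat_lit 273)) (XT.lf (nat_lit 0) (nat_lit 2493563602533) (nat_lit 152) (nat_lit 10848209207917) (nat_lit 0) (nat_lit 2492063978574) (nat_lit 1) (nat_lit 5) (nat_lit 3) (nat_lit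 4) (nat_lit 1) (nat_lit 4) (nat_lit 414) (nat_lit 334) (nat_lit 272))) (XT.nd (nat_lit 78) (nat_lit 0) (nat_lit 0) (XT.lf (nat_lit 0) (nat_lit 2886659071945) (nat_lit 152) (nat_lit 12434200798627) (nat_lit 0) (nat_lit 2885159414242) (nat_lit 1) (nat_lit 5) (nat_lit 3) (nat_lit 4) (nat_lit 1) (nat_lit 4) (nat_lit 415) (nat_lit 334) (nat_lit 271)) (XT.lf (nat_lit 0) (nat_lit 3338718050867) (nat_lit 152) (nat_lit 14258092861926) (nat_lit 0) (nat_lit 3337218363823) (nat_lit 1) (nat_lit 5) (nat_lit 3) (nat_lit 4) (nat_lit 1) (nat_lit 4) (nat_lit 416) (nat_lit 334) (nat_lit 270))))))) (XT.nd (nat_lit 1014) (nat_lit 0) (nat_lit 0) (XT.nd (nat_lit 468) (nat_lit 0) (nat_lit 0) (XT.nd (nat_lit 234) (nat_lit 0) (nat_lit 0) (XT.nd (nat_lit 78) (nat_lit 0) (nat_lit 0) (XT.lf (nat_lit 0) (nat_lit 3858585171496) (nat_lit 152) (nat_lit 16355570242528) (nat_lit 0) (nat_lit 3857085458937) (nat_lit 1) (nat_lit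 5) (nat_lit 3) (nat_lit 4) (nat_lit 1) (nat_lit 4) (nat_lit 417) (nat_lit 334) (nat_lit 269)) (XT.nd (nat_lit 78) (nat_lit 0) (nat_lit 0) (XT.lf (nat_lit 0) (nat_lit 4456431747061) (nat_lit 152) (nat_lit 18767670541360) (nat_lit 0) (nat_lit 4454932012315) (nat_lit 1) (nat_lit 5) (nat_lit 3) (nat_lit 4) (nat_lit 1) (nat_lit 4) (nat_lit 418) (nat_lit 334) (nat_lit 268)) (XT.lf (nat_lit 0) (nat_lit 5143954775780) (nat_lit 152) (nat_lit 21541587025138) (nat_lit 0) (nat_lit 5142455021741) (nat_lit 1) (nat_lit 5) (nat_lit 3) (nat_lit 4) (nat_lit 1) (nat_lit 4) (nat_lit 419) (nat_lit 334) (nat_lit 267)))) (XT.nd (nat_lit 78) (nat_lit 0) (nat_lit 0) (XT.lf (nat_lit 0) (nat_lit 5934605795171) (nat_lit 152) (nat_lit 24731591972891) (nat_lit 0) (nat_lit 5933106024356) (nat_lit 1) (nat_lit 5) (nat_lit 3) (nat_lit 4) (nat_lit 1) (nat_lit 4) (nat_lit 420) (nat_lit 334) (nat_lit 266)) (XT.nd (nat_lit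 78) (nat_lit 0) (nat_lit 0) (XT.lf (nat_lit 0) (nat_lit 6843854064310) (nat_lit 152) (nat_lit 28400098524903) (nat_lit 0) (nat_lit 6842354278907) (nat_lit 1) (nat_lit 5) (nat_lit 3) (nat_lit 4) (nat_lit 1) (nat_lit 4) (nat_lit 421) (nat_lit 334) (nat_lit 265)) (XT.lf (nat_lit 0) (nat_lit 7889489223244) (nat_lit 152) (nat_lit 32618881809364) (nat_lit 0) (nat_lit 7887989425156) (nat_lit 1) (nat_lit 5) (nat_lit 3) (nat_lit 4) (nat_lit 1) (nat_lit 4) (nat_lit 422) (nat_lit 334) (nat_lit 264))))) (XT.nd (nat_lit 234) (nat_lit 0) (nat_lit 0) (XT.nd (nat_lit 78) (nat_lit 0) (nat_lit 0) (XT.lf (nat_lit 0) (nat_lit 9091969351170) (nat_lit 152) (nat_lit 37470483238363) (nat_lit 0) (nat_lit 9090469542052) (nat_lit 1) (nat_lit 5) (nat_lit 3) (nat_lit 4) (nat_lit 1) (nat_lit 4) (nat_lit 423) (nat_lit 334) (nat_lit 263)) (XT.nd (nat_lit 78) (nat_lit 0) (nat_lit 0) (XT.lf (nat_lit 0) (nat_lit 10474821233201)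 (nat_lit 152) (nat_lit 43049825448552) (nat_lit 0) (nat_lit 10473321414490) (nat_lit 1) (nat_lit 5) (nat_lit 3) (nat_lit 4) (nat_lit 1) (nat_lit 4) (nat_lit 424) (nat_lit 334) (nat_lit 262)) (XT.lf (nat_lit 0) (nat_lit 12065100667027) (nat_lit 152) (nat_lit 49466069483175) (nat_lit 0) (nat_lit 12063600839975) (nat_lit 1) (nat_lit 5) (nat_lit 3) (nat_lit 4) (nat_lit 1) (nat_lit 4) (nat_lit 425) (nat_lit 334) (nat_lit 261)))) (XT.nd (nat_lit 156) (nat_lit 0) (nat_lit 0) (XT.nd (nat_lit 78) (nat_lit 0) (nat_lit 0) (XT.lf (nat_lit 0) (nat_lit 13893921815484) (nat_lit 152) (nat_lit 56844750551606) (nat_lit 0) (nat_lit 13892421981180) (nat_lit 1) (nat_lit 5) (nat_lit 3) (nat_lit 4) (nat_lit 1) (nat_lit 4) (nat_lit 426) (nat_lit 334) (nat_lit 260)) (XT.lf (nat_lit 0) (nat_lit 15997065961913) (nat_lit 152) (nat_lit 65330234153009) (nat_lit 0) (nat_lit 15995566121302) (nat_lit 1) (nat_lit 5) (nat_lit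 3) (nat_lit 4) (nat_lit 1) (nat_lit 4) (nat_lit 427) (nat_lit 334) (nat_lit 259))) (XT.nd (nat_lit 78) (nat_lit 0) (nat_lit 0) (XT.lf (nat_lit 0) (nat_lit 18415681578742) (nat_lit 152) (nat_lit 75088540618716) (nat_lit 0) (nat_lit 18414181732647) (nat_lit 1) (nat_lit 5) (nat_lit 3) (nat_lit 4) (nat_lit 1) (nat_lit 4) (nat_lit 428) (nat_lit 334) (nat_lit 258)) (XT.lf (nat_lit 0) (nat_lit 21197089406301) (nat_lit 152) (nat_lit 86310593336099) (nat_lit 0) (nat_lit 21195589555437) (nat_lit 1) (nat_lit 5) (nat_lit 3) (nat_lit 4) (nat_lit 1) (nat_lit 4) (nat_lit 429) (nat_lit 334) (nat_lit 257)))))) (XT.nd (nat_lit 468) (nat_lit 0) (nat_lit 0) (XT.nd (nat_lit 234) (nat_lit 0) (nat_lit 0) (XT.nd (nat_lit 78) (nat_lit 0) (nat_lit 0) (XT.lf (nat_lit 0) (nat_lit 24395708293391) (nat_lit 152) (nat_lit 99215954206151) (nat_lit 0) (nat_lit 24394208438381) (nat_lit 1) (nat_lit 5) (nat_lit 3) (nat_lit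 4) (nat_lit 1) (nat_lit 4) (nat_lit 430) (nat_lit 334) (nat_lit 256)) (XT.nd (nat_lit 78) (nat_lit 0) (nat_lit 0) (XT.lf (nat_lit 0) (nat_lit 28074119913890) (nat_lit 152) (nat_lit 114057119419806) (nat_lit 0) (nat_lit 28072620055273) (nat_lit 1) (nat_lit 5) (nat_lit 3) (nat_lit 4) (nat_lit 1) (nat_lit 4) (nat_lit 431) (nat_lit 334) (nat_lit 255)) (XT.lf (nat_lit 0) (nat_lit 32304293190805) (nat_lit 152) (nat_lit 131124459600813) (nat_lit 0) (nat_lit 32302793329053) (nat_lit 1) (nat_lit 5) (nat_lit 3) (nat_lit 4) (nat_lit 1) (nat_lit 4) (nat_lit 432) (nat_lit 334) (nat_lit 254)))) (XT.nd (nat_lit 78) (nat_lit 0) (nat_lit 0) (XT.lf (nat_lit 0) (nat_lit 37168992383905) (nat_lit 152) (nat_lit 150751900970102) (nat_lit 0) (nat_lit 37167492519426) (nat_lit 1) (nat_lit 5) (nat_lit 3) (nat_lit 4) (nat_lit 1) (nat_lit 4) (nat_lit 433) (nat_lit 334) (nat_lit 253)) (XT.nd (nat_lit 78) (nat_lit 0)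 (nat_lit 0) (XT.lf (nat_lit 0) (nat_lit 42763396390445) (nat_lit 152) (nat_lit 173323458684898) (nat_lit 0) (nat_lit 42761896523595) (nat_lit 1) (nat_lit 5) (nat_lit 3) (nat_lit 4) (nat_lit 1) (nat_lit 4) (nat_lit 434) (nat_lit 334) (nat_lit 252)) (XT.lf (nat_lit 0) (nat_lit 49196960940987) (nat_lit 152) (nat_lit 199280750178753) (nat_lit 0) (nat_lit 49195461072076) (nat_lit 1) (nat_lit 5) (nat_lit 3) (nat_lit 4) (nat_lit 1) (nat_lit 4) (nat_lit 435) (nat_lit 334) (nat_lit 251))))) (XT.nd (nat_lit 234) (nat_lit 0) (nat_lit 0) (XT.nd (nat_lit 78) (nat_lit 0) (nat_lit 0) (XT.lf (nat_lit 0) (nat_lit 56595560124564) (nat_lit 152) (nat_lit 229131635502634) (nat_lit 0) (nat_lit 56594060253860) (nat_lit 1) (nat_lit 5) (nat_lit 3) (nat_lit 4) (nat_lit 1) (nat_lit 4) (nat_lit 436) (nat_lit 334) (nat_lit 250)) (XT.nd (nat_lit 78) (nat_lit 0) (nat_lit 0) (XT.lf (nat_lit 0) (nat_lit 65103949142595)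 (nat_lit 152) (nat_lit 263460153717223) (nat_lit 0) (nat_lit 65102449270332) (nat_lit 1) (nat_lit 5) (nat_lit 3) (nat_lit 4) (nat_lit 1) (nat_lit 4) (nat_lit 437) (nat_lit 334) (nat_lit 249)) (XT.lf (nat_lit 0) (nat_lit 74888596475865) (nat_lit 152) (nat_lit 302937949744112) (nat_lit 0) (nat_lit 74887096602246) (nat_lit 1) (nat_lit 5) (nat_lit 3) (nat_lit 4) (nat_lit 1) (nat_lit 4) (nat_lit 438) (nat_lit 334) (nat_lit 248)))) (XT.nd (nat_lit 46254) (nat_lit 0) (nat_lit 2052) (XT.nd (nat_lit 46176) (nat_lit 0) (nat_lit 2204) (XT.lf (nat_lit 0) (nat_lit 86140940876549) (nat_lit 152) (nat_lit 348337415244695) (nat_lit 0) (nat_lit 86139441001752) (nat_lit 1) (nat_lit 5) (nat_lit 3) (nat_lit 4) (nat_lit 1) (nat_lit 4) (nat_lit 439) (nat_lit 334) (nat_lit 247)) (XT.lf (nat_lit 0) (nat_lit 735596399) (nat_lit 152) (nat_lit 1840615209) (nat_lit 152) (nat_lit 1840615209) (nat_lit 30) (nat_lit 4)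 (nat_lit 32) (nat_lit 5) (nat_lit 32) (nat_lit 4) (nat_lit 350) (nat_lit 335) (nat_lit 335))) (XT.nd (nat_lit 78) (nat_lit 0) (nat_lit 0) (XT.lf (nat_lit 0) (nat_lit 403113102) (nat_lit 76) (nat_lit 207720564) (nat_lit 152) (nat_lit 8765954956) (nat_lit 28) (nat_lit 5) (nat_lit 29) (nat_lit 5) (nat_lit 30) (nat_lit 4) (nat_lit 351) (nat_lit 335) (nat_lit 334)) (XT.lf (nat_lit 0) (nat_lit 5224392854) (nat_lit 152) (nat_lit 997948166) (nat_lit 0) (nat_lit 3744706308) (nat_lit 28) (nat_lit 5) (nat_lit 30) (nat_lit 4) (nat_lit 28) (nat_lit 4) (nat_lit 352) (nat_lit 335) (nat_lit 333))))))))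
noncomputable def xc39 : XT := (XT.nd (nat_lit 2028) (nat_lit 228) (nat_lit 0) (XT.nd (nat_lit 1014) (nat_lit 684) (nat_lit 0) (XT.nd (nat_lit 468) (nat_lit 608) (nat_lit 0) (XT.nd (nat_lit 234) (nat_lit 228) (nat_lit 0) (XT.nd (nat_lit 78) (nat_lit 228) (nat_lit 0) (XT.lf (nat_lit 0) (nat_lit 8136607462) (nat_lit 76) (nat_lit 2300699928) (nat_lit 76) (nat_lit 222555729) (nat_lit 27) (nat_lit 4) (nat_lit 28) (nat_lit 5) (nat_lit 28) (nat_lit 4) (nat_lit 353) (nat_lit 335) (nat_lit 332)) (XT.nd (nat_lit 78) (nat_lit 76) (nat_lit 0) (XT.lf (nat_lit 0) (nat_lit 4547661877) (nat_lit 152) (nat_lit 4587804014) (nat_lit 0) (nat_lit 2288060001) (nat_lit 25) (nat_lit 5) (nat_lit 27) (nat_lit 4) (nat_lit 25) (nat_lit 4) (nat_lit 354) (nat_lit 335) (nat_lit 331)) (XT.lf (nat_lit 0) (nat_lit 5159940283) (nat_lit 76) (nat_lit 4893481474) (nat_lit 76) (nat_lit 2240383977) (nat_lit 24) (nat_lit 4) (nat_lit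 25) (nat_lit 5) (nat_lit 25) (nat_lit 4) (nat_lit 355) (nat_lit 335) (nat_lit 330)))) (XT.nd (nat_lit 78) (nat_lit 76) (nat_lit 0) (XT.lf (nat_lit 0) (nat_lit 2784420539) (nat_lit 152) (nat_lit 10315859846) (nat_lit 0) (nat_lit 179840016) (nat_lit 22) (nat_lit 5) (nat_lit 24) (nat_lit 4) (nat_lit 22) (nat_lit 4) (nat_lit 356) (nat_lit 335) (nat_lit 329)) (XT.nd (nat_lit 78) (nat_lit 76) (nat_lit 0) (XT.lf (nat_lit 0) (nat_lit 8552391233) (nat_lit 152) (nat_lit 124134986) (nat_lit 0) (nat_lit 5689080951) (nat_lit 22) (nat_lit 5) (nat_lit 24) (nat_lit 4) (nat_lit 22) (nat_lit 4) (nat_lit 357) (nat_lit 335) (nat_lit 328)) (XT.lf (nat_lit 0) (nat_lit 11978326365) (nat_lit 76) (nat_lit 3351168252) (nat_lit 76) (nat_lit 262875571) (nat_lit 21) (nat_lit 4) (nat_lit 22) (nat_lit 5) (nat_lit 22) (nat_lit 4) (nat_lit 358) (nat_lit 335) (nat_lit 327))))) (XT.nd (nat_lit 234) (nat_lit 304) (nat_lit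 0) (XT.nd (nat_lit 78) (nat_lit 152) (nat_lit 0) (XT.lf (nat_lit 0) (nat_lit 5725448867) (nat_lit 152) (nat_lit 8347319561) (nat_lit 0) (nat_lit 2869857955) (nat_lit 19) (nat_lit 5) (nat_lit 21) (nat_lit 4) (nat_lit 19) (nat_lit 4) (nat_lit 359) (nat_lit 335) (nat_lit 326)) (XT.nd (nat_lit 78) (nat_lit 76) (nat_lit 0) (XT.lf (nat_lit 0) (nat_lit 4063439981) (nat_lit 76) (nat_lit 8703210656) (nat_lit 76) (nat_lit 5699690165) (nat_lit 18) (nat_lit 4) (nat_lit 19) (nat_lit 5) (nat_lit 19) (nat_lit 4) (nat_lit 360) (nat_lit 335) (nat_lit 325)) (XT.lf (nat_lit 0) (nat_lit 702819452) (nat_lit 152) (nat_lit 1621093085) (nat_lit 76) (nat_lit 17873483961) (nat_lit 17) (nat_lit 5) (nat_lit 19) (nat_lit 5) (nat_lit 18) (nat_lit 4) (nat_lit 361) (nat_lit 335) (nat_lit 324)))) (XT.nd (nat_lit 156) (nat_lit 152) (nat_lit 0) (XT.nd (nat_lit 78) (nat_lit 76) (nat_lit 0) (XT.lf (nat_lit 0) (nat_lit 7973430213)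 (nat_lit 152) (nat_lit 8947746384) (nat_lit 0) (nat_lit 5152551151) (nat_lit 16) (nat_lit 5) (nat_lit 18) (nat_lit 4) (nat_lit 16) (nat_lit 4) (nat_lit 362) (nat_lit 335) (nat_lit 323)) (XT.lf (nat_lit 0) (nat_lit 5847817597) (nat_lit 76) (nat_lit 10633575852) (nat_lit 76) (nat_lit 7728117573) (nat_lit 15) (nat_lit 4) (nat_lit 16) (nat_lit 5) (nat_lit 16) (nat_lit 4) (nat_lit 363) (nat_lit 335) (nat_lit 322))) (XT.nd (nat_lit 78) (nat_lit 152) (nat_lit 0) (XT.lf (nat_lit 0) (nat_lit 23289288076) (nat_lit 76) (nat_lit 3163643217) (nat_lit 76) (nat_lit 184637793) (nat_lit 15) (nat_lit 4) (nat_lit 16) (nat_lit 5) (nat_lit 16) (nat_lit 4) (nat_lit 364) (nat_lit 335) (nat_lit 321)) (XT.lf (nat_lit 0) (nat_lit 8330056012) (nat_lit 152) (nat_lit 15273716743) (nat_lit 0) (nat_lit 5684004305) (nat_lit 13) (nat_lit 5) (nat_lit 15) (nat_lit 4) (nat_lit 13) (nat_lit 4) (nat_lit 365) (nat_lit 335) (nat_lit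 320)))))) (XT.nd (nat_lit 468) (nat_lit 380) (nat_lit 0) (XT.nd (nat_lit 234) (nat_lit 76) (nat_lit 0) (XT.nd (nat_lit 78) (nat_lit 152) (nat_lit 0) (XT.lf (nat_lit 0) (nat_lit 1481857187) (nat_lit 76) (nat_lit 16762762214) (nat_lit 76) (nat_lit 14068352065) (nat_lit 12) (nat_lit 4) (nat_lit 13) (nat_lit 5) (nat_lit 13) (nat_lit 4) (nat_lit 366) (nat_lit 335) (nat_lit 319)) (XT.nd (nat_lit 78) (nat_lit 152) (nat_lit 0) (XT.lf (nat_lit 0) (nat_lit 21961336491) (nat_lit 76) (nat_lit 8241782473) (nat_lit 76) (nat_lit 5505321505) (nat_lit 12) (nat_lit 4) (nat_lit 13) (nat_lit 5) (nat_lit 13) (nat_lit 4) (nat_lit 367) (nat_lit 335) (nat_lit 318)) (XT.lf (nat_lit 0) (nat_lit 4048897675) (nat_lit 152) (nat_lit 33885802919) (nat_lit 0) (nat_lit 1637569938) (nat_lit 10) (nat_lit 5) (nat_lit 12) (nat_lit 4) (nat_lit 10) (nat_lit 4) (nat_lit 368) (nat_lit 335) (nat_lit 317)))) (XT.nd (nat_lit 78)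 (nat_lit 76) (nat_lit 0) (XT.lf (nat_lit 0) (nat_lit 15398665473) (nat_lit 152) (nat_lit 15479094281) (nat_lit 0) (nat_lit 12959688639) (nat_lit 10) (nat_lit 5) (nat_lit 12) (nat_lit 4) (nat_lit 10) (nat_lit 4) (nat_lit 369) (nat_lit 335) (nat_lit 316)) (XT.nd (nat_lit 78) (nat_lit 0) (nat_lit 0) (XT.lf (nat_lit 0) (nat_lit 5803145527) (nat_lit 76) (nat_lit 22697416068) (nat_lit 76) (nat_lit 20234396543) (nat_lit 9) (nat_lit 4) (nat_lit 10) (nat_lit 5) (nat_lit 10) (nat_lit 4) (nat_lit 370) (nat_lit 335) (nat_lit 315)) (XT.lf (nat_lit 0) (nat_lit 31633526941) (nat_lit 76) (nat_lit 12561688358) (nat_lit 76) (nat_lit 10077762143) (nat_lit 9) (nat_lit 4) (nat_lit 10) (nat_lit 5) (nat_lit 10) (nat_lit 4) (nat_lit 371) (nat_lit 335) (nat_lit 314))))) (XT.nd (nat_lit 234) (nat_lit 228) (nat_lit 0) (XT.nd (nat_lit 78) (nat_lit 0) (nat_lit 0) (XT.lf (nat_lit 0) (nat_lit 307880578) (nat_lit 76)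 (nat_lit 999089896) (nat_lit 152) (nat_lit 59347691118) (nat_lit 7) (nat_lit 5) (nat_lit 8) (nat_lit 5) (nat_lit 9) (nat_lit 4) (nat_lit 372) (nat_lit 335) (nat_lit 313)) (XT.nd (nat_lit 78) (nat_lit 0) (nat_lit 0) (XT.lf (nat_lit 0) (nat_lit 14951613367) (nat_lit 152) (nat_lit 39970285388) (nat_lit 0) (nat_lit 12762122581) (nat_lit 7) (nat_lit 5) (nat_lit 9) (nat_lit 4) (nat_lit 7) (nat_lit 4) (nat_lit 373) (nat_lit 335) (nat_lit 312)) (XT.lf (nat_lit 0) (nat_lit 30547017176) (nat_lit 152) (nat_lit 16889587598) (nat_lit 0) (nat_lit 28345572922) (nat_lit 7) (nat_lit 5) (nat_lit 9) (nat_lit 4) (nat_lit 7) (nat_lit 4) (nat_lit 374) (nat_lit 335) (nat_lit 311)))) (XT.nd (nat_lit 156) (nat_lit 152) (nat_lit 0) (XT.nd (nat_lit 78) (nat_lit 0) (nat_lit 0) (XT.lf (nat_lit 0) (nat_lit 10305750589) (nat_lit 76) (nat_lit 38477927750) (nat_lit 76) (nat_lit 36266089177) (nat_lit 6) (nat_lit 4) (nat_lit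 7) (nat_lit 5) (nat_lit 7) (nat_lit 4) (nat_lit 375) (nat_lit 335) (nat_lit 310)) (XT.lf (nat_lit 0) (nat_lit 43225638725) (nat_lit 76) (nat_lit 27294077185) (nat_lit 76) (nat_lit 25073200074) (nat_lit 6) (nat_lit 4) (nat_lit 7) (nat_lit 5) (nat_lit 7) (nat_lit 4) (nat_lit 376) (nat_lit 335) (nat_lit 309))) (XT.nd (nat_lit 78) (nat_lit 152) (nat_lit 0) (XT.lf (nat_lit 0) (nat_lit 80863588242) (nat_lit 76) (nat_lit 14549103419) (nat_lit 76) (nat_lit 12320366709) (nat_lit 6) (nat_lit 4) (nat_lit 7) (nat_lit 5) (nat_lit 7) (nat_lit 4) (nat_lit 377) (nat_lit 335) (nat_lit 308)) (XT.lf (nat_lit 0) (nat_lit 2149655103) (nat_lit 152) (nat_lit 119322360357) (nat_lit 0) (nat_lit 205680196) (nat_lit 4) (nat_lit 5) (nat_lit 6) (nat_lit 4) (nat_lit 4) (nat_lit 4) (nat_lit 378) (nat_lit 335) (nat_lit 307))))))) (XT.nd (nat_lit 1014) (nat_lit 152) (nat_lit 0) (XT.nd (nat_lit 468) (nat_lit 0) (nat_lit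 0) (XT.nd (nat_lit 234) (nat_lit 76) (nat_lit 0) (XT.nd (nat_lit 78) (nat_lit 0) (nat_lit 0) (XT.lf (nat_lit 0) (nat_lit 19598960475) (nat_lit 152) (nat_lit 100066726020) (nat_lit 0) (nat_lit 17649817753) (nat_lit 4) (nat_lit 5) (nat_lit 6) (nat_lit 4) (nat_lit 4) (nat_lit 4) (nat_lit 379) (nat_lit 335) (nat_lit 306)) (XT.nd (nat_lit 78) (nat_lit 0) (nat_lit 0) (XT.lf (nat_lit 0) (nat_lit 39583847175) (nat_lit 152) (nat_lit 78097199298) (nat_lit 0) (nat_lit 37630210702) (nat_lit 4) (nat_lit 5) (nat_lit 6) (nat_lit 4) (nat_lit 4) (nat_lit 4) (nat_lit 380) (nat_lit 335) (nat_lit 305)) (XT.lf (nat_lit 0) (nat_lit 62495323856) (nat_lit 152) (nat_lit 52983941625) (nat_lit 0) (nat_lit 60537779773) (nat_lit 4) (nat_lit 5) (nat_lit 6) (nat_lit 4) (nat_lit 4) (nat_lit 4) (nat_lit 381) (nat_lit 335) (nat_lit 304)))) (XT.nd (nat_lit 78) (nat_lit 76) (nat_lit 0) (XT.lf (nat_lit 0) (nat_lit 88781658540)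 (nat_lit 152) (nat_lit 24235606657) (nat_lit 0) (nat_lit 86820716536) (nat_lit 4) (nat_lit 5) (nat_lit 6) (nat_lit 4) (nat_lit 4) (nat_lit 4) (nat_lit 382) (nat_lit 335) (nat_lit 303)) (XT.nd (nat_lit 78) (nat_lit 0) (nat_lit 0) (XT.lf (nat_lit 0) (nat_lit 9561504258) (nat_lit 76) (nat_lit 109791566322) (nat_lit 76) (nat_lit 107827669604) (nat_lit 3) (nat_lit 4) (nat_lit 4) (nat_lit 5) (nat_lit 4) (nat_lit 4) (nat_lit 383) (nat_lit 335) (nat_lit 302)) (XT.lf (nat_lit 0) (nat_lit 51042441876) (nat_lit 76) (nat_lit 104683302300) (nat_lit 76) (nat_lit 102716836266) (nat_lit 3) (nat_lit 4) (nat_lit 4) (nat_lit 5) (nat_lit 4) (nat_lit 4) (nat_lit 384) (nat_lit 335) (nat_lit 301))))) (XT.nd (nat_lit 234) (nat_lit 0) (nat_lit 0) (XT.nd (nat_lit 78) (nat_lit 0) (nat_lit 0) (XT.lf (nat_lit 0) (nat_lit 98650310017) (nat_lit 76) (nat_lit 98859390093) (nat_lit 76) (nat_lit 96890689870) (nat_lit 3)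 (nat_lit 4) (nat_lit 4) (nat_lit 5) (nat_lit 4) (nat_lit 4) (nat_lit 385) (nat_lit 335) (nat_lit 300)) (XT.nd (nat_lit 78) (nat_lit 0) (nat_lit 0) (XT.lf (nat_lit 0) (nat_lit 153316566970) (nat_lit 76) (nat_lit 92205883591) (nat_lit 76) (nat_lit 90235240595) (nat_lit 3) (nat_lit 4) (nat_lit 4) (nat_lit 5) (nat_lit 4) (nat_lit 4) (nat_lit 386) (nat_lit 335) (nat_lit 299)) (XT.lf (nat_lit 0) (nat_lit 216110769936) (nat_lit 76) (nat_lit 84592605493) (nat_lit 76) (nat_lit 82620273130) (nat_lit 3) (nat_lit 4) (nat_lit 4) (nat_lit 5) (nat_lit 4) (nat_lit 4) (nat_lit 387) (nat_lit 335) (nat_lit 298)))) (XT.nd (nat_lit 156) (nat_lit 0) (nat_lit 0) (XT.nd (nat_lit 78) (nat_lit 0) (nat_lit 0) (XT.lf (nat_lit 0) (nat_lit 288261501148) (nat_lit 76) (nat_lit 75870600359) (nat_lit 76) (nat_lit 73896798981) (nat_lit 3) (nat_lit 4) (nat_lit 4) (nat_lit 5) (nat_lit 4) (nat_lit 4) (nat_lit 388) (nat_lit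 335) (nat_lit 297)) (XT.lf (nat_lit 0) (nat_lit 371180405346) (nat_lit 76) (nat_lit 65869220262) (nat_lit 76) (nat_lit 63894141480) (nat_lit 3) (nat_lit 4) (nat_lit 4) (nat_lit 5) (nat_lit 4) (nat_lit 4) (nat_lit 389) (nat_lit 335) (nat_lit 296))) (XT.nd (nat_lit 78) (nat_lit 0) (nat_lit 0) (XT.lf (nat_lit 0) (nat_lit 466489808917) (nat_lit 76) (nat_lit 54392786027) (nat_lit 76) (nat_lit 52416596457) (nat_lit 3) (nat_lit 4) (nat_lit 4) (nat_lit 5) (nat_lit 4) (nat_lit 4) (nat_lit 390) (nat_lit 335) (nat_lit 295)) (XT.lf (nat_lit 0) (nat_lit 576054461062) (nat_lit 76) (nat_lit 41216758722) (nat_lit 76) (nat_lit 39239603251) (nat_lit 3) (nat_lit 4) (nat_lit 4) (nat_lit 5) (nat_lit 4) (nat_lit 4) (nat_lit 391) (nat_lit 335) (nat_lit 294)))))) (XT.nd (nat_lit 468) (nat_lit 0) (nat_lit 0) (XT.nd (nat_lit 234) (nat_lit 0) (nat_lit 0) (XT.nd (nat_lit 78) (nat_lit 152) (nat_lit 0) (XT.lf (nat_lit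 0) (nat_lit 702018018017) (nat_lit 76) (nat_lit 26083346508) (nat_lit 76) (nat_lit 24105351123) (nat_lit 3) (nat_lit 4) (nat_lit 4) (nat_lit 5) (nat_lit 4) (nat_lit 4) (nat_lit 392) (nat_lit 335) (nat_lit 293)) (XT.nd (nat_lit 78) (nat_lit 152) (nat_lit 0) (XT.lf (nat_lit 0) (nat_lit 846844984159) (nat_lit 76) (nat_lit 8696460887) (nat_lit 76) (nat_lit 6717735142) (nat_lit 3) (nat_lit 4) (nat_lit 4) (nat_lit 5) (nat_lit 4) (nat_lit 4) (nat_lit 393) (nat_lit 335) (nat_lit 292)) (XT.lf (nat_lit 0) (nat_lit 13718813036) (nat_lit 152) (nat_lit 962777165902) (nat_lit 0) (nat_lit 11997629696) (nat_lit 1) (nat_lit 5) (nat_lit 3) (nat_lit 4) (nat_lit 1) (nat_lit 4) (nat_lit 394) (nat_lit 335) (nat_lit 291)))) (XT.nd (nat_lit 78) (nat_lit 0) (nat_lit 0) (XT.lf (nat_lit 0) (nat_lit 37778031591) (nat_lit 152) (nat_lit 1059594074559) (nat_lit 0) (nat_lit 36056368027) (nat_lit 1) (nat_lit 5) (nat_lit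 3) (nat_lit 4) (nat_lit 1) (nat_lit 4) (nat_lit 395) (nat_lit 335) (nat_lit 290)) (XT.nd (nat_lit 78) (nat_lit 0) (nat_lit 0) (XT.lf (nat_lit 0) (nat_lit 65434592365) (nat_lit 152) (nat_lit 1170958197139) (nat_lit 0) (nat_lit 63712511215) (nat_lit 1) (nat_lit 5) (nat_lit 3) (nat_lit 4) (nat_lit 1) (nat_lit 4) (nat_lit 396) (nat_lit 335) (nat_lit 289)) (XT.lf (nat_lit 0) (nat_lit 97229601981) (nat_lit 152) (nat_lit 1299048396908) (nat_lit 0) (nat_lit 95507157714) (nat_lit 1) (nat_lit 5) (nat_lit 3) (nat_lit 4) (nat_lit 1) (nat_lit 4) (nat_lit 397) (nat_lit 335) (nat_lit 288))))) (XT.nd (nat_lit 234) (nat_lit 0) (nat_lit 0) (XT.nd (nat_lit 78) (nat_lit 0) (nat_lit 0) (XT.lf (nat_lit 0) (nat_lit 133785136715) (nat_lit 152) (nat_lit 1446370786471) (nat_lit 0) (nat_lit 132062376693) (nat_lit 1) (nat_lit 5) (nat_lit 3) (nat_lit 4) (nat_lit 1) (nat_lit 4) (nat_lit 398) (nat_lit 335) (nat_lit 287))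 (XT.nd (nat_lit 78) (nat_lit 0) (nat_lit 0) (XT.lf (nat_lit 0) (nat_lit 175816413551) (nat_lit 152) (nat_lit 1615807760407) (nat_lit 0) (nat_lit 174093378959) (nat_lit 1) (nat_lit 5) (nat_lit 3) (nat_lit 4) (nat_lit 1) (nat_lit 4) (nat_lit 399) (nat_lit 335) (nat_lit 286)) (XT.lf (nat_lit 0) (nat_lit 224145783557) (nat_lit 152) (nat_lit 1810674389944) (nat_lit 0) (nat_lit 222422510209) (nat_lit 1) (nat_lit 5) (nat_lit 3) (nat_lit 4) (nat_lit 1) (nat_lit 4) (nat_lit 400) (nat_lit 335) (nat_lit 285)))) (XT.nd (nat_lit 156) (nat_lit 0) (nat_lit 0) (XT.nd (nat_lit 78) (nat_lit 0) (nat_lit 0) (XT.lf (nat_lit 0) (nat_lit 279718821364) (nat_lit 152) (nat_lit 2034783283053) (nat_lit 0) (nat_lit 277995340402) (nat_lit 1) (nat_lit 5) (nat_lit 3) (nat_lit 4) (nat_lit 1) (nat_lit 4) (nat_lit 401) (nat_lit 335) (nat_lit 284)) (XT.lf (nat_lit 0) (nat_lit 343622825537) (nat_lit 152) (nat_lit 2292519178945)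 (nat_lit 0) (nat_lit 341899164041) (nat_lit 1) (nat_lit 5) (nat_lit 3) (nat_lit 4) (nat_lit 1) (nat_lit 4) (nat_lit 402) (nat_lit 335) (nat_lit 283))) (XT.nd (nat_lit 78) (nat_lit 0) (nat_lit 0) (XT.lf (nat_lit 0) (nat_lit 417108091811) (nat_lit 152) (nat_lit 2588924736454) (nat_lit 0) (nat_lit 415384273329) (nat_lit 1) (nat_lit 5) (nat_lit 3) (nat_lit 4) (nat_lit 1) (nat_lit 4) (nat_lit 403) (nat_lit 335) (nat_lit 282)) (XT.lf (nat_lit 0) (nat_lit 501612375394) (nat_lit 152) (nat_lit 2929799194748) (nat_lit 0) (nat_lit 499888420403) (nat_lit 1) (nat_lit 5) (nat_lit 3) (nat_lit 4) (nat_lit 1) (nat_lit 4) (nat_lit 404) (nat_lit 335) (nat_lit 281))))))))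
noncomputable def xc40 : XT := (XT.nd (nat_lit 1950) (nat_lit 0) (nat_lit 0) (XT.nd (nat_lit 936) (nat_lit 0) (nat_lit 0) (XT.nd (nat_lit 468) (nat_lit 0) (nat_lit 0) (XT.nd (nat_lit 234) (nat_lit 0) (nat_lit 0) (XT.nd (nat_lit 78) (nat_lit 0) (nat_lit 0) (XT.lf (nat_lit 0) (nat_lit 598789020967) (nat_lit 152) (nat_lit 3321811836707) (nat_lit 0) (nat_lit 597064947271) (nat_lit 1) (nat_lit 5) (nat_lit 3) (nat_lit 4) (nat_lit 1) (nat_lit 4) (nat_lit 405) (nat_lit 335) (nat_lit 280)) (XT.nd (nat_lit 78) (nat_lit 0) (nat_lit 0) (XT.lf (nat_lit 0) (nat_lit 710539310724) (nat_lit 152) (nat_lit 3772632474890) (nat_lit 0) (nat_lit 708815133808) (nat_lit 1) (nat_lit 5) (nat_lit 3) (nat_lit 4) (nat_lit 1) (nat_lit 4) (nat_lit 406) (nat_lit 335) (nat_lit 279)) (XT.lf (nat_lit 0) (nat_lit 839049663378) (nat_lit 152) (nat_lit 4291081513090) (nat_lit 0) (nat_lit 837325396705) (nat_lit 1) (nat_lit 5)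 (nat_lit 3) (nat_lit 4) (nat_lit 1) (nat_lit 4) (nat_lit 407) (nat_lit 335) (nat_lit 278)))) (XT.nd (nat_lit 78) (nat_lit 0) (nat_lit 0) (XT.lf (nat_lit 0) (nat_lit 986834411917) (nat_lit 152) (nat_lit 4887302519443) (nat_lit 0) (nat_lit 985110067194) (nat_lit 1) (nat_lit 5) (nat_lit 3) (nat_lit 4) (nat_lit 1) (nat_lit 4) (nat_lit 408) (nat_lit 335) (nat_lit 277)) (XT.nd (nat_lit 78) (nat_lit 0) (nat_lit 0) (XT.lf (nat_lit 0) (nat_lit 1156784997073) (nat_lit 152) (nat_lit 5572960687553) (nat_lit 0) (nat_lit 1155060584480) (nat_lit 1) (nat_lit 5) (nat_lit 3) (nat_lit 4) (nat_lit 1) (nat_lit 4) (nat_lit 409) (nat_lit 335) (nat_lit 276)) (XT.lf (nat_lit 0) (nat_lit 1352226538989) (nat_lit 152) (nat_lit 6361471068535) (nat_lit 0) (nat_lit 1350502067380) (nat_lit 1) (nat_lit 5) (nat_lit 3) (nat_lit 4) (nat_lit 1) (nat_lit 4) (nat_lit 410) (nat_lit 335) (nat_lit 275))))) (XT.nd (nat_lit 234)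 (nat_lit 0) (nat_lit 0) (XT.nd (nat_lit 78) (nat_lit 0) (nat_lit 0) (XT.lf (nat_lit 0) (nat_lit 1576982893921) (nat_lit 152) (nat_lit 7268261039409) (nat_lit 0) (nat_lit 1575258370993) (nat_lit 1) (nat_lit 5) (nat_lit 3) (nat_lit 4) (nat_lit 1) (nat_lit 4) (nat_lit 411) (nat_lit 335) (nat_lit 274)) (XT.nd (nat_lit 78) (nat_lit 0) (nat_lit 0) (XT.lf (nat_lit 0) (nat_lit 1835451468813) (nat_lit 152) (nat_lit 8311072143082) (nat_lit 0) (nat_lit 1833726901259) (nat_lit 1) (nat_lit 5) (nat_lit 3) (nat_lit 4) (nat_lit 1) (nat_lit 4) (nat_lit 412) (nat_lit 335) (nat_lit 273)) (XT.lf (nat_lit 0) (nat_lit 2132689257521) (nat_lit 152) (nat_lit 9510307205495) (nat_lit 0) (nat_lit 2130964651163) (nat_lit 1) (nat_lit 5) (nat_lit 3) (nat_lit 4) (nat_lit 1) (nat_lit 4) (nat_lit 413) (nat_lit 335) (nat_lit 272)))) (XT.nd (nat_lit 78) (nat_lit 0) (nat_lit 0) (XT.lf (nat_lit 0) (nat_lit 2474511781999) (nat_lit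 152) (nat_lit 10889429521350) (nat_lit 0) (nat_lit 2472787141898) (nat_lit 1) (nat_lit 5) (nat_lit 3) (nat_lit 4) (nat_lit 1) (nat_lit 4) (nat_lit 414) (nat_lit 335) (nat_lit 271)) (XT.nd (nat_lit 78) (nat_lit 0) (nat_lit 0) (XT.lf (nat_lit 0) (nat_lit 2867606874248) (nat_lit 152) (nat_lit 12475421918563) (nat_lit 0) (nat_lit 2865882204805) (nat_lit 1) (nat_lit 5) (nat_lit 3) (nat_lit 4) (nat_lit 1) (nat_lit 4) (nat_lit 415) (nat_lit 335) (nat_lit 270)) (XT.lf (nat_lit 0) (nat_lit 3319665525202) (nat_lit 152) (nat_lit 14299314683168) (nat_lit 0) (nat_lit 3317940830244) (nat_lit 1) (nat_lit 5) (nat_lit 3) (nat_lit 4) (nat_lit 1) (nat_lit 4) (nat_lit 416) (nat_lit 335) (nat_lit 269)))))) (XT.nd (nat_lit 468) (nat_lit 0) (nat_lit 0) (XT.nd (nat_lit 234) (nat_lit 0) (nat_lit 0) (XT.nd (nat_lit 78) (nat_lit 0) (nat_lit 0) (XT.lf (nat_lit 0) (nat_lit 3839532360640) (nat_lit 152) (nat_lit 16396792673603)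 (nat_lit 0) (nat_lit 3837807643496) (nat_lit 1) (nat_lit 5) (nat_lit 3) (nat_lit 4) (nat_lit 1) (nat_lit 4) (nat_lit 417) (nat_lit 335) (nat_lit 268)) (XT.nd (nat_lit 78) (nat_lit 0) (nat_lit 0) (XT.lf (nat_lit 0) (nat_lit 4437378688214) (nat_lit 152) (nat_lit 18808893502724) (nat_lit 0) (nat_lit 4435653951778) (nat_lit 1) (nat_lit 5) (nat_lit 3) (nat_lit 4) (nat_lit 1) (nat_lit 4) (nat_lit 418) (nat_lit 335) (nat_lit 267)) (XT.lf (nat_lit 0) (nat_lit 5124901501289) (nat_lit 152) (nat_lit 21582810447622) (nat_lit 0) (nat_lit 5123176748076) (nat_lit 1) (nat_lit 5) (nat_lit 3) (nat_lit 4) (nat_lit 1) (nat_lit 4) (nat_lit 419) (nat_lit 335) (nat_lit 266)))) (XT.nd (nat_lit 78) (nat_lit 0) (nat_lit 0) (XT.lf (nat_lit 0) (nat_lit 5915552333163) (nat_lit 152) (nat_lit 24772815796350) (nat_lit 0) (nat_lit 5913827565362) (nat_lit 1) (nat_lit 5) (nat_lit 3) (nat_lit 4) (nat_lit 1) (nat_lit 4) (nat_lit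 420) (nat_lit 335) (nat_lit 265)) (XT.nd (nat_lit 78) (nat_lit 0) (nat_lit 0) (XT.lf (nat_lit 0) (nat_lit 6824800439244) (nat_lit 152) (nat_lit 28441322697035) (nat_lit 0) (nat_lit 6823075658757) (nat_lit 1) (nat_lit 5) (nat_lit 3) (nat_lit 4) (nat_lit 1) (nat_lit 4) (nat_lit 421) (nat_lit 335) (nat_lit 264)) (XT.lf (nat_lit 0) (nat_lit 7870435456388) (nat_lit 152) (nat_lit 32660106284691) (nat_lit 0) (nat_lit 7868710664871) (nat_lit 1) (nat_lit 5) (nat_lit 3) (nat_lit 4) (nat_lit 1) (nat_lit 4) (nat_lit 422) (nat_lit 335) (nat_lit 263))))) (XT.nd (nat_lit 234) (nat_lit 0) (nat_lit 0) (XT.nd (nat_lit 78) (nat_lit 0) (nat_lit 0) (XT.lf (nat_lit 0) (nat_lit 9072915461019) (nat_lit 152) (nat_lit 37511707977336) (nat_lit 0) (nat_lit 9071190659910) (nat_lit 1) (nat_lit 5) (nat_lit 3) (nat_lit 4) (nat_lit 1) (nat_lit 4) (nat_lit 423) (nat_lit 335) (nat_lit 262)) (XT.nd (nat_lit 78) (nat_lit 0)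 (nat_lit 0) (XT.lf (nat_lit 0) (nat_lit 10455767235836) (nat_lit 152) (nat_lit 43091050416784) (nat_lit 0) (nat_lit 10454042426386) (nat_lit 1) (nat_lit 5) (nat_lit 3) (nat_lit 4) (nat_lit 1) (nat_lit 4) (nat_lit 424) (nat_lit 335) (nat_lit 261)) (XT.lf (nat_lit 0) (nat_lit 12046046576433) (nat_lit 152) (nat_lit 49507294650763) (nat_lit 0) (nat_lit 12044321759730) (nat_lit 1) (nat_lit 5) (nat_lit 3) (nat_lit 4) (nat_lit 1) (nat_lit 4) (nat_lit 425) (nat_lit 335) (nat_lit 260)))) (XT.nd (nat_lit 156) (nat_lit 0) (nat_lit 0) (XT.nd (nat_lit 78) (nat_lit 0) (nat_lit 0) (XT.lf (nat_lit 0) (nat_lit 13874867643822) (nat_lit 152) (nat_lit 56885975892546) (nat_lit 0) (nat_lit 13873142820812) (nat_lit 1) (nat_lit 5) (nat_lit 3) (nat_lit 4) (nat_lit 1) (nat_lit 4) (nat_lit 426) (nat_lit 335) (nat_lit 259)) (XT.lf (nat_lit 0) (nat_lit 15978011719756) (nat_lit 152) (nat_lit 65371459644690) (nat_lit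 0) (nat_lit 15976286891262) (nat_lit 1) (nat_lit 5) (nat_lit 3) (nat_lit 4) (nat_lit 1) (nat_lit 4) (nat_lit 427) (nat_lit 335) (nat_lit 258))) (XT.nd (nat_lit 78) (nat_lit 0) (nat_lit 0) (XT.lf (nat_lit 0) (nat_lit 18396627275285) (nat_lit 152) (nat_lit 75129766241476) (nat_lit 0) (nat_lit 18394902442023) (nat_lit 1) (nat_lit 5) (nat_lit 3) (nat_lit 4) (nat_lit 1) (nat_lit 4) (nat_lit 428) (nat_lit 335) (nat_lit 257)) (XT.lf (nat_lit 0) (nat_lit 21178035049541) (nat_lit 152) (nat_lit 86351819072841) (nat_lit 0) (nat_lit 21176310212132) (nat_lit 1) (nat_lit 5) (nat_lit 3) (nat_lit 4) (nat_lit 1) (nat_lit 4) (nat_lit 429) (nat_lit 335) (nat_lit 256))))))) (XT.nd (nat_lit 47190) (nat_lit 0) (nat_lit 912) (XT.nd (nat_lit 624) (nat_lit 0) (nat_lit 0) (XT.nd (nat_lit 390) (nat_lit 0) (nat_lit 0) (XT.nd (nat_lit 234) (nat_lit 0) (nat_lit 0) (XT.lf (nat_lit 0) (nat_lit 24376653890279) (nat_lit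 152) (nat_lit 99257180042007) (nat_lit 0) (nat_lit 24374929049264) (nat_lit 1) (nat_lit 5) (nat_lit 3) (nat_lit 4) (nat_lit 1) (nat_lit 4) (nat_lit 430) (nat_lit 335) (nat_lit 255)) (XT.nd (nat_lit 78) (nat_lit 0) (nat_lit 0) (XT.lf (nat_lit 0) (nat_lit 37149937874963) (nat_lit 152) (nat_lit 150793127032260) (nat_lit 0) (nat_lit 37148213025715) (nat_lit 1) (nat_lit 5) (nat_lit 3) (nat_lit 4) (nat_lit 1) (nat_lit 4) (nat_lit 433) (nat_lit 335) (nat_lit 252)) (XT.lf (nat_lit 0) (nat_lit 42744341855001) (nat_lit 152) (nat_lit 173364684803725) (nat_lit 0) (nat_lit 42742617003691) (nat_lit 1) (nat_lit 5) (nat_lit 3) (nat_lit 4) (nat_lit 1) (nat_lit 4) (nat_lit 434) (nat_lit 335) (nat_lit 251)))) (XT.nd (nat_lit 78) (nat_lit 0) (nat_lit 0) (XT.lf (nat_lit 0) (nat_lit 49177906382498) (nat_lit 152) (nat_lit 199321976346858) (nat_lit 0) (nat_lit 49176181529396) (nat_lit 1) (nat_lit 5) (nat_lit 3)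 (nat_lit 4) (nat_lit 1) (nat_lit 4) (nat_lit 435) (nat_lit 335) (nat_lit 250)) (XT.nd (nat_lit 78) (nat_lit 0) (nat_lit 0) (XT.lf (nat_lit 0) (nat_lit 56576505546037) (nat_lit 152) (nat_lit 229172861713588) (nat_lit 0) (nat_lit 56574780691375) (nat_lit 1) (nat_lit 5) (nat_lit 3) (nat_lit 4) (nat_lit 1) (nat_lit 4) (nat_lit 436) (nat_lit 335) (nat_lit 249)) (XT.lf (nat_lit 0) (nat_lit 65084894546642) (nat_lit 152) (nat_lit 263501379965438) (nat_lit 0) (nat_lit 65083169690625) (nat_lit 1) (nat_lit 5) (nat_lit 3) (nat_lit 4) (nat_lit 1) (nat_lit 4) (nat_lit 437) (nat_lit 335) (nat_lit 248))))) (XT.nd (nat_lit 46254) (nat_lit 0) (nat_lit 1976) (XT.nd (nat_lit 46098) (nat_lit 0) (nat_lit 2356) (XT.lf (nat_lit 0) (nat_lit 74869541864761) (nat_lit 152) (nat_lit 302979176024728) (nat_lit 0) (nat_lit 74867817007564) (nat_lit 1) (nat_lit 5) (nat_lit 3) (nat_lit 4) (nat_lit 1) (nat_lit 4) (nat_lit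 438) (nat_lit 335) (nat_lit 247)) (XT.nd (nat_lit 78) (nat_lit 152) (nat_lit 0) (XT.lf (nat_lit 0) (nat_lit 1853064581) (nat_lit 152) (nat_lit 1062639500) (nat_lit 152) (nat_lit 1062639500) (nat_lit 34) (nat_lit 4) (nat_lit 36) (nat_lit 5) (nat_lit 36) (nat_lit 4) (nat_lit 348) (nat_lit 336) (nat_lit 336)) (XT.lf (nat_lit 0) (nat_lit 1781312806) (nat_lit 152) (nat_lit 5865640227) (nat_lit 0) (nat_lit 734606631) (nat_lit 32) (nat_lit 5) (nat_lit 34) (nat_lit 4) (nat_lit 32) (nat_lit 4) (nat_lit 349) (nat_lit 336) (nat_lit 335)))) (XT.nd (nat_lit 156) (nat_lit 152) (nat_lit 0) (XT.nd (nat_lit 78) (nat_lit 76) (nat_lit 0) (XT.lf (nat_lit 0) (nat_lit 1103660829) (nat_lit 152) (nat_lit 4861060910) (nat_lit 152) (nat_lit 2904175452) (nat_lit 30) (nat_lit 4) (nat_lit 32) (nat_lit 5) (nat_lit 32) (nat_lit 4) (nat_lit 350) (nat_lit 336) (nat_lit 334)) (XT.lf (nat_lit 0) (nat_lit 1088413429) (nat_lit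 228) (nat_lit 408256829) (nat_lit 76) (nat_lit 7945142268) (nat_lit 29) (nat_lit 5) (nat_lit 32) (nat_lit 5) (nat_lit 30) (nat_lit 4) (nat_lit 351) (nat_lit 336) (nat_lit 333))) (XT.nd (nat_lit 78) (nat_lit 76) (nat_lit 0) (XT.lf (nat_lit 0) (nat_lit 5424745414) (nat_lit 152) (nat_lit 2212542152) (nat_lit 0) (nat_lit 2436421932) (nat_lit 28) (nat_lit 5) (nat_lit 30) (nat_lit 4) (nat_lit 28) (nat_lit 4) (nat_lit 352) (nat_lit 336) (nat_lit 332)) (XT.lf (nat_lit 0) (nat_lit 6469438300) (nat_lit 76) (nat_lit 3921436649) (nat_lit 76) (nat_lit 412715209) (nat_lit 27) (nat_lit 4) (nat_lit 28) (nat_lit 5) (nat_lit 28) (nat_lit 4) (nat_lit 353) (nat_lit 336) (nat_lit 331)))))) (XT.nd (nat_lit 468) (nat_lit 456) (nat_lit 0) (XT.nd (nat_lit 234) (nat_lit 304) (nat_lit 0) (XT.nd (nat_lit 78) (nat_lit 152) (nat_lit 0) (XT.lf (nat_lit 0) (nat_lit 4026388492) (nat_lit 152) (nat_lit 7012456917) (nat_lit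 0) (nat_lit 581830749) (nat_lit 25) (nat_lit 5) (nat_lit 27) (nat_lit 4) (nat_lit 25) (nat_lit 4) (nat_lit 354) (nat_lit 336) (nat_lit 330)) (XT.nd (nat_lit 78) (nat_lit 76) (nat_lit 0) (XT.lf (nat_lit 0) (nat_lit 2155065009) (nat_lit 76) (nat_lit 7083354569) (nat_lit 76) (nat_lit 3296626721) (nat_lit 24) (nat_lit 4) (nat_lit 25) (nat_lit 5) (nat_lit 25) (nat_lit 4) (nat_lit 355) (nat_lit 336) (nat_lit 329)) (XT.lf (nat_lit 0) (nat_lit 1523700449) (nat_lit 152) (nat_lit 808311104) (nat_lit 76) (nat_lit 11240710060) (nat_lit 23) (nat_lit 5) (nat_lit 25) (nat_lit 5) (nat_lit 24) (nat_lit 4) (nat_lit 356) (nat_lit 336) (nat_lit 328)))) (XT.nd (nat_lit 78) (nat_lit 228) (nat_lit 0) (XT.lf (nat_lit 0) (nat_lit 6992867738) (nat_lit 152) (nat_lit 4493832768) (nat_lit 0) (nat_lit 3216348757) (nat_lit 22) (nat_lit 5) (nat_lit 24) (nat_lit 4) (nat_lit 22) (nat_lit 4) (nat_lit 357) (nat_lit 336) (nat_lit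 327)) (XT.nd (nat_lit 78) (nat_lit 152) (nat_lit 0) (XT.lf (nat_lit 0) (nat_lit 6877726737) (nat_lit 76) (nat_lit 6538649193) (nat_lit 76) (nat_lit 2566493344) (nat_lit 21) (nat_lit 4) (nat_lit 22) (nat_lit 5) (nat_lit 22) (nat_lit 4) (nat_lit 358) (nat_lit 336) (nat_lit 326)) (XT.lf (nat_lit 0) (nat_lit 2517090718) (nat_lit 76) (nat_lit 580288622) (nat_lit 152) (nat_lit 14329498068) (nat_lit 19) (nat_lit 5) (nat_lit 20) (nat_lit 5) (nat_lit 21) (nat_lit 4) (nat_lit 359) (nat_lit 336) (nat_lit 325))))) (XT.nd (nat_lit 234) (nat_lit 228) (nat_lit 0) (XT.nd (nat_lit 78) (nat_lit 228) (nat_lit 0) (XT.lf (nat_lit 0) (nat_lit 9807079802) (nat_lit 152) (nat_lit 3116781627) (nat_lit 0) (nat_lit 6076467242) (nat_lit 19) (nat_lit 5) (nat_lit 21) (nat_lit 4) (nat_lit 19) (nat_lit 4) (nat_lit 360) (nat_lit 336) (nat_lit 324)) (XT.nd (nat_lit 78) (nat_lit 152) (nat_lit 0) (XT.lf (nat_lit 0) (nat_lit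 10860926580) (nat_lit 76) (nat_lit 6879398933) (nat_lit 76) (nat_lit 3036930359) (nat_lit 18) (nat_lit 4) (nat_lit 19) (nat_lit 5) (nat_lit 19) (nat_lit 4) (nat_lit 361) (nat_lit 336) (nat_lit 323)) (XT.lf (nat_lit 0) (nat_lit 3783278466) (nat_lit 152) (nat_lit 18639872581) (nat_lit 0) (nat_lit 357422228) (nat_lit 16) (nat_lit 5) (nat_lit 18) (nat_lit 4) (nat_lit 16) (nat_lit 4) (nat_lit 362) (nat_lit 336) (nat_lit 322)))) (XT.nd (nat_lit 156) (nat_lit 152) (nat_lit 0) (XT.nd (nat_lit 78) (nat_lit 76) (nat_lit 0) (XT.lf (nat_lit 0) (nat_lit 11929855826) (nat_lit 152) (nat_lit 4610262819) (nat_lit 0) (nat_lit 8430452443) (nat_lit 16) (nat_lit 5) (nat_lit 18) (nat_lit 4) (nat_lit 16) (nat_lit 4) (nat_lit 363) (nat_lit 336) (nat_lit 321)) (XT.lf (nat_lit 0) (nat_lit 12146470055) (nat_lit 76) (nat_lit 9431981792) (nat_lit 76) (nat_lit 5868624369) (nat_lit 15) (nat_lit 4) (nat_lit 16) (nat_lit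 5) (nat_lit 16) (nat_lit 4) (nat_lit 364) (nat_lit 336) (nat_lit 320))) (XT.nd (nat_lit 78) (nat_lit 0) (nat_lit 0) (XT.lf (nat_lit 0) (nat_lit 1214518180) (nat_lit 76) (nat_lit 1033615685) (nat_lit 152) (nat_lit 28020053472) (nat_lit 13) (nat_lit 5) (nat_lit 14) (nat_lit 5) (nat_lit 15) (nat_lit 4) (nat_lit 365) (nat_lit 336) (nat_lit 319)) (XT.lf (nat_lit 0) (nat_lit 11955887924) (nat_lit 152) (nat_lit 12601612036) (nat_lit 0) (nat_lit 8766906991) (nat_lit 13) (nat_lit 5) (nat_lit 15) (nat_lit 4) (nat_lit 13) (nat_lit 4) (nat_lit 366) (nat_lit 336) (nat_lit 318))))))))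
noncomputable def xc41 : XT := (XT.nd (nat_lit 1950) (nat_lit 152) (nat_lit 0) (XT.nd (nat_lit 936) (nat_lit 228) (nat_lit 0) (XT.nd (nat_lit 468) (nat_lit 228) (nat_lit 0) (XT.nd (nat_lit 234) (nat_lit 76) (nat_lit 0) (XT.nd (nat_lit 78) (nat_lit 152) (nat_lit 0) (XT.lf (nat_lit 0) (nat_lit 6441699701) (nat_lit 76) (nat_lit 16802153300) (nat_lit 76) (nat_lit 13576606438) (nat_lit 12) (nat_lit 4) (nat_lit 13) (nat_lit 5) (nat_lit 13) (nat_lit 4) (nat_lit 367) (nat_lit 336) (nat_lit 317)) (XT.nd (nat_lit 78) (nat_lit 152) (nat_lit 0) (XT.lf (nat_lit 0) (nat_lit 29375157779) (nat_lit 76) (nat_lit 7325855717) (nat_lit 76) (nat_lit 4068512394) (nat_lit 12) (nat_lit 4) (nat_lit 13) (nat_lit 5) (nat_lit 13) (nat_lit 4) (nat_lit 368) (nat_lit 336) (nat_lit 316)) (XT.lf (nat_lit 0) (nat_lit 6708859106) (nat_lit 152) (nat_lit 34638963636) (nat_lit 0) (nat_lit 3852343959) (nat_lit 10) (nat_lit 5)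 (nat_lit 12) (nat_lit 4) (nat_lit 10) (nat_lit 4) (nat_lit 369) (nat_lit 336) (nat_lit 315)))) (XT.nd (nat_lit 78) (nat_lit 76) (nat_lit 0) (XT.lf (nat_lit 0) (nat_lit 19493358145) (nat_lit 152) (nat_lit 14035993448) (nat_lit 0) (nat_lit 16615936310) (nat_lit 10) (nat_lit 5) (nat_lit 12) (nat_lit 4) (nat_lit 10) (nat_lit 4) (nat_lit 370) (nat_lit 336) (nat_lit 314)) (XT.nd (nat_lit 78) (nat_lit 0) (nat_lit 0) (XT.lf (nat_lit 0) (nat_lit 10267447560) (nat_lit 76) (nat_lit 24209091860) (nat_lit 76) (nat_lit 21313490295) (nat_lit 9) (nat_lit 4) (nat_lit 10) (nat_lit 5) (nat_lit 10) (nat_lit 4) (nat_lit 371) (nat_lit 336) (nat_lit 313)) (XT.lf (nat_lit 0) (nat_lit 39503625724) (nat_lit 76) (nat_lit 12799909769) (nat_lit 76) (nat_lit 9888499744) (nat_lit 9) (nat_lit 4) (nat_lit 10) (nat_lit 5) (nat_lit 10) (nat_lit 4) (nat_lit 372) (nat_lit 336) (nat_lit 312))))) (XT.nd (nat_lit 234) (nat_lit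 76) (nat_lit 0) (XT.nd (nat_lit 78) (nat_lit 0) (nat_lit 0) (XT.lf (nat_lit 0) (nat_lit 3000689128) (nat_lit 152) (nat_lit 66070420917) (nat_lit 0) (nat_lit 457074769) (nat_lit 7) (nat_lit 5) (nat_lit 9) (nat_lit 4) (nat_lit 7) (nat_lit 4) (nat_lit 373) (nat_lit 336) (nat_lit 311)) (XT.nd (nat_lit 78) (nat_lit 0) (nat_lit 0) (XT.lf (nat_lit 0) (nat_lit 18538049973) (nat_lit 152) (nat_lit 43112957291) (nat_lit 0) (nat_lit 15984041295) (nat_lit 7) (nat_lit 5) (nat_lit 9) (nat_lit 4) (nat_lit 7) (nat_lit 4) (nat_lit 374) (nat_lit 336) (nat_lit 310)) (XT.lf (nat_lit 0) (nat_lit 36297499840) (nat_lit 152) (nat_lit 16942268428) (nat_lit 0) (nat_lit 33734452624) (nat_lit 7) (nat_lit 5) (nat_lit 9) (nat_lit 4) (nat_lit 7) (nat_lit 4) (nat_lit 375) (nat_lit 336) (nat_lit 309)))) (XT.nd (nat_lit 78) (nat_lit 0) (nat_lit 0) (XT.lf (nat_lit 0) (nat_lit 14219608791) (nat_lit 76) (nat_lit 42995701111)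 (nat_lit 76) (nat_lit 40424794296) (nat_lit 6) (nat_lit 4) (nat_lit 7) (nat_lit 5) (nat_lit 7) (nat_lit 4) (nat_lit 376) (nat_lit 336) (nat_lit 308)) (XT.nd (nat_lit 78) (nat_lit 0) (nat_lit 0) (XT.lf (nat_lit 0) (nat_lit 51768611154) (nat_lit 76) (nat_lit 30297827197) (nat_lit 76) (nat_lit 27720085948) (nat_lit 6) (nat_lit 4) (nat_lit 7) (nat_lit 5) (nat_lit 7) (nat_lit 4) (nat_lit 377) (nat_lit 336) (nat_lit 307)) (XT.lf (nat_lit 0) (nat_lit 94783671365) (nat_lit 76) (nat_lit 15783328439) (nat_lit 76) (nat_lit 13199644205) (nat_lit 6) (nat_lit 4) (nat_lit 7) (nat_lit 5) (nat_lit 7) (nat_lit 4) (nat_lit 378) (nat_lit 336) (nat_lit 306)))))) (XT.nd (nat_lit 468) (nat_lit 0) (nat_lit 0) (XT.nd (nat_lit 234) (nat_lit 76) (nat_lit 0) (XT.nd (nat_lit 78) (nat_lit 0) (nat_lit 0) (XT.lf (nat_lit 0) (nat_lit 3353035998) (nat_lit 152) (nat_lit 135342304390) (nat_lit 0) (nat_lit 1101860303) (nat_lit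 4) (nat_lit 5) (nat_lit 6) (nat_lit 4) (nat_lit 4) (nat_lit 4) (nat_lit 379) (nat_lit 336) (nat_lit 305)) (XT.nd (nat_lit 78) (nat_lit 0) (nat_lit 0) (XT.lf (nat_lit 0) (nat_lit 23304832919) (nat_lit 152) (nat_lit 113443334905) (nat_lit 0) (nat_lit 21049749615) (nat_lit 4) (nat_lit 5) (nat_lit 6) (nat_lit 4) (nat_lit 4) (nat_lit 4) (nat_lit 380) (nat_lit 336) (nat_lit 304)) (XT.lf (nat_lit 0) (nat_lit 46187535879) (nat_lit 152) (nat_lit 88391431351) (nat_lit 0) (nat_lit 43929054654) (nat_lit 4) (nat_lit 5) (nat_lit 6) (nat_lit 4) (nat_lit 4) (nat_lit 4) (nat_lit 381) (nat_lit 336) (nat_lit 303)))) (XT.nd (nat_lit 78) (nat_lit 76) (nat_lit 0) (XT.lf (nat_lit 0) (nat_lit 72448849937) (nat_lit 152) (nat_lit 59696447790) (nat_lit 0) (nat_lit 70187413997) (nat_lit 4) (nat_lit 5) (nat_lit 6) (nat_lit 4) (nat_lit 4) (nat_lit 4) (nat_lit 382) (nat_lit 336) (nat_lit 302)) (XT.nd (nat_lit 78) (nat_lit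 76) (nat_lit 0) (XT.lf (nat_lit 0) (nat_lit 102602583410) (nat_lit 152) (nat_lit 26796960630) (nat_lit 0) (nat_lit 100338578154) (nat_lit 4) (nat_lit 5) (nat_lit 6) (nat_lit 4) (nat_lit 4) (nat_lit 4) (nat_lit 383) (nat_lit 336) (nat_lit 301)) (XT.lf (nat_lit 0) (nat_lit 12020899331) (nat_lit 76) (nat_lit 125715561125) (nat_lit 76) (nat_lit 123449321680) (nat_lit 3) (nat_lit 4) (nat_lit 4) (nat_lit 5) (nat_lit 4) (nat_lit 4) (nat_lit 384) (nat_lit 336) (nat_lit 300))))) (XT.nd (nat_lit 234) (nat_lit 0) (nat_lit 0) (XT.nd (nat_lit 78) (nat_lit 0) (nat_lit 0) (XT.lf (nat_lit 0) (nat_lit 59590259839) (nat_lit 76) (nat_lit 119912110563) (nat_lit 76) (nat_lit 117643928345) (nat_lit 3) (nat_lit 4) (nat_lit 4) (nat_lit 5) (nat_lit 4) (nat_lit 4) (nat_lit 385) (nat_lit 336) (nat_lit 299)) (XT.nd (nat_lit 78) (nat_lit 0) (nat_lit 0) (XT.lf (nat_lit 0) (nat_lit 114223031895) (nat_lit 76) (nat_lit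 113276396795) (nat_lit 76) (nat_lit 111006525210) (nat_lit 3) (nat_lit 4) (nat_lit 4) (nat_lit 5) (nat_lit 4) (nat_lit 4) (nat_lit 386) (nat_lit 336) (nat_lit 298)) (XT.lf (nat_lit 0) (nat_lit 176988117559) (nat_lit 76) (nat_lit 105678590641) (nat_lit 76) (nat_lit 103407250041) (nat_lit 3) (nat_lit 4) (nat_lit 4) (nat_lit 5) (nat_lit 4) (nat_lit 4) (nat_lit 387) (nat_lit 336) (nat_lit 297)))) (XT.nd (nat_lit 156) (nat_lit 0) (nat_lit 0) (XT.nd (nat_lit 78) (nat_lit 0) (nat_lit 0) (XT.lf (nat_lit 0) (nat_lit 249113529378) (nat_lit 76) (nat_lit 96970039371) (nat_lit 76) (nat_lit 94697421366) (nat_lit 3) (nat_lit 4) (nat_lit 4) (nat_lit 5) (nat_lit 4) (nat_lit 4) (nat_lit 388) (nat_lit 336) (nat_lit 296)) (XT.lf (nat_lit 0) (nat_lit 332010416712) (nat_lit 76) (nat_lit 86980358286) (nat_lit 76) (nat_lit 84706629495) (nat_lit 3) (nat_lit 4) (nat_lit 4) (nat_lit 5) (nat_lit 4) (nat_lit 4) (nat_lit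 389) (nat_lit 336) (nat_lit 295))) (XT.nd (nat_lit 78) (nat_lit 0) (nat_lit 0) (XT.lf (nat_lit 0) (nat_lit 427300675185) (nat_lit 76) (nat_lit 75514097105) (nat_lit 76) (nat_lit 73239402412) (nat_lit 3) (nat_lit 4) (nat_lit 4) (nat_lit 5) (nat_lit 4) (nat_lit 4) (nat_lit 390) (nat_lit 336) (nat_lit 294)) (XT.lf (nat_lit 0) (nat_lit 536848679417) (nat_lit 76) (nat_lit 62346915933) (nat_lit 76) (nat_lit 60071381326) (nat_lit 3) (nat_lit 4) (nat_lit 4) (nat_lit 5) (nat_lit 4) (nat_lit 4) (nat_lit 391) (nat_lit 336) (nat_lit 293))))))) (XT.nd (nat_lit 1014) (nat_lit 0) (nat_lit 0) (XT.nd (nat_lit 468) (nat_lit 0) (nat_lit 0) (XT.nd (nat_lit 234) (nat_lit 152) (nat_lit 0) (XT.nd (nat_lit 78) (nat_lit 0) (nat_lit 0) (XT.lf (nat_lit 0) (nat_lit 662797759928) (nat_lit 76) (nat_lit 47221196010) (nat_lit 76) (nat_lit 44944931043) (nat_lit 3) (nat_lit 4) (nat_lit 4) (nat_lit 5) (nat_lit 4) (nat_lit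 4) (nat_lit 392) (nat_lit 336) (nat_lit 292)) (XT.nd (nat_lit 78) (nat_lit 0) (nat_lit 0) (XT.lf (nat_lit 0) (nat_lit 807612137856) (nat_lit 76) (nat_lit 29840999337) (nat_lit 76) (nat_lit 27564099274) (nat_lit 3) (nat_lit 4) (nat_lit 4) (nat_lit 5) (nat_lit 4) (nat_lit 4) (nat_lit 393) (nat_lit 336) (nat_lit 291)) (XT.lf (nat_lit 0) (nat_lit 974125137988) (nat_lit 76) (nat_lit 9866278587) (nat_lit 76) (nat_lit 7588826267) (nat_lit 3) (nat_lit 4) (nat_lit 4) (nat_lit 5) (nat_lit 4) (nat_lit 4) (nat_lit 394) (nat_lit 336) (nat_lit 290)))) (XT.nd (nat_lit 78) (nat_lit 0) (nat_lit 0) (XT.lf (nat_lit 0) (nat_lit 15900897348) (nat_lit 152) (nat_lit 1106928025911) (nat_lit 0) (nat_lit 13920086441) (nat_lit 1) (nat_lit 5) (nat_lit 3) (nat_lit 4) (nat_lit 1) (nat_lit 4) (nat_lit 395) (nat_lit 336) (nat_lit 289)) (XT.nd (nat_lit 78) (nat_lit 0) (nat_lit 0) (XT.lf (nat_lit 0) (nat_lit 43552790553)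 (nat_lit 152) (nat_lit 1218302129329) (nat_lit 0) (nat_lit 41571616527) (nat_lit 1) (nat_lit 5) (nat_lit 3) (nat_lit 4) (nat_lit 1) (nat_lit 4) (nat_lit 396) (nat_lit 336) (nat_lit 288)) (XT.lf (nat_lit 0) (nat_lit 75343741414) (nat_lit 152) (nat_lit 1346401008089) (nat_lit 0) (nat_lit 73362251633) (nat_lit 1) (nat_lit 5) (nat_lit 3) (nat_lit 4) (nat_lit 1) (nat_lit 4) (nat_lit 397) (nat_lit 336) (nat_lit 287))))) (XT.nd (nat_lit 234) (nat_lit 0) (nat_lit 0) (XT.nd (nat_lit 78) (nat_lit 0) (nat_lit 0) (XT.lf (nat_lit 0) (nat_lit 111895746795) (nat_lit 152) (nat_lit 1493730944600) (nat_lit 0) (nat_lit 109913982445) (nat_lit 1) (nat_lit 5) (nat_lit 3) (nat_lit 4) (nat_lit 1) (nat_lit 4) (nat_lit 398) (nat_lit 336) (nat_lit 286)) (XT.nd (nat_lit 78) (nat_lit 0) (nat_lit 0) (XT.lf (nat_lit 0) (nat_lit 153923954629) (nat_lit 152) (nat_lit 1663174481099) (nat_lit 0) (nat_lit 151941951523) (nat_lit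 1) (nat_lit 5) (nat_lit 3) (nat_lit 4) (nat_lit 1) (nat_lit 4) (nat_lit 399) (nat_lit 336) (nat_lit 285)) (XT.lf (nat_lit 0) (nat_lit 202250655937) (nat_lit 152) (nat_lit 1858046817213) (nat_lit 0) (nat_lit 200268445217) (nat_lit 1) (nat_lit 5) (nat_lit 3) (nat_lit 4) (nat_lit 1) (nat_lit 4) (nat_lit 400) (nat_lit 336) (nat_lit 284)))) (XT.nd (nat_lit 156) (nat_lit 0) (nat_lit 0) (XT.nd (nat_lit 78) (nat_lit 0) (nat_lit 0) (XT.lf (nat_lit 0) (nat_lit 257821373137) (nat_lit 152) (nat_lit 2082160672562) (nat_lit 0) (nat_lit 255838981883) (nat_lit 1) (nat_lit 5) (nat_lit 3) (nat_lit 4) (nat_lit 1) (nat_lit 4) (nat_lit 401) (nat_lit 336) (nat_lit 283)) (XT.lf (nat_lit 0) (nat_lit 321723359391) (nat_lit 152) (nat_lit 2339900883447) (nat_lit 0) (nat_lit 319740811151) (nat_lit 1) (nat_lit 5) (nat_lit 3) (nat_lit 4) (nat_lit 1) (nat_lit 4) (nat_lit 402) (nat_lit 336) (nat_lit 282))) (XT.nd (nat_lit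 78) (nat_lit 0) (nat_lit 0) (XT.lf (nat_lit 0) (nat_lit 395206870953) (nat_lit 152) (nat_lit 2636310193122) (nat_lit 0) (nat_lit 393224186203) (nat_lit 1) (nat_lit 5) (nat_lit 3) (nat_lit 4) (nat_lit 1) (nat_lit 4) (nat_lit 403) (nat_lit 336) (nat_lit 281)) (XT.lf (nat_lit 0) (nat_lit 479709628700) (nat_lit 152) (nat_lit 2977187914170) (nat_lit 0) (nat_lit 477726825246) (nat_lit 1) (nat_lit 5) (nat_lit 3) (nat_lit 4) (nat_lit 1) (nat_lit 4) (nat_lit 404) (nat_lit 336) (nat_lit 280)))))) (XT.nd (nat_lit 468) (nat_lit 0) (nat_lit 0) (XT.nd (nat_lit 234) (nat_lit 0) (nat_lit 0) (XT.nd (nat_lit 78) (nat_lit 0) (nat_lit 0) (XT.lf (nat_lit 0) (nat_lit 576884947457) (nat_lit 152) (nat_lit 3369203393306) (nat_lit 0) (nat_lit 574902040783) (nat_lit 1) (nat_lit 5) (nat_lit 3) (nat_lit 4) (nat_lit 1) (nat_lit 4) (nat_lit 405) (nat_lit 336) (nat_lit 279)) (XT.nd (nat_lit 78) (nat_lit 0) (nat_lit 0)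 (XT.lf (nat_lit 0) (nat_lit 688634083463) (nat_lit 152) (nat_lit 3820026498601) (nat_lit 0) (nat_lit 686651087032) (nat_lit 1) (nat_lit 5) (nat_lit 3) (nat_lit 4) (nat_lit 1) (nat_lit 4) (nat_lit 406) (nat_lit 336) (nat_lit 278)) (XT.lf (nat_lit 0) (nat_lit 817143432855) (nat_lit 152) (nat_lit 4338477682114) (nat_lit 0) (nat_lit 815160358374) (nat_lit 1) (nat_lit 5) (nat_lit 3) (nat_lit 4) (nat_lit 1) (nat_lit 4) (nat_lit 407) (nat_lit 336) (nat_lit 277)))) (XT.nd (nat_lit 78) (nat_lit 0) (nat_lit 0) (XT.lf (nat_lit 0) (nat_lit 964927308992) (nat_lit 152) (nat_lit 4934700553957) (nat_lit 0) (nat_lit 962944166642) (nat_lit 1) (nat_lit 5) (nat_lit 3) (nat_lit 4) (nat_lit 1) (nat_lit 4) (nat_lit 408) (nat_lit 336) (nat_lit 276)) (XT.nd (nat_lit 78) (nat_lit 0) (nat_lit 0) (XT.lf (nat_lit 0) (nat_lit 1134877135537) (nat_lit 152) (nat_lit 5620360344233) (nat_lit 0) (nat_lit 1132893934170) (nat_lit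 1) (nat_lit 5) (nat_lit 3) (nat_lit 4) (nat_lit 1) (nat_lit 4) (nat_lit 409) (nat_lit 336) (nat_lit 275)) (XT.lf (nat_lit 0) (nat_lit 1330318017792) (nat_lit 152) (nat_lit 6408872135793) (nat_lit 0) (nat_lit 1328334765106) (nat_lit 1) (nat_lit 5) (nat_lit 3) (nat_lit 4) (nat_lit 1) (nat_lit 4) (nat_lit 410) (nat_lit 336) (nat_lit 274))))) (XT.nd (nat_lit 234) (nat_lit 0) (nat_lit 0) (XT.nd (nat_lit 78) (nat_lit 0) (nat_lit 0) (XT.lf (nat_lit 0) (nat_lit 1555073799105) (nat_lit 152) (nat_lit 7315663333257) (nat_lit 0) (nat_lit 1553090501794) (nat_lit 1) (nat_lit 5) (nat_lit 3) (nat_lit 4) (nat_lit 1) (nat_lit 4) (nat_lit 411) (nat_lit 336) (nat_lit 273)) (XT.nd (nat_lit 78) (nat_lit 0) (nat_lit 0) (XT.lf (nat_lit 0) (nat_lit 1813541875199) (nat_lit 152) (nat_lit 8358475503530) (nat_lit 0) (nat_lit 1811558539083) (nat_lit 1) (nat_lit 5) (nat_lit 3) (nat_lit 4) (nat_lit 1) (nat_lit 4) (nat_lit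 412) (nat_lit 336) (nat_lit 272)) (XT.lf (nat_lit 0) (nat_lit 2110779230169) (nat_lit 152) (nat_lit 9557711493422) (nat_lit 0) (nat_lit 2108795860310) (nat_lit 1) (nat_lit 5) (nat_lit 3) (nat_lit 4) (nat_lit 1) (nat_lit 4) (nat_lit 413) (nat_lit 336) (nat_lit 271)))) (XT.nd (nat_lit 156) (nat_lit 0) (nat_lit 0) (XT.nd (nat_lit 78) (nat_lit 0) (nat_lit 0) (XT.lf (nat_lit 0) (nat_lit 2452601377484) (nat_lit 152) (nat_lit 10936834615779) (nat_lit 0) (nat_lit 2450617978283) (nat_lit 1) (nat_lit 5) (nat_lit 3) (nat_lit 4) (nat_lit 1) (nat_lit 4) (nat_lit 414) (nat_lit 336) (nat_lit 270)) (XT.lf (nat_lit 0) (nat_lit 2845696141764) (nat_lit 152) (nat_lit 12522827714299) (nat_lit 0) (nat_lit 2843712717048) (nat_lit 1) (nat_lit 5) (nat_lit 3) (nat_lit 4) (nat_lit 1) (nat_lit 4) (nat_lit 415) (nat_lit 336) (nat_lit 269))) (XT.nd (nat_lit 78) (nat_lit 0) (nat_lit 0) (XT.lf (nat_lit 0) (nat_lit 3297754507528)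 (nat_lit 152) (nat_lit 14346721088736) (nat_lit 0) (nat_lit 3295771060626) (nat_lit 1) (nat_lit 5) (nat_lit 3) (nat_lit 4) (nat_lit 1) (nat_lit 4) (nat_lit 416) (nat_lit 336) (nat_lit 268)) (XT.lf (nat_lit 0) (nat_lit 3817621094976) (nat_lit 152) (nat_lit 16444199609460) (nat_lit 0) (nat_lit 3815637628781) (nat_lit 1) (nat_lit 5) (nat_lit 3) (nat_lit 4) (nat_lit 1) (nat_lit 4) (nat_lit 417) (nat_lit 336) (nat_lit 267))))))))
noncomputable def xc42 : XT := (XT.nd (nat_lit 48360) (nat_lit 0) (nat_lit 228) (XT.nd (nat_lit 936) (nat_lit 0) (nat_lit 0) (XT.nd (nat_lit 468) (nat_lit 0) (nat_lit 0) (XT.nd (nat_lit 234) (nat_lit 0) (nat_lit 0) (XT.nd (nat_lit 78) (nat_lit 0) (nat_lit 0) (XT.lf (nat_lit 0) (nat_lit 4415467206905) (nat_lit 152) (nat_lit 18856300899701) (nat_lit 0) (nat_lit 4413483723934) (nat_lit 1) (nat_lit 5) (nat_lit 3) (nat_lit 4) (nat_lit 1) (nat_lit 4) (nat_lit 418) (nat_lit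 336) (nat_lit 266)) (XT.nd (nat_lit 78) (nat_lit 0) (nat_lit 0) (XT.lf (nat_lit 0) (nat_lit 5102989832463) (nat_lit 152) (nat_lit 21630218245574) (nat_lit 0) (nat_lit 5101006334904) (nat_lit 1) (nat_lit 5) (nat_lit 3) (nat_lit 4) (nat_lit 1) (nat_lit 4) (nat_lit 419) (nat_lit 336) (nat_lit 265)) (XT.lf (nat_lit 0) (nat_lit 5893640501279) (nat_lit 152) (nat_lit 24820223942975) (nat_lit 0) (nat_lit 5891656991035) (nat_lit 1) (nat_lit 5) (nat_lit 3) (nat_lit 4) (nat_lit 1) (nat_lit 4) (nat_lit 420) (nat_lit 336) (nat_lit 264)))) (XT.nd (nat_lit 78) (nat_lit 0) (nat_lit 0) (XT.lf (nat_lit 0) (nat_lit 6802888465570) (nat_lit 152) (nat_lit 28488731146855) (nat_lit 0) (nat_lit 6800904944294) (nat_lit 1) (nat_lit 5) (nat_lit 3) (nat_lit 4) (nat_lit 1) (nat_lit 4) (nat_lit 421) (nat_lit 336) (nat_lit 263)) (XT.nd (nat_lit 78) (nat_lit 0) (nat_lit 0) (XT.lf (nat_lit 0) (nat_lit 7848523359419) (nat_lit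 152) (nat_lit 32707514998157) (nat_lit 0) (nat_lit 7846539828552) (nat_lit 1) (nat_lit 5) (nat_lit 3) (nat_lit 4) (nat_lit 1) (nat_lit 4) (nat_lit 422) (nat_lit 336) (nat_lit 262)) (XT.lf (nat_lit 0) (nat_lit 9051003256836) (nat_lit 152) (nat_lit 37559116920061) (nat_lit 0) (nat_lit 9049019717629) (nat_lit 1) (nat_lit 5) (nat_lit 3) (nat_lit 4) (nat_lit 1) (nat_lit 4) (nat_lit 423) (nat_lit 336) (nat_lit 261))))) (XT.nd (nat_lit 234) (nat_lit 0) (nat_lit 0) (XT.nd (nat_lit 78) (nat_lit 0) (nat_lit 0) (XT.lf (nat_lit 0) (nat_lit 10433854938424) (nat_lit 152) (nat_lit 43138459558864) (nat_lit 0) (nat_lit 10431871391964) (nat_lit 1) (nat_lit 5) (nat_lit 3) (nat_lit 4) (nat_lit 1) (nat_lit 4) (nat_lit 424) (nat_lit 336) (nat_lit 260)) (XT.nd (nat_lit 78) (nat_lit 0) (nat_lit 0) (XT.lf (nat_lit 0) (nat_lit 12024134197953) (nat_lit 152) (nat_lit 49554703966195) (nat_lit 0) (nat_lit 12022150645185)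 (nat_lit 1) (nat_lit 5) (nat_lit 3) (nat_lit 4) (nat_lit 1) (nat_lit 4) (nat_lit 425) (nat_lit 336) (nat_lit 259)) (XT.lf (nat_lit 0) (nat_lit 13852955194847) (nat_lit 152) (nat_lit 56933385358720) (nat_lit 0) (nat_lit 13850971636595) (nat_lit 1) (nat_lit 5) (nat_lit 3) (nat_lit 4) (nat_lit 1) (nat_lit 4) (nat_lit 426) (nat_lit 336) (nat_lit 258)))) (XT.nd (nat_lit 78) (nat_lit 0) (nat_lit 0) (XT.lf (nat_lit 0) (nat_lit 15956099209481) (nat_lit 152) (nat_lit 65418869241943) (nat_lit 0) (nat_lit 15954115646460) (nat_lit 1) (nat_lit 5) (nat_lit 3) (nat_lit 4) (nat_lit 1) (nat_lit 4) (nat_lit 427) (nat_lit 336) (nat_lit 257)) (XT.nd (nat_lit 78) (nat_lit 0) (nat_lit 0) (XT.lf (nat_lit 0) (nat_lit 18374714711707) (nat_lit 152) (nat_lit 75177175952711) (nat_lit 0) (nat_lit 18372731144539) (nat_lit 1) (nat_lit 5) (nat_lit 3) (nat_lit 4) (nat_lit 1) (nat_lit 4) (nat_lit 428) (nat_lit 336) (nat_lit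 256)) (XT.lf (nat_lit 0) (nat_lit 21156122439611) (nat_lit 152) (nat_lit 86399228883190) (nat_lit 0) (nat_lit 21154138868838) (nat_lit 1) (nat_lit 5) (nat_lit 3) (nat_lit 4) (nat_lit 1) (nat_lit 4) (nat_lit 429) (nat_lit 336) (nat_lit 255)))))) (XT.nd (nat_lit 46878) (nat_lit 0) (nat_lit 1748) (XT.nd (nat_lit 46644) (nat_lit 0) (nat_lit 2356) (XT.nd (nat_lit 390) (nat_lit 0) (nat_lit 0) (XT.lf (nat_lit 0) (nat_lit 24354741240044) (nat_lit 152) (nat_lit 99304589938544) (nat_lit 0) (nat_lit 24352757666135) (nat_lit 1) (nat_lit 5) (nat_lit 3) (nat_lit 4) (nat_lit 1) (nat_lit 4) (nat_lit 430) (nat_lit 336) (nat_lit 254)) (XT.nd (nat_lit 46176) (nat_lit 0) (nat_lit 3040) (XT.lf (nat_lit 0) (nat_lit 49155993597153) (nat_lit 152) (nat_lit 199369386532306) (nat_lit 0) (nat_lit 49154010012733) (nat_lit 1) (nat_lit 5) (nat_lit 3) (nat_lit 4) (nat_lit 1) (nat_lit 4) (nat_lit 435) (nat_lit 336) (nat_lit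 249)) (XT.lf (nat_lit 0) (nat_lit 3138677571) (nat_lit 228) (nat_lit 254080960) (nat_lit 228) (nat_lit 254080960) (nat_lit 41) (nat_lit 4) (nat_lit 44) (nat_lit 5) (nat_lit 44) (nat_lit 4) (nat_lit 346) (nat_lit 337) (nat_lit 337)))) (XT.nd (nat_lit 78) (nat_lit 304) (nat_lit 0) (XT.lf (nat_lit 0) (nat_lit 3112400096) (nat_lit 380) (nat_lit 2762571469) (nat_lit 0) (nat_lit 1728131180) (nat_lit 36) (nat_lit 5) (nat_lit 41) (nat_lit 4) (nat_lit 36) (nat_lit 4) (nat_lit 347) (nat_lit 337) (nat_lit 336)) (XT.nd (nat_lit 78) (nat_lit 152) (nat_lit 0) (XT.lf (nat_lit 0) (nat_lit 3408259112) (nat_lit 152) (nat_lit 3584944536) (nat_lit 152) (nat_lit 996963518) (nat_lit 34) (nat_lit 4) (nat_lit 36) (nat_lit 5) (nat_lit 36) (nat_lit 4) (nat_lit 348) (nat_lit 337) (nat_lit 335)) (XT.lf (nat_lit 0) (nat_lit 1833128322) (nat_lit 76) (nat_lit 710041684) (nat_lit 152) (nat_lit 5904845076) (nat_lit 32)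 (nat_lit 5) (nat_lit 33) (nat_lit 5) (nat_lit 34) (nat_lit 4) (nat_lit 349) (nat_lit 337) (nat_lit 334))))) (XT.nd (nat_lit 234) (nat_lit 304) (nat_lit 0) (XT.nd (nat_lit 78) (nat_lit 304) (nat_lit 0) (XT.lf (nat_lit 0) (nat_lit 6460878311) (nat_lit 152) (nat_lit 5580546) (nat_lit 0) (nat_lit 2508820507) (nat_lit 32) (nat_lit 5) (nat_lit 34) (nat_lit 4) (nat_lit 32) (nat_lit 4) (nat_lit 350) (nat_lit 337) (nat_lit 333)) (XT.nd (nat_lit 78) (nat_lit 76) (nat_lit 0) (XT.lf (nat_lit 0) (nat_lit 1257478768) (nat_lit 228) (nat_lit 1936704751) (nat_lit 76) (nat_lit 6379545704) (nat_lit 29) (nat_lit 5) (nat_lit 32) (nat_lit 5) (nat_lit 30) (nat_lit 4) (nat_lit 351) (nat_lit 337) (nat_lit 332)) (XT.lf (nat_lit 0) (nat_lit 5272986033) (nat_lit 152) (nat_lit 4263252571) (nat_lit 0) (nat_lit 717558418) (nat_lit 28) (nat_lit 5) (nat_lit 30) (nat_lit 4) (nat_lit 28) (nat_lit 4) (nat_lit 352) (nat_lit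 337) (nat_lit 331)))) (XT.nd (nat_lit 156) (nat_lit 76) (nat_lit 0) (XT.nd (nat_lit 78) (nat_lit 152) (nat_lit 0) (XT.lf (nat_lit 0) (nat_lit 3927990398) (nat_lit 76) (nat_lit 6051323075) (nat_lit 76) (nat_lit 1043375496) (nat_lit 27) (nat_lit 4) (nat_lit 28) (nat_lit 5) (nat_lit 28) (nat_lit 4) (nat_lit 353) (nat_lit 337) (nat_lit 330)) (XT.lf (nat_lit 0) (nat_lit 1343523945) (nat_lit 76) (nat_lit 1793670075) (nat_lit 152) (nat_lit 8753731063) (nat_lit 25) (nat_lit 5) (nat_lit 26) (nat_lit 5) (nat_lit 27) (nat_lit 4) (nat_lit 354) (nat_lit 337) (nat_lit 329))) (XT.nd (nat_lit 78) (nat_lit 76) (nat_lit 0) (XT.lf (nat_lit 0) (nat_lit 8038496133) (nat_lit 152) (nat_lit 1769385597) (nat_lit 0) (nat_lit 3044049781) (nat_lit 25) (nat_lit 5) (nat_lit 27) (nat_lit 4) (nat_lit 25) (nat_lit 4) (nat_lit 355) (nat_lit 337) (nat_lit 328)) (XT.lf (nat_lit 0) (nat_lit 8487130988) (nat_lit 76) (nat_lit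 5349471525) (nat_lit 76) (nat_lit 96295414) (nat_lit 24) (nat_lit 4) (nat_lit 25) (nat_lit 5) (nat_lit 25) (nat_lit 4) (nat_lit 356) (nat_lit 337) (nat_lit 327))))))) (XT.nd (nat_lit 1014) (nat_lit 608) (nat_lit 0) (XT.nd (nat_lit 468) (nat_lit 456) (nat_lit 0) (XT.nd (nat_lit 234) (nat_lit 152) (nat_lit 0) (XT.nd (nat_lit 78) (nat_lit 152) (nat_lit 0) (XT.lf (nat_lit 0) (nat_lit 4893276706) (nat_lit 152) (nat_lit 10114129288) (nat_lit 0) (nat_lit 129660612) (nat_lit 22) (nat_lit 5) (nat_lit 24) (nat_lit 4) (nat_lit 22) (nat_lit 4) (nat_lit 357) (nat_lit 337) (nat_lit 326)) (XT.nd (nat_lit 78) (nat_lit 76) (nat_lit 0) (XT.lf (nat_lit 0) (nat_lit 443945098) (nat_lit 76) (nat_lit 10482613025) (nat_lit 76) (nat_lit 5548877914) (nat_lit 21) (nat_lit 4) (nat_lit 22) (nat_lit 5) (nat_lit 22) (nat_lit 4) (nat_lit 358) (nat_lit 337) (nat_lit 325)) (XT.lf (nat_lit 0) (nat_lit 153506111) (nat_lit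 152) (nat_lit 4751626549) (nat_lit 76) (nat_lit 13066897458) (nat_lit 20) (nat_lit 5) (nat_lit 22) (nat_lit 5) (nat_lit 21) (nat_lit 4) (nat_lit 359) (nat_lit 337) (nat_lit 324)))) (XT.nd (nat_lit 78) (nat_lit 76) (nat_lit 0) (XT.lf (nat_lit 0) (nat_lit 6336800064) (nat_lit 152) (nat_lit 11481547234) (nat_lit 0) (nat_lit 1806105189) (nat_lit 19) (nat_lit 5) (nat_lit 21) (nat_lit 4) (nat_lit 19) (nat_lit 4) (nat_lit 360) (nat_lit 337) (nat_lit 323)) (XT.nd (nat_lit 78) (nat_lit 0) (nat_lit 0) (XT.lf (nat_lit 0) (nat_lit 1446261377) (nat_lit 76) (nat_lit 12328677094) (nat_lit 76) (nat_lit 7700716120) (nat_lit 18) (nat_lit 4) (nat_lit 19) (nat_lit 5) (nat_lit 19) (nat_lit 4) (nat_lit 361) (nat_lit 337) (nat_lit 322)) (XT.lf (nat_lit 0) (nat_lit 17169060351) (nat_lit 76) (nat_lit 5545113445) (nat_lit 76) (nat_lit 832573254) (nat_lit 18) (nat_lit 4) (nat_lit 19) (nat_lit 5) (nat_lit 19) (nat_lit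 4) (nat_lit 362) (nat_lit 337) (nat_lit 321))))) (XT.nd (nat_lit 234) (nat_lit 228) (nat_lit 0) (XT.nd (nat_lit 78) (nat_lit 76) (nat_lit 0) (XT.lf (nat_lit 0) (nat_lit 6751127697) (nat_lit 152) (nat_lit 16497031274) (nat_lit 0) (nat_lit 2589312622) (nat_lit 16) (nat_lit 5) (nat_lit 18) (nat_lit 4) (nat_lit 16) (nat_lit 4) (nat_lit 363) (nat_lit 337) (nat_lit 320)) (XT.nd (nat_lit 78) (nat_lit 76) (nat_lit 0) (XT.lf (nat_lit 0) (nat_lit 15806601559) (nat_lit 152) (nat_lit 1007174246) (nat_lit 0) (nat_lit 11589174275) (nat_lit 16) (nat_lit 5) (nat_lit 18) (nat_lit 4) (nat_lit 16) (nat_lit 4) (nat_lit 364) (nat_lit 337) (nat_lit 319)) (XT.lf (nat_lit 0) (nat_lit 18067858194) (nat_lit 76) (nat_lit 8732124665) (nat_lit 76) (nat_lit 4466338940) (nat_lit 15) (nat_lit 4) (nat_lit 16) (nat_lit 5) (nat_lit 16) (nat_lit 4) (nat_lit 365) (nat_lit 337) (nat_lit 318)))) (XT.nd (nat_lit 156) (nat_lit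 76) (nat_lit 0) (XT.nd (nat_lit 78) (nat_lit 0) (nat_lit 0) (XT.lf (nat_lit 0) (nat_lit 4602502420) (nat_lit 152) (nat_lit 29046706503) (nat_lit 0) (nat_lit 856557599) (nat_lit 13) (nat_lit 5) (nat_lit 15) (nat_lit 4) (nat_lit 13) (nat_lit 4) (nat_lit 366) (nat_lit 337) (nat_lit 317)) (XT.lf (nat_lit 0) (nat_lit 15546113086) (nat_lit 152) (nat_lit 10738990160) (nat_lit 0) (nat_lit 11768371804) (nat_lit 13) (nat_lit 5) (nat_lit 15) (nat_lit 4) (nat_lit 13) (nat_lit 4) (nat_lit 367) (nat_lit 337) (nat_lit 316))) (XT.nd (nat_lit 78) (nat_lit 0) (nat_lit 0) (XT.lf (nat_lit 0) (nat_lit 10990233625) (nat_lit 76) (nat_lit 17451003140) (nat_lit 76) (nat_lit 13645612763) (nat_lit 12) (nat_lit 4) (nat_lit 13) (nat_lit 5) (nat_lit 13) (nat_lit 4) (nat_lit 368) (nat_lit 337) (nat_lit 315)) (XT.lf (nat_lit 0) (nat_lit 36896456636) (nat_lit 76) (nat_lit 6797366114) (nat_lit 76) (nat_lit 2967933044) (nat_lit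 12) (nat_lit 4) (nat_lit 13) (nat_lit 5) (nat_lit 13) (nat_lit 4) (nat_lit 369) (nat_lit 337) (nat_lit 314)))))) (XT.nd (nat_lit 468) (nat_lit 228) (nat_lit 0) (XT.nd (nat_lit 234) (nat_lit 152) (nat_lit 0) (XT.nd (nat_lit 78) (nat_lit 76) (nat_lit 0) (XT.lf (nat_lit 0) (nat_lit 9267268712) (nat_lit 152) (nat_lit 36560925594) (nat_lit 0) (nat_lit 5919147183) (nat_lit 10) (nat_lit 5) (nat_lit 12) (nat_lit 4) (nat_lit 10) (nat_lit 4) (nat_lit 370) (nat_lit 337) (nat_lit 313)) (XT.nd (nat_lit 78) (nat_lit 76) (nat_lit 0) (XT.lf (nat_lit 0) (nat_lit 23766997293) (nat_lit 152) (nat_lit 13294538041) (nat_lit 0) (nat_lit 20403067304) (nat_lit 10) (nat_lit 5) (nat_lit 12) (nat_lit 4) (nat_lit 10) (nat_lit 4) (nat_lit 371) (nat_lit 337) (nat_lit 312)) (XT.lf (nat_lit 0) (nat_lit 14525016644) (nat_lit 76) (nat_lit 26409123603) (nat_lit 76) (nat_lit 23031447126) (nat_lit 9) (nat_lit 4) (nat_lit 10)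 (nat_lit 5) (nat_lit 10) (nat_lit 4) (nat_lit 372) (nat_lit 337) (nat_lit 311)))) (XT.nd (nat_lit 78) (nat_lit 152) (nat_lit 0) (XT.lf (nat_lit 0) (nat_lit 47792171278) (nat_lit 76) (nat_lit 13475259681) (nat_lit 76) (nat_lit 10085629737) (nat_lit 9) (nat_lit 4) (nat_lit 10) (nat_lit 5) (nat_lit 10) (nat_lit 4) (nat_lit 373) (nat_lit 337) (nat_lit 310)) (XT.nd (nat_lit 78) (nat_lit 0) (nat_lit 0) (XT.lf (nat_lit 0) (nat_lit 4619222585) (nat_lit 152) (nat_lit 73500226745) (nat_lit 0) (nat_lit 1662679747) (nat_lit 7) (nat_lit 5) (nat_lit 9) (nat_lit 4) (nat_lit 7) (nat_lit 4) (nat_lit 374) (nat_lit 337) (nat_lit 309)) (XT.lf (nat_lit 0) (nat_lit 22334783633) (nat_lit 152) (nat_lit 47422720616) (nat_lit 0) (nat_lit 19370381196) (nat_lit 7) (nat_lit 5) (nat_lit 9) (nat_lit 4) (nat_lit 7) (nat_lit 4) (nat_lit 375) (nat_lit 337) (nat_lit 308))))) (XT.nd (nat_lit 234) (nat_lit 152) (nat_lit 0)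 (XT.nd (nat_lit 78) (nat_lit 76) (nat_lit 0) (XT.lf (nat_lit 0) (nat_lit 42625625828) (nat_lit 152) (nat_lit 17607799764) (nat_lit 0) (nat_lit 39654388958) (nat_lit 7) (nat_lit 5) (nat_lit 9) (nat_lit 4) (nat_lit 7) (nat_lit 4) (nat_lit 376) (nat_lit 337) (nat_lit 307)) (XT.nd (nat_lit 78) (nat_lit 0) (nat_lit 0) (XT.lf (nat_lit 0) (nat_lit 18143094997) (nat_lit 76) (nat_lit 48496915785) (nat_lit 76) (nat_lit 45519735929) (nat_lit 6) (nat_lit 4) (nat_lit 7) (nat_lit 5) (nat_lit 7) (nat_lit 4) (nat_lit 377) (nat_lit 337) (nat_lit 306)) (XT.lf (nat_lit 0) (nat_lit 61090898381) (nat_lit 76) (nat_lit 34018031283) (nat_lit 76) (nat_lit 31035683613) (nat_lit 6) (nat_lit 4) (nat_lit 7) (nat_lit 5) (nat_lit 7) (nat_lit 4) (nat_lit 378) (nat_lit 337) (nat_lit 305)))) (XT.nd (nat_lit 156) (nat_lit 0) (nat_lit 0) (XT.nd (nat_lit 78) (nat_lit 152) (nat_lit 0) (XT.lf (nat_lit 0) (nat_lit 110355131247)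 (nat_lit 76) (nat_lit 17433897276) (nat_lit 76) (nat_lit 14447055856) (nat_lit 6) (nat_lit 4) (nat_lit 7) (nat_lit 5) (nat_lit 7) (nat_lit 4) (nat_lit 379) (nat_lit 337) (nat_lit 304)) (XT.lf (nat_lit 0) (nat_lit 4522103026) (nat_lit 152) (nat_lit 154223302208) (nat_lit 0) (nat_lit 1921451695) (nat_lit 4) (nat_lit 5) (nat_lit 6) (nat_lit 4) (nat_lit 4) (nat_lit 4) (nat_lit 380) (nat_lit 337) (nat_lit 303))) (XT.nd (nat_lit 78) (nat_lit 0) (nat_lit 0) (XT.lf (nat_lit 0) (nat_lit 27379785360) (nat_lit 152) (nat_lit 129224750061) (nat_lit 0) (nat_lit 24776179315) (nat_lit 4) (nat_lit 5) (nat_lit 6) (nat_lit 4) (nat_lit 4) (nat_lit 4) (nat_lit 381) (nat_lit 337) (nat_lit 302)) (XT.lf (nat_lit 0) (nat_lit 53619342351) (nat_lit 152) (nat_lit 100576159028) (nat_lit 0) (nat_lit 51013166989) (nat_lit 4) (nat_lit 5) (nat_lit 6) (nat_lit 4) (nat_lit 4) (nat_lit 4) (nat_lit 382) (nat_lit 337) (nat_lit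 301))))))))
noncomputable def xc43 : XT := (XT.nd (nat_lit 2028) (nat_lit 0) (nat_lit 0) (XT.nd (nat_lit 1014) (nat_lit 152) (nat_lit 0) (XT.nd (nat_lit 468) (nat_lit 0) (nat_lit 0) (XT.nd (nat_lit 234) (nat_lit 0) (nat_lit 0) (XT.nd (nat_lit 78) (nat_lit 76) (nat_lit 0) (XT.lf (nat_lit 0) (nat_lit 83754156636) (nat_lit 152) (nat_lit 67717013197) (nat_lit 0) (nat_lit 81145747086) (nat_lit 4) (nat_lit 5) (nat_lit 6) (nat_lit 4) (nat_lit 4) (nat_lit 4) (nat_lit 383) (nat_lit 337) (nat_lit 300)) (XT.nd (nat_lit 78) (nat_lit 76) (nat_lit 0) (XT.lf (nat_lit 0) (nat_lit 118373822408) (nat_lit 152) (nat_lit 30004416236) (nat_lit 0) (nat_lit 115763470085) (nat_lit 4) (nat_lit 5) (nat_lit 6) (nat_lit 4) (nat_lit 4) (nat_lit 4) (nat_lit 384) (nat_lit 337) (nat_lit 299)) (XT.lf (nat_lit 0) (nat_lit 14599209606) (nat_lit 76) (nat_lit 144160993483) (nat_lit 76) (nat_lit 141548951793) (nat_lit 3) (nat_lit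 4) (nat_lit 4) (nat_lit 5) (nat_lit 4) (nat_lit 4) (nat_lit 385) (nat_lit 337) (nat_lit 298)))) (XT.nd (nat_lit 78) (nat_lit 0) (nat_lit 0) (XT.lf (nat_lit 0) (nat_lit 69202864359) (nat_lit 76) (nat_lit 137540751659) (nat_lit 76) (nat_lit 134927240954) (nat_lit 3) (nat_lit 4) (nat_lit 4) (nat_lit 5) (nat_lit 4) (nat_lit 4) (nat_lit 386) (nat_lit 337) (nat_lit 297)) (XT.nd (nat_lit 78) (nat_lit 0) (nat_lit 0) (XT.lf (nat_lit 0) (nat_lit 131942630630) (nat_lit 76) (nat_lit 129956399369) (nat_lit 76) (nat_lit 127341611259) (nat_lit 3) (nat_lit 4) (nat_lit 4) (nat_lit 5) (nat_lit 4) (nat_lit 4) (nat_lit 387) (nat_lit 337) (nat_lit 296)) (XT.lf (nat_lit 0) (nat_lit 204046025585) (nat_lit 76) (nat_lit 121259547111) (nat_lit 76) (nat_lit 118643648214) (nat_lit 3) (nat_lit 4) (nat_lit 4) (nat_lit 5) (nat_lit 4) (nat_lit 4) (nat_lit 388) (nat_lit 337) (nat_lit 295))))) (XT.nd (nat_lit 234) (nat_lit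 0) (nat_lit 0) (XT.nd (nat_lit 78) (nat_lit 0) (nat_lit 0) (XT.lf (nat_lit 0) (nat_lit 286923767821) (nat_lit 76) (nat_lit 111280039080) (nat_lit 76) (nat_lit 108663174282) (nat_lit 3) (nat_lit 4) (nat_lit 4) (nat_lit 5) (nat_lit 4) (nat_lit 4) (nat_lit 389) (nat_lit 337) (nat_lit 294)) (XT.nd (nat_lit 78) (nat_lit 0) (nat_lit 0) (XT.lf (nat_lit 0) (nat_lit 382197378381) (nat_lit 76) (nat_lit 99822624032) (nat_lit 76) (nat_lit 97204919319) (nat_lit 3) (nat_lit 4) (nat_lit 4) (nat_lit 5) (nat_lit 4) (nat_lit 4) (nat_lit 390) (nat_lit 337) (nat_lit 293)) (XT.lf (nat_lit 0) (nat_lit 491730906169) (nat_lit 76) (nat_lit 86663135151) (nat_lit 76) (nat_lit 84044700078) (nat_lit 3) (nat_lit 4) (nat_lit 4) (nat_lit 5) (nat_lit 4) (nat_lit 4) (nat_lit 391) (nat_lit 337) (nat_lit 292)))) (XT.nd (nat_lit 156) (nat_lit 0) (nat_lit 0) (XT.nd (nat_lit 78) (nat_lit 0) (nat_lit 0) (XT.lf (nat_lit 0) (nat_lit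 617667398466) (nat_lit 76) (nat_lit 71544104176) (nat_lit 76) (nat_lit 68925034007) (nat_lit 3) (nat_lit 4) (nat_lit 4) (nat_lit 5) (nat_lit 4) (nat_lit 4) (nat_lit 392) (nat_lit 337) (nat_lit 291)) (XT.lf (nat_lit 0) (nat_lit 762470830122) (nat_lit 76) (nat_lit 54169723979) (nat_lit 76) (nat_lit 51550101554) (nat_lit 3) (nat_lit 4) (nat_lit 4) (nat_lit 5) (nat_lit 4) (nat_lit 4) (nat_lit 393) (nat_lit 337) (nat_lit 290))) (XT.nd (nat_lit 78) (nat_lit 0) (nat_lit 0) (XT.lf (nat_lit 0) (nat_lit 928974311756) (nat_lit 76) (nat_lit 34200061035) (nat_lit 76) (nat_lit 31579958386) (nat_lit 3) (nat_lit 4) (nat_lit 4) (nat_lit 5) (nat_lit 4) (nat_lit 4) (nat_lit 394) (nat_lit 337) (nat_lit 289)) (XT.lf (nat_lit 0) (nat_lit 1120435520184) (nat_lit 76) (nat_lit 11244404548) (nat_lit 76) (nat_lit 8623884313) (nat_lit 3) (nat_lit 4) (nat_lit 4) (nat_lit 5) (nat_lit 4) (nat_lit 4) (nat_lit 395) (nat_lit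 337) (nat_lit 288)))))) (XT.nd (nat_lit 468) (nat_lit 0) (nat_lit 0) (XT.nd (nat_lit 234) (nat_lit 0) (nat_lit 0) (XT.nd (nat_lit 78) (nat_lit 0) (nat_lit 0) (XT.lf (nat_lit 0) (nat_lit 18379992145) (nat_lit 152) (nat_lit 1272766311177) (nat_lit 0) (nat_lit 16100963143) (nat_lit 1) (nat_lit 5) (nat_lit 3) (nat_lit 4) (nat_lit 1) (nat_lit 4) (nat_lit 396) (nat_lit 337) (nat_lit 287)) (XT.nd (nat_lit 78) (nat_lit 0) (nat_lit 0) (XT.lf (nat_lit 0) (nat_lit 50167413653) (nat_lit 152) (nat_lit 1400872736885) (nat_lit 0) (nat_lit 47888110081) (nat_lit 1) (nat_lit 5) (nat_lit 3) (nat_lit 4) (nat_lit 1) (nat_lit 4) (nat_lit 397) (nat_lit 337) (nat_lit 286)) (XT.lf (nat_lit 0) (nat_lit 86716350032) (nat_lit 152) (nat_lit 1548209235959) (nat_lit 0) (nat_lit 84436807704) (nat_lit 1) (nat_lit 5) (nat_lit 3) (nat_lit 4) (nat_lit 1) (nat_lit 4) (nat_lit 398) (nat_lit 337) (nat_lit 285)))) (XT.nd (nat_lit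 78) (nat_lit 0) (nat_lit 0) (XT.lf (nat_lit 0) (nat_lit 128741889168) (nat_lit 152) (nat_lit 1717658479035) (nat_lit 0) (nat_lit 126462139226) (nat_lit 1) (nat_lit 5) (nat_lit 3) (nat_lit 4) (nat_lit 1) (nat_lit 4) (nat_lit 399) (nat_lit 337) (nat_lit 284)) (XT.nd (nat_lit 78) (nat_lit 0) (nat_lit 0) (XT.lf (nat_lit 0) (nat_lit 177066269869) (nat_lit 152) (nat_lit 1912535777390) (nat_lit 0) (nat_lit 174786339393) (nat_lit 1) (nat_lit 5) (nat_lit 3) (nat_lit 4) (nat_lit 1) (nat_lit 4) (nat_lit 400) (nat_lit 337) (nat_lit 283)) (XT.lf (nat_lit 0) (nat_lit 232634969150) (nat_lit 152) (nat_lit 2136653947731) (nat_lit 0) (nat_lit 230354881688) (nat_lit 1) (nat_lit 5) (nat_lit 3) (nat_lit 4) (nat_lit 1) (nat_lit 4) (nat_lit 401) (nat_lit 337) (nat_lit 282))))) (XT.nd (nat_lit 234) (nat_lit 0) (nat_lit 0) (XT.nd (nat_lit 78) (nat_lit 0) (nat_lit 0) (XT.lf (nat_lit 0) (nat_lit 296535200692) (nat_lit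 152) (nat_lit 2394397910783) (nat_lit 0) (nat_lit 294254976721) (nat_lit 1) (nat_lit 5) (nat_lit 3) (nat_lit 4) (nat_lit 1) (nat_lit 4) (nat_lit 402) (nat_lit 337) (nat_lit 281)) (XT.nd (nat_lit 78) (nat_lit 0) (nat_lit 0) (XT.lf (nat_lit 0) (nat_lit 370017186417) (nat_lit 152) (nat_lit 2690810483212) (nat_lit 0) (nat_lit 367736843742) (nat_lit 1) (nat_lit 5) (nat_lit 3) (nat_lit 4) (nat_lit 1) (nat_lit 4) (nat_lit 403) (nat_lit 337) (nat_lit 280)) (XT.lf (nat_lit 0) (nat_lit 454518617350) (nat_lit 152) (nat_lit 3031691041437) (nat_lit 0) (nat_lit 452238171454) (nat_lit 1) (nat_lit 5) (nat_lit 3) (nat_lit 4) (nat_lit 1) (nat_lit 4) (nat_lit 404) (nat_lit 337) (nat_lit 279)))) (XT.nd (nat_lit 156) (nat_lit 0) (nat_lit 0) (XT.nd (nat_lit 78) (nat_lit 0) (nat_lit 0) (XT.lf (nat_lit 0) (nat_lit 551692782356) (nat_lit 152) (nat_lit 3423708987684) (nat_lit 0) (nat_lit 549412246703) (nat_lit 1)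 (nat_lit 5) (nat_lit 3) (nat_lit 4) (nat_lit 1) (nat_lit 4) (nat_lit 405) (nat_lit 337) (nat_lit 278)) (XT.lf (nat_lit 0) (nat_lit 663440915099) (nat_lit 152) (nat_lit 3874534238292) (nat_lit 0) (nat_lit 661160301396) (nat_lit 1) (nat_lit 5) (nat_lit 3) (nat_lit 4) (nat_lit 1) (nat_lit 4) (nat_lit 406) (nat_lit 337) (nat_lit 277))) (XT.nd (nat_lit 78) (nat_lit 0) (nat_lit 0) (XT.lf (nat_lit 0) (nat_lit 791949392090) (nat_lit 152) (nat_lit 4392987287295) (nat_lit 0) (nat_lit 789668710517) (nat_lit 1) (nat_lit 5) (nat_lit 3) (nat_lit 4) (nat_lit 1) (nat_lit 4) (nat_lit 407) (nat_lit 337) (nat_lit 276)) (XT.lf (nat_lit 0) (nat_lit 939732509616) (nat_lit 152) (nat_lit 4989211781304) (nat_lit 0) (nat_lit 937451769027) (nat_lit 1) (nat_lit 5) (nat_lit 3) (nat_lit 4) (nat_lit 1) (nat_lit 4) (nat_lit 408) (nat_lit 337) (nat_lit 275))))))) (XT.nd (nat_lit 1014) (nat_lit 0) (nat_lit 0) (XT.nd (nat_lit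 468) (nat_lit 0) (nat_lit 0) (XT.nd (nat_lit 234) (nat_lit 0) (nat_lit 0) (XT.nd (nat_lit 78) (nat_lit 0) (nat_lit 0) (XT.lf (nat_lit 0) (nat_lit 1109681676500) (nat_lit 152) (nat_lit 5674872982158) (nat_lit 0) (nat_lit 1107400884591) (nat_lit 1) (nat_lit 5) (nat_lit 3) (nat_lit 4) (nat_lit 1) (nat_lit 4) (nat_lit 409) (nat_lit 337) (nat_lit 274)) (XT.nd (nat_lit 78) (nat_lit 0) (nat_lit 0) (XT.lf (nat_lit 0) (nat_lit 1305121985136) (nat_lit 152) (nat_lit 6463386000309) (nat_lit 0) (nat_lit 1302841148602) (nat_lit 1) (nat_lit 5) (nat_lit 3) (nat_lit 4) (nat_lit 1) (nat_lit 4) (nat_lit 410) (nat_lit 337) (nat_lit 273)) (XT.lf (nat_lit 0) (nat_lit 1529877267651) (nat_lit 152) (nat_lit 7370178264372) (nat_lit 0) (nat_lit 1527596392313) (nat_lit 1) (nat_lit 5) (nat_lit 3) (nat_lit 4) (nat_lit 1) (nat_lit 4) (nat_lit 411) (nat_lit 337) (nat_lit 272)))) (XT.nd (nat_lit 78) (nat_lit 0) (nat_lit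 0) (XT.lf (nat_lit 0) (nat_lit 1788344910006) (nat_lit 152) (nat_lit 8412991362123) (nat_lit 0) (nat_lit 1786064000925) (nat_lit 1) (nat_lit 5) (nat_lit 3) (nat_lit 4) (nat_lit 1) (nat_lit 4) (nat_lit 412) (nat_lit 337) (nat_lit 271)) (XT.nd (nat_lit 78) (nat_lit 0) (nat_lit 0) (XT.lf (nat_lit 0) (nat_lit 2085581887813) (nat_lit 152) (nat_lit 9612228158518) (nat_lit 0) (nat_lit 2083300949390) (nat_lit 1) (nat_lit 5) (nat_lit 3) (nat_lit 4) (nat_lit 1) (nat_lit 4) (nat_lit 413) (nat_lit 337) (nat_lit 270)) (XT.lf (nat_lit 0) (nat_lit 2427403707159) (nat_lit 152) (nat_lit 10991351982182) (nat_lit 0) (nat_lit 2425122743222) (nat_lit 1) (nat_lit 5) (nat_lit 3) (nat_lit 4) (nat_lit 1) (nat_lit 4) (nat_lit 414) (nat_lit 337) (nat_lit 269))))) (XT.nd (nat_lit 234) (nat_lit 0) (nat_lit 0) (XT.nd (nat_lit 78) (nat_lit 0) (nat_lit 0) (XT.lf (nat_lit 0) (nat_lit 2820498186250) (nat_lit 152) (nat_lit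 12577345690534) (nat_lit 0) (nat_lit 2818217200125) (nat_lit 1) (nat_lit 5) (nat_lit 3) (nat_lit 4) (nat_lit 1) (nat_lit 4) (nat_lit 415) (nat_lit 337) (nat_lit 268)) (XT.nd (nat_lit 78) (nat_lit 0) (nat_lit 0) (XT.lf (nat_lit 0) (nat_lit 3272556304023) (nat_lit 152) (nat_lit 14401239595260) (nat_lit 0) (nat_lit 3270275298606) (nat_lit 1) (nat_lit 5) (nat_lit 3) (nat_lit 4) (nat_lit 1) (nat_lit 4) (nat_lit 416) (nat_lit 337) (nat_lit 267)) (XT.lf (nat_lit 0) (nat_lit 3792422675826) (nat_lit 152) (nat_lit 16498718577104) (nat_lit 0) (nat_lit 3790141653633) (nat_lit 1) (nat_lit 5) (nat_lit 3) (nat_lit 4) (nat_lit 1) (nat_lit 4) (nat_lit 417) (nat_lit 337) (nat_lit 266)))) (XT.nd (nat_lit 156) (nat_lit 0) (nat_lit 0) (XT.nd (nat_lit 78) (nat_lit 0) (nat_lit 0) (XT.lf (nat_lit 0) (nat_lit 4390268600239) (nat_lit 152) (nat_lit 18910820268320) (nat_lit 0) (nat_lit 4387987563457) (nat_lit 1) (nat_lit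 5) (nat_lit 3) (nat_lit 4) (nat_lit 1) (nat_lit 4) (nat_lit 418) (nat_lit 337) (nat_lit 265)) (XT.lf (nat_lit 0) (nat_lit 5077791062738) (nat_lit 152) (nat_lit 21684737962866) (nat_lit 0) (nat_lit 5075510013272) (nat_lit 1) (nat_lit 5) (nat_lit 3) (nat_lit 4) (nat_lit 1) (nat_lit 4) (nat_lit 419) (nat_lit 337) (nat_lit 264))) (XT.nd (nat_lit 78) (nat_lit 0) (nat_lit 0) (XT.lf (nat_lit 0) (nat_lit 5868441589764) (nat_lit 152) (nat_lit 24874743963462) (nat_lit 0) (nat_lit 5866160529267) (nat_lit 1) (nat_lit 5) (nat_lit 3) (nat_lit 4) (nat_lit 1) (nat_lit 4) (nat_lit 420) (nat_lit 337) (nat_lit 263)) (XT.lf (nat_lit 0) (nat_lit 6777689430760) (nat_lit 152) (nat_lit 28543251430989) (nat_lit 0) (nat_lit 6775408360671) (nat_lit 1) (nat_lit 5) (nat_lit 3) (nat_lit 4) (nat_lit 1) (nat_lit 4) (nat_lit 421) (nat_lit 337) (nat_lit 262)))))) (XT.nd (nat_lit 468) (nat_lit 0) (nat_lit 0) (XT.nd (nat_lit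 234) (nat_lit 0) (nat_lit 0) (XT.nd (nat_lit 78) (nat_lit 0) (nat_lit 0) (XT.lf (nat_lit 0) (nat_lit 7823324217395) (nat_lit 152) (nat_lit 32762035511550) (nat_lit 0) (nat_lit 7821043138966) (nat_lit 1) (nat_lit 5) (nat_lit 3) (nat_lit 4) (nat_lit 1) (nat_lit 4) (nat_lit 422) (nat_lit 337) (nat_lit 261)) (XT.nd (nat_lit 78) (nat_lit 0) (nat_lit 0) (XT.lf (nat_lit 0) (nat_lit 9025804021584) (nat_lit 152) (nat_lit 37613637632809) (nat_lit 0) (nat_lit 9023522935901) (nat_lit 1) (nat_lit 5) (nat_lit 3) (nat_lit 4) (nat_lit 1) (nat_lit 4) (nat_lit 423) (nat_lit 337) (nat_lit 260)) (XT.lf (nat_lit 0) (nat_lit 10408655622103) (nat_lit 152) (nat_lit 43192980444964) (nat_lit 0) (nat_lit 10406374530114) (nat_lit 1) (nat_lit 5) (nat_lit 3) (nat_lit 4) (nat_lit 1) (nat_lit 4) (nat_lit 424) (nat_lit 337) (nat_lit 259)))) (XT.nd (nat_lit 78) (nat_lit 0) (nat_lit 0) (XT.lf (nat_lit 0) (nat_lit 11998934811137)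 (nat_lit 152) (nat_lit 49609225003036) (nat_lit 0) (nat_lit 11996653713663) (nat_lit 1) (nat_lit 5) (nat_lit 3) (nat_lit 4) (nat_lit 1) (nat_lit 4) (nat_lit 425) (nat_lit 337) (nat_lit 258)) (XT.nd (nat_lit 78) (nat_lit 0) (nat_lit 0) (XT.lf (nat_lit 0) (nat_lit 13827755746731) (nat_lit 152) (nat_lit 56987906526640) (nat_lit 0) (nat_lit 13825474644489) (nat_lit 1) (nat_lit 5) (nat_lit 3) (nat_lit 4) (nat_lit 1) (nat_lit 4) (nat_lit 426) (nat_lit 337) (nat_lit 257)) (XT.lf (nat_lit 0) (nat_lit 15930899708062) (nat_lit 152) (nat_lit 65473390523845) (nat_lit 0) (nat_lit 15928618601672) (nat_lit 1) (nat_lit 5) (nat_lit 3) (nat_lit 4) (nat_lit 1) (nat_lit 4) (nat_lit 427) (nat_lit 337) (nat_lit 256))))) (XT.nd (nat_lit 46644) (nat_lit 0) (nat_lit 2508) (XT.nd (nat_lit 78) (nat_lit 0) (nat_lit 0) (XT.lf (nat_lit 0) (nat_lit 18349515163936) (nat_lit 152) (nat_lit 75231697333728) (nat_lit 0) (nat_lit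 18347234053941) (nat_lit 1) (nat_lit 5) (nat_lit 3) (nat_lit 4) (nat_lit 1) (nat_lit 4) (nat_lit 428) (nat_lit 337) (nat_lit 255)) (XT.nd (nat_lit 46488) (nat_lit 0) (nat_lit 3268) (XT.lf (nat_lit 0) (nat_lit 21130922851535) (nat_lit 152) (nat_lit 86453750350394) (nat_lit 0) (nat_lit 21128641738404) (nat_lit 1) (nat_lit 5) (nat_lit 3) (nat_lit 4) (nat_lit 1) (nat_lit 4) (nat_lit 429) (nat_lit 337) (nat_lit 254)) (XT.lf (nat_lit 0) (nat_lit 671937791) (nat_lit 228) (nat_lit 2061097338) (nat_lit 0) (nat_lit 671937791) (nat_lit 44) (nat_lit 5) (nat_lit 47) (nat_lit 4) (nat_lit 44) (nat_lit 4) (nat_lit 344) (nat_lit 338) (nat_lit 338)))) (XT.nd (nat_lit 156) (nat_lit 456) (nat_lit 0) (XT.nd (nat_lit 78) (nat_lit 76) (nat_lit 0) (XT.lf (nat_lit 0) (nat_lit 622504618) (nat_lit 228) (nat_lit 4120292991) (nat_lit 228) (nat_lit 2289597349) (nat_lit 41) (nat_lit 4) (nat_lit 44) (nat_lit 5) (nat_lit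 44) (nat_lit 4) (nat_lit 345) (nat_lit 338) (nat_lit 337)) (XT.lf (nat_lit 0) (nat_lit 976167776) (nat_lit 304) (nat_lit 1323844175) (nat_lit 76) (nat_lit 5019871602) (nat_lit 40) (nat_lit 5) (nat_lit 44) (nat_lit 5) (nat_lit 41) (nat_lit 4) (nat_lit 346) (nat_lit 338) (nat_lit 336))) (XT.nd (nat_lit 78) (nat_lit 152) (nat_lit 0) (XT.lf (nat_lit 0) (nat_lit 4252509924) (nat_lit 380) (nat_lit 3345977406) (nat_lit 0) (nat_lit 72619653) (nat_lit 36) (nat_lit 5) (nat_lit 41) (nat_lit 4) (nat_lit 36) (nat_lit 4) (nat_lit 347) (nat_lit 338) (nat_lit 335)) (XT.lf (nat_lit 0) (nat_lit 2508821069) (nat_lit 152) (nat_lit 5404518797) (nat_lit 152) (nat_lit 177922352) (nat_lit 34) (nat_lit 4) (nat_lit 36) (nat_lit 5) (nat_lit 36) (nat_lit 4) (nat_lit 348) (nat_lit 338) (nat_lit 334))))))))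
noncomputable def xc44 : XT := (XT.nd (nat_lit 1950) (nat_lit 608) (nat_lit 0) (XT.nd (nat_lit 936) (nat_lit 836) (nat_lit 0) (XT.nd (nat_lit 468) (nat_lit 456) (nat_lit 0) (XT.nd (nat_lit 234) (nat_lit 228) (nat_lit 0) (XT.nd (nat_lit 78) (nat_lit 228) (nat_lit 0) (XT.lf (nat_lit 0) (nat_lit 431350234) (nat_lit 76) (nat_lit 2623592073) (nat_lit 152) (nat_lit 5524305099) (nat_lit 32) (nat_lit 5) (nat_lit 33) (nat_lit 5) (nat_lit 34) (nat_lit 4) (nat_lit 349) (nat_lit 338) (nat_lit 333)) (XT.nd (nat_lit 78) (nat_lit 228) (nat_lit 0) (XT.lf (nat_lit 0) (nat_lit 6727676246) (nat_lit 152) (nat_lit 1712520688) (nat_lit 0) (nat_lit 703123225) (nat_lit 32) (nat_lit 5) (nat_lit 34) (nat_lit 4) (nat_lit 32) (nat_lit 4) (nat_lit 350) (nat_lit 338) (nat_lit 332)) (XT.lf (nat_lit 0) (nat_lit 1104645430) (nat_lit 228) (nat_lit 4248022996) (nat_lit 76) (nat_lit 4424955076) (nat_lit 29) (nat_lit 5) (nat_lit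 32) (nat_lit 5) (nat_lit 30) (nat_lit 4) (nat_lit 351) (nat_lit 338) (nat_lit 331)))) (XT.nd (nat_lit 78) (nat_lit 152) (nat_lit 0) (XT.lf (nat_lit 0) (nat_lit 3245070367) (nat_lit 76) (nat_lit 1586780329) (nat_lit 152) (nat_lit 5669126877) (nat_lit 28) (nat_lit 5) (nat_lit 29) (nat_lit 5) (nat_lit 30) (nat_lit 4) (nat_lit 352) (nat_lit 338) (nat_lit 330)) (XT.nd (nat_lit 78) (nat_lit 76) (nat_lit 0) (XT.lf (nat_lit 0) (nat_lit 462539777) (nat_lit 76) (nat_lit 8732030897) (nat_lit 76) (nat_lit 2126875596) (nat_lit 27) (nat_lit 4) (nat_lit 28) (nat_lit 5) (nat_lit 28) (nat_lit 4) (nat_lit 353) (nat_lit 338) (nat_lit 329)) (XT.lf (nat_lit 0) (nat_lit 1962531151) (nat_lit 152) (nat_lit 2727883431) (nat_lit 76) (nat_lit 7534168071) (nat_lit 26) (nat_lit 5) (nat_lit 28) (nat_lit 5) (nat_lit 27) (nat_lit 4) (nat_lit 354) (nat_lit 338) (nat_lit 328))))) (XT.nd (nat_lit 234) (nat_lit 228) (nat_lit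 0) (XT.nd (nat_lit 78) (nat_lit 152) (nat_lit 0) (XT.lf (nat_lit 0) (nat_lit 6485968409) (nat_lit 152) (nat_lit 6570237703) (nat_lit 0) (nat_lit 186086123) (nat_lit 25) (nat_lit 5) (nat_lit 27) (nat_lit 4) (nat_lit 25) (nat_lit 4) (nat_lit 355) (nat_lit 338) (nat_lit 327)) (XT.nd (nat_lit 78) (nat_lit 76) (nat_lit 0) (XT.lf (nat_lit 0) (nat_lit 2991400643) (nat_lit 76) (nat_lit 8953787993) (nat_lit 76) (nat_lit 2428923309) (nat_lit 24) (nat_lit 4) (nat_lit 25) (nat_lit 5) (nat_lit 25) (nat_lit 4) (nat_lit 356) (nat_lit 338) (nat_lit 326)) (XT.lf (nat_lit 0) (nat_lit 2444212787) (nat_lit 152) (nat_lit 1465444059) (nat_lit 76) (nat_lit 11731742958) (nat_lit 23) (nat_lit 5) (nat_lit 25) (nat_lit 5) (nat_lit 24) (nat_lit 4) (nat_lit 357) (nat_lit 338) (nat_lit 325)))) (XT.nd (nat_lit 78) (nat_lit 152) (nat_lit 0) (XT.lf (nat_lit 0) (nat_lit 8119770303) (nat_lit 152) (nat_lit 6785744578) (nat_lit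 0) (nat_lit 2127926331) (nat_lit 22) (nat_lit 5) (nat_lit 24) (nat_lit 4) (nat_lit 22) (nat_lit 4) (nat_lit 358) (nat_lit 338) (nat_lit 324)) (XT.nd (nat_lit 78) (nat_lit 76) (nat_lit 0) (XT.lf (nat_lit 0) (nat_lit 5135790780) (nat_lit 76) (nat_lit 9788666085) (nat_lit 76) (nat_lit 3668187696) (nat_lit 21) (nat_lit 4) (nat_lit 22) (nat_lit 5) (nat_lit 22) (nat_lit 4) (nat_lit 359) (nat_lit 338) (nat_lit 323)) (XT.lf (nat_lit 0) (nat_lit 2325653710) (nat_lit 152) (nat_lit 1232178926) (nat_lit 76) (nat_lit 16787429872) (nat_lit 20) (nat_lit 5) (nat_lit 22) (nat_lit 5) (nat_lit 21) (nat_lit 4) (nat_lit 360) (nat_lit 338) (nat_lit 322)))))) (XT.nd (nat_lit 468) (nat_lit 456) (nat_lit 0) (XT.nd (nat_lit 234) (nat_lit 152) (nat_lit 0) (XT.nd (nat_lit 78) (nat_lit 152) (nat_lit 0) (XT.lf (nat_lit 0) (nat_lit 9406372333) (nat_lit 152) (nat_lit 8941341007) (nat_lit 0) (nat_lit 3902371896) (nat_lit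 19) (nat_lit 5) (nat_lit 21) (nat_lit 4) (nat_lit 19) (nat_lit 4) (nat_lit 361) (nat_lit 338) (nat_lit 321)) (XT.nd (nat_lit 78) (nat_lit 76) (nat_lit 0) (XT.lf (nat_lit 0) (nat_lit 5731891700) (nat_lit 76) (nat_lit 12120417503) (nat_lit 76) (nat_lit 6542869921) (nat_lit 18) (nat_lit 4) (nat_lit 19) (nat_lit 5) (nat_lit 19) (nat_lit 4) (nat_lit 362) (nat_lit 338) (nat_lit 320)) (XT.lf (nat_lit 0) (nat_lit 959987783) (nat_lit 152) (nat_lit 3577527886) (nat_lit 76) (nat_lit 22272242716) (nat_lit 17) (nat_lit 5) (nat_lit 19) (nat_lit 5) (nat_lit 18) (nat_lit 4) (nat_lit 363) (nat_lit 338) (nat_lit 319)))) (XT.nd (nat_lit 78) (nat_lit 76) (nat_lit 0) (XT.lf (nat_lit 0) (nat_lit 9578811946) (nat_lit 152) (nat_lit 15237126839) (nat_lit 0) (nat_lit 4624799921) (nat_lit 16) (nat_lit 5) (nat_lit 18) (nat_lit 4) (nat_lit 16) (nat_lit 4) (nat_lit 364) (nat_lit 338) (nat_lit 318)) (XT.nd (nat_lit 78)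 (nat_lit 0) (nat_lit 0) (XT.lf (nat_lit 0) (nat_lit 2293267948) (nat_lit 76) (nat_lit 17557557174) (nat_lit 76) (nat_lit 12561494329) (nat_lit 15) (nat_lit 4) (nat_lit 16) (nat_lit 5) (nat_lit 16) (nat_lit 4) (nat_lit 365) (nat_lit 338) (nat_lit 317)) (XT.lf (nat_lit 0) (nat_lit 23877785605) (nat_lit 76) (nat_lit 8442960836) (nat_lit 76) (nat_lit 3410332062) (nat_lit 15) (nat_lit 4) (nat_lit 16) (nat_lit 5) (nat_lit 16) (nat_lit 4) (nat_lit 366) (nat_lit 338) (nat_lit 316))))) (XT.nd (nat_lit 234) (nat_lit 228) (nat_lit 0) (XT.nd (nat_lit 78) (nat_lit 76) (nat_lit 0) (XT.lf (nat_lit 0) (nat_lit 6855349064) (nat_lit 152) (nat_lit 30140352756) (nat_lit 0) (nat_lit 2451501034) (nat_lit 13) (nat_lit 5) (nat_lit 15) (nat_lit 4) (nat_lit 13) (nat_lit 4) (nat_lit 367) (nat_lit 338) (nat_lit 315)) (XT.nd (nat_lit 78) (nat_lit 76) (nat_lit 0) (XT.lf (nat_lit 0) (nat_lit 19236700728) (nat_lit 152)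 (nat_lit 9512134577) (nat_lit 0) (nat_lit 14808810005) (nat_lit 13) (nat_lit 5) (nat_lit 15) (nat_lit 4) (nat_lit 13) (nat_lit 4) (nat_lit 368) (nat_lit 338) (nat_lit 314)) (XT.lf (nat_lit 0) (nat_lit 15347486225) (nat_lit 76) (nat_lit 18653551037) (nat_lit 76) (nat_lit 14204753626) (nat_lit 12) (nat_lit 4) (nat_lit 13) (nat_lit 5) (nat_lit 13) (nat_lit 4) (nat_lit 369) (nat_lit 338) (nat_lit 313)))) (XT.nd (nat_lit 156) (nat_lit 76) (nat_lit 0) (XT.nd (nat_lit 78) (nat_lit 152) (nat_lit 0) (XT.lf (nat_lit 0) (nat_lit 44786331702) (nat_lit 76) (nat_lit 6586447053) (nat_lit 76) (nat_lit 2119469913) (nat_lit 12) (nat_lit 4) (nat_lit 13) (nat_lit 5) (nat_lit 13) (nat_lit 4) (nat_lit 370) (nat_lit 338) (nat_lit 312)) (XT.lf (nat_lit 0) (nat_lit 11830955042) (nat_lit 152) (nat_lit 39569538848) (nat_lit 0) (nat_lit 7932880606) (nat_lit 10) (nat_lit 5) (nat_lit 12) (nat_lit 4) (nat_lit 10) (nat_lit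 4) (nat_lit 371) (nat_lit 338) (nat_lit 311))) (XT.nd (nat_lit 78) (nat_lit 76) (nat_lit 0) (XT.lf (nat_lit 0) (nat_lit 28352565168) (nat_lit 152) (nat_lit 13136087803) (nat_lit 0) (nat_lit 24442537265) (nat_lit 10) (nat_lit 5) (nat_lit 12) (nat_lit 4) (nat_lit 10) (nat_lit 4) (nat_lit 372) (nat_lit 338) (nat_lit 310)) (XT.lf (nat_lit 0) (nat_lit 18758553223) (nat_lit 76) (nat_lit 29288199488) (nat_lit 76) (nat_lit 25367777266) (nat_lit 9) (nat_lit 4) (nat_lit 10) (nat_lit 5) (nat_lit 10) (nat_lit 4) (nat_lit 373) (nat_lit 338) (nat_lit 309))))))) (XT.nd (nat_lit 1014) (nat_lit 152) (nat_lit 0) (XT.nd (nat_lit 468) (nat_lit 228) (nat_lit 0) (XT.nd (nat_lit 234) (nat_lit 76) (nat_lit 0) (XT.nd (nat_lit 78) (nat_lit 152) (nat_lit 0) (XT.lf (nat_lit 0) (nat_lit 56747765738) (nat_lit 76) (nat_lit 14555424585) (nat_lit 76) (nat_lit 10625963825) (nat_lit 9) (nat_lit 4) (nat_lit 10) (nat_lit 5)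 (nat_lit 10) (nat_lit 4) (nat_lit 374) (nat_lit 338) (nat_lit 308)) (XT.nd (nat_lit 78) (nat_lit 0) (nat_lit 0) (XT.lf (nat_lit 0) (nat_lit 6195606984) (nat_lit 152) (nat_lit 82649451828) (nat_lit 0) (nat_lit 2771850150) (nat_lit 7) (nat_lit 5) (nat_lit 9) (nat_lit 4) (nat_lit 7) (nat_lit 4) (nat_lit 375) (nat_lit 338) (nat_lit 307)) (XT.lf (nat_lit 0) (nat_lit 26453262927) (nat_lit 152) (nat_lit 52904990509) (nat_lit 0) (nat_lit 23023563107) (nat_lit 7) (nat_lit 5) (nat_lit 9) (nat_lit 4) (nat_lit 7) (nat_lit 4) (nat_lit 376) (nat_lit 338) (nat_lit 306)))) (XT.nd (nat_lit 78) (nat_lit 76) (nat_lit 0) (XT.lf (nat_lit 0) (nat_lit 49687523397) (nat_lit 152) (nat_lit 18830588685) (nat_lit 0) (nat_lit 46252655763) (nat_lit 7) (nat_lit 5) (nat_lit 9) (nat_lit 4) (nat_lit 7) (nat_lit 4) (nat_lit 377) (nat_lit 338) (nat_lit 305)) (XT.nd (nat_lit 78) (nat_lit 0) (nat_lit 0) (XT.lf (nat_lit 0) (nat_lit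 22218468424) (nat_lit 76) (nat_lit 55054522724) (nat_lit 76) (nat_lit 51615161339) (nat_lit 6) (nat_lit 4) (nat_lit 7) (nat_lit 5) (nat_lit 7) (nat_lit 4) (nat_lit 378) (nat_lit 338) (nat_lit 304)) (XT.lf (nat_lit 0) (nat_lit 71431845466) (nat_lit 76) (nat_lit 38497318211) (nat_lit 76) (nat_lit 35054049216) (nat_lit 6) (nat_lit 4) (nat_lit 7) (nat_lit 5) (nat_lit 7) (nat_lit 4) (nat_lit 379) (nat_lit 338) (nat_lit 303))))) (XT.nd (nat_lit 234) (nat_lit 76) (nat_lit 0) (XT.nd (nat_lit 78) (nat_lit 152) (nat_lit 0) (XT.lf (nat_lit 0) (nat_lit 127932150785) (nat_lit 76) (nat_lit 19506879464) (nat_lit 76) (nat_lit 16060212548) (nat_lit 6) (nat_lit 4) (nat_lit 7) (nat_lit 5) (nat_lit 7) (nat_lit 4) (nat_lit 380) (nat_lit 338) (nat_lit 302)) (XT.nd (nat_lit 78) (nat_lit 0) (nat_lit 0) (XT.lf (nat_lit 0) (nat_lit 5704094569) (nat_lit 152) (nat_lit 176282810513) (nat_lit 0) (nat_lit 2704423587)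 (nat_lit 4) (nat_lit 5) (nat_lit 6) (nat_lit 4) (nat_lit 4) (nat_lit 4) (nat_lit 381) (nat_lit 338) (nat_lit 301)) (XT.lf (nat_lit 0) (nat_lit 31924732372) (nat_lit 152) (nat_lit 147674560809) (nat_lit 0) (nat_lit 28922827201) (nat_lit 4) (nat_lit 5) (nat_lit 6) (nat_lit 4) (nat_lit 4) (nat_lit 4) (nat_lit 382) (nat_lit 338) (nat_lit 300)))) (XT.nd (nat_lit 156) (nat_lit 76) (nat_lit 0) (XT.nd (nat_lit 78) (nat_lit 0) (nat_lit 0) (XT.lf (nat_lit 0) (nat_lit 62043095189) (nat_lit 152) (nat_lit 114850494394) (nat_lit 0) (nat_lit 59039247245) (nat_lit 4) (nat_lit 5) (nat_lit 6) (nat_lit 4) (nat_lit 4) (nat_lit 4) (nat_lit 383) (nat_lit 338) (nat_lit 299)) (XT.lf (nat_lit 0) (nat_lit 96648455336) (nat_lit 152) (nat_lit 77168401273) (nat_lit 0) (nat_lit 93642918025) (nat_lit 4) (nat_lit 5) (nat_lit 6) (nat_lit 4) (nat_lit 4) (nat_lit 4) (nat_lit 384) (nat_lit 338) (nat_lit 298))) (XT.nd (nat_lit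 78) (nat_lit 76) (nat_lit 0) (XT.lf (nat_lit 0) (nat_lit 136417874208) (nat_lit 152) (nat_lit 33891023104) (nat_lit 0) (nat_lit 133410867881) (nat_lit 4) (nat_lit 5) (nat_lit 6) (nat_lit 4) (nat_lit 4) (nat_lit 4) (nat_lit 385) (nat_lit 338) (nat_lit 297)) (XT.lf (nat_lit 0) (nat_lit 17375234998) (nat_lit 76) (nat_lit 165473685560) (nat_lit 76) (nat_lit 162465401828) (nat_lit 3) (nat_lit 4) (nat_lit 4) (nat_lit 5) (nat_lit 4) (nat_lit 4) (nat_lit 386) (nat_lit 338) (nat_lit 296)))))) (XT.nd (nat_lit 468) (nat_lit 152) (nat_lit 0) (XT.nd (nat_lit 234) (nat_lit 0) (nat_lit 0) (XT.nd (nat_lit 78) (nat_lit 0) (nat_lit 0) (XT.lf (nat_lit 0) (nat_lit 80092984405) (nat_lit 76) (nat_lit 157901032281) (nat_lit 76) (nat_lit 154891637764) (nat_lit 3) (nat_lit 4) (nat_lit 4) (nat_lit 5) (nat_lit 4) (nat_lit 4) (nat_lit 387) (nat_lit 338) (nat_lit 295)) (XT.nd (nat_lit 78) (nat_lit 0) (nat_lit 0) (XT.lf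 (nat_lit 0) (nat_lit 152177234261) (nat_lit 76) (nat_lit 149214353077) (nat_lit 76) (nat_lit 146203992658) (nat_lit 3) (nat_lit 4) (nat_lit 4) (nat_lit 5) (nat_lit 4) (nat_lit 4) (nat_lit 388) (nat_lit 338) (nat_lit 294)) (XT.lf (nat_lit 0) (nat_lit 235038328585) (nat_lit 76) (nat_lit 139243691180) (nat_lit 76) (nat_lit 136232490846) (nat_lit 3) (nat_lit 4) (nat_lit 4) (nat_lit 5) (nat_lit 4) (nat_lit 4) (nat_lit 389) (nat_lit 338) (nat_lit 293)))) (XT.nd (nat_lit 78) (nat_lit 0) (nat_lit 0) (XT.lf (nat_lit 0) (nat_lit 330297462700) (nat_lit 76) (nat_lit 127793968422) (nat_lit 76) (nat_lit 124782037729) (nat_lit 3) (nat_lit 4) (nat_lit 4) (nat_lit 5) (nat_lit 4) (nat_lit 4) (nat_lit 390) (nat_lit 338) (nat_lit 292)) (XT.nd (nat_lit 78) (nat_lit 0) (nat_lit 0) (XT.lf (nat_lit 0) (nat_lit 439818402275) (nat_lit 76) (nat_lit 114641168489) (nat_lit 76) (nat_lit 111628602700) (nat_lit 3) (nat_lit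 4) (nat_lit 4) (nat_lit 5) (nat_lit 4) (nat_lit 4) (nat_lit 391) (nat_lit 338) (nat_lit 291)) (XT.lf (nat_lit 0) (nat_lit 565743948299) (nat_lit 76) (nat_lit 99527953990) (nat_lit 76) (nat_lit 96514835944) (nat_lit 3) (nat_lit 4) (nat_lit 4) (nat_lit 5) (nat_lit 4) (nat_lit 4) (nat_lit 392) (nat_lit 338) (nat_lit 290))))) (XT.nd (nat_lit 234) (nat_lit 152) (nat_lit 0) (XT.nd (nat_lit 78) (nat_lit 0) (nat_lit 0) (XT.lf (nat_lit 0) (nat_lit 710537861458) (nat_lit 76) (nat_lit 82158631600) (nat_lit 76) (nat_lit 79145033330) (nat_lit 3) (nat_lit 4) (nat_lit 4) (nat_lit 5) (nat_lit 4) (nat_lit 4) (nat_lit 393) (nat_lit 338) (nat_lit 289)) (XT.nd (nat_lit 78) (nat_lit 0) (nat_lit 0) (XT.lf (nat_lit 0) (nat_lit 877033066138) (nat_lit 76) (nat_lit 62193366748) (nat_lit 76) (nat_lit 59179350892) (nat_lit 3) (nat_lit 4) (nat_lit 4) (nat_lit 5) (nat_lit 4) (nat_lit 4) (nat_lit 394) (nat_lit 338) (nat_lit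 288)) (XT.lf (nat_lit 0) (nat_lit 1068487077213) (nat_lit 76) (nat_lit 39241534688) (nat_lit 76) (nat_lit 36227155714) (nat_lit 3) (nat_lit 4) (nat_lit 4) (nat_lit 5) (nat_lit 4) (nat_lit 4) (nat_lit 395) (nat_lit 338) (nat_lit 287)))) (XT.nd (nat_lit 156) (nat_lit 0) (nat_lit 0) (XT.nd (nat_lit 78) (nat_lit 152) (nat_lit 0) (XT.lf (nat_lit 0) (nat_lit 1288645734032) (nat_lit 76) (nat_lit 12854077836) (nat_lit 76) (nat_lit 9839383107) (nat_lit 3) (nat_lit 4) (nat_lit 4) (nat_lit 5) (nat_lit 4) (nat_lit 4) (nat_lit 396) (nat_lit 338) (nat_lit 286)) (XT.lf (nat_lit 0) (nat_lit 21208038373) (nat_lit 152) (nat_lit 1463529334511) (nat_lit 0) (nat_lit 18586325940) (nat_lit 1) (nat_lit 5) (nat_lit 3) (nat_lit 4) (nat_lit 1) (nat_lit 4) (nat_lit 397) (nat_lit 338) (nat_lit 285))) (XT.nd (nat_lit 78) (nat_lit 0) (nat_lit 0) (XT.lf (nat_lit 0) (nat_lit 57754306054) (nat_lit 152) (nat_lit 1610871540163)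 (nat_lit 0) (nat_lit 55132386007) (nat_lit 1) (nat_lit 5) (nat_lit 3) (nat_lit 4) (nat_lit 1) (nat_lit 4) (nat_lit 398) (nat_lit 338) (nat_lit 284)) (XT.lf (nat_lit 0) (nat_lit 99777524583) (nat_lit 152) (nat_lit 1780325745480) (nat_lit 0) (nat_lit 97155424002) (nat_lit 1) (nat_lit 5) (nat_lit 3) (nat_lit 4) (nat_lit 1) (nat_lit 4) (nat_lit 399) (nat_lit 338) (nat_lit 283))))))))
noncomputable def xc45 : XT := (XT.nd (nat_lit 1950) (nat_lit 0) (nat_lit 0) (XT.nd (nat_lit 936) (nat_lit 0) (nat_lit 0) (XT.nd (nat_lit 468) (nat_lit 0) (nat_lit 0) (XT.nd (nat_lit 234) (nat_lit 0) (nat_lit 0) (XT.nd (nat_lit 78) (nat_lit 0) (nat_lit 0) (XT.lf (nat_lit 0) (nat_lit 148099887365) (nat_lit 152) (nat_lit 1975207358827) (nat_lit 0) (nat_lit 145477629798) (nat_lit 1) (nat_lit 5) (nat_lit 3) (nat_lit 4) (nat_lit 1) (nat_lit 4) (nat_lit 400) (nat_lit 338) (nat_lit 282)) (XT.nd (nat_lit 78) (nat_lit 0)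 (nat_lit 0) (XT.lf (nat_lit 0) (nat_lit 203666831934) (nat_lit 152) (nat_lit 2199329281335) (nat_lit 0) (nat_lit 201044437858) (nat_lit 1) (nat_lit 5) (nat_lit 3) (nat_lit 4) (nat_lit 1) (nat_lit 4) (nat_lit 401) (nat_lit 338) (nat_lit 281)) (XT.lf (nat_lit 0) (nat_lit 267565537640) (nat_lit 152) (nat_lit 2457076507140) (nat_lit 0) (nat_lit 264943024859) (nat_lit 1) (nat_lit 5) (nat_lit 3) (nat_lit 4) (nat_lit 1) (nat_lit 4) (nat_lit 402) (nat_lit 338) (nat_lit 280)))) (XT.nd (nat_lit 78) (nat_lit 0) (nat_lit 0) (XT.lf (nat_lit 0) (nat_lit 341046196550) (nat_lit 152) (nat_lit 2753491916746) (nat_lit 0) (nat_lit 338423580549) (nat_lit 1) (nat_lit 5) (nat_lit 3) (nat_lit 4) (nat_lit 1) (nat_lit 4) (nat_lit 403) (nat_lit 338) (nat_lit 279)) (XT.nd (nat_lit 78) (nat_lit 0) (nat_lit 0) (XT.lf (nat_lit 0) (nat_lit 425546473731) (nat_lit 152) (nat_lit 3094374942082) (nat_lit 0) (nat_lit 422923767973)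 (nat_lit 1) (nat_lit 5) (nat_lit 3) (nat_lit 4) (nat_lit 1) (nat_lit 4) (nat_lit 404) (nat_lit 338) (nat_lit 278)) (XT.lf (nat_lit 0) (nat_lit 522719635475) (nat_lit 152) (nat_lit 3486395033643) (nat_lit 0) (nat_lit 520096851667) (nat_lit 1) (nat_lit 5) (nat_lit 3) (nat_lit 4) (nat_lit 1) (nat_lit 4) (nat_lit 405) (nat_lit 338) (nat_lit 277))))) (XT.nd (nat_lit 234) (nat_lit 0) (nat_lit 0) (XT.nd (nat_lit 78) (nat_lit 0) (nat_lit 0) (XT.lf (nat_lit 0) (nat_lit 634466895816) (nat_lit 152) (nat_lit 3937222149741) (nat_lit 0) (nat_lit 631844044139) (nat_lit 1) (nat_lit 5) (nat_lit 3) (nat_lit 4) (nat_lit 1) (nat_lit 4) (nat_lit 406) (nat_lit 338) (nat_lit 276)) (XT.nd (nat_lit 78) (nat_lit 0) (nat_lit 0) (XT.lf (nat_lit 0) (nat_lit 762974614196) (nat_lit 152) (nat_lit 4455676820909) (nat_lit 0) (nat_lit 760351703502) (nat_lit 1) (nat_lit 5) (nat_lit 3) (nat_lit 4) (nat_lit 1) (nat_lit 4) (nat_lit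 407) (nat_lit 338) (nat_lit 275)) (XT.lf (nat_lit 0) (nat_lit 910757072061) (nat_lit 152) (nat_lit 5051902725497) (nat_lit 0) (nat_lit 908134110048) (nat_lit 1) (nat_lit 5) (nat_lit 3) (nat_lit 4) (nat_lit 1) (nat_lit 4) (nat_lit 408) (nat_lit 338) (nat_lit 274)))) (XT.nd (nat_lit 78) (nat_lit 0) (nat_lit 0) (XT.lf (nat_lit 0) (nat_lit 1080705665327) (nat_lit 152) (nat_lit 5737565152941) (nat_lit 0) (nat_lit 1078082658688) (nat_lit 1) (nat_lit 5) (nat_lit 3) (nat_lit 4) (nat_lit 1) (nat_lit 4) (nat_lit 409) (nat_lit 338) (nat_lit 273)) (XT.nd (nat_lit 78) (nat_lit 0) (nat_lit 0) (XT.lf (nat_lit 0) (nat_lit 1276145475164) (nat_lit 152) (nat_lit 6526079237691) (nat_lit 0) (nat_lit 1273522429721) (nat_lit 1) (nat_lit 5) (nat_lit 3) (nat_lit 4) (nat_lit 1) (nat_lit 4) (nat_lit 410) (nat_lit 338) (nat_lit 272)) (XT.lf (nat_lit 0) (nat_lit 1500900323941) (nat_lit 152) (nat_lit 7432872429233)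 (nat_lit 0) (nat_lit 1498277244755) (nat_lit 1) (nat_lit 5) (nat_lit 3) (nat_lit 4) (nat_lit 1) (nat_lit 4) (nat_lit 411) (nat_lit 338) (nat_lit 271)))))) (XT.nd (nat_lit 468) (nat_lit 0) (nat_lit 0) (XT.nd (nat_lit 234) (nat_lit 0) (nat_lit 0) (XT.nd (nat_lit 78) (nat_lit 0) (nat_lit 0) (XT.lf (nat_lit 0) (nat_lit 1759367589133) (nat_lit 152) (nat_lit 8475686333487) (nat_lit 0) (nat_lit 1756744480605) (nat_lit 1) (nat_lit 5) (nat_lit 3) (nat_lit 4) (nat_lit 1) (nat_lit 4) (nat_lit 412) (nat_lit 338) (nat_lit 270)) (XT.nd (nat_lit 78) (nat_lit 0) (nat_lit 0) (XT.lf (nat_lit 0) (nat_lit 2056604238972) (nat_lit 152) (nat_lit 9674923831189) (nat_lit 0) (nat_lit 2053981104929) (nat_lit 1) (nat_lit 5) (nat_lit 3) (nat_lit 4) (nat_lit 1) (nat_lit 4) (nat_lit 413) (nat_lit 338) (nat_lit 269)) (XT.lf (nat_lit 0) (nat_lit 2398425773128) (nat_lit 152) (nat_lit 11054048264685) (nat_lit 0) (nat_lit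 2395802616899) (nat_lit 1) (nat_lit 5) (nat_lit 3) (nat_lit 4) (nat_lit 1) (nat_lit 4) (nat_lit 414) (nat_lit 338) (nat_lit 268)))) (XT.nd (nat_lit 78) (nat_lit 0) (nat_lit 0) (XT.lf (nat_lit 0) (nat_lit 2791520004227) (nat_lit 152) (nat_lit 12640042503326) (nat_lit 0) (nat_lit 2788896828705) (nat_lit 1) (nat_lit 5) (nat_lit 3) (nat_lit 4) (nat_lit 1) (nat_lit 4) (nat_lit 415) (nat_lit 338) (nat_lit 267)) (XT.nd (nat_lit 78) (nat_lit 0) (nat_lit 0) (XT.lf (nat_lit 0) (nat_lit 3243577906356) (nat_lit 152) (nat_lit 14463936869172) (nat_lit 0) (nat_lit 3240954714058) (nat_lit 1) (nat_lit 5) (nat_lit 3) (nat_lit 4) (nat_lit 1) (nat_lit 4) (nat_lit 416) (nat_lit 338) (nat_lit 266)) (XT.lf (nat_lit 0) (nat_lit 3763444090642) (nat_lit 152) (nat_lit 16561416251991) (nat_lit 0) (nat_lit 3760820883756) (nat_lit 1) (nat_lit 5) (nat_lit 3) (nat_lit 4) (nat_lit 1) (nat_lit 4) (nat_lit 417) (nat_lit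 338) (nat_lit 265))))) (XT.nd (nat_lit 234) (nat_lit 0) (nat_lit 0) (XT.nd (nat_lit 78) (nat_lit 0) (nat_lit 0) (XT.lf (nat_lit 0) (nat_lit 4361289851997) (nat_lit 152) (nat_lit 18973518291880) (nat_lit 0) (nat_lit 4358666632425) (nat_lit 1) (nat_lit 5) (nat_lit 3) (nat_lit 4) (nat_lit 1) (nat_lit 4) (nat_lit 418) (nat_lit 338) (nat_lit 264)) (XT.nd (nat_lit 78) (nat_lit 0) (nat_lit 0) (XT.lf (nat_lit 0) (nat_lit 5048812172707) (nat_lit 152) (nat_lit 21747436289620) (nat_lit 0) (nat_lit 5046188942104) (nat_lit 1) (nat_lit 5) (nat_lit 3) (nat_lit 4) (nat_lit 1) (nat_lit 4) (nat_lit 419) (nat_lit 338) (nat_lit 263)) (XT.lf (nat_lit 0) (nat_lit 5839462576438) (nat_lit 152) (nat_lit 24937442553863) (nat_lit 0) (nat_lit 5836839336243) (nat_lit 1) (nat_lit 5) (nat_lit 3) (nat_lit 4) (nat_lit 1) (nat_lit 4) (nat_lit 420) (nat_lit 338) (nat_lit 262)))) (XT.nd (nat_lit 156) (nat_lit 0) (nat_lit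 0) (XT.nd (nat_lit 78) (nat_lit 0) (nat_lit 0) (XT.lf (nat_lit 0) (nat_lit 6748710310219) (nat_lit 152) (nat_lit 28605950250648) (nat_lit 0) (nat_lit 6746087061684) (nat_lit 1) (nat_lit 5) (nat_lit 3) (nat_lit 4) (nat_lit 1) (nat_lit 4) (nat_lit 421) (nat_lit 338) (nat_lit 261)) (XT.lf (nat_lit 0) (nat_lit 7794345003626) (nat_lit 152) (nat_lit 32824734530565) (nat_lit 0) (nat_lit 7791721747838) (nat_lit 1) (nat_lit 5) (nat_lit 3) (nat_lit 4) (nat_lit 1) (nat_lit 4) (nat_lit 422) (nat_lit 338) (nat_lit 260))) (XT.nd (nat_lit 78) (nat_lit 0) (nat_lit 0) (XT.lf (nat_lit 0) (nat_lit 8996824726746) (nat_lit 152) (nat_lit 37676336825176) (nat_lit 0) (nat_lit 8994201464651) (nat_lit 1) (nat_lit 5) (nat_lit 3) (nat_lit 4) (nat_lit 1) (nat_lit 4) (nat_lit 423) (nat_lit 338) (nat_lit 259)) (XT.lf (nat_lit 0) (nat_lit 10379676256771) (nat_lit 152) (nat_lit 43255679788073) (nat_lit 0) (nat_lit 10377052989192)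 (nat_lit 1) (nat_lit 5) (nat_lit 3) (nat_lit 4) (nat_lit 1) (nat_lit 4) (nat_lit 424) (nat_lit 338) (nat_lit 258))))))) (XT.nd (nat_lit 47190) (nat_lit 0) (nat_lit 1368) (XT.nd (nat_lit 46644) (nat_lit 0) (nat_lit 2432) (XT.nd (nat_lit 234) (nat_lit 0) (nat_lit 0) (XT.nd (nat_lit 78) (nat_lit 0) (nat_lit 0) (XT.lf (nat_lit 0) (nat_lit 11969955384505) (nat_lit 152) (nat_lit 49671924477224) (nat_lit 0) (nat_lit 11967332112157) (nat_lit 1) (nat_lit 5) (nat_lit 3) (nat_lit 4) (nat_lit 1) (nat_lit 4) (nat_lit 425) (nat_lit 338) (nat_lit 257)) (XT.nd (nat_lit 78) (nat_lit 0) (nat_lit 0) (XT.lf (nat_lit 0) (nat_lit 13798776266795) (nat_lit 152) (nat_lit 57050606114810) (nat_lit 0) (nat_lit 13796152990301) (nat_lit 1) (nat_lit 5) (nat_lit 3) (nat_lit 4) (nat_lit 1) (nat_lit 4) (nat_lit 426) (nat_lit 338) (nat_lit 256)) (XT.lf (nat_lit 0) (nat_lit 15901920181774) (nat_lit 152) (nat_lit 65536090211130)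 (nat_lit 0) (nat_lit 15899296901674) (nat_lit 1) (nat_lit 5) (nat_lit 3) (nat_lit 4) (nat_lit 1) (nat_lit 4) (nat_lit 427) (nat_lit 338) (nat_lit 255)))) (XT.nd (nat_lit 78) (nat_lit 0) (nat_lit 0) (XT.lf (nat_lit 0) (nat_lit 18320535597343) (nat_lit 152) (nat_lit 75294397107199) (nat_lit 0) (nat_lit 18317912314107) (nat_lit 1) (nat_lit 5) (nat_lit 3) (nat_lit 4) (nat_lit 1) (nat_lit 4) (nat_lit 428) (nat_lit 338) (nat_lit 254)) (XT.nd (nat_lit 2340) (nat_lit 0) (nat_lit 0) (XT.lf (nat_lit 0) (nat_lit 21101943249894) (nat_lit 152) (nat_lit 86516450198810) (nat_lit 0) (nat_lit 21099319963931) (nat_lit 1) (nat_lit 5) (nat_lit 3) (nat_lit 4) (nat_lit 1) (nat_lit 4) (nat_lit 429) (nat_lit 338) (nat_lit 253)) (XT.lf (nat_lit 0) (nat_lit 1411685826570186) (nat_lit 152) (nat_lit 5697059777791231) (nat_lit 0) (nat_lit 1411683203266318) (nat_lit 1) (nat_lit 5) (nat_lit 3) (nat_lit 4) (nat_lit 1)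 (nat_lit 4) (nat_lit 459) (nat_lit 338) (nat_lit 223))))) (XT.nd (nat_lit 234) (nat_lit 836) (nat_lit 0) (XT.nd (nat_lit 78) (nat_lit 228) (nat_lit 0) (XT.lf (nat_lit 0) (nat_lit 291260754) (nat_lit 76) (nat_lit 1485655481) (nat_lit 76) (nat_lit 1485655481) (nat_lit 47) (nat_lit 4) (nat_lit 48) (nat_lit 5) (nat_lit 48) (nat_lit 4) (nat_lit 342) (nat_lit 339) (nat_lit 339)) (XT.nd (nat_lit 78) (nat_lit 152) (nat_lit 0) (XT.lf (nat_lit 0) (nat_lit 246190504) (nat_lit 152) (nat_lit 1891785402) (nat_lit 76) (nat_lit 4515955918) (nat_lit 46) (nat_lit 5) (nat_lit 48) (nat_lit 5) (nat_lit 47) (nat_lit 4) (nat_lit 343) (nat_lit 339) (nat_lit 338)) (XT.lf (nat_lit 0) (nat_lit 2444655178) (nat_lit 152) (nat_lit 797693729) (nat_lit 228) (nat_lit 3598786690) (nat_lit 44) (nat_lit 5) (nat_lit 46) (nat_lit 5) (nat_lit 47) (nat_lit 4) (nat_lit 344) (nat_lit 339) (nat_lit 337)))) (XT.nd (nat_lit 156) (nat_lit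 532) (nat_lit 0) (XT.nd (nat_lit 78) (nat_lit 76) (nat_lit 0) (XT.lf (nat_lit 0) (nat_lit 127383670) (nat_lit 228) (nat_lit 6251782862) (nat_lit 228) (nat_lit 723877979) (nat_lit 41) (nat_lit 4) (nat_lit 44) (nat_lit 5) (nat_lit 44) (nat_lit 4) (nat_lit 345) (nat_lit 339) (nat_lit 336)) (XT.lf (nat_lit 0) (nat_lit 2203691766) (nat_lit 304) (nat_lit 2174236500) (nat_lit 76) (nat_lit 3032809495) (nat_lit 40) (nat_lit 5) (nat_lit 44) (nat_lit 5) (nat_lit 41) (nat_lit 4) (nat_lit 346) (nat_lit 339) (nat_lit 335))) (XT.nd (nat_lit 78) (nat_lit 228) (nat_lit 0) (XT.lf (nat_lit 0) (nat_lit 3185628431) (nat_lit 304) (nat_lit 2070889862) (nat_lit 380) (nat_lit 2539065014) (nat_lit 36) (nat_lit 5) (nat_lit 40) (nat_lit 5) (nat_lit 41) (nat_lit 4) (nat_lit 347) (nat_lit 339) (nat_lit 334)) (XT.lf (nat_lit 0) (nat_lit 316899494) (nat_lit 228) (nat_lit 7286137456) (nat_lit 76) (nat_lit 656752637) (nat_lit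 33) (nat_lit 5) (nat_lit 36) (nat_lit 5) (nat_lit 34) (nat_lit 4) (nat_lit 348) (nat_lit 339) (nat_lit 333)))))) (XT.nd (nat_lit 468) (nat_lit 532) (nat_lit 0) (XT.nd (nat_lit 234) (nat_lit 228) (nat_lit 0) (XT.nd (nat_lit 78) (nat_lit 304) (nat_lit 0) (XT.lf (nat_lit 0) (nat_lit 3362752100) (nat_lit 228) (nat_lit 1529014600) (nat_lit 76) (nat_lit 3880641109) (nat_lit 33) (nat_lit 5) (nat_lit 36) (nat_lit 5) (nat_lit 34) (nat_lit 4) (nat_lit 349) (nat_lit 339) (nat_lit 332)) (XT.nd (nat_lit 78) (nat_lit 228) (nat_lit 0) (XT.lf (nat_lit 0) (nat_lit 5156449351) (nat_lit 76) (nat_lit 1635926121) (nat_lit 152) (nat_lit 2580625859) (nat_lit 32) (nat_lit 5) (nat_lit 33) (nat_lit 5) (nat_lit 34) (nat_lit 4) (nat_lit 350) (nat_lit 339) (nat_lit 331)) (XT.lf (nat_lit 0) (nat_lit 626923198) (nat_lit 228) (nat_lit 7387433008) (nat_lit 76) (nat_lit 2043128393) (nat_lit 29) (nat_lit 5) (nat_lit 32)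 (nat_lit 5) (nat_lit 30) (nat_lit 4) (nat_lit 351) (nat_lit 339) (nat_lit 330)))) (XT.nd (nat_lit 78) (nat_lit 228) (nat_lit 0) (XT.lf (nat_lit 0) (nat_lit 4097628045) (nat_lit 228) (nat_lit 377937552) (nat_lit 76) (nat_lit 6343783765) (nat_lit 29) (nat_lit 5) (nat_lit 32) (nat_lit 5) (nat_lit 30) (nat_lit 4) (nat_lit 352) (nat_lit 339) (nat_lit 329)) (XT.nd (nat_lit 78) (nat_lit 152) (nat_lit 0) (XT.lf (nat_lit 0) (nat_lit 8034243048) (nat_lit 76) (nat_lit 159048355) (nat_lit 152) (nat_lit 3486616127) (nat_lit 28) (nat_lit 5) (nat_lit 29) (nat_lit 5) (nat_lit 30) (nat_lit 4) (nat_lit 353) (nat_lit 339) (nat_lit 328)) (XT.lf (nat_lit 0) (nat_lit 428880435) (nat_lit 152) (nat_lit 7707040608) (nat_lit 76) (nat_lit 4499836445) (nat_lit 26) (nat_lit 5) (nat_lit 28) (nat_lit 5) (nat_lit 27) (nat_lit 4) (nat_lit 354) (nat_lit 339) (nat_lit 327))))) (XT.nd (nat_lit 234) (nat_lit 380) (nat_lit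 0) (XT.nd (nat_lit 78) (nat_lit 76) (nat_lit 0) (XT.lf (nat_lit 0) (nat_lit 1023078220) (nat_lit 76) (nat_lit 3586662023) (nat_lit 152) (nat_lit 9095133816) (nat_lit 25) (nat_lit 5) (nat_lit 26) (nat_lit 5) (nat_lit 27) (nat_lit 4) (nat_lit 355) (nat_lit 339) (nat_lit 326)) (XT.nd (nat_lit 78) (nat_lit 76) (nat_lit 0) (XT.lf (nat_lit 0) (nat_lit 9699777202) (nat_lit 152) (nat_lit 3416748220) (nat_lit 0) (nat_lit 1775563549) (nat_lit 25) (nat_lit 5) (nat_lit 27) (nat_lit 4) (nat_lit 25) (nat_lit 4) (nat_lit 356) (nat_lit 339) (nat_lit 325)) (XT.lf (nat_lit 0) (nat_lit 7390998372) (nat_lit 76) (nat_lit 8458186854) (nat_lit 76) (nat_lit 363854185) (nat_lit 24) (nat_lit 4) (nat_lit 25) (nat_lit 5) (nat_lit 25) (nat_lit 4) (nat_lit 357) (nat_lit 339) (nat_lit 324)))) (XT.nd (nat_lit 156) (nat_lit 228) (nat_lit 0) (XT.nd (nat_lit 78) (nat_lit 0) (nat_lit 0) (XT.lf (nat_lit 0) (nat_lit 2128092846)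 (nat_lit 76) (nat_lit 2695328127) (nat_lit 152) (nat_lit 12862032733) (nat_lit 22) (nat_lit 5) (nat_lit 23) (nat_lit 5) (nat_lit 24) (nat_lit 4) (nat_lit 358) (nat_lit 339) (nat_lit 323)) (XT.lf (nat_lit 0) (nat_lit 11222425521) (nat_lit 152) (nat_lit 4139709021) (nat_lit 0) (nat_lit 3943384943) (nat_lit 22) (nat_lit 5) (nat_lit 24) (nat_lit 4) (nat_lit 22) (nat_lit 4) (nat_lit 359) (nat_lit 339) (nat_lit 322))) (XT.nd (nat_lit 78) (nat_lit 152) (nat_lit 0) (XT.lf (nat_lit 0) (nat_lit 9403515856) (nat_lit 76) (nat_lit 9543288195) (nat_lit 76) (nat_lit 2166981518) (nat_lit 21) (nat_lit 4) (nat_lit 22) (nat_lit 5) (nat_lit 22) (nat_lit 4) (nat_lit 360) (nat_lit 339) (nat_lit 321)) (XT.lf (nat_lit 0) (nat_lit 1957400439) (nat_lit 76) (nat_lit 2423197855) (nat_lit 152) (nat_lit 18760384951) (nat_lit 19) (nat_lit 5) (nat_lit 20) (nat_lit 5) (nat_lit 21) (nat_lit 4) (nat_lit 361) (nat_lit 339)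 (nat_lit 320))))))))
noncomputable def xc46 : XT := (XT.nd (nat_lit 1950) (nat_lit 228) (nat_lit 0) (XT.nd (nat_lit 936) (nat_lit 456) (nat_lit 0) (XT.nd (nat_lit 468) (nat_lit 380) (nat_lit 0) (XT.nd (nat_lit 234) (nat_lit 152) (nat_lit 0) (XT.nd (nat_lit 78) (nat_lit 152) (nat_lit 0) (XT.lf (nat_lit 0) (nat_lit 12419636131) (nat_lit 152) (nat_lit 7059526420) (nat_lit 0) (nat_lit 5867955227) (nat_lit 19) (nat_lit 5) (nat_lit 21) (nat_lit 4) (nat_lit 19) (nat_lit 4) (nat_lit 362) (nat_lit 339) (nat_lit 319)) (XT.nd (nat_lit 78) (nat_lit 76) (nat_lit 0) (XT.lf (nat_lit 0) (nat_lit 9668190477) (nat_lit 76) (nat_lit 12382668292) (nat_lit 76) (nat_lit 5775375180) (nat_lit 18) (nat_lit 4) (nat_lit 19) (nat_lit 5) (nat_lit 19) (nat_lit 4) (nat_lit 363) (nat_lit 339) (nat_lit 318)) (XT.lf (nat_lit 0) (nat_lit 2489397961) (nat_lit 152) (nat_lit 1303445936) (nat_lit 76) (nat_lit 26830478303) (nat_lit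 17) (nat_lit 5) (nat_lit 19) (nat_lit 5) (nat_lit 18) (nat_lit 4) (nat_lit 364) (nat_lit 339) (nat_lit 317)))) (XT.nd (nat_lit 78) (nat_lit 76) (nat_lit 0) (XT.lf (nat_lit 0) (nat_lit 12388045908) (nat_lit 152) (nat_lit 14698908246) (nat_lit 0) (nat_lit 6563956888) (nat_lit 16) (nat_lit 5) (nat_lit 18) (nat_lit 4) (nat_lit 16) (nat_lit 4) (nat_lit 365) (nat_lit 339) (nat_lit 316)) (XT.nd (nat_lit 78) (nat_lit 0) (nat_lit 0) (XT.lf (nat_lit 0) (nat_lit 5332691777) (nat_lit 76) (nat_lit 18800771159) (nat_lit 76) (nat_lit 12944885679) (nat_lit 15) (nat_lit 4) (nat_lit 16) (nat_lit 5) (nat_lit 16) (nat_lit 4) (nat_lit 366) (nat_lit 339) (nat_lit 315)) (XT.lf (nat_lit 0) (nat_lit 29803308782) (nat_lit 76) (nat_lit 8500344447) (nat_lit 76) (nat_lit 2616809871) (nat_lit 15) (nat_lit 4) (nat_lit 16) (nat_lit 5) (nat_lit 16) (nat_lit 4) (nat_lit 367) (nat_lit 339) (nat_lit 314))))) (XT.nd (nat_lit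 234) (nat_lit 152) (nat_lit 0) (XT.nd (nat_lit 78) (nat_lit 76) (nat_lit 0) (XT.lf (nat_lit 0) (nat_lit 9065104188) (nat_lit 152) (nat_lit 32193836881) (nat_lit 0) (nat_lit 3928080476) (nat_lit 13) (nat_lit 5) (nat_lit 15) (nat_lit 4) (nat_lit 13) (nat_lit 4) (nat_lit 368) (nat_lit 339) (nat_lit 313)) (XT.nd (nat_lit 78) (nat_lit 76) (nat_lit 0) (XT.lf (nat_lit 0) (nat_lit 23149556067) (nat_lit 152) (nat_lit 8793242774) (nat_lit 0) (nat_lit 17994352626) (nat_lit 13) (nat_lit 5) (nat_lit 15) (nat_lit 4) (nat_lit 13) (nat_lit 4) (nat_lit 369) (nat_lit 339) (nat_lit 312)) (XT.lf (nat_lit 0) (nat_lit 19697788786) (nat_lit 76) (nat_lit 20381562842) (nat_lit 76) (nat_lit 15210550941) (nat_lit 12) (nat_lit 4) (nat_lit 13) (nat_lit 5) (nat_lit 13) (nat_lit 4) (nat_lit 370) (nat_lit 339) (nat_lit 311)))) (XT.nd (nat_lit 78) (nat_lit 152) (nat_lit 0) (XT.lf (nat_lit 0) (nat_lit 53285307220) (nat_lit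 76) (nat_lit 6643961198) (nat_lit 76) (nat_lit 1459202809) (nat_lit 12) (nat_lit 4) (nat_lit 13) (nat_lit 5) (nat_lit 13) (nat_lit 4) (nat_lit 371) (nat_lit 339) (nat_lit 310)) (XT.nd (nat_lit 78) (nat_lit 0) (nat_lit 0) (XT.lf (nat_lit 0) (nat_lit 14493005499) (nat_lit 152) (nat_lit 43633116680) (nat_lit 0) (nat_lit 9974125624) (nat_lit 10) (nat_lit 5) (nat_lit 12) (nat_lit 4) (nat_lit 10) (nat_lit 4) (nat_lit 372) (nat_lit 339) (nat_lit 309)) (XT.lf (nat_lit 0) (nat_lit 33377108378) (nat_lit 152) (nat_lit 13478802718) (nat_lit 0) (nat_lit 28849189965) (nat_lit 10) (nat_lit 5) (nat_lit 12) (nat_lit 4) (nat_lit 10) (nat_lit 4) (nat_lit 373) (nat_lit 339) (nat_lit 308)))))) (XT.nd (nat_lit 468) (nat_lit 152) (nat_lit 0) (XT.nd (nat_lit 234) (nat_lit 76) (nat_lit 0) (XT.nd (nat_lit 78) (nat_lit 152) (nat_lit 0) (XT.lf (nat_lit 0) (nat_lit 23126048179) (nat_lit 76) (nat_lit 32863060674) (nat_lit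 76) (nat_lit 28327282662) (nat_lit 9) (nat_lit 4) (nat_lit 10) (nat_lit 5) (nat_lit 10) (nat_lit 4) (nat_lit 374) (nat_lit 339) (nat_lit 307)) (XT.nd (nat_lit 78) (nat_lit 152) (nat_lit 0) (XT.lf (nat_lit 0) (nat_lit 66610984488) (nat_lit 76) (nat_lit 16027113284) (nat_lit 76) (nat_lit 11484500838) (nat_lit 9) (nat_lit 4) (nat_lit 10) (nat_lit 5) (nat_lit 10) (nat_lit 4) (nat_lit 375) (nat_lit 339) (nat_lit 306)) (XT.lf (nat_lit 0) (nat_lit 7793001727) (nat_lit 152) (nat_lit 93628488559) (nat_lit 0) (nat_lit 3837736134) (nat_lit 7) (nat_lit 5) (nat_lit 9) (nat_lit 4) (nat_lit 7) (nat_lit 4) (nat_lit 376) (nat_lit 339) (nat_lit 305)))) (XT.nd (nat_lit 78) (nat_lit 76) (nat_lit 0) (XT.lf (nat_lit 0) (nat_lit 31002168622) (nat_lit 152) (nat_lit 59607364265) (nat_lit 0) (nat_lit 27042409279) (nat_lit 7) (nat_lit 5) (nat_lit 9) (nat_lit 4) (nat_lit 7) (nat_lit 4) (nat_lit 377) (nat_lit 339)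 (nat_lit 304)) (XT.nd (nat_lit 78) (nat_lit 76) (nat_lit 0) (XT.lf (nat_lit 0) (nat_lit 57645796477) (nat_lit 152) (nat_lit 20582677145) (nat_lit 0) (nat_lit 53682129524) (nat_lit 7) (nat_lit 5) (nat_lit 9) (nat_lit 4) (nat_lit 7) (nat_lit 4) (nat_lit 378) (nat_lit 339) (nat_lit 303)) (XT.lf (nat_lit 0) (nat_lit 26574988538) (nat_lit 76) (nat_lit 62770598729) (nat_lit 76) (nat_lit 58803533854) (nat_lit 6) (nat_lit 4) (nat_lit 7) (nat_lit 5) (nat_lit 7) (nat_lit 4) (nat_lit 379) (nat_lit 339) (nat_lit 302))))) (XT.nd (nat_lit 234) (nat_lit 0) (nat_lit 0) (XT.nd (nat_lit 78) (nat_lit 152) (nat_lit 0) (XT.lf (nat_lit 0) (nat_lit 83036839547) (nat_lit 76) (nat_lit 43800522548) (nat_lit 76) (nat_lit 39830502959) (nat_lit 6) (nat_lit 4) (nat_lit 7) (nat_lit 5) (nat_lit 7) (nat_lit 4) (nat_lit 380) (nat_lit 339) (nat_lit 301)) (XT.nd (nat_lit 78) (nat_lit 152) (nat_lit 0) (XT.lf (nat_lit 0) (nat_lit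 147896075369) (nat_lit 76) (nat_lit 22023004084) (nat_lit 76) (nat_lit 18050415178) (nat_lit 6) (nat_lit 4) (nat_lit 7) (nat_lit 5) (nat_lit 7) (nat_lit 4) (nat_lit 381) (nat_lit 339) (nat_lit 300)) (XT.lf (nat_lit 0) (nat_lit 6940560240) (nat_lit 152) (nat_lit 201913143602) (nat_lit 0) (nat_lit 3484192332) (nat_lit 4) (nat_lit 5) (nat_lit 6) (nat_lit 4) (nat_lit 4) (nat_lit 4) (nat_lit 382) (nat_lit 339) (nat_lit 299)))) (XT.nd (nat_lit 156) (nat_lit 0) (nat_lit 0) (XT.nd (nat_lit 78) (nat_lit 0) (nat_lit 0) (XT.lf (nat_lit 0) (nat_lit 37044617433) (nat_lit 152) (nat_lit 169119581027) (nat_lit 0) (nat_lit 33586560157) (nat_lit 4) (nat_lit 5) (nat_lit 6) (nat_lit 4) (nat_lit 4) (nat_lit 4) (nat_lit 383) (nat_lit 339) (nat_lit 298)) (XT.lf (nat_lit 0) (nat_lit 71637537907) (nat_lit 152) (nat_lit 131464012985) (nat_lit 0) (nat_lit 68178011616) (nat_lit 4) (nat_lit 5) (nat_lit 6) (nat_lit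 4) (nat_lit 4) (nat_lit 4) (nat_lit 384) (nat_lit 339) (nat_lit 297))) (XT.nd (nat_lit 78) (nat_lit 0) (nat_lit 0) (XT.lf (nat_lit 0) (nat_lit 111396139671) (nat_lit 152) (nat_lit 88209700101) (nat_lit 0) (nat_lit 107935335976) (nat_lit 4) (nat_lit 5) (nat_lit 6) (nat_lit 4) (nat_lit 4) (nat_lit 4) (nat_lit 385) (nat_lit 339) (nat_lit 296)) (XT.lf (nat_lit 0) (nat_lit 157098308412) (nat_lit 152) (nat_lit 38510362340) (nat_lit 0) (nat_lit 153636393930) (nat_lit 4) (nat_lit 5) (nat_lit 6) (nat_lit 4) (nat_lit 4) (nat_lit 4) (nat_lit 386) (nat_lit 339) (nat_lit 295))))))) (XT.nd (nat_lit 1014) (nat_lit 0) (nat_lit 0) (XT.nd (nat_lit 468) (nat_lit 152) (nat_lit 0) (XT.nd (nat_lit 234) (nat_lit 0) (nat_lit 0) (XT.nd (nat_lit 78) (nat_lit 0) (nat_lit 0) (XT.lf (nat_lit 0) (nat_lit 20424729284) (nat_lit 76) (nat_lit 190059232196) (nat_lit 76) (nat_lit 186596351813) (nat_lit 3) (nat_lit 4) (nat_lit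 4) (nat_lit 5) (nat_lit 4) (nat_lit 4) (nat_lit 387) (nat_lit 339) (nat_lit 294)) (XT.nd (nat_lit 78) (nat_lit 0) (nat_lit 0) (XT.lf (nat_lit 0) (nat_lit 92492331228) (nat_lit 76) (nat_lit 181381399126) (nat_lit 76) (nat_lit 177917678828) (nat_lit 3) (nat_lit 4) (nat_lit 4) (nat_lit 5) (nat_lit 4) (nat_lit 4) (nat_lit 388) (nat_lit 339) (nat_lit 293)) (XT.lf (nat_lit 0) (nat_lit 175338949107) (nat_lit 76) (nat_lit 171418429519) (nat_lit 76) (nat_lit 167953978861) (nat_lit 3) (nat_lit 4) (nat_lit 4) (nat_lit 5) (nat_lit 4) (nat_lit 4) (nat_lit 389) (nat_lit 339) (nat_lit 292)))) (XT.nd (nat_lit 78) (nat_lit 0) (nat_lit 0) (XT.lf (nat_lit 0) (nat_lit 270585495009) (nat_lit 76) (nat_lit 159975395709) (nat_lit 76) (nat_lit 156510309956) (nat_lit 3) (nat_lit 4) (nat_lit 4) (nat_lit 5) (nat_lit 4) (nat_lit 4) (nat_lit 390) (nat_lit 339) (nat_lit 291)) (XT.nd (nat_lit 78) (nat_lit 0) (nat_lit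 0) (XT.lf (nat_lit 0) (nat_lit 380095488311) (nat_lit 76) (nat_lit 146828412253) (nat_lit 76) (nat_lit 143362774242) (nat_lit 3) (nat_lit 4) (nat_lit 4) (nat_lit 5) (nat_lit 4) (nat_lit 4) (nat_lit 391) (nat_lit 339) (nat_lit 290)) (XT.lf (nat_lit 0) (nat_lit 506011515838) (nat_lit 76) (nat_lit 131720255560) (nat_lit 76) (nat_lit 128254137326) (nat_lit 3) (nat_lit 4) (nat_lit 4) (nat_lit 5) (nat_lit 4) (nat_lit 4) (nat_lit 392) (nat_lit 339) (nat_lit 289))))) (XT.nd (nat_lit 234) (nat_lit 152) (nat_lit 0) (XT.nd (nat_lit 78) (nat_lit 0) (nat_lit 0) (XT.lf (nat_lit 0) (nat_lit 650797152042) (nat_lit 76) (nat_lit 114355331261) (nat_lit 76) (nat_lit 110888795441) (nat_lit 3) (nat_lit 4) (nat_lit 4) (nat_lit 5) (nat_lit 4) (nat_lit 4) (nat_lit 393) (nat_lit 339) (nat_lit 288)) (XT.nd (nat_lit 78) (nat_lit 0) (nat_lit 0) (XT.lf (nat_lit 0) (nat_lit 817285159370) (nat_lit 76) (nat_lit 94393890837)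 (nat_lit 76) (nat_lit 90926991899) (nat_lit 3) (nat_lit 4) (nat_lit 4) (nat_lit 5) (nat_lit 4) (nat_lit 4) (nat_lit 394) (nat_lit 339) (nat_lit 287)) (XT.lf (nat_lit 0) (nat_lit 1008732911879) (nat_lit 76) (nat_lit 71445384366) (nat_lit 76) (nat_lit 67978169673) (nat_lit 3) (nat_lit 4) (nat_lit 4) (nat_lit 5) (nat_lit 4) (nat_lit 4) (nat_lit 395) (nat_lit 339) (nat_lit 286)))) (XT.nd (nat_lit 156) (nat_lit 152) (nat_lit 0) (XT.nd (nat_lit 78) (nat_lit 0) (nat_lit 0) (XT.lf (nat_lit 0) (nat_lit 1228886126465) (nat_lit 76) (nat_lit 45060819331) (nat_lit 76) (nat_lit 41593330069) (nat_lit 3) (nat_lit 4) (nat_lit 4) (nat_lit 5) (nat_lit 4) (nat_lit 4) (nat_lit 396) (nat_lit 339) (nat_lit 285)) (XT.lf (nat_lit 0) (nat_lit 1482052148632) (nat_lit 76) (nat_lit 14723975981) (nat_lit 76) (nat_lit 11256247963) (nat_lit 3) (nat_lit 4) (nat_lit 4) (nat_lit 5) (nat_lit 4) (nat_lit 4) (nat_lit 397) (nat_lit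 339) (nat_lit 284))) (XT.nd (nat_lit 78) (nat_lit 0) (nat_lit 0) (XT.lf (nat_lit 0) (nat_lit 24442966175) (nat_lit 152) (nat_lit 1682943858815) (nat_lit 0) (nat_lit 21427369973) (nat_lit 1) (nat_lit 5) (nat_lit 3) (nat_lit 4) (nat_lit 1) (nat_lit 4) (nat_lit 398) (nat_lit 339) (nat_lit 283)) (XT.lf (nat_lit 0) (nat_lit 66464166785) (nat_lit 152) (nat_lit 1852402379123) (nat_lit 0) (nat_lit 63448413597) (nat_lit 1) (nat_lit 5) (nat_lit 3) (nat_lit 4) (nat_lit 1) (nat_lit 4) (nat_lit 399) (nat_lit 339) (nat_lit 282)))))) (XT.nd (nat_lit 468) (nat_lit 0) (nat_lit 0) (XT.nd (nat_lit 234) (nat_lit 0) (nat_lit 0) (XT.nd (nat_lit 78) (nat_lit 0) (nat_lit 0) (XT.lf (nat_lit 0) (nat_lit 114784774855) (nat_lit 152) (nat_lit 2047287744637) (nat_lit 0) (nat_lit 111768885158) (nat_lit 1) (nat_lit 5) (nat_lit 3) (nat_lit 4) (nat_lit 1) (nat_lit 4) (nat_lit 400) (nat_lit 339) (nat_lit 281)) (XT.nd (nat_lit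 78) (nat_lit 0) (nat_lit 0) (XT.lf (nat_lit 0) (nat_lit 170350193588) (nat_lit 152) (nat_lit 2271412929899) (nat_lit 0) (nat_lit 167334185186) (nat_lit 1) (nat_lit 5) (nat_lit 3) (nat_lit 4) (nat_lit 1) (nat_lit 4) (nat_lit 401) (nat_lit 339) (nat_lit 280)) (XT.lf (nat_lit 0) (nat_lit 234247572479) (nat_lit 152) (nat_lit 2529162992881) (nat_lit 0) (nat_lit 231231460856) (nat_lit 1) (nat_lit 5) (nat_lit 3) (nat_lit 4) (nat_lit 1) (nat_lit 4) (nat_lit 402) (nat_lit 339) (nat_lit 279)))) (XT.nd (nat_lit 78) (nat_lit 0) (nat_lit 0) (XT.lf (nat_lit 0) (nat_lit 307727077638) (nat_lit 152) (nat_lit 2825580869599) (nat_lit 0) (nat_lit 304710876258) (nat_lit 1) (nat_lit 5) (nat_lit 3) (nat_lit 4) (nat_lit 1) (nat_lit 4) (nat_lit 403) (nat_lit 339) (nat_lit 278)) (XT.nd (nat_lit 78) (nat_lit 0) (nat_lit 0) (XT.lf (nat_lit 0) (nat_lit 392226351556) (nat_lit 152) (nat_lit 3166466040248) (nat_lit 0)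 (nat_lit 389210072127) (nat_lit 1) (nat_lit 5) (nat_lit 3) (nat_lit 4) (nat_lit 1) (nat_lit 4) (nat_lit 404) (nat_lit 339) (nat_lit 277)) (XT.lf (nat_lit 0) (nat_lit 489398640898) (nat_lit 152) (nat_lit 3558487997299) (nat_lit 0) (nat_lit 486382293599) (nat_lit 1) (nat_lit 5) (nat_lit 3) (nat_lit 4) (nat_lit 1) (nat_lit 4) (nat_lit 405) (nat_lit 339) (nat_lit 276))))) (XT.nd (nat_lit 234) (nat_lit 0) (nat_lit 0) (XT.nd (nat_lit 78) (nat_lit 0) (nat_lit 0) (XT.lf (nat_lit 0) (nat_lit 601145142629) (nat_lit 152) (nat_lit 4009316735562) (nat_lit 0) (nat_lit 598128736313) (nat_lit 1) (nat_lit 5) (nat_lit 3) (nat_lit 4) (nat_lit 1) (nat_lit 4) (nat_lit 406) (nat_lit 339) (nat_lit 275)) (XT.nd (nat_lit 78) (nat_lit 0) (nat_lit 0) (XT.lf (nat_lit 0) (nat_lit 729652201347) (nat_lit 152) (nat_lit 4527772817309) (nat_lit 0) (nat_lit 726635743713) (nat_lit 1) (nat_lit 5) (nat_lit 3) (nat_lit 4) (nat_lit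 1) (nat_lit 4) (nat_lit 407) (nat_lit 339) (nat_lit 274)) (XT.lf (nat_lit 0) (nat_lit 877434085594) (nat_lit 152) (nat_lit 5123999948487) (nat_lit 0) (nat_lit 874417583334) (nat_lit 1) (nat_lit 5) (nat_lit 3) (nat_lit 4) (nat_lit 1) (nat_lit 4) (nat_lit 408) (nat_lit 339) (nat_lit 273)))) (XT.nd (nat_lit 156) (nat_lit 0) (nat_lit 0) (XT.nd (nat_lit 78) (nat_lit 0) (nat_lit 0) (XT.lf (nat_lit 0) (nat_lit 1047382180060) (nat_lit 152) (nat_lit 5809663442531) (nat_lit 0) (nat_lit 1044365638996) (nat_lit 1) (nat_lit 5) (nat_lit 3) (nat_lit 4) (nat_lit 1) (nat_lit 4) (nat_lit 409) (nat_lit 339) (nat_lit 272)) (XT.lf (nat_lit 0) (nat_lit 1242821556160) (nat_lit 152) (nat_lit 6598178454760) (nat_lit 0) (nat_lit 1239804981353) (nat_lit 1) (nat_lit 5) (nat_lit 3) (nat_lit 4) (nat_lit 1) (nat_lit 4) (nat_lit 410) (nat_lit 339) (nat_lit 271))) (XT.nd (nat_lit 78) (nat_lit 0) (nat_lit 0) (XT.lf (nat_lit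 0) (nat_lit 1467576027773) (nat_lit 152) (nat_lit 7504972452804) (nat_lit 0) (nat_lit 1464559423624) (nat_lit 1) (nat_lit 5) (nat_lit 3) (nat_lit 4) (nat_lit 1) (nat_lit 4) (nat_lit 411) (nat_lit 339) (nat_lit 270)) (XT.lf (nat_lit 0) (nat_lit 1726042964997) (nat_lit 152) (nat_lit 8547787058365) (nat_lit 0) (nat_lit 1723026335333) (nat_lit 1) (nat_lit 5) (nat_lit 3) (nat_lit 4) (nat_lit 1) (nat_lit 4) (nat_lit 412) (nat_lit 339) (nat_lit 269))))))))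
noncomputable def xc47 : XT := (XT.nd (nat_lit 47736) (nat_lit 0) (nat_lit 912) (XT.nd (nat_lit 1014) (nat_lit 0) (nat_lit 0) (XT.nd (nat_lit 468) (nat_lit 0) (nat_lit 0) (XT.nd (nat_lit 234) (nat_lit 0) (nat_lit 0) (XT.nd (nat_lit 78) (nat_lit 0) (nat_lit 0) (XT.lf (nat_lit 0) (nat_lit 2023279329646) (nat_lit 152) (nat_lit 9747025165899) (nat_lit 0) (nat_lit 2020262677795) (nat_lit 1) (nat_lit 5) (nat_lit 3) (nat_lit 4) (nat_lit 1) (nat_lit 4) (nat_lit 413) (nat_lit 339) (nat_lit 268)) (XT.nd (nat_lit 78) (nat_lit 0) (nat_lit 0) (XT.lf (nat_lit 0) (nat_lit 2365100615811) (nat_lit 152) (nat_lit 11126150129683) (nat_lit 0) (nat_lit 2362083944668) (nat_lit 1) (nat_lit 5) (nat_lit 3) (nat_lit 4) (nat_lit 1) (nat_lit 4) (nat_lit 414) (nat_lit 339) (nat_lit 267)) (XT.lf (nat_lit 0) (nat_lit 2758194631266) (nat_lit 152) (nat_lit 12712144829445) (nat_lit 0) (nat_lit 2755177943347) (nat_lit 1)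 (nat_lit 5) (nat_lit 3) (nat_lit 4) (nat_lit 1) (nat_lit 4) (nat_lit 415) (nat_lit 339) (nat_lit 266)))) (XT.nd (nat_lit 78) (nat_lit 0) (nat_lit 0) (XT.lf (nat_lit 0) (nat_lit 3210252345878) (nat_lit 152) (nat_lit 14536039596266) (nat_lit 0) (nat_lit 3207235643370) (nat_lit 1) (nat_lit 5) (nat_lit 3) (nat_lit 4) (nat_lit 1) (nat_lit 4) (nat_lit 416) (nat_lit 339) (nat_lit 265)) (XT.nd (nat_lit 78) (nat_lit 0) (nat_lit 0) (XT.lf (nat_lit 0) (nat_lit 3730118367106) (nat_lit 152) (nat_lit 16633519327758) (nat_lit 0) (nat_lit 3727101651913) (nat_lit 1) (nat_lit 5) (nat_lit 3) (nat_lit 4) (nat_lit 1) (nat_lit 4) (nat_lit 417) (nat_lit 339) (nat_lit 264)) (XT.lf (nat_lit 0) (nat_lit 4327963986671) (nat_lit 152) (nat_lit 19045621670842) (nat_lit 0) (nat_lit 4324947260447) (nat_lit 1) (nat_lit 5) (nat_lit 3) (nat_lit 4) (nat_lit 1) (nat_lit 4) (nat_lit 418) (nat_lit 339) (nat_lit 263))))) (XT.nd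 (nat_lit 234) (nat_lit 0) (nat_lit 0) (XT.nd (nat_lit 78) (nat_lit 0) (nat_lit 0) (XT.lf (nat_lit 0) (nat_lit 5015486184085) (nat_lit 152) (nat_lit 21819539932229) (nat_lit 0) (nat_lit 5012469448270) (nat_lit 1) (nat_lit 5) (nat_lit 3) (nat_lit 4) (nat_lit 1) (nat_lit 4) (nat_lit 419) (nat_lit 339) (nat_lit 262)) (XT.nd (nat_lit 78) (nat_lit 0) (nat_lit 0) (XT.lf (nat_lit 0) (nat_lit 5806136480603) (nat_lit 152) (nat_lit 25009546425731) (nat_lit 0) (nat_lit 5803119736447) (nat_lit 1) (nat_lit 5) (nat_lit 3) (nat_lit 4) (nat_lit 1) (nat_lit 4) (nat_lit 420) (nat_lit 339) (nat_lit 261)) (XT.lf (nat_lit 0) (nat_lit 6715384121156) (nat_lit 152) (nat_lit 28678054321871) (nat_lit 0) (nat_lit 6712367369747) (nat_lit 1) (nat_lit 5) (nat_lit 3) (nat_lit 4) (nat_lit 1) (nat_lit 4) (nat_lit 421) (nat_lit 339) (nat_lit 260)))) (XT.nd (nat_lit 156) (nat_lit 0) (nat_lit 0) (XT.nd (nat_lit 78) (nat_lit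 0) (nat_lit 0) (XT.lf (nat_lit 0) (nat_lit 7761018733493) (nat_lit 152) (nat_lit 32896838775140) (nat_lit 0) (nat_lit 7758001975778) (nat_lit 1) (nat_lit 5) (nat_lit 3) (nat_lit 4) (nat_lit 1) (nat_lit 4) (nat_lit 422) (nat_lit 339) (nat_lit 259)) (XT.lf (nat_lit 0) (nat_lit 8963498386119) (nat_lit 152) (nat_lit 37748441220492) (nat_lit 0) (nat_lit 8960481622919) (nat_lit 1) (nat_lit 5) (nat_lit 3) (nat_lit 4) (nat_lit 1) (nat_lit 4) (nat_lit 423) (nat_lit 339) (nat_lit 258))) (XT.nd (nat_lit 78) (nat_lit 0) (nat_lit 0) (XT.lf (nat_lit 0) (nat_lit 10346349854844) (nat_lit 152) (nat_lit 43327784314468) (nat_lit 0) (nat_lit 10343333086875) (nat_lit 1) (nat_lit 5) (nat_lit 3) (nat_lit 4) (nat_lit 1) (nat_lit 4) (nat_lit 424) (nat_lit 339) (nat_lit 257)) (XT.lf (nat_lit 0) (nat_lit 11936628929274) (nat_lit 152) (nat_lit 49744029117601) (nat_lit 0) (nat_lit 11933612157158) (nat_lit 1) (nat_lit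 5) (nat_lit 3) (nat_lit 4) (nat_lit 1) (nat_lit 4) (nat_lit 425) (nat_lit 339) (nat_lit 256)))))) (XT.nd (nat_lit 2496) (nat_lit 0) (nat_lit 0) (XT.nd (nat_lit 234) (nat_lit 0) (nat_lit 0) (XT.nd (nat_lit 78) (nat_lit 0) (nat_lit 0) (XT.lf (nat_lit 0) (nat_lit 13765449765213) (nat_lit 152) (nat_lit 57122710854301) (nat_lit 0) (nat_lit 13762432989492) (nat_lit 1) (nat_lit 5) (nat_lit 3) (nat_lit 4) (nat_lit 1) (nat_lit 4) (nat_lit 426) (nat_lit 339) (nat_lit 255)) (XT.nd (nat_lit 78) (nat_lit 0) (nat_lit 0) (XT.lf (nat_lit 0) (nat_lit 15868593639887) (nat_lit 152) (nat_lit 65608195036808) (nat_lit 0) (nat_lit 15865576861029) (nat_lit 1) (nat_lit 5) (nat_lit 3) (nat_lit 4) (nat_lit 1) (nat_lit 4) (nat_lit 427) (nat_lit 339) (nat_lit 254)) (XT.lf (nat_lit 0) (nat_lit 18287209020407) (nat_lit 152) (nat_lit 75366502007822) (nat_lit 0) (nat_lit 18284192238824) (nat_lit 1) (nat_lit 5) (nat_lit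 3) (nat_lit 4) (nat_lit 1) (nat_lit 4) (nat_lit 428) (nat_lit 339) (nat_lit 253)))) (XT.nd (nat_lit 78) (nat_lit 0) (nat_lit 0) (XT.lf (nat_lit 0) (nat_lit 21068616642481) (nat_lit 152) (nat_lit 86588555164604) (nat_lit 0) (nat_lit 21065599858526) (nat_lit 1) (nat_lit 5) (nat_lit 3) (nat_lit 4) (nat_lit 1) (nat_lit 4) (nat_lit 429) (nat_lit 339) (nat_lit 252)) (XT.nd (nat_lit 2106) (nat_lit 0) (nat_lit 0) (XT.lf (nat_lit 0) (nat_lit 24267235350888) (nat_lit 152) (nat_lit 99493916416741) (nat_lit 0) (nat_lit 24264218564871) (nat_lit 1) (nat_lit 5) (nat_lit 3) (nat_lit 4) (nat_lit 1) (nat_lit 4) (nat_lit 430) (nat_lit 339) (nat_lit 251)) (XT.lf (nat_lit 0) (nat_lit 1067349791461743) (nat_lit 152) (nat_lit 4307985000997964) (nat_lit 0) (nat_lit 1067346774662303) (nat_lit 1) (nat_lit 5) (nat_lit 3) (nat_lit 4) (nat_lit 1) (nat_lit 4) (nat_lit 457) (nat_lit 339) (nat_lit 224))))) (XT.nd (nat_lit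 43914) (nat_lit 0) (nat_lit 3420) (XT.nd (nat_lit 78) (nat_lit 0) (nat_lit 0) (XT.lf (nat_lit 0) (nat_lit 1227490586020777) (nat_lit 152) (nat_lit 4954099829921142) (nat_lit 0) (nat_lit 1227487569221286) (nat_lit 1) (nat_lit 5) (nat_lit 3) (nat_lit 4) (nat_lit 1) (nat_lit 4) (nat_lit 458) (nat_lit 339) (nat_lit 223)) (XT.nd (nat_lit 78) (nat_lit 0) (nat_lit 0) (XT.lf (nat_lit 0) (nat_lit 1411652499762662) (nat_lit 152) (nat_lit 5697131883184927) (nat_lit 0) (nat_lit 1411649482963142) (nat_lit 1) (nat_lit 5) (nat_lit 3) (nat_lit 4) (nat_lit 1) (nat_lit 4) (nat_lit 459) (nat_lit 339) (nat_lit 222)) (XT.lf (nat_lit 0) (nat_lit 1623438700564975) (nat_lit 152) (nat_lit 6551618744440068) (nat_lit 0) (nat_lit 1623435683765434) (nat_lit 1) (nat_lit 5) (nat_lit 3) (nat_lit 4) (nat_lit 1) (nat_lit 4) (nat_lit 460) (nat_lit 339) (nat_lit 221)))) (XT.nd (nat_lit 156) (nat_lit 152) (nat_lit 0) (XT.nd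 (nat_lit 78) (nat_lit 76) (nat_lit 0) (XT.lf (nat_lit 0) (nat_lit 0) (nat_lit 0) (nat_lit 0) (nat_lit 0) (nat_lit 1073741823) (nat_lit 1) (nat_lit 0) (nat_lit 1) (nat_lit 0) (nat_lit 49) (nat_lit 0) (nat_lit 340) (nat_lit 340) (nat_lit 340)) (XT.lf (nat_lit 0) (nat_lit 3069314346) (nat_lit 76) (nat_lit 3108221147) (nat_lit 0) (nat_lit 285055112) (nat_lit 48) (nat_lit 5) (nat_lit 49) (nat_lit 0) (nat_lit 48) (nat_lit 4) (nat_lit 341) (nat_lit 340) (nat_lit 339))) (XT.nd (nat_lit 78) (nat_lit 76) (nat_lit 0) (XT.lf (nat_lit 0) (nat_lit 395925339) (nat_lit 76) (nat_lit 5686565806) (nat_lit 76) (nat_lit 481211585) (nat_lit 47) (nat_lit 4) (nat_lit 48) (nat_lit 5) (nat_lit 48) (nat_lit 4) (nat_lit 342) (nat_lit 340) (nat_lit 338)) (XT.lf (nat_lit 0) (nat_lit 2281585133) (nat_lit 152) (nat_lit 2405246170) (nat_lit 76) (nat_lit 2025311951) (nat_lit 46) (nat_lit 5) (nat_lit 48) (nat_lit 5) (nat_lit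 47) (nat_lit 4) (nat_lit 343) (nat_lit 340) (nat_lit 337))))))) (XT.nd (nat_lit 1014) (nat_lit 912) (nat_lit 0) (XT.nd (nat_lit 468) (nat_lit 608) (nat_lit 0) (XT.nd (nat_lit 234) (nat_lit 532) (nat_lit 0) (XT.nd (nat_lit 78) (nat_lit 304) (nat_lit 0) (XT.lf (nat_lit 0) (nat_lit 1704237674) (nat_lit 152) (nat_lit 3340221638) (nat_lit 228) (nat_lit 1890024486) (nat_lit 44) (nat_lit 5) (nat_lit 46) (nat_lit 5) (nat_lit 47) (nat_lit 4) (nat_lit 344) (nat_lit 340) (nat_lit 336)) (XT.nd (nat_lit 78) (nat_lit 228) (nat_lit 0) (XT.lf (nat_lit 0) (nat_lit 660023553) (nat_lit 228) (nat_lit 890498871) (nat_lit 76) (nat_lit 5675438903) (nat_lit 43) (nat_lit 5) (nat_lit 46) (nat_lit 5) (nat_lit 44) (nat_lit 5) (nat_lit 345) (nat_lit 340) (nat_lit 335)) (XT.lf (nat_lit 0) (nat_lit 3243666911) (nat_lit 304) (nat_lit 3563097026) (nat_lit 76) (nat_lit 764411541) (nat_lit 40) (nat_lit 5) (nat_lit 44) (nat_lit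 5) (nat_lit 41) (nat_lit 4) (nat_lit 346) (nat_lit 340) (nat_lit 334)))) (XT.nd (nat_lit 78) (nat_lit 228) (nat_lit 0) (XT.lf (nat_lit 0) (nat_lit 1478605026) (nat_lit 304) (nat_lit 4596879665) (nat_lit 380) (nat_lit 1913770055) (nat_lit 36) (nat_lit 5) (nat_lit 40) (nat_lit 5) (nat_lit 41) (nat_lit 4) (nat_lit 347) (nat_lit 340) (nat_lit 333)) (XT.nd (nat_lit 78) (nat_lit 152) (nat_lit 0) (XT.lf (nat_lit 0) (nat_lit 671047029) (nat_lit 380) (nat_lit 1181103979) (nat_lit 76) (nat_lit 6629810413) (nat_lit 35) (nat_lit 5) (nat_lit 40) (nat_lit 5) (nat_lit 36) (nat_lit 5) (nat_lit 348) (nat_lit 340) (nat_lit 332)) (XT.lf (nat_lit 0) (nat_lit 3450649153) (nat_lit 228) (nat_lit 4133562223) (nat_lit 76) (nat_lit 1450360026) (nat_lit 33) (nat_lit 5) (nat_lit 36) (nat_lit 5) (nat_lit 34) (nat_lit 4) (nat_lit 349) (nat_lit 340) (nat_lit 331))))) (XT.nd (nat_lit 234) (nat_lit 304) (nat_lit 0) (XT.nd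 (nat_lit 78) (nat_lit 228) (nat_lit 0) (XT.lf (nat_lit 0) (nat_lit 2122311586) (nat_lit 76) (nat_lit 4516398712) (nat_lit 152) (nat_lit 3032736080) (nat_lit 32) (nat_lit 5) (nat_lit 33) (nat_lit 5) (nat_lit 34) (nat_lit 4) (nat_lit 350) (nat_lit 340) (nat_lit 330)) (XT.nd (nat_lit 78) (nat_lit 228) (nat_lit 0) (XT.lf (nat_lit 0) (nat_lit 9453846117) (nat_lit 76) (nat_lit 836925804) (nat_lit 152) (nat_lit 115300074) (nat_lit 32) (nat_lit 5) (nat_lit 33) (nat_lit 5) (nat_lit 34) (nat_lit 4) (nat_lit 351) (nat_lit 340) (nat_lit 329)) (XT.lf (nat_lit 0) (nat_lit 3179471069) (nat_lit 228) (nat_lit 4576166312) (nat_lit 76) (nat_lit 3440976284) (nat_lit 29) (nat_lit 5) (nat_lit 32) (nat_lit 5) (nat_lit 30) (nat_lit 4) (nat_lit 352) (nat_lit 340) (nat_lit 328)))) (XT.nd (nat_lit 156) (nat_lit 228) (nat_lit 0) (XT.nd (nat_lit 78) (nat_lit 0) (nat_lit 0) (XT.lf (nat_lit 0) (nat_lit 3264124723) (nat_lit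 76) (nat_lit 3721142226) (nat_lit 152) (nat_lit 5115411948) (nat_lit 28) (nat_lit 5) (nat_lit 29) (nat_lit 5) (nat_lit 30) (nat_lit 4) (nat_lit 353) (nat_lit 340) (nat_lit 327)) (XT.lf (nat_lit 0) (nat_lit 11460562587) (nat_lit 152) (nat_lit 684257103) (nat_lit 0) (nat_lit 980790031) (nat_lit 28) (nat_lit 5) (nat_lit 30) (nat_lit 4) (nat_lit 28) (nat_lit 4) (nat_lit 354) (nat_lit 340) (nat_lit 326))) (XT.nd (nat_lit 78) (nat_lit 76) (nat_lit 0) (XT.lf (nat_lit 0) (nat_lit 2502313311) (nat_lit 152) (nat_lit 5324781335) (nat_lit 76) (nat_lit 6402251273) (nat_lit 26) (nat_lit 5) (nat_lit 28) (nat_lit 5) (nat_lit 27) (nat_lit 4) (nat_lit 355) (nat_lit 340) (nat_lit 325)) (XT.lf (nat_lit 0) (nat_lit 4554022800) (nat_lit 76) (nat_lit 2634077024) (nat_lit 152) (nat_lit 8289113979) (nat_lit 25) (nat_lit 5) (nat_lit 26) (nat_lit 5) (nat_lit 27) (nat_lit 4) (nat_lit 356) (nat_lit 340) (nat_lit 324))))))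 (XT.nd (nat_lit 468) (nat_lit 456) (nat_lit 0) (XT.nd (nat_lit 234) (nat_lit 228) (nat_lit 0) (XT.nd (nat_lit 78) (nat_lit 228) (nat_lit 0) (XT.lf (nat_lit 0) (nat_lit 12849196359) (nat_lit 152) (nat_lit 799562806) (nat_lit 0) (nat_lit 3222665195) (nat_lit 25) (nat_lit 5) (nat_lit 27) (nat_lit 4) (nat_lit 25) (nat_lit 4) (nat_lit 357) (nat_lit 340) (nat_lit 323)) (XT.nd (nat_lit 78) (nat_lit 76) (nat_lit 0) (XT.lf (nat_lit 0) (nat_lit 1292259844) (nat_lit 152) (nat_lit 6976806915) (nat_lit 76) (nat_lit 10127277000) (nat_lit 23) (nat_lit 5) (nat_lit 25) (nat_lit 5) (nat_lit 24) (nat_lit 4) (nat_lit 358) (nat_lit 340) (nat_lit 322)) (XT.lf (nat_lit 0) (nat_lit 5455283668) (nat_lit 76) (nat_lit 1671369942) (nat_lit 152) (nat_lit 12974456351) (nat_lit 22) (nat_lit 5) (nat_lit 23) (nat_lit 5) (nat_lit 24) (nat_lit 4) (nat_lit 359) (nat_lit 340) (nat_lit 321)))) (XT.nd (nat_lit 78) (nat_lit 228)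 (nat_lit 0) (XT.lf (nat_lit 0) (nat_lit 14330885509) (nat_lit 152) (nat_lit 1990232676) (nat_lit 0) (nat_lit 5666287514) (nat_lit 22) (nat_lit 5) (nat_lit 24) (nat_lit 4) (nat_lit 22) (nat_lit 4) (nat_lit 360) (nat_lit 340) (nat_lit 320)) (XT.nd (nat_lit 78) (nat_lit 152) (nat_lit 0) (XT.lf (nat_lit 0) (nat_lit 13458547174) (nat_lit 76) (nat_lit 9678994807) (nat_lit 76) (nat_lit 940849666) (nat_lit 21) (nat_lit 4) (nat_lit 22) (nat_lit 5) (nat_lit 22) (nat_lit 4) (nat_lit 361) (nat_lit 340) (nat_lit 319)) (XT.lf (nat_lit 0) (nat_lit 4907257245) (nat_lit 76) (nat_lit 1469187603) (nat_lit 152) (nat_lit 20034755794) (nat_lit 19) (nat_lit 5) (nat_lit 20) (nat_lit 5) (nat_lit 21) (nat_lit 4) (nat_lit 362) (nat_lit 340) (nat_lit 318))))) (XT.nd (nat_lit 234) (nat_lit 228) (nat_lit 0) (XT.nd (nat_lit 78) (nat_lit 228) (nat_lit 0) (XT.lf (nat_lit 0) (nat_lit 15494156557) (nat_lit 152) (nat_lit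 5681392444) (nat_lit 0) (nat_lit 7791798829) (nat_lit 19) (nat_lit 5) (nat_lit 21) (nat_lit 4) (nat_lit 19) (nat_lit 4) (nat_lit 363) (nat_lit 340) (nat_lit 317)) (XT.nd (nat_lit 78) (nat_lit 152) (nat_lit 0) (XT.lf (nat_lit 0) (nat_lit 13444706400) (nat_lit 76) (nat_lit 13063651267) (nat_lit 76) (nat_lit 5319242720) (nat_lit 18) (nat_lit 4) (nat_lit 19) (nat_lit 5) (nat_lit 19) (nat_lit 4) (nat_lit 364) (nat_lit 340) (nat_lit 316)) (XT.lf (nat_lit 0) (nat_lit 687548960) (nat_lit 76) (nat_lit 3251299150) (nat_lit 152) (nat_lit 31116499705) (nat_lit 16) (nat_lit 5) (nat_lit 17) (nat_lit 5) (nat_lit 18) (nat_lit 4) (nat_lit 365) (nat_lit 340) (nat_lit 315)))) (XT.nd (nat_lit 156) (nat_lit 152) (nat_lit 0) (XT.nd (nat_lit 78) (nat_lit 76) (nat_lit 0) (XT.lf (nat_lit 0) (nat_lit 15283993565) (nat_lit 152) (nat_lit 14768555357) (nat_lit 0) (nat_lit 8490279706) (nat_lit 16) (nat_lit 5) (nat_lit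 18) (nat_lit 4) (nat_lit 16) (nat_lit 4) (nat_lit 366) (nat_lit 340) (nat_lit 314)) (XT.lf (nat_lit 0) (nat_lit 8170730618) (nat_lit 76) (nat_lit 20569529864) (nat_lit 76) (nat_lit 13751773314) (nat_lit 15) (nat_lit 4) (nat_lit 16) (nat_lit 5) (nat_lit 16) (nat_lit 4) (nat_lit 367) (nat_lit 340) (nat_lit 313))) (XT.nd (nat_lit 78) (nat_lit 152) (nat_lit 0) (XT.lf (nat_lit 0) (nat_lit 36046096469) (nat_lit 76) (nat_lit 8861172663) (nat_lit 76) (nat_lit 2022509424) (nat_lit 15) (nat_lit 4) (nat_lit 16) (nat_lit 5) (nat_lit 16) (nat_lit 4) (nat_lit 368) (nat_lit 340) (nat_lit 312)) (XT.lf (nat_lit 0) (nat_lit 11318217842) (nat_lit 152) (nat_lit 35157075900) (nat_lit 0) (nat_lit 5355745695) (nat_lit 13) (nat_lit 5) (nat_lit 15) (nat_lit 4) (nat_lit 13) (nat_lit 4) (nat_lit 369) (nat_lit 340) (nat_lit 311))))))))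
noncomputable def xc48 : XT := (XT.nd (nat_lit 1950) (nat_lit 152) (nat_lit 0) (XT.nd (nat_lit 936) (nat_lit 228) (nat_lit 0) (XT.nd (nat_lit 468) (nat_lit 228) (nat_lit 0) (XT.nd (nat_lit 234) (nat_lit 228) (nat_lit 0) (XT.nd (nat_lit 78) (nat_lit 76) (nat_lit 0) (XT.lf (nat_lit 0) (nat_lit 27398813847) (nat_lit 152) (nat_lit 8489762657) (nat_lit 0) (nat_lit 21422595213) (nat_lit 13) (nat_lit 5) (nat_lit 15) (nat_lit 4) (nat_lit 13) (nat_lit 4) (nat_lit 370) (nat_lit 340) (nat_lit 310)) (XT.nd (nat_lit 78) (nat_lit 0) (nat_lit 0) (XT.lf (nat_lit 0) (nat_lit 24201175158) (nat_lit 76) (nat_lit 22629707779) (nat_lit 76) (nat_lit 16641535677) (nat_lit 12) (nat_lit 4) (nat_lit 13) (nat_lit 5) (nat_lit 13) (nat_lit 4) (nat_lit 371) (nat_lit 340) (nat_lit 309)) (XT.lf (nat_lit 0) (nat_lit 62624814655) (nat_lit 76) (nat_lit 6936999300) (nat_lit 76) (nat_lit 938432879) (nat_lit 12) (nat_lit 4)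 (nat_lit 13) (nat_lit 5) (nat_lit 13) (nat_lit 4) (nat_lit 372) (nat_lit 340) (nat_lit 308)))) (XT.nd (nat_lit 78) (nat_lit 76) (nat_lit 0) (XT.lf (nat_lit 0) (nat_lit 17337963659) (nat_lit 152) (nat_lit 48762694394) (nat_lit 0) (nat_lit 12113959346) (nat_lit 10) (nat_lit 5) (nat_lit 12) (nat_lit 4) (nat_lit 10) (nat_lit 4) (nat_lit 373) (nat_lit 340) (nat_lit 307)) (XT.nd (nat_lit 78) (nat_lit 76) (nat_lit 0) (XT.lf (nat_lit 0) (nat_lit 38967159275) (nat_lit 152) (nat_lit 14269849396) (nat_lit 0) (nat_lit 33736320528) (nat_lit 10) (nat_lit 5) (nat_lit 12) (nat_lit 4) (nat_lit 10) (nat_lit 4) (nat_lit 374) (nat_lit 340) (nat_lit 306)) (XT.lf (nat_lit 0) (nat_lit 27769784874) (nat_lit 76) (nat_lit 37173715437) (nat_lit 76) (nat_lit 31936933705) (nat_lit 9) (nat_lit 4) (nat_lit 10) (nat_lit 5) (nat_lit 10) (nat_lit 4) (nat_lit 375) (nat_lit 340) (nat_lit 305))))) (XT.nd (nat_lit 234) (nat_lit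 76) (nat_lit 0) (XT.nd (nat_lit 78) (nat_lit 152) (nat_lit 0) (XT.lf (nat_lit 0) (nat_lit 77624223003) (nat_lit 76) (nat_lit 17893089548) (nat_lit 76) (nat_lit 12651140002) (nat_lit 9) (nat_lit 4) (nat_lit 10) (nat_lit 5) (nat_lit 10) (nat_lit 4) (nat_lit 376) (nat_lit 340) (nat_lit 304)) (XT.nd (nat_lit 78) (nat_lit 0) (nat_lit 0) (XT.lf (nat_lit 0) (nat_lit 9467096557) (nat_lit 152) (nat_lit 106600261999) (nat_lit 0) (nat_lit 4904971951) (nat_lit 7) (nat_lit 5) (nat_lit 9) (nat_lit 4) (nat_lit 7) (nat_lit 4) (nat_lit 377) (nat_lit 340) (nat_lit 303)) (XT.lf (nat_lit 0) (nat_lit 36091750064) (nat_lit 152) (nat_lit 67615860346) (nat_lit 0) (nat_lit 31526227537) (nat_lit 7) (nat_lit 5) (nat_lit 9) (nat_lit 4) (nat_lit 7) (nat_lit 4) (nat_lit 378) (nat_lit 340) (nat_lit 302)))) (XT.nd (nat_lit 78) (nat_lit 76) (nat_lit 0) (XT.lf (nat_lit 0) (nat_lit 66674627817) (nat_lit 152) (nat_lit 22859114752)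 (nat_lit 0) (nat_lit 62106150576) (nat_lit 7) (nat_lit 5) (nat_lit 9) (nat_lit 4) (nat_lit 7) (nat_lit 4) (nat_lit 379) (nat_lit 340) (nat_lit 301)) (XT.nd (nat_lit 78) (nat_lit 0) (nat_lit 0) (XT.lf (nat_lit 0) (nat_lit 31335338785) (nat_lit 76) (nat_lit 71776281238) (nat_lit 76) (nat_lit 67205234680) (nat_lit 6) (nat_lit 4) (nat_lit 7) (nat_lit 5) (nat_lit 7) (nat_lit 4) (nat_lit 380) (nat_lit 340) (nat_lit 300)) (XT.lf (nat_lit 0) (nat_lit 96165497624) (nat_lit 76) (nat_lit 50014159800) (nat_lit 76) (nat_lit 45440879053) (nat_lit 6) (nat_lit 4) (nat_lit 7) (nat_lit 5) (nat_lit 7) (nat_lit 4) (nat_lit 381) (nat_lit 340) (nat_lit 299)))))) (XT.nd (nat_lit 468) (nat_lit 76) (nat_lit 0) (XT.nd (nat_lit 234) (nat_lit 0) (nat_lit 0) (XT.nd (nat_lit 78) (nat_lit 152) (nat_lit 0) (XT.lf (nat_lit 0) (nat_lit 170665818974) (nat_lit 76) (nat_lit 25016505888) (nat_lit 76) (nat_lit 20441282368) (nat_lit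 6) (nat_lit 4) (nat_lit 7) (nat_lit 5) (nat_lit 7) (nat_lit 4) (nat_lit 382) (nat_lit 340) (nat_lit 298)) (XT.nd (nat_lit 78) (nat_lit 0) (nat_lit 0) (XT.lf (nat_lit 0) (nat_lit 8269622716) (nat_lit 152) (nat_lit 231586059574) (nat_lit 0) (nat_lit 4289698466) (nat_lit 4) (nat_lit 5) (nat_lit 6) (nat_lit 4) (nat_lit 4) (nat_lit 4) (nat_lit 383) (nat_lit 340) (nat_lit 297)) (XT.lf (nat_lit 0) (nat_lit 42851726082) (nat_lit 152) (nat_lit 193953556818) (nat_lit 0) (nat_lit 38870524428) (nat_lit 4) (nat_lit 5) (nat_lit 6) (nat_lit 4) (nat_lit 4) (nat_lit 4) (nat_lit 384) (nat_lit 340) (nat_lit 296)))) (XT.nd (nat_lit 78) (nat_lit 0) (nat_lit 0) (XT.lf (nat_lit 0) (nat_lit 82600921666) (nat_lit 152) (nat_lit 150719300704) (nat_lit 0) (nat_lit 78618609225) (nat_lit 4) (nat_lit 5) (nat_lit 6) (nat_lit 4) (nat_lit 4) (nat_lit 4) (nat_lit 385) (nat_lit 340) (nat_lit 295)) (XT.nd (nat_lit 78) (nat_lit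 0) (nat_lit 0) (XT.lf (nat_lit 0) (nat_lit 128294911120) (nat_lit 152) (nat_lit 101037403613) (nat_lit 0) (nat_lit 124311632778) (nat_lit 4) (nat_lit 5) (nat_lit 6) (nat_lit 4) (nat_lit 4) (nat_lit 4) (nat_lit 386) (nat_lit 340) (nat_lit 294)) (XT.lf (nat_lit 0) (nat_lit 180827707281) (nat_lit 152) (nat_lit 43935828428) (nat_lit 0) (nat_lit 176843589025) (nat_lit 4) (nat_lit 5) (nat_lit 6) (nat_lit 4) (nat_lit 4) (nat_lit 4) (nat_lit 387) (nat_lit 340) (nat_lit 293))))) (XT.nd (nat_lit 234) (nat_lit 0) (nat_lit 0) (XT.nd (nat_lit 78) (nat_lit 0) (nat_lit 0) (XT.lf (nat_lit 0) (nat_lit 23823568383) (nat_lit 76) (nat_lit 218390040506) (nat_lit 76) (nat_lit 214405191890) (nat_lit 3) (nat_lit 4) (nat_lit 4) (nat_lit 5) (nat_lit 4) (nat_lit 4) (nat_lit 388) (nat_lit 340) (nat_lit 292)) (XT.nd (nat_lit 78) (nat_lit 0) (nat_lit 0) (XT.lf (nat_lit 0) (nat_lit 106657598048) (nat_lit 76) (nat_lit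 208433759847) (nat_lit 76) (nat_lit 204448276135) (nat_lit 3) (nat_lit 4) (nat_lit 4) (nat_lit 5) (nat_lit 4) (nat_lit 4) (nat_lit 389) (nat_lit 340) (nat_lit 291)) (XT.lf (nat_lit 0) (nat_lit 201893197678) (nat_lit 76) (nat_lit 196996542514) (nat_lit 76) (nat_lit 193010506544) (nat_lit 3) (nat_lit 4) (nat_lit 4) (nat_lit 5) (nat_lit 4) (nat_lit 4) (nat_lit 390) (nat_lit 340) (nat_lit 290)))) (XT.nd (nat_lit 156) (nat_lit 0) (nat_lit 0) (XT.nd (nat_lit 78) (nat_lit 0) (nat_lit 0) (XT.lf (nat_lit 0) (nat_lit 311393672482) (nat_lit 76) (nat_lit 183854616863) (nat_lit 76) (nat_lit 179868100670) (nat_lit 3) (nat_lit 4) (nat_lit 4) (nat_lit 5) (nat_lit 4) (nat_lit 4) (nat_lit 391) (nat_lit 340) (nat_lit 289)) (XT.lf (nat_lit 0) (nat_lit 437301423055) (nat_lit 76) (nat_lit 168750858262) (nat_lit 76) (nat_lit 164763924484) (nat_lit 3) (nat_lit 4) (nat_lit 4) (nat_lit 5) (nat_lit 4) (nat_lit 4)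 (nat_lit 392) (nat_lit 340) (nat_lit 288))) (XT.nd (nat_lit 78) (nat_lit 0) (nat_lit 0) (XT.lf (nat_lit 0) (nat_lit 582079861907) (nat_lit 76) (nat_lit 151389758391) (nat_lit 76) (nat_lit 147402461494) (nat_lit 3) (nat_lit 4) (nat_lit 4) (nat_lit 5) (nat_lit 4) (nat_lit 4) (nat_lit 393) (nat_lit 340) (nat_lit 287)) (XT.lf (nat_lit 0) (nat_lit 748561610668) (nat_lit 76) (nat_lit 131431643557) (nat_lit 76) (nat_lit 127444030905) (nat_lit 3) (nat_lit 4) (nat_lit 4) (nat_lit 5) (nat_lit 4) (nat_lit 4) (nat_lit 394) (nat_lit 340) (nat_lit 286))))))) (XT.nd (nat_lit 1014) (nat_lit 0) (nat_lit 0) (XT.nd (nat_lit 468) (nat_lit 0) (nat_lit 0) (XT.nd (nat_lit 234) (nat_lit 152) (nat_lit 0) (XT.nd (nat_lit 78) (nat_lit 0) (nat_lit 0) (XT.lf (nat_lit 0) (nat_lit 940003920945) (nat_lit 76) (nat_lit 108486028903) (nat_lit 76) (nat_lit 104498141682) (nat_lit 3) (nat_lit 4) (nat_lit 4) (nat_lit 5) (nat_lit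 4) (nat_lit 4) (nat_lit 395) (nat_lit 340) (nat_lit 285)) (XT.nd (nat_lit 78) (nat_lit 0) (nat_lit 0) (XT.lf (nat_lit 0) (nat_lit 1160152403156) (nat_lit 76) (nat_lit 82103978491) (nat_lit 76) (nat_lit 78115852514) (nat_lit 3) (nat_lit 4) (nat_lit 4) (nat_lit 5) (nat_lit 4) (nat_lit 4) (nat_lit 396) (nat_lit 340) (nat_lit 284)) (XT.lf (nat_lit 0) (nat_lit 1413314310214) (nat_lit 76) (nat_lit 51769321770) (nat_lit 76) (nat_lit 47780988179) (nat_lit 3) (nat_lit 4) (nat_lit 4) (nat_lit 5) (nat_lit 4) (nat_lit 4) (nat_lit 397) (nat_lit 340) (nat_lit 283)))) (XT.nd (nat_lit 78) (nat_lit 152) (nat_lit 0) (XT.lf (nat_lit 0) (nat_lit 1704442809865) (nat_lit 76) (nat_lit 16888554586) (nat_lit 76) (nat_lit 12900040461) (nat_lit 3) (nat_lit 4) (nat_lit 4) (nat_lit 5) (nat_lit 4) (nat_lit 4) (nat_lit 398) (nat_lit 340) (nat_lit 282)) (XT.nd (nat_lit 78) (nat_lit 0) (nat_lit 0) (XT.lf (nat_lit 0) (nat_lit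 28150032686) (nat_lit 152) (nat_lit 1935298574973) (nat_lit 0) (nat_lit 24681623024) (nat_lit 1) (nat_lit 5) (nat_lit 3) (nat_lit 4) (nat_lit 1) (nat_lit 4) (nat_lit 399) (nat_lit 340) (nat_lit 281)) (XT.lf (nat_lit 0) (nat_lit 76469114920) (nat_lit 152) (nat_lit 2130187203240) (nat_lit 0) (nat_lit 73000586554) (nat_lit 1) (nat_lit 5) (nat_lit 3) (nat_lit 4) (nat_lit 1) (nat_lit 4) (nat_lit 400) (nat_lit 340) (nat_lit 280))))) (XT.nd (nat_lit 234) (nat_lit 0) (nat_lit 0) (XT.nd (nat_lit 78) (nat_lit 0) (nat_lit 0) (XT.lf (nat_lit 0) (nat_lit 132033206838) (nat_lit 152) (nat_lit 2354315225679) (nat_lit 0) (nat_lit 128564575251) (nat_lit 1) (nat_lit 5) (nat_lit 3) (nat_lit 4) (nat_lit 1) (nat_lit 4) (nat_lit 401) (nat_lit 340) (nat_lit 279)) (XT.nd (nat_lit 78) (nat_lit 0) (nat_lit 0) (XT.lf (nat_lit 0) (nat_lit 195929431977) (nat_lit 152) (nat_lit 2612067755772) (nat_lit 0) (nat_lit 192460710634)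 (nat_lit 1) (nat_lit 5) (nat_lit 3) (nat_lit 4) (nat_lit 1) (nat_lit 4) (nat_lit 402) (nat_lit 340) (nat_lit 278)) (XT.lf (nat_lit 0) (nat_lit 269407933874) (nat_lit 152) (nat_lit 2908487777803) (nat_lit 0) (nat_lit 265939134480) (nat_lit 1) (nat_lit 5) (nat_lit 3) (nat_lit 4) (nat_lit 1) (nat_lit 4) (nat_lit 403) (nat_lit 340) (nat_lit 277)))) (XT.nd (nat_lit 156) (nat_lit 0) (nat_lit 0) (XT.nd (nat_lit 78) (nat_lit 0) (nat_lit 0) (XT.lf (nat_lit 0) (nat_lit 353906335390) (nat_lit 152) (nat_lit 3249374813943) (nat_lit 0) (nat_lit 350437468127) (nat_lit 1) (nat_lit 5) (nat_lit 3) (nat_lit 4) (nat_lit 1) (nat_lit 4) (nat_lit 404) (nat_lit 340) (nat_lit 276)) (XT.lf (nat_lit 0) (nat_lit 451077866122) (nat_lit 152) (nat_lit 3641398393159) (nat_lit 0) (nat_lit 447608939842) (nat_lit 1) (nat_lit 5) (nat_lit 3) (nat_lit 4) (nat_lit 1) (nat_lit 4) (nat_lit 405) (nat_lit 340) (nat_lit 275))) (XT.nd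 (nat_lit 78) (nat_lit 0) (nat_lit 0) (XT.lf (nat_lit 0) (nat_lit 562823708191) (nat_lit 152) (nat_lit 4092228542001) (nat_lit 0) (nat_lit 559354730592) (nat_lit 1) (nat_lit 5) (nat_lit 3) (nat_lit 4) (nat_lit 1) (nat_lit 4) (nat_lit 406) (nat_lit 340) (nat_lit 274)) (XT.lf (nat_lit 0) (nat_lit 691330193291) (nat_lit 152) (nat_lit 4610685850338) (nat_lit 0) (nat_lit 687861171067) (nat_lit 1) (nat_lit 5) (nat_lit 3) (nat_lit 4) (nat_lit 1) (nat_lit 4) (nat_lit 407) (nat_lit 340) (nat_lit 273)))))) (XT.nd (nat_lit 468) (nat_lit 0) (nat_lit 0) (XT.nd (nat_lit 234) (nat_lit 0) (nat_lit 0) (XT.nd (nat_lit 78) (nat_lit 0) (nat_lit 0) (XT.lf (nat_lit 0) (nat_lit 839111578739) (nat_lit 152) (nat_lit 5206914048115) (nat_lit 0) (nat_lit 835642517711) (nat_lit 1) (nat_lit 5) (nat_lit 3) (nat_lit 4) (nat_lit 1) (nat_lit 4) (nat_lit 408) (nat_lit 340) (nat_lit 272)) (XT.nd (nat_lit 78) (nat_lit 0) (nat_lit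 0) (XT.lf (nat_lit 0) (nat_lit 1009059239468) (nat_lit 152) (nat_lit 5892578469637) (nat_lit 0) (nat_lit 1005590144696) (nat_lit 1) (nat_lit 5) (nat_lit 3) (nat_lit 4) (nat_lit 1) (nat_lit 4) (nat_lit 409) (nat_lit 340) (nat_lit 271)) (XT.lf (nat_lit 0) (nat_lit 1204498238404) (nat_lit 152) (nat_lit 6681094288369) (nat_lit 0) (nat_lit 1201029114291) (nat_lit 1) (nat_lit 5) (nat_lit 3) (nat_lit 4) (nat_lit 1) (nat_lit 4) (nat_lit 410) (nat_lit 340) (nat_lit 270)))) (XT.nd (nat_lit 78) (nat_lit 0) (nat_lit 0) (XT.lf (nat_lit 0) (nat_lit 1429252382049) (nat_lit 152) (nat_lit 7587888987721) (nat_lit 0) (nat_lit 1425783232421) (nat_lit 1) (nat_lit 5) (nat_lit 3) (nat_lit 4) (nat_lit 1) (nat_lit 4) (nat_lit 411) (nat_lit 340) (nat_lit 269)) (XT.nd (nat_lit 78) (nat_lit 0) (nat_lit 0) (XT.lf (nat_lit 0) (nat_lit 1687719034083) (nat_lit 152) (nat_lit 8630704203113) (nat_lit 0) (nat_lit 1684249862268)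 (nat_lit 1) (nat_lit 5) (nat_lit 3) (nat_lit 4) (nat_lit 1) (nat_lit 4) (nat_lit 412) (nat_lit 340) (nat_lit 268)) (XT.lf (nat_lit 0) (nat_lit 1984955150741) (nat_lit 152) (nat_lit 9829942840936) (nat_lit 0) (nat_lit 1981485959633) (nat_lit 1) (nat_lit 5) (nat_lit 3) (nat_lit 4) (nat_lit 1) (nat_lit 4) (nat_lit 413) (nat_lit 340) (nat_lit 267))))) (XT.nd (nat_lit 234) (nat_lit 0) (nat_lit 0) (XT.nd (nat_lit 78) (nat_lit 0) (nat_lit 0) (XT.lf (nat_lit 0) (nat_lit 2326776221262) (nat_lit 152) (nat_lit 11209068265841) (nat_lit 0) (nat_lit 2323307013378) (nat_lit 1) (nat_lit 5) (nat_lit 3) (nat_lit 4) (nat_lit 1) (nat_lit 4) (nat_lit 414) (nat_lit 340) (nat_lit 266)) (XT.nd (nat_lit 78) (nat_lit 0) (nat_lit 0) (XT.lf (nat_lit 0) (nat_lit 2719870049200) (nat_lit 152) (nat_lit 12795063366577) (nat_lit 0) (nat_lit 2716400826728) (nat_lit 1) (nat_lit 5) (nat_lit 3) (nat_lit 4) (nat_lit 1) (nat_lit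 4) (nat_lit 415) (nat_lit 340) (nat_lit 265)) (XT.lf (nat_lit 0) (nat_lit 3171927600753) (nat_lit 152) (nat_lit 14618958482072) (nat_lit 0) (nat_lit 3168458365596) (nat_lit 1) (nat_lit 5) (nat_lit 3) (nat_lit 4) (nat_lit 1) (nat_lit 4) (nat_lit 416) (nat_lit 340) (nat_lit 264)))) (XT.nd (nat_lit 156) (nat_lit 0) (nat_lit 0) (XT.nd (nat_lit 78) (nat_lit 0) (nat_lit 0) (XT.lf (nat_lit 0) (nat_lit 3691793480192) (nat_lit 152) (nat_lit 16716438516758) (nat_lit 0) (nat_lit 3688324234004) (nat_lit 1) (nat_lit 5) (nat_lit 3) (nat_lit 4) (nat_lit 1) (nat_lit 4) (nat_lit 417) (nat_lit 340) (nat_lit 263)) (XT.lf (nat_lit 0) (nat_lit 4289638976461) (nat_lit 152) (nat_lit 19128541123489) (nat_lit 0) (nat_lit 4286169720681) (nat_lit 1) (nat_lit 5) (nat_lit 3) (nat_lit 4) (nat_lit 1) (nat_lit 4) (nat_lit 418) (nat_lit 340) (nat_lit 262))) (XT.nd (nat_lit 78) (nat_lit 0) (nat_lit 0) (XT.lf (nat_lit 0)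 (nat_lit 4977161066662) (nat_lit 152) (nat_lit 21902459614135) (nat_lit 0) (nat_lit 4973691802541) (nat_lit 1) (nat_lit 5) (nat_lit 3) (nat_lit 4) (nat_lit 1) (nat_lit 4) (nat_lit 419) (nat_lit 340) (nat_lit 261)) (XT.lf (nat_lit 0) (nat_lit 5767811269950) (nat_lit 152) (nat_lit 25092466306991) (nat_lit 0) (nat_lit 5764341998577) (nat_lit 1) (nat_lit 5) (nat_lit 3) (nat_lit 4) (nat_lit 1) (nat_lit 4) (nat_lit 420) (nat_lit 340) (nat_lit 260))))))))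
noncomputable def xc49 : XT := (XT.nd (nat_lit 47736) (nat_lit 0) (nat_lit 608) (XT.nd (nat_lit 2964) (nat_lit 0) (nat_lit 0) (XT.nd (nat_lit 468) (nat_lit 0) (nat_lit 0) (XT.nd (nat_lit 234) (nat_lit 0) (nat_lit 0) (XT.nd (nat_lit 78) (nat_lit 0) (nat_lit 0) (XT.lf (nat_lit 0) (nat_lit 6677058829434) (nat_lit 152) (nat_lit 28760974376484) (nat_lit 0) (nat_lit 6673589551754) (nat_lit 1) (nat_lit 5) (nat_lit 3) (nat_lit 4) (nat_lit 1) (nat_lit 4) (nat_lit 421) (nat_lit 340) (nat_lit 259)) (XT.nd (nat_lit 78) (nat_lit 0) (nat_lit 0) (XT.lf (nat_lit 0) (nat_lit 7722693371278) (nat_lit 152) (nat_lit 32979758980494) (nat_lit 0) (nat_lit 7719224088114) (nat_lit 1) (nat_lit 5) (nat_lit 3) (nat_lit 4) (nat_lit 1) (nat_lit 4) (nat_lit 422) (nat_lit 340) (nat_lit 258)) (XT.lf (nat_lit 0) (nat_lit 8925172962604) (nat_lit 152) (nat_lit 37831361556926) (nat_lit 0) (nat_lit 8921703674671) (nat_lit 1)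 (nat_lit 5) (nat_lit 3) (nat_lit 4) (nat_lit 1) (nat_lit 4) (nat_lit 423) (nat_lit 340) (nat_lit 257)))) (XT.nd (nat_lit 78) (nat_lit 0) (nat_lit 0) (XT.lf (nat_lit 0) (nat_lit 10308024378024) (nat_lit 152) (nat_lit 43410704764883) (nat_lit 0) (nat_lit 10304555085945) (nat_lit 1) (nat_lit 5) (nat_lit 3) (nat_lit 4) (nat_lit 1) (nat_lit 4) (nat_lit 424) (nat_lit 340) (nat_lit 256)) (XT.nd (nat_lit 78) (nat_lit 0) (nat_lit 0) (XT.lf (nat_lit 0) (nat_lit 11898303406103) (nat_lit 152) (nat_lit 49826949667132) (nat_lit 0) (nat_lit 11894834110418) (nat_lit 1) (nat_lit 5) (nat_lit 3) (nat_lit 4) (nat_lit 1) (nat_lit 4) (nat_lit 425) (nat_lit 340) (nat_lit 255)) (XT.lf (nat_lit 0) (nat_lit 13727124201737) (nat_lit 152) (nat_lit 57205631490018) (nat_lit 0) (nat_lit 13723654902916) (nat_lit 1) (nat_lit 5) (nat_lit 3) (nat_lit 4) (nat_lit 1) (nat_lit 4) (nat_lit 426) (nat_lit 340) (nat_lit 254)))))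 (XT.nd (nat_lit 234) (nat_lit 0) (nat_lit 0) (XT.nd (nat_lit 78) (nat_lit 0) (nat_lit 0) (XT.lf (nat_lit 0) (nat_lit 15830268041362) (nat_lit 152) (nat_lit 65691115747470) (nat_lit 0) (nat_lit 15826798739814) (nat_lit 1) (nat_lit 5) (nat_lit 3) (nat_lit 4) (nat_lit 1) (nat_lit 4) (nat_lit 427) (nat_lit 340) (nat_lit 253)) (XT.nd (nat_lit 78) (nat_lit 0) (nat_lit 0) (XT.lf (nat_lit 0) (nat_lit 18248883391406) (nat_lit 152) (nat_lit 75449422783654) (nat_lit 0) (nat_lit 18245414087487) (nat_lit 1) (nat_lit 5) (nat_lit 3) (nat_lit 4) (nat_lit 1) (nat_lit 4) (nat_lit 428) (nat_lit 340) (nat_lit 252)) (XT.lf (nat_lit 0) (nat_lit 21030290986979) (nat_lit 152) (nat_lit 86671475997104) (nat_lit 0) (nat_lit 21026821680998) (nat_lit 1) (nat_lit 5) (nat_lit 3) (nat_lit 4) (nat_lit 1) (nat_lit 4) (nat_lit 429) (nat_lit 340) (nat_lit 251)))) (XT.nd (nat_lit 2106) (nat_lit 0) (nat_lit 0) (XT.lf (nat_lit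 0) (nat_lit 24228909672340) (nat_lit 152) (nat_lit 99576837298519) (nat_lit 0) (nat_lit 24225440364567) (nat_lit 1) (nat_lit 5) (nat_lit 3) (nat_lit 4) (nat_lit 1) (nat_lit 4) (nat_lit 430) (nat_lit 340) (nat_lit 250)) (XT.nd (nat_lit 78) (nat_lit 0) (nat_lit 0) (XT.lf (nat_lit 0) (nat_lit 1067311465633091) (nat_lit 152) (nat_lit 4308067922200717) (nat_lit 0) (nat_lit 1067307996313643) (nat_lit 1) (nat_lit 5) (nat_lit 3) (nat_lit 4) (nat_lit 1) (nat_lit 4) (nat_lit 457) (nat_lit 340) (nat_lit 223)) (XT.lf (nat_lit 0) (nat_lit 1227452260191661) (nat_lit 152) (nat_lit 4954182751124876) (nat_lit 0) (nat_lit 1227448790872180) (nat_lit 1) (nat_lit 5) (nat_lit 3) (nat_lit 4) (nat_lit 1) (nat_lit 4) (nat_lit 458) (nat_lit 340) (nat_lit 222)))))) (XT.nd (nat_lit 44226) (nat_lit 0) (nat_lit 2356) (XT.nd (nat_lit 43992) (nat_lit 0) (nat_lit 3268) (XT.nd (nat_lit 78) (nat_lit 0) (nat_lit 0) (XT.lf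 (nat_lit 0) (nat_lit 1411614173933155) (nat_lit 152) (nat_lit 5697214804389511) (nat_lit 0) (nat_lit 1411610704613636) (nat_lit 1) (nat_lit 5) (nat_lit 3) (nat_lit 4) (nat_lit 1) (nat_lit 4) (nat_lit 459) (nat_lit 340) (nat_lit 221)) (XT.nd (nat_lit 43836) (nat_lit 0) (nat_lit 3572) (XT.lf (nat_lit 0) (nat_lit 1623400374735115) (nat_lit 152) (nat_lit 6551701665645407) (nat_lit 0) (nat_lit 1623396905415578) (nat_lit 1) (nat_lit 5) (nat_lit 3) (nat_lit 4) (nat_lit 1) (nat_lit 4) (nat_lit 460) (nat_lit 340) (nat_lit 220)) (XT.lf (nat_lit 0) (nat_lit 1464900028) (nat_lit 0) (nat_lit 1464900028) (nat_lit 76) (nat_lit 332601826) (nat_lit 48) (nat_lit 5) (nat_lit 48) (nat_lit 3) (nat_lit 49) (nat_lit 0) (nat_lit 341) (nat_lit 341) (nat_lit 338)))) (XT.nd (nat_lit 78) (nat_lit 76) (nat_lit 0) (XT.lf (nat_lit 0) (nat_lit 1771486994) (nat_lit 228) (nat_lit 323715086) (nat_lit 228) (nat_lit 4558225349)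 (nat_lit 45) (nat_lit 3) (nat_lit 48) (nat_lit 3) (nat_lit 48) (nat_lit 5) (nat_lit 342) (nat_lit 341) (nat_lit 337)) (XT.nd (nat_lit 78) (nat_lit 76) (nat_lit 0) (XT.lf (nat_lit 76) (nat_lit 3467034193) (nat_lit 0) (nat_lit 750695468) (nat_lit 228) (nat_lit 2622350529) (nat_lit 46) (nat_lit 5) (nat_lit 45) (nat_lit 3) (nat_lit 48) (nat_lit 5) (nat_lit 343) (nat_lit 341) (nat_lit 336)) (XT.lf (nat_lit 0) (nat_lit 522260267) (nat_lit 152) (nat_lit 6202119960) (nat_lit 228) (nat_lit 376599384) (nat_lit 44) (nat_lit 5) (nat_lit 46) (nat_lit 5) (nat_lit 47) (nat_lit 4) (nat_lit 344) (nat_lit 341) (nat_lit 335))))) (XT.nd (nat_lit 234) (nat_lit 608) (nat_lit 0) (XT.nd (nat_lit 78) (nat_lit 228) (nat_lit 0) (XT.lf (nat_lit 0) (nat_lit 1872305686) (nat_lit 228) (nat_lit 2451666384) (nat_lit 76) (nat_lit 3084140797) (nat_lit 43) (nat_lit 5) (nat_lit 46) (nat_lit 5) (nat_lit 44) (nat_lit 5) (nat_lit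 345) (nat_lit 341) (nat_lit 334)) (XT.nd (nat_lit 78) (nat_lit 0) (nat_lit 0) (XT.lf (nat_lit 0) (nat_lit 2191092975) (nat_lit 228) (nat_lit 2008515936) (nat_lit 304) (nat_lit 3592251536) (nat_lit 40) (nat_lit 5) (nat_lit 43) (nat_lit 5) (nat_lit 44) (nat_lit 5) (nat_lit 346) (nat_lit 341) (nat_lit 333)) (XT.lf (nat_lit 0) (nat_lit 6756315452) (nat_lit 304) (nat_lit 752047356) (nat_lit 76) (nat_lit 742915256) (nat_lit 40) (nat_lit 5) (nat_lit 44) (nat_lit 5) (nat_lit 41) (nat_lit 4) (nat_lit 347) (nat_lit 341) (nat_lit 332)))) (XT.nd (nat_lit 156) (nat_lit 76) (nat_lit 0) (XT.nd (nat_lit 78) (nat_lit 152) (nat_lit 0) (XT.lf (nat_lit 0) (nat_lit 891637082) (nat_lit 380) (nat_lit 3918344601) (nat_lit 76) (nat_lit 3955595792) (nat_lit 35) (nat_lit 5) (nat_lit 40) (nat_lit 5) (nat_lit 36) (nat_lit 5) (nat_lit 348) (nat_lit 341) (nat_lit 331)) (XT.lf (nat_lit 0) (nat_lit 1828680627) (nat_lit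 152) (nat_lit 1537474827) (nat_lit 228) (nat_lit 5997841683) (nat_lit 33) (nat_lit 5) (nat_lit 35) (nat_lit 5) (nat_lit 36) (nat_lit 5) (nat_lit 349) (nat_lit 341) (nat_lit 330))) (XT.nd (nat_lit 78) (nat_lit 76) (nat_lit 0) (XT.lf (nat_lit 0) (nat_lit 6301868254) (nat_lit 228) (nat_lit 1543391754) (nat_lit 76) (nat_lit 2193505329) (nat_lit 33) (nat_lit 5) (nat_lit 36) (nat_lit 5) (nat_lit 34) (nat_lit 4) (nat_lit 350) (nat_lit 341) (nat_lit 329)) (XT.lf (nat_lit 0) (nat_lit 5504944726) (nat_lit 76) (nat_lit 4285693967) (nat_lit 152) (nat_lit 1007281567) (nat_lit 32) (nat_lit 5) (nat_lit 33) (nat_lit 5) (nat_lit 34) (nat_lit 4) (nat_lit 351) (nat_lit 341) (nat_lit 328))))))) (XT.nd (nat_lit 1014) (nat_lit 760) (nat_lit 0) (XT.nd (nat_lit 468) (nat_lit 456) (nat_lit 0) (XT.nd (nat_lit 234) (nat_lit 228) (nat_lit 0) (XT.nd (nat_lit 78) (nat_lit 76) (nat_lit 0) (XT.lf (nat_lit 0) (nat_lit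 1925044385) (nat_lit 228) (nat_lit 9720653776) (nat_lit 76) (nat_lit 14609300) (nat_lit 29) (nat_lit 5) (nat_lit 32) (nat_lit 5) (nat_lit 30) (nat_lit 4) (nat_lit 352) (nat_lit 341) (nat_lit 327)) (XT.nd (nat_lit 78) (nat_lit 76) (nat_lit 0) (XT.lf (nat_lit 0) (nat_lit 5515378037) (nat_lit 228) (nat_lit 2298975647) (nat_lit 76) (nat_lit 4782361768) (nat_lit 29) (nat_lit 5) (nat_lit 32) (nat_lit 5) (nat_lit 30) (nat_lit 4) (nat_lit 353) (nat_lit 341) (nat_lit 326)) (XT.lf (nat_lit 0) (nat_lit 6582649243) (nat_lit 76) (nat_lit 3184056537) (nat_lit 152) (nat_lit 3888556053) (nat_lit 28) (nat_lit 5) (nat_lit 29) (nat_lit 5) (nat_lit 30) (nat_lit 4) (nat_lit 354) (nat_lit 341) (nat_lit 325)))) (XT.nd (nat_lit 78) (nat_lit 152) (nat_lit 0) (XT.lf (nat_lit 0) (nat_lit 2041908685) (nat_lit 76) (nat_lit 12769246806) (nat_lit 76) (nat_lit 38159342) (nat_lit 27) (nat_lit 4) (nat_lit 28) (nat_lit 5)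 (nat_lit 28) (nat_lit 4) (nat_lit 355) (nat_lit 341) (nat_lit 324)) (XT.nd (nat_lit 78) (nat_lit 76) (nat_lit 0) (XT.lf (nat_lit 0) (nat_lit 4396829162) (nat_lit 152) (nat_lit 3448023780) (nat_lit 76) (nat_lit 8290709465) (nat_lit 26) (nat_lit 5) (nat_lit 28) (nat_lit 5) (nat_lit 27) (nat_lit 4) (nat_lit 356) (nat_lit 341) (nat_lit 323)) (XT.lf (nat_lit 0) (nat_lit 7790988487) (nat_lit 76) (nat_lit 1902092697) (nat_lit 152) (nat_lit 7891430104) (nat_lit 25) (nat_lit 5) (nat_lit 26) (nat_lit 5) (nat_lit 27) (nat_lit 4) (nat_lit 357) (nat_lit 341) (nat_lit 322))))) (XT.nd (nat_lit 234) (nat_lit 228) (nat_lit 0) (XT.nd (nat_lit 78) (nat_lit 152) (nat_lit 0) (XT.lf (nat_lit 0) (nat_lit 1588415567) (nat_lit 76) (nat_lit 14535182732) (nat_lit 76) (nat_lit 3076251883) (nat_lit 24) (nat_lit 4) (nat_lit 25) (nat_lit 5) (nat_lit 25) (nat_lit 4) (nat_lit 358) (nat_lit 341) (nat_lit 321)) (XT.nd (nat_lit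 78) (nat_lit 76) (nat_lit 0) (XT.lf (nat_lit 0) (nat_lit 2751460196) (nat_lit 152) (nat_lit 5640557525) (nat_lit 76) (nat_lit 12573796111) (nat_lit 23) (nat_lit 5) (nat_lit 25) (nat_lit 5) (nat_lit 24) (nat_lit 4) (nat_lit 359) (nat_lit 341) (nat_lit 320)) (XT.lf (nat_lit 0) (nat_lit 8548038900) (nat_lit 76) (nat_lit 842107641) (nat_lit 152) (nat_lit 13546801521) (nat_lit 22) (nat_lit 5) (nat_lit 23) (nat_lit 5) (nat_lit 24) (nat_lit 4) (nat_lit 360) (nat_lit 341) (nat_lit 319)))) (XT.nd (nat_lit 156) (nat_lit 76) (nat_lit 0) (XT.nd (nat_lit 78) (nat_lit 152) (nat_lit 0) (XT.lf (nat_lit 0) (nat_lit 17558095772) (nat_lit 152) (nat_lit 193922438) (nat_lit 0) (nat_lit 7371727676) (nat_lit 22) (nat_lit 5) (nat_lit 24) (nat_lit 4) (nat_lit 22) (nat_lit 4) (nat_lit 361) (nat_lit 341) (nat_lit 318)) (XT.lf (nat_lit 0) (nat_lit 82841269) (nat_lit 152) (nat_lit 10063871574) (nat_lit 76) (nat_lit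 17389782548) (nat_lit 20) (nat_lit 5) (nat_lit 22) (nat_lit 5) (nat_lit 21) (nat_lit 4) (nat_lit 362) (nat_lit 341) (nat_lit 317))) (XT.nd (nat_lit 78) (nat_lit 0) (nat_lit 0) (XT.lf (nat_lit 0) (nat_lit 7651849982) (nat_lit 76) (nat_lit 693354076) (nat_lit 152) (nat_lit 21875744666) (nat_lit 19) (nat_lit 5) (nat_lit 20) (nat_lit 5) (nat_lit 21) (nat_lit 4) (nat_lit 363) (nat_lit 341) (nat_lit 316)) (XT.lf (nat_lit 0) (nat_lit 18734404810) (nat_lit 152) (nat_lit 4690831602) (nat_lit 0) (nat_lit 9749718232) (nat_lit 19) (nat_lit 5) (nat_lit 21) (nat_lit 4) (nat_lit 19) (nat_lit 4) (nat_lit 364) (nat_lit 341) (nat_lit 315)))))) (XT.nd (nat_lit 468) (nat_lit 304) (nat_lit 0) (XT.nd (nat_lit 234) (nat_lit 228) (nat_lit 0) (XT.nd (nat_lit 78) (nat_lit 152) (nat_lit 0) (XT.lf (nat_lit 0) (nat_lit 17220419809) (nat_lit 76) (nat_lit 14133658490) (nat_lit 76) (nat_lit 5117175451) (nat_lit 18) (nat_lit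 4) (nat_lit 19) (nat_lit 5) (nat_lit 19) (nat_lit 4) (nat_lit 365) (nat_lit 341) (nat_lit 314)) (XT.nd (nat_lit 78) (nat_lit 0) (nat_lit 0) (XT.lf (nat_lit 0) (nat_lit 2554765489) (nat_lit 76) (nat_lit 2840070614) (nat_lit 152) (nat_lit 34788989371) (nat_lit 16) (nat_lit 5) (nat_lit 17) (nat_lit 5) (nat_lit 18) (nat_lit 4) (nat_lit 366) (nat_lit 341) (nat_lit 313)) (XT.lf (nat_lit 0) (nat_lit 18361273711) (nat_lit 152) (nat_lit 15369328925) (nat_lit 0) (nat_lit 10475904297) (nat_lit 16) (nat_lit 5) (nat_lit 18) (nat_lit 4) (nat_lit 16) (nat_lit 4) (nat_lit 367) (nat_lit 341) (nat_lit 312)))) (XT.nd (nat_lit 78) (nat_lit 152) (nat_lit 0) (XT.lf (nat_lit 0) (nat_lit 10937463141) (nat_lit 76) (nat_lit 22859982430) (nat_lit 76) (nat_lit 14956433286) (nat_lit 15) (nat_lit 4) (nat_lit 16) (nat_lit 5) (nat_lit 16) (nat_lit 4) (nat_lit 368) (nat_lit 341) (nat_lit 311)) (XT.nd (nat_lit 78) (nat_lit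 152) (nat_lit 0) (XT.lf (nat_lit 0) (nat_lit 42793117835) (nat_lit 76) (nat_lit 9499064290) (nat_lit 76) (nat_lit 1579706686) (nat_lit 15) (nat_lit 4) (nat_lit 16) (nat_lit 5) (nat_lit 16) (nat_lit 4) (nat_lit 369) (nat_lit 341) (nat_lit 310)) (XT.lf (nat_lit 0) (nat_lit 13691449971) (nat_lit 152) (nat_lit 39019796821) (nat_lit 0) (nat_lit 6793098587) (nat_lit 13) (nat_lit 5) (nat_lit 15) (nat_lit 4) (nat_lit 13) (nat_lit 4) (nat_lit 370) (nat_lit 341) (nat_lit 309))))) (XT.nd (nat_lit 234) (nat_lit 228) (nat_lit 0) (XT.nd (nat_lit 78) (nat_lit 76) (nat_lit 0) (XT.lf (nat_lit 0) (nat_lit 32096026753) (nat_lit 152) (nat_lit 8536409261) (nat_lit 0) (nat_lit 25187281050) (nat_lit 13) (nat_lit 5) (nat_lit 15) (nat_lit 4) (nat_lit 13) (nat_lit 4) (nat_lit 371) (nat_lit 341) (nat_lit 308)) (XT.nd (nat_lit 78) (nat_lit 0) (nat_lit 0) (XT.lf (nat_lit 0) (nat_lit 29002404781) (nat_lit 76) (nat_lit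 25412376051) (nat_lit 76) (nat_lit 18494591810) (nat_lit 12) (nat_lit 4) (nat_lit 13) (nat_lit 5) (nat_lit 13) (nat_lit 4) (nat_lit 372) (nat_lit 341) (nat_lit 307)) (XT.lf (nat_lit 0) (nat_lit 73036844114) (nat_lit 76) (nat_lit 7445559722) (nat_lit 76) (nat_lit 519915881) (nat_lit 12) (nat_lit 4) (nat_lit 13) (nat_lit 5) (nat_lit 13) (nat_lit 4) (nat_lit 373) (nat_lit 341) (nat_lit 306)))) (XT.nd (nat_lit 156) (nat_lit 76) (nat_lit 0) (XT.nd (nat_lit 78) (nat_lit 0) (nat_lit 0) (XT.lf (nat_lit 0) (nat_lit 20446036155) (nat_lit 152) (nat_lit 55006860528) (nat_lit 0) (nat_lit 14417794177) (nat_lit 10) (nat_lit 5) (nat_lit 12) (nat_lit 4) (nat_lit 10) (nat_lit 4) (nat_lit 374) (nat_lit 341) (nat_lit 305)) (XT.lf (nat_lit 0) (nat_lit 45253431381) (nat_lit 152) (nat_lit 15479685045) (nat_lit 0) (nat_lit 39220021589) (nat_lit 10) (nat_lit 5) (nat_lit 12) (nat_lit 4) (nat_lit 10) (nat_lit 4)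 (nat_lit 375) (nat_lit 341) (nat_lit 304))) (XT.nd (nat_lit 78) (nat_lit 0) (nat_lit 0) (XT.lf (nat_lit 0) (nat_lit 32823592468) (nat_lit 76) (nat_lit 42281867770) (nat_lit 76) (nat_lit 36243964228) (nat_lit 9) (nat_lit 4) (nat_lit 10) (nat_lit 5) (nat_lit 10) (nat_lit 4) (nat_lit 376) (nat_lit 341) (nat_lit 303)) (XT.lf (nat_lit 0) (nat_lit 90040325899) (nat_lit 76) (nat_lit 20170179083) (nat_lit 76) (nat_lit 14128367931) (nat_lit 9) (nat_lit 4) (nat_lit 10) (nat_lit 5) (nat_lit 10) (nat_lit 4) (nat_lit 377) (nat_lit 341) (nat_lit 302))))))))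
noncomputable def xc50 : XT := (XT.nd (nat_lit 1950) (nat_lit 0) (nat_lit 0) (XT.nd (nat_lit 936) (nat_lit 152) (nat_lit 0) (XT.nd (nat_lit 468) (nat_lit 228) (nat_lit 0) (XT.nd (nat_lit 234) (nat_lit 76) (nat_lit 0) (XT.nd (nat_lit 78) (nat_lit 0) (nat_lit 0) (XT.lf (nat_lit 0) (nat_lit 11269122909) (nat_lit 152) (nat_lit 121779337335) (nat_lit 0) (nat_lit 6012419367) (nat_lit 7) (nat_lit 5) (nat_lit 9) (nat_lit 4) (nat_lit 7) (nat_lit 4) (nat_lit 378) (nat_lit 341) (nat_lit 301)) (XT.nd (nat_lit 78) (nat_lit 0) (nat_lit 0) (XT.lf (nat_lit 0) (nat_lit 41837653329) (nat_lit 152) (nat_lit 77053053341) (nat_lit 0) (nat_lit 36578380470) (nat_lit 7) (nat_lit 5) (nat_lit 9) (nat_lit 4) (nat_lit 7) (nat_lit 4) (nat_lit 379) (nat_lit 341) (nat_lit 300)) (XT.lf (nat_lit 0) (nat_lit 76964640038) (nat_lit 152) (nat_lit 25674776698) (nat_lit 0) (nat_lit 71703132990) (nat_lit 7) (nat_lit 5) (nat_lit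 9) (nat_lit 4) (nat_lit 7) (nat_lit 4) (nat_lit 380) (nat_lit 341) (nat_lit 299)))) (XT.nd (nat_lit 78) (nat_lit 0) (nat_lit 0) (XT.lf (nat_lit 0) (nat_lit 36620971903) (nat_lit 76) (nat_lit 82232774615) (nat_lit 76) (nat_lit 76969324795) (nat_lit 6) (nat_lit 4) (nat_lit 7) (nat_lit 5) (nat_lit 7) (nat_lit 4) (nat_lit 381) (nat_lit 341) (nat_lit 298)) (XT.nd (nat_lit 78) (nat_lit 0) (nat_lit 0) (XT.lf (nat_lit 0) (nat_lit 111099306877) (nat_lit 76) (nat_lit 57246763066) (nat_lit 76) (nat_lit 51981623879) (nat_lit 6) (nat_lit 4) (nat_lit 7) (nat_lit 5) (nat_lit 7) (nat_lit 4) (nat_lit 382) (nat_lit 341) (nat_lit 297)) (XT.lf (nat_lit 0) (nat_lit 196708287132) (nat_lit 76) (nat_lit 28534615942) (nat_lit 76) (nat_lit 23268007739) (nat_lit 6) (nat_lit 4) (nat_lit 7) (nat_lit 5) (nat_lit 7) (nat_lit 4) (nat_lit 383) (nat_lit 341) (nat_lit 296))))) (XT.nd (nat_lit 234) (nat_lit 76) (nat_lit 0)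 (XT.nd (nat_lit 78) (nat_lit 0) (nat_lit 0) (XT.lf (nat_lit 0) (nat_lit 9727819196) (nat_lit 152) (nat_lit 265859654282) (nat_lit 0) (nat_lit 5147049103) (nat_lit 4) (nat_lit 5) (nat_lit 6) (nat_lit 4) (nat_lit 4) (nat_lit 4) (nat_lit 384) (nat_lit 341) (nat_lit 295)) (XT.nd (nat_lit 78) (nat_lit 0) (nat_lit 0) (XT.lf (nat_lit 0) (nat_lit 49468835493) (nat_lit 152) (nat_lit 222642838838) (nat_lit 0) (nat_lit 44887099498) (nat_lit 4) (nat_lit 5) (nat_lit 6) (nat_lit 4) (nat_lit 4) (nat_lit 4) (nat_lit 385) (nat_lit 341) (nat_lit 294)) (XT.lf (nat_lit 0) (nat_lit 95155712523) (nat_lit 152) (nat_lit 172976107546) (nat_lit 0) (nat_lit 90573136614) (nat_lit 4) (nat_lit 5) (nat_lit 6) (nat_lit 4) (nat_lit 4) (nat_lit 4) (nat_lit 386) (nat_lit 341) (nat_lit 293)))) (XT.nd (nat_lit 78) (nat_lit 76) (nat_lit 0) (XT.lf (nat_lit 0) (nat_lit 147682323968) (nat_lit 152) (nat_lit 115887720013) (nat_lit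 0) (nat_lit 143099017699) (nat_lit 4) (nat_lit 5) (nat_lit 6) (nat_lit 4) (nat_lit 4) (nat_lit 4) (nat_lit 387) (nat_lit 341) (nat_lit 292)) (XT.nd (nat_lit 78) (nat_lit 76) (nat_lit 0) (XT.lf (nat_lit 0) (nat_lit 208076364399) (nat_lit 152) (nat_lit 50260729525) (nat_lit 0) (nat_lit 203492423035) (nat_lit 4) (nat_lit 5) (nat_lit 6) (nat_lit 4) (nat_lit 4) (nat_lit 4) (nat_lit 388) (nat_lit 341) (nat_lit 291)) (XT.lf (nat_lit 0) (nat_lit 27650509846) (nat_lit 76) (nat_lit 251013895149) (nat_lit 76) (nat_lit 246429401527) (nat_lit 3) (nat_lit 4) (nat_lit 4) (nat_lit 5) (nat_lit 4) (nat_lit 4) (nat_lit 389) (nat_lit 341) (nat_lit 290)))))) (XT.nd (nat_lit 468) (nat_lit 152) (nat_lit 0) (XT.nd (nat_lit 234) (nat_lit 0) (nat_lit 0) (XT.nd (nat_lit 78) (nat_lit 0) (nat_lit 0) (XT.lf (nat_lit 0) (nat_lit 122876590978) (nat_lit 76) (nat_lit 239581735622) (nat_lit 76) (nat_lit 234996761776) (nat_lit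 3) (nat_lit 4) (nat_lit 4) (nat_lit 5) (nat_lit 4) (nat_lit 4) (nat_lit 390) (nat_lit 341) (nat_lit 289)) (XT.nd (nat_lit 78) (nat_lit 0) (nat_lit 0) (XT.lf (nat_lit 0) (nat_lit 232368788827) (nat_lit 76) (nat_lit 226444208063) (nat_lit 76) (nat_lit 221858816631) (nat_lit 3) (nat_lit 4) (nat_lit 4) (nat_lit 5) (nat_lit 4) (nat_lit 4) (nat_lit 391) (nat_lit 341) (nat_lit 288)) (XT.lf (nat_lit 0) (nat_lit 358269342048) (nat_lit 76) (nat_lit 211344273890) (nat_lit 76) (nat_lit 206758519340) (nat_lit 3) (nat_lit 4) (nat_lit 4) (nat_lit 5) (nat_lit 4) (nat_lit 4) (nat_lit 392) (nat_lit 341) (nat_lit 287)))) (XT.nd (nat_lit 78) (nat_lit 0) (nat_lit 0) (XT.lf (nat_lit 0) (nat_lit 503041522333) (nat_lit 76) (nat_lit 193986499608) (nat_lit 76) (nat_lit 189400429304) (nat_lit 3) (nat_lit 4) (nat_lit 4) (nat_lit 5) (nat_lit 4) (nat_lit 4) (nat_lit 393) (nat_lit 341) (nat_lit 286)) (XT.nd (nat_lit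 78) (nat_lit 0) (nat_lit 0) (XT.lf (nat_lit 0) (nat_lit 669517828863) (nat_lit 76) (nat_lit 174031276590) (nat_lit 76) (nat_lit 169444931716) (nat_lit 3) (nat_lit 4) (nat_lit 4) (nat_lit 5) (nat_lit 4) (nat_lit 4) (nat_lit 394) (nat_lit 341) (nat_lit 285)) (XT.lf (nat_lit 0) (nat_lit 860955406764) (nat_lit 76) (nat_lit 151088176560) (nat_lit 76) (nat_lit 146501592930) (nat_lit 3) (nat_lit 4) (nat_lit 4) (nat_lit 5) (nat_lit 4) (nat_lit 4) (nat_lit 395) (nat_lit 341) (nat_lit 284))))) (XT.nd (nat_lit 234) (nat_lit 152) (nat_lit 0) (XT.nd (nat_lit 78) (nat_lit 0) (nat_lit 0) (XT.lf (nat_lit 0) (nat_lit 1081099773866) (nat_lit 76) (nat_lit 124708312777) (nat_lit 76) (nat_lit 120121521533) (nat_lit 3) (nat_lit 4) (nat_lit 4) (nat_lit 5) (nat_lit 4) (nat_lit 4) (nat_lit 396) (nat_lit 341) (nat_lit 283)) (XT.nd (nat_lit 78) (nat_lit 0) (nat_lit 0) (XT.lf (nat_lit 0) (nat_lit 1334258102567) (nat_lit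 76) (nat_lit 94375557473) (nat_lit 76) (nat_lit 89788585695) (nat_lit 3) (nat_lit 4) (nat_lit 4) (nat_lit 5) (nat_lit 4) (nat_lit 4) (nat_lit 397) (nat_lit 341) (nat_lit 282)) (XT.lf (nat_lit 0) (nat_lit 1625383490605) (nat_lit 76) (nat_lit 59496443695) (nat_lit 76) (nat_lit 54909314931) (nat_lit 3) (nat_lit 4) (nat_lit 4) (nat_lit 5) (nat_lit 4) (nat_lit 4) (nat_lit 398) (nat_lit 341) (nat_lit 281)))) (XT.nd (nat_lit 156) (nat_lit 0) (nat_lit 0) (XT.nd (nat_lit 78) (nat_lit 152) (nat_lit 0) (XT.lf (nat_lit 0) (nat_lit 1960171869483) (nat_lit 76) (nat_lit 19388554000) (nat_lit 76) (nat_lit 14801288726) (nat_lit 3) (nat_lit 4) (nat_lit 4) (nat_lit 5) (nat_lit 4) (nat_lit 4) (nat_lit 399) (nat_lit 341) (nat_lit 280)) (XT.lf (nat_lit 0) (nat_lit 32403253343) (nat_lit 152) (nat_lit 2225527680565) (nat_lit 0) (nat_lit 28414223798) (nat_lit 1) (nat_lit 5) (nat_lit 3) (nat_lit 4) (nat_lit 1) (nat_lit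 4) (nat_lit 400) (nat_lit 341) (nat_lit 279))) (XT.nd (nat_lit 78) (nat_lit 0) (nat_lit 0) (XT.lf (nat_lit 0) (nat_lit 87966191509) (nat_lit 152) (nat_lit 2449658170115) (nat_lit 0) (nat_lit 83977072207) (nat_lit 1) (nat_lit 5) (nat_lit 3) (nat_lit 4) (nat_lit 1) (nat_lit 4) (nat_lit 401) (nat_lit 341) (nat_lit 278)) (XT.lf (nat_lit 0) (nat_lit 151861413387) (nat_lit 152) (nat_lit 2707412845521) (nat_lit 0) (nat_lit 147872216034) (nat_lit 1) (nat_lit 5) (nat_lit 3) (nat_lit 4) (nat_lit 1) (nat_lit 4) (nat_lit 402) (nat_lit 341) (nat_lit 277))))))) (XT.nd (nat_lit 1014) (nat_lit 0) (nat_lit 0) (XT.nd (nat_lit 468) (nat_lit 0) (nat_lit 0) (XT.nd (nat_lit 234) (nat_lit 0) (nat_lit 0) (XT.nd (nat_lit 78) (nat_lit 0) (nat_lit 0) (XT.lf (nat_lit 0) (nat_lit 225339042881) (nat_lit 152) (nat_lit 3003834733042) (nat_lit 0) (nat_lit 221349777659) (nat_lit 1) (nat_lit 5) (nat_lit 3) (nat_lit 4) (nat_lit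 1) (nat_lit 4) (nat_lit 403) (nat_lit 341) (nat_lit 276)) (XT.nd (nat_lit 78) (nat_lit 0) (nat_lit 0) (XT.lf (nat_lit 0) (nat_lit 309836685787) (nat_lit 152) (nat_lit 3344723391347) (nat_lit 0) (nat_lit 305847361548) (nat_lit 1) (nat_lit 5) (nat_lit 3) (nat_lit 4) (nat_lit 1) (nat_lit 4) (nat_lit 404) (nat_lit 341) (nat_lit 275)) (XT.lf (nat_lit 0) (nat_lit 407007556857) (nat_lit 152) (nat_lit 3736748381142) (nat_lit 0) (nat_lit 403018181300) (nat_lit 1) (nat_lit 5) (nat_lit 3) (nat_lit 4) (nat_lit 1) (nat_lit 4) (nat_lit 405) (nat_lit 341) (nat_lit 274)))) (XT.nd (nat_lit 78) (nat_lit 0) (nat_lit 0) (XT.lf (nat_lit 0) (nat_lit 518752825308) (nat_lit 152) (nat_lit 4187579756574) (nat_lit 0) (nat_lit 514763405125) (nat_lit 1) (nat_lit 5) (nat_lit 3) (nat_lit 4) (nat_lit 1) (nat_lit 4) (nat_lit 406) (nat_lit 341) (nat_lit 273)) (XT.nd (nat_lit 78) (nat_lit 0) (nat_lit 0) (XT.lf (nat_lit 0)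 (nat_lit 647258811610) (nat_lit 152) (nat_lit 4706038131510) (nat_lit 0) (nat_lit 643269352622) (nat_lit 1) (nat_lit 5) (nat_lit 3) (nat_lit 4) (nat_lit 1) (nat_lit 4) (nat_lit 407) (nat_lit 341) (nat_lit 272)) (XT.lf (nat_lit 0) (nat_lit 795039763320) (nat_lit 152) (nat_lit 5302267256766) (nat_lit 0) (nat_lit 791050270589) (nat_lit 1) (nat_lit 5) (nat_lit 3) (nat_lit 4) (nat_lit 1) (nat_lit 4) (nat_lit 408) (nat_lit 341) (nat_lit 271))))) (XT.nd (nat_lit 234) (nat_lit 0) (nat_lit 0) (XT.nd (nat_lit 78) (nat_lit 0) (nat_lit 0) (XT.lf (nat_lit 0) (nat_lit 964987046885) (nat_lit 152) (nat_lit 5987932484791) (nat_lit 0) (nat_lit 960997524812) (nat_lit 1) (nat_lit 5) (nat_lit 3) (nat_lit 4) (nat_lit 1) (nat_lit 4) (nat_lit 409) (nat_lit 341) (nat_lit 270)) (XT.nd (nat_lit 78) (nat_lit 0) (nat_lit 0) (XT.lf (nat_lit 0) (nat_lit 1160425717853) (nat_lit 152) (nat_lit 6776449004830) (nat_lit 0)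 (nat_lit 1156436170266) (nat_lit 1) (nat_lit 5) (nat_lit 3) (nat_lit 4) (nat_lit 1) (nat_lit 4) (nat_lit 410) (nat_lit 341) (nat_lit 269)) (XT.lf (nat_lit 0) (nat_lit 1385179576308) (nat_lit 152) (nat_lit 7683244314013) (nat_lit 0) (nat_lit 1381190006534) (nat_lit 1) (nat_lit 5) (nat_lit 3) (nat_lit 4) (nat_lit 1) (nat_lit 4) (nat_lit 411) (nat_lit 341) (nat_lit 268)))) (XT.nd (nat_lit 156) (nat_lit 0) (nat_lit 0) (XT.nd (nat_lit 78) (nat_lit 0) (nat_lit 0) (XT.lf (nat_lit 0) (nat_lit 1643645980350) (nat_lit 152) (nat_lit 8726060059695) (nat_lit 0) (nat_lit 1639656391284) (nat_lit 1) (nat_lit 5) (nat_lit 3) (nat_lit 4) (nat_lit 1) (nat_lit 4) (nat_lit 412) (nat_lit 341) (nat_lit 267)) (XT.lf (nat_lit 0) (nat_lit 1940881881364) (nat_lit 152) (nat_lit 9925299158638) (nat_lit 0) (nat_lit 1936892275521) (nat_lit 1) (nat_lit 5) (nat_lit 3) (nat_lit 4) (nat_lit 1) (nat_lit 4) (nat_lit 413) (nat_lit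 341) (nat_lit 266))) (XT.nd (nat_lit 78) (nat_lit 0) (nat_lit 0) (XT.lf (nat_lit 0) (nat_lit 2282702764368) (nat_lit 152) (nat_lit 11304424984518) (nat_lit 0) (nat_lit 2278713143938) (nat_lit 1) (nat_lit 5) (nat_lit 3) (nat_lit 4) (nat_lit 1) (nat_lit 4) (nat_lit 414) (nat_lit 341) (nat_lit 265)) (XT.lf (nat_lit 0) (nat_lit 2675796429248) (nat_lit 152) (nat_lit 12890420433927) (nat_lit 0) (nat_lit 2671806796132) (nat_lit 1) (nat_lit 5) (nat_lit 3) (nat_lit 4) (nat_lit 1) (nat_lit 4) (nat_lit 415) (nat_lit 341) (nat_lit 264)))))) (XT.nd (nat_lit 468) (nat_lit 0) (nat_lit 0) (XT.nd (nat_lit 234) (nat_lit 0) (nat_lit 0) (XT.nd (nat_lit 78) (nat_lit 0) (nat_lit 0) (XT.lf (nat_lit 0) (nat_lit 3127853839012) (nat_lit 152) (nat_lit 14714315852616) (nat_lit 0) (nat_lit 3123864194865) (nat_lit 1) (nat_lit 5) (nat_lit 3) (nat_lit 4) (nat_lit 1) (nat_lit 4) (nat_lit 416) (nat_lit 341) (nat_lit 263))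 (XT.nd (nat_lit 78) (nat_lit 0) (nat_lit 0) (XT.lf (nat_lit 0) (nat_lit 3647719595155) (nat_lit 152) (nat_lit 16811796150950) (nat_lit 0) (nat_lit 3643729941416) (nat_lit 1) (nat_lit 5) (nat_lit 3) (nat_lit 4) (nat_lit 1) (nat_lit 4) (nat_lit 417) (nat_lit 341) (nat_lit 262)) (XT.lf (nat_lit 0) (nat_lit 4245564984211) (nat_lit 152) (nat_lit 19223898986939) (nat_lit 0) (nat_lit 4241575322132) (nat_lit 1) (nat_lit 5) (nat_lit 3) (nat_lit 4) (nat_lit 1) (nat_lit 4) (nat_lit 418) (nat_lit 341) (nat_lit 261)))) (XT.nd (nat_lit 78) (nat_lit 0) (nat_lit 0) (XT.lf (nat_lit 0) (nat_lit 4933086981182) (nat_lit 152) (nat_lit 21997817676940) (nat_lit 0) (nat_lit 4929097311851) (nat_lit 1) (nat_lit 5) (nat_lit 3) (nat_lit 4) (nat_lit 1) (nat_lit 4) (nat_lit 419) (nat_lit 341) (nat_lit 260)) (XT.nd (nat_lit 78) (nat_lit 0) (nat_lit 0) (XT.lf (nat_lit 0) (nat_lit 5723737103402) (nat_lit 152) (nat_lit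 25187824543149) (nat_lit 0) (nat_lit 5719747427764) (nat_lit 1) (nat_lit 5) (nat_lit 3) (nat_lit 4) (nat_lit 1) (nat_lit 4) (nat_lit 420) (nat_lit 341) (nat_lit 259)) (XT.lf (nat_lit 0) (nat_lit 6632984592392) (nat_lit 152) (nat_lit 28856332763383) (nat_lit 0) (nat_lit 6628994911269) (nat_lit 1) (nat_lit 5) (nat_lit 3) (nat_lit 4) (nat_lit 1) (nat_lit 4) (nat_lit 421) (nat_lit 341) (nat_lit 258))))) (XT.nd (nat_lit 234) (nat_lit 0) (nat_lit 0) (XT.nd (nat_lit 78) (nat_lit 0) (nat_lit 0) (XT.lf (nat_lit 0) (nat_lit 7678619072936) (nat_lit 152) (nat_lit 33075117498472) (nat_lit 0) (nat_lit 7674629387044) (nat_lit 1) (nat_lit 5) (nat_lit 3) (nat_lit 4) (nat_lit 1) (nat_lit 4) (nat_lit 422) (nat_lit 341) (nat_lit 257)) (XT.nd (nat_lit 78) (nat_lit 0) (nat_lit 0) (XT.lf (nat_lit 0) (nat_lit 8881098610957) (nat_lit 152) (nat_lit 37926720188886) (nat_lit 0) (nat_lit 8877108920919) (nat_lit 1)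 (nat_lit 5) (nat_lit 3) (nat_lit 4) (nat_lit 1) (nat_lit 4) (nat_lit 423) (nat_lit 341) (nat_lit 256)) (XT.lf (nat_lit 0) (nat_lit 10263949980027) (nat_lit 152) (nat_lit 43506063495958) (nat_lit 0) (nat_lit 10259960286382) (nat_lit 1) (nat_lit 5) (nat_lit 3) (nat_lit 4) (nat_lit 1) (nat_lit 4) (nat_lit 424) (nat_lit 341) (nat_lit 255)))) (XT.nd (nat_lit 156) (nat_lit 0) (nat_lit 0) (XT.nd (nat_lit 78) (nat_lit 0) (nat_lit 0) (XT.lf (nat_lit 0) (nat_lit 11854228967800) (nat_lit 152) (nat_lit 49922308484393) (nat_lit 0) (nat_lit 11850239271020) (nat_lit 1) (nat_lit 5) (nat_lit 3) (nat_lit 4) (nat_lit 1) (nat_lit 4) (nat_lit 425) (nat_lit 341) (nat_lit 254)) (XT.lf (nat_lit 0) (nat_lit 13683049728386) (nat_lit 152) (nat_lit 57300990382225) (nat_lit 0) (nat_lit 13679060028879) (nat_lit 1) (nat_lit 5) (nat_lit 3) (nat_lit 4) (nat_lit 1) (nat_lit 4) (nat_lit 426) (nat_lit 341) (nat_lit 253)))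 (XT.nd (nat_lit 78) (nat_lit 0) (nat_lit 0) (XT.lf (nat_lit 0) (nat_lit 15786193537534) (nat_lit 152) (nat_lit 65786474704846) (nat_lit 0) (nat_lit 15782203835656) (nat_lit 1) (nat_lit 5) (nat_lit 3) (nat_lit 4) (nat_lit 1) (nat_lit 4) (nat_lit 427) (nat_lit 341) (nat_lit 252)) (XT.lf (nat_lit 0) (nat_lit 18204808861077) (nat_lit 152) (nat_lit 75544781797699) (nat_lit 0) (nat_lit 18200819157137) (nat_lit 1) (nat_lit 5) (nat_lit 3) (nat_lit 4) (nat_lit 1) (nat_lit 4) (nat_lit 428) (nat_lit 341) (nat_lit 251))))))))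
noncomputable def xc51 : XT := (XT.nd (nat_lit 47970) (nat_lit 0) (nat_lit 228) (XT.nd (nat_lit 46956) (nat_lit 0) (nat_lit 1520) (XT.nd (nat_lit 46410) (nat_lit 0) (nat_lit 2584) (XT.nd (nat_lit 2262) (nat_lit 0) (nat_lit 0) (XT.nd (nat_lit 78) (nat_lit 0) (nat_lit 0) (XT.lf (nat_lit 0) (nat_lit 20986216433604) (nat_lit 152) (nat_lit 86766835060427) (nat_lit 0) (nat_lit 20982226727872) (nat_lit 1) (nat_lit 5) (nat_lit 3) (nat_lit 4) (nat_lit 1) (nat_lit 4) (nat_lit 429) (nat_lit 341) (nat_lit 250)) (XT.nd (nat_lit 2106) (nat_lit 0) (nat_lit 0) (XT.lf (nat_lit 0) (nat_lit 24184835098927) (nat_lit 152) (nat_lit 99672196404692) (nat_lit 0) (nat_lit 24180845391636) (nat_lit 1) (nat_lit 5) (nat_lit 3) (nat_lit 4) (nat_lit 1) (nat_lit 4) (nat_lit 430) (nat_lit 341) (nat_lit 249)) (XT.lf (nat_lit 0) (nat_lit 1067267390929156) (nat_lit 152) (nat_lit 4308163281585994) (nat_lit 0) (nat_lit 1067263401211710)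 (nat_lit 1) (nat_lit 5) (nat_lit 3) (nat_lit 4) (nat_lit 1) (nat_lit 4) (nat_lit 457) (nat_lit 341) (nat_lit 222)))) (XT.nd (nat_lit 78) (nat_lit 0) (nat_lit 0) (XT.lf (nat_lit 0) (nat_lit 1227408185487326) (nat_lit 152) (nat_lit 4954278110511013) (nat_lit 0) (nat_lit 1227404195769847) (nat_lit 1) (nat_lit 5) (nat_lit 3) (nat_lit 4) (nat_lit 1) (nat_lit 4) (nat_lit 458) (nat_lit 341) (nat_lit 221)) (XT.nd (nat_lit 43992) (nat_lit 0) (nat_lit 3344) (XT.lf (nat_lit 0) (nat_lit 1411570099228469) (nat_lit 152) (nat_lit 5697310163776387) (nat_lit 0) (nat_lit 1411566109510965) (nat_lit 1) (nat_lit 5) (nat_lit 3) (nat_lit 4) (nat_lit 1) (nat_lit 4) (nat_lit 459) (nat_lit 341) (nat_lit 220)) (XT.lf (nat_lit 0) (nat_lit 1974150425) (nat_lit 228) (nat_lit 714965260) (nat_lit 228) (nat_lit 714965260) (nat_lit 45) (nat_lit 3) (nat_lit 48) (nat_lit 3) (nat_lit 48) (nat_lit 5) (nat_lit 342) (nat_lit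 342) (nat_lit 336))))) (XT.nd (nat_lit 234) (nat_lit 532) (nat_lit 0) (XT.nd (nat_lit 78) (nat_lit 228) (nat_lit 0) (XT.lf (nat_lit 76) (nat_lit 2142509897) (nat_lit 0) (nat_lit 4022704623) (nat_lit 228) (nat_lit 864124818) (nat_lit 46) (nat_lit 5) (nat_lit 45) (nat_lit 3) (nat_lit 48) (nat_lit 5) (nat_lit 343) (nat_lit 342) (nat_lit 335)) (XT.nd (nat_lit 78) (nat_lit 0) (nat_lit 76) (XT.lf (nat_lit 0) (nat_lit 1030990064) (nat_lit 228) (nat_lit 1164297529) (nat_lit 304) (nat_lit 5120609559) (nat_lit 42) (nat_lit 5) (nat_lit 45) (nat_lit 3) (nat_lit 46) (nat_lit 5) (nat_lit 344) (nat_lit 342) (nat_lit 334)) (XT.lf (nat_lit 0) (nat_lit 2955320648) (nat_lit 228) (nat_lit 4527493514) (nat_lit 76) (nat_lit 181616581) (nat_lit 43) (nat_lit 5) (nat_lit 46) (nat_lit 5) (nat_lit 44) (nat_lit 5) (nat_lit 345) (nat_lit 342) (nat_lit 333)))) (XT.nd (nat_lit 156) (nat_lit 380) (nat_lit 0) (XT.nd (nat_lit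 78) (nat_lit 228) (nat_lit 0) (XT.lf (nat_lit 0) (nat_lit 5066067484) (nat_lit 228) (nat_lit 193242056) (nat_lit 76) (nat_lit 2821423904) (nat_lit 43) (nat_lit 5) (nat_lit 46) (nat_lit 5) (nat_lit 44) (nat_lit 5) (nat_lit 346) (nat_lit 342) (nat_lit 332)) (XT.lf (nat_lit 0) (nat_lit 5026559649) (nat_lit 228) (nat_lit 2439762342) (nat_lit 304) (nat_lit 1097359188) (nat_lit 40) (nat_lit 5) (nat_lit 43) (nat_lit 5) (nat_lit 44) (nat_lit 5) (nat_lit 347) (nat_lit 342) (nat_lit 331))) (XT.nd (nat_lit 78) (nat_lit 0) (nat_lit 0) (XT.lf (nat_lit 0) (nat_lit 911394750) (nat_lit 380) (nat_lit 7347031752) (nat_lit 76) (nat_lit 868498873) (nat_lit 35) (nat_lit 5) (nat_lit 40) (nat_lit 5) (nat_lit 36) (nat_lit 5) (nat_lit 348) (nat_lit 342) (nat_lit 330)) (XT.lf (nat_lit 0) (nat_lit 3215582301) (nat_lit 380) (nat_lit 1876402023) (nat_lit 76) (nat_lit 4658951308) (nat_lit 35) (nat_lit 5) (nat_lit 40)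 (nat_lit 5) (nat_lit 36) (nat_lit 5) (nat_lit 349) (nat_lit 342) (nat_lit 329)))))) (XT.nd (nat_lit 468) (nat_lit 532) (nat_lit 0) (XT.nd (nat_lit 234) (nat_lit 228) (nat_lit 0) (XT.nd (nat_lit 78) (nat_lit 152) (nat_lit 0) (XT.lf (nat_lit 0) (nat_lit 4613145432) (nat_lit 152) (nat_lit 1266395265) (nat_lit 228) (nat_lit 4586961924) (nat_lit 33) (nat_lit 5) (nat_lit 35) (nat_lit 5) (nat_lit 36) (nat_lit 5) (nat_lit 350) (nat_lit 342) (nat_lit 328)) (XT.nd (nat_lit 78) (nat_lit 76) (nat_lit 0) (XT.lf (nat_lit 0) (nat_lit 716240167) (nat_lit 76) (nat_lit 8325119594) (nat_lit 152) (nat_lit 2233371471) (nat_lit 32) (nat_lit 5) (nat_lit 33) (nat_lit 5) (nat_lit 34) (nat_lit 4) (nat_lit 351) (nat_lit 342) (nat_lit 327)) (XT.lf (nat_lit 0) (nat_lit 653293805) (nat_lit 152) (nat_lit 3554401932) (nat_lit 76) (nat_lit 7960283939) (nat_lit 31) (nat_lit 5) (nat_lit 33) (nat_lit 5) (nat_lit 32) (nat_lit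 5) (nat_lit 352) (nat_lit 342) (nat_lit 326)))) (XT.nd (nat_lit 78) (nat_lit 76) (nat_lit 0) (XT.lf (nat_lit 0) (nat_lit 3830310875) (nat_lit 228) (nat_lit 8601694788) (nat_lit 76) (nat_lit 734399862) (nat_lit 29) (nat_lit 5) (nat_lit 32) (nat_lit 5) (nat_lit 30) (nat_lit 4) (nat_lit 353) (nat_lit 342) (nat_lit 325)) (XT.nd (nat_lit 78) (nat_lit 76) (nat_lit 0) (XT.lf (nat_lit 0) (nat_lit 7748345466) (nat_lit 228) (nat_lit 402902817) (nat_lit 76) (nat_lit 6123715309) (nat_lit 29) (nat_lit 5) (nat_lit 32) (nat_lit 5) (nat_lit 30) (nat_lit 4) (nat_lit 354) (nat_lit 342) (nat_lit 324)) (XT.lf (nat_lit 0) (nat_lit 9709105844) (nat_lit 76) (nat_lit 2833493357) (nat_lit 152) (nat_lit 2963962192) (nat_lit 28) (nat_lit 5) (nat_lit 29) (nat_lit 5) (nat_lit 30) (nat_lit 4) (nat_lit 355) (nat_lit 342) (nat_lit 323))))) (XT.nd (nat_lit 234) (nat_lit 304) (nat_lit 0) (XT.nd (nat_lit 78) (nat_lit 76)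 (nat_lit 0) (XT.lf (nat_lit 0) (nat_lit 1281039941) (nat_lit 152) (nat_lit 12400200172) (nat_lit 76) (nat_lit 3197322425) (nat_lit 26) (nat_lit 5) (nat_lit 28) (nat_lit 5) (nat_lit 27) (nat_lit 4) (nat_lit 356) (nat_lit 342) (nat_lit 322)) (XT.nd (nat_lit 78) (nat_lit 76) (nat_lit 0) (XT.lf (nat_lit 0) (nat_lit 6205063446) (nat_lit 152) (nat_lit 1942184054) (nat_lit 76) (nat_lit 10236108324) (nat_lit 26) (nat_lit 5) (nat_lit 28) (nat_lit 5) (nat_lit 27) (nat_lit 4) (nat_lit 357) (nat_lit 342) (nat_lit 321)) (XT.lf (nat_lit 0) (nat_lit 10890723540) (nat_lit 76) (nat_lit 1335160189) (nat_lit 152) (nat_lit 7834274320) (nat_lit 25) (nat_lit 5) (nat_lit 26) (nat_lit 5) (nat_lit 27) (nat_lit 4) (nat_lit 358) (nat_lit 342) (nat_lit 320)))) (XT.nd (nat_lit 156) (nat_lit 152) (nat_lit 0) (XT.nd (nat_lit 78) (nat_lit 76) (nat_lit 0) (XT.lf (nat_lit 0) (nat_lit 3790967316) (nat_lit 76) (nat_lit 15801316523)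 (nat_lit 76) (nat_lit 2329844716) (nat_lit 24) (nat_lit 4) (nat_lit 25) (nat_lit 5) (nat_lit 25) (nat_lit 4) (nat_lit 359) (nat_lit 342) (nat_lit 319)) (XT.lf (nat_lit 0) (nat_lit 4120974217) (nat_lit 152) (nat_lit 4684924384) (nat_lit 76) (nat_lit 15161134005) (nat_lit 23) (nat_lit 5) (nat_lit 25) (nat_lit 5) (nat_lit 24) (nat_lit 4) (nat_lit 360) (nat_lit 342) (nat_lit 318))) (XT.nd (nat_lit 78) (nat_lit 76) (nat_lit 0) (XT.lf (nat_lit 0) (nat_lit 11550065287) (nat_lit 76) (nat_lit 151812981) (nat_lit 152) (nat_lit 14540013974) (nat_lit 22) (nat_lit 5) (nat_lit 23) (nat_lit 5) (nat_lit 24) (nat_lit 4) (nat_lit 361) (nat_lit 342) (nat_lit 317)) (XT.lf (nat_lit 0) (nat_lit 1493999225) (nat_lit 76) (nat_lit 19574477590) (nat_lit 76) (nat_lit 7692229591) (nat_lit 21) (nat_lit 4) (nat_lit 22) (nat_lit 5) (nat_lit 22) (nat_lit 4) (nat_lit 362) (nat_lit 342) (nat_lit 316))))))) (XT.nd (nat_lit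 1014) (nat_lit 456) (nat_lit 0) (XT.nd (nat_lit 468) (nat_lit 456) (nat_lit 0) (XT.nd (nat_lit 234) (nat_lit 228) (nat_lit 0) (XT.nd (nat_lit 78) (nat_lit 76) (nat_lit 0) (XT.lf (nat_lit 0) (nat_lit 903201903) (nat_lit 152) (nat_lit 9982414725) (nat_lit 76) (nat_lit 20660086260) (nat_lit 20) (nat_lit 5) (nat_lit 22) (nat_lit 5) (nat_lit 21) (nat_lit 4) (nat_lit 363) (nat_lit 342) (nat_lit 315)) (XT.nd (nat_lit 78) (nat_lit 0) (nat_lit 0) (XT.lf (nat_lit 0) (nat_lit 10318345175) (nat_lit 76) (nat_lit 44078044) (nat_lit 152) (nat_lit 24276785384) (nat_lit 19) (nat_lit 5) (nat_lit 20) (nat_lit 5) (nat_lit 21) (nat_lit 4) (nat_lit 364) (nat_lit 342) (nat_lit 314)) (XT.lf (nat_lit 0) (nat_lit 22237287475) (nat_lit 152) (nat_lit 4001057698) (nat_lit 0) (nat_lit 11808886424) (nat_lit 19) (nat_lit 5) (nat_lit 21) (nat_lit 4) (nat_lit 19) (nat_lit 4) (nat_lit 365) (nat_lit 342) (nat_lit 313))))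 (XT.nd (nat_lit 78) (nat_lit 152) (nat_lit 0) (XT.lf (nat_lit 0) (nat_lit 21133545124) (nat_lit 76) (nat_lit 15581086872) (nat_lit 76) (nat_lit 5128643129) (nat_lit 18) (nat_lit 4) (nat_lit 19) (nat_lit 5) (nat_lit 19) (nat_lit 4) (nat_lit 366) (nat_lit 342) (nat_lit 312)) (XT.nd (nat_lit 78) (nat_lit 0) (nat_lit 0) (XT.lf (nat_lit 0) (nat_lit 4271881399) (nat_lit 76) (nat_lit 2586365964) (nat_lit 152) (nat_lit 39254985951) (nat_lit 16) (nat_lit 5) (nat_lit 17) (nat_lit 5) (nat_lit 18) (nat_lit 4) (nat_lit 367) (nat_lit 342) (nat_lit 311)) (XT.lf (nat_lit 0) (nat_lit 21708796422) (nat_lit 152) (nat_lit 16453926951) (nat_lit 0) (nat_lit 12585726717) (nat_lit 16) (nat_lit 5) (nat_lit 18) (nat_lit 4) (nat_lit 16) (nat_lit 4) (nat_lit 368) (nat_lit 342) (nat_lit 310))))) (XT.nd (nat_lit 234) (nat_lit 228) (nat_lit 0) (XT.nd (nat_lit 78) (nat_lit 152) (nat_lit 0) (XT.lf (nat_lit 0) (nat_lit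 13743392956) (nat_lit 76) (nat_lit 25687863036) (nat_lit 76) (nat_lit 16551046843) (nat_lit 15) (nat_lit 4) (nat_lit 16) (nat_lit 5) (nat_lit 16) (nat_lit 4) (nat_lit 369) (nat_lit 342) (nat_lit 309)) (XT.nd (nat_lit 78) (nat_lit 152) (nat_lit 0) (XT.lf (nat_lit 0) (nat_lit 50225398852) (nat_lit 76) (nat_lit 10401213708) (nat_lit 76) (nat_lit 1252444049) (nat_lit 15) (nat_lit 4) (nat_lit 16) (nat_lit 5) (nat_lit 16) (nat_lit 4) (nat_lit 370) (nat_lit 342) (nat_lit 308)) (XT.lf (nat_lit 0) (nat_lit 16255942100) (nat_lit 152) (nat_lit 43805968262) (nat_lit 0) (nat_lit 8291451684) (nat_lit 13) (nat_lit 5) (nat_lit 15) (nat_lit 4) (nat_lit 13) (nat_lit 4) (nat_lit 371) (nat_lit 342) (nat_lit 307)))) (XT.nd (nat_lit 156) (nat_lit 152) (nat_lit 0) (XT.nd (nat_lit 78) (nat_lit 76) (nat_lit 0) (XT.lf (nat_lit 0) (nat_lit 37354582621) (nat_lit 152) (nat_lit 8889220144) (nat_lit 0) (nat_lit 29382232606)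 (nat_lit 13) (nat_lit 5) (nat_lit 15) (nat_lit 4) (nat_lit 13) (nat_lit 4) (nat_lit 372) (nat_lit 342) (nat_lit 306)) (XT.lf (nat_lit 0) (nat_lit 34238250073) (nat_lit 76) (nat_lit 28761632918) (nat_lit 76) (nat_lit 20782448468) (nat_lit 12) (nat_lit 4) (nat_lit 13) (nat_lit 5) (nat_lit 13) (nat_lit 4) (nat_lit 373) (nat_lit 342) (nat_lit 305))) (XT.nd (nat_lit 78) (nat_lit 152) (nat_lit 0) (XT.lf (nat_lit 0) (nat_lit 84762357317) (nat_lit 76) (nat_lit 8160133209) (nat_lit 76) (nat_lit 175005774) (nat_lit 12) (nat_lit 4) (nat_lit 13) (nat_lit 5) (nat_lit 13) (nat_lit 4) (nat_lit 374) (nat_lit 342) (nat_lit 304)) (XT.lf (nat_lit 0) (nat_lit 23896592200) (nat_lit 152) (nat_lit 62448635902) (nat_lit 0) (nat_lit 16948509375) (nat_lit 10) (nat_lit 5) (nat_lit 12) (nat_lit 4) (nat_lit 10) (nat_lit 4) (nat_lit 375) (nat_lit 342) (nat_lit 303)))))) (XT.nd (nat_lit 468) (nat_lit 228) (nat_lit 0)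 (XT.nd (nat_lit 234) (nat_lit 152) (nat_lit 0) (XT.nd (nat_lit 78) (nat_lit 76) (nat_lit 0) (XT.lf (nat_lit 0) (nat_lit 52375055324) (nat_lit 152) (nat_lit 17097938928) (nat_lit 0) (nat_lit 45423064890) (nat_lit 10) (nat_lit 5) (nat_lit 12) (nat_lit 4) (nat_lit 10) (nat_lit 4) (nat_lit 376) (nat_lit 342) (nat_lit 302)) (XT.nd (nat_lit 78) (nat_lit 0) (nat_lit 0) (XT.lf (nat_lit 0) (nat_lit 38418843900) (nat_lit 76) (nat_lit 48270344547) (nat_lit 76) (nat_lit 41314956191) (nat_lit 9) (nat_lit 4) (nat_lit 10) (nat_lit 5) (nat_lit 10) (nat_lit 4) (nat_lit 377) (nat_lit 342) (nat_lit 301)) (XT.lf (nat_lit 0) (nat_lit 104130472664) (nat_lit 76) (nat_lit 22888050825) (nat_lit 76) (nat_lit 15929707754) (nat_lit 9) (nat_lit 4) (nat_lit 10) (nat_lit 5) (nat_lit 10) (nat_lit 4) (nat_lit 378) (nat_lit 342) (nat_lit 300)))) (XT.nd (nat_lit 78) (nat_lit 0) (nat_lit 0) (XT.lf (nat_lit 0) (nat_lit 13248309393)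 (nat_lit 152) (nat_lit 139433032668) (nat_lit 0) (nat_lit 7195342100) (nat_lit 7) (nat_lit 5) (nat_lit 9) (nat_lit 4) (nat_lit 7) (nat_lit 4) (nat_lit 379) (nat_lit 342) (nat_lit 299)) (XT.nd (nat_lit 78) (nat_lit 0) (nat_lit 0) (XT.lf (nat_lit 0) (nat_lit 48364447457) (nat_lit 152) (nat_lit 88077789372) (nat_lit 0) (nat_lit 42309537391) (nat_lit 7) (nat_lit 5) (nat_lit 9) (nat_lit 4) (nat_lit 7) (nat_lit 4) (nat_lit 380) (nat_lit 342) (nat_lit 298)) (XT.lf (nat_lit 0) (nat_lit 88727723982) (nat_lit 152) (nat_lit 29062321924) (nat_lit 0) (nat_lit 82671124548) (nat_lit 7) (nat_lit 5) (nat_lit 9) (nat_lit 4) (nat_lit 7) (nat_lit 4) (nat_lit 381) (nat_lit 342) (nat_lit 297))))) (XT.nd (nat_lit 234) (nat_lit 152) (nat_lit 0) (XT.nd (nat_lit 78) (nat_lit 0) (nat_lit 0) (XT.lf (nat_lit 0) (nat_lit 42556713000) (nat_lit 76) (nat_lit 94333324979) (nat_lit 76) (nat_lit 88275256530) (nat_lit 6) (nat_lit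 4) (nat_lit 7) (nat_lit 5) (nat_lit 7) (nat_lit 4) (nat_lit 382) (nat_lit 342) (nat_lit 296)) (XT.nd (nat_lit 78) (nat_lit 0) (nat_lit 0) (XT.lf (nat_lit 0) (nat_lit 128149068397) (nat_lit 76) (nat_lit 65629981153) (nat_lit 76) (nat_lit 59570635301) (nat_lit 6) (nat_lit 4) (nat_lit 7) (nat_lit 5) (nat_lit 7) (nat_lit 4) (nat_lit 383) (nat_lit 342) (nat_lit 295)) (XT.lf (nat_lit 0) (nat_lit 226549195844) (nat_lit 76) (nat_lit 32637594096) (nat_lit 76) (nat_lit 26577137457) (nat_lit 6) (nat_lit 4) (nat_lit 7) (nat_lit 5) (nat_lit 7) (nat_lit 4) (nat_lit 384) (nat_lit 342) (nat_lit 294)))) (XT.nd (nat_lit 156) (nat_lit 0) (nat_lit 0) (XT.nd (nat_lit 78) (nat_lit 0) (nat_lit 0) (XT.lf (nat_lit 0) (nat_lit 11351644682) (nat_lit 152) (nat_lit 305387514160) (nat_lit 0) (nat_lit 6080842473) (nat_lit 4) (nat_lit 5) (nat_lit 6) (nat_lit 4) (nat_lit 4) (nat_lit 4) (nat_lit 385) (nat_lit 342) (nat_lit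 293)) (XT.lf (nat_lit 0) (nat_lit 57032336997) (nat_lit 152) (nat_lit 255733970521) (nat_lit 0) (nat_lit 51760804427) (nat_lit 4) (nat_lit 5) (nat_lit 6) (nat_lit 4) (nat_lit 4) (nat_lit 4) (nat_lit 386) (nat_lit 342) (nat_lit 292))) (XT.nd (nat_lit 78) (nat_lit 0) (nat_lit 0) (XT.lf (nat_lit 0) (nat_lit 109553570428) (nat_lit 152) (nat_lit 198657050511) (nat_lit 0) (nat_lit 104281402762) (nat_lit 4) (nat_lit 5) (nat_lit 6) (nat_lit 4) (nat_lit 4) (nat_lit 4) (nat_lit 387) (nat_lit 342) (nat_lit 291)) (XT.lf (nat_lit 0) (nat_lit 169942934325) (nat_lit 152) (nat_lit 133040031782) (nat_lit 0) (nat_lit 164670214402) (nat_lit 4) (nat_lit 5) (nat_lit 6) (nat_lit 4) (nat_lit 4) (nat_lit 4) (nat_lit 388) (nat_lit 342) (nat_lit 290))))))))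
noncomputable def xc52 : XT := (XT.nd (nat_lit 1950) (nat_lit 0) (nat_lit 0) (XT.nd (nat_lit 936) (nat_lit 152) (nat_lit 0) (XT.nd (nat_lit 468) (nat_lit 0) (nat_lit 0) (XT.nd (nat_lit 234) (nat_lit 0) (nat_lit 0) (XT.nd (nat_lit 78) (nat_lit 76) (nat_lit 0) (XT.lf (nat_lit 0) (nat_lit 239381959722) (nat_lit 152) (nat_lit 57599103099) (nat_lit 0) (nat_lit 234108759576) (nat_lit 4) (nat_lit 5) (nat_lit 6) (nat_lit 4) (nat_lit 4) (nat_lit 4) (nat_lit 389) (nat_lit 342) (nat_lit 289)) (XT.nd (nat_lit 78) (nat_lit 0) (nat_lit 0) (XT.lf (nat_lit 0) (nat_lit 31989697820) (nat_lit 76) (nat_lit 288564163593) (nat_lit 76) (nat_lit 283290545861) (nat_lit 3) (nat_lit 4) (nat_lit 4) (nat_lit 5) (nat_lit 4) (nat_lit 4) (nat_lit 390) (nat_lit 342) (nat_lit 288)) (XT.lf (nat_lit 0) (nat_lit 141474698318) (nat_lit 76) (nat_lit 275430460462) (nat_lit 76) (nat_lit 270156479612) (nat_lit 3) (nat_lit 4) (nat_lit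 4) (nat_lit 5) (nat_lit 4) (nat_lit 4) (nat_lit 391) (nat_lit 342) (nat_lit 287)))) (XT.nd (nat_lit 78) (nat_lit 0) (nat_lit 0) (XT.lf (nat_lit 0) (nat_lit 267368992972) (nat_lit 76) (nat_lit 260333851879) (nat_lit 76) (nat_lit 255059555274) (nat_lit 3) (nat_lit 4) (nat_lit 4) (nat_lit 5) (nat_lit 4) (nat_lit 4) (nat_lit 392) (nat_lit 342) (nat_lit 286)) (XT.nd (nat_lit 78) (nat_lit 0) (nat_lit 0) (XT.lf (nat_lit 0) (nat_lit 412135731025) (nat_lit 76) (nat_lit 242978969414) (nat_lit 76) (nat_lit 237704398239) (nat_lit 3) (nat_lit 4) (nat_lit 4) (nat_lit 5) (nat_lit 4) (nat_lit 4) (nat_lit 393) (nat_lit 342) (nat_lit 285)) (XT.lf (nat_lit 0) (nat_lit 578607305179) (nat_lit 76) (nat_lit 223026261019) (nat_lit 76) (nat_lit 217751451089) (nat_lit 3) (nat_lit 4) (nat_lit 4) (nat_lit 5) (nat_lit 4) (nat_lit 4) (nat_lit 394) (nat_lit 342) (nat_lit 284))))) (XT.nd (nat_lit 234) (nat_lit 0) (nat_lit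 0) (XT.nd (nat_lit 78) (nat_lit 0) (nat_lit 0) (XT.lf (nat_lit 0) (nat_lit 770040767971) (nat_lit 76) (nat_lit 200085347618) (nat_lit 76) (nat_lit 194810330073) (nat_lit 3) (nat_lit 4) (nat_lit 4) (nat_lit 5) (nat_lit 4) (nat_lit 4) (nat_lit 395) (nat_lit 342) (nat_lit 283)) (XT.nd (nat_lit 78) (nat_lit 0) (nat_lit 0) (XT.lf (nat_lit 0) (nat_lit 990181556717) (nat_lit 76) (nat_lit 173707385252) (nat_lit 76) (nat_lit 168432187173) (nat_lit 3) (nat_lit 4) (nat_lit 4) (nat_lit 5) (nat_lit 4) (nat_lit 4) (nat_lit 396) (nat_lit 342) (nat_lit 282)) (XT.lf (nat_lit 0) (nat_lit 1243336773805) (nat_lit 76) (nat_lit 143376283353) (nat_lit 76) (nat_lit 138100928289) (nat_lit 3) (nat_lit 4) (nat_lit 4) (nat_lit 5) (nat_lit 4) (nat_lit 4) (nat_lit 397) (nat_lit 342) (nat_lit 281)))) (XT.nd (nat_lit 78) (nat_lit 0) (nat_lit 0) (XT.lf (nat_lit 0) (nat_lit 1534459456091) (nat_lit 76) (nat_lit 108498607319)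 (nat_lit 76) (nat_lit 103223115745) (nat_lit 3) (nat_lit 4) (nat_lit 4) (nat_lit 5) (nat_lit 4) (nat_lit 4) (nat_lit 398) (nat_lit 342) (nat_lit 280)) (XT.nd (nat_lit 78) (nat_lit 0) (nat_lit 0) (XT.lf (nat_lit 0) (nat_lit 1869245482142) (nat_lit 76) (nat_lit 68391967836) (nat_lit 76) (nat_lit 63116357558) (nat_lit 3) (nat_lit 4) (nat_lit 4) (nat_lit 5) (nat_lit 4) (nat_lit 4) (nat_lit 399) (nat_lit 342) (nat_lit 279)) (XT.lf (nat_lit 0) (nat_lit 2254245013337) (nat_lit 76) (nat_lit 22271669784) (nat_lit 76) (nat_lit 16995956286) (nat_lit 3) (nat_lit 4) (nat_lit 4) (nat_lit 5) (nat_lit 4) (nat_lit 4) (nat_lit 400) (nat_lit 342) (nat_lit 278)))))) (XT.nd (nat_lit 468) (nat_lit 0) (nat_lit 0) (XT.nd (nat_lit 234) (nat_lit 0) (nat_lit 0) (XT.nd (nat_lit 78) (nat_lit 0) (nat_lit 0) (XT.lf (nat_lit 0) (nat_lit 37286966868) (nat_lit 152) (nat_lit 2559307168639) (nat_lit 0) (nat_lit 32699311863)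 (nat_lit 1) (nat_lit 5) (nat_lit 3) (nat_lit 4) (nat_lit 1) (nat_lit 4) (nat_lit 401) (nat_lit 342) (nat_lit 277)) (XT.nd (nat_lit 78) (nat_lit 0) (nat_lit 0) (XT.lf (nat_lit 0) (nat_lit 101181316343) (nat_lit 152) (nat_lit 2817063709536) (nat_lit 0) (nat_lit 96593593469) (nat_lit 1) (nat_lit 5) (nat_lit 3) (nat_lit 4) (nat_lit 1) (nat_lit 4) (nat_lit 402) (nat_lit 342) (nat_lit 276)) (XT.lf (nat_lit 0) (nat_lit 174658187227) (nat_lit 152) (nat_lit 3113487219223) (nat_lit 0) (nat_lit 170070405336) (nat_lit 1) (nat_lit 5) (nat_lit 3) (nat_lit 4) (nat_lit 1) (nat_lit 4) (nat_lit 403) (nat_lit 342) (nat_lit 275)))) (XT.nd (nat_lit 78) (nat_lit 0) (nat_lit 0) (XT.lf (nat_lit 0) (nat_lit 259155170472) (nat_lit 152) (nat_lit 3454377288106) (nat_lit 0) (nat_lit 254567337261) (nat_lit 1) (nat_lit 5) (nat_lit 3) (nat_lit 4) (nat_lit 1) (nat_lit 4) (nat_lit 404) (nat_lit 342) (nat_lit 274)) (XT.nd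 (nat_lit 78) (nat_lit 0) (nat_lit 0) (XT.lf (nat_lit 0) (nat_lit 356325467923) (nat_lit 152) (nat_lit 3846403504490) (nat_lit 0) (nat_lit 351737590088) (nat_lit 1) (nat_lit 5) (nat_lit 3) (nat_lit 4) (nat_lit 1) (nat_lit 4) (nat_lit 405) (nat_lit 342) (nat_lit 273)) (XT.lf (nat_lit 0) (nat_lit 468070237576) (nat_lit 152) (nat_lit 4297235946522) (nat_lit 0) (nat_lit 463482320936) (nat_lit 1) (nat_lit 5) (nat_lit 3) (nat_lit 4) (nat_lit 1) (nat_lit 4) (nat_lit 406) (nat_lit 342) (nat_lit 272))))) (XT.nd (nat_lit 234) (nat_lit 0) (nat_lit 0) (XT.nd (nat_lit 78) (nat_lit 0) (nat_lit 0) (XT.lf (nat_lit 0) (nat_lit 596575790139) (nat_lit 152) (nat_lit 4815695248938) (nat_lit 0) (nat_lit 591987839756) (nat_lit 1) (nat_lit 5) (nat_lit 3) (nat_lit 4) (nat_lit 1) (nat_lit 4) (nat_lit 407) (nat_lit 342) (nat_lit 271)) (XT.nd (nat_lit 78) (nat_lit 0) (nat_lit 0) (XT.lf (nat_lit 0) (nat_lit 744356364685)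 (nat_lit 152) (nat_lit 5411925180696) (nat_lit 0) (nat_lit 739768384961) (nat_lit 1) (nat_lit 5) (nat_lit 3) (nat_lit 4) (nat_lit 1) (nat_lit 4) (nat_lit 408) (nat_lit 342) (nat_lit 270)) (XT.lf (nat_lit 0) (nat_lit 914303320282) (nat_lit 152) (nat_lit 6097591110028) (nat_lit 0) (nat_lit 909715315043) (nat_lit 1) (nat_lit 5) (nat_lit 3) (nat_lit 4) (nat_lit 1) (nat_lit 4) (nat_lit 409) (nat_lit 342) (nat_lit 269)))) (XT.nd (nat_lit 156) (nat_lit 0) (nat_lit 0) (XT.nd (nat_lit 78) (nat_lit 0) (nat_lit 0) (XT.lf (nat_lit 0) (nat_lit 1109741706060) (nat_lit 152) (nat_lit 6886108239899) (nat_lit 0) (nat_lit 1105153678634) (nat_lit 1) (nat_lit 5) (nat_lit 3) (nat_lit 4) (nat_lit 1) (nat_lit 4) (nat_lit 410) (nat_lit 342) (nat_lit 268)) (XT.lf (nat_lit 0) (nat_lit 1334495316525) (nat_lit 152) (nat_lit 7792904079371) (nat_lit 0) (nat_lit 1329907269806) (nat_lit 1) (nat_lit 5) (nat_lit 3) (nat_lit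 4) (nat_lit 1) (nat_lit 4) (nat_lit 411) (nat_lit 342) (nat_lit 267))) (XT.nd (nat_lit 78) (nat_lit 0) (nat_lit 0) (XT.lf (nat_lit 0) (nat_lit 1592961504923) (nat_lit 152) (nat_lit 8835720286173) (nat_lit 0) (nat_lit 1588373441428) (nat_lit 1) (nat_lit 5) (nat_lit 3) (nat_lit 4) (nat_lit 1) (nat_lit 4) (nat_lit 412) (nat_lit 342) (nat_lit 266)) (XT.lf (nat_lit 0) (nat_lit 1890197218419) (nat_lit 152) (nat_lit 10034959786091) (nat_lit 0) (nat_lit 1885609140336) (nat_lit 1) (nat_lit 5) (nat_lit 3) (nat_lit 4) (nat_lit 1) (nat_lit 4) (nat_lit 413) (nat_lit 342) (nat_lit 265))))))) (XT.nd (nat_lit 1014) (nat_lit 0) (nat_lit 0) (XT.nd (nat_lit 468) (nat_lit 0) (nat_lit 0) (XT.nd (nat_lit 234) (nat_lit 0) (nat_lit 0) (XT.nd (nat_lit 78) (nat_lit 0) (nat_lit 0) (XT.lf (nat_lit 0) (nat_lit 2232017938365) (nat_lit 152) (nat_lit 11414085960644) (nat_lit 0) (nat_lit 2227429847597) (nat_lit 1) (nat_lit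 5) (nat_lit 3) (nat_lit 4) (nat_lit 1) (nat_lit 4) (nat_lit 414) (nat_lit 342) (nat_lit 264)) (XT.nd (nat_lit 78) (nat_lit 0) (nat_lit 0) (XT.lf (nat_lit 0) (nat_lit 2625111461455) (nat_lit 152) (nat_lit 13000081713248) (nat_lit 0) (nat_lit 2620523359656) (nat_lit 1) (nat_lit 5) (nat_lit 3) (nat_lit 4) (nat_lit 1) (nat_lit 4) (nat_lit 415) (nat_lit 342) (nat_lit 263)) (XT.lf (nat_lit 0) (nat_lit 3077168747924) (nat_lit 152) (nat_lit 14823977395584) (nat_lit 0) (nat_lit 3072580636533) (nat_lit 1) (nat_lit 5) (nat_lit 3) (nat_lit 4) (nat_lit 1) (nat_lit 4) (nat_lit 416) (nat_lit 342) (nat_lit 262)))) (XT.nd (nat_lit 78) (nat_lit 0) (nat_lit 0) (XT.lf (nat_lit 0) (nat_lit 3597034396854) (nat_lit 152) (nat_lit 16921457923176) (nat_lit 0) (nat_lit 3592446277122) (nat_lit 1) (nat_lit 5) (nat_lit 3) (nat_lit 4) (nat_lit 1) (nat_lit 4) (nat_lit 417) (nat_lit 342) (nat_lit 261)) (XT.nd (nat_lit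 78) (nat_lit 0) (nat_lit 0) (XT.lf (nat_lit 0) (nat_lit 4194879692680) (nat_lit 152) (nat_lit 19333560958520) (nat_lit 0) (nat_lit 4190291565696) (nat_lit 1) (nat_lit 5) (nat_lit 3) (nat_lit 4) (nat_lit 1) (nat_lit 4) (nat_lit 418) (nat_lit 342) (nat_lit 260)) (XT.lf (nat_lit 0) (nat_lit 4882401608583) (nat_lit 152) (nat_lit 22107479821874) (nat_lit 0) (nat_lit 4877813475292) (nat_lit 1) (nat_lit 5) (nat_lit 3) (nat_lit 4) (nat_lit 1) (nat_lit 4) (nat_lit 419) (nat_lit 342) (nat_lit 259))))) (XT.nd (nat_lit 234) (nat_lit 0) (nat_lit 0) (XT.nd (nat_lit 78) (nat_lit 0) (nat_lit 0) (XT.lf (nat_lit 0) (nat_lit 5673051660309) (nat_lit 152) (nat_lit 25297486838824) (nat_lit 0) (nat_lit 5668463521533) (nat_lit 1) (nat_lit 5) (nat_lit 3) (nat_lit 4) (nat_lit 1) (nat_lit 4) (nat_lit 420) (nat_lit 342) (nat_lit 258)) (XT.nd (nat_lit 78) (nat_lit 0) (nat_lit 0) (XT.lf (nat_lit 0) (nat_lit 6582299087999)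 (nat_lit 152) (nat_lit 28965995190136) (nat_lit 0) (nat_lit 6577710944454) (nat_lit 1) (nat_lit 5) (nat_lit 3) (nat_lit 4) (nat_lit 1) (nat_lit 4) (nat_lit 421) (nat_lit 342) (nat_lit 257)) (XT.lf (nat_lit 0) (nat_lit 7627933515238) (nat_lit 152) (nat_lit 33184780039208) (nat_lit 0) (nat_lit 7623345367547) (nat_lit 1) (nat_lit 5) (nat_lit 3) (nat_lit 4) (nat_lit 1) (nat_lit 4) (nat_lit 422) (nat_lit 342) (nat_lit 256)))) (XT.nd (nat_lit 156) (nat_lit 0) (nat_lit 0) (XT.nd (nat_lit 78) (nat_lit 0) (nat_lit 0) (XT.lf (nat_lit 0) (nat_lit 8830413006909) (nat_lit 152) (nat_lit 38036382828736) (nat_lit 0) (nat_lit 8825824855612) (nat_lit 1) (nat_lit 5) (nat_lit 3) (nat_lit 4) (nat_lit 1) (nat_lit 4) (nat_lit 423) (nat_lit 342) (nat_lit 255)) (XT.lf (nat_lit 0) (nat_lit 10213264335673) (nat_lit 152) (nat_lit 43615726221995) (nat_lit 0) (nat_lit 10208676181240) (nat_lit 1) (nat_lit 5) (nat_lit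 3) (nat_lit 4) (nat_lit 1) (nat_lit 4) (nat_lit 424) (nat_lit 342) (nat_lit 254))) (XT.nd (nat_lit 78) (nat_lit 0) (nat_lit 0) (XT.lf (nat_lit 0) (nat_lit 11803543288398) (nat_lit 152) (nat_lit 50031971285375) (nat_lit 0) (nat_lit 11798955131239) (nat_lit 1) (nat_lit 5) (nat_lit 3) (nat_lit 4) (nat_lit 1) (nat_lit 4) (nat_lit 425) (nat_lit 342) (nat_lit 253)) (XT.lf (nat_lit 0) (nat_lit 13632364018507) (nat_lit 152) (nat_lit 57410653248377) (nat_lit 0) (nat_lit 13627775858977) (nat_lit 1) (nat_lit 5) (nat_lit 3) (nat_lit 4) (nat_lit 1) (nat_lit 4) (nat_lit 426) (nat_lit 342) (nat_lit 252)))))) (XT.nd (nat_lit 46566) (nat_lit 0) (nat_lit 2584) (XT.nd (nat_lit 234) (nat_lit 0) (nat_lit 0) (XT.nd (nat_lit 78) (nat_lit 0) (nat_lit 0) (XT.lf (nat_lit 0) (nat_lit 15735507801154) (nat_lit 152) (nat_lit 65896137627667) (nat_lit 0) (nat_lit 15730919639562) (nat_lit 1) (nat_lit 5) (nat_lit 3) (nat_lit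 4) (nat_lit 1) (nat_lit 4) (nat_lit 427) (nat_lit 342) (nat_lit 251)) (XT.nd (nat_lit 78) (nat_lit 0) (nat_lit 0) (XT.lf (nat_lit 0) (nat_lit 18154123101651) (nat_lit 152) (nat_lit 75654444769798) (nat_lit 0) (nat_lit 18149534938267) (nat_lit 1) (nat_lit 5) (nat_lit 3) (nat_lit 4) (nat_lit 1) (nat_lit 4) (nat_lit 428) (nat_lit 342) (nat_lit 250)) (XT.lf (nat_lit 0) (nat_lit 20935530654140) (nat_lit 152) (nat_lit 86876498075376) (nat_lit 0) (nat_lit 20930942489196) (nat_lit 1) (nat_lit 5) (nat_lit 3) (nat_lit 4) (nat_lit 1) (nat_lit 4) (nat_lit 429) (nat_lit 342) (nat_lit 249)))) (XT.nd (nat_lit 2106) (nat_lit 0) (nat_lit 0) (XT.lf (nat_lit 0) (nat_lit 24134149302038) (nat_lit 152) (nat_lit 99781859456901) (nat_lit 0) (nat_lit 24129561135738) (nat_lit 1) (nat_lit 5) (nat_lit 3) (nat_lit 4) (nat_lit 1) (nat_lit 4) (nat_lit 430) (nat_lit 342) (nat_lit 248)) (XT.nd (nat_lit 78) (nat_lit 0)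 (nat_lit 0) (XT.lf (nat_lit 0) (nat_lit 1067216705018769) (nat_lit 152) (nat_lit 4308272944880906) (nat_lit 0) (nat_lit 1067212116843635) (nat_lit 1) (nat_lit 5) (nat_lit 3) (nat_lit 4) (nat_lit 1) (nat_lit 4) (nat_lit 457) (nat_lit 342) (nat_lit 221)) (XT.lf (nat_lit 0) (nat_lit 1227357499576591) (nat_lit 152) (nat_lit 4954387773806665) (nat_lit 0) (nat_lit 1227352911401430) (nat_lit 1) (nat_lit 5) (nat_lit 3) (nat_lit 4) (nat_lit 1) (nat_lit 4) (nat_lit 458) (nat_lit 342) (nat_lit 220))))) (XT.nd (nat_lit 234) (nat_lit 532) (nat_lit 0) (XT.nd (nat_lit 78) (nat_lit 0) (nat_lit 0) (XT.lf (nat_lit 0) (nat_lit 179686162) (nat_lit 0) (nat_lit 179686162) (nat_lit 228) (nat_lit 3285828349) (nat_lit 42) (nat_lit 5) (nat_lit 42) (nat_lit 3) (nat_lit 45) (nat_lit 3) (nat_lit 343) (nat_lit 343) (nat_lit 334)) (XT.nd (nat_lit 78) (nat_lit 0) (nat_lit 0) (XT.lf (nat_lit 0) (nat_lit 2380130231) (nat_lit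 228) (nat_lit 3326677637) (nat_lit 304) (nat_lit 1888386308) (nat_lit 42) (nat_lit 5) (nat_lit 45) (nat_lit 3) (nat_lit 46) (nat_lit 5) (nat_lit 344) (nat_lit 343) (nat_lit 333)) (XT.lf (nat_lit 76) (nat_lit 679869212) (nat_lit 0) (nat_lit 3390794210) (nat_lit 304) (nat_lit 3908205615) (nat_lit 43) (nat_lit 5) (nat_lit 42) (nat_lit 5) (nat_lit 46) (nat_lit 5) (nat_lit 345) (nat_lit 343) (nat_lit 332)))) (XT.nd (nat_lit 156) (nat_lit 380) (nat_lit 0) (XT.nd (nat_lit 78) (nat_lit 152) (nat_lit 0) (XT.lf (nat_lit 76) (nat_lit 5487667218) (nat_lit 0) (nat_lit 463097807) (nat_lit 304) (nat_lit 2479065812) (nat_lit 43) (nat_lit 5) (nat_lit 42) (nat_lit 5) (nat_lit 46) (nat_lit 5) (nat_lit 346) (nat_lit 343) (nat_lit 331)) (XT.lf (nat_lit 0) (nat_lit 1935882322) (nat_lit 228) (nat_lit 6172838989) (nat_lit 304) (nat_lit 840456181) (nat_lit 40) (nat_lit 5) (nat_lit 43) (nat_lit 5) (nat_lit 44) (nat_lit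 5) (nat_lit 347) (nat_lit 343) (nat_lit 330))) (XT.nd (nat_lit 78) (nat_lit 304) (nat_lit 0) (XT.lf (nat_lit 0) (nat_lit 940099373) (nat_lit 304) (nat_lit 1914761009) (nat_lit 76) (nat_lit 6686805673) (nat_lit 39) (nat_lit 5) (nat_lit 43) (nat_lit 5) (nat_lit 40) (nat_lit 5) (nat_lit 348) (nat_lit 343) (nat_lit 329)) (XT.lf (nat_lit 0) (nat_lit 2952625403) (nat_lit 380) (nat_lit 6162395847) (nat_lit 76) (nat_lit 1094439919) (nat_lit 35) (nat_lit 5) (nat_lit 40) (nat_lit 5) (nat_lit 36) (nat_lit 5) (nat_lit 349) (nat_lit 343) (nat_lit 328))))))))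
noncomputable def xc53 : XT := (XT.nd (nat_lit 1950) (nat_lit 684) (nat_lit 0) (XT.nd (nat_lit 936) (nat_lit 836) (nat_lit 0) (XT.nd (nat_lit 468) (nat_lit 380) (nat_lit 0) (XT.nd (nat_lit 234) (nat_lit 304) (nat_lit 0) (XT.nd (nat_lit 78) (nat_lit 228) (nat_lit 0) (XT.lf (nat_lit 0) (nat_lit 5354025246) (nat_lit 380) (nat_lit 169435658) (nat_lit 76) (nat_lit 5440982018) (nat_lit 35) (nat_lit 5) (nat_lit 40) (nat_lit 5) (nat_lit 36) (nat_lit 5) (nat_lit 350) (nat_lit 343) (nat_lit 327)) (XT.nd (nat_lit 78) (nat_lit 76) (nat_lit 0) (XT.lf (nat_lit 0) (nat_lit 7203160884) (nat_lit 152) (nat_lit 1076996683) (nat_lit 228) (nat_lit 3527893917) (nat_lit 33) (nat_lit 5) (nat_lit 35) (nat_lit 5) (nat_lit 36) (nat_lit 5) (nat_lit 351) (nat_lit 343) (nat_lit 326)) (XT.lf (nat_lit 0) (nat_lit 2838494242) (nat_lit 76) (nat_lit 8976754598) (nat_lit 152) (nat_lit 937496992) (nat_lit 32) (nat_lit 5) (nat_lit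 33) (nat_lit 5) (nat_lit 34) (nat_lit 4) (nat_lit 352) (nat_lit 343) (nat_lit 325)))) (XT.nd (nat_lit 78) (nat_lit 228) (nat_lit 0) (XT.lf (nat_lit 0) (nat_lit 2043190456) (nat_lit 152) (nat_lit 2208882341) (nat_lit 76) (nat_lit 9546908374) (nat_lit 31) (nat_lit 5) (nat_lit 33) (nat_lit 5) (nat_lit 32) (nat_lit 5) (nat_lit 353) (nat_lit 343) (nat_lit 324)) (XT.nd (nat_lit 78) (nat_lit 76) (nat_lit 0) (XT.lf (nat_lit 0) (nat_lit 5627171180) (nat_lit 228) (nat_lit 7943323635) (nat_lit 76) (nat_lit 1387167906) (nat_lit 29) (nat_lit 5) (nat_lit 32) (nat_lit 5) (nat_lit 30) (nat_lit 4) (nat_lit 354) (nat_lit 343) (nat_lit 323)) (XT.lf (nat_lit 0) (nat_lit 1351432468) (nat_lit 76) (nat_lit 8678006209) (nat_lit 152) (nat_lit 6218633174) (nat_lit 28) (nat_lit 5) (nat_lit 29) (nat_lit 5) (nat_lit 30) (nat_lit 4) (nat_lit 355) (nat_lit 343) (nat_lit 322))))) (XT.nd (nat_lit 234) (nat_lit 228) (nat_lit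 0) (XT.nd (nat_lit 78) (nat_lit 152) (nat_lit 0) (XT.lf (nat_lit 0) (nat_lit 12782907800) (nat_lit 76) (nat_lit 2632300603) (nat_lit 152) (nat_lit 2268384673) (nat_lit 28) (nat_lit 5) (nat_lit 29) (nat_lit 5) (nat_lit 30) (nat_lit 4) (nat_lit 356) (nat_lit 343) (nat_lit 321)) (XT.nd (nat_lit 78) (nat_lit 0) (nat_lit 0) (XT.lf (nat_lit 0) (nat_lit 2472074115) (nat_lit 152) (nat_lit 12501062117) (nat_lit 76) (nat_lit 4287175083) (nat_lit 26) (nat_lit 5) (nat_lit 28) (nat_lit 5) (nat_lit 27) (nat_lit 4) (nat_lit 357) (nat_lit 343) (nat_lit 320)) (XT.lf (nat_lit 0) (nat_lit 8004412686) (nat_lit 152) (nat_lit 703800287) (nat_lit 76) (nat_lit 12302180481) (nat_lit 26) (nat_lit 5) (nat_lit 28) (nat_lit 5) (nat_lit 27) (nat_lit 4) (nat_lit 358) (nat_lit 343) (nat_lit 319)))) (XT.nd (nat_lit 78) (nat_lit 152) (nat_lit 0) (XT.lf (nat_lit 0) (nat_lit 13984511110) (nat_lit 76) (nat_lit 891013490) (nat_lit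 152) (nat_lit 8071139250) (nat_lit 25) (nat_lit 5) (nat_lit 26) (nat_lit 5) (nat_lit 27) (nat_lit 4) (nat_lit 359) (nat_lit 343) (nat_lit 318)) (XT.nd (nat_lit 78) (nat_lit 76) (nat_lit 0) (XT.lf (nat_lit 0) (nat_lit 5844897415) (nat_lit 76) (nat_lit 17480290093) (nat_lit 76) (nat_lit 1766017114) (nat_lit 24) (nat_lit 4) (nat_lit 25) (nat_lit 5) (nat_lit 25) (nat_lit 4) (nat_lit 360) (nat_lit 343) (nat_lit 317)) (XT.lf (nat_lit 0) (nat_lit 5462594823) (nat_lit 152) (nat_lit 4025306317) (nat_lit 76) (nat_lit 17965563824) (nat_lit 23) (nat_lit 5) (nat_lit 25) (nat_lit 5) (nat_lit 24) (nat_lit 4) (nat_lit 361) (nat_lit 343) (nat_lit 316)))))) (XT.nd (nat_lit 468) (nat_lit 456) (nat_lit 0) (XT.nd (nat_lit 234) (nat_lit 152) (nat_lit 0) (XT.nd (nat_lit 78) (nat_lit 152) (nat_lit 0) (XT.lf (nat_lit 0) (nat_lit 14158455476) (nat_lit 152) (nat_lit 15510977125) (nat_lit 0) (nat_lit 403461016) (nat_lit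 22) (nat_lit 5) (nat_lit 24) (nat_lit 4) (nat_lit 22) (nat_lit 4) (nat_lit 362) (nat_lit 343) (nat_lit 315)) (XT.nd (nat_lit 78) (nat_lit 76) (nat_lit 0) (XT.lf (nat_lit 0) (nat_lit 3032884943) (nat_lit 76) (nat_lit 21866414268) (nat_lit 76) (nat_lit 8074853879) (nat_lit 21) (nat_lit 4) (nat_lit 22) (nat_lit 5) (nat_lit 22) (nat_lit 4) (nat_lit 363) (nat_lit 343) (nat_lit 314)) (XT.lf (nat_lit 0) (nat_lit 1649596702) (nat_lit 152) (nat_lit 10276723939) (nat_lit 76) (nat_lit 24259542549) (nat_lit 20) (nat_lit 5) (nat_lit 22) (nat_lit 5) (nat_lit 21) (nat_lit 4) (nat_lit 364) (nat_lit 343) (nat_lit 313)))) (XT.nd (nat_lit 78) (nat_lit 76) (nat_lit 0) (XT.lf (nat_lit 0) (nat_lit 12517054655) (nat_lit 152) (nat_lit 26755242993) (nat_lit 0) (nat_lit 472701658) (nat_lit 19) (nat_lit 5) (nat_lit 21) (nat_lit 4) (nat_lit 19) (nat_lit 4) (nat_lit 365) (nat_lit 343) (nat_lit 312)) (XT.nd (nat_lit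 78) (nat_lit 76) (nat_lit 0) (XT.lf (nat_lit 0) (nat_lit 26096677906) (nat_lit 152) (nat_lit 3547606791) (nat_lit 0) (nat_lit 14031418221) (nat_lit 19) (nat_lit 5) (nat_lit 21) (nat_lit 4) (nat_lit 19) (nat_lit 4) (nat_lit 366) (nat_lit 343) (nat_lit 311)) (XT.lf (nat_lit 0) (nat_lit 25309295110) (nat_lit 76) (nat_lit 17409652253) (nat_lit 76) (nat_lit 5326212838) (nat_lit 18) (nat_lit 4) (nat_lit 19) (nat_lit 5) (nat_lit 19) (nat_lit 4) (nat_lit 367) (nat_lit 343) (nat_lit 310))))) (XT.nd (nat_lit 234) (nat_lit 228) (nat_lit 0) (XT.nd (nat_lit 78) (nat_lit 76) (nat_lit 0) (XT.lf (nat_lit 0) (nat_lit 5921284467) (nat_lit 76) (nat_lit 2460358482) (nat_lit 152) (nat_lit 44574347776) (nat_lit 16) (nat_lit 5) (nat_lit 17) (nat_lit 5) (nat_lit 18) (nat_lit 4) (nat_lit 368) (nat_lit 343) (nat_lit 309)) (XT.nd (nat_lit 78) (nat_lit 76) (nat_lit 0) (XT.lf (nat_lit 0) (nat_lit 25413759858) (nat_lit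 152) (nat_lit 17998914812) (nat_lit 0) (nat_lit 14880721282) (nat_lit 16) (nat_lit 5) (nat_lit 18) (nat_lit 4) (nat_lit 16) (nat_lit 4) (nat_lit 369) (nat_lit 343) (nat_lit 308)) (XT.lf (nat_lit 0) (nat_lit 16686043936) (nat_lit 76) (nat_lit 29086511861) (nat_lit 76) (nat_lit 18543078965) (nat_lit 15) (nat_lit 4) (nat_lit 16) (nat_lit 5) (nat_lit 16) (nat_lit 4) (nat_lit 370) (nat_lit 343) (nat_lit 307)))) (XT.nd (nat_lit 156) (nat_lit 76) (nat_lit 0) (XT.nd (nat_lit 78) (nat_lit 152) (nat_lit 0) (XT.lf (nat_lit 0) (nat_lit 58525419147) (nat_lit 76) (nat_lit 11566151738) (nat_lit 76) (nat_lit 1013680304) (nat_lit 15) (nat_lit 4) (nat_lit 16) (nat_lit 5) (nat_lit 16) (nat_lit 4) (nat_lit 371) (nat_lit 343) (nat_lit 306)) (XT.lf (nat_lit 0) (nat_lit 19080552420) (nat_lit 152) (nat_lit 49570210888) (nat_lit 0) (nat_lit 9897655870) (nat_lit 13) (nat_lit 5) (nat_lit 15) (nat_lit 4) (nat_lit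 13) (nat_lit 4) (nat_lit 372) (nat_lit 343) (nat_lit 305))) (XT.nd (nat_lit 78) (nat_lit 76) (nat_lit 0) (XT.lf (nat_lit 0) (nat_lit 43293612627) (nat_lit 152) (nat_lit 9521166110) (nat_lit 0) (nat_lit 34104773091) (nat_lit 13) (nat_lit 5) (nat_lit 15) (nat_lit 4) (nat_lit 13) (nat_lit 4) (nat_lit 373) (nat_lit 343) (nat_lit 304)) (XT.lf (nat_lit 0) (nat_lit 40043541137) (nat_lit 76) (nat_lit 32726086141) (nat_lit 76) (nat_lit 23532078792) (nat_lit 12) (nat_lit 4) (nat_lit 13) (nat_lit 5) (nat_lit 13) (nat_lit 4) (nat_lit 374) (nat_lit 343) (nat_lit 303))))))) (XT.nd (nat_lit 1014) (nat_lit 76) (nat_lit 0) (XT.nd (nat_lit 468) (nat_lit 228) (nat_lit 0) (XT.nd (nat_lit 234) (nat_lit 228) (nat_lit 0) (XT.nd (nat_lit 78) (nat_lit 76) (nat_lit 0) (XT.lf (nat_lit 0) (nat_lit 107963627) (nat_lit 152) (nat_lit 8966379302) (nat_lit 76) (nat_lit 97945324215) (nat_lit 11) (nat_lit 5) (nat_lit 13)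 (nat_lit 5) (nat_lit 12) (nat_lit 4) (nat_lit 375) (nat_lit 343) (nat_lit 302)) (XT.nd (nat_lit 78) (nat_lit 0) (nat_lit 0) (XT.lf (nat_lit 0) (nat_lit 27771176018) (nat_lit 152) (nat_lit 71204019223) (nat_lit 0) (nat_lit 19769081487) (nat_lit 10) (nat_lit 5) (nat_lit 12) (nat_lit 4) (nat_lit 10) (nat_lit 4) (nat_lit 376) (nat_lit 343) (nat_lit 301)) (XT.lf (nat_lit 0) (nat_lit 60483570134) (nat_lit 152) (nat_lit 19130532320) (nat_lit 0) (nat_lit 52478520889) (nat_lit 10) (nat_lit 5) (nat_lit 12) (nat_lit 4) (nat_lit 10) (nat_lit 4) (nat_lit 377) (nat_lit 343) (nat_lit 300)))) (XT.nd (nat_lit 78) (nat_lit 152) (nat_lit 0) (XT.lf (nat_lit 0) (nat_lit 44689581685) (nat_lit 76) (nat_lit 55243370037) (nat_lit 76) (nat_lit 47235751476) (nat_lit 9) (nat_lit 4) (nat_lit 10) (nat_lit 5) (nat_lit 10) (nat_lit 4) (nat_lit 378) (nat_lit 343) (nat_lit 299)) (XT.nd (nat_lit 78) (nat_lit 152) (nat_lit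 0) (XT.lf (nat_lit 0) (nat_lit 120191705476) (nat_lit 76) (nat_lit 26088626977) (nat_lit 76) (nat_lit 18078774227) (nat_lit 9) (nat_lit 4) (nat_lit 10) (nat_lit 5) (nat_lit 10) (nat_lit 4) (nat_lit 379) (nat_lit 343) (nat_lit 298)) (XT.lf (nat_lit 0) (nat_lit 15453943740) (nat_lit 152) (nat_lit 159884316290) (nat_lit 0) (nat_lit 8487165024) (nat_lit 7) (nat_lit 5) (nat_lit 9) (nat_lit 4) (nat_lit 7) (nat_lit 4) (nat_lit 380) (nat_lit 343) (nat_lit 297))))) (XT.nd (nat_lit 234) (nat_lit 152) (nat_lit 0) (XT.nd (nat_lit 78) (nat_lit 76) (nat_lit 0) (XT.lf (nat_lit 0) (nat_lit 55809017130) (nat_lit 152) (nat_lit 100886265361) (nat_lit 0) (nat_lit 48840769400) (nat_lit 7) (nat_lit 5) (nat_lit 9) (nat_lit 4) (nat_lit 7) (nat_lit 4) (nat_lit 381) (nat_lit 343) (nat_lit 296)) (XT.nd (nat_lit 78) (nat_lit 76) (nat_lit 0) (XT.lf (nat_lit 0) (nat_lit 102202015235) (nat_lit 152) (nat_lit 33071068111)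 (nat_lit 0) (nat_lit 95232490100) (nat_lit 7) (nat_lit 5) (nat_lit 9) (nat_lit 4) (nat_lit 7) (nat_lit 4) (nat_lit 382) (nat_lit 343) (nat_lit 295)) (XT.lf (nat_lit 0) (nat_lit 49274885592) (nat_lit 76) (nat_lit 108306109488) (nat_lit 76) (nat_lit 101335473566) (nat_lit 6) (nat_lit 4) (nat_lit 7) (nat_lit 5) (nat_lit 7) (nat_lit 4) (nat_lit 383) (nat_lit 343) (nat_lit 294)))) (XT.nd (nat_lit 156) (nat_lit 152) (nat_lit 0) (XT.nd (nat_lit 78) (nat_lit 0) (nat_lit 0) (XT.lf (nat_lit 0) (nat_lit 147662442258) (nat_lit 76) (nat_lit 75320378990) (nat_lit 76) (nat_lit 68348777166) (nat_lit 6) (nat_lit 4) (nat_lit 7) (nat_lit 5) (nat_lit 7) (nat_lit 4) (nat_lit 384) (nat_lit 343) (nat_lit 293)) (XT.lf (nat_lit 0) (nat_lit 260784630527) (nat_lit 76) (nat_lit 37399233787) (nat_lit 76) (nat_lit 30426792050) (nat_lit 6) (nat_lit 4) (nat_lit 7) (nat_lit 5) (nat_lit 7) (nat_lit 4) (nat_lit 385) (nat_lit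 343) (nat_lit 292))) (XT.nd (nat_lit 78) (nat_lit 0) (nat_lit 0) (XT.lf (nat_lit 0) (nat_lit 13178892411) (nat_lit 152) (nat_lit 350930168117) (nat_lit 0) (nat_lit 7115264500) (nat_lit 4) (nat_lit 5) (nat_lit 6) (nat_lit 4) (nat_lit 4) (nat_lit 4) (nat_lit 386) (nat_lit 343) (nat_lit 291)) (XT.lf (nat_lit 0) (nat_lit 65695449308) (nat_lit 152) (nat_lit 293863219867) (nat_lit 0) (nat_lit 59631269140) (nat_lit 4) (nat_lit 5) (nat_lit 6) (nat_lit 4) (nat_lit 4) (nat_lit 4) (nat_lit 387) (nat_lit 343) (nat_lit 290)))))) (XT.nd (nat_lit 468) (nat_lit 0) (nat_lit 0) (XT.nd (nat_lit 234) (nat_lit 76) (nat_lit 0) (XT.nd (nat_lit 78) (nat_lit 0) (nat_lit 0) (XT.lf (nat_lit 0) (nat_lit 126080746654) (nat_lit 152) (nat_lit 228254872233) (nat_lit 0) (nat_lit 120016086262) (nat_lit 4) (nat_lit 5) (nat_lit 6) (nat_lit 4) (nat_lit 4) (nat_lit 4) (nat_lit 388) (nat_lit 343) (nat_lit 289)) (XT.nd (nat_lit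 78) (nat_lit 0) (nat_lit 0) (XT.lf (nat_lit 0) (nat_lit 195516235920) (nat_lit 152) (nat_lit 152821483633) (nat_lit 0) (nat_lit 189451157942) (nat_lit 4) (nat_lit 5) (nat_lit 6) (nat_lit 4) (nat_lit 4) (nat_lit 4) (nat_lit 389) (nat_lit 343) (nat_lit 288)) (XT.lf (nat_lit 0) (nat_lit 275360437546) (nat_lit 152) (nat_lit 66087183419) (nat_lit 0) (nat_lit 269294996450) (nat_lit 4) (nat_lit 5) (nat_lit 6) (nat_lit 4) (nat_lit 4) (nat_lit 4) (nat_lit 390) (nat_lit 343) (nat_lit 287)))) (XT.nd (nat_lit 78) (nat_lit 0) (nat_lit 0) (XT.lf (nat_lit 0) (nat_lit 36933038313) (nat_lit 76) (nat_lit 331771800739) (nat_lit 76) (nat_lit 325706043888) (nat_lit 3) (nat_lit 4) (nat_lit 4) (nat_lit 5) (nat_lit 4) (nat_lit 4) (nat_lit 391) (nat_lit 343) (nat_lit 286)) (XT.nd (nat_lit 78) (nat_lit 0) (nat_lit 0) (XT.lf (nat_lit 0) (nat_lit 162821890735) (nat_lit 76) (nat_lit 316678083972) (nat_lit 76) (nat_lit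 310612052552) (nat_lit 3) (nat_lit 4) (nat_lit 4) (nat_lit 5) (nat_lit 4) (nat_lit 4) (nat_lit 392) (nat_lit 343) (nat_lit 285)) (XT.lf (nat_lit 0) (nat_lit 307583896413) (nat_lit 76) (nat_lit 299325716130) (nat_lit 76) (nat_lit 293259445954) (nat_lit 3) (nat_lit 4) (nat_lit 4) (nat_lit 5) (nat_lit 4) (nat_lit 4) (nat_lit 393) (nat_lit 343) (nat_lit 284))))) (XT.nd (nat_lit 234) (nat_lit 0) (nat_lit 0) (XT.nd (nat_lit 78) (nat_lit 0) (nat_lit 0) (XT.lf (nat_lit 0) (nat_lit 474051355458) (nat_lit 76) (nat_lit 279375194365) (nat_lit 76) (nat_lit 273308716575) (nat_lit 3) (nat_lit 4) (nat_lit 4) (nat_lit 5) (nat_lit 4) (nat_lit 4) (nat_lit 394) (nat_lit 343) (nat_lit 283)) (XT.nd (nat_lit 78) (nat_lit 0) (nat_lit 0) (XT.lf (nat_lit 0) (nat_lit 665481239894) (nat_lit 76) (nat_lit 256436182380) (nat_lit 76) (nat_lit 250369524056) (nat_lit 3) (nat_lit 4) (nat_lit 4) (nat_lit 5) (nat_lit 4) (nat_lit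 4) (nat_lit 395) (nat_lit 343) (nat_lit 282)) (XT.lf (nat_lit 0) (nat_lit 885618917026) (nat_lit 76) (nat_lit 230059873420) (nat_lit 76) (nat_lit 223993058110) (nat_lit 3) (nat_lit 4) (nat_lit 4) (nat_lit 5) (nat_lit 4) (nat_lit 4) (nat_lit 396) (nat_lit 343) (nat_lit 281)))) (XT.nd (nat_lit 156) (nat_lit 0) (nat_lit 0) (XT.nd (nat_lit 78) (nat_lit 0) (nat_lit 0) (XT.lf (nat_lit 0) (nat_lit 1138771428363) (nat_lit 76) (nat_lit 199730209265) (nat_lit 76) (nat_lit 193663257445) (nat_lit 3) (nat_lit 4) (nat_lit 4) (nat_lit 5) (nat_lit 4) (nat_lit 4) (nat_lit 397) (nat_lit 343) (nat_lit 280)) (XT.lf (nat_lit 0) (nat_lit 1429891757822) (nat_lit 76) (nat_lit 164853783443) (nat_lit 76) (nat_lit 158786712920) (nat_lit 3) (nat_lit 4) (nat_lit 4) (nat_lit 5) (nat_lit 4) (nat_lit 4) (nat_lit 398) (nat_lit 343) (nat_lit 279))) (XT.nd (nat_lit 78) (nat_lit 0) (nat_lit 0) (XT.lf (nat_lit 0) (nat_lit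 1764675737936) (nat_lit 76) (nat_lit 124748231101) (nat_lit 76) (nat_lit 118681057357) (nat_lit 3) (nat_lit 4) (nat_lit 4) (nat_lit 5) (nat_lit 4) (nat_lit 4) (nat_lit 399) (nat_lit 343) (nat_lit 278)) (XT.lf (nat_lit 0) (nat_lit 2149673490056) (nat_lit 76) (nat_lit 78628878389) (nat_lit 76) (nat_lit 72561614888) (nat_lit 3) (nat_lit 4) (nat_lit 4) (nat_lit 5) (nat_lit 4) (nat_lit 4) (nat_lit 400) (nat_lit 343) (nat_lit 277))))))))
noncomputable def xc54 : XT := (XT.nd (nat_lit 1950) (nat_lit 0) (nat_lit 0) (XT.nd (nat_lit 936) (nat_lit 0) (nat_lit 0) (XT.nd (nat_lit 468) (nat_lit 0) (nat_lit 0) (XT.nd (nat_lit 234) (nat_lit 0) (nat_lit 0) (XT.nd (nat_lit 78) (nat_lit 152) (nat_lit 0) (XT.lf (nat_lit 0) (nat_lit 2592417578896) (nat_lit 76) (nat_lit 25593390146) (nat_lit 76) (nat_lit 19526048594) (nat_lit 3) (nat_lit 4) (nat_lit 4) (nat_lit 5) (nat_lit 4) (nat_lit 4) (nat_lit 401) (nat_lit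 343) (nat_lit 276)) (XT.nd (nat_lit 78) (nat_lit 0) (nat_lit 0) (XT.lf (nat_lit 0) (nat_lit 42897573730) (nat_lit 152) (nat_lit 2943165690809) (nat_lit 0) (nat_lit 37621565538) (nat_lit 1) (nat_lit 5) (nat_lit 3) (nat_lit 4) (nat_lit 1) (nat_lit 4) (nat_lit 402) (nat_lit 343) (nat_lit 275)) (XT.lf (nat_lit 0) (nat_lit 116373784953) (nat_lit 152) (nat_lit 3239590611074) (nat_lit 0) (nat_lit 111097725442) (nat_lit 1) (nat_lit 5) (nat_lit 3) (nat_lit 4) (nat_lit 1) (nat_lit 4) (nat_lit 403) (nat_lit 343) (nat_lit 274)))) (XT.nd (nat_lit 78) (nat_lit 0) (nat_lit 0) (XT.lf (nat_lit 0) (nat_lit 200870194579) (nat_lit 152) (nat_lit 3580481906547) (nat_lit 0) (nat_lit 195594090443) (nat_lit 1) (nat_lit 5) (nat_lit 3) (nat_lit 4) (nat_lit 1) (nat_lit 4) (nat_lit 404) (nat_lit 343) (nat_lit 273)) (XT.nd (nat_lit 78) (nat_lit 0) (nat_lit 0) (XT.lf (nat_lit 0) (nat_lit 298039993232) (nat_lit 152) (nat_lit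 3972509189531) (nat_lit 0) (nat_lit 292763850292) (nat_lit 1) (nat_lit 5) (nat_lit 3) (nat_lit 4) (nat_lit 1) (nat_lit 4) (nat_lit 405) (nat_lit 343) (nat_lit 272)) (XT.lf (nat_lit 0) (nat_lit 409784329146) (nat_lit 152) (nat_lit 4423342559042) (nat_lit 0) (nat_lit 404508152463) (nat_lit 1) (nat_lit 5) (nat_lit 3) (nat_lit 4) (nat_lit 1) (nat_lit 4) (nat_lit 406) (nat_lit 343) (nat_lit 271))))) (XT.nd (nat_lit 234) (nat_lit 0) (nat_lit 0) (XT.nd (nat_lit 78) (nat_lit 0) (nat_lit 0) (XT.lf (nat_lit 0) (nat_lit 538289504546) (nat_lit 152) (nat_lit 4941802667960) (nat_lit 0) (nat_lit 533013298521) (nat_lit 1) (nat_lit 5) (nat_lit 3) (nat_lit 4) (nat_lit 1) (nat_lit 4) (nat_lit 407) (nat_lit 343) (nat_lit 270)) (XT.nd (nat_lit 78) (nat_lit 0) (nat_lit 0) (XT.lf (nat_lit 0) (nat_lit 686069751125) (nat_lit 152) (nat_lit 5538033301025) (nat_lit 0) (nat_lit 680793519585) (nat_lit 1) (nat_lit 5)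 (nat_lit 3) (nat_lit 4) (nat_lit 1) (nat_lit 4) (nat_lit 408) (nat_lit 343) (nat_lit 269)) (XT.lf (nat_lit 0) (nat_lit 856016421532) (nat_lit 152) (nat_lit 6223699840189) (nat_lit 0) (nat_lit 850740167805) (nat_lit 1) (nat_lit 5) (nat_lit 3) (nat_lit 4) (nat_lit 1) (nat_lit 4) (nat_lit 409) (nat_lit 343) (nat_lit 268)))) (XT.nd (nat_lit 78) (nat_lit 0) (nat_lit 0) (XT.lf (nat_lit 0) (nat_lit 1051454559319) (nat_lit 152) (nat_lit 7012217500349) (nat_lit 0) (nat_lit 1046178286299) (nat_lit 1) (nat_lit 5) (nat_lit 3) (nat_lit 4) (nat_lit 1) (nat_lit 4) (nat_lit 410) (nat_lit 343) (nat_lit 267)) (XT.nd (nat_lit 78) (nat_lit 0) (nat_lit 0) (XT.lf (nat_lit 0) (nat_lit 1276207954138) (nat_lit 152) (nat_lit 7919013800941) (nat_lit 0) (nat_lit 1270931664343) (nat_lit 1) (nat_lit 5) (nat_lit 3) (nat_lit 4) (nat_lit 1) (nat_lit 4) (nat_lit 411) (nat_lit 343) (nat_lit 266)) (XT.lf (nat_lit 0) (nat_lit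 1534673955020) (nat_lit 152) (nat_lit 8961830408718) (nat_lit 0) (nat_lit 1529397650636) (nat_lit 1) (nat_lit 5) (nat_lit 3) (nat_lit 4) (nat_lit 1) (nat_lit 4) (nat_lit 412) (nat_lit 343) (nat_lit 265)))))) (XT.nd (nat_lit 468) (nat_lit 0) (nat_lit 0) (XT.nd (nat_lit 234) (nat_lit 0) (nat_lit 0) (XT.nd (nat_lit 78) (nat_lit 0) (nat_lit 0) (XT.lf (nat_lit 0) (nat_lit 1831909505458) (nat_lit 152) (nat_lit 10161070257309) (nat_lit 0) (nat_lit 1826633188389) (nat_lit 1) (nat_lit 5) (nat_lit 3) (nat_lit 4) (nat_lit 1) (nat_lit 4) (nat_lit 413) (nat_lit 343) (nat_lit 264)) (XT.nd (nat_lit 78) (nat_lit 0) (nat_lit 0) (XT.lf (nat_lit 0) (nat_lit 2173730083614) (nat_lit 152) (nat_lit 11540196735056) (nat_lit 0) (nat_lit 2168453755515) (nat_lit 1) (nat_lit 5) (nat_lit 3) (nat_lit 4) (nat_lit 1) (nat_lit 4) (nat_lit 414) (nat_lit 343) (nat_lit 263)) (XT.lf (nat_lit 0) (nat_lit 2566823483409) (nat_lit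 152) (nat_lit 13126192751308) (nat_lit 0) (nat_lit 2561547145717) (nat_lit 1) (nat_lit 5) (nat_lit 3) (nat_lit 4) (nat_lit 1) (nat_lit 4) (nat_lit 415) (nat_lit 343) (nat_lit 262)))) (XT.nd (nat_lit 78) (nat_lit 0) (nat_lit 0) (XT.lf (nat_lit 0) (nat_lit 3018880662664) (nat_lit 152) (nat_lit 14950088662902) (nat_lit 0) (nat_lit 3013604316632) (nat_lit 1) (nat_lit 5) (nat_lit 3) (nat_lit 4) (nat_lit 1) (nat_lit 4) (nat_lit 416) (nat_lit 343) (nat_lit 261)) (XT.nd (nat_lit 78) (nat_lit 0) (nat_lit 0) (XT.lf (nat_lit 0) (nat_lit 3538746218365) (nat_lit 152) (nat_lit 17047569389849) (nat_lit 0) (nat_lit 3533469865080) (nat_lit 1) (nat_lit 5) (nat_lit 3) (nat_lit 4) (nat_lit 1) (nat_lit 4) (nat_lit 417) (nat_lit 343) (nat_lit 260)) (XT.lf (nat_lit 0) (nat_lit 4136591433123) (nat_lit 152) (nat_lit 19459672598546) (nat_lit 0) (nat_lit 4131315073531) (nat_lit 1) (nat_lit 5) (nat_lit 3) (nat_lit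 4) (nat_lit 1) (nat_lit 4) (nat_lit 418) (nat_lit 343) (nat_lit 259))))) (XT.nd (nat_lit 234) (nat_lit 0) (nat_lit 0) (XT.nd (nat_lit 78) (nat_lit 0) (nat_lit 0) (XT.lf (nat_lit 0) (nat_lit 4824113278531) (nat_lit 152) (nat_lit 22233591612640) (nat_lit 0) (nat_lit 4818836913455) (nat_lit 1) (nat_lit 5) (nat_lit 3) (nat_lit 4) (nat_lit 1) (nat_lit 4) (nat_lit 419) (nat_lit 343) (nat_lit 258)) (XT.nd (nat_lit 78) (nat_lit 0) (nat_lit 0) (XT.lf (nat_lit 0) (nat_lit 5614763268957) (nat_lit 152) (nat_lit 25423598760670) (nat_lit 0) (nat_lit 5609486899112) (nat_lit 1) (nat_lit 5) (nat_lit 3) (nat_lit 4) (nat_lit 1) (nat_lit 4) (nat_lit 420) (nat_lit 343) (nat_lit 257)) (XT.lf (nat_lit 0) (nat_lit 6524010643343) (nat_lit 152) (nat_lit 29092107225965) (nat_lit 0) (nat_lit 6518734269351) (nat_lit 1) (nat_lit 5) (nat_lit 3) (nat_lit 4) (nat_lit 1) (nat_lit 4) (nat_lit 421) (nat_lit 343) (nat_lit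 256)))) (XT.nd (nat_lit 156) (nat_lit 0) (nat_lit 0) (XT.nd (nat_lit 78) (nat_lit 0) (nat_lit 0) (XT.lf (nat_lit 0) (nat_lit 7569645024231) (nat_lit 152) (nat_lit 33310892174151) (nat_lit 0) (nat_lit 7564368646634) (nat_lit 1) (nat_lit 5) (nat_lit 3) (nat_lit 4) (nat_lit 1) (nat_lit 4) (nat_lit 422) (nat_lit 343) (nat_lit 255)) (XT.lf (nat_lit 0) (nat_lit 8772124475596) (nat_lit 152) (nat_lit 38162495049866) (nat_lit 0) (nat_lit 8766848094863) (nat_lit 1) (nat_lit 5) (nat_lit 3) (nat_lit 4) (nat_lit 1) (nat_lit 4) (nat_lit 423) (nat_lit 343) (nat_lit 254))) (XT.nd (nat_lit 78) (nat_lit 0) (nat_lit 0) (XT.lf (nat_lit 0) (nat_lit 10154975769312) (nat_lit 152) (nat_lit 43741838518070) (nat_lit 0) (nat_lit 10149699385852) (nat_lit 1) (nat_lit 5) (nat_lit 3) (nat_lit 4) (nat_lit 1) (nat_lit 4) (nat_lit 424) (nat_lit 343) (nat_lit 253)) (XT.lf (nat_lit 0) (nat_lit 11745254691561) (nat_lit 152)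 (nat_lit 50158083646619) (nat_lit 0) (nat_lit 11739978305730) (nat_lit 1) (nat_lit 5) (nat_lit 3) (nat_lit 4) (nat_lit 1) (nat_lit 4) (nat_lit 425) (nat_lit 343) (nat_lit 252))))))) (XT.nd (nat_lit 47268) (nat_lit 0) (nat_lit 1596) (XT.nd (nat_lit 46722) (nat_lit 0) (nat_lit 2584) (XT.nd (nat_lit 234) (nat_lit 0) (nat_lit 0) (XT.nd (nat_lit 78) (nat_lit 0) (nat_lit 0) (XT.lf (nat_lit 0) (nat_lit 13574075395168) (nat_lit 152) (nat_lit 57536765666290) (nat_lit 0) (nat_lit 13568799007275) (nat_lit 1) (nat_lit 5) (nat_lit 3) (nat_lit 4) (nat_lit 1) (nat_lit 4) (nat_lit 426) (nat_lit 343) (nat_lit 251)) (XT.nd (nat_lit 78) (nat_lit 0) (nat_lit 0) (XT.lf (nat_lit 0) (nat_lit 15677219154770) (nat_lit 152) (nat_lit 66022250094858) (nat_lit 0) (nat_lit 15671942765085) (nat_lit 1) (nat_lit 5) (nat_lit 3) (nat_lit 4) (nat_lit 1) (nat_lit 4) (nat_lit 427) (nat_lit 343) (nat_lit 250)) (XT.lf (nat_lit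 0) (nat_lit 18095834435229) (nat_lit 152) (nat_lit 75780557279839) (nat_lit 0) (nat_lit 18090558043984) (nat_lit 1) (nat_lit 5) (nat_lit 3) (nat_lit 4) (nat_lit 1) (nat_lit 4) (nat_lit 428) (nat_lit 343) (nat_lit 249)))) (XT.nd (nat_lit 78) (nat_lit 0) (nat_lit 0) (XT.lf (nat_lit 0) (nat_lit 20877241970292) (nat_lit 152) (nat_lit 87002610622677) (nat_lit 0) (nat_lit 20871965577692) (nat_lit 1) (nat_lit 5) (nat_lit 3) (nat_lit 4) (nat_lit 1) (nat_lit 4) (nat_lit 429) (nat_lit 343) (nat_lit 248)) (XT.nd (nat_lit 78) (nat_lit 0) (nat_lit 0) (XT.lf (nat_lit 0) (nat_lit 24075860603037) (nat_lit 152) (nat_lit 99907972036604) (nat_lit 0) (nat_lit 24070584209258) (nat_lit 1) (nat_lit 5) (nat_lit 3) (nat_lit 4) (nat_lit 1) (nat_lit 4) (nat_lit 430) (nat_lit 343) (nat_lit 247)) (XT.lf (nat_lit 0) (nat_lit 27754272002366) (nat_lit 152) (nat_lit 114749137723194) (nat_lit 0) (nat_lit 27748995607562)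 (nat_lit 1) (nat_lit 5) (nat_lit 3) (nat_lit 4) (nat_lit 1) (nat_lit 4) (nat_lit 431) (nat_lit 343) (nat_lit 246))))) (XT.nd (nat_lit 234) (nat_lit 532) (nat_lit 0) (XT.nd (nat_lit 78) (nat_lit 0) (nat_lit 0) (XT.lf (nat_lit 0) (nat_lit 935957066) (nat_lit 0) (nat_lit 935957066) (nat_lit 228) (nat_lit 2100441768) (nat_lit 42) (nat_lit 5) (nat_lit 42) (nat_lit 3) (nat_lit 45) (nat_lit 3) (nat_lit 344) (nat_lit 344) (nat_lit 332)) (XT.nd (nat_lit 78) (nat_lit 0) (nat_lit 0) (XT.lf (nat_lit 0) (nat_lit 5221387082) (nat_lit 228) (nat_lit 2122823011) (nat_lit 304) (nat_lit 1016185038) (nat_lit 42) (nat_lit 5) (nat_lit 45) (nat_lit 3) (nat_lit 46) (nat_lit 5) (nat_lit 345) (nat_lit 344) (nat_lit 331)) (XT.lf (nat_lit 76) (nat_lit 2407303308) (nat_lit 0) (nat_lit 4501472561) (nat_lit 304) (nat_lit 1931542170) (nat_lit 43) (nat_lit 5) (nat_lit 42) (nat_lit 5) (nat_lit 46) (nat_lit 5) (nat_lit 346)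 (nat_lit 344) (nat_lit 330)))) (XT.nd (nat_lit 156) (nat_lit 304) (nat_lit 0) (XT.nd (nat_lit 78) (nat_lit 228) (nat_lit 0) (XT.lf (nat_lit 76) (nat_lit 7724255314) (nat_lit 0) (nat_lit 1056092235) (nat_lit 304) (nat_lit 622321955) (nat_lit 43) (nat_lit 5) (nat_lit 42) (nat_lit 5) (nat_lit 46) (nat_lit 5) (nat_lit 347) (nat_lit 344) (nat_lit 329)) (XT.lf (nat_lit 0) (nat_lit 936664496) (nat_lit 304) (nat_lit 6198595070) (nat_lit 76) (nat_lit 2888901651) (nat_lit 39) (nat_lit 5) (nat_lit 43) (nat_lit 5) (nat_lit 40) (nat_lit 5) (nat_lit 348) (nat_lit 344) (nat_lit 328))) (XT.nd (nat_lit 78) (nat_lit 304) (nat_lit 0) (XT.lf (nat_lit 0) (nat_lit 2661238106) (nat_lit 304) (nat_lit 613564158) (nat_lit 76) (nat_lit 7460377911) (nat_lit 39) (nat_lit 5) (nat_lit 43) (nat_lit 5) (nat_lit 40) (nat_lit 5) (nat_lit 349) (nat_lit 344) (nat_lit 327)) (XT.lf (nat_lit 0) (nat_lit 4835611040) (nat_lit 380)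 (nat_lit 5357688556) (nat_lit 76) (nat_lit 1330943310) (nat_lit 35) (nat_lit 5) (nat_lit 40) (nat_lit 5) (nat_lit 36) (nat_lit 5) (nat_lit 350) (nat_lit 344) (nat_lit 326)))))) (XT.nd (nat_lit 468) (nat_lit 456) (nat_lit 0) (XT.nd (nat_lit 234) (nat_lit 228) (nat_lit 0) (XT.nd (nat_lit 78) (nat_lit 152) (nat_lit 0) (XT.lf (nat_lit 0) (nat_lit 1436579463) (nat_lit 152) (nat_lit 6032289024) (nat_lit 228) (nat_lit 4942937638) (nat_lit 33) (nat_lit 5) (nat_lit 35) (nat_lit 5) (nat_lit 36) (nat_lit 5) (nat_lit 351) (nat_lit 344) (nat_lit 325)) (XT.nd (nat_lit 78) (nat_lit 152) (nat_lit 0) (XT.lf (nat_lit 0) (nat_lit 9718828694) (nat_lit 152) (nat_lit 951697133) (nat_lit 228) (nat_lit 2736010106) (nat_lit 33) (nat_lit 5) (nat_lit 35) (nat_lit 5) (nat_lit 36) (nat_lit 5) (nat_lit 352) (nat_lit 344) (nat_lit 324)) (XT.lf (nat_lit 0) (nat_lit 141253841) (nat_lit 152) (nat_lit 9723111936) (nat_lit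 76) (nat_lit 4639122723) (nat_lit 31) (nat_lit 5) (nat_lit 33) (nat_lit 5) (nat_lit 32) (nat_lit 5) (nat_lit 353) (nat_lit 344) (nat_lit 323)))) (XT.nd (nat_lit 78) (nat_lit 228) (nat_lit 0) (XT.lf (nat_lit 0) (nat_lit 3326532980) (nat_lit 152) (nat_lit 1119662796) (nat_lit 76) (nat_lit 11275792906) (nat_lit 31) (nat_lit 5) (nat_lit 33) (nat_lit 5) (nat_lit 32) (nat_lit 5) (nat_lit 354) (nat_lit 344) (nat_lit 322)) (XT.nd (nat_lit 78) (nat_lit 76) (nat_lit 0) (XT.lf (nat_lit 0) (nat_lit 7395491600) (nat_lit 228) (nat_lit 7661381446) (nat_lit 76) (nat_lit 2005532745) (nat_lit 29) (nat_lit 5) (nat_lit 32) (nat_lit 5) (nat_lit 30) (nat_lit 4) (nat_lit 355) (nat_lit 344) (nat_lit 321)) (XT.lf (nat_lit 0) (nat_lit 2960613494) (nat_lit 76) (nat_lit 9435170830) (nat_lit 152) (nat_lit 6159974370) (nat_lit 28) (nat_lit 5) (nat_lit 29) (nat_lit 5) (nat_lit 30) (nat_lit 4) (nat_lit 356) (nat_lit 344)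 (nat_lit 320))))) (XT.nd (nat_lit 234) (nat_lit 228) (nat_lit 0) (XT.nd (nat_lit 78) (nat_lit 228) (nat_lit 0) (XT.lf (nat_lit 0) (nat_lit 15923358018) (nat_lit 76) (nat_lit 2553635858) (nat_lit 152) (nat_lit 1746508651) (nat_lit 28) (nat_lit 5) (nat_lit 29) (nat_lit 5) (nat_lit 30) (nat_lit 4) (nat_lit 357) (nat_lit 344) (nat_lit 319)) (XT.nd (nat_lit 78) (nat_lit 76) (nat_lit 0) (XT.lf (nat_lit 0) (nat_lit 3598180643) (nat_lit 152) (nat_lit 13046037630) (nat_lit 76) (nat_lit 5391691266) (nat_lit 26) (nat_lit 5) (nat_lit 28) (nat_lit 5) (nat_lit 27) (nat_lit 4) (nat_lit 358) (nat_lit 344) (nat_lit 318)) (XT.lf (nat_lit 0) (nat_lit 381253017) (nat_lit 76) (nat_lit 9496387064) (nat_lit 152) (nat_lit 14183293515) (nat_lit 25) (nat_lit 5) (nat_lit 26) (nat_lit 5) (nat_lit 27) (nat_lit 4) (nat_lit 359) (nat_lit 344) (nat_lit 317)))) (XT.nd (nat_lit 156) (nat_lit 152) (nat_lit 0) (XT.nd (nat_lit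 78) (nat_lit 76) (nat_lit 0) (XT.lf (nat_lit 0) (nat_lit 17186292911) (nat_lit 76) (nat_lit 537390861) (nat_lit 152) (nat_lit 8572338516) (nat_lit 25) (nat_lit 5) (nat_lit 26) (nat_lit 5) (nat_lit 27) (nat_lit 4) (nat_lit 360) (nat_lit 344) (nat_lit 316)) (XT.lf (nat_lit 0) (nat_lit 7844720876) (nat_lit 76) (nat_lit 19579669026) (nat_lit 76) (nat_lit 1340330411) (nat_lit 24) (nat_lit 4) (nat_lit 25) (nat_lit 5) (nat_lit 25) (nat_lit 4) (nat_lit 361) (nat_lit 344) (nat_lit 315))) (XT.nd (nat_lit 78) (nat_lit 76) (nat_lit 0) (XT.lf (nat_lit 0) (nat_lit 6829034688) (nat_lit 152) (nat_lit 3598964854) (nat_lit 76) (nat_lit 21061350925) (nat_lit 23) (nat_lit 5) (nat_lit 25) (nat_lit 5) (nat_lit 24) (nat_lit 4) (nat_lit 362) (nat_lit 344) (nat_lit 314)) (XT.lf (nat_lit 0) (nat_lit 16817970229) (nat_lit 152) (nat_lit 16796115426) (nat_lit 0) (nat_lit 889313392) (nat_lit 22) (nat_lit 5) (nat_lit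 24) (nat_lit 4) (nat_lit 22) (nat_lit 4) (nat_lit 363) (nat_lit 344) (nat_lit 313))))))))
noncomputable def xc55 : XT := (XT.nd (nat_lit 2028) (nat_lit 228) (nat_lit 0) (XT.nd (nat_lit 1014) (nat_lit 532) (nat_lit 0) (XT.nd (nat_lit 468) (nat_lit 380) (nat_lit 0) (XT.nd (nat_lit 234) (nat_lit 228) (nat_lit 0) (XT.nd (nat_lit 78) (nat_lit 152) (nat_lit 0) (XT.lf (nat_lit 0) (nat_lit 4481984668) (nat_lit 76) (nat_lit 24659242223) (nat_lit 76) (nat_lit 8702936289) (nat_lit 21) (nat_lit 4) (nat_lit 22) (nat_lit 5) (nat_lit 22) (nat_lit 4) (nat_lit 364) (nat_lit 344) (nat_lit 312)) (XT.nd (nat_lit 78) (nat_lit 76) (nat_lit 0) (XT.lf (nat_lit 0) (nat_lit 2358975347) (nat_lit 152) (nat_lit 10908551627) (nat_lit 76) (nat_lit 28276881001) (nat_lit 20) (nat_lit 5) (nat_lit 22) (nat_lit 5) (nat_lit 21) (nat_lit 4) (nat_lit 365) (nat_lit 344) (nat_lit 311)) (XT.lf (nat_lit 0) (nat_lit 14850088775)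 (nat_lit 152) (nat_lit 29852347214) (nat_lit 0) (nat_lit 935953718) (nat_lit 19) (nat_lit 5) (nat_lit 21) (nat_lit 4) (nat_lit 19) (nat_lit 4) (nat_lit 366) (nat_lit 344) (nat_lit 310)))) (XT.nd (nat_lit 78) (nat_lit 228) (nat_lit 0) (XT.lf (nat_lit 0) (nat_lit 30407245611) (nat_lit 152) (nat_lit 3283067611) (nat_lit 0) (nat_lit 16477302094) (nat_lit 19) (nat_lit 5) (nat_lit 21) (nat_lit 4) (nat_lit 19) (nat_lit 4) (nat_lit 367) (nat_lit 344) (nat_lit 309)) (XT.nd (nat_lit 78) (nat_lit 152) (nat_lit 0) (XT.lf (nat_lit 0) (nat_lit 29866156838) (nat_lit 76) (nat_lit 19636527199) (nat_lit 76) (nat_lit 5692837195) (nat_lit 18) (nat_lit 4) (nat_lit 19) (nat_lit 5) (nat_lit 19) (nat_lit 4) (nat_lit 368) (nat_lit 344) (nat_lit 308)) (XT.lf (nat_lit 0) (nat_lit 7572139412) (nat_lit 76) (nat_lit 2440782858) (nat_lit 152) (nat_lit 50830340344) (nat_lit 16) (nat_lit 5) (nat_lit 17) (nat_lit 5) (nat_lit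 18) (nat_lit 4) (nat_lit 369) (nat_lit 344) (nat_lit 307))))) (XT.nd (nat_lit 234) (nat_lit 304) (nat_lit 0) (XT.nd (nat_lit 78) (nat_lit 76) (nat_lit 0) (XT.lf (nat_lit 0) (nat_lit 29565063136) (nat_lit 152) (nat_lit 20000754921) (nat_lit 0) (nat_lit 17420682448) (nat_lit 16) (nat_lit 5) (nat_lit 18) (nat_lit 4) (nat_lit 16) (nat_lit 4) (nat_lit 370) (nat_lit 344) (nat_lit 306)) (XT.nd (nat_lit 78) (nat_lit 0) (nat_lit 0) (XT.lf (nat_lit 0) (nat_lit 19855220498) (nat_lit 76) (nat_lit 33105798182) (nat_lit 76) (nat_lit 20953557895) (nat_lit 15) (nat_lit 4) (nat_lit 16) (nat_lit 5) (nat_lit 16) (nat_lit 4) (nat_lit 371) (nat_lit 344) (nat_lit 305)) (XT.lf (nat_lit 0) (nat_lit 67883597212) (nat_lit 76) (nat_lit 13002213231) (nat_lit 76) (nat_lit 843138511) (nat_lit 15) (nat_lit 4) (nat_lit 16) (nat_lit 5) (nat_lit 16) (nat_lit 4) (nat_lit 372) (nat_lit 344) (nat_lit 304)))) (XT.nd (nat_lit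 156) (nat_lit 152) (nat_lit 0) (XT.nd (nat_lit 78) (nat_lit 0) (nat_lit 0) (XT.lf (nat_lit 0) (nat_lit 22234672337) (nat_lit 152) (nat_lit 56395797255) (nat_lit 0) (nat_lit 11656396072) (nat_lit 13) (nat_lit 5) (nat_lit 15) (nat_lit 4) (nat_lit 13) (nat_lit 4) (nat_lit 373) (nat_lit 344) (nat_lit 303)) (XT.lf (nat_lit 0) (nat_lit 50041599786) (nat_lit 152) (nat_lit 10418953839) (nat_lit 0) (nat_lit 39458829769) (nat_lit 13) (nat_lit 5) (nat_lit 15) (nat_lit 4) (nat_lit 13) (nat_lit 4) (nat_lit 374) (nat_lit 344) (nat_lit 302))) (XT.nd (nat_lit 78) (nat_lit 76) (nat_lit 0) (XT.lf (nat_lit 0) (nat_lit 46556350986) (nat_lit 76) (nat_lit 37370506273) (nat_lit 76) (nat_lit 26783828646) (nat_lit 12) (nat_lit 4) (nat_lit 13) (nat_lit 5) (nat_lit 13) (nat_lit 4) (nat_lit 375) (nat_lit 344) (nat_lit 301)) (XT.lf (nat_lit 0) (nat_lit 344425097) (nat_lit 152) (nat_lit 9849561589) (nat_lit 76) (nat_lit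 112845584299) (nat_lit 11) (nat_lit 5) (nat_lit 13) (nat_lit 5) (nat_lit 12) (nat_lit 4) (nat_lit 376) (nat_lit 344) (nat_lit 300)))))) (XT.nd (nat_lit 468) (nat_lit 228) (nat_lit 0) (XT.nd (nat_lit 234) (nat_lit 152) (nat_lit 0) (XT.nd (nat_lit 78) (nat_lit 76) (nat_lit 0) (XT.lf (nat_lit 0) (nat_lit 32156205908) (nat_lit 152) (nat_lit 81421928674) (nat_lit 0) (nat_lit 22944875245) (nat_lit 10) (nat_lit 5) (nat_lit 12) (nat_lit 4) (nat_lit 10) (nat_lit 4) (nat_lit 377) (nat_lit 344) (nat_lit 299)) (XT.nd (nat_lit 78) (nat_lit 76) (nat_lit 0) (XT.lf (nat_lit 0) (nat_lit 69746847818) (nat_lit 152) (nat_lit 21597770053) (nat_lit 0) (nat_lit 60533282967) (nat_lit 10) (nat_lit 5) (nat_lit 12) (nat_lit 4) (nat_lit 10) (nat_lit 4) (nat_lit 378) (nat_lit 344) (nat_lit 298)) (XT.lf (nat_lit 0) (nat_lit 51777072775) (nat_lit 76) (nat_lit 63327587307) (nat_lit 76) (nat_lit 54112079683) (nat_lit 9)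 (nat_lit 4) (nat_lit 10) (nat_lit 5) (nat_lit 10) (nat_lit 4) (nat_lit 379) (nat_lit 344) (nat_lit 297)))) (XT.nd (nat_lit 78) (nat_lit 152) (nat_lit 0) (XT.lf (nat_lit 0) (nat_lit 138554421156) (nat_lit 76) (nat_lit 29826018210) (nat_lit 76) (nat_lit 20608821219) (nat_lit 9) (nat_lit 4) (nat_lit 10) (nat_lit 5) (nat_lit 10) (nat_lit 4) (nat_lit 380) (nat_lit 344) (nat_lit 296)) (XT.nd (nat_lit 78) (nat_lit 0) (nat_lit 0) (XT.lf (nat_lit 0) (nat_lit 17937167957) (nat_lit 152) (nat_lit 183516361632) (nat_lit 0) (nat_lit 9920936647) (nat_lit 7) (nat_lit 5) (nat_lit 9) (nat_lit 4) (nat_lit 7) (nat_lit 4) (nat_lit 381) (nat_lit 344) (nat_lit 295)) (XT.lf (nat_lit 0) (nat_lit 64323963314) (nat_lit 152) (nat_lit 115714333773) (nat_lit 0) (nat_lit 56306621218) (nat_lit 7) (nat_lit 5) (nat_lit 9) (nat_lit 4) (nat_lit 7) (nat_lit 4) (nat_lit 382) (nat_lit 344) (nat_lit 294))))) (XT.nd (nat_lit 234)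 (nat_lit 152) (nat_lit 0) (XT.nd (nat_lit 78) (nat_lit 76) (nat_lit 0) (XT.lf (nat_lit 0) (nat_lit 117657181533) (nat_lit 152) (nat_lit 37766622769) (nat_lit 0) (nat_lit 109638873535) (nat_lit 7) (nat_lit 5) (nat_lit 9) (nat_lit 4) (nat_lit 7) (nat_lit 4) (nat_lit 383) (nat_lit 344) (nat_lit 293)) (XT.nd (nat_lit 78) (nat_lit 0) (nat_lit 0) (XT.lf (nat_lit 0) (nat_lit 56919173737) (nat_lit 76) (nat_lit 124418026488) (nat_lit 76) (nat_lit 116398878576) (nat_lit 6) (nat_lit 4) (nat_lit 7) (nat_lit 5) (nat_lit 7) (nat_lit 4) (nat_lit 384) (nat_lit 344) (nat_lit 292)) (XT.lf (nat_lit 0) (nat_lit 170031856689) (nat_lit 76) (nat_lit 86501914600) (nat_lit 76) (nat_lit 78482036328) (nat_lit 6) (nat_lit 4) (nat_lit 7) (nat_lit 5) (nat_lit 7) (nat_lit 4) (nat_lit 385) (nat_lit 344) (nat_lit 291)))) (XT.nd (nat_lit 156) (nat_lit 0) (nat_lit 0) (XT.nd (nat_lit 78) (nat_lit 152) (nat_lit 0) (XT.lf (nat_lit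 0) (nat_lit 300093671273) (nat_lit 76) (nat_lit 42907796040) (nat_lit 76) (nat_lit 34887282672) (nat_lit 6) (nat_lit 4) (nat_lit 7) (nat_lit 5) (nat_lit 7) (nat_lit 4) (nat_lit 386) (nat_lit 344) (nat_lit 290)) (XT.lf (nat_lit 0) (nat_lit 15249866935) (nat_lit 152) (nat_lit 403368957481) (nat_lit 0) (nat_lit 8275027261) (nat_lit 4) (nat_lit 5) (nat_lit 6) (nat_lit 4) (nat_lit 4) (nat_lit 4) (nat_lit 387) (nat_lit 344) (nat_lit 289))) (XT.nd (nat_lit 78) (nat_lit 0) (nat_lit 0) (XT.lf (nat_lit 0) (nat_lit 75631628150) (nat_lit 152) (nat_lit 337768149930) (nat_lit 0) (nat_lit 68656370890) (nat_lit 4) (nat_lit 5) (nat_lit 6) (nat_lit 4) (nat_lit 4) (nat_lit 4) (nat_lit 388) (nat_lit 344) (nat_lit 288)) (XT.lf (nat_lit 0) (nat_lit 145064042518) (nat_lit 152) (nat_lit 262341317923) (nat_lit 0) (nat_lit 138088422140) (nat_lit 4) (nat_lit 5) (nat_lit 6) (nat_lit 4) (nat_lit 4) (nat_lit 4) (nat_lit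 389) (nat_lit 344) (nat_lit 287))))))) (XT.nd (nat_lit 1014) (nat_lit 152) (nat_lit 0) (XT.nd (nat_lit 468) (nat_lit 0) (nat_lit 0) (XT.nd (nat_lit 234) (nat_lit 0) (nat_lit 0) (XT.nd (nat_lit 78) (nat_lit 76) (nat_lit 0) (XT.lf (nat_lit 0) (nat_lit 224905570321) (nat_lit 152) (nat_lit 175612719095) (nat_lit 0) (nat_lit 217929634188) (nat_lit 4) (nat_lit 5) (nat_lit 6) (nat_lit 4) (nat_lit 4) (nat_lit 4) (nat_lit 390) (nat_lit 344) (nat_lit 286)) (XT.nd (nat_lit 78) (nat_lit 76) (nat_lit 0) (XT.lf (nat_lit 0) (nat_lit 316718328407) (nat_lit 152) (nat_lit 75885489556) (nat_lit 0) (nat_lit 309742117705) (nat_lit 4) (nat_lit 5) (nat_lit 6) (nat_lit 4) (nat_lit 4) (nat_lit 4) (nat_lit 391) (nat_lit 344) (nat_lit 285)) (XT.lf (nat_lit 0) (nat_lit 42582548556) (nat_lit 76) (nat_lit 381479357320) (nat_lit 76) (nat_lit 374502907861) (nat_lit 3) (nat_lit 4) (nat_lit 4) (nat_lit 5) (nat_lit 4) (nat_lit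 4) (nat_lit 392) (nat_lit 344) (nat_lit 284)))) (XT.nd (nat_lit 78) (nat_lit 0) (nat_lit 0) (XT.lf (nat_lit 0) (nat_lit 187340439124) (nat_lit 76) (nat_lit 364129176107) (nat_lit 76) (nat_lit 357152519034) (nat_lit 3) (nat_lit 4) (nat_lit 4) (nat_lit 5) (nat_lit 4) (nat_lit 4) (nat_lit 393) (nat_lit 344) (nat_lit 283)) (XT.nd (nat_lit 78) (nat_lit 0) (nat_lit 0) (XT.lf (nat_lit 0) (nat_lit 353804319813) (nat_lit 76) (nat_lit 344180555758) (nat_lit 76) (nat_lit 337203718152) (nat_lit 3) (nat_lit 4) (nat_lit 4) (nat_lit 5) (nat_lit 4) (nat_lit 4) (nat_lit 394) (nat_lit 344) (nat_lit 282)) (XT.lf (nat_lit 0) (nat_lit 545231092635) (nat_lit 76) (nat_lit 321243197179) (nat_lit 76) (nat_lit 314266202586) (nat_lit 3) (nat_lit 4) (nat_lit 4) (nat_lit 5) (nat_lit 4) (nat_lit 4) (nat_lit 395) (nat_lit 344) (nat_lit 281))))) (XT.nd (nat_lit 234) (nat_lit 0) (nat_lit 0) (XT.nd (nat_lit 78) (nat_lit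 0) (nat_lit 0) (XT.lf (nat_lit 0) (nat_lit 765366064016) (nat_lit 76) (nat_lit 294868325962) (nat_lit 76) (nat_lit 287891194860) (nat_lit 3) (nat_lit 4) (nat_lit 4) (nat_lit 5) (nat_lit 4) (nat_lit 4) (nat_lit 396) (nat_lit 344) (nat_lit 280)) (XT.nd (nat_lit 78) (nat_lit 0) (nat_lit 0) (XT.lf (nat_lit 0) (nat_lit 1018516222526) (nat_lit 76) (nat_lit 264539912020) (nat_lit 76) (nat_lit 257562662214) (nat_lit 3) (nat_lit 4) (nat_lit 4) (nat_lit 5) (nat_lit 4) (nat_lit 4) (nat_lit 397) (nat_lit 344) (nat_lit 279)) (XT.lf (nat_lit 0) (nat_lit 1309634506049) (nat_lit 76) (nat_lit 229664573339) (nat_lit 76) (nat_lit 222687220312) (nat_lit 3) (nat_lit 4) (nat_lit 4) (nat_lit 5) (nat_lit 4) (nat_lit 4) (nat_lit 398) (nat_lit 344) (nat_lit 278)))) (XT.nd (nat_lit 156) (nat_lit 0) (nat_lit 0) (XT.nd (nat_lit 78) (nat_lit 0) (nat_lit 0) (XT.lf (nat_lit 0) (nat_lit 1644416707088) (nat_lit 76) (nat_lit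 189559966337) (nat_lit 76) (nat_lit 182582523553) (nat_lit 3) (nat_lit 4) (nat_lit 4) (nat_lit 5) (nat_lit 4) (nat_lit 4) (nat_lit 399) (nat_lit 344) (nat_lit 277)) (XT.lf (nat_lit 0) (nat_lit 2029412912186) (nat_lit 76) (nat_lit 143441435660) (nat_lit 76) (nat_lit 136463914827) (nat_lit 3) (nat_lit 4) (nat_lit 4) (nat_lit 5) (nat_lit 4) (nat_lit 4) (nat_lit 400) (nat_lit 344) (nat_lit 276))) (XT.nd (nat_lit 78) (nat_lit 0) (nat_lit 0) (XT.lf (nat_lit 0) (nat_lit 2472155655790) (nat_lit 76) (nat_lit 90406662229) (nat_lit 76) (nat_lit 83429073526) (nat_lit 3) (nat_lit 4) (nat_lit 4) (nat_lit 5) (nat_lit 4) (nat_lit 4) (nat_lit 401) (nat_lit 344) (nat_lit 275)) (XT.lf (nat_lit 0) (nat_lit 2981307295927) (nat_lit 76) (nat_lit 29418009173) (nat_lit 76) (nat_lit 22440361453) (nat_lit 3) (nat_lit 4) (nat_lit 4) (nat_lit 5) (nat_lit 4) (nat_lit 4) (nat_lit 402) (nat_lit 344) (nat_lit 274))))))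 (XT.nd (nat_lit 468) (nat_lit 0) (nat_lit 0) (XT.nd (nat_lit 234) (nat_lit 0) (nat_lit 0) (XT.nd (nat_lit 78) (nat_lit 0) (nat_lit 0) (XT.lf (nat_lit 0) (nat_lit 49345489058) (nat_lit 152) (nat_lit 3384612148871) (nat_lit 0) (nat_lit 43277924676) (nat_lit 1) (nat_lit 5) (nat_lit 3) (nat_lit 4) (nat_lit 1) (nat_lit 4) (nat_lit 403) (nat_lit 344) (nat_lit 273)) (XT.nd (nat_lit 78) (nat_lit 0) (nat_lit 0) (XT.lf (nat_lit 0) (nat_lit 133841399886) (nat_lit 152) (nat_lit 3725504510944) (nat_lit 0) (nat_lit 127773796699) (nat_lit 1) (nat_lit 5) (nat_lit 3) (nat_lit 4) (nat_lit 1) (nat_lit 4) (nat_lit 404) (nat_lit 344) (nat_lit 272)) (XT.lf (nat_lit 0) (nat_lit 231010764801) (nat_lit 152) (nat_lit 4117532721407) (nat_lit 0) (nat_lit 224943127871) (nat_lit 1) (nat_lit 5) (nat_lit 3) (nat_lit 4) (nat_lit 1) (nat_lit 4) (nat_lit 405) (nat_lit 344) (nat_lit 271)))) (XT.nd (nat_lit 78) (nat_lit 0)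 (nat_lit 0) (XT.lf (nat_lit 0) (nat_lit 342754723551) (nat_lit 152) (nat_lit 4568366897420) (nat_lit 0) (nat_lit 336687057280) (nat_lit 1) (nat_lit 5) (nat_lit 3) (nat_lit 4) (nat_lit 1) (nat_lit 4) (nat_lit 406) (nat_lit 344) (nat_lit 270)) (XT.nd (nat_lit 78) (nat_lit 0) (nat_lit 0) (XT.lf (nat_lit 0) (nat_lit 471259570983) (nat_lit 152) (nat_lit 5086827707645) (nat_lit 0) (nat_lit 465191879197) (nat_lit 1) (nat_lit 5) (nat_lit 3) (nat_lit 4) (nat_lit 1) (nat_lit 4) (nat_lit 407) (nat_lit 344) (nat_lit 269)) (XT.lf (nat_lit 0) (nat_lit 619039532372) (nat_lit 152) (nat_lit 5683058950542) (nat_lit 0) (nat_lit 612971818399) (nat_lit 1) (nat_lit 5) (nat_lit 3) (nat_lit 4) (nat_lit 1) (nat_lit 4) (nat_lit 408) (nat_lit 344) (nat_lit 268))))) (XT.nd (nat_lit 234) (nat_lit 0) (nat_lit 0) (XT.nd (nat_lit 78) (nat_lit 0) (nat_lit 0) (XT.lf (nat_lit 0) (nat_lit 788985954787) (nat_lit 152) (nat_lit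 6368726019995) (nat_lit 0) (nat_lit 782918221523) (nat_lit 1) (nat_lit 5) (nat_lit 3) (nat_lit 4) (nat_lit 1) (nat_lit 4) (nat_lit 409) (nat_lit 344) (nat_lit 267)) (XT.nd (nat_lit 78) (nat_lit 0) (nat_lit 0) (XT.lf (nat_lit 0) (nat_lit 984423876930) (nat_lit 152) (nat_lit 7157244141275) (nat_lit 0) (nat_lit 978356126889) (nat_lit 1) (nat_lit 5) (nat_lit 3) (nat_lit 4) (nat_lit 1) (nat_lit 4) (nat_lit 410) (nat_lit 344) (nat_lit 266)) (XT.lf (nat_lit 0) (nat_lit 1209177084233) (nat_lit 152) (nat_lit 8064040842842) (nat_lit 0) (nat_lit 1203109319604) (nat_lit 1) (nat_lit 5) (nat_lit 3) (nat_lit 4) (nat_lit 1) (nat_lit 4) (nat_lit 411) (nat_lit 344) (nat_lit 265)))) (XT.nd (nat_lit 156) (nat_lit 0) (nat_lit 0) (XT.nd (nat_lit 78) (nat_lit 0) (nat_lit 0) (XT.lf (nat_lit 0) (nat_lit 1467642922056) (nat_lit 152) (nat_lit 9106857799293) (nat_lit 0) (nat_lit 1461575144741) (nat_lit 1) (nat_lit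 5) (nat_lit 3) (nat_lit 4) (nat_lit 1) (nat_lit 4) (nat_lit 412) (nat_lit 344) (nat_lit 264)) (XT.lf (nat_lit 0) (nat_lit 1764878330705) (nat_lit 152) (nat_lit 10306097951078) (nat_lit 0) (nat_lit 1758810542360) (nat_lit 1) (nat_lit 5) (nat_lit 3) (nat_lit 4) (nat_lit 1) (nat_lit 4) (nat_lit 413) (nat_lit 344) (nat_lit 263))) (XT.nd (nat_lit 78) (nat_lit 0) (nat_lit 0) (XT.lf (nat_lit 0) (nat_lit 2106698785566) (nat_lit 152) (nat_lit 11685224692473) (nat_lit 0) (nat_lit 2100630987628) (nat_lit 1) (nat_lit 5) (nat_lit 3) (nat_lit 4) (nat_lit 1) (nat_lit 4) (nat_lit 414) (nat_lit 344) (nat_lit 262)) (XT.lf (nat_lit 0) (nat_lit 2499792078147) (nat_lit 152) (nat_lit 13271220937982) (nat_lit 0) (nat_lit 2493724271869) (nat_lit 1) (nat_lit 5) (nat_lit 3) (nat_lit 4) (nat_lit 1) (nat_lit 4) (nat_lit 415) (nat_lit 344) (nat_lit 261))))))))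
noncomputable def xc56 : XT := (XT.nd (nat_lit 48126) (nat_lit 0) (nat_lit 760) (XT.nd (nat_lit 936) (nat_lit 0) (nat_lit 0) (XT.nd (nat_lit 468) (nat_lit 0) (nat_lit 0) (XT.nd (nat_lit 234) (nat_lit 0) (nat_lit 0) (XT.nd (nat_lit 78) (nat_lit 0) (nat_lit 0) (XT.lf (nat_lit 0) (nat_lit 2951849164173) (nat_lit 152) (nat_lit 15095117048932) (nat_lit 0) (nat_lit 2945781350642) (nat_lit 1) (nat_lit 5) (nat_lit 3) (nat_lit 4) (nat_lit 1) (nat_lit 4) (nat_lit 416) (nat_lit 344) (nat_lit 260)) (XT.nd (nat_lit 78) (nat_lit 0) (nat_lit 0) (XT.lf (nat_lit 0) (nat_lit 3471714638805) (nat_lit 152) (nat_lit 17192597949231) (nat_lit 0) (nat_lit 3465646818967) (nat_lit 1) (nat_lit 5) (nat_lit 3) (nat_lit 4) (nat_lit 1) (nat_lit 4) (nat_lit 417) (nat_lit 344) (nat_lit 259)) (XT.lf (nat_lit 0) (nat_lit 4069559783068) (nat_lit 152) (nat_lit 19604701308669) (nat_lit 0) (nat_lit 4063491957747) (nat_lit 1)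 (nat_lit 5) (nat_lit 3) (nat_lit 4) (nat_lit 1) (nat_lit 4) (nat_lit 418) (nat_lit 344) (nat_lit 258)))) (XT.nd (nat_lit 78) (nat_lit 0) (nat_lit 0) (XT.lf (nat_lit 0) (nat_lit 4757081567177) (nat_lit 152) (nat_lit 22378620453843) (nat_lit 0) (nat_lit 4751013737087) (nat_lit 1) (nat_lit 5) (nat_lit 3) (nat_lit 4) (nat_lit 1) (nat_lit 4) (nat_lit 419) (nat_lit 344) (nat_lit 257)) (XT.nd (nat_lit 78) (nat_lit 0) (nat_lit 0) (XT.lf (nat_lit 0) (nat_lit 5547731504299) (nat_lit 152) (nat_lit 25568627715854) (nat_lit 0) (nat_lit 5541663670061) (nat_lit 1) (nat_lit 5) (nat_lit 3) (nat_lit 4) (nat_lit 1) (nat_lit 4) (nat_lit 420) (nat_lit 344) (nat_lit 256)) (XT.lf (nat_lit 0) (nat_lit 6456978832333) (nat_lit 152) (nat_lit 29237136280264) (nat_lit 0) (nat_lit 6450910994490) (nat_lit 1) (nat_lit 5) (nat_lit 3) (nat_lit 4) (nat_lit 1) (nat_lit 4) (nat_lit 421) (nat_lit 344) (nat_lit 255))))) (XT.nd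 (nat_lit 234) (nat_lit 0) (nat_lit 0) (XT.nd (nat_lit 78) (nat_lit 0) (nat_lit 0) (XT.lf (nat_lit 0) (nat_lit 7502613172916) (nat_lit 152) (nat_lit 33455921314636) (nat_lit 0) (nat_lit 7496545331937) (nat_lit 1) (nat_lit 5) (nat_lit 3) (nat_lit 4) (nat_lit 1) (nat_lit 4) (nat_lit 422) (nat_lit 344) (nat_lit 254)) (XT.nd (nat_lit 78) (nat_lit 0) (nat_lit 0) (XT.lf (nat_lit 0) (nat_lit 8705092589233) (nat_lit 152) (nat_lit 38307524265297) (nat_lit 0) (nat_lit 8699024745527) (nat_lit 1) (nat_lit 5) (nat_lit 3) (nat_lit 4) (nat_lit 1) (nat_lit 4) (nat_lit 423) (nat_lit 344) (nat_lit 253)) (XT.lf (nat_lit 0) (nat_lit 10087943852472) (nat_lit 152) (nat_lit 43886867798670) (nat_lit 0) (nat_lit 10081876006396) (nat_lit 1) (nat_lit 5) (nat_lit 3) (nat_lit 4) (nat_lit 1) (nat_lit 4) (nat_lit 424) (nat_lit 344) (nat_lit 252)))) (XT.nd (nat_lit 78) (nat_lit 0) (nat_lit 0) (XT.lf (nat_lit 0) (nat_lit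 11678222748219) (nat_lit 152) (nat_lit 50303112983889) (nat_lit 0) (nat_lit 11672154900081) (nat_lit 1) (nat_lit 5) (nat_lit 3) (nat_lit 4) (nat_lit 1) (nat_lit 4) (nat_lit 425) (nat_lit 344) (nat_lit 251)) (XT.nd (nat_lit 78) (nat_lit 0) (nat_lit 0) (XT.lf (nat_lit 0) (nat_lit 13507043428782) (nat_lit 152) (nat_lit 57681795052837) (nat_lit 0) (nat_lit 13500975578851) (nat_lit 1) (nat_lit 5) (nat_lit 3) (nat_lit 4) (nat_lit 1) (nat_lit 4) (nat_lit 426) (nat_lit 344) (nat_lit 250)) (XT.lf (nat_lit 0) (nat_lit 15610187168345) (nat_lit 152) (nat_lit 66167279524255) (nat_lit 0) (nat_lit 15604119316855) (nat_lit 1) (nat_lit 5) (nat_lit 3) (nat_lit 4) (nat_lit 1) (nat_lit 4) (nat_lit 427) (nat_lit 344) (nat_lit 249)))))) (XT.nd (nat_lit 46644) (nat_lit 0) (nat_lit 2584) (XT.nd (nat_lit 234) (nat_lit 0) (nat_lit 0) (XT.nd (nat_lit 78) (nat_lit 0) (nat_lit 0) (XT.lf (nat_lit 0) (nat_lit 18028802431378)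 (nat_lit 152) (nat_lit 75925586746497) (nat_lit 0) (nat_lit 18022734578533) (nat_lit 1) (nat_lit 5) (nat_lit 3) (nat_lit 4) (nat_lit 1) (nat_lit 4) (nat_lit 428) (nat_lit 344) (nat_lit 248)) (XT.nd (nat_lit 78) (nat_lit 0) (nat_lit 0) (XT.lf (nat_lit 0) (nat_lit 20810209951289) (nat_lit 152) (nat_lit 87147640121736) (nat_lit 0) (nat_lit 20804142097265) (nat_lit 1) (nat_lit 5) (nat_lit 3) (nat_lit 4) (nat_lit 1) (nat_lit 4) (nat_lit 429) (nat_lit 344) (nat_lit 247)) (XT.lf (nat_lit 0) (nat_lit 24008828570859) (nat_lit 152) (nat_lit 100053001563837) (nat_lit 0) (nat_lit 24002760715809) (nat_lit 1) (nat_lit 5) (nat_lit 3) (nat_lit 4) (nat_lit 1) (nat_lit 4) (nat_lit 430) (nat_lit 344) (nat_lit 246)))) (XT.nd (nat_lit 78) (nat_lit 0) (nat_lit 0) (XT.lf (nat_lit 0) (nat_lit 27687239958730) (nat_lit 152) (nat_lit 114894167274927) (nat_lit 0) (nat_lit 27681172102790) (nat_lit 1) (nat_lit 5) (nat_lit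 3) (nat_lit 4) (nat_lit 1) (nat_lit 4) (nat_lit 431) (nat_lit 344) (nat_lit 245)) (XT.nd (nat_lit 78) (nat_lit 0) (nat_lit 0) (XT.lf (nat_lit 0) (nat_lit 31917413033363) (nat_lit 152) (nat_lit 131961507888485) (nat_lit 0) (nat_lit 31911345176647) (nat_lit 1) (nat_lit 5) (nat_lit 3) (nat_lit 4) (nat_lit 1) (nat_lit 4) (nat_lit 432) (nat_lit 344) (nat_lit 244)) (XT.lf (nat_lit 0) (nat_lit 36782112050563) (nat_lit 152) (nat_lit 151588949633905) (nat_lit 0) (nat_lit 36776044193173) (nat_lit 1) (nat_lit 5) (nat_lit 3) (nat_lit 4) (nat_lit 1) (nat_lit 4) (nat_lit 433) (nat_lit 344) (nat_lit 243))))) (XT.nd (nat_lit 234) (nat_lit 532) (nat_lit 0) (XT.nd (nat_lit 78) (nat_lit 0) (nat_lit 0) (XT.lf (nat_lit 0) (nat_lit 1627819798) (nat_lit 0) (nat_lit 1627819798) (nat_lit 228) (nat_lit 1146501731) (nat_lit 42) (nat_lit 5) (nat_lit 42) (nat_lit 3) (nat_lit 45) (nat_lit 3) (nat_lit 345) (nat_lit 345)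 (nat_lit 330)) (XT.nd (nat_lit 78) (nat_lit 0) (nat_lit 0) (XT.lf (nat_lit 0) (nat_lit 7883035460) (nat_lit 228) (nat_lit 1153642476) (nat_lit 304) (nat_lit 294919624) (nat_lit 42) (nat_lit 5) (nat_lit 45) (nat_lit 3) (nat_lit 46) (nat_lit 5) (nat_lit 346) (nat_lit 345) (nat_lit 329)) (XT.lf (nat_lit 76) (nat_lit 3997475337) (nat_lit 0) (nat_lit 5631936712) (nat_lit 304) (nat_lit 283357211) (nat_lit 43) (nat_lit 5) (nat_lit 42) (nat_lit 5) (nat_lit 46) (nat_lit 5) (nat_lit 347) (nat_lit 345) (nat_lit 328)))) (XT.nd (nat_lit 156) (nat_lit 228) (nat_lit 0) (XT.nd (nat_lit 78) (nat_lit 0) (nat_lit 76) (XT.lf (nat_lit 0) (nat_lit 883165036) (nat_lit 304) (nat_lit 681039299) (nat_lit 380) (nat_lit 9022325331) (nat_lit 38) (nat_lit 5) (nat_lit 42) (nat_lit 5) (nat_lit 43) (nat_lit 5) (nat_lit 348) (nat_lit 345) (nat_lit 327)) (XT.lf (nat_lit 0) (nat_lit 2451184890) (nat_lit 304) (nat_lit 5747157372)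 (nat_lit 76) (nat_lit 3122716365) (nat_lit 39) (nat_lit 5) (nat_lit 43) (nat_lit 5) (nat_lit 40) (nat_lit 5) (nat_lit 349) (nat_lit 345) (nat_lit 326))) (XT.nd (nat_lit 78) (nat_lit 0) (nat_lit 0) (XT.lf (nat_lit 0) (nat_lit 543888888) (nat_lit 304) (nat_lit 3733856838) (nat_lit 380) (nat_lit 7884570872) (nat_lit 35) (nat_lit 5) (nat_lit 39) (nat_lit 5) (nat_lit 40) (nat_lit 5) (nat_lit 350) (nat_lit 345) (nat_lit 325)) (XT.lf (nat_lit 0) (nat_lit 6649869011) (nat_lit 380) (nat_lit 4853919028) (nat_lit 76) (nat_lit 1585282275) (nat_lit 35) (nat_lit 5) (nat_lit 40) (nat_lit 5) (nat_lit 36) (nat_lit 5) (nat_lit 351) (nat_lit 345) (nat_lit 324))))))) (XT.nd (nat_lit 1014) (nat_lit 836) (nat_lit 0) (XT.nd (nat_lit 468) (nat_lit 456) (nat_lit 0) (XT.nd (nat_lit 234) (nat_lit 228) (nat_lit 0) (XT.nd (nat_lit 78) (nat_lit 152) (nat_lit 0) (XT.lf (nat_lit 0) (nat_lit 2900060884) (nat_lit 152) (nat_lit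 6687698419) (nat_lit 228) (nat_lit 4535623590) (nat_lit 33) (nat_lit 5) (nat_lit 35) (nat_lit 5) (nat_lit 36) (nat_lit 5) (nat_lit 352) (nat_lit 345) (nat_lit 323)) (XT.nd (nat_lit 78) (nat_lit 152) (nat_lit 0) (XT.lf (nat_lit 0) (nat_lit 12261865608) (nat_lit 152) (nat_lit 877552609) (nat_lit 228) (nat_lit 2147494497) (nat_lit 33) (nat_lit 5) (nat_lit 35) (nat_lit 5) (nat_lit 36) (nat_lit 5) (nat_lit 353) (nat_lit 345) (nat_lit 322)) (XT.lf (nat_lit 0) (nat_lit 1011888835) (nat_lit 152) (nat_lit 9946316208) (nat_lit 76) (nat_lit 5593120067) (nat_lit 31) (nat_lit 5) (nat_lit 33) (nat_lit 5) (nat_lit 32) (nat_lit 5) (nat_lit 354) (nat_lit 345) (nat_lit 321)))) (XT.nd (nat_lit 78) (nat_lit 228) (nat_lit 0) (XT.lf (nat_lit 0) (nat_lit 4564162420) (nat_lit 152) (nat_lit 213470896) (nat_lit 76) (nat_lit 13191621786) (nat_lit 31) (nat_lit 5) (nat_lit 33) (nat_lit 5) (nat_lit 32) (nat_lit 5) (nat_lit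 355) (nat_lit 345) (nat_lit 320)) (XT.nd (nat_lit 78) (nat_lit 76) (nat_lit 0) (XT.lf (nat_lit 0) (nat_lit 9203677149) (nat_lit 228) (nat_lit 7696455782) (nat_lit 76) (nat_lit 2616600579) (nat_lit 29) (nat_lit 5) (nat_lit 32) (nat_lit 5) (nat_lit 30) (nat_lit 4) (nat_lit 356) (nat_lit 345) (nat_lit 319)) (XT.lf (nat_lit 0) (nat_lit 4468195995) (nat_lit 76) (nat_lit 10438698771) (nat_lit 152) (nat_lit 6334289027) (nat_lit 28) (nat_lit 5) (nat_lit 29) (nat_lit 5) (nat_lit 30) (nat_lit 4) (nat_lit 357) (nat_lit 345) (nat_lit 318))))) (XT.nd (nat_lit 234) (nat_lit 228) (nat_lit 0) (XT.nd (nat_lit 78) (nat_lit 228) (nat_lit 0) (XT.lf (nat_lit 0) (nat_lit 19236636049) (nat_lit 76) (nat_lit 2578639774) (nat_lit 152) (nat_lit 1356587995) (nat_lit 28) (nat_lit 5) (nat_lit 29) (nat_lit 5) (nat_lit 30) (nat_lit 4) (nat_lit 358) (nat_lit 345) (nat_lit 317)) (XT.nd (nat_lit 78) (nat_lit 76) (nat_lit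 0) (XT.lf (nat_lit 0) (nat_lit 4709019582) (nat_lit 152) (nat_lit 13997133215) (nat_lit 76) (nat_lit 6549359830) (nat_lit 26) (nat_lit 5) (nat_lit 28) (nat_lit 5) (nat_lit 27) (nat_lit 4) (nat_lit 359) (nat_lit 345) (nat_lit 316)) (XT.lf (nat_lit 0) (nat_lit 1398532391) (nat_lit 76) (nat_lit 10497128035) (nat_lit 152) (nat_lit 15693855697) (nat_lit 25) (nat_lit 5) (nat_lit 26) (nat_lit 5) (nat_lit 27) (nat_lit 4) (nat_lit 360) (nat_lit 345) (nat_lit 315)))) (XT.nd (nat_lit 156) (nat_lit 152) (nat_lit 0) (XT.nd (nat_lit 78) (nat_lit 76) (nat_lit 0) (XT.lf (nat_lit 0) (nat_lit 20599098953) (nat_lit 76) (nat_lit 249549847) (nat_lit 152) (nat_lit 9321726820) (nat_lit 25) (nat_lit 5) (nat_lit 26) (nat_lit 5) (nat_lit 27) (nat_lit 4) (nat_lit 361) (nat_lit 345) (nat_lit 314)) (XT.lf (nat_lit 0) (nat_lit 9870645527) (nat_lit 76) (nat_lit 22121409867) (nat_lit 76) (nat_lit 1019195269) (nat_lit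 24) (nat_lit 4) (nat_lit 25) (nat_lit 5) (nat_lit 25) (nat_lit 4) (nat_lit 362) (nat_lit 345) (nat_lit 313))) (XT.nd (nat_lit 78) (nat_lit 76) (nat_lit 0) (XT.lf (nat_lit 0) (nat_lit 8267038769) (nat_lit 152) (nat_lit 3359877702) (nat_lit 76) (nat_lit 24523731278) (nat_lit 23) (nat_lit 5) (nat_lit 25) (nat_lit 5) (nat_lit 24) (nat_lit 4) (nat_lit 363) (nat_lit 345) (nat_lit 312)) (XT.lf (nat_lit 0) (nat_lit 19745767036) (nat_lit 152) (nat_lit 18528002859) (nat_lit 0) (nat_lit 1344323423) (nat_lit 22) (nat_lit 5) (nat_lit 24) (nat_lit 4) (nat_lit 22) (nat_lit 4) (nat_lit 364) (nat_lit 345) (nat_lit 311)))))) (XT.nd (nat_lit 468) (nat_lit 380) (nat_lit 0) (XT.nd (nat_lit 234) (nat_lit 228) (nat_lit 0) (XT.nd (nat_lit 78) (nat_lit 152) (nat_lit 0) (XT.lf (nat_lit 0) (nat_lit 5906015436) (nat_lit 76) (nat_lit 27989785127) (nat_lit 76) (nat_lit 9567434826) (nat_lit 21) (nat_lit 4) (nat_lit 22)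 (nat_lit 5) (nat_lit 22) (nat_lit 4) (nat_lit 365) (nat_lit 345) (nat_lit 310)) (XT.nd (nat_lit 78) (nat_lit 76) (nat_lit 0) (XT.lf (nat_lit 0) (nat_lit 3062114005) (nat_lit 152) (nat_lit 11856984918) (nat_lit 76) (nat_lit 32804543260) (nat_lit 20) (nat_lit 5) (nat_lit 22) (nat_lit 5) (nat_lit 21) (nat_lit 4) (nat_lit 366) (nat_lit 345) (nat_lit 309)) (XT.lf (nat_lit 0) (nat_lit 17422007325) (nat_lit 152) (nat_lit 33637433907) (nat_lit 0) (nat_lit 1373017333) (nat_lit 19) (nat_lit 5) (nat_lit 21) (nat_lit 4) (nat_lit 19) (nat_lit 4) (nat_lit 367) (nat_lit 345) (nat_lit 308)))) (XT.nd (nat_lit 78) (nat_lit 228) (nat_lit 0) (XT.lf (nat_lit 0) (nat_lit 35267815265) (nat_lit 152) (nat_lit 3173123067) (nat_lit 0) (nat_lit 19206871805) (nat_lit 19) (nat_lit 5) (nat_lit 21) (nat_lit 4) (nat_lit 19) (nat_lit 4) (nat_lit 368) (nat_lit 345) (nat_lit 307)) (XT.nd (nat_lit 78) (nat_lit 152) (nat_lit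 0) (XT.lf (nat_lit 0) (nat_lit 34921103019) (nat_lit 76) (nat_lit 22291213923) (nat_lit 76) (nat_lit 6219876144) (nat_lit 18) (nat_lit 4) (nat_lit 19) (nat_lit 5) (nat_lit 19) (nat_lit 4) (nat_lit 369) (nat_lit 345) (nat_lit 306)) (XT.lf (nat_lit 0) (nat_lit 9284642574) (nat_lit 76) (nat_lit 2513040630) (nat_lit 152) (nat_lit 58129628939) (nat_lit 16) (nat_lit 5) (nat_lit 17) (nat_lit 5) (nat_lit 18) (nat_lit 4) (nat_lit 370) (nat_lit 345) (nat_lit 305))))) (XT.nd (nat_lit 234) (nat_lit 304) (nat_lit 0) (XT.nd (nat_lit 78) (nat_lit 76) (nat_lit 0) (XT.lf (nat_lit 0) (nat_lit 34256336253) (nat_lit 152) (nat_lit 22473082062) (nat_lit 0) (nat_lit 20266565892) (nat_lit 16) (nat_lit 5) (nat_lit 18) (nat_lit 4) (nat_lit 16) (nat_lit 4) (nat_lit 371) (nat_lit 345) (nat_lit 304)) (XT.nd (nat_lit 78) (nat_lit 0) (nat_lit 0) (XT.lf (nat_lit 0) (nat_lit 23337299392) (nat_lit 76) (nat_lit 37811788546)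 (nat_lit 76) (nat_lit 23816075198) (nat_lit 15) (nat_lit 4) (nat_lit 16) (nat_lit 5) (nat_lit 16) (nat_lit 4) (nat_lit 372) (nat_lit 345) (nat_lit 303)) (XT.lf (nat_lit 0) (nat_lit 78504220115) (nat_lit 76) (nat_lit 14726563161) (nat_lit 76) (nat_lit 725682000) (nat_lit 15) (nat_lit 4) (nat_lit 16) (nat_lit 5) (nat_lit 16) (nat_lit 4) (nat_lit 373) (nat_lit 345) (nat_lit 302)))) (XT.nd (nat_lit 156) (nat_lit 152) (nat_lit 0) (XT.nd (nat_lit 78) (nat_lit 0) (nat_lit 0) (XT.lf (nat_lit 0) (nat_lit 25790695157) (nat_lit 152) (nat_lit 64393960593) (nat_lit 0) (nat_lit 13612108277) (nat_lit 13) (nat_lit 5) (nat_lit 15) (nat_lit 4) (nat_lit 13) (nat_lit 4) (nat_lit 374) (nat_lit 345) (nat_lit 301)) (XT.lf (nat_lit 0) (nat_lit 57739858857) (nat_lit 152) (nat_lit 11580748001) (nat_lit 0) (nat_lit 45557874056) (nat_lit 13) (nat_lit 5) (nat_lit 15) (nat_lit 4) (nat_lit 13) (nat_lit 4) (nat_lit 375)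 (nat_lit 345) (nat_lit 300))) (XT.nd (nat_lit 78) (nat_lit 76) (nat_lit 0) (XT.lf (nat_lit 0) (nat_lit 53922623052) (nat_lit 76) (nat_lit 42776087666) (nat_lit 76) (nat_lit 30591148150) (nat_lit 12) (nat_lit 4) (nat_lit 13) (nat_lit 5) (nat_lit 13) (nat_lit 4) (nat_lit 376) (nat_lit 345) (nat_lit 299)) (XT.lf (nat_lit 0) (nat_lit 562642303) (nat_lit 152) (nat_lit 10977827881) (nat_lit 76) (nat_lit 129930048749) (nat_lit 11) (nat_lit 5) (nat_lit 13) (nat_lit 5) (nat_lit 12) (nat_lit 4) (nat_lit 377) (nat_lit 345) (nat_lit 298))))))))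
noncomputable def xc57 : XT := (XT.nd (nat_lit 1950) (nat_lit 152) (nat_lit 0) (XT.nd (nat_lit 936) (nat_lit 76) (nat_lit 0) (XT.nd (nat_lit 468) (nat_lit 228) (nat_lit 0) (XT.nd (nat_lit 234) (nat_lit 152) (nat_lit 0) (XT.nd (nat_lit 78) (nat_lit 76) (nat_lit 0) (XT.lf (nat_lit 0) (nat_lit 37145499546) (nat_lit 152) (nat_lit 93285355266) (nat_lit 0) (nat_lit 26545723005) (nat_lit 10) (nat_lit 5) (nat_lit 12) (nat_lit 4) (nat_lit 10) (nat_lit 4) (nat_lit 378) (nat_lit 345) (nat_lit 297)) (XT.nd (nat_lit 78) (nat_lit 76) (nat_lit 0) (XT.lf (nat_lit 0) (nat_lit 80353103470) (nat_lit 152) (nat_lit 24533207118) (nat_lit 0) (nat_lit 69751637562) (nat_lit 10) (nat_lit 5) (nat_lit 12) (nat_lit 4) (nat_lit 10) (nat_lit 4) (nat_lit 379) (nat_lit 345) (nat_lit 296)) (XT.lf (nat_lit 0) (nat_lit 59834033568) (nat_lit 76) (nat_lit 72673766435) (nat_lit 76) (nat_lit 62070831512) (nat_lit 9) (nat_lit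 4) (nat_lit 10) (nat_lit 5) (nat_lit 10) (nat_lit 4) (nat_lit 380) (nat_lit 345) (nat_lit 295)))) (XT.nd (nat_lit 78) (nat_lit 152) (nat_lit 0) (XT.lf (nat_lit 0) (nat_lit 159590105962) (nat_lit 76) (nat_lit 34166913143) (nat_lit 76) (nat_lit 23562700816) (nat_lit 9) (nat_lit 4) (nat_lit 10) (nat_lit 5) (nat_lit 10) (nat_lit 4) (nat_lit 381) (nat_lit 345) (nat_lit 294)) (XT.nd (nat_lit 78) (nat_lit 0) (nat_lit 0) (XT.lf (nat_lit 0) (nat_lit 20752607163) (nat_lit 152) (nat_lit 210778710318) (nat_lit 0) (nat_lit 11530587064) (nat_lit 7) (nat_lit 5) (nat_lit 9) (nat_lit 4) (nat_lit 7) (nat_lit 4) (nat_lit 382) (nat_lit 345) (nat_lit 293)) (XT.lf (nat_lit 0) (nat_lit 74081135213) (nat_lit 152) (nat_lit 132840957266) (nat_lit 0) (nat_lit 64858275200) (nat_lit 7) (nat_lit 5) (nat_lit 9) (nat_lit 4) (nat_lit 7) (nat_lit 4) (nat_lit 383) (nat_lit 345) (nat_lit 292))))) (XT.nd (nat_lit 234) (nat_lit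 152) (nat_lit 0) (XT.nd (nat_lit 78) (nat_lit 76) (nat_lit 0) (XT.lf (nat_lit 0) (nat_lit 135400173895) (nat_lit 152) (nat_lit 43231158295) (nat_lit 0) (nat_lit 126176583521) (nat_lit 7) (nat_lit 5) (nat_lit 9) (nat_lit 4) (nat_lit 7) (nat_lit 4) (nat_lit 384) (nat_lit 345) (nat_lit 291)) (XT.nd (nat_lit 78) (nat_lit 0) (nat_lit 0) (XT.lf (nat_lit 0) (nat_lit 65648395965) (nat_lit 76) (nat_lit 142979407646) (nat_lit 76) (nat_lit 133755182177) (nat_lit 6) (nat_lit 4) (nat_lit 7) (nat_lit 5) (nat_lit 7) (nat_lit 4) (nat_lit 385) (nat_lit 345) (nat_lit 290)) (XT.lf (nat_lit 0) (nat_lit 195703023164) (nat_lit 76) (nat_lit 99389094994) (nat_lit 76) (nat_lit 90164317268) (nat_lit 6) (nat_lit 4) (nat_lit 7) (nat_lit 5) (nat_lit 7) (nat_lit 4) (nat_lit 386) (nat_lit 345) (nat_lit 289)))) (XT.nd (nat_lit 78) (nat_lit 152) (nat_lit 0) (XT.lf (nat_lit 0) (nat_lit 345252407156) (nat_lit 76) (nat_lit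 49267350841) (nat_lit 76) (nat_lit 40042092890) (nat_lit 6) (nat_lit 4) (nat_lit 7) (nat_lit 5) (nat_lit 7) (nat_lit 4) (nat_lit 387) (nat_lit 345) (nat_lit 288)) (XT.nd (nat_lit 78) (nat_lit 0) (nat_lit 0) (XT.lf (nat_lit 0) (nat_lit 17608530842) (nat_lit 152) (nat_lit 463722515958) (nat_lit 0) (nat_lit 9586204289) (nat_lit 4) (nat_lit 5) (nat_lit 6) (nat_lit 4) (nat_lit 4) (nat_lit 4) (nat_lit 388) (nat_lit 345) (nat_lit 287)) (XT.lf (nat_lit 0) (nat_lit 87038271386) (nat_lit 152) (nat_lit 388301385337) (nat_lit 0) (nat_lit 79015629078) (nat_lit 4) (nat_lit 5) (nat_lit 6) (nat_lit 4) (nat_lit 4) (nat_lit 4) (nat_lit 389) (nat_lit 345) (nat_lit 286)))))) (XT.nd (nat_lit 468) (nat_lit 0) (nat_lit 0) (XT.nd (nat_lit 234) (nat_lit 76) (nat_lit 0) (XT.nd (nat_lit 78) (nat_lit 0) (nat_lit 0) (XT.lf (nat_lit 0) (nat_lit 166877474125) (nat_lit 152) (nat_lit 301577744236) (nat_lit 0) (nat_lit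 158854557248) (nat_lit 4) (nat_lit 5) (nat_lit 6) (nat_lit 4) (nat_lit 4) (nat_lit 4) (nat_lit 390) (nat_lit 345) (nat_lit 285)) (XT.nd (nat_lit 78) (nat_lit 0) (nat_lit 0) (XT.lf (nat_lit 0) (nat_lit 258688210417) (nat_lit 152) (nat_lit 201854825763) (nat_lit 0) (nat_lit 250665054783) (nat_lit 4) (nat_lit 5) (nat_lit 6) (nat_lit 4) (nat_lit 4) (nat_lit 4) (nat_lit 391) (nat_lit 345) (nat_lit 284)) (XT.lf (nat_lit 0) (nat_lit 364266777275) (nat_lit 152) (nat_lit 87181529340) (nat_lit 0) (nat_lit 356243414028) (nat_lit 4) (nat_lit 5) (nat_lit 6) (nat_lit 4) (nat_lit 4) (nat_lit 4) (nat_lit 392) (nat_lit 345) (nat_lit 283)))) (XT.nd (nat_lit 78) (nat_lit 0) (nat_lit 0) (XT.lf (nat_lit 0) (nat_lit 49052769777) (nat_lit 76) (nat_lit 438657243125) (nat_lit 76) (nat_lit 430633699344) (nat_lit 3) (nat_lit 4) (nat_lit 4) (nat_lit 5) (nat_lit 4) (nat_lit 4) (nat_lit 393) (nat_lit 345) (nat_lit 282))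 (XT.nd (nat_lit 78) (nat_lit 0) (nat_lit 0) (XT.lf (nat_lit 0) (nat_lit 215513538852) (nat_lit 76) (nat_lit 418710276182) (nat_lit 76) (nat_lit 410686575415) (nat_lit 3) (nat_lit 4) (nat_lit 4) (nat_lit 5) (nat_lit 4) (nat_lit 4) (nat_lit 394) (nat_lit 345) (nat_lit 281)) (XT.lf (nat_lit 0) (nat_lit 406937605923) (nat_lit 76) (nat_lit 395774355347) (nat_lit 76) (nat_lit 387750518070) (nat_lit 3) (nat_lit 4) (nat_lit 4) (nat_lit 5) (nat_lit 4) (nat_lit 4) (nat_lit 395) (nat_lit 345) (nat_lit 280))))) (XT.nd (nat_lit 234) (nat_lit 0) (nat_lit 0) (XT.nd (nat_lit 78) (nat_lit 0) (nat_lit 0) (XT.lf (nat_lit 0) (nat_lit 627070224477) (nat_lit 76) (nat_lit 369400734343) (nat_lit 76) (nat_lit 361376778362) (nat_lit 3) (nat_lit 4) (nat_lit 4) (nat_lit 5) (nat_lit 4) (nat_lit 4) (nat_lit 396) (nat_lit 345) (nat_lit 279)) (XT.nd (nat_lit 78) (nat_lit 0) (nat_lit 0) (XT.lf (nat_lit 0) (nat_lit 880218337050)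 (nat_lit 76) (nat_lit 339073407541) (nat_lit 76) (nat_lit 331049348340) (nat_lit 3) (nat_lit 4) (nat_lit 4) (nat_lit 5) (nat_lit 4) (nat_lit 4) (nat_lit 397) (nat_lit 345) (nat_lit 278)) (XT.lf (nat_lit 0) (nat_lit 1171334841498) (nat_lit 76) (nat_lit 304199014200) (nat_lit 76) (nat_lit 296174865242) (nat_lit 3) (nat_lit 4) (nat_lit 4) (nat_lit 5) (nat_lit 4) (nat_lit 4) (nat_lit 398) (nat_lit 345) (nat_lit 277)))) (XT.nd (nat_lit 156) (nat_lit 0) (nat_lit 0) (XT.nd (nat_lit 78) (nat_lit 0) (nat_lit 0) (XT.lf (nat_lit 0) (nat_lit 1506115495515) (nat_lit 76) (nat_lit 264095229234) (nat_lit 76) (nat_lit 256071002225) (nat_lit 3) (nat_lit 4) (nat_lit 4) (nat_lit 5) (nat_lit 4) (nat_lit 4) (nat_lit 399) (nat_lit 345) (nat_lit 276)) (XT.lf (nat_lit 0) (nat_lit 1891110355376) (nat_lit 76) (nat_lit 217977413369) (nat_lit 76) (nat_lit 209953118492) (nat_lit 3) (nat_lit 4) (nat_lit 4) (nat_lit 5)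 (nat_lit 4) (nat_lit 4) (nat_lit 400) (nat_lit 345) (nat_lit 275))) (XT.nd (nat_lit 78) (nat_lit 0) (nat_lit 0) (XT.lf (nat_lit 0) (nat_lit 2333851929209) (nat_lit 76) (nat_lit 164943261515) (nat_lit 76) (nat_lit 156918907620) (nat_lit 3) (nat_lit 4) (nat_lit 4) (nat_lit 5) (nat_lit 4) (nat_lit 4) (nat_lit 401) (nat_lit 345) (nat_lit 274)) (XT.lf (nat_lit 0) (nat_lit 2843002552154) (nat_lit 76) (nat_lit 103955148960) (nat_lit 76) (nat_lit 95930743746) (nat_lit 3) (nat_lit 4) (nat_lit 4) (nat_lit 5) (nat_lit 4) (nat_lit 4) (nat_lit 402) (nat_lit 345) (nat_lit 273))))))) (XT.nd (nat_lit 1014) (nat_lit 0) (nat_lit 0) (XT.nd (nat_lit 468) (nat_lit 0) (nat_lit 0) (XT.nd (nat_lit 234) (nat_lit 0) (nat_lit 0) (XT.nd (nat_lit 78) (nat_lit 152) (nat_lit 0) (XT.lf (nat_lit 0) (nat_lit 3428523866834) (nat_lit 76) (nat_lit 33819830024) (nat_lit 76) (nat_lit 25795380185) (nat_lit 3) (nat_lit 4) (nat_lit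 4) (nat_lit 5) (nat_lit 4) (nat_lit 4) (nat_lit 403) (nat_lit 345) (nat_lit 272)) (XT.nd (nat_lit 78) (nat_lit 0) (nat_lit 0) (XT.lf (nat_lit 0) (nat_lit 56757353451) (nat_lit 152) (nat_lit 3892282500080) (nat_lit 0) (nat_lit 49779537240) (nat_lit 1) (nat_lit 5) (nat_lit 3) (nat_lit 4) (nat_lit 1) (nat_lit 4) (nat_lit 404) (nat_lit 345) (nat_lit 271)) (XT.lf (nat_lit 0) (nat_lit 153926341203) (nat_lit 152) (nat_lit 4284311517045) (nat_lit 0) (nat_lit 146948495649) (nat_lit 1) (nat_lit 5) (nat_lit 3) (nat_lit 4) (nat_lit 1) (nat_lit 4) (nat_lit 405) (nat_lit 345) (nat_lit 270)))) (XT.nd (nat_lit 78) (nat_lit 0) (nat_lit 0) (XT.lf (nat_lit 0) (nat_lit 265669971985) (nat_lit 152) (nat_lit 4735146394365) (nat_lit 0) (nat_lit 258692100917) (nat_lit 1) (nat_lit 5) (nat_lit 3) (nat_lit 4) (nat_lit 1) (nat_lit 4) (nat_lit 406) (nat_lit 345) (nat_lit 269)) (XT.nd (nat_lit 78) (nat_lit 0) (nat_lit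 0) (XT.lf (nat_lit 0) (nat_lit 394174534227) (nat_lit 152) (nat_lit 5253607814422) (nat_lit 0) (nat_lit 387196640973) (nat_lit 1) (nat_lit 5) (nat_lit 3) (nat_lit 4) (nat_lit 1) (nat_lit 4) (nat_lit 407) (nat_lit 345) (nat_lit 268)) (XT.lf (nat_lit 0) (nat_lit 541954247625) (nat_lit 152) (nat_lit 5849839587608) (nat_lit 0) (nat_lit 534976335077) (nat_lit 1) (nat_lit 5) (nat_lit 3) (nat_lit 4) (nat_lit 1) (nat_lit 4) (nat_lit 408) (nat_lit 345) (nat_lit 267))))) (XT.nd (nat_lit 234) (nat_lit 0) (nat_lit 0) (XT.nd (nat_lit 78) (nat_lit 0) (nat_lit 0) (XT.lf (nat_lit 0) (nat_lit 711900454396) (nat_lit 152) (nat_lit 6535507118182) (nat_lit 0) (nat_lit 704922525072) (nat_lit 1) (nat_lit 5) (nat_lit 3) (nat_lit 4) (nat_lit 1) (nat_lit 4) (nat_lit 409) (nat_lit 345) (nat_lit 266)) (XT.nd (nat_lit 78) (nat_lit 0) (nat_lit 0) (XT.lf (nat_lit 0) (nat_lit 907338189022) (nat_lit 152) (nat_lit 7324025640436)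 (nat_lit 0) (nat_lit 900360245110) (nat_lit 1) (nat_lit 5) (nat_lit 3) (nat_lit 4) (nat_lit 1) (nat_lit 4) (nat_lit 410) (nat_lit 345) (nat_lit 265)) (XT.lf (nat_lit 0) (nat_lit 1132091233267) (nat_lit 152) (nat_lit 8230822690677) (nat_lit 0) (nat_lit 1125113276670) (nat_lit 1) (nat_lit 5) (nat_lit 3) (nat_lit 4) (nat_lit 1) (nat_lit 4) (nat_lit 411) (nat_lit 345) (nat_lit 264)))) (XT.nd (nat_lit 156) (nat_lit 0) (nat_lit 0) (XT.nd (nat_lit 78) (nat_lit 0) (nat_lit 0) (XT.lf (nat_lit 0) (nat_lit 1390556929300) (nat_lit 152) (nat_lit 9273639950321) (nat_lit 0) (nat_lit 1383578961672) (nat_lit 1) (nat_lit 5) (nat_lit 3) (nat_lit 4) (nat_lit 1) (nat_lit 4) (nat_lit 412) (nat_lit 345) (nat_lit 263)) (XT.lf (nat_lit 0) (nat_lit 1687792214653) (nat_lit 152) (nat_lit 10472880365754) (nat_lit 0) (nat_lit 1680814237434) (nat_lit 1) (nat_lit 5) (nat_lit 3) (nat_lit 4) (nat_lit 1) (nat_lit 4) (nat_lit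 413) (nat_lit 345) (nat_lit 262))) (XT.nd (nat_lit 78) (nat_lit 0) (nat_lit 0) (XT.lf (nat_lit 0) (nat_lit 2029612562301) (nat_lit 152) (nat_lit 11852007336407) (nat_lit 0) (nat_lit 2022634576740) (nat_lit 1) (nat_lit 5) (nat_lit 3) (nat_lit 4) (nat_lit 1) (nat_lit 4) (nat_lit 414) (nat_lit 345) (nat_lit 261)) (XT.lf (nat_lit 0) (nat_lit 2422705761653) (nat_lit 152) (nat_lit 13438003781271) (nat_lit 0) (nat_lit 2415727768840) (nat_lit 1) (nat_lit 5) (nat_lit 3) (nat_lit 4) (nat_lit 1) (nat_lit 4) (nat_lit 415) (nat_lit 345) (nat_lit 260)))))) (XT.nd (nat_lit 468) (nat_lit 0) (nat_lit 0) (XT.nd (nat_lit 234) (nat_lit 0) (nat_lit 0) (XT.nd (nat_lit 78) (nat_lit 0) (nat_lit 0) (XT.lf (nat_lit 0) (nat_lit 2874762766610) (nat_lit 152) (nat_lit 15261900065573) (nat_lit 0) (nat_lit 2867784767490) (nat_lit 1) (nat_lit 5) (nat_lit 3) (nat_lit 4) (nat_lit 1) (nat_lit 4) (nat_lit 416) (nat_lit 345)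 (nat_lit 259)) (XT.nd (nat_lit 78) (nat_lit 0) (nat_lit 0) (XT.lf (nat_lit 0) (nat_lit 3394628170747) (nat_lit 152) (nat_lit 17359381116614) (nat_lit 0) (nat_lit 3387650166143) (nat_lit 1) (nat_lit 5) (nat_lit 3) (nat_lit 4) (nat_lit 1) (nat_lit 4) (nat_lit 417) (nat_lit 345) (nat_lit 258)) (XT.lf (nat_lit 0) (nat_lit 3992473253711) (nat_lit 152) (nat_lit 19771484607131) (nat_lit 0) (nat_lit 3985495244338) (nat_lit 1) (nat_lit 5) (nat_lit 3) (nat_lit 4) (nat_lit 1) (nat_lit 4) (nat_lit 418) (nat_lit 345) (nat_lit 257)))) (XT.nd (nat_lit 78) (nat_lit 0) (nat_lit 0) (XT.lf (nat_lit 0) (nat_lit 4679994984516) (nat_lit 152) (nat_lit 22545403866287) (nat_lit 0) (nat_lit 4673016970996) (nat_lit 1) (nat_lit 5) (nat_lit 3) (nat_lit 4) (nat_lit 1) (nat_lit 4) (nat_lit 419) (nat_lit 345) (nat_lit 256)) (XT.nd (nat_lit 78) (nat_lit 0) (nat_lit 0) (XT.lf (nat_lit 0) (nat_lit 5470644875287) (nat_lit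 152) (nat_lit 25735411227413) (nat_lit 0) (nat_lit 5463666858161) (nat_lit 1) (nat_lit 5) (nat_lit 3) (nat_lit 4) (nat_lit 1) (nat_lit 4) (nat_lit 420) (nat_lit 345) (nat_lit 255)) (XT.lf (nat_lit 0) (nat_lit 6379892163016) (nat_lit 152) (nat_lit 29403919878009) (nat_lit 0) (nat_lit 6372914142754) (nat_lit 1) (nat_lit 5) (nat_lit 3) (nat_lit 4) (nat_lit 1) (nat_lit 4) (nat_lit 421) (nat_lit 345) (nat_lit 254))))) (XT.nd (nat_lit 234) (nat_lit 0) (nat_lit 0) (XT.nd (nat_lit 78) (nat_lit 0) (nat_lit 0) (XT.lf (nat_lit 0) (nat_lit 7425526468551) (nat_lit 152) (nat_lit 33622704987327) (nat_lit 0) (nat_lit 7418548445562) (nat_lit 1) (nat_lit 5) (nat_lit 3) (nat_lit 4) (nat_lit 1) (nat_lit 4) (nat_lit 422) (nat_lit 345) (nat_lit 253)) (XT.nd (nat_lit 78) (nat_lit 0) (nat_lit 0) (XT.lf (nat_lit 0) (nat_lit 8628005854390) (nat_lit 152) (nat_lit 38474308003157) (nat_lit 0) (nat_lit 8621027829031)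 (nat_lit 1) (nat_lit 5) (nat_lit 3) (nat_lit 4) (nat_lit 1) (nat_lit 4) (nat_lit 423) (nat_lit 345) (nat_lit 252)) (XT.lf (nat_lit 0) (nat_lit 10010857091128) (nat_lit 152) (nat_lit 44053651593200) (nat_lit 0) (nat_lit 10003879063707) (nat_lit 1) (nat_lit 5) (nat_lit 3) (nat_lit 4) (nat_lit 1) (nat_lit 4) (nat_lit 424) (nat_lit 345) (nat_lit 251)))) (XT.nd (nat_lit 156) (nat_lit 0) (nat_lit 0) (XT.nd (nat_lit 78) (nat_lit 0) (nat_lit 0) (XT.lf (nat_lit 0) (nat_lit 11601135963830) (nat_lit 152) (nat_lit 50469896827696) (nat_lit 0) (nat_lit 11594157934617) (nat_lit 1) (nat_lit 5) (nat_lit 3) (nat_lit 4) (nat_lit 1) (nat_lit 4) (nat_lit 425) (nat_lit 345) (nat_lit 250)) (XT.lf (nat_lit 0) (nat_lit 13429956624354) (nat_lit 152) (nat_lit 57848578939494) (nat_lit 0) (nat_lit 13422978593581) (nat_lit 1) (nat_lit 5) (nat_lit 3) (nat_lit 4) (nat_lit 1) (nat_lit 4) (nat_lit 426) (nat_lit 345) (nat_lit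 249))) (XT.nd (nat_lit 78) (nat_lit 0) (nat_lit 0) (XT.lf (nat_lit 0) (nat_lit 15533100346492) (nat_lit 152) (nat_lit 66334063448173) (nat_lit 0) (nat_lit 15526122314364) (nat_lit 1) (nat_lit 5) (nat_lit 3) (nat_lit 4) (nat_lit 1) (nat_lit 4) (nat_lit 427) (nat_lit 345) (nat_lit 248)) (XT.lf (nat_lit 0) (nat_lit 17951715594373) (nat_lit 152) (nat_lit 76092370702815) (nat_lit 0) (nat_lit 17944737561066) (nat_lit 1) (nat_lit 5) (nat_lit 3) (nat_lit 4) (nat_lit 1) (nat_lit 4) (nat_lit 428) (nat_lit 345) (nat_lit 247))))))))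
noncomputable def xc58 : XT := (XT.nd (nat_lit 48204) (nat_lit 0) (nat_lit 228) (XT.nd (nat_lit 47190) (nat_lit 0) (nat_lit 1596) (XT.nd (nat_lit 46722) (nat_lit 0) (nat_lit 2584) (XT.nd (nat_lit 234) (nat_lit 0) (nat_lit 0) (XT.nd (nat_lit 78) (nat_lit 0) (nat_lit 0) (XT.lf (nat_lit 0) (nat_lit 20733123101108) (nat_lit 152) (nat_lit 87314424106229) (nat_lit 0) (nat_lit 20726145066776) (nat_lit 1) (nat_lit 5) (nat_lit 3) (nat_lit 4) (nat_lit 1) (nat_lit 4) (nat_lit 429) (nat_lit 345) (nat_lit 246)) (XT.nd (nat_lit 78) (nat_lit 0) (nat_lit 0) (XT.lf (nat_lit 0) (nat_lit 23931741709220) (nat_lit 152) (nat_lit 100219785572830) (nat_lit 0) (nat_lit 23924763673997) (nat_lit 1) (nat_lit 5) (nat_lit 3) (nat_lit 4) (nat_lit 1) (nat_lit 4) (nat_lit 430) (nat_lit 345) (nat_lit 245)) (XT.lf (nat_lit 0) (nat_lit 27610153087129) (nat_lit 152) (nat_lit 115060951305224) (nat_lit 0) (nat_lit 27603175051130)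 (nat_lit 1) (nat_lit 5) (nat_lit 3) (nat_lit 4) (nat_lit 1) (nat_lit 4) (nat_lit 431) (nat_lit 345) (nat_lit 244)))) (XT.nd (nat_lit 78) (nat_lit 0) (nat_lit 0) (XT.lf (nat_lit 0) (nat_lit 31840326153098) (nat_lit 152) (nat_lit 132128291937307) (nat_lit 0) (nat_lit 31833348116425) (nat_lit 1) (nat_lit 5) (nat_lit 3) (nat_lit 4) (nat_lit 1) (nat_lit 4) (nat_lit 432) (nat_lit 345) (nat_lit 243)) (XT.nd (nat_lit 46332) (nat_lit 0) (nat_lit 3116) (XT.lf (nat_lit 0) (nat_lit 36705025162765) (nat_lit 152) (nat_lit 151755733698836) (nat_lit 0) (nat_lit 36698047125506) (nat_lit 1) (nat_lit 5) (nat_lit 3) (nat_lit 4) (nat_lit 1) (nat_lit 4) (nat_lit 433) (nat_lit 345) (nat_lit 242)) (XT.lf (nat_lit 0) (nat_lit 2288982689) (nat_lit 0) (nat_lit 2288982689) (nat_lit 228) (nat_lit 358925912) (nat_lit 42) (nat_lit 5) (nat_lit 42) (nat_lit 3) (nat_lit 45) (nat_lit 3) (nat_lit 346) (nat_lit 346) (nat_lit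 328))))) (XT.nd (nat_lit 234) (nat_lit 228) (nat_lit 0) (XT.nd (nat_lit 78) (nat_lit 304) (nat_lit 0) (XT.lf (nat_lit 0) (nat_lit 10147576902) (nat_lit 0) (nat_lit 352897352) (nat_lit 228) (nat_lit 14790622) (nat_lit 42) (nat_lit 5) (nat_lit 42) (nat_lit 3) (nat_lit 45) (nat_lit 3) (nat_lit 347) (nat_lit 346) (nat_lit 327)) (XT.nd (nat_lit 78) (nat_lit 0) (nat_lit 0) (XT.lf (nat_lit 0) (nat_lit 1038037737) (nat_lit 304) (nat_lit 5728657732) (nat_lit 380) (nat_lit 4434156273) (nat_lit 38) (nat_lit 5) (nat_lit 42) (nat_lit 5) (nat_lit 43) (nat_lit 5) (nat_lit 348) (nat_lit 346) (nat_lit 326)) (XT.lf (nat_lit 76) (nat_lit 152500669) (nat_lit 0) (nat_lit 2030226152) (nat_lit 380) (nat_lit 9816176922) (nat_lit 39) (nat_lit 5) (nat_lit 38) (nat_lit 5) (nat_lit 43) (nat_lit 5) (nat_lit 349) (nat_lit 346) (nat_lit 325)))) (XT.nd (nat_lit 78) (nat_lit 304) (nat_lit 0) (XT.lf (nat_lit 0) (nat_lit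 3857819689) (nat_lit 304) (nat_lit 5564824960) (nat_lit 76) (nat_lit 3440257632) (nat_lit 39) (nat_lit 5) (nat_lit 43) (nat_lit 5) (nat_lit 40) (nat_lit 5) (nat_lit 350) (nat_lit 346) (nat_lit 324)) (XT.nd (nat_lit 78) (nat_lit 0) (nat_lit 0) (XT.lf (nat_lit 0) (nat_lit 1622405238) (nat_lit 304) (nat_lit 4241724144) (nat_lit 380) (nat_lit 7980416367) (nat_lit 35) (nat_lit 5) (nat_lit 39) (nat_lit 5) (nat_lit 40) (nat_lit 5) (nat_lit 351) (nat_lit 346) (nat_lit 323)) (XT.lf (nat_lit 0) (nat_lit 8470726538) (nat_lit 380) (nat_lit 4593407403) (nat_lit 76) (nat_lit 1864433761) (nat_lit 35) (nat_lit 5) (nat_lit 40) (nat_lit 5) (nat_lit 36) (nat_lit 5) (nat_lit 352) (nat_lit 346) (nat_lit 322)))))) (XT.nd (nat_lit 468) (nat_lit 456) (nat_lit 0) (XT.nd (nat_lit 234) (nat_lit 228) (nat_lit 0) (XT.nd (nat_lit 78) (nat_lit 152) (nat_lit 0) (XT.lf (nat_lit 0) (nat_lit 4278733156) (nat_lit 152) (nat_lit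 7502245273) (nat_lit 228) (nat_lit 4347343541) (nat_lit 33) (nat_lit 5) (nat_lit 35) (nat_lit 5) (nat_lit 36) (nat_lit 5) (nat_lit 353) (nat_lit 346) (nat_lit 321)) (XT.nd (nat_lit 78) (nat_lit 152) (nat_lit 0) (XT.lf (nat_lit 0) (nat_lit 14921722093) (nat_lit 152) (nat_lit 845178623) (nat_lit 228) (nat_lit 1714293813) (nat_lit 33) (nat_lit 5) (nat_lit 35) (nat_lit 5) (nat_lit 36) (nat_lit 5) (nat_lit 354) (nat_lit 346) (nat_lit 320)) (XT.lf (nat_lit 0) (nat_lit 1805976067) (nat_lit 152) (nat_lit 10504227709) (nat_lit 76) (nat_lit 6627270637) (nat_lit 31) (nat_lit 5) (nat_lit 33) (nat_lit 5) (nat_lit 32) (nat_lit 5) (nat_lit 355) (nat_lit 346) (nat_lit 319)))) (XT.nd (nat_lit 78) (nat_lit 76) (nat_lit 0) (XT.lf (nat_lit 0) (nat_lit 622097002) (nat_lit 152) (nat_lit 5210974627) (nat_lit 228) (nat_lit 14743751726) (nat_lit 29) (nat_lit 5) (nat_lit 31) (nat_lit 5) (nat_lit 32) (nat_lit 5)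 (nat_lit 356) (nat_lit 346) (nat_lit 318)) (XT.nd (nat_lit 78) (nat_lit 76) (nat_lit 0) (XT.lf (nat_lit 0) (nat_lit 11112668653) (nat_lit 228) (nat_lit 8008479627) (nat_lit 76) (nat_lit 3243675106) (nat_lit 29) (nat_lit 5) (nat_lit 32) (nat_lit 5) (nat_lit 30) (nat_lit 4) (nat_lit 357) (nat_lit 346) (nat_lit 317)) (XT.lf (nat_lit 0) (nat_lit 5942576983) (nat_lit 76) (nat_lit 11693163184) (nat_lit 152) (nat_lit 6717565465) (nat_lit 28) (nat_lit 5) (nat_lit 29) (nat_lit 5) (nat_lit 30) (nat_lit 4) (nat_lit 358) (nat_lit 346) (nat_lit 316))))) (XT.nd (nat_lit 234) (nat_lit 228) (nat_lit 0) (XT.nd (nat_lit 78) (nat_lit 228) (nat_lit 0) (XT.lf (nat_lit 0) (nat_lit 22821393708) (nat_lit 76) (nat_lit 2694704955) (nat_lit 152) (nat_lit 1067148440) (nat_lit 28) (nat_lit 5) (nat_lit 29) (nat_lit 5) (nat_lit 30) (nat_lit 4) (nat_lit 359) (nat_lit 346) (nat_lit 315)) (XT.nd (nat_lit 78) (nat_lit 76)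 (nat_lit 0) (XT.lf (nat_lit 0) (nat_lit 5847215123) (nat_lit 152) (nat_lit 15336166290) (nat_lit 76) (nat_lit 7795593577) (nat_lit 26) (nat_lit 5) (nat_lit 28) (nat_lit 5) (nat_lit 27) (nat_lit 4) (nat_lit 360) (nat_lit 346) (nat_lit 314)) (XT.lf (nat_lit 0) (nat_lit 2334279298) (nat_lit 76) (nat_lit 11751306247) (nat_lit 152) (nat_lit 17581444945) (nat_lit 25) (nat_lit 5) (nat_lit 26) (nat_lit 5) (nat_lit 27) (nat_lit 4) (nat_lit 361) (nat_lit 346) (nat_lit 313)))) (XT.nd (nat_lit 156) (nat_lit 152) (nat_lit 0) (XT.nd (nat_lit 78) (nat_lit 76) (nat_lit 0) (XT.lf (nat_lit 0) (nat_lit 24320239489) (nat_lit 76) (nat_lit 8381460) (nat_lit 152) (nat_lit 10314343141) (nat_lit 25) (nat_lit 5) (nat_lit 26) (nat_lit 5) (nat_lit 27) (nat_lit 4) (nat_lit 362) (nat_lit 346) (nat_lit 312)) (XT.lf (nat_lit 0) (nat_lit 11993372051) (nat_lit 76) (nat_lit 25140786176) (nat_lit 76) (nat_lit 777227903) (nat_lit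 24) (nat_lit 4) (nat_lit 25) (nat_lit 5) (nat_lit 25) (nat_lit 4) (nat_lit 363) (nat_lit 346) (nat_lit 311))) (XT.nd (nat_lit 78) (nat_lit 76) (nat_lit 0) (XT.lf (nat_lit 0) (nat_lit 9819872565) (nat_lit 152) (nat_lit 3274874950) (nat_lit 76) (nat_lit 28431536879) (nat_lit 23) (nat_lit 5) (nat_lit 25) (nat_lit 5) (nat_lit 24) (nat_lit 4) (nat_lit 364) (nat_lit 346) (nat_lit 310)) (XT.lf (nat_lit 0) (nat_lit 23013946852) (nat_lit 152) (nat_lit 20711717556) (nat_lit 0) (nat_lit 1789157588) (nat_lit 22) (nat_lit 5) (nat_lit 24) (nat_lit 4) (nat_lit 22) (nat_lit 4) (nat_lit 365) (nat_lit 346) (nat_lit 309))))))) (XT.nd (nat_lit 1014) (nat_lit 532) (nat_lit 0) (XT.nd (nat_lit 468) (nat_lit 380) (nat_lit 0) (XT.nd (nat_lit 234) (nat_lit 228) (nat_lit 0) (XT.nd (nat_lit 78) (nat_lit 152) (nat_lit 0) (XT.lf (nat_lit 0) (nat_lit 7360335951) (nat_lit 76) (nat_lit 31909732344) (nat_lit 76) (nat_lit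 10669134619) (nat_lit 21) (nat_lit 4) (nat_lit 22) (nat_lit 5) (nat_lit 22) (nat_lit 4) (nat_lit 366) (nat_lit 346) (nat_lit 308)) (XT.nd (nat_lit 78) (nat_lit 76) (nat_lit 0) (XT.lf (nat_lit 0) (nat_lit 3785546309) (nat_lit 152) (nat_lit 13115419647) (nat_lit 76) (nat_lit 37941580219) (nat_lit 20) (nat_lit 5) (nat_lit 22) (nat_lit 5) (nat_lit 21) (nat_lit 4) (nat_lit 367) (nat_lit 346) (nat_lit 307)) (XT.lf (nat_lit 0) (nat_lit 20295728260) (nat_lit 152) (nat_lit 38159218831) (nat_lit 0) (nat_lit 1803295495) (nat_lit 19) (nat_lit 5) (nat_lit 21) (nat_lit 4) (nat_lit 19) (nat_lit 4) (nat_lit 368) (nat_lit 346) (nat_lit 306)))) (XT.nd (nat_lit 78) (nat_lit 228) (nat_lit 0) (XT.lf (nat_lit 0) (nat_lit 40784439586) (nat_lit 152) (nat_lit 3193587038) (nat_lit 0) (nat_lit 22282968283) (nat_lit 19) (nat_lit 5) (nat_lit 21) (nat_lit 4) (nat_lit 19) (nat_lit 4) (nat_lit 369) (nat_lit 346) (nat_lit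 305)) (XT.nd (nat_lit 78) (nat_lit 152) (nat_lit 0) (XT.lf (nat_lit 0) (nat_lit 40594068212) (nat_lit 76) (nat_lit 25415015212) (nat_lit 76) (nat_lit 6905684310) (nat_lit 18) (nat_lit 4) (nat_lit 19) (nat_lit 5) (nat_lit 19) (nat_lit 4) (nat_lit 370) (nat_lit 346) (nat_lit 304)) (XT.lf (nat_lit 0) (nat_lit 11113393591) (nat_lit 76) (nat_lit 2667796607) (nat_lit 152) (nat_lit 66603128134) (nat_lit 16) (nat_lit 5) (nat_lit 17) (nat_lit 5) (nat_lit 18) (nat_lit 4) (nat_lit 371) (nat_lit 346) (nat_lit 303))))) (XT.nd (nat_lit 234) (nat_lit 304) (nat_lit 0) (XT.nd (nat_lit 78) (nat_lit 76) (nat_lit 0) (XT.lf (nat_lit 0) (nat_lit 39588747862) (nat_lit 152) (nat_lit 25444962257) (nat_lit 0) (nat_lit 23482566712) (nat_lit 16) (nat_lit 5) (nat_lit 18) (nat_lit 4) (nat_lit 16) (nat_lit 4) (nat_lit 372) (nat_lit 346) (nat_lit 302)) (XT.nd (nat_lit 78) (nat_lit 0) (nat_lit 0) (XT.lf (nat_lit 0) (nat_lit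 27218836320) (nat_lit 76) (nat_lit 43287050693) (nat_lit 76) (nat_lit 27176375793) (nat_lit 15) (nat_lit 4) (nat_lit 16) (nat_lit 5) (nat_lit 16) (nat_lit 4) (nat_lit 373) (nat_lit 346) (nat_lit 301)) (XT.lf (nat_lit 0) (nat_lit 90611107061) (nat_lit 76) (nat_lit 16764672735) (nat_lit 76) (nat_lit 650090225) (nat_lit 15) (nat_lit 4) (nat_lit 16) (nat_lit 5) (nat_lit 16) (nat_lit 4) (nat_lit 374) (nat_lit 346) (nat_lit 300)))) (XT.nd (nat_lit 156) (nat_lit 152) (nat_lit 0) (XT.nd (nat_lit 78) (nat_lit 0) (nat_lit 0) (XT.lf (nat_lit 0) (nat_lit 29826272565) (nat_lit 152) (nat_lit 73704316497) (nat_lit 0) (nat_lit 15810637407) (nat_lit 13) (nat_lit 5) (nat_lit 15) (nat_lit 4) (nat_lit 13) (nat_lit 4) (nat_lit 375) (nat_lit 346) (nat_lit 299)) (XT.lf (nat_lit 0) (nat_lit 66546031715) (nat_lit 152) (nat_lit 13014609606) (nat_lit 0) (nat_lit 52527827241) (nat_lit 13) (nat_lit 5) (nat_lit 15)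 (nat_lit 4) (nat_lit 13) (nat_lit 4) (nat_lit 376) (nat_lit 346) (nat_lit 298))) (XT.nd (nat_lit 78) (nat_lit 76) (nat_lit 0) (XT.lf (nat_lit 0) (nat_lit 62300482987) (nat_lit 76) (nat_lit 49041276206) (nat_lit 76) (nat_lit 35020837543) (nat_lit 12) (nat_lit 4) (nat_lit 13) (nat_lit 5) (nat_lit 13) (nat_lit 4) (nat_lit 377) (nat_lit 346) (nat_lit 297)) (XT.lf (nat_lit 0) (nat_lit 772976978) (nat_lit 152) (nat_lit 12360480931) (nat_lit 76) (nat_lit 149538744573) (nat_lit 11) (nat_lit 5) (nat_lit 13) (nat_lit 5) (nat_lit 12) (nat_lit 4) (nat_lit 378) (nat_lit 346) (nat_lit 296)))))) (XT.nd (nat_lit 468) (nat_lit 228) (nat_lit 0) (XT.nd (nat_lit 234) (nat_lit 152) (nat_lit 0) (XT.nd (nat_lit 78) (nat_lit 76) (nat_lit 0) (XT.lf (nat_lit 0) (nat_lit 42842740546) (nat_lit 152) (nat_lit 107013612085) (nat_lit 0) (nat_lit 30647896370) (nat_lit 10) (nat_lit 5) (nat_lit 12) (nat_lit 4) (nat_lit 10)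 (nat_lit 4) (nat_lit 379) (nat_lit 346) (nat_lit 295)) (XT.nd (nat_lit 78) (nat_lit 76) (nat_lit 0) (XT.lf (nat_lit 0) (nat_lit 92515126441) (nat_lit 152) (nat_lit 27983147776) (nat_lit 0) (nat_lit 80319004860) (nat_lit 10) (nat_lit 5) (nat_lit 12) (nat_lit 4) (nat_lit 10) (nat_lit 4) (nat_lit 380) (nat_lit 346) (nat_lit 294)) (XT.lf (nat_lit 0) (nat_lit 69028722631) (nat_lit 76) (nat_lit 83459172445) (nat_lit 76) (nat_lit 71261940077) (nat_lit 9) (nat_lit 4) (nat_lit 10) (nat_lit 5) (nat_lit 10) (nat_lit 4) (nat_lit 381) (nat_lit 346) (nat_lit 293)))) (XT.nd (nat_lit 78) (nat_lit 152) (nat_lit 0) (XT.lf (nat_lit 0) (nat_lit 183719564489) (nat_lit 76) (nat_lit 39191377110) (nat_lit 76) (nat_lit 26993178841) (nat_lit 9) (nat_lit 4) (nat_lit 10) (nat_lit 5) (nat_lit 10) (nat_lit 4) (nat_lit 382) (nat_lit 346) (nat_lit 292)) (XT.nd (nat_lit 78) (nat_lit 0) (nat_lit 0) (XT.lf (nat_lit 0) (nat_lit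 23959913370) (nat_lit 152) (nat_lit 242195058977) (nat_lit 0) (nat_lit 13352054080) (nat_lit 7) (nat_lit 5) (nat_lit 9) (nat_lit 4) (nat_lit 7) (nat_lit 4) (nat_lit 383) (nat_lit 346) (nat_lit 291)) (XT.lf (nat_lit 0) (nat_lit 85275405610) (nat_lit 152) (nat_lit 152592789648) (nat_lit 0) (nat_lit 74666911225) (nat_lit 7) (nat_lit 5) (nat_lit 9) (nat_lit 4) (nat_lit 7) (nat_lit 4) (nat_lit 384) (nat_lit 346) (nat_lit 290))))) (XT.nd (nat_lit 234) (nat_lit 152) (nat_lit 0) (XT.nd (nat_lit 78) (nat_lit 76) (nat_lit 0) (XT.lf (nat_lit 0) (nat_lit 155781591384) (nat_lit 152) (nat_lit 49564257076) (nat_lit 0) (nat_lit 145172544741) (nat_lit 7) (nat_lit 5) (nat_lit 9) (nat_lit 4) (nat_lit 7) (nat_lit 4) (nat_lit 385) (nat_lit 346) (nat_lit 289)) (XT.nd (nat_lit 78) (nat_lit 0) (nat_lit 0) (XT.lf (nat_lit 0) (nat_lit 75640340552) (nat_lit 76) (nat_lit 164349704188) (nat_lit 76) (nat_lit 153740177321)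 (nat_lit 6) (nat_lit 4) (nat_lit 7) (nat_lit 5) (nat_lit 7) (nat_lit 4) (nat_lit 386) (nat_lit 346) (nat_lit 288)) (XT.lf (nat_lit 0) (nat_lit 225184289849) (nat_lit 76) (nat_lit 114230837848) (nat_lit 76) (nat_lit 103620893396) (nat_lit 6) (nat_lit 4) (nat_lit 7) (nat_lit 5) (nat_lit 7) (nat_lit 4) (nat_lit 387) (nat_lit 346) (nat_lit 287)))) (XT.nd (nat_lit 156) (nat_lit 0) (nat_lit 0) (XT.nd (nat_lit 78) (nat_lit 152) (nat_lit 0) (XT.lf (nat_lit 0) (nat_lit 397149671022) (nat_lit 76) (nat_lit 56599521818) (nat_lit 76) (nat_lit 45989214248) (nat_lit 6) (nat_lit 4) (nat_lit 7) (nat_lit 5) (nat_lit 7) (nat_lit 4) (nat_lit 388) (nat_lit 346) (nat_lit 286)) (XT.lf (nat_lit 0) (nat_lit 20303635697) (nat_lit 152) (nat_lit 533166121975) (nat_lit 0) (nat_lit 11077006719) (nat_lit 4) (nat_lit 5) (nat_lit 6) (nat_lit 4) (nat_lit 4) (nat_lit 4) (nat_lit 389) (nat_lit 346) (nat_lit 285))) (XT.nd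 (nat_lit 78) (nat_lit 0) (nat_lit 0) (XT.lf (nat_lit 0) (nat_lit 100140816642) (nat_lit 152) (nat_lit 446446791941) (nat_lit 0) (nat_lit 90913948907) (nat_lit 4) (nat_lit 5) (nat_lit 6) (nat_lit 4) (nat_lit 4) (nat_lit 4) (nat_lit 390) (nat_lit 346) (nat_lit 284)) (XT.lf (nat_lit 0) (nat_lit 191949794851) (nat_lit 152) (nat_lit 346727622222) (nat_lit 0) (nat_lit 182722719502) (nat_lit 4) (nat_lit 5) (nat_lit 6) (nat_lit 4) (nat_lit 4) (nat_lit 4) (nat_lit 391) (nat_lit 346) (nat_lit 283))))))))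
noncomputable def xc59 : XT := (XT.nd (nat_lit 2028) (nat_lit 0) (nat_lit 0) (XT.nd (nat_lit 1014) (nat_lit 152) (nat_lit 0) (XT.nd (nat_lit 468) (nat_lit 0) (nat_lit 0) (XT.nd (nat_lit 234) (nat_lit 0) (nat_lit 0) (XT.nd (nat_lit 78) (nat_lit 76) (nat_lit 0) (XT.lf (nat_lit 0) (nat_lit 297526832941) (nat_lit 152) (nat_lit 232057585585) (nat_lit 0) (nat_lit 288299577059) (nat_lit 4) (nat_lit 5) (nat_lit 6) (nat_lit 4) (nat_lit 4) (nat_lit 4) (nat_lit 392) (nat_lit 346) (nat_lit 282)) (XT.nd (nat_lit 78) (nat_lit 76) (nat_lit 0) (XT.lf (nat_lit 0) (nat_lit 418937568616) (nat_lit 152) (nat_lit 100193137834) (nat_lit 0) (nat_lit 409710155748) (nat_lit 4) (nat_lit 5) (nat_lit 6) (nat_lit 4) (nat_lit 4) (nat_lit 4) (nat_lit 393) (nat_lit 346) (nat_lit 281)) (XT.lf (nat_lit 0) (nat_lit 56473323382) (nat_lit 76) (nat_lit 504422545819) (nat_lit 76) (nat_lit 495194996442) (nat_lit 3) (nat_lit 4)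 (nat_lit 4) (nat_lit 5) (nat_lit 4) (nat_lit 4) (nat_lit 394) (nat_lit 346) (nat_lit 280)))) (XT.nd (nat_lit 78) (nat_lit 0) (nat_lit 0) (XT.lf (nat_lit 0) (nat_lit 247895037626) (nat_lit 76) (nat_lit 481487875197) (nat_lit 76) (nat_lit 472260207115) (nat_lit 3) (nat_lit 4) (nat_lit 4) (nat_lit 5) (nat_lit 4) (nat_lit 4) (nat_lit 395) (nat_lit 346) (nat_lit 279)) (XT.nd (nat_lit 78) (nat_lit 0) (nat_lit 0) (XT.lf (nat_lit 0) (nat_lit 468025610244) (nat_lit 76) (nat_lit 455115341333) (nat_lit 76) (nat_lit 445887570031) (nat_lit 3) (nat_lit 4) (nat_lit 4) (nat_lit 5) (nat_lit 4) (nat_lit 4) (nat_lit 396) (nat_lit 346) (nat_lit 278)) (XT.lf (nat_lit 0) (nat_lit 721171943742) (nat_lit 76) (nat_lit 424788959872) (nat_lit 76) (nat_lit 415561098812) (nat_lit 3) (nat_lit 4) (nat_lit 4) (nat_lit 5) (nat_lit 4) (nat_lit 4) (nat_lit 397) (nat_lit 346) (nat_lit 277))))) (XT.nd (nat_lit 234) (nat_lit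 0) (nat_lit 0) (XT.nd (nat_lit 78) (nat_lit 0) (nat_lit 0) (XT.lf (nat_lit 0) (nat_lit 1012286901167) (nat_lit 76) (nat_lit 389915388566) (nat_lit 76) (nat_lit 380687449457) (nat_lit 3) (nat_lit 4) (nat_lit 4) (nat_lit 5) (nat_lit 4) (nat_lit 4) (nat_lit 398) (nat_lit 346) (nat_lit 276)) (XT.nd (nat_lit 78) (nat_lit 0) (nat_lit 0) (XT.lf (nat_lit 0) (nat_lit 1347066209948) (nat_lit 76) (nat_lit 349812318412) (nat_lit 76) (nat_lit 340584311433) (nat_lit 3) (nat_lit 4) (nat_lit 4) (nat_lit 5) (nat_lit 4) (nat_lit 4) (nat_lit 399) (nat_lit 346) (nat_lit 275)) (XT.lf (nat_lit 0) (nat_lit 1732059900038) (nat_lit 76) (nat_lit 303695124124) (nat_lit 76) (nat_lit 294467058129) (nat_lit 3) (nat_lit 4) (nat_lit 4) (nat_lit 5) (nat_lit 4) (nat_lit 4) (nat_lit 400) (nat_lit 346) (nat_lit 274)))) (XT.nd (nat_lit 156) (nat_lit 0) (nat_lit 0) (XT.nd (nat_lit 78) (nat_lit 0) (nat_lit 0) (XT.lf (nat_lit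 0) (nat_lit 2174800456679) (nat_lit 76) (nat_lit 250661512771) (nat_lit 76) (nat_lit 241433395456) (nat_lit 3) (nat_lit 4) (nat_lit 4) (nat_lit 5) (nat_lit 4) (nat_lit 4) (nat_lit 401) (nat_lit 346) (nat_lit 273)) (XT.lf (nat_lit 0) (nat_lit 2683950195109) (nat_lit 76) (nat_lit 189673870217) (nat_lit 76) (nat_lit 180445708277) (nat_lit 3) (nat_lit 4) (nat_lit 4) (nat_lit 5) (nat_lit 4) (nat_lit 4) (nat_lit 402) (nat_lit 346) (nat_lit 272))) (XT.nd (nat_lit 78) (nat_lit 0) (nat_lit 0) (XT.lf (nat_lit 0) (nat_lit 3269470740646) (nat_lit 76) (nat_lit 119538959978) (nat_lit 76) (nat_lit 110310759234) (nat_lit 3) (nat_lit 4) (nat_lit 4) (nat_lit 5) (nat_lit 4) (nat_lit 4) (nat_lit 403) (nat_lit 346) (nat_lit 271)) (XT.lf (nat_lit 0) (nat_lit 3942817930049) (nat_lit 76) (nat_lit 38884577288) (nat_lit 76) (nat_lit 29656342800) (nat_lit 3) (nat_lit 4) (nat_lit 4) (nat_lit 5) (nat_lit 4) (nat_lit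 4) (nat_lit 404) (nat_lit 346) (nat_lit 270)))))) (XT.nd (nat_lit 468) (nat_lit 0) (nat_lit 0) (XT.nd (nat_lit 234) (nat_lit 0) (nat_lit 0) (XT.nd (nat_lit 78) (nat_lit 0) (nat_lit 0) (XT.lf (nat_lit 0) (nat_lit 65278548934) (nat_lit 152) (nat_lit 4476108639839) (nat_lit 0) (nat_lit 57253971691) (nat_lit 1) (nat_lit 5) (nat_lit 3) (nat_lit 4) (nat_lit 1) (nat_lit 4) (nat_lit 405) (nat_lit 346) (nat_lit 269)) (XT.nd (nat_lit 78) (nat_lit 0) (nat_lit 0) (XT.lf (nat_lit 0) (nat_lit 177021894527) (nat_lit 152) (nat_lit 4926944126991) (nat_lit 0) (nat_lit 168997295097) (nat_lit 1) (nat_lit 5) (nat_lit 3) (nat_lit 4) (nat_lit 1) (nat_lit 4) (nat_lit 406) (nat_lit 346) (nat_lit 268)) (XT.lf (nat_lit 0) (nat_lit 305526208777) (nat_lit 152) (nat_lit 5445406077336) (nat_lit 0) (nat_lit 297501590055) (nat_lit 1) (nat_lit 5) (nat_lit 3) (nat_lit 4) (nat_lit 1) (nat_lit 4) (nat_lit 407) (nat_lit 346)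 (nat_lit 267)))) (XT.nd (nat_lit 78) (nat_lit 0) (nat_lit 0) (XT.lf (nat_lit 0) (nat_lit 453305706530) (nat_lit 152) (nat_lit 6041638311643) (nat_lit 0) (nat_lit 445281071032) (nat_lit 1) (nat_lit 5) (nat_lit 3) (nat_lit 4) (nat_lit 1) (nat_lit 4) (nat_lit 408) (nat_lit 346) (nat_lit 266)) (XT.nd (nat_lit 78) (nat_lit 0) (nat_lit 0) (XT.lf (nat_lit 0) (nat_lit 623251725785) (nat_lit 152) (nat_lit 6727306243191) (nat_lit 0) (nat_lit 615227075698) (nat_lit 1) (nat_lit 5) (nat_lit 3) (nat_lit 4) (nat_lit 1) (nat_lit 4) (nat_lit 409) (nat_lit 346) (nat_lit 265)) (XT.lf (nat_lit 0) (nat_lit 818689297352) (nat_lit 152) (nat_lit 7515825114119) (nat_lit 0) (nat_lit 810664634581) (nat_lit 1) (nat_lit 5) (nat_lit 3) (nat_lit 4) (nat_lit 1) (nat_lit 4) (nat_lit 410) (nat_lit 346) (nat_lit 264))))) (XT.nd (nat_lit 234) (nat_lit 0) (nat_lit 0) (XT.nd (nat_lit 78) (nat_lit 0) (nat_lit 0) (XT.lf (nat_lit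 0) (nat_lit 1043442199807) (nat_lit 152) (nat_lit 8422622467554) (nat_lit 0) (nat_lit 1035417526005) (nat_lit 1) (nat_lit 5) (nat_lit 3) (nat_lit 4) (nat_lit 1) (nat_lit 4) (nat_lit 411) (nat_lit 346) (nat_lit 263)) (XT.nd (nat_lit 78) (nat_lit 0) (nat_lit 0) (XT.lf (nat_lit 0) (nat_lit 1301907772545) (nat_lit 152) (nat_lit 9465439990845) (nat_lit 0) (nat_lit 1293883089151) (nat_lit 1) (nat_lit 5) (nat_lit 3) (nat_lit 4) (nat_lit 1) (nat_lit 4) (nat_lit 412) (nat_lit 346) (nat_lit 262)) (XT.lf (nat_lit 0) (nat_lit 1599142950685) (nat_lit 152) (nat_lit 10664680635536) (nat_lit 0) (nat_lit 1591118258950) (nat_lit 1) (nat_lit 5) (nat_lit 3) (nat_lit 4) (nat_lit 1) (nat_lit 4) (nat_lit 413) (nat_lit 346) (nat_lit 261)))) (XT.nd (nat_lit 156) (nat_lit 0) (nat_lit 0) (XT.nd (nat_lit 78) (nat_lit 0) (nat_lit 0) (XT.lf (nat_lit 0) (nat_lit 1940963205104) (nat_lit 152) (nat_lit 12043807805544) (nat_lit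 0) (nat_lit 1932938506116) (nat_lit 1) (nat_lit 5) (nat_lit 3) (nat_lit 4) (nat_lit 1) (nat_lit 4) (nat_lit 414) (nat_lit 346) (nat_lit 260)) (XT.lf (nat_lit 0) (nat_lit 2334056323387) (nat_lit 152) (nat_lit 13629804423761) (nat_lit 0) (nat_lit 2326031618092) (nat_lit 1) (nat_lit 5) (nat_lit 3) (nat_lit 4) (nat_lit 1) (nat_lit 4) (nat_lit 415) (nat_lit 346) (nat_lit 259))) (XT.nd (nat_lit 78) (nat_lit 0) (nat_lit 0) (XT.lf (nat_lit 0) (nat_lit 2786113257850) (nat_lit 152) (nat_lit 15453700858804) (nat_lit 0) (nat_lit 2778088547071) (nat_lit 1) (nat_lit 5) (nat_lit 3) (nat_lit 4) (nat_lit 1) (nat_lit 4) (nat_lit 416) (nat_lit 346) (nat_lit 258)) (XT.lf (nat_lit 0) (nat_lit 3305978600688) (nat_lit 152) (nat_lit 17551182040924) (nat_lit 0) (nat_lit 3297953885140) (nat_lit 1) (nat_lit 5) (nat_lit 3) (nat_lit 4) (nat_lit 1) (nat_lit 4) (nat_lit 417) (nat_lit 346) (nat_lit 257))))))) (XT.nd (nat_lit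 1014) (nat_lit 0) (nat_lit 0) (XT.nd (nat_lit 468) (nat_lit 0) (nat_lit 0) (XT.nd (nat_lit 234) (nat_lit 0) (nat_lit 0) (XT.nd (nat_lit 78) (nat_lit 0) (nat_lit 0) (XT.lf (nat_lit 0) (nat_lit 3903823630347) (nat_lit 152) (nat_lit 19963285645423) (nat_lit 0) (nat_lit 3895798910653) (nat_lit 1) (nat_lit 5) (nat_lit 3) (nat_lit 4) (nat_lit 1) (nat_lit 4) (nat_lit 418) (nat_lit 346) (nat_lit 256)) (XT.nd (nat_lit 78) (nat_lit 0) (nat_lit 0) (XT.lf (nat_lit 0) (nat_lit 4591345314801) (nat_lit 152) (nat_lit 22737205003694) (nat_lit 0) (nat_lit 4583320591500) (nat_lit 1) (nat_lit 5) (nat_lit 3) (nat_lit 4) (nat_lit 1) (nat_lit 4) (nat_lit 419) (nat_lit 346) (nat_lit 255)) (XT.lf (nat_lit 0) (nat_lit 5381995165266) (nat_lit 152) (nat_lit 25927212451007) (nat_lit 0) (nat_lit 5373970438830) (nat_lit 1) (nat_lit 5) (nat_lit 3) (nat_lit 4) (nat_lit 1) (nat_lit 4) (nat_lit 420) (nat_lit 346) (nat_lit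 254)))) (XT.nd (nat_lit 78) (nat_lit 0) (nat_lit 0) (XT.lf (nat_lit 0) (nat_lit 6291242417947) (nat_lit 152) (nat_lit 29595721176548) (nat_lit 0) (nat_lit 6283217688784) (nat_lit 1) (nat_lit 5) (nat_lit 3) (nat_lit 4) (nat_lit 1) (nat_lit 4) (nat_lit 421) (nat_lit 346) (nat_lit 253)) (XT.nd (nat_lit 78) (nat_lit 0) (nat_lit 0) (XT.lf (nat_lit 0) (nat_lit 7336876693005) (nat_lit 152) (nat_lit 33814506351035) (nat_lit 0) (nat_lit 7328851961471) (nat_lit 1) (nat_lit 5) (nat_lit 3) (nat_lit 4) (nat_lit 1) (nat_lit 4) (nat_lit 422) (nat_lit 346) (nat_lit 252)) (XT.lf (nat_lit 0) (nat_lit 8539356052343) (nat_lit 152) (nat_lit 38666109423534) (nat_lit 0) (nat_lit 8531331318748) (nat_lit 1) (nat_lit 5) (nat_lit 3) (nat_lit 4) (nat_lit 1) (nat_lit 4) (nat_lit 423) (nat_lit 346) (nat_lit 251))))) (XT.nd (nat_lit 234) (nat_lit 0) (nat_lit 0) (XT.nd (nat_lit 78) (nat_lit 0) (nat_lit 0) (XT.lf (nat_lit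 0) (nat_lit 9922207266036) (nat_lit 152) (nat_lit 44245453062855) (nat_lit 0) (nat_lit 9914182530648) (nat_lit 1) (nat_lit 5) (nat_lit 3) (nat_lit 4) (nat_lit 1) (nat_lit 4) (nat_lit 424) (nat_lit 346) (nat_lit 250)) (XT.nd (nat_lit 78) (nat_lit 0) (nat_lit 0) (XT.lf (nat_lit 0) (nat_lit 11512486118699) (nat_lit 152) (nat_lit 50661698340201) (nat_lit 0) (nat_lit 11504461381752) (nat_lit 1) (nat_lit 5) (nat_lit 3) (nat_lit 4) (nat_lit 1) (nat_lit 4) (nat_lit 425) (nat_lit 346) (nat_lit 249)) (XT.lf (nat_lit 0) (nat_lit 13341306761797) (nat_lit 152) (nat_lit 58040380489260) (nat_lit 0) (nat_lit 13333282023495) (nat_lit 1) (nat_lit 5) (nat_lit 3) (nat_lit 4) (nat_lit 1) (nat_lit 4) (nat_lit 426) (nat_lit 346) (nat_lit 248)))) (XT.nd (nat_lit 156) (nat_lit 0) (nat_lit 0) (XT.nd (nat_lit 78) (nat_lit 0) (nat_lit 0) (XT.lf (nat_lit 0) (nat_lit 15444450468783) (nat_lit 152) (nat_lit 66525865030340)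 (nat_lit 0) (nat_lit 15436425729302) (nat_lit 1) (nat_lit 5) (nat_lit 3) (nat_lit 4) (nat_lit 1) (nat_lit 4) (nat_lit 427) (nat_lit 346) (nat_lit 247)) (XT.lf (nat_lit 0) (nat_lit 17863065703488) (nat_lit 152) (nat_lit 76284172313157) (nat_lit 0) (nat_lit 17855040962982) (nat_lit 1) (nat_lit 5) (nat_lit 3) (nat_lit 4) (nat_lit 1) (nat_lit 4) (nat_lit 428) (nat_lit 346) (nat_lit 246))) (XT.nd (nat_lit 78) (nat_lit 0) (nat_lit 0) (XT.lf (nat_lit 0) (nat_lit 20644473198766) (nat_lit 152) (nat_lit 87506225741071) (nat_lit 0) (nat_lit 20636448457368) (nat_lit 1) (nat_lit 5) (nat_lit 3) (nat_lit 4) (nat_lit 1) (nat_lit 4) (nat_lit 429) (nat_lit 346) (nat_lit 245)) (XT.lf (nat_lit 0) (nat_lit 23843091796915) (nat_lit 152) (nat_lit 100411587228975) (nat_lit 0) (nat_lit 23835067054742) (nat_lit 1) (nat_lit 5) (nat_lit 3) (nat_lit 4) (nat_lit 1) (nat_lit 4) (nat_lit 430) (nat_lit 346) (nat_lit 244))))))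 (XT.nd (nat_lit 46722) (nat_lit 0) (nat_lit 2432) (XT.nd (nat_lit 234) (nat_lit 0) (nat_lit 0) (XT.nd (nat_lit 78) (nat_lit 0) (nat_lit 0) (XT.lf (nat_lit 0) (nat_lit 27521503166161) (nat_lit 152) (nat_lit 115252752979895) (nat_lit 0) (nat_lit 27513478423314) (nat_lit 1) (nat_lit 5) (nat_lit 3) (nat_lit 4) (nat_lit 1) (nat_lit 4) (nat_lit 431) (nat_lit 346) (nat_lit 243)) (XT.nd (nat_lit 78) (nat_lit 0) (nat_lit 0) (XT.lf (nat_lit 0) (nat_lit 31751676224596) (nat_lit 152) (nat_lit 132320093628087) (nat_lit 0) (nat_lit 31743651481163) (nat_lit 1) (nat_lit 5) (nat_lit 3) (nat_lit 4) (nat_lit 1) (nat_lit 4) (nat_lit 432) (nat_lit 346) (nat_lit 242)) (XT.lf (nat_lit 0) (nat_lit 36616375227713) (nat_lit 152) (nat_lit 151947535403624) (nat_lit 0) (nat_lit 36608350483770) (nat_lit 1) (nat_lit 5) (nat_lit 3) (nat_lit 4) (nat_lit 1) (nat_lit 4) (nat_lit 433) (nat_lit 346) (nat_lit 241)))) (XT.nd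 (nat_lit 46332) (nat_lit 0) (nat_lit 2736) (XT.lf (nat_lit 0) (nat_lit 42210779069049) (nat_lit 152) (nat_lit 174519093471679) (nat_lit 0) (nat_lit 42202754324663) (nat_lit 1) (nat_lit 5) (nat_lit 3) (nat_lit 4) (nat_lit 1) (nat_lit 4) (nat_lit 434) (nat_lit 346) (nat_lit 240)) (XT.nd (nat_lit 78) (nat_lit 0) (nat_lit 0) (XT.lf (nat_lit 0) (nat_lit 284946616) (nat_lit 380) (nat_lit 2647792829) (nat_lit 380) (nat_lit 2647792829) (nat_lit 37) (nat_lit 3) (nat_lit 42) (nat_lit 3) (nat_lit 42) (nat_lit 5) (nat_lit 347) (nat_lit 347) (nat_lit 326)) (XT.lf (nat_lit 76) (nat_lit 262464990) (nat_lit 0) (nat_lit 882411211) (nat_lit 380) (nat_lit 10773186065) (nat_lit 38) (nat_lit 5) (nat_lit 37) (nat_lit 3) (nat_lit 42) (nat_lit 5) (nat_lit 348) (nat_lit 347) (nat_lit 325))))) (XT.nd (nat_lit 234) (nat_lit 380) (nat_lit 0) (XT.nd (nat_lit 78) (nat_lit 0) (nat_lit 0) (XT.lf (nat_lit 0) (nat_lit 2203110617)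 (nat_lit 304) (nat_lit 5786113609) (nat_lit 380) (nat_lit 4739878613) (nat_lit 38) (nat_lit 5) (nat_lit 42) (nat_lit 5) (nat_lit 43) (nat_lit 5) (nat_lit 349) (nat_lit 347) (nat_lit 324)) (XT.nd (nat_lit 78) (nat_lit 0) (nat_lit 76) (XT.lf (nat_lit 76) (nat_lit 940771153) (nat_lit 0) (nat_lit 2478768709) (nat_lit 380) (nat_lit 10242378772) (nat_lit 39) (nat_lit 5) (nat_lit 38) (nat_lit 5) (nat_lit 43) (nat_lit 5) (nat_lit 350) (nat_lit 347) (nat_lit 323)) (XT.lf (nat_lit 0) (nat_lit 5222093448) (nat_lit 304) (nat_lit 5609827707) (nat_lit 76) (nat_lit 3842219765) (nat_lit 39) (nat_lit 5) (nat_lit 43) (nat_lit 5) (nat_lit 40) (nat_lit 5) (nat_lit 351) (nat_lit 347) (nat_lit 322)))) (XT.nd (nat_lit 156) (nat_lit 152) (nat_lit 0) (XT.nd (nat_lit 78) (nat_lit 0) (nat_lit 0) (XT.lf (nat_lit 0) (nat_lit 2619590611) (nat_lit 304) (nat_lit 4838503582) (nat_lit 380) (nat_lit 8355671536) (nat_lit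 35) (nat_lit 5) (nat_lit 39) (nat_lit 5) (nat_lit 40) (nat_lit 5) (nat_lit 352) (nat_lit 347) (nat_lit 321)) (XT.lf (nat_lit 0) (nat_lit 10363926956) (nat_lit 380) (nat_lit 4534895277) (nat_lit 76) (nat_lit 2175372281) (nat_lit 35) (nat_lit 5) (nat_lit 40) (nat_lit 5) (nat_lit 36) (nat_lit 5) (nat_lit 353) (nat_lit 347) (nat_lit 320))) (XT.nd (nat_lit 78) (nat_lit 0) (nat_lit 0) (XT.lf (nat_lit 0) (nat_lit 5634088036) (nat_lit 152) (nat_lit 8484967389) (nat_lit 228) (nat_lit 4342640847) (nat_lit 33) (nat_lit 5) (nat_lit 35) (nat_lit 5) (nat_lit 36) (nat_lit 5) (nat_lit 354) (nat_lit 347) (nat_lit 319)) (XT.lf (nat_lit 0) (nat_lit 17780454239) (nat_lit 152) (nat_lit 847942656) (nat_lit 228) (nat_lit 1400303777) (nat_lit 33) (nat_lit 5) (nat_lit 35) (nat_lit 5) (nat_lit 36) (nat_lit 5) (nat_lit 355) (nat_lit 347) (nat_lit 318))))))))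
noncomputable def xc60 : XT := (XT.nd (nat_lit 1950) (nat_lit 684) (nat_lit 0) (XT.nd (nat_lit 936) (nat_lit 836) (nat_lit 0) (XT.nd (nat_lit 468) (nat_lit 380) (nat_lit 0) (XT.nd (nat_lit 234) (nat_lit 228) (nat_lit 0) (XT.nd (nat_lit 78) (nat_lit 152) (nat_lit 0) (XT.lf (nat_lit 0) (nat_lit 2562546509) (nat_lit 152) (nat_lit 11373596512) (nat_lit 76) (nat_lit 7768947289) (nat_lit 31) (nat_lit 5) (nat_lit 33) (nat_lit 5) (nat_lit 32) (nat_lit 5) (nat_lit 356) (nat_lit 347) (nat_lit 317)) (XT.nd (nat_lit 78) (nat_lit 0) (nat_lit 0) (XT.lf (nat_lit 0) (nat_lit 1389573936) (nat_lit 152) (nat_lit 5768699310) (nat_lit 228) (nat_lit 16437403430) (nat_lit 29) (nat_lit 5) (nat_lit 31) (nat_lit 5) (nat_lit 32) (nat_lit 5) (nat_lit 357) (nat_lit 347) (nat_lit 316)) (XT.lf (nat_lit 0) (nat_lit 13179145459) (nat_lit 228) (nat_lit 8572742481) (nat_lit 76) (nat_lit 3907605912) (nat_lit 29) (nat_lit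 5) (nat_lit 32) (nat_lit 5) (nat_lit 30) (nat_lit 4) (nat_lit 358) (nat_lit 347) (nat_lit 315)))) (XT.nd (nat_lit 78) (nat_lit 152) (nat_lit 0) (XT.lf (nat_lit 0) (nat_lit 7442017663) (nat_lit 76) (nat_lit 13211719588) (nat_lit 152) (nat_lit 7296567455) (nat_lit 28) (nat_lit 5) (nat_lit 29) (nat_lit 5) (nat_lit 30) (nat_lit 4) (nat_lit 359) (nat_lit 347) (nat_lit 314)) (XT.nd (nat_lit 78) (nat_lit 152) (nat_lit 0) (XT.lf (nat_lit 0) (nat_lit 26773345487) (nat_lit 76) (nat_lit 2894199329) (nat_lit 152) (nat_lit 854496507) (nat_lit 28) (nat_lit 5) (nat_lit 29) (nat_lit 5) (nat_lit 30) (nat_lit 4) (nat_lit 360) (nat_lit 347) (nat_lit 313)) (XT.lf (nat_lit 0) (nat_lit 7050832441) (nat_lit 152) (nat_lit 17061516067) (nat_lit 76) (nat_lit 9164425825) (nat_lit 26) (nat_lit 5) (nat_lit 28) (nat_lit 5) (nat_lit 27) (nat_lit 4) (nat_lit 361) (nat_lit 347) (nat_lit 312))))) (XT.nd (nat_lit 234) (nat_lit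 228) (nat_lit 0) (XT.nd (nat_lit 78) (nat_lit 76) (nat_lit 0) (XT.lf (nat_lit 0) (nat_lit 3233356578) (nat_lit 76) (nat_lit 13271740563) (nat_lit 152) (nat_lit 19865928902) (nat_lit 25) (nat_lit 5) (nat_lit 26) (nat_lit 5) (nat_lit 27) (nat_lit 4) (nat_lit 362) (nat_lit 347) (nat_lit 311)) (XT.nd (nat_lit 78) (nat_lit 76) (nat_lit 0) (XT.lf (nat_lit 0) (nat_lit 28252910890) (nat_lit 152) (nat_lit 11362070811) (nat_lit 0) (nat_lit 183127088) (nat_lit 25) (nat_lit 5) (nat_lit 27) (nat_lit 4) (nat_lit 25) (nat_lit 4) (nat_lit 363) (nat_lit 347) (nat_lit 310)) (XT.lf (nat_lit 0) (nat_lit 14277920160) (nat_lit 76) (nat_lit 28685941781) (nat_lit 76) (nat_lit 595251290) (nat_lit 24) (nat_lit 4) (nat_lit 25) (nat_lit 5) (nat_lit 25) (nat_lit 4) (nat_lit 364) (nat_lit 347) (nat_lit 309)))) (XT.nd (nat_lit 78) (nat_lit 152) (nat_lit 0) (XT.lf (nat_lit 0) (nat_lit 11529358538) (nat_lit 152) (nat_lit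 3320749362) (nat_lit 76) (nat_lit 32869610254) (nat_lit 23) (nat_lit 5) (nat_lit 25) (nat_lit 5) (nat_lit 24) (nat_lit 4) (nat_lit 365) (nat_lit 347) (nat_lit 308)) (XT.nd (nat_lit 78) (nat_lit 76) (nat_lit 0) (XT.lf (nat_lit 0) (nat_lit 26697656847) (nat_lit 152) (nat_lit 23368202424) (nat_lit 0) (nat_lit 2241414516) (nat_lit 22) (nat_lit 5) (nat_lit 24) (nat_lit 4) (nat_lit 22) (nat_lit 4) (nat_lit 366) (nat_lit 347) (nat_lit 307)) (XT.lf (nat_lit 0) (nat_lit 8894192165) (nat_lit 76) (nat_lit 36485590645) (nat_lit 76) (nat_lit 12017394846) (nat_lit 21) (nat_lit 4) (nat_lit 22) (nat_lit 5) (nat_lit 22) (nat_lit 4) (nat_lit 367) (nat_lit 347) (nat_lit 306)))))) (XT.nd (nat_lit 468) (nat_lit 456) (nat_lit 0) (XT.nd (nat_lit 234) (nat_lit 228) (nat_lit 0) (XT.nd (nat_lit 78) (nat_lit 76) (nat_lit 0) (XT.lf (nat_lit 0) (nat_lit 4553087293) (nat_lit 152) (nat_lit 14689452436) (nat_lit 76) (nat_lit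 43796413071) (nat_lit 20) (nat_lit 5) (nat_lit 22) (nat_lit 5) (nat_lit 21) (nat_lit 4) (nat_lit 368) (nat_lit 347) (nat_lit 305)) (XT.nd (nat_lit 78) (nat_lit 0) (nat_lit 0) (XT.lf (nat_lit 0) (nat_lit 23537002310) (nat_lit 152) (nat_lit 43487010796) (nat_lit 0) (nat_lit 2243412174) (nat_lit 19) (nat_lit 5) (nat_lit 21) (nat_lit 4) (nat_lit 19) (nat_lit 4) (nat_lit 369) (nat_lit 347) (nat_lit 304)) (XT.lf (nat_lit 0) (nat_lit 47073335794) (nat_lit 152) (nat_lit 3328198259) (nat_lit 0) (nat_lit 25772911224) (nat_lit 19) (nat_lit 5) (nat_lit 21) (nat_lit 4) (nat_lit 19) (nat_lit 4) (nat_lit 370) (nat_lit 347) (nat_lit 303)))) (XT.nd (nat_lit 78) (nat_lit 152) (nat_lit 0) (XT.lf (nat_lit 0) (nat_lit 47011949513) (nat_lit 76) (nat_lit 29061006020) (nat_lit 76) (nat_lit 7754638465) (nat_lit 18) (nat_lit 4) (nat_lit 19) (nat_lit 5) (nat_lit 19) (nat_lit 4) (nat_lit 371) (nat_lit 347) (nat_lit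 302)) (XT.nd (nat_lit 78) (nat_lit 0) (nat_lit 0) (XT.lf (nat_lit 0) (nat_lit 13110122578) (nat_lit 76) (nat_lit 2899950885) (nat_lit 152) (nat_lit 76407627489) (nat_lit 16) (nat_lit 5) (nat_lit 17) (nat_lit 5) (nat_lit 18) (nat_lit 4) (nat_lit 372) (nat_lit 347) (nat_lit 301)) (XT.lf (nat_lit 0) (nat_lit 45673722551) (nat_lit 152) (nat_lit 28959943182) (nat_lit 0) (nat_lit 27138045055) (nat_lit 16) (nat_lit 5) (nat_lit 18) (nat_lit 4) (nat_lit 16) (nat_lit 4) (nat_lit 373) (nat_lit 347) (nat_lit 300))))) (XT.nd (nat_lit 234) (nat_lit 228) (nat_lit 0) (XT.nd (nat_lit 78) (nat_lit 152) (nat_lit 0) (XT.lf (nat_lit 0) (nat_lit 31589708662) (nat_lit 76) (nat_lit 49631521427) (nat_lit 76) (nat_lit 31092446010) (nat_lit 15) (nat_lit 4) (nat_lit 16) (nat_lit 5) (nat_lit 16) (nat_lit 4) (nat_lit 374) (nat_lit 347) (nat_lit 299)) (XT.nd (nat_lit 78) (nat_lit 152) (nat_lit 0) (XT.lf (nat_lit 0) (nat_lit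 104453248681) (nat_lit 76) (nat_lit 19150167672) (nat_lit 76) (nat_lit 608137540) (nat_lit 15) (nat_lit 4) (nat_lit 16) (nat_lit 5) (nat_lit 16) (nat_lit 4) (nat_lit 375) (nat_lit 347) (nat_lit 298)) (XT.lf (nat_lit 0) (nat_lit 34426469127) (nat_lit 152) (nat_lit 84496267801) (nat_lit 0) (nat_lit 18300730476) (nat_lit 13) (nat_lit 5) (nat_lit 15) (nat_lit 4) (nat_lit 13) (nat_lit 4) (nat_lit 376) (nat_lit 347) (nat_lit 297)))) (XT.nd (nat_lit 156) (nat_lit 152) (nat_lit 0) (XT.nd (nat_lit 78) (nat_lit 76) (nat_lit 0) (XT.lf (nat_lit 0) (nat_lit 76637724018) (nat_lit 152) (nat_lit 14737500029) (nat_lit 0) (nat_lit 60510042595) (nat_lit 13) (nat_lit 5) (nat_lit 15) (nat_lit 4) (nat_lit 13) (nat_lit 4) (nat_lit 377) (nat_lit 347) (nat_lit 296)) (XT.lf (nat_lit 0) (nat_lit 71864433680) (nat_lit 76) (nat_lit 56283120105) (nat_lit 76) (nat_lit 40153749314) (nat_lit 12) (nat_lit 4) (nat_lit 13)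 (nat_lit 5) (nat_lit 13) (nat_lit 4) (nat_lit 378) (nat_lit 347) (nat_lit 295))) (XT.nd (nat_lit 78) (nat_lit 76) (nat_lit 0) (XT.lf (nat_lit 0) (nat_lit 984150995) (nat_lit 152) (nat_lit 14014915165) (nat_lit 76) (nat_lit 172059679896) (nat_lit 11) (nat_lit 5) (nat_lit 13) (nat_lit 5) (nat_lit 12) (nat_lit 4) (nat_lit 379) (nat_lit 347) (nat_lit 294)) (XT.lf (nat_lit 0) (nat_lit 49363984194) (nat_lit 152) (nat_lit 122865618758) (nat_lit 0) (nat_lit 35336056185) (nat_lit 10) (nat_lit 5) (nat_lit 12) (nat_lit 4) (nat_lit 10) (nat_lit 4) (nat_lit 380) (nat_lit 347) (nat_lit 293))))))) (XT.nd (nat_lit 1014) (nat_lit 228) (nat_lit 0) (XT.nd (nat_lit 468) (nat_lit 228) (nat_lit 0) (XT.nd (nat_lit 234) (nat_lit 152) (nat_lit 0) (XT.nd (nat_lit 78) (nat_lit 76) (nat_lit 0) (XT.lf (nat_lit 0) (nat_lit 106474858509) (nat_lit 152) (nat_lit 32006676343) (nat_lit 0) (nat_lit 92445964598) (nat_lit 10)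 (nat_lit 5) (nat_lit 12) (nat_lit 4) (nat_lit 10) (nat_lit 4) (nat_lit 381) (nat_lit 347) (nat_lit 292)) (XT.nd (nat_lit 78) (nat_lit 0) (nat_lit 0) (XT.lf (nat_lit 0) (nat_lit 79549068098) (nat_lit 76) (nat_lit 95890593525) (nat_lit 76) (nat_lit 81860859700) (nat_lit 9) (nat_lit 4) (nat_lit 10) (nat_lit 5) (nat_lit 10) (nat_lit 4) (nat_lit 382) (nat_lit 347) (nat_lit 291)) (XT.lf (nat_lit 0) (nat_lit 211421879225) (nat_lit 76) (nat_lit 44994036036) (nat_lit 76) (nat_lit 30963571851) (nat_lit 9) (nat_lit 4) (nat_lit 10) (nat_lit 5) (nat_lit 10) (nat_lit 4) (nat_lit 383) (nat_lit 347) (nat_lit 290)))) (XT.nd (nat_lit 78) (nat_lit 0) (nat_lit 0) (XT.lf (nat_lit 0) (nat_lit 27625291780) (nat_lit 152) (nat_lit 278372742860) (nat_lit 0) (nat_lit 15424335884) (nat_lit 7) (nat_lit 5) (nat_lit 9) (nat_lit 4) (nat_lit 7) (nat_lit 4) (nat_lit 384) (nat_lit 347) (nat_lit 289)) (XT.nd (nat_lit 78)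 (nat_lit 0) (nat_lit 0) (XT.lf (nat_lit 0) (nat_lit 98128795934) (nat_lit 152) (nat_lit 175349903779) (nat_lit 0) (nat_lit 85927359814) (nat_lit 7) (nat_lit 5) (nat_lit 9) (nat_lit 4) (nat_lit 7) (nat_lit 4) (nat_lit 385) (nat_lit 347) (nat_lit 288)) (XT.lf (nat_lit 0) (nat_lit 179202812249) (nat_lit 152) (nat_lit 56884283189) (nat_lit 0) (nat_lit 167000958544) (nat_lit 7) (nat_lit 5) (nat_lit 9) (nat_lit 4) (nat_lit 7) (nat_lit 4) (nat_lit 386) (nat_lit 347) (nat_lit 287))))) (XT.nd (nat_lit 234) (nat_lit 152) (nat_lit 0) (XT.nd (nat_lit 78) (nat_lit 0) (nat_lit 0) (XT.lf (nat_lit 0) (nat_lit 87095794427) (nat_lit 76) (nat_lit 188944228167) (nat_lit 76) (nat_lit 176742011343) (nat_lit 6) (nat_lit 4) (nat_lit 7) (nat_lit 5) (nat_lit 7) (nat_lit 4) (nat_lit 387) (nat_lit 347) (nat_lit 286)) (XT.nd (nat_lit 78) (nat_lit 0) (nat_lit 0) (XT.lf (nat_lit 0) (nat_lit 259057066189) (nat_lit 76)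 (nat_lit 131315088179) (nat_lit 76) (nat_lit 119112555600) (nat_lit 6) (nat_lit 4) (nat_lit 7) (nat_lit 5) (nat_lit 7) (nat_lit 4) (nat_lit 388) (nat_lit 347) (nat_lit 285)) (XT.lf (nat_lit 0) (nat_lit 456804845904) (nat_lit 76) (nat_lit 65045645442) (nat_lit 76) (nat_lit 52842838294) (nat_lit 6) (nat_lit 4) (nat_lit 7) (nat_lit 5) (nat_lit 7) (nat_lit 4) (nat_lit 389) (nat_lit 347) (nat_lit 284)))) (XT.nd (nat_lit 156) (nat_lit 0) (nat_lit 0) (XT.nd (nat_lit 78) (nat_lit 0) (nat_lit 0) (XT.lf (nat_lit 0) (nat_lit 23389880658) (nat_lit 152) (nat_lit 613054256622) (nat_lit 0) (nat_lit 12778536394) (nat_lit 4) (nat_lit 5) (nat_lit 6) (nat_lit 4) (nat_lit 4) (nat_lit 4) (nat_lit 390) (nat_lit 347) (nat_lit 283)) (XT.lf (nat_lit 0) (nat_lit 115197330100) (nat_lit 152) (nat_lit 513338346689) (nat_lit 0) (nat_lit 104585805302) (nat_lit 4) (nat_lit 5) (nat_lit 6) (nat_lit 4) (nat_lit 4) (nat_lit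 4) (nat_lit 391) (nat_lit 347) (nat_lit 282))) (XT.nd (nat_lit 78) (nat_lit 0) (nat_lit 0) (XT.lf (nat_lit 0) (nat_lit 220773038828) (nat_lit 152) (nat_lit 398671144648) (nat_lit 0) (nat_lit 210161357043) (nat_lit 4) (nat_lit 5) (nat_lit 6) (nat_lit 4) (nat_lit 4) (nat_lit 4) (nat_lit 392) (nat_lit 347) (nat_lit 281)) (XT.lf (nat_lit 0) (nat_lit 342182618535) (nat_lit 152) (nat_lit 266809161764) (nat_lit 0) (nat_lit 331570800241) (nat_lit 4) (nat_lit 5) (nat_lit 6) (nat_lit 4) (nat_lit 4) (nat_lit 4) (nat_lit 393) (nat_lit 347) (nat_lit 280)))))) (XT.nd (nat_lit 468) (nat_lit 152) (nat_lit 0) (XT.nd (nat_lit 234) (nat_lit 0) (nat_lit 0) (XT.nd (nat_lit 78) (nat_lit 76) (nat_lit 0) (XT.lf (nat_lit 0) (nat_lit 481801474040) (nat_lit 152) (nat_lit 115172489676) (nat_lit 0) (nat_lit 471189537042) (nat_lit 4) (nat_lit 5) (nat_lit 6) (nat_lit 4) (nat_lit 4) (nat_lit 4) (nat_lit 394) (nat_lit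 347) (nat_lit 279)) (XT.nd (nat_lit 78) (nat_lit 0) (nat_lit 0) (XT.lf (nat_lit 0) (nat_lit 64991685321) (nat_lit 76) (nat_lit 580060760377) (nat_lit 76) (nat_lit 569448720158) (nat_lit 3) (nat_lit 4) (nat_lit 4) (nat_lit 5) (nat_lit 4) (nat_lit 4) (nat_lit 395) (nat_lit 347) (nat_lit 278)) (XT.lf (nat_lit 0) (nat_lit 285120478863) (nat_lit 76) (nat_lit 553689171854) (nat_lit 76) (nat_lit 543077041878) (nat_lit 3) (nat_lit 4) (nat_lit 4) (nat_lit 5) (nat_lit 4) (nat_lit 4) (nat_lit 396) (nat_lit 347) (nat_lit 277)))) (XT.nd (nat_lit 78) (nat_lit 0) (nat_lit 0) (XT.lf (nat_lit 0) (nat_lit 538265265339) (nat_lit 76) (nat_lit 523363612427) (nat_lit 76) (nat_lit 512751404401) (nat_lit 3) (nat_lit 4) (nat_lit 4) (nat_lit 5) (nat_lit 4) (nat_lit 4) (nat_lit 397) (nat_lit 347) (nat_lit 276)) (XT.nd (nat_lit 78) (nat_lit 0) (nat_lit 0) (XT.lf (nat_lit 0) (nat_lit 829378877528) (nat_lit 76) (nat_lit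 488490755934) (nat_lit 76) (nat_lit 477878480039) (nat_lit 3) (nat_lit 4) (nat_lit 4) (nat_lit 5) (nat_lit 4) (nat_lit 4) (nat_lit 398) (nat_lit 347) (nat_lit 275)) (XT.lf (nat_lit 0) (nat_lit 1164157016538) (nat_lit 76) (nat_lit 448388307357) (nat_lit 76) (nat_lit 437775972445) (nat_lit 3) (nat_lit 4) (nat_lit 4) (nat_lit 5) (nat_lit 4) (nat_lit 4) (nat_lit 399) (nat_lit 347) (nat_lit 274))))) (XT.nd (nat_lit 234) (nat_lit 152) (nat_lit 0) (XT.nd (nat_lit 78) (nat_lit 0) (nat_lit 0) (XT.lf (nat_lit 0) (nat_lit 1549149689436) (nat_lit 76) (nat_lit 402271653570) (nat_lit 76) (nat_lit 391659267339) (nat_lit 3) (nat_lit 4) (nat_lit 4) (nat_lit 5) (nat_lit 4) (nat_lit 4) (nat_lit 400) (nat_lit 347) (nat_lit 273)) (XT.nd (nat_lit 78) (nat_lit 0) (nat_lit 0) (XT.lf (nat_lit 0) (nat_lit 1991889361562) (nat_lit 76) (nat_lit 349238512218) (nat_lit 76) (nat_lit 338626081362) (nat_lit 3) (nat_lit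 4) (nat_lit 4) (nat_lit 5) (nat_lit 4) (nat_lit 4) (nat_lit 401) (nat_lit 347) (nat_lit 272)) (XT.lf (nat_lit 0) (nat_lit 2501038330849) (nat_lit 76) (nat_lit 288251278361) (nat_lit 76) (nat_lit 277638808700) (nat_lit 3) (nat_lit 4) (nat_lit 4) (nat_lit 5) (nat_lit 4) (nat_lit 4) (nat_lit 402) (nat_lit 347) (nat_lit 271)))) (XT.nd (nat_lit 156) (nat_lit 152) (nat_lit 0) (XT.nd (nat_lit 78) (nat_lit 0) (nat_lit 0) (XT.lf (nat_lit 0) (nat_lit 3086558207566) (nat_lit 76) (nat_lit 218116723510) (nat_lit 76) (nat_lit 207504220106) (nat_lit 3) (nat_lit 4) (nat_lit 4) (nat_lit 5) (nat_lit 4) (nat_lit 4) (nat_lit 403) (nat_lit 347) (nat_lit 270)) (XT.lf (nat_lit 0) (nat_lit 3759904815386) (nat_lit 76) (nat_lit 137462649853) (nat_lit 76) (nat_lit 126850117107) (nat_lit 3) (nat_lit 4) (nat_lit 4) (nat_lit 5) (nat_lit 4) (nat_lit 4) (nat_lit 404) (nat_lit 347) (nat_lit 269))) (XT.nd (nat_lit 78) (nat_lit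 152) (nat_lit 0) (XT.lf (nat_lit 0) (nat_lit 4534252327073) (nat_lit 76) (nat_lit 44711042905) (nat_lit 76) (nat_lit 34098484645) (nat_lit 3) (nat_lit 4) (nat_lit 4) (nat_lit 5) (nat_lit 4) (nat_lit 4) (nat_lit 405) (nat_lit 347) (nat_lit 268)) (XT.lf (nat_lit 0) (nat_lit 75076072268) (nat_lit 152) (nat_lit 5147512659631) (nat_lit 0) (nat_lit 65847741445) (nat_lit 1) (nat_lit 5) (nat_lit 3) (nat_lit 4) (nat_lit 1) (nat_lit 4) (nat_lit 406) (nat_lit 347) (nat_lit 267))))))))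
noncomputable def xc61 : XT := (XT.nd (nat_lit 1950) (nat_lit 0) (nat_lit 0) (XT.nd (nat_lit 936) (nat_lit 0) (nat_lit 0) (XT.nd (nat_lit 468) (nat_lit 0) (nat_lit 0) (XT.nd (nat_lit 234) (nat_lit 0) (nat_lit 0) (XT.nd (nat_lit 78) (nat_lit 0) (nat_lit 0) (XT.lf (nat_lit 0) (nat_lit 203580170874) (nat_lit 152) (nat_lit 5665975071097) (nat_lit 0) (nat_lit 194351823275) (nat_lit 1) (nat_lit 5) (nat_lit 3) (nat_lit 4) (nat_lit 1) (nat_lit 4) (nat_lit 407) (nat_lit 347) (nat_lit 266)) (XT.nd (nat_lit 78) (nat_lit 0) (nat_lit 0) (XT.lf (nat_lit 0) (nat_lit 351359481110) (nat_lit 152) (nat_lit 6262207706378) (nat_lit 0) (nat_lit 342131118923) (nat_lit 1) (nat_lit 5) (nat_lit 3) (nat_lit 4) (nat_lit 1) (nat_lit 4) (nat_lit 408) (nat_lit 347) (nat_lit 265)) (XT.lf (nat_lit 0) (nat_lit 521305337307) (nat_lit 152) (nat_lit 6947875986599) (nat_lit 0) (nat_lit 512076962434) (nat_lit 1) (nat_lit 5)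 (nat_lit 3) (nat_lit 4) (nat_lit 1) (nat_lit 4) (nat_lit 409) (nat_lit 347) (nat_lit 264)))) (XT.nd (nat_lit 78) (nat_lit 0) (nat_lit 0) (XT.lf (nat_lit 0) (nat_lit 716742767085) (nat_lit 152) (nat_lit 7736395160722) (nat_lit 0) (nat_lit 707514381181) (nat_lit 1) (nat_lit 5) (nat_lit 3) (nat_lit 4) (nat_lit 1) (nat_lit 4) (nat_lit 410) (nat_lit 347) (nat_lit 263)) (XT.nd (nat_lit 78) (nat_lit 0) (nat_lit 0) (XT.lf (nat_lit 0) (nat_lit 941495546244) (nat_lit 152) (nat_lit 8643192777804) (nat_lit 0) (nat_lit 932267150749) (nat_lit 1) (nat_lit 5) (nat_lit 3) (nat_lit 4) (nat_lit 1) (nat_lit 4) (nat_lit 411) (nat_lit 347) (nat_lit 262)) (XT.lf (nat_lit 0) (nat_lit 1199961011769) (nat_lit 152) (nat_lit 9686010530354) (nat_lit 0) (nat_lit 1190732607932) (nat_lit 1) (nat_lit 5) (nat_lit 3) (nat_lit 4) (nat_lit 1) (nat_lit 4) (nat_lit 412) (nat_lit 347) (nat_lit 261))))) (XT.nd (nat_lit 234) (nat_lit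 0) (nat_lit 0) (XT.nd (nat_lit 78) (nat_lit 0) (nat_lit 0) (XT.lf (nat_lit 0) (nat_lit 1497196096680) (nat_lit 152) (nat_lit 10885251374400) (nat_lit 0) (nat_lit 1487967685590) (nat_lit 1) (nat_lit 5) (nat_lit 3) (nat_lit 4) (nat_lit 1) (nat_lit 4) (nat_lit 413) (nat_lit 347) (nat_lit 260)) (XT.nd (nat_lit 78) (nat_lit 0) (nat_lit 0) (XT.lf (nat_lit 0) (nat_lit 1839016270029) (nat_lit 152) (nat_lit 12264378717760) (nat_lit 0) (nat_lit 1829787852633) (nat_lit 1) (nat_lit 5) (nat_lit 3) (nat_lit 4) (nat_lit 1) (nat_lit 4) (nat_lit 414) (nat_lit 347) (nat_lit 259)) (XT.lf (nat_lit 0) (nat_lit 2232109317818) (nat_lit 152) (nat_lit 13850375486719) (nat_lit 0) (nat_lit 2222880894938) (nat_lit 1) (nat_lit 5) (nat_lit 3) (nat_lit 4) (nat_lit 1) (nat_lit 4) (nat_lit 415) (nat_lit 347) (nat_lit 258)))) (XT.nd (nat_lit 78) (nat_lit 0) (nat_lit 0) (XT.lf (nat_lit 0) (nat_lit 2684166190981) (nat_lit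 152) (nat_lit 15674272052841) (nat_lit 0) (nat_lit 2674937763332) (nat_lit 1) (nat_lit 5) (nat_lit 3) (nat_lit 4) (nat_lit 1) (nat_lit 4) (nat_lit 416) (nat_lit 347) (nat_lit 257)) (XT.nd (nat_lit 78) (nat_lit 0) (nat_lit 0) (XT.lf (nat_lit 0) (nat_lit 3204031480515) (nat_lit 152) (nat_lit 17771753348943) (nat_lit 0) (nat_lit 3194803048719) (nat_lit 1) (nat_lit 5) (nat_lit 3) (nat_lit 4) (nat_lit 1) (nat_lit 4) (nat_lit 417) (nat_lit 347) (nat_lit 256)) (XT.lf (nat_lit 0) (nat_lit 3801876463824) (nat_lit 152) (nat_lit 20183857052557) (nat_lit 0) (nat_lit 3792648028422) (nat_lit 1) (nat_lit 5) (nat_lit 3) (nat_lit 4) (nat_lit 1) (nat_lit 4) (nat_lit 418) (nat_lit 347) (nat_lit 255)))))) (XT.nd (nat_lit 468) (nat_lit 0) (nat_lit 0) (XT.nd (nat_lit 234) (nat_lit 0) (nat_lit 0) (XT.nd (nat_lit 78) (nat_lit 0) (nat_lit 0) (XT.lf (nat_lit 0) (nat_lit 4489398107972) (nat_lit 152) (nat_lit 22957776497014)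 (nat_lit 0) (nat_lit 4480169669434) (nat_lit 1) (nat_lit 5) (nat_lit 3) (nat_lit 4) (nat_lit 1) (nat_lit 4) (nat_lit 419) (nat_lit 347) (nat_lit 254)) (XT.nd (nat_lit 78) (nat_lit 0) (nat_lit 0) (XT.lf (nat_lit 0) (nat_lit 5280047923388) (nat_lit 152) (nat_lit 26147784019272) (nat_lit 0) (nat_lit 5270819482124) (nat_lit 1) (nat_lit 5) (nat_lit 3) (nat_lit 4) (nat_lit 1) (nat_lit 4) (nat_lit 420) (nat_lit 347) (nat_lit 253)) (XT.lf (nat_lit 0) (nat_lit 6189295145592) (nat_lit 152) (nat_lit 29816292809983) (nat_lit 0) (nat_lit 6180066701958) (nat_lit 1) (nat_lit 5) (nat_lit 3) (nat_lit 4) (nat_lit 1) (nat_lit 4) (nat_lit 421) (nat_lit 347) (nat_lit 252)))) (XT.nd (nat_lit 78) (nat_lit 0) (nat_lit 0) (XT.lf (nat_lit 0) (nat_lit 7234929394149) (nat_lit 152) (nat_lit 34035078041139) (nat_lit 0) (nat_lit 7225700948452) (nat_lit 1) (nat_lit 5) (nat_lit 3) (nat_lit 4) (nat_lit 1) (nat_lit 4) (nat_lit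 422) (nat_lit 347) (nat_lit 251)) (XT.nd (nat_lit 78) (nat_lit 0) (nat_lit 0) (XT.lf (nat_lit 0) (nat_lit 8437408730443) (nat_lit 152) (nat_lit 38886681162915) (nat_lit 0) (nat_lit 8428180282953) (nat_lit 1) (nat_lit 5) (nat_lit 3) (nat_lit 4) (nat_lit 1) (nat_lit 4) (nat_lit 423) (nat_lit 347) (nat_lit 250)) (XT.lf (nat_lit 0) (nat_lit 9820259924096) (nat_lit 152) (nat_lit 44466024845086) (nat_lit 0) (nat_lit 9811031475048) (nat_lit 1) (nat_lit 5) (nat_lit 3) (nat_lit 4) (nat_lit 1) (nat_lit 4) (nat_lit 424) (nat_lit 347) (nat_lit 249))))) (XT.nd (nat_lit 234) (nat_lit 0) (nat_lit 0) (XT.nd (nat_lit 78) (nat_lit 0) (nat_lit 0) (XT.lf (nat_lit 0) (nat_lit 11410538759334) (nat_lit 152) (nat_lit 50882270159693) (nat_lit 0) (nat_lit 11401310308930) (nat_lit 1) (nat_lit 5) (nat_lit 3) (nat_lit 4) (nat_lit 1) (nat_lit 4) (nat_lit 425) (nat_lit 347) (nat_lit 248)) (XT.nd (nat_lit 78) (nat_lit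 0) (nat_lit 0) (XT.lf (nat_lit 0) (nat_lit 13239359387280) (nat_lit 152) (nat_lit 58260952341153) (nat_lit 0) (nat_lit 13230130935698) (nat_lit 1) (nat_lit 5) (nat_lit 3) (nat_lit 4) (nat_lit 1) (nat_lit 4) (nat_lit 426) (nat_lit 347) (nat_lit 247)) (XT.lf (nat_lit 0) (nat_lit 15342503081090) (nat_lit 152) (nat_lit 66746436910407) (nat_lit 0) (nat_lit 15333274628482) (nat_lit 1) (nat_lit 5) (nat_lit 3) (nat_lit 4) (nat_lit 1) (nat_lit 4) (nat_lit 427) (nat_lit 347) (nat_lit 246)))) (XT.nd (nat_lit 156) (nat_lit 0) (nat_lit 0) (XT.nd (nat_lit 78) (nat_lit 0) (nat_lit 0) (XT.lf (nat_lit 0) (nat_lit 17761118304338) (nat_lit 152) (nat_lit 76504744217724) (nat_lit 0) (nat_lit 17751889850839) (nat_lit 1) (nat_lit 5) (nat_lit 3) (nat_lit 4) (nat_lit 1) (nat_lit 4) (nat_lit 428) (nat_lit 347) (nat_lit 245)) (XT.lf (nat_lit 0) (nat_lit 20542525789653) (nat_lit 152) (nat_lit 87726797666942) (nat_lit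 0) (nat_lit 20533297335379) (nat_lit 1) (nat_lit 5) (nat_lit 3) (nat_lit 4) (nat_lit 1) (nat_lit 4) (nat_lit 429) (nat_lit 347) (nat_lit 244))) (XT.nd (nat_lit 78) (nat_lit 0) (nat_lit 0) (XT.lf (nat_lit 0) (nat_lit 23741144379139) (nat_lit 152) (nat_lit 100632159173372) (nat_lit 0) (nat_lit 23731915924191) (nat_lit 1) (nat_lit 5) (nat_lit 3) (nat_lit 4) (nat_lit 1) (nat_lit 4) (nat_lit 430) (nat_lit 347) (nat_lit 243)) (XT.lf (nat_lit 0) (nat_lit 27419555740851) (nat_lit 152) (nat_lit 115473324940400) (nat_lit 0) (nat_lit 27410327285316) (nat_lit 1) (nat_lit 5) (nat_lit 3) (nat_lit 4) (nat_lit 1) (nat_lit 4) (nat_lit 431) (nat_lit 347) (nat_lit 242))))))) (XT.nd (nat_lit 47346) (nat_lit 0) (nat_lit 1368) (XT.nd (nat_lit 46800) (nat_lit 0) (nat_lit 2280) (XT.nd (nat_lit 46566) (nat_lit 0) (nat_lit 2736) (XT.nd (nat_lit 78) (nat_lit 0) (nat_lit 0) (XT.lf (nat_lit 0) (nat_lit 31649728792735)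 (nat_lit 152) (nat_lit 132540665602600) (nat_lit 0) (nat_lit 31640500336691) (nat_lit 1) (nat_lit 5) (nat_lit 3) (nat_lit 4) (nat_lit 1) (nat_lit 4) (nat_lit 432) (nat_lit 347) (nat_lit 241)) (XT.nd (nat_lit 78) (nat_lit 0) (nat_lit 0) (XT.lf (nat_lit 0) (nat_lit 36514427790155) (nat_lit 152) (nat_lit 152168107390317) (nat_lit 0) (nat_lit 36505199333668) (nat_lit 1) (nat_lit 5) (nat_lit 3) (nat_lit 4) (nat_lit 1) (nat_lit 4) (nat_lit 433) (nat_lit 347) (nat_lit 240)) (XT.lf (nat_lit 0) (nat_lit 42108831626539) (nat_lit 152) (nat_lit 174739665468965) (nat_lit 0) (nat_lit 42099603169667) (nat_lit 1) (nat_lit 5) (nat_lit 3) (nat_lit 4) (nat_lit 1) (nat_lit 4) (nat_lit 434) (nat_lit 347) (nat_lit 239)))) (XT.nd (nat_lit 78) (nat_lit 0) (nat_lit 0) (XT.lf (nat_lit 0) (nat_lit 827472532) (nat_lit 380) (nat_lit 2757468102) (nat_lit 380) (nat_lit 2757468102) (nat_lit 37) (nat_lit 3) (nat_lit 42)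 (nat_lit 3) (nat_lit 42) (nat_lit 5) (nat_lit 348) (nat_lit 348) (nat_lit 324)) (XT.nd (nat_lit 78) (nat_lit 0) (nat_lit 76) (XT.lf (nat_lit 76) (nat_lit 850686255) (nat_lit 0) (nat_lit 1357837580) (nat_lit 380) (nat_lit 11363050271) (nat_lit 38) (nat_lit 5) (nat_lit 37) (nat_lit 3) (nat_lit 42) (nat_lit 5) (nat_lit 349) (nat_lit 348) (nat_lit 323)) (XT.lf (nat_lit 0) (nat_lit 3296803842) (nat_lit 304) (nat_lit 6047722308) (nat_lit 380) (nat_lit 5179101538) (nat_lit 38) (nat_lit 5) (nat_lit 42) (nat_lit 5) (nat_lit 43) (nat_lit 5) (nat_lit 350) (nat_lit 348) (nat_lit 322))))) (XT.nd (nat_lit 234) (nat_lit 304) (nat_lit 0) (XT.nd (nat_lit 78) (nat_lit 228) (nat_lit 0) (XT.lf (nat_lit 76) (nat_lit 1660635698) (nat_lit 0) (nat_lit 2959475232) (nat_lit 380) (nat_lit 10987639414) (nat_lit 39) (nat_lit 5) (nat_lit 38) (nat_lit 5) (nat_lit 43) (nat_lit 5) (nat_lit 351) (nat_lit 348) (nat_lit 321))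 (XT.nd (nat_lit 78) (nat_lit 304) (nat_lit 0) (XT.lf (nat_lit 0) (nat_lit 6599434540) (nat_lit 304) (nat_lit 5854159333) (nat_lit 76) (nat_lit 4332294497) (nat_lit 39) (nat_lit 5) (nat_lit 43) (nat_lit 5) (nat_lit 40) (nat_lit 5) (nat_lit 352) (nat_lit 348) (nat_lit 320)) (XT.lf (nat_lit 0) (nat_lit 3582528891) (nat_lit 304) (nat_lit 5534427184) (nat_lit 380) (nat_lit 8987617891) (nat_lit 35) (nat_lit 5) (nat_lit 39) (nat_lit 5) (nat_lit 40) (nat_lit 5) (nat_lit 353) (nat_lit 348) (nat_lit 319)))) (XT.nd (nat_lit 156) (nat_lit 152) (nat_lit 0) (XT.nd (nat_lit 78) (nat_lit 152) (nat_lit 0) (XT.lf (nat_lit 0) (nat_lit 12389284572) (nat_lit 380) (nat_lit 4649894608) (nat_lit 76) (nat_lit 2525325348) (nat_lit 35) (nat_lit 5) (nat_lit 40) (nat_lit 5) (nat_lit 36) (nat_lit 5) (nat_lit 354) (nat_lit 348) (nat_lit 318)) (XT.lf (nat_lit 0) (nat_lit 7018743704) (nat_lit 152) (nat_lit 9649875314)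 (nat_lit 228) (nat_lit 4497398619) (nat_lit 33) (nat_lit 5) (nat_lit 35) (nat_lit 5) (nat_lit 36) (nat_lit 5) (nat_lit 355) (nat_lit 348) (nat_lit 317))) (XT.nd (nat_lit 78) (nat_lit 152) (nat_lit 0) (XT.lf (nat_lit 0) (nat_lit 20916689733) (nat_lit 152) (nat_lit 881362590) (nat_lit 228) (nat_lit 1178489904) (nat_lit 33) (nat_lit 5) (nat_lit 35) (nat_lit 5) (nat_lit 36) (nat_lit 5) (nat_lit 356) (nat_lit 348) (nat_lit 316)) (XT.lf (nat_lit 0) (nat_lit 3314167829) (nat_lit 152) (nat_lit 12545597915) (nat_lit 76) (nat_lit 9045885645) (nat_lit 31) (nat_lit 5) (nat_lit 33) (nat_lit 5) (nat_lit 32) (nat_lit 5) (nat_lit 357) (nat_lit 348) (nat_lit 315)))))) (XT.nd (nat_lit 468) (nat_lit 456) (nat_lit 0) (XT.nd (nat_lit 234) (nat_lit 228) (nat_lit 0) (XT.nd (nat_lit 78) (nat_lit 76) (nat_lit 0) (XT.lf (nat_lit 0) (nat_lit 2107773643) (nat_lit 152) (nat_lit 6464687374) (nat_lit 228) (nat_lit 18511398781)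 (nat_lit 29) (nat_lit 5) (nat_lit 31) (nat_lit 5) (nat_lit 32) (nat_lit 5) (nat_lit 358) (nat_lit 348) (nat_lit 314)) (XT.nd (nat_lit 78) (nat_lit 76) (nat_lit 0) (XT.lf (nat_lit 0) (nat_lit 15458154524) (nat_lit 228) (nat_lit 9376983463) (nat_lit 76) (nat_lit 4627871214) (nat_lit 29) (nat_lit 5) (nat_lit 32) (nat_lit 5) (nat_lit 30) (nat_lit 4) (nat_lit 359) (nat_lit 348) (nat_lit 313)) (XT.lf (nat_lit 0) (nat_lit 9018096594) (nat_lit 76) (nat_lit 15015467640) (nat_lit 152) (nat_lit 8066944574) (nat_lit 28) (nat_lit 5) (nat_lit 29) (nat_lit 5) (nat_lit 30) (nat_lit 4) (nat_lit 360) (nat_lit 348) (nat_lit 312)))) (XT.nd (nat_lit 78) (nat_lit 228) (nat_lit 0) (XT.lf (nat_lit 0) (nat_lit 31189152772) (nat_lit 76) (nat_lit 3173538024) (nat_lit 152) (nat_lit 700837939) (nat_lit 28) (nat_lit 5) (nat_lit 29) (nat_lit 5) (nat_lit 30) (nat_lit 4) (nat_lit 361) (nat_lit 348) (nat_lit 311)) (XT.nd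 (nat_lit 78) (nat_lit 76) (nat_lit 0) (XT.lf (nat_lit 0) (nat_lit 8355364717) (nat_lit 152) (nat_lit 19185904032) (nat_lit 76) (nat_lit 10689935227) (nat_lit 26) (nat_lit 5) (nat_lit 28) (nat_lit 5) (nat_lit 27) (nat_lit 4) (nat_lit 362) (nat_lit 348) (nat_lit 310)) (XT.lf (nat_lit 0) (nat_lit 4133434081) (nat_lit 76) (nat_lit 15079317057) (nat_lit 152) (nat_lit 22579101576) (nat_lit 25) (nat_lit 5) (nat_lit 26) (nat_lit 5) (nat_lit 27) (nat_lit 4) (nat_lit 363) (nat_lit 348) (nat_lit 309))))) (XT.nd (nat_lit 234) (nat_lit 304) (nat_lit 0) (XT.nd (nat_lit 78) (nat_lit 152) (nat_lit 0) (XT.lf (nat_lit 0) (nat_lit 32699086401) (nat_lit 152) (nat_lit 12681758852) (nat_lit 0) (nat_lit 355705918) (nat_lit 25) (nat_lit 5) (nat_lit 27) (nat_lit 4) (nat_lit 25) (nat_lit 4) (nat_lit 364) (nat_lit 348) (nat_lit 308)) (XT.nd (nat_lit 78) (nat_lit 76) (nat_lit 0) (XT.lf (nat_lit 0) (nat_lit 16786747921)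 (nat_lit 76) (nat_lit 32817973070) (nat_lit 76) (nat_lit 458784126) (nat_lit 24) (nat_lit 4) (nat_lit 25) (nat_lit 5) (nat_lit 25) (nat_lit 4) (nat_lit 365) (nat_lit 348) (nat_lit 307)) (XT.lf (nat_lit 0) (nat_lit 13437594144) (nat_lit 152) (nat_lit 3482108020) (nat_lit 76) (nat_lit 37931123885) (nat_lit 23) (nat_lit 5) (nat_lit 25) (nat_lit 5) (nat_lit 24) (nat_lit 4) (nat_lit 366) (nat_lit 348) (nat_lit 306)))) (XT.nd (nat_lit 156) (nat_lit 152) (nat_lit 0) (XT.nd (nat_lit 78) (nat_lit 76) (nat_lit 0) (XT.lf (nat_lit 0) (nat_lit 30877441833) (nat_lit 152) (nat_lit 26532961887) (nat_lit 0) (nat_lit 2716668879) (nat_lit 22) (nat_lit 5) (nat_lit 24) (nat_lit 4) (nat_lit 22) (nat_lit 4) (nat_lit 367) (nat_lit 348) (nat_lit 305)) (XT.lf (nat_lit 0) (nat_lit 10553315940) (nat_lit 76) (nat_lit 41799184212) (nat_lit 76) (nat_lit 13629372719) (nat_lit 21) (nat_lit 4) (nat_lit 22) (nat_lit 5) (nat_lit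 22) (nat_lit 4) (nat_lit 368) (nat_lit 348) (nat_lit 304))) (XT.nd (nat_lit 78) (nat_lit 76) (nat_lit 0) (XT.lf (nat_lit 0) (nat_lit 5387059112) (nat_lit 152) (nat_lit 16595494000) (nat_lit 76) (nat_lit 50489576974) (nat_lit 20) (nat_lit 5) (nat_lit 22) (nat_lit 5) (nat_lit 21) (nat_lit 4) (nat_lit 369) (nat_lit 348) (nat_lit 303)) (XT.lf (nat_lit 0) (nat_lit 27216448543) (nat_lit 152) (nat_lit 49710560820) (nat_lit 0) (nat_lit 2708182868) (nat_lit 19) (nat_lit 5) (nat_lit 21) (nat_lit 4) (nat_lit 19) (nat_lit 4) (nat_lit 370) (nat_lit 348) (nat_lit 302))))))))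
noncomputable def xc62 : XT := (XT.nd (nat_lit 1950) (nat_lit 228) (nat_lit 0) (XT.nd (nat_lit 936) (nat_lit 456) (nat_lit 0) (XT.nd (nat_lit 468) (nat_lit 380) (nat_lit 0) (XT.nd (nat_lit 234) (nat_lit 76) (nat_lit 0) (XT.nd (nat_lit 78) (nat_lit 228) (nat_lit 0) (XT.lf (nat_lit 0) (nat_lit 54263810847) (nat_lit 152) (nat_lit 3566991828) (nat_lit 0) (nat_lit 29750377359) (nat_lit 19) (nat_lit 5) (nat_lit 21) (nat_lit 4) (nat_lit 19) (nat_lit 4) (nat_lit 371) (nat_lit 348) (nat_lit 301)) (XT.nd (nat_lit 78) (nat_lit 152) (nat_lit 0) (XT.lf (nat_lit 0) (nat_lit 54312340102) (nat_lit 76) (nat_lit 33294439363) (nat_lit 76) (nat_lit 8776512123) (nat_lit 18) (nat_lit 4) (nat_lit 19) (nat_lit 5) (nat_lit 19) (nat_lit 4) (nat_lit 372) (nat_lit 348) (nat_lit 300)) (XT.lf (nat_lit 0) (nat_lit 15325956615) (nat_lit 76) (nat_lit 3207899879) (nat_lit 152) (nat_lit 87728151677) (nat_lit 16) (nat_lit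 5) (nat_lit 17) (nat_lit 5) (nat_lit 18) (nat_lit 4) (nat_lit 373) (nat_lit 348) (nat_lit 299)))) (XT.nd (nat_lit 78) (nat_lit 76) (nat_lit 0) (XT.lf (nat_lit 0) (nat_lit 52635678863) (nat_lit 152) (nat_lit 33075758165) (nat_lit 0) (nat_lit 31309389497) (nat_lit 16) (nat_lit 5) (nat_lit 18) (nat_lit 4) (nat_lit 16) (nat_lit 4) (nat_lit 374) (nat_lit 348) (nat_lit 298)) (XT.nd (nat_lit 78) (nat_lit 0) (nat_lit 0) (XT.lf (nat_lit 0) (nat_lit 36545969797) (nat_lit 76) (nat_lit 56963896621) (nat_lit 76) (nat_lit 35635037939) (nat_lit 15) (nat_lit 4) (nat_lit 16) (nat_lit 5) (nat_lit 16) (nat_lit 4) (nat_lit 375) (nat_lit 348) (nat_lit 297)) (XT.lf (nat_lit 0) (nat_lit 120310631493) (nat_lit 76) (nat_lit 21924994544) (nat_lit 76) (nat_lit 593901673) (nat_lit 15) (nat_lit 4) (nat_lit 16) (nat_lit 5) (nat_lit 16) (nat_lit 4) (nat_lit 376) (nat_lit 348) (nat_lit 296))))) (XT.nd (nat_lit 234) (nat_lit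 152) (nat_lit 0) (XT.nd (nat_lit 78) (nat_lit 76) (nat_lit 0) (XT.lf (nat_lit 0) (nat_lit 39685906927) (nat_lit 152) (nat_lit 96971315782) (nat_lit 0) (nat_lit 21135441150) (nat_lit 13) (nat_lit 5) (nat_lit 15) (nat_lit 4) (nat_lit 13) (nat_lit 4) (nat_lit 377) (nat_lit 348) (nat_lit 295)) (XT.nd (nat_lit 78) (nat_lit 76) (nat_lit 0) (XT.lf (nat_lit 0) (nat_lit 88216397779) (nat_lit 152) (nat_lit 16774740521) (nat_lit 0) (nat_lit 69664462987) (nat_lit 13) (nat_lit 5) (nat_lit 15) (nat_lit 4) (nat_lit 13) (nat_lit 4) (nat_lit 378) (nat_lit 348) (nat_lit 294)) (XT.lf (nat_lit 0) (nat_lit 82809602130) (nat_lit 76) (nat_lit 64639124959) (nat_lit 76) (nat_lit 46085912762) (nat_lit 12) (nat_lit 4) (nat_lit 13) (nat_lit 5) (nat_lit 13) (nat_lit 4) (nat_lit 379) (nat_lit 348) (nat_lit 293)))) (XT.nd (nat_lit 78) (nat_lit 76) (nat_lit 0) (XT.lf (nat_lit 0) (nat_lit 1203779294) (nat_lit 152) (nat_lit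 15966197501) (nat_lit 76) (nat_lit 197936778299) (nat_lit 11) (nat_lit 5) (nat_lit 13) (nat_lit 5) (nat_lit 12) (nat_lit 4) (nat_lit 380) (nat_lit 348) (nat_lit 292)) (XT.nd (nat_lit 78) (nat_lit 0) (nat_lit 0) (XT.lf (nat_lit 0) (nat_lit 56840288868) (nat_lit 152) (nat_lit 141144206268) (nat_lit 0) (nat_lit 40705255055) (nat_lit 10) (nat_lit 5) (nat_lit 12) (nat_lit 4) (nat_lit 10) (nat_lit 4) (nat_lit 381) (nat_lit 348) (nat_lit 291)) (XT.lf (nat_lit 0) (nat_lit 122508441237) (nat_lit 152) (nat_lit 36676151443) (nat_lit 0) (nat_lit 106372677064) (nat_lit 10) (nat_lit 5) (nat_lit 12) (nat_lit 4) (nat_lit 10) (nat_lit 4) (nat_lit 382) (nat_lit 348) (nat_lit 290)))))) (XT.nd (nat_lit 468) (nat_lit 152) (nat_lit 0) (XT.nd (nat_lit 234) (nat_lit 76) (nat_lit 0) (XT.nd (nat_lit 78) (nat_lit 152) (nat_lit 0) (XT.lf (nat_lit 0) (nat_lit 91606976194) (nat_lit 76) (nat_lit 110208054171) (nat_lit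 76) (nat_lit 94071654902) (nat_lit 9) (nat_lit 4) (nat_lit 10) (nat_lit 5) (nat_lit 10) (nat_lit 4) (nat_lit 383) (nat_lit 348) (nat_lit 289)) (XT.nd (nat_lit 78) (nat_lit 152) (nat_lit 0) (XT.lf (nat_lit 0) (nat_lit 243244333179) (nat_lit 76) (nat_lit 51685638499) (nat_lit 76) (nat_lit 35548686973) (nat_lit 9) (nat_lit 4) (nat_lit 10) (nat_lit 5) (nat_lit 10) (nat_lit 4) (nat_lit 384) (nat_lit 348) (nat_lit 288)) (XT.lf (nat_lit 0) (nat_lit 31823067705) (nat_lit 152) (nat_lit 320014041840) (nat_lit 0) (nat_lit 17790518358) (nat_lit 7) (nat_lit 5) (nat_lit 9) (nat_lit 4) (nat_lit 7) (nat_lit 4) (nat_lit 385) (nat_lit 348) (nat_lit 287)))) (XT.nd (nat_lit 78) (nat_lit 76) (nat_lit 0) (XT.lf (nat_lit 0) (nat_lit 112895056331) (nat_lit 152) (nat_lit 201552726347) (nat_lit 0) (nat_lit 98862143866) (nat_lit 7) (nat_lit 5) (nat_lit 9) (nat_lit 4) (nat_lit 7) (nat_lit 4) (nat_lit 386) (nat_lit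 348) (nat_lit 286)) (XT.nd (nat_lit 78) (nat_lit 76) (nat_lit 0) (XT.lf (nat_lit 0) (nat_lit 206124052354) (nat_lit 152) (nat_lit 65330262190) (nat_lit 0) (nat_lit 192090824134) (nat_lit 7) (nat_lit 5) (nat_lit 9) (nat_lit 4) (nat_lit 7) (nat_lit 4) (nat_lit 387) (nat_lit 348) (nat_lit 285)) (XT.lf (nat_lit 0) (nat_lit 100242887820) (nat_lit 76) (nat_lit 217242057743) (nat_lit 76) (nat_lit 203208554953) (nat_lit 6) (nat_lit 4) (nat_lit 7) (nat_lit 5) (nat_lit 7) (nat_lit 4) (nat_lit 388) (nat_lit 348) (nat_lit 284))))) (XT.nd (nat_lit 234) (nat_lit 0) (nat_lit 0) (XT.nd (nat_lit 78) (nat_lit 152) (nat_lit 0) (XT.lf (nat_lit 0) (nat_lit 297987560229) (nat_lit 76) (nat_lit 150974260406) (nat_lit 76) (nat_lit 136940518860) (nat_lit 6) (nat_lit 4) (nat_lit 7) (nat_lit 5) (nat_lit 7) (nat_lit 4) (nat_lit 389) (nat_lit 348) (nat_lit 283)) (XT.nd (nat_lit 78) (nat_lit 152) (nat_lit 0) (XT.lf (nat_lit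 0) (nat_lit 525388124191) (nat_lit 76) (nat_lit 74769369650) (nat_lit 76) (nat_lit 60735420490) (nat_lit 6) (nat_lit 4) (nat_lit 7) (nat_lit 5) (nat_lit 7) (nat_lit 4) (nat_lit 390) (nat_lit 348) (nat_lit 282)) (XT.lf (nat_lit 0) (nat_lit 26929137507) (nat_lit 152) (nat_lit 704946774209) (nat_lit 0) (nat_lit 14725546469) (nat_lit 4) (nat_lit 5) (nat_lit 6) (nat_lit 4) (nat_lit 4) (nat_lit 4) (nat_lit 391) (nat_lit 348) (nat_lit 281)))) (XT.nd (nat_lit 156) (nat_lit 0) (nat_lit 0) (XT.nd (nat_lit 78) (nat_lit 0) (nat_lit 0) (XT.lf (nat_lit 0) (nat_lit 132503690267) (nat_lit 152) (nat_lit 590282037034) (nat_lit 0) (nat_lit 120299962719) (nat_lit 4) (nat_lit 5) (nat_lit 6) (nat_lit 4) (nat_lit 4) (nat_lit 4) (nat_lit 392) (nat_lit 348) (nat_lit 280)) (XT.lf (nat_lit 0) (nat_lit 253912264784) (nat_lit 152) (nat_lit 458422197512) (nat_lit 0) (nat_lit 241708418533) (nat_lit 4) (nat_lit 5) (nat_lit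 6) (nat_lit 4) (nat_lit 4) (nat_lit 4) (nat_lit 393) (nat_lit 348) (nat_lit 279))) (XT.nd (nat_lit 78) (nat_lit 0) (nat_lit 0) (XT.lf (nat_lit 0) (nat_lit 393530246212) (nat_lit 152) (nat_lit 306787389217) (nat_lit 0) (nat_lit 381326296740) (nat_lit 4) (nat_lit 5) (nat_lit 6) (nat_lit 4) (nat_lit 4) (nat_lit 4) (nat_lit 394) (nat_lit 348) (nat_lit 278)) (XT.lf (nat_lit 0) (nat_lit 554089290709) (nat_lit 152) (nat_lit 132410844161) (nat_lit 0) (nat_lit 541885251480) (nat_lit 4) (nat_lit 5) (nat_lit 6) (nat_lit 4) (nat_lit 4) (nat_lit 4) (nat_lit 395) (nat_lit 348) (nat_lit 277))))))) (XT.nd (nat_lit 1014) (nat_lit 0) (nat_lit 0) (XT.nd (nat_lit 468) (nat_lit 152) (nat_lit 0) (XT.nd (nat_lit 234) (nat_lit 0) (nat_lit 0) (XT.nd (nat_lit 78) (nat_lit 0) (nat_lit 0) (XT.lf (nat_lit 0) (nat_lit 74776251679) (nat_lit 76) (nat_lit 667050844327) (nat_lit 76) (nat_lit 654846727048) (nat_lit 3) (nat_lit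 4) (nat_lit 4) (nat_lit 5) (nat_lit 4) (nat_lit 4) (nat_lit 396) (nat_lit 348) (nat_lit 276)) (XT.nd (nat_lit 78) (nat_lit 0) (nat_lit 0) (XT.lf (nat_lit 0) (nat_lit 327919692918) (nat_lit 76) (nat_lit 636725999713) (nat_lit 76) (nat_lit 624521814565) (nat_lit 3) (nat_lit 4) (nat_lit 4) (nat_lit 5) (nat_lit 4) (nat_lit 4) (nat_lit 397) (nat_lit 348) (nat_lit 275)) (XT.lf (nat_lit 0) (nat_lit 619032135336) (nat_lit 76) (nat_lit 601853764797) (nat_lit 76) (nat_lit 589649520631) (nat_lit 3) (nat_lit 4) (nat_lit 4) (nat_lit 5) (nat_lit 4) (nat_lit 4) (nat_lit 398) (nat_lit 348) (nat_lit 274)))) (XT.nd (nat_lit 78) (nat_lit 0) (nat_lit 0) (XT.lf (nat_lit 0) (nat_lit 953809257154) (nat_lit 76) (nat_lit 561751856721) (nat_lit 76) (nat_lit 549547561236) (nat_lit 3) (nat_lit 4) (nat_lit 4) (nat_lit 5) (nat_lit 4) (nat_lit 4) (nat_lit 399) (nat_lit 348) (nat_lit 273)) (XT.nd (nat_lit 78) (nat_lit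 0) (nat_lit 0) (XT.lf (nat_lit 0) (nat_lit 1338801045537) (nat_lit 76) (nat_lit 515635672935) (nat_lit 76) (nat_lit 503431332826) (nat_lit 3) (nat_lit 4) (nat_lit 4) (nat_lit 5) (nat_lit 4) (nat_lit 4) (nat_lit 400) (nat_lit 348) (nat_lit 272)) (XT.lf (nat_lit 0) (nat_lit 1781539948520) (nat_lit 76) (nat_lit 462602940280) (nat_lit 76) (nat_lit 450398561365) (nat_lit 3) (nat_lit 4) (nat_lit 4) (nat_lit 5) (nat_lit 4) (nat_lit 4) (nat_lit 401) (nat_lit 348) (nat_lit 271))))) (XT.nd (nat_lit 234) (nat_lit 152) (nat_lit 0) (XT.nd (nat_lit 78) (nat_lit 0) (nat_lit 0) (XT.lf (nat_lit 0) (nat_lit 2290688248987) (nat_lit 76) (nat_lit 401616061811) (nat_lit 76) (nat_lit 389411649153) (nat_lit 3) (nat_lit 4) (nat_lit 4) (nat_lit 5) (nat_lit 4) (nat_lit 4) (nat_lit 402) (nat_lit 348) (nat_lit 270)) (XT.nd (nat_lit 78) (nat_lit 0) (nat_lit 0) (XT.lf (nat_lit 0) (nat_lit 2876207544120) (nat_lit 76)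 (nat_lit 331481815993) (nat_lit 76) (nat_lit 319277373994) (nat_lit 3) (nat_lit 4) (nat_lit 4) (nat_lit 5) (nat_lit 4) (nat_lit 4) (nat_lit 403) (nat_lit 348) (nat_lit 269)) (XT.lf (nat_lit 0) (nat_lit 3549553646217) (nat_lit 76) (nat_lit 250828011061) (nat_lit 76) (nat_lit 238623543547) (nat_lit 3) (nat_lit 4) (nat_lit 4) (nat_lit 5) (nat_lit 4) (nat_lit 4) (nat_lit 404) (nat_lit 348) (nat_lit 268)))) (XT.nd (nat_lit 156) (nat_lit 152) (nat_lit 0) (XT.nd (nat_lit 78) (nat_lit 0) (nat_lit 0) (XT.lf (nat_lit 0) (nat_lit 4323900718143) (nat_lit 76) (nat_lit 158076637787) (nat_lit 76) (nat_lit 145872148087) (nat_lit 3) (nat_lit 4) (nat_lit 4) (nat_lit 5) (nat_lit 4) (nat_lit 4) (nat_lit 405) (nat_lit 348) (nat_lit 267)) (XT.lf (nat_lit 0) (nat_lit 5214399028698) (nat_lit 76) (nat_lit 51412995390) (nat_lit 76) (nat_lit 39208486397) (nat_lit 3) (nat_lit 4) (nat_lit 4) (nat_lit 5) (nat_lit 4)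 (nat_lit 4) (nat_lit 406) (nat_lit 348) (nat_lit 266))) (XT.nd (nat_lit 78) (nat_lit 0) (nat_lit 0) (XT.lf (nat_lit 0) (nat_lit 86341824124) (nat_lit 152) (nat_lit 5919630276017) (nat_lit 0) (nat_lit 75729193021) (nat_lit 1) (nat_lit 5) (nat_lit 3) (nat_lit 4) (nat_lit 1) (nat_lit 4) (nat_lit 407) (nat_lit 348) (nat_lit 265)) (XT.lf (nat_lit 0) (nat_lit 234120971302) (nat_lit 152) (nat_lit 6515863259971) (nat_lit 0) (nat_lit 223508327513) (nat_lit 1) (nat_lit 5) (nat_lit 3) (nat_lit 4) (nat_lit 1) (nat_lit 4) (nat_lit 408) (nat_lit 348) (nat_lit 264)))))) (XT.nd (nat_lit 468) (nat_lit 0) (nat_lit 0) (XT.nd (nat_lit 234) (nat_lit 0) (nat_lit 0) (XT.nd (nat_lit 78) (nat_lit 0) (nat_lit 0) (XT.lf (nat_lit 0) (nat_lit 404066685709) (nat_lit 152) (nat_lit 7201531843387) (nat_lit 0) (nat_lit 393454030889) (nat_lit 1) (nat_lit 5) (nat_lit 3) (nat_lit 4) (nat_lit 1) (nat_lit 4) (nat_lit 409) (nat_lit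 348) (nat_lit 263)) (XT.nd (nat_lit 78) (nat_lit 0) (nat_lit 0) (XT.lf (nat_lit 0) (nat_lit 599503992191) (nat_lit 152) (nat_lit 7990051281156) (nat_lit 0) (nat_lit 588891327780) (nat_lit 1) (nat_lit 5) (nat_lit 3) (nat_lit 4) (nat_lit 1) (nat_lit 4) (nat_lit 410) (nat_lit 348) (nat_lit 262)) (XT.lf (nat_lit 0) (nat_lit 824256664138) (nat_lit 152) (nat_lit 8896849127497) (nat_lit 0) (nat_lit 813643991385) (nat_lit 1) (nat_lit 5) (nat_lit 3) (nat_lit 4) (nat_lit 1) (nat_lit 4) (nat_lit 411) (nat_lit 348) (nat_lit 261)))) (XT.nd (nat_lit 78) (nat_lit 0) (nat_lit 0) (XT.lf (nat_lit 0) (nat_lit 1082722036433) (nat_lit 152) (nat_lit 9939667079402) (nat_lit 0) (nat_lit 1072109356428) (nat_lit 1) (nat_lit 5) (nat_lit 3) (nat_lit 4) (nat_lit 1) (nat_lit 4) (nat_lit 412) (nat_lit 348) (nat_lit 260)) (XT.nd (nat_lit 78) (nat_lit 0) (nat_lit 0) (XT.lf (nat_lit 0) (nat_lit 1379957040275) (nat_lit 152)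 (nat_lit 11138908096801) (nat_lit 0) (nat_lit 1369344353963) (nat_lit 1) (nat_lit 5) (nat_lit 3) (nat_lit 4) (nat_lit 1) (nat_lit 4) (nat_lit 413) (nat_lit 348) (nat_lit 259)) (XT.lf (nat_lit 0) (nat_lit 1721777143130) (nat_lit 152) (nat_lit 12518035590902) (nat_lit 0) (nat_lit 1711164451334) (nat_lit 1) (nat_lit 5) (nat_lit 3) (nat_lit 4) (nat_lit 1) (nat_lit 4) (nat_lit 414) (nat_lit 348) (nat_lit 258))))) (XT.nd (nat_lit 234) (nat_lit 0) (nat_lit 0) (XT.nd (nat_lit 78) (nat_lit 0) (nat_lit 0) (XT.lf (nat_lit 0) (nat_lit 2114870129620) (nat_lit 152) (nat_lit 14104032490940) (nat_lit 0) (nat_lit 2104257433054) (nat_lit 1) (nat_lit 5) (nat_lit 3) (nat_lit 4) (nat_lit 1) (nat_lit 4) (nat_lit 415) (nat_lit 348) (nat_lit 257)) (XT.nd (nat_lit 78) (nat_lit 0) (nat_lit 0) (XT.lf (nat_lit 0) (nat_lit 2566926949479) (nat_lit 152) (nat_lit 15927929171044) (nat_lit 0) (nat_lit 2556314248767) (nat_lit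 1) (nat_lit 5) (nat_lit 3) (nat_lit 4) (nat_lit 1) (nat_lit 4) (nat_lit 416) (nat_lit 348) (nat_lit 256)) (XT.lf (nat_lit 0) (nat_lit 3086792192661) (nat_lit 152) (nat_lit 18025410566261) (nat_lit 0) (nat_lit 3076179488343) (nat_lit 1) (nat_lit 5) (nat_lit 3) (nat_lit 4) (nat_lit 1) (nat_lit 4) (nat_lit 417) (nat_lit 348) (nat_lit 255)))) (XT.nd (nat_lit 156) (nat_lit 0) (nat_lit 0) (XT.nd (nat_lit 78) (nat_lit 0) (nat_lit 0) (XT.lf (nat_lit 0) (nat_lit 3684637135664) (nat_lit 152) (nat_lit 20437514356061) (nat_lit 0) (nat_lit 3674024428211) (nat_lit 1) (nat_lit 5) (nat_lit 3) (nat_lit 4) (nat_lit 1) (nat_lit 4) (nat_lit 418) (nat_lit 348) (nat_lit 254)) (XT.lf (nat_lit 0) (nat_lit 4372158744764) (nat_lit 152) (nat_lit 23211433875464) (nat_lit 0) (nat_lit 4361546034584) (nat_lit 1) (nat_lit 5) (nat_lit 3) (nat_lit 4) (nat_lit 1) (nat_lit 4) (nat_lit 419) (nat_lit 348) (nat_lit 253))) (XT.nd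 (nat_lit 78) (nat_lit 0) (nat_lit 0) (XT.lf (nat_lit 0) (nat_lit 5162808529704) (nat_lit 152) (nat_lit 26401441462891) (nat_lit 0) (nat_lit 5152195817153) (nat_lit 1) (nat_lit 5) (nat_lit 3) (nat_lit 4) (nat_lit 1) (nat_lit 4) (nat_lit 420) (nat_lit 348) (nat_lit 252)) (XT.lf (nat_lit 0) (nat_lit 6072055725407) (nat_lit 152) (nat_lit 30069950310271) (nat_lit 0) (nat_lit 6061443010794) (nat_lit 1) (nat_lit 5) (nat_lit 3) (nat_lit 4) (nat_lit 1) (nat_lit 4) (nat_lit 421) (nat_lit 348) (nat_lit 251))))))))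
noncomputable def xc63 : XT := (XT.nd (nat_lit 48360) (nat_lit 0) (nat_lit 456) (XT.nd (nat_lit 1014) (nat_lit 0) (nat_lit 0) (XT.nd (nat_lit 468) (nat_lit 0) (nat_lit 0) (XT.nd (nat_lit 234) (nat_lit 0) (nat_lit 0) (XT.nd (nat_lit 78) (nat_lit 0) (nat_lit 0) (XT.lf (nat_lit 0) (nat_lit 7117689950918) (nat_lit 152) (nat_lit 34288735590705) (nat_lit 0) (nat_lit 7107077234513) (nat_lit 1) (nat_lit 5) (nat_lit 3) (nat_lit 4) (nat_lit 1) (nat_lit 4) (nat_lit 422) (nat_lit 348) (nat_lit 250)) (XT.nd (nat_lit 78) (nat_lit 0) (nat_lit 0) (XT.lf (nat_lit 0) (nat_lit 8320169267173) (nat_lit 152) (nat_lit 39140338755331) (nat_lit 0) (nat_lit 8309556549208) (nat_lit 1) (nat_lit 5) (nat_lit 3) (nat_lit 4) (nat_lit 1) (nat_lit 4) (nat_lit 423) (nat_lit 348) (nat_lit 249)) (XT.lf (nat_lit 0) (nat_lit 9703020443402) (nat_lit 152) (nat_lit 44719682474763) (nat_lit 0) (nat_lit 9692407724082) (nat_lit 1)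 (nat_lit 5) (nat_lit 3) (nat_lit 4) (nat_lit 1) (nat_lit 4) (nat_lit 424) (nat_lit 348) (nat_lit 248)))) (XT.nd (nat_lit 78) (nat_lit 0) (nat_lit 0) (XT.lf (nat_lit 0) (nat_lit 11293299263487) (nat_lit 152) (nat_lit 51135927821771) (nat_lit 0) (nat_lit 11282686542988) (nat_lit 1) (nat_lit 5) (nat_lit 3) (nat_lit 4) (nat_lit 1) (nat_lit 4) (nat_lit 425) (nat_lit 348) (nat_lit 247)) (XT.nd (nat_lit 78) (nat_lit 0) (nat_lit 0) (XT.lf (nat_lit 0) (nat_lit 13122119878257) (nat_lit 152) (nat_lit 58514610031405) (nat_lit 0) (nat_lit 13111507156734) (nat_lit 1) (nat_lit 5) (nat_lit 3) (nat_lit 4) (nat_lit 1) (nat_lit 4) (nat_lit 426) (nat_lit 348) (nat_lit 246)) (XT.lf (nat_lit 0) (nat_lit 15225263560610) (nat_lit 152) (nat_lit 67000094625159) (nat_lit 0) (nat_lit 15214650838195) (nat_lit 1) (nat_lit 5) (nat_lit 3) (nat_lit 4) (nat_lit 1) (nat_lit 4) (nat_lit 427) (nat_lit 348) (nat_lit 245)))))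 (XT.nd (nat_lit 234) (nat_lit 0) (nat_lit 0) (XT.nd (nat_lit 78) (nat_lit 0) (nat_lit 0) (XT.lf (nat_lit 0) (nat_lit 17643878773895) (nat_lit 152) (nat_lit 76758401953780) (nat_lit 0) (nat_lit 17633266050704) (nat_lit 1) (nat_lit 5) (nat_lit 3) (nat_lit 4) (nat_lit 1) (nat_lit 4) (nat_lit 428) (nat_lit 348) (nat_lit 244)) (XT.nd (nat_lit 78) (nat_lit 0) (nat_lit 0) (XT.lf (nat_lit 0) (nat_lit 20425286250546) (nat_lit 152) (nat_lit 87980455421523) (nat_lit 0) (nat_lit 20414673526682) (nat_lit 1) (nat_lit 5) (nat_lit 3) (nat_lit 4) (nat_lit 1) (nat_lit 4) (nat_lit 429) (nat_lit 348) (nat_lit 243)) (XT.lf (nat_lit 0) (nat_lit 23623904832499) (nat_lit 152) (nat_lit 100885816944062) (nat_lit 0) (nat_lit 23613292108048) (nat_lit 1) (nat_lit 5) (nat_lit 3) (nat_lit 4) (nat_lit 1) (nat_lit 4) (nat_lit 430) (nat_lit 348) (nat_lit 242)))) (XT.nd (nat_lit 156) (nat_lit 0) (nat_lit 0) (XT.nd (nat_lit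 78) (nat_lit 0) (nat_lit 0) (XT.lf (nat_lit 0) (nat_lit 27302316187660) (nat_lit 152) (nat_lit 115726982725098) (nat_lit 0) (nat_lit 27291703462700) (nat_lit 1) (nat_lit 5) (nat_lit 3) (nat_lit 4) (nat_lit 1) (nat_lit 4) (nat_lit 431) (nat_lit 348) (nat_lit 241)) (XT.lf (nat_lit 0) (nat_lit 31532489233848) (nat_lit 152) (nat_lit 132794323399478) (nat_lit 0) (nat_lit 31521876508445) (nat_lit 1) (nat_lit 5) (nat_lit 3) (nat_lit 4) (nat_lit 1) (nat_lit 4) (nat_lit 432) (nat_lit 348) (nat_lit 240))) (XT.nd (nat_lit 78) (nat_lit 0) (nat_lit 0) (XT.lf (nat_lit 0) (nat_lit 36397188226315) (nat_lit 152) (nat_lit 152421765197788) (nat_lit 0) (nat_lit 36386575500526) (nat_lit 1) (nat_lit 5) (nat_lit 3) (nat_lit 4) (nat_lit 1) (nat_lit 4) (nat_lit 433) (nat_lit 348) (nat_lit 239)) (XT.lf (nat_lit 0) (nat_lit 41991592058391) (nat_lit 152) (nat_lit 174993323285646) (nat_lit 0) (nat_lit 41980979332268)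 (nat_lit 1) (nat_lit 5) (nat_lit 3) (nat_lit 4) (nat_lit 1) (nat_lit 4) (nat_lit 434) (nat_lit 348) (nat_lit 238)))))) (XT.nd (nat_lit 46800) (nat_lit 0) (nat_lit 2128) (XT.nd (nat_lit 46566) (nat_lit 0) (nat_lit 2812) (XT.nd (nat_lit 46410) (nat_lit 0) (nat_lit 2736) (XT.lf (nat_lit 0) (nat_lit 48425156457226) (nat_lit 152) (nat_lit 200950615103902) (nat_lit 0) (nat_lit 48414543730811) (nat_lit 1) (nat_lit 5) (nat_lit 3) (nat_lit 4) (nat_lit 1) (nat_lit 4) (nat_lit 435) (nat_lit 348) (nat_lit 237)) (XT.nd (nat_lit 78) (nat_lit 0) (nat_lit 0) (XT.lf (nat_lit 0) (nat_lit 1329501861) (nat_lit 380) (nat_lit 2953701813) (nat_lit 380) (nat_lit 2953701813) (nat_lit 37) (nat_lit 3) (nat_lit 42) (nat_lit 3) (nat_lit 42) (nat_lit 5) (nat_lit 349) (nat_lit 349) (nat_lit 322)) (XT.lf (nat_lit 76) (nat_lit 1393299791) (nat_lit 0) (nat_lit 1820919408) (nat_lit 380) (nat_lit 12291618432) (nat_lit 38)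 (nat_lit 5) (nat_lit 37) (nat_lit 3) (nat_lit 42) (nat_lit 5) (nat_lit 350) (nat_lit 349) (nat_lit 321)))) (XT.nd (nat_lit 78) (nat_lit 0) (nat_lit 0) (XT.lf (nat_lit 0) (nat_lit 4368433402) (nat_lit 304) (nat_lit 6496424441) (nat_lit 380) (nat_lit 5750478023) (nat_lit 38) (nat_lit 5) (nat_lit 42) (nat_lit 5) (nat_lit 43) (nat_lit 5) (nat_lit 351) (nat_lit 349) (nat_lit 320)) (XT.nd (nat_lit 78) (nat_lit 0) (nat_lit 76) (XT.lf (nat_lit 76) (nat_lit 2347348347) (nat_lit 0) (nat_lit 3485733920) (nat_lit 380) (nat_lit 12037602965) (nat_lit 39) (nat_lit 5) (nat_lit 38) (nat_lit 5) (nat_lit 43) (nat_lit 5) (nat_lit 352) (nat_lit 349) (nat_lit 319)) (XT.lf (nat_lit 0) (nat_lit 8038519531) (nat_lit 304) (nat_lit 6280757690) (nat_lit 76) (nat_lit 4916915056) (nat_lit 39) (nat_lit 5) (nat_lit 43) (nat_lit 5) (nat_lit 40) (nat_lit 5) (nat_lit 353) (nat_lit 349) (nat_lit 318))))) (XT.nd (nat_lit 234)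 (nat_lit 304) (nat_lit 0) (XT.nd (nat_lit 78) (nat_lit 152) (nat_lit 0) (XT.lf (nat_lit 0) (nat_lit 4550909879) (nat_lit 304) (nat_lit 6342018911) (nat_lit 380) (nat_lit 9865889592) (nat_lit 35) (nat_lit 5) (nat_lit 39) (nat_lit 5) (nat_lit 40) (nat_lit 5) (nat_lit 354) (nat_lit 349) (nat_lit 317)) (XT.nd (nat_lit 78) (nat_lit 152) (nat_lit 0) (XT.lf (nat_lit 0) (nat_lit 14603645933) (nat_lit 380) (nat_lit 4919979963) (nat_lit 76) (nat_lit 2922004850) (nat_lit 35) (nat_lit 5) (nat_lit 40) (nat_lit 5) (nat_lit 36) (nat_lit 5) (nat_lit 355) (nat_lit 349) (nat_lit 316)) (XT.lf (nat_lit 0) (nat_lit 8479526877) (nat_lit 152) (nat_lit 11015816207) (nat_lit 228) (nat_lit 4796478465) (nat_lit 33) (nat_lit 5) (nat_lit 35) (nat_lit 5) (nat_lit 36) (nat_lit 5) (nat_lit 356) (nat_lit 349) (nat_lit 315)))) (XT.nd (nat_lit 156) (nat_lit 152) (nat_lit 0) (XT.nd (nat_lit 78) (nat_lit 152) (nat_lit 0) (XT.lf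 (nat_lit 0) (nat_lit 24408951121) (nat_lit 152) (nat_lit 942662280) (nat_lit 228) (nat_lit 1028715609) (nat_lit 33) (nat_lit 5) (nat_lit 35) (nat_lit 5) (nat_lit 36) (nat_lit 5) (nat_lit 357) (nat_lit 349) (nat_lit 314)) (XT.lf (nat_lit 0) (nat_lit 4088978708) (nat_lit 152) (nat_lit 14023628094) (nat_lit 76) (nat_lit 10487151298) (nat_lit 31) (nat_lit 5) (nat_lit 33) (nat_lit 5) (nat_lit 32) (nat_lit 5) (nat_lit 358) (nat_lit 349) (nat_lit 313))) (XT.nd (nat_lit 78) (nat_lit 0) (nat_lit 0) (XT.lf (nat_lit 0) (nat_lit 2809394220) (nat_lit 152) (nat_lit 7306362629) (nat_lit 228) (nat_lit 20991991271) (nat_lit 29) (nat_lit 5) (nat_lit 31) (nat_lit 5) (nat_lit 32) (nat_lit 5) (nat_lit 359) (nat_lit 349) (nat_lit 312)) (XT.lf (nat_lit 0) (nat_lit 18005336868) (nat_lit 228) (nat_lit 10419318968) (nat_lit 76) (nat_lit 5423469223) (nat_lit 29) (nat_lit 5) (nat_lit 32) (nat_lit 5) (nat_lit 30) (nat_lit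 4) (nat_lit 360) (nat_lit 349) (nat_lit 311))))))) (XT.nd (nat_lit 1014) (nat_lit 836) (nat_lit 0) (XT.nd (nat_lit 468) (nat_lit 456) (nat_lit 0) (XT.nd (nat_lit 234) (nat_lit 152) (nat_lit 0) (XT.nd (nat_lit 78) (nat_lit 152) (nat_lit 0) (XT.lf (nat_lit 0) (nat_lit 10718468006) (nat_lit 76) (nat_lit 17133186738) (nat_lit 152) (nat_lit 9031914048) (nat_lit 28) (nat_lit 5) (nat_lit 29) (nat_lit 5) (nat_lit 30) (nat_lit 4) (nat_lit 361) (nat_lit 349) (nat_lit 310)) (XT.nd (nat_lit 78) (nat_lit 152) (nat_lit 0) (XT.lf (nat_lit 0) (nat_lit 36169836056) (nat_lit 76) (nat_lit 3532524338) (nat_lit 152) (nat_lit 592857360) (nat_lit 28) (nat_lit 5) (nat_lit 29) (nat_lit 5) (nat_lit 30) (nat_lit 4) (nat_lit 362) (nat_lit 349) (nat_lit 309)) (XT.lf (nat_lit 0) (nat_lit 9795366899) (nat_lit 152) (nat_lit 21734988544) (nat_lit 76) (nat_lit 12407486403) (nat_lit 26) (nat_lit 5) (nat_lit 28) (nat_lit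 5) (nat_lit 27) (nat_lit 4) (nat_lit 363) (nat_lit 349) (nat_lit 308)))) (XT.nd (nat_lit 78) (nat_lit 76) (nat_lit 0) (XT.lf (nat_lit 0) (nat_lit 5067304782) (nat_lit 76) (nat_lit 17202700747) (nat_lit 152) (nat_lit 25764290698) (nat_lit 25) (nat_lit 5) (nat_lit 26) (nat_lit 5) (nat_lit 27) (nat_lit 4) (nat_lit 364) (nat_lit 349) (nat_lit 307)) (XT.nd (nat_lit 78) (nat_lit 76) (nat_lit 0) (XT.lf (nat_lit 0) (nat_lit 37761407869) (nat_lit 152) (nat_lit 14293192750) (nat_lit 0) (nat_lit 518785636) (nat_lit 25) (nat_lit 5) (nat_lit 27) (nat_lit 4) (nat_lit 25) (nat_lit 4) (nat_lit 365) (nat_lit 349) (nat_lit 306)) (XT.lf (nat_lit 0) (nat_lit 19582370496) (nat_lit 76) (nat_lit 37611474339) (nat_lit 76) (nat_lit 356898639) (nat_lit 24) (nat_lit 4) (nat_lit 25) (nat_lit 5) (nat_lit 25) (nat_lit 4) (nat_lit 366) (nat_lit 349) (nat_lit 305))))) (XT.nd (nat_lit 234) (nat_lit 228) (nat_lit 0) (XT.nd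 (nat_lit 78) (nat_lit 152) (nat_lit 0) (XT.lf (nat_lit 0) (nat_lit 15588455818) (nat_lit 152) (nat_lit 3749790010) (nat_lit 76) (nat_lit 43719901800) (nat_lit 23) (nat_lit 5) (nat_lit 25) (nat_lit 5) (nat_lit 24) (nat_lit 4) (nat_lit 367) (nat_lit 349) (nat_lit 304)) (XT.nd (nat_lit 78) (nat_lit 76) (nat_lit 0) (XT.lf (nat_lit 0) (nat_lit 35641486433) (nat_lit 152) (nat_lit 30255461255) (nat_lit 0) (nat_lit 3229305078) (nat_lit 22) (nat_lit 5) (nat_lit 24) (nat_lit 4) (nat_lit 22) (nat_lit 4) (nat_lit 368) (nat_lit 349) (nat_lit 303)) (XT.lf (nat_lit 0) (nat_lit 12382056205) (nat_lit 76) (nat_lit 47948649723) (nat_lit 76) (nat_lit 15529633935) (nat_lit 21) (nat_lit 4) (nat_lit 22) (nat_lit 5) (nat_lit 22) (nat_lit 4) (nat_lit 369) (nat_lit 349) (nat_lit 302)))) (XT.nd (nat_lit 156) (nat_lit 76) (nat_lit 0) (XT.nd (nat_lit 78) (nat_lit 76) (nat_lit 0) (XT.lf (nat_lit 0) (nat_lit 6309302269)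 (nat_lit 152) (nat_lit 18859958894) (nat_lit 76) (nat_lit 58156549961) (nat_lit 20) (nat_lit 5) (nat_lit 22) (nat_lit 5) (nat_lit 21) (nat_lit 4) (nat_lit 370) (nat_lit 349) (nat_lit 301)) (XT.lf (nat_lit 0) (nat_lit 31411502506) (nat_lit 152) (nat_lit 56940678708) (nat_lit 0) (nat_lit 3211392430) (nat_lit 19) (nat_lit 5) (nat_lit 21) (nat_lit 4) (nat_lit 19) (nat_lit 4) (nat_lit 371) (nat_lit 349) (nat_lit 300))) (XT.nd (nat_lit 78) (nat_lit 76) (nat_lit 0) (XT.lf (nat_lit 0) (nat_lit 62501283937) (nat_lit 152) (nat_lit 3905113442) (nat_lit 0) (nat_lit 34297266251) (nat_lit 19) (nat_lit 5) (nat_lit 21) (nat_lit 4) (nat_lit 19) (nat_lit 4) (nat_lit 372) (nat_lit 349) (nat_lit 299)) (XT.lf (nat_lit 0) (nat_lit 62647167044) (nat_lit 76) (nat_lit 38193544730) (nat_lit 76) (nat_lit 9986129122) (nat_lit 18) (nat_lit 4) (nat_lit 19) (nat_lit 5) (nat_lit 19) (nat_lit 4) (nat_lit 373) (nat_lit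 349) (nat_lit 298)))))) (XT.nd (nat_lit 468) (nat_lit 456) (nat_lit 0) (XT.nd (nat_lit 234) (nat_lit 152) (nat_lit 0) (XT.nd (nat_lit 78) (nat_lit 76) (nat_lit 0) (XT.lf (nat_lit 0) (nat_lit 17813368558) (nat_lit 76) (nat_lit 3593021618) (nat_lit 152) (nat_lit 100781045555) (nat_lit 16) (nat_lit 5) (nat_lit 17) (nat_lit 5) (nat_lit 18) (nat_lit 4) (nat_lit 374) (nat_lit 349) (nat_lit 297)) (XT.nd (nat_lit 78) (nat_lit 76) (nat_lit 0) (XT.lf (nat_lit 0) (nat_lit 60614885459) (nat_lit 152) (nat_lit 37864587679) (nat_lit 0) (nat_lit 36081894468) (nat_lit 16) (nat_lit 5) (nat_lit 18) (nat_lit 4) (nat_lit 16) (nat_lit 4) (nat_lit 375) (nat_lit 349) (nat_lit 296)) (XT.lf (nat_lit 0) (nat_lit 42192557014) (nat_lit 76) (nat_lit 65423526090) (nat_lit 76) (nat_lit 40888592327) (nat_lit 15) (nat_lit 4) (nat_lit 16) (nat_lit 5) (nat_lit 16) (nat_lit 4) (nat_lit 376) (nat_lit 349) (nat_lit 295)))) (XT.nd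 (nat_lit 78) (nat_lit 152) (nat_lit 0) (XT.lf (nat_lit 0) (nat_lit 138500436431) (nat_lit 76) (nat_lit 25139869791) (nat_lit 76) (nat_lit 603246661) (nat_lit 15) (nat_lit 4) (nat_lit 16) (nat_lit 5) (nat_lit 16) (nat_lit 4) (nat_lit 377) (nat_lit 349) (nat_lit 294)) (XT.nd (nat_lit 78) (nat_lit 0) (nat_lit 0) (XT.lf (nat_lit 0) (nat_lit 45710980060) (nat_lit 152) (nat_lit 111366244008) (nat_lit 0) (nat_lit 24373508629) (nat_lit 13) (nat_lit 5) (nat_lit 15) (nat_lit 4) (nat_lit 13) (nat_lit 4) (nat_lit 378) (nat_lit 349) (nat_lit 293)) (XT.lf (nat_lit 0) (nat_lit 101511628831) (nat_lit 152) (nat_lit 19159847998) (nat_lit 0) (nat_lit 80173046614) (nat_lit 13) (nat_lit 5) (nat_lit 15) (nat_lit 4) (nat_lit 13) (nat_lit 4) (nat_lit 379) (nat_lit 349) (nat_lit 292))))) (XT.nd (nat_lit 234) (nat_lit 228) (nat_lit 0) (XT.nd (nat_lit 78) (nat_lit 152) (nat_lit 0) (XT.lf (nat_lit 0) (nat_lit 95356186796)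 (nat_lit 76) (nat_lit 74269615130) (nat_lit 76) (nat_lit 52930067011) (nat_lit 12) (nat_lit 4) (nat_lit 13) (nat_lit 5) (nat_lit 13) (nat_lit 4) (nat_lit 380) (nat_lit 349) (nat_lit 291)) (XT.nd (nat_lit 78) (nat_lit 76) (nat_lit 0) (XT.lf (nat_lit 0) (nat_lit 1438792803) (nat_lit 152) (nat_lit 18246983505) (nat_lit 76) (nat_lit 227678823526) (nat_lit 11) (nat_lit 5) (nat_lit 13) (nat_lit 5) (nat_lit 12) (nat_lit 4) (nat_lit 381) (nat_lit 349) (nat_lit 290)) (XT.lf (nat_lit 0) (nat_lit 65420553026) (nat_lit 152) (nat_lit 162201466468) (nat_lit 0) (nat_lit 46863058771) (nat_lit 10) (nat_lit 5) (nat_lit 12) (nat_lit 4) (nat_lit 10) (nat_lit 4) (nat_lit 382) (nat_lit 349) (nat_lit 289)))) (XT.nd (nat_lit 156) (nat_lit 152) (nat_lit 0) (XT.nd (nat_lit 78) (nat_lit 76) (nat_lit 0) (XT.lf (nat_lit 0) (nat_lit 140931855968) (nat_lit 152) (nat_lit 42078121342) (nat_lit 0) (nat_lit 122373809456)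 (nat_lit 10) (nat_lit 5) (nat_lit 12) (nat_lit 4) (nat_lit 10) (nat_lit 4) (nat_lit 383) (nat_lit 349) (nat_lit 288)) (XT.lf (nat_lit 0) (nat_lit 105442954858) (nat_lit 76) (nat_lit 126689259738) (nat_lit 76) (nat_lit 108130733002) (nat_lit 9) (nat_lit 4) (nat_lit 10) (nat_lit 5) (nat_lit 10) (nat_lit 4) (nat_lit 384) (nat_lit 349) (nat_lit 287))) (XT.nd (nat_lit 78) (nat_lit 152) (nat_lit 0) (XT.lf (nat_lit 0) (nat_lit 279813532926) (nat_lit 76) (nat_lit 59395003789) (nat_lit 76) (nat_lit 40836059468) (nat_lit 9) (nat_lit 4) (nat_lit 10) (nat_lit 5) (nat_lit 10) (nat_lit 4) (nat_lit 385) (nat_lit 349) (nat_lit 286)) (XT.lf (nat_lit 0) (nat_lit 36637346128) (nat_lit 152) (nat_lit 367929484639) (nat_lit 0) (nat_lit 20498817920) (nat_lit 7) (nat_lit 5) (nat_lit 9) (nat_lit 4) (nat_lit 7) (nat_lit 4) (nat_lit 386) (nat_lit 349) (nat_lit 285))))))))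
noncomputable def xc64 : XT := (XT.nd (nat_lit 1950) (nat_lit 0) (nat_lit 0) (XT.nd (nat_lit 936) (nat_lit 152) (nat_lit 0) (XT.nd (nat_lit 468) (nat_lit 76) (nat_lit 0) (XT.nd (nat_lit 234) (nat_lit 152) (nat_lit 0) (XT.nd (nat_lit 78) (nat_lit 76) (nat_lit 0) (XT.lf (nat_lit 0) (nat_lit 129864808926) (nat_lit 152) (nat_lit 231710275754) (nat_lit 0) (nat_lit 113726006149) (nat_lit 7) (nat_lit 5) (nat_lit 9) (nat_lit 4) (nat_lit 7) (nat_lit 4) (nat_lit 387) (nat_lit 349) (nat_lit 284)) (XT.nd (nat_lit 78) (nat_lit 76) (nat_lit 0) (XT.lf (nat_lit 0) (nat_lit 237073524681) (nat_lit 152) (nat_lit 75064271479) (nat_lit 0) (nat_lit 220934483147) (nat_lit 7) (nat_lit 5) (nat_lit 9) (nat_lit 4) (nat_lit 7) (nat_lit 4) (nat_lit 388) (nat_lit 349) (nat_lit 283)) (XT.lf (nat_lit 0) (nat_lit 115341872394) (nat_lit 76) (nat_lit 249795243797) (nat_lit 76) (nat_lit 233655994649) (nat_lit 6) (nat_lit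 4) (nat_lit 7) (nat_lit 5) (nat_lit 7) (nat_lit 4) (nat_lit 389) (nat_lit 349) (nat_lit 282)))) (XT.nd (nat_lit 78) (nat_lit 152) (nat_lit 0) (XT.lf (nat_lit 0) (nat_lit 342740086787) (nat_lit 76) (nat_lit 173591597199) (nat_lit 76) (nat_lit 157452167518) (nat_lit 6) (nat_lit 4) (nat_lit 7) (nat_lit 5) (nat_lit 7) (nat_lit 4) (nat_lit 390) (nat_lit 349) (nat_lit 281)) (XT.nd (nat_lit 78) (nat_lit 152) (nat_lit 0) (XT.lf (nat_lit 0) (nat_lit 604243640666) (nat_lit 76) (nat_lit 85959729647) (nat_lit 76) (nat_lit 69820142980) (nat_lit 6) (nat_lit 4) (nat_lit 7) (nat_lit 5) (nat_lit 7) (nat_lit 4) (nat_lit 391) (nat_lit 349) (nat_lit 280)) (XT.lf (nat_lit 0) (nat_lit 30991778265) (nat_lit 152) (nat_lit 810639171507) (nat_lit 0) (nat_lit 16957236371) (nat_lit 4) (nat_lit 5) (nat_lit 6) (nat_lit 4) (nat_lit 4) (nat_lit 4) (nat_lit 392) (nat_lit 349) (nat_lit 279))))) (XT.nd (nat_lit 234) (nat_lit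 76) (nat_lit 0) (XT.nd (nat_lit 78) (nat_lit 0) (nat_lit 0) (XT.lf (nat_lit 0) (nat_lit 152399478704) (nat_lit 152) (nat_lit 678781195778) (nat_lit 0) (nat_lit 138364833590) (nat_lit 4) (nat_lit 5) (nat_lit 6) (nat_lit 4) (nat_lit 4) (nat_lit 4) (nat_lit 393) (nat_lit 349) (nat_lit 278)) (XT.nd (nat_lit 78) (nat_lit 0) (nat_lit 0) (XT.lf (nat_lit 0) (nat_lit 292016700065) (nat_lit 152) (nat_lit 527148008173) (nat_lit 0) (nat_lit 277981965194) (nat_lit 4) (nat_lit 5) (nat_lit 6) (nat_lit 4) (nat_lit 4) (nat_lit 4) (nat_lit 394) (nat_lit 349) (nat_lit 277)) (XT.lf (nat_lit 0) (nat_lit 452575083634) (nat_lit 152) (nat_lit 352772872412) (nat_lit 0) (nat_lit 438540270713) (nat_lit 4) (nat_lit 5) (nat_lit 6) (nat_lit 4) (nat_lit 4) (nat_lit 4) (nat_lit 395) (nat_lit 349) (nat_lit 276)))) (XT.nd (nat_lit 78) (nat_lit 76) (nat_lit 0) (XT.lf (nat_lit 0) (nat_lit 637215989089) (nat_lit 152) (nat_lit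 152244101056) (nat_lit 0) (nat_lit 623181108299) (nat_lit 4) (nat_lit 5) (nat_lit 6) (nat_lit 4) (nat_lit 4) (nat_lit 4) (nat_lit 396) (nat_lit 349) (nat_lit 275)) (XT.nd (nat_lit 78) (nat_lit 0) (nat_lit 0) (XT.lf (nat_lit 0) (nat_lit 86019769626) (nat_lit 76) (nat_lit 767094081482) (nat_lit 76) (nat_lit 753059141675) (nat_lit 3) (nat_lit 4) (nat_lit 4) (nat_lit 5) (nat_lit 4) (nat_lit 4) (nat_lit 397) (nat_lit 349) (nat_lit 274)) (XT.lf (nat_lit 0) (nat_lit 377131194852) (nat_lit 76) (nat_lit 732222387067) (nat_lit 76) (nat_lit 718187395941) (nat_lit 3) (nat_lit 4) (nat_lit 4) (nat_lit 5) (nat_lit 4) (nat_lit 4) (nat_lit 398) (nat_lit 349) (nat_lit 273)))))) (XT.nd (nat_lit 468) (nat_lit 152) (nat_lit 0) (XT.nd (nat_lit 234) (nat_lit 0) (nat_lit 0) (XT.nd (nat_lit 78) (nat_lit 0) (nat_lit 0) (XT.lf (nat_lit 0) (nat_lit 711907432155) (nat_lit 76) (nat_lit 692120948992) (nat_lit 76) (nat_lit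 678085913240) (nat_lit 3) (nat_lit 4) (nat_lit 4) (nat_lit 5) (nat_lit 4) (nat_lit 4) (nat_lit 399) (nat_lit 349) (nat_lit 272)) (XT.nd (nat_lit 78) (nat_lit 0) (nat_lit 0) (XT.lf (nat_lit 0) (nat_lit 1096898451395) (nat_lit 76) (nat_lit 646005173903) (nat_lit 76) (nat_lit 631970099347) (nat_lit 3) (nat_lit 4) (nat_lit 4) (nat_lit 5) (nat_lit 4) (nat_lit 4) (nat_lit 400) (nat_lit 349) (nat_lit 271)) (XT.lf (nat_lit 0) (nat_lit 1539636685558) (nat_lit 76) (nat_lit 592972796636) (nat_lit 76) (nat_lit 578937688337) (nat_lit 3) (nat_lit 4) (nat_lit 4) (nat_lit 5) (nat_lit 4) (nat_lit 4) (nat_lit 401) (nat_lit 349) (nat_lit 270)))) (XT.nd (nat_lit 78) (nat_lit 0) (nat_lit 0) (XT.lf (nat_lit 0) (nat_lit 2048784404441) (nat_lit 76) (nat_lit 531986227200) (nat_lit 76) (nat_lit 517951089559) (nat_lit 3) (nat_lit 4) (nat_lit 4) (nat_lit 5) (nat_lit 4) (nat_lit 4) (nat_lit 402) (nat_lit 349) (nat_lit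 269)) (XT.nd (nat_lit 78) (nat_lit 0) (nat_lit 0) (XT.lf (nat_lit 0) (nat_lit 2634303193851) (nat_lit 76) (nat_lit 461852250107) (nat_lit 76) (nat_lit 447817086952) (nat_lit 3) (nat_lit 4) (nat_lit 4) (nat_lit 5) (nat_lit 4) (nat_lit 4) (nat_lit 403) (nat_lit 349) (nat_lit 268)) (XT.lf (nat_lit 0) (nat_lit 3307648856187) (nat_lit 76) (nat_lit 381198678848) (nat_lit 76) (nat_lit 367163493506) (nat_lit 3) (nat_lit 4) (nat_lit 4) (nat_lit 5) (nat_lit 4) (nat_lit 4) (nat_lit 404) (nat_lit 349) (nat_lit 267))))) (XT.nd (nat_lit 234) (nat_lit 152) (nat_lit 0) (XT.nd (nat_lit 78) (nat_lit 0) (nat_lit 0) (XT.lf (nat_lit 0) (nat_lit 4081995545713) (nat_lit 76) (nat_lit 288447508769) (nat_lit 76) (nat_lit 274412304134) (nat_lit 3) (nat_lit 4) (nat_lit 4) (nat_lit 5) (nat_lit 4) (nat_lit 4) (nat_lit 405) (nat_lit 349) (nat_lit 266)) (XT.nd (nat_lit 78) (nat_lit 0) (nat_lit 0) (XT.lf (nat_lit 0) (nat_lit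 4972493523746) (nat_lit 76) (nat_lit 181784043063) (nat_lit 76) (nat_lit 167748821652) (nat_lit 3) (nat_lit 4) (nat_lit 4) (nat_lit 5) (nat_lit 4) (nat_lit 4) (nat_lit 406) (nat_lit 349) (nat_lit 265)) (XT.lf (nat_lit 0) (nat_lit 5996565576813) (nat_lit 76) (nat_lit 59121387836) (nat_lit 76) (nat_lit 45086151837) (nat_lit 3) (nat_lit 4) (nat_lit 4) (nat_lit 5) (nat_lit 4) (nat_lit 4) (nat_lit 407) (nat_lit 349) (nat_lit 264)))) (XT.nd (nat_lit 156) (nat_lit 0) (nat_lit 0) (XT.nd (nat_lit 78) (nat_lit 0) (nat_lit 0) (XT.lf (nat_lit 0) (nat_lit 99296380175) (nat_lit 152) (nat_lit 6807567798471) (nat_lit 0) (nat_lit 87091816102) (nat_lit 1) (nat_lit 5) (nat_lit 3) (nat_lit 4) (nat_lit 1) (nat_lit 4) (nat_lit 408) (nat_lit 349) (nat_lit 263)) (XT.lf (nat_lit 0) (nat_lit 269241971286) (nat_lit 152) (nat_lit 7493236645534) (nat_lit 0) (nat_lit 257037397621) (nat_lit 1) (nat_lit 5) (nat_lit 3)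 (nat_lit 4) (nat_lit 1) (nat_lit 4) (nat_lit 409) (nat_lit 349) (nat_lit 262))) (XT.nd (nat_lit 78) (nat_lit 0) (nat_lit 0) (XT.lf (nat_lit 0) (nat_lit 464679170556) (nat_lit 152) (nat_lit 8281756312562) (nat_lit 0) (nat_lit 452474588550) (nat_lit 1) (nat_lit 5) (nat_lit 3) (nat_lit 4) (nat_lit 1) (nat_lit 4) (nat_lit 410) (nat_lit 349) (nat_lit 261)) (XT.lf (nat_lit 0) (nat_lit 689431749273) (nat_lit 152) (nat_lit 9188554358258) (nat_lit 0) (nat_lit 677227160014) (nat_lit 1) (nat_lit 5) (nat_lit 3) (nat_lit 4) (nat_lit 1) (nat_lit 4) (nat_lit 411) (nat_lit 349) (nat_lit 260))))))) (XT.nd (nat_lit 1014) (nat_lit 0) (nat_lit 0) (XT.nd (nat_lit 468) (nat_lit 0) (nat_lit 0) (XT.nd (nat_lit 234) (nat_lit 0) (nat_lit 0) (XT.nd (nat_lit 78) (nat_lit 0) (nat_lit 0) (XT.lf (nat_lit 0) (nat_lit 947897040499) (nat_lit 152) (nat_lit 10231372483515) (nat_lit 0) (nat_lit 935692444934) (nat_lit 1) (nat_lit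 5) (nat_lit 3) (nat_lit 4) (nat_lit 1) (nat_lit 4) (nat_lit 412) (nat_lit 349) (nat_lit 259)) (XT.nd (nat_lit 78) (nat_lit 0) (nat_lit 0) (XT.lf (nat_lit 0) (nat_lit 1245131973847) (nat_lit 152) (nat_lit 11430613651655) (nat_lit 0) (nat_lit 1232927372797) (nat_lit 1) (nat_lit 5) (nat_lit 3) (nat_lit 4) (nat_lit 1) (nat_lit 4) (nat_lit 413) (nat_lit 349) (nat_lit 258)) (XT.lf (nat_lit 0) (nat_lit 1586952015402) (nat_lit 152) (nat_lit 12809741276836) (nat_lit 0) (nat_lit 1574747409584) (nat_lit 1) (nat_lit 5) (nat_lit 3) (nat_lit 4) (nat_lit 1) (nat_lit 4) (nat_lit 414) (nat_lit 349) (nat_lit 257)))) (XT.nd (nat_lit 78) (nat_lit 0) (nat_lit 0) (XT.lf (nat_lit 0) (nat_lit 1980044948588) (nat_lit 152) (nat_lit 14395738290855) (nat_lit 0) (nat_lit 1967840338622) (nat_lit 1) (nat_lit 5) (nat_lit 3) (nat_lit 4) (nat_lit 1) (nat_lit 4) (nat_lit 415) (nat_lit 349) (nat_lit 256)) (XT.nd (nat_lit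 78) (nat_lit 0) (nat_lit 0) (XT.lf (nat_lit 0) (nat_lit 2432101722095) (nat_lit 152) (nat_lit 16219635070074) (nat_lit 0) (nat_lit 2419897108524) (nat_lit 1) (nat_lit 5) (nat_lit 3) (nat_lit 4) (nat_lit 1) (nat_lit 4) (nat_lit 416) (nat_lit 349) (nat_lit 255)) (XT.lf (nat_lit 0) (nat_lit 2951966924973) (nat_lit 152) (nat_lit 18317116551478) (nat_lit 0) (nat_lit 2939762308265) (nat_lit 1) (nat_lit 5) (nat_lit 3) (nat_lit 4) (nat_lit 1) (nat_lit 4) (nat_lit 417) (nat_lit 349) (nat_lit 254))))) (XT.nd (nat_lit 234) (nat_lit 0) (nat_lit 0) (XT.nd (nat_lit 78) (nat_lit 0) (nat_lit 0) (XT.lf (nat_lit 0) (nat_lit 3549811832927) (nat_lit 152) (nat_lit 20729220416223) (nat_lit 0) (nat_lit 3537607213494) (nat_lit 1) (nat_lit 5) (nat_lit 3) (nat_lit 4) (nat_lit 1) (nat_lit 4) (nat_lit 418) (nat_lit 349) (nat_lit 253)) (XT.nd (nat_lit 78) (nat_lit 0) (nat_lit 0) (XT.lf (nat_lit 0) (nat_lit 4237333411551)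 (nat_lit 152) (nat_lit 23503140000795) (nat_lit 0) (nat_lit 4225128789746) (nat_lit 1) (nat_lit 5) (nat_lit 3) (nat_lit 4) (nat_lit 1) (nat_lit 4) (nat_lit 419) (nat_lit 349) (nat_lit 252)) (XT.lf (nat_lit 0) (nat_lit 5027983169989) (nat_lit 152) (nat_lit 26693147644891) (nat_lit 0) (nat_lit 5015778546122) (nat_lit 1) (nat_lit 5) (nat_lit 3) (nat_lit 4) (nat_lit 1) (nat_lit 4) (nat_lit 420) (nat_lit 349) (nat_lit 251)))) (XT.nd (nat_lit 156) (nat_lit 0) (nat_lit 0) (XT.nd (nat_lit 78) (nat_lit 0) (nat_lit 0) (XT.lf (nat_lit 0) (nat_lit 5937230342647) (nat_lit 152) (nat_lit 30361656541549) (nat_lit 0) (nat_lit 5925025716987) (nat_lit 1) (nat_lit 5) (nat_lit 3) (nat_lit 4) (nat_lit 1) (nat_lit 4) (nat_lit 421) (nat_lit 349) (nat_lit 250)) (XT.lf (nat_lit 0) (nat_lit 6982864548119) (nat_lit 152) (nat_lit 34580441864833) (nat_lit 0) (nat_lit 6970659920901) (nat_lit 1) (nat_lit 5) (nat_lit 3)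 (nat_lit 4) (nat_lit 1) (nat_lit 4) (nat_lit 422) (nat_lit 349) (nat_lit 249))) (XT.nd (nat_lit 78) (nat_lit 0) (nat_lit 0) (XT.lf (nat_lit 0) (nat_lit 8185343846949) (nat_lit 152) (nat_lit 39432045066721) (nat_lit 0) (nat_lit 8173139218375) (nat_lit 1) (nat_lit 5) (nat_lit 3) (nat_lit 4) (nat_lit 1) (nat_lit 4) (nat_lit 423) (nat_lit 349) (nat_lit 248)) (XT.lf (nat_lit 0) (nat_lit 9568195008025) (nat_lit 152) (nat_lit 45011388818553) (nat_lit 0) (nat_lit 9555990378273) (nat_lit 1) (nat_lit 5) (nat_lit 3) (nat_lit 4) (nat_lit 1) (nat_lit 4) (nat_lit 424) (nat_lit 349) (nat_lit 247)))))) (XT.nd (nat_lit 468) (nat_lit 0) (nat_lit 0) (XT.nd (nat_lit 234) (nat_lit 0) (nat_lit 0) (XT.nd (nat_lit 78) (nat_lit 0) (nat_lit 0) (XT.lf (nat_lit 0) (nat_lit 11158473814935) (nat_lit 152) (nat_lit 51427634193735) (nat_lit 0) (nat_lit 11146269184157) (nat_lit 1) (nat_lit 5) (nat_lit 3) (nat_lit 4) (nat_lit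 1) (nat_lit 4) (nat_lit 425) (nat_lit 349) (nat_lit 246)) (XT.nd (nat_lit 78) (nat_lit 0) (nat_lit 0) (XT.lf (nat_lit 0) (nat_lit 12987294418248) (nat_lit 152) (nat_lit 58806316427870) (nat_lit 0) (nat_lit 12975089786579) (nat_lit 1) (nat_lit 5) (nat_lit 3) (nat_lit 4) (nat_lit 1) (nat_lit 4) (nat_lit 426) (nat_lit 349) (nat_lit 245)) (XT.lf (nat_lit 0) (nat_lit 15090438090637) (nat_lit 152) (nat_lit 67291801042928) (nat_lit 0) (nat_lit 15078233458193) (nat_lit 1) (nat_lit 5) (nat_lit 3) (nat_lit 4) (nat_lit 1) (nat_lit 4) (nat_lit 427) (nat_lit 349) (nat_lit 244)))) (XT.nd (nat_lit 78) (nat_lit 0) (nat_lit 0) (XT.lf (nat_lit 0) (nat_lit 17509053295259) (nat_lit 152) (nat_lit 77050108390073) (nat_lit 0) (nat_lit 17496848662141) (nat_lit 1) (nat_lit 5) (nat_lit 3) (nat_lit 4) (nat_lit 1) (nat_lit 4) (nat_lit 428) (nat_lit 349) (nat_lit 243)) (XT.nd (nat_lit 78) (nat_lit 0) (nat_lit 0) (XT.lf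 (nat_lit 0) (nat_lit 20290460764377) (nat_lit 152) (nat_lit 88272161873925) (nat_lit 0) (nat_lit 20278256130673) (nat_lit 1) (nat_lit 5) (nat_lit 3) (nat_lit 4) (nat_lit 1) (nat_lit 4) (nat_lit 429) (nat_lit 349) (nat_lit 242)) (XT.lf (nat_lit 0) (nat_lit 23489079339779) (nat_lit 152) (nat_lit 101177523410472) (nat_lit 0) (nat_lit 23476874705565) (nat_lit 1) (nat_lit 5) (nat_lit 3) (nat_lit 4) (nat_lit 1) (nat_lit 4) (nat_lit 430) (nat_lit 349) (nat_lit 241))))) (XT.nd (nat_lit 234) (nat_lit 0) (nat_lit 0) (XT.nd (nat_lit 78) (nat_lit 0) (nat_lit 0) (XT.lf (nat_lit 0) (nat_lit 27167490689244) (nat_lit 152) (nat_lit 116018689203689) (nat_lit 0) (nat_lit 27155286054587) (nat_lit 1) (nat_lit 5) (nat_lit 3) (nat_lit 4) (nat_lit 1) (nat_lit 4) (nat_lit 431) (nat_lit 349) (nat_lit 240)) (XT.nd (nat_lit 78) (nat_lit 0) (nat_lit 0) (XT.lf (nat_lit 0) (nat_lit 31397663730479) (nat_lit 152) (nat_lit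 133086029888661) (nat_lit 0) (nat_lit 31385459095436) (nat_lit 1) (nat_lit 5) (nat_lit 3) (nat_lit 4) (nat_lit 1) (nat_lit 4) (nat_lit 432) (nat_lit 349) (nat_lit 239)) (XT.lf (nat_lit 0) (nat_lit 36262362718638) (nat_lit 152) (nat_lit 152713471696181) (nat_lit 0) (nat_lit 36250158083261) (nat_lit 1) (nat_lit 5) (nat_lit 3) (nat_lit 4) (nat_lit 1) (nat_lit 4) (nat_lit 433) (nat_lit 349) (nat_lit 238)))) (XT.nd (nat_lit 46566) (nat_lit 0) (nat_lit 2736) (XT.nd (nat_lit 78) (nat_lit 0) (nat_lit 0) (XT.lf (nat_lit 0) (nat_lit 41856766546969) (nat_lit 152) (nat_lit 175285029792048) (nat_lit 0) (nat_lit 41844561911300) (nat_lit 1) (nat_lit 5) (nat_lit 3) (nat_lit 4) (nat_lit 1) (nat_lit 4) (nat_lit 434) (nat_lit 349) (nat_lit 237)) (XT.lf (nat_lit 0) (nat_lit 48290330942547) (nat_lit 152) (nat_lit 201242321617268) (nat_lit 0) (nat_lit 48278126306625) (nat_lit 1) (nat_lit 5) (nat_lit 3) (nat_lit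 4) (nat_lit 1) (nat_lit 4) (nat_lit 435) (nat_lit 349) (nat_lit 236))) (XT.nd (nat_lit 78) (nat_lit 0) (nat_lit 0) (XT.lf (nat_lit 0) (nat_lit 1814680220) (nat_lit 380) (nat_lit 3232381657) (nat_lit 380) (nat_lit 3232381657) (nat_lit 37) (nat_lit 3) (nat_lit 42) (nat_lit 3) (nat_lit 42) (nat_lit 5) (nat_lit 350) (nat_lit 350) (nat_lit 320)) (XT.lf (nat_lit 76) (nat_lit 1916102395) (nat_lit 0) (nat_lit 2290205668) (nat_lit 380) (nat_lit 13548677357) (nat_lit 38) (nat_lit 5) (nat_lit 37) (nat_lit 3) (nat_lit 42) (nat_lit 5) (nat_lit 351) (nat_lit 350) (nat_lit 319))))))))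
noncomputable def xc65 : XT := (XT.nd (nat_lit 1950) (nat_lit 988) (nat_lit 0) (XT.nd (nat_lit 936) (nat_lit 912) (nat_lit 0) (XT.nd (nat_lit 468) (nat_lit 380) (nat_lit 0) (XT.nd (nat_lit 234) (nat_lit 380) (nat_lit 0) (XT.nd (nat_lit 78) (nat_lit 0) (nat_lit 0) (XT.lf (nat_lit 0) (nat_lit 5460075716) (nat_lit 304) (nat_lit 7124229345) (nat_lit 380) (nat_lit 6457670713) (nat_lit 38) (nat_lit 5) (nat_lit 42) (nat_lit 5) (nat_lit 43) (nat_lit 5) (nat_lit 352) (nat_lit 350) (nat_lit 318)) (XT.nd (nat_lit 78) (nat_lit 0) (nat_lit 76) (XT.lf (nat_lit 76) (nat_lit 3030352146) (nat_lit 0) (nat_lit 4070852915) (nat_lit 380) (nat_lit 13390931605) (nat_lit 39) (nat_lit 5) (nat_lit 38) (nat_lit 5) (nat_lit 43) (nat_lit 5) (nat_lit 353) (nat_lit 350) (nat_lit 317)) (XT.lf (nat_lit 0) (nat_lit 9583934368) (nat_lit 304) (nat_lit 6881453164) (nat_lit 76) (nat_lit 5605133890) (nat_lit 39) (nat_lit 5)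 (nat_lit 43) (nat_lit 5) (nat_lit 40) (nat_lit 5) (nat_lit 354) (nat_lit 350) (nat_lit 316)))) (XT.nd (nat_lit 78) (nat_lit 152) (nat_lit 0) (XT.lf (nat_lit 0) (nat_lit 5559445533) (nat_lit 304) (nat_lit 7276253807) (nat_lit 380) (nat_lit 10990483062) (nat_lit 35) (nat_lit 5) (nat_lit 39) (nat_lit 5) (nat_lit 40) (nat_lit 5) (nat_lit 355) (nat_lit 350) (nat_lit 315)) (XT.nd (nat_lit 78) (nat_lit 152) (nat_lit 0) (XT.lf (nat_lit 0) (nat_lit 17063356282) (nat_lit 380) (nat_lit 5334802035) (nat_lit 76) (nat_lit 3373825955) (nat_lit 35) (nat_lit 5) (nat_lit 40) (nat_lit 5) (nat_lit 36) (nat_lit 5) (nat_lit 356) (nat_lit 350) (nat_lit 314)) (XT.lf (nat_lit 0) (nat_lit 10059941062) (nat_lit 152) (nat_lit 12606532379) (nat_lit 228) (nat_lit 5231995643) (nat_lit 33) (nat_lit 5) (nat_lit 35) (nat_lit 5) (nat_lit 36) (nat_lit 5) (nat_lit 357) (nat_lit 350) (nat_lit 313))))) (XT.nd (nat_lit 234) (nat_lit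 76) (nat_lit 0) (XT.nd (nat_lit 78) (nat_lit 304) (nat_lit 0) (XT.lf (nat_lit 0) (nat_lit 28338541749) (nat_lit 152) (nat_lit 1030447483) (nat_lit 228) (nat_lit 936105915) (nat_lit 33) (nat_lit 5) (nat_lit 35) (nat_lit 5) (nat_lit 36) (nat_lit 5) (nat_lit 358) (nat_lit 350) (nat_lit 312)) (XT.nd (nat_lit 78) (nat_lit 152) (nat_lit 0) (XT.lf (nat_lit 0) (nat_lit 4912295801) (nat_lit 152) (nat_lit 15821834305) (nat_lit 76) (nat_lit 12124029518) (nat_lit 31) (nat_lit 5) (nat_lit 33) (nat_lit 5) (nat_lit 32) (nat_lit 5) (nat_lit 359) (nat_lit 350) (nat_lit 311)) (XT.lf (nat_lit 0) (nat_lit 3522262355) (nat_lit 152) (nat_lit 8305509575) (nat_lit 228) (nat_lit 23916882720) (nat_lit 29) (nat_lit 5) (nat_lit 31) (nat_lit 5) (nat_lit 32) (nat_lit 5) (nat_lit 360) (nat_lit 350) (nat_lit 310)))) (XT.nd (nat_lit 78) (nat_lit 76) (nat_lit 0) (XT.lf (nat_lit 0) (nat_lit 20878885350) (nat_lit 228) (nat_lit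 11706820204) (nat_lit 76) (nat_lit 6313675676) (nat_lit 29) (nat_lit 5) (nat_lit 32) (nat_lit 5) (nat_lit 30) (nat_lit 4) (nat_lit 361) (nat_lit 350) (nat_lit 309)) (XT.nd (nat_lit 78) (nat_lit 0) (nat_lit 0) (XT.lf (nat_lit 0) (nat_lit 12589116788) (nat_lit 76) (nat_lit 19601387019) (nat_lit 152) (nat_lit 10201391355) (nat_lit 28) (nat_lit 5) (nat_lit 29) (nat_lit 5) (nat_lit 30) (nat_lit 4) (nat_lit 362) (nat_lit 350) (nat_lit 308)) (XT.lf (nat_lit 0) (nat_lit 41823901535) (nat_lit 76) (nat_lit 3973900614) (nat_lit 152) (nat_lit 520647007) (nat_lit 28) (nat_lit 5) (nat_lit 29) (nat_lit 5) (nat_lit 30) (nat_lit 4) (nat_lit 363) (nat_lit 350) (nat_lit 307)))))) (XT.nd (nat_lit 468) (nat_lit 456) (nat_lit 0) (XT.nd (nat_lit 234) (nat_lit 228) (nat_lit 0) (XT.nd (nat_lit 78) (nat_lit 76) (nat_lit 0) (XT.lf (nat_lit 0) (nat_lit 11405842047) (nat_lit 152) (nat_lit 24746615962) (nat_lit 76)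 (nat_lit 14354855784) (nat_lit 26) (nat_lit 5) (nat_lit 28) (nat_lit 5) (nat_lit 27) (nat_lit 4) (nat_lit 364) (nat_lit 350) (nat_lit 306)) (XT.nd (nat_lit 78) (nat_lit 0) (nat_lit 0) (XT.lf (nat_lit 0) (nat_lit 6064720415) (nat_lit 76) (nat_lit 19678369475) (nat_lit 152) (nat_lit 29476438187) (nat_lit 25) (nat_lit 5) (nat_lit 26) (nat_lit 5) (nat_lit 27) (nat_lit 4) (nat_lit 365) (nat_lit 350) (nat_lit 305)) (XT.lf (nat_lit 0) (nat_lit 43544680303) (nat_lit 152) (nat_lit 16217262454) (nat_lit 0) (nat_lit 679570462) (nat_lit 25) (nat_lit 5) (nat_lit 27) (nat_lit 4) (nat_lit 25) (nat_lit 4) (nat_lit 366) (nat_lit 350) (nat_lit 304)))) (XT.nd (nat_lit 78) (nat_lit 152) (nat_lit 0) (XT.lf (nat_lit 0) (nat_lit 22729639406) (nat_lit 76) (nat_lit 43155505743) (nat_lit 76) (nat_lit 281357363) (nat_lit 24) (nat_lit 4) (nat_lit 25) (nat_lit 5) (nat_lit 25) (nat_lit 4) (nat_lit 367) (nat_lit 350)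 (nat_lit 303)) (XT.nd (nat_lit 78) (nat_lit 76) (nat_lit 0) (XT.lf (nat_lit 0) (nat_lit 18028971867) (nat_lit 152) (nat_lit 4119718464) (nat_lit 76) (nat_lit 50352827964) (nat_lit 23) (nat_lit 5) (nat_lit 25) (nat_lit 5) (nat_lit 24) (nat_lit 4) (nat_lit 368) (nat_lit 350) (nat_lit 302)) (XT.lf (nat_lit 0) (nat_lit 41087844237) (nat_lit 152) (nat_lit 34599115101) (nat_lit 0) (nat_lit 3793198661) (nat_lit 22) (nat_lit 5) (nat_lit 24) (nat_lit 4) (nat_lit 22) (nat_lit 4) (nat_lit 369) (nat_lit 350) (nat_lit 301))))) (XT.nd (nat_lit 234) (nat_lit 228) (nat_lit 0) (XT.nd (nat_lit 78) (nat_lit 152) (nat_lit 0) (XT.lf (nat_lit 0) (nat_lit 14425181553) (nat_lit 76) (nat_lit 55049898320) (nat_lit 76) (nat_lit 17750084930) (nat_lit 21) (nat_lit 4) (nat_lit 22) (nat_lit 5) (nat_lit 22) (nat_lit 4) (nat_lit 370) (nat_lit 350) (nat_lit 300)) (XT.nd (nat_lit 78) (nat_lit 76) (nat_lit 0) (XT.lf (nat_lit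 0) (nat_lit 7342037338) (nat_lit 152) (nat_lit 21518926863) (nat_lit 76) (nat_lit 66950759442) (nat_lit 20) (nat_lit 5) (nat_lit 22) (nat_lit 5) (nat_lit 21) (nat_lit 4) (nat_lit 371) (nat_lit 350) (nat_lit 299)) (XT.lf (nat_lit 0) (nat_lit 36208359589) (nat_lit 152) (nat_lit 65310539505) (nat_lit 0) (nat_lit 3766433719) (nat_lit 19) (nat_lit 5) (nat_lit 21) (nat_lit 4) (nat_lit 19) (nat_lit 4) (nat_lit 372) (nat_lit 350) (nat_lit 298)))) (XT.nd (nat_lit 156) (nat_lit 152) (nat_lit 0) (XT.nd (nat_lit 78) (nat_lit 76) (nat_lit 0) (XT.lf (nat_lit 0) (nat_lit 71950504099) (nat_lit 152) (nat_lit 4341975233) (nat_lit 0) (nat_lit 39505623514) (nat_lit 19) (nat_lit 5) (nat_lit 21) (nat_lit 4) (nat_lit 19) (nat_lit 4) (nat_lit 373) (nat_lit 350) (nat_lit 297)) (XT.lf (nat_lit 0) (nat_lit 72186378906) (nat_lit 76) (nat_lit 43850697016) (nat_lit 76) (nat_lit 11403247115) (nat_lit 18) (nat_lit 4)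 (nat_lit 19) (nat_lit 5) (nat_lit 19) (nat_lit 4) (nat_lit 374) (nat_lit 350) (nat_lit 296))) (XT.nd (nat_lit 78) (nat_lit 0) (nat_lit 0) (XT.lf (nat_lit 0) (nat_lit 20627920874) (nat_lit 76) (nat_lit 4059337248) (nat_lit 152) (nat_lit 115817802483) (nat_lit 16) (nat_lit 5) (nat_lit 17) (nat_lit 5) (nat_lit 18) (nat_lit 4) (nat_lit 375) (nat_lit 350) (nat_lit 295)) (XT.lf (nat_lit 0) (nat_lit 69770524528) (nat_lit 152) (nat_lit 43413815180) (nat_lit 0) (nat_lit 41551718561) (nat_lit 16) (nat_lit 5) (nat_lit 18) (nat_lit 4) (nat_lit 16) (nat_lit 4) (nat_lit 376) (nat_lit 350) (nat_lit 294))))))) (XT.nd (nat_lit 1014) (nat_lit 304) (nat_lit 0) (XT.nd (nat_lit 468) (nat_lit 304) (nat_lit 0) (XT.nd (nat_lit 234) (nat_lit 152) (nat_lit 0) (XT.nd (nat_lit 78) (nat_lit 152) (nat_lit 0) (XT.lf (nat_lit 0) (nat_lit 48645971188) (nat_lit 76) (nat_lit 75172816799) (nat_lit 76) (nat_lit 46952541817)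 (nat_lit 15) (nat_lit 4) (nat_lit 16) (nat_lit 5) (nat_lit 16) (nat_lit 4) (nat_lit 377) (nat_lit 350) (nat_lit 293)) (XT.nd (nat_lit 78) (nat_lit 152) (nat_lit 0) (XT.lf (nat_lit 0) (nat_lit 159383789393) (nat_lit 76) (nat_lit 28854990952) (nat_lit 76) (nat_lit 633438565) (nat_lit 15) (nat_lit 4) (nat_lit 16) (nat_lit 5) (nat_lit 16) (nat_lit 4) (nat_lit 378) (nat_lit 350) (nat_lit 292)) (XT.lf (nat_lit 0) (nat_lit 52622210883) (nat_lit 152) (nat_lit 127957177478) (nat_lit 0) (nat_lit 28080764645) (nat_lit 13) (nat_lit 5) (nat_lit 15) (nat_lit 4) (nat_lit 13) (nat_lit 4) (nat_lit 379) (nat_lit 350) (nat_lit 291)))) (XT.nd (nat_lit 78) (nat_lit 152) (nat_lit 0) (XT.lf (nat_lit 0) (nat_lit 116785837342) (nat_lit 152) (nat_lit 21934692040) (nat_lit 0) (nat_lit 92243551190) (nat_lit 13) (nat_lit 5) (nat_lit 15) (nat_lit 4) (nat_lit 13) (nat_lit 4) (nat_lit 380) (nat_lit 350) (nat_lit 290))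 (XT.nd (nat_lit 78) (nat_lit 76) (nat_lit 0) (XT.lf (nat_lit 0) (nat_lit 109754241921) (nat_lit 76) (nat_lit 85360621806) (nat_lit 76) (nat_lit 60817605294) (nat_lit 12) (nat_lit 4) (nat_lit 13) (nat_lit 5) (nat_lit 13) (nat_lit 4) (nat_lit 381) (nat_lit 350) (nat_lit 289)) (XT.lf (nat_lit 0) (nat_lit 1695781187) (nat_lit 152) (nat_lit 20897722054) (nat_lit 76) (nat_lit 261869609991) (nat_lit 11) (nat_lit 5) (nat_lit 13) (nat_lit 5) (nat_lit 12) (nat_lit 4) (nat_lit 382) (nat_lit 350) (nat_lit 288))))) (XT.nd (nat_lit 234) (nat_lit 152) (nat_lit 0) (XT.nd (nat_lit 78) (nat_lit 76) (nat_lit 0) (XT.lf (nat_lit 0) (nat_lit 75274634715) (nat_lit 152) (nat_lit 186445205728) (nat_lit 0) (nat_lit 53931848745) (nat_lit 10) (nat_lit 5) (nat_lit 12) (nat_lit 4) (nat_lit 10) (nat_lit 4) (nat_lit 383) (nat_lit 350) (nat_lit 287)) (XT.nd (nat_lit 78) (nat_lit 76) (nat_lit 0) (XT.lf (nat_lit 0) (nat_lit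 162107285437) (nat_lit 152) (nat_lit 48314638925) (nat_lit 0) (nat_lit 140764081882) (nat_lit 10) (nat_lit 5) (nat_lit 12) (nat_lit 4) (nat_lit 10) (nat_lit 4) (nat_lit 384) (nat_lit 350) (nat_lit 286)) (XT.lf (nat_lit 0) (nat_lit 121331180495) (nat_lit 76) (nat_lit 145654839581) (nat_lit 76) (nat_lit 124311272908) (nat_lit 9) (nat_lit 4) (nat_lit 10) (nat_lit 5) (nat_lit 10) (nat_lit 4) (nat_lit 385) (nat_lit 350) (nat_lit 285)))) (XT.nd (nat_lit 156) (nat_lit 0) (nat_lit 0) (XT.nd (nat_lit 78) (nat_lit 152) (nat_lit 0) (XT.lf (nat_lit 0) (nat_lit 321847982350) (nat_lit 76) (nat_lit 68271376864) (nat_lit 76) (nat_lit 46927494435) (nat_lit 9) (nat_lit 4) (nat_lit 10) (nat_lit 5) (nat_lit 10) (nat_lit 4) (nat_lit 386) (nat_lit 350) (nat_lit 284)) (XT.lf (nat_lit 0) (nat_lit 42163812522) (nat_lit 152) (nat_lit 423053377295) (nat_lit 0) (nat_lit 23603676002) (nat_lit 7) (nat_lit 5) (nat_lit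 9) (nat_lit 4) (nat_lit 7) (nat_lit 4) (nat_lit 387) (nat_lit 350) (nat_lit 283))) (XT.nd (nat_lit 78) (nat_lit 0) (nat_lit 0) (XT.lf (nat_lit 0) (nat_lit 149371368939) (nat_lit 152) (nat_lit 266409834474) (nat_lit 0) (nat_lit 130811024805) (nat_lit 7) (nat_lit 5) (nat_lit 9) (nat_lit 4) (nat_lit 7) (nat_lit 4) (nat_lit 388) (nat_lit 350) (nat_lit 282)) (XT.lf (nat_lit 0) (nat_lit 272657891360) (nat_lit 152) (nat_lit 86274362076) (nat_lit 0) (nat_lit 254097366693) (nat_lit 7) (nat_lit 5) (nat_lit 9) (nat_lit 4) (nat_lit 7) (nat_lit 4) (nat_lit 389) (nat_lit 350) (nat_lit 281)))))) (XT.nd (nat_lit 468) (nat_lit 76) (nat_lit 0) (XT.nd (nat_lit 234) (nat_lit 152) (nat_lit 0) (XT.nd (nat_lit 78) (nat_lit 0) (nat_lit 0) (XT.lf (nat_lit 0) (nat_lit 132690451100) (nat_lit 76) (nat_lit 287239484916) (nat_lit 76) (nat_lit 268678803262) (nat_lit 6) (nat_lit 4) (nat_lit 7) (nat_lit 5) (nat_lit 7)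 (nat_lit 4) (nat_lit 390) (nat_lit 350) (nat_lit 280)) (XT.nd (nat_lit 78) (nat_lit 0) (nat_lit 0) (XT.lf (nat_lit 0) (nat_lit 394192228367) (nat_lit 76) (nat_lit 199608558127) (nat_lit 76) (nat_lit 181047739963) (nat_lit 6) (nat_lit 4) (nat_lit 7) (nat_lit 5) (nat_lit 7) (nat_lit 4) (nat_lit 391) (nat_lit 350) (nat_lit 279)) (XT.lf (nat_lit 0) (nat_lit 694915950732) (nat_lit 76) (nat_lit 98834751136) (nat_lit 76) (nat_lit 80273814269) (nat_lit 6) (nat_lit 4) (nat_lit 7) (nat_lit 5) (nat_lit 7) (nat_lit 4) (nat_lit 392) (nat_lit 350) (nat_lit 278)))) (XT.nd (nat_lit 78) (nat_lit 0) (nat_lit 0) (XT.lf (nat_lit 0) (nat_lit 35658140567) (nat_lit 152) (nat_lit 932197528267) (nat_lit 0) (nat_lit 19518105708) (nat_lit 4) (nat_lit 5) (nat_lit 6) (nat_lit 4) (nat_lit 4) (nat_lit 4) (nat_lit 393) (nat_lit 350) (nat_lit 277)) (XT.nd (nat_lit 78) (nat_lit 0) (nat_lit 0) (XT.lf (nat_lit 0) (nat_lit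 175274701000) (nat_lit 152) (nat_lit 780565749957) (nat_lit 0) (nat_lit 159134588091) (nat_lit 4) (nat_lit 5) (nat_lit 6) (nat_lit 4) (nat_lit 4) (nat_lit 4) (nat_lit 394) (nat_lit 350) (nat_lit 276)) (XT.lf (nat_lit 0) (nat_lit 335832509848) (nat_lit 152) (nat_lit 606191839670) (nat_lit 0) (nat_lit 319692329070) (nat_lit 4) (nat_lit 5) (nat_lit 6) (nat_lit 4) (nat_lit 4) (nat_lit 4) (nat_lit 395) (nat_lit 350) (nat_lit 275))))) (XT.nd (nat_lit 234) (nat_lit 0) (nat_lit 0) (XT.nd (nat_lit 78) (nat_lit 76) (nat_lit 0) (XT.lf (nat_lit 0) (nat_lit 520472915547) (nat_lit 152) (nat_lit 405664133944) (nat_lit 0) (nat_lit 504332675752) (nat_lit 4) (nat_lit 5) (nat_lit 6) (nat_lit 4) (nat_lit 4) (nat_lit 4) (nat_lit 396) (nat_lit 350) (nat_lit 274)) (XT.nd (nat_lit 78) (nat_lit 76) (nat_lit 0) (XT.lf (nat_lit 0) (nat_lit 732808447773) (nat_lit 152) (nat_lit 175059264624) (nat_lit 0) (nat_lit 716668156659)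 (nat_lit 4) (nat_lit 5) (nat_lit 6) (nat_lit 4) (nat_lit 4) (nat_lit 4) (nat_lit 397) (nat_lit 350) (nat_lit 273)) (XT.lf (nat_lit 0) (nat_lit 98943211589) (nat_lit 76) (nat_lit 882147313179) (nat_lit 76) (nat_lit 866006977440) (nat_lit 3) (nat_lit 4) (nat_lit 4) (nat_lit 5) (nat_lit 4) (nat_lit 4) (nat_lit 398) (nat_lit 350) (nat_lit 272)))) (XT.nd (nat_lit 156) (nat_lit 0) (nat_lit 0) (XT.nd (nat_lit 78) (nat_lit 0) (nat_lit 0) (XT.lf (nat_lit 0) (nat_lit 433718679748) (nat_lit 76) (nat_lit 842046283801) (nat_lit 76) (nat_lit 825905909257) (nat_lit 3) (nat_lit 4) (nat_lit 4) (nat_lit 5) (nat_lit 4) (nat_lit 4) (nat_lit 399) (nat_lit 350) (nat_lit 271)) (XT.lf (nat_lit 0) (nat_lit 818709030168) (nat_lit 76) (nat_lit 795930864100) (nat_lit 76) (nat_lit 779790455813) (nat_lit 3) (nat_lit 4) (nat_lit 4) (nat_lit 5) (nat_lit 4) (nat_lit 4) (nat_lit 400) (nat_lit 350) (nat_lit 270))) (XT.nd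 (nat_lit 78) (nat_lit 0) (nat_lit 0) (XT.lf (nat_lit 0) (nat_lit 1261446682748) (nat_lit 76) (nat_lit 742898795866) (nat_lit 76) (nat_lit 726758358238) (nat_lit 3) (nat_lit 4) (nat_lit 4) (nat_lit 5) (nat_lit 4) (nat_lit 4) (nat_lit 401) (nat_lit 350) (nat_lit 269)) (XT.lf (nat_lit 0) (nat_lit 1770593895907) (nat_lit 76) (nat_lit 681912495155) (nat_lit 76) (nat_lit 665772032012) (nat_lit 3) (nat_lit 4) (nat_lit 4) (nat_lit 5) (nat_lit 4) (nat_lit 4) (nat_lit 402) (nat_lit 350) (nat_lit 268))))))))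
noncomputable def xc66 : XT := (XT.nd (nat_lit 1950) (nat_lit 0) (nat_lit 0) (XT.nd (nat_lit 936) (nat_lit 0) (nat_lit 0) (XT.nd (nat_lit 468) (nat_lit 152) (nat_lit 0) (XT.nd (nat_lit 234) (nat_lit 0) (nat_lit 0) (XT.nd (nat_lit 78) (nat_lit 0) (nat_lit 0) (XT.lf (nat_lit 0) (nat_lit 2356112245556) (nat_lit 76) (nat_lit 611778751736) (nat_lit 76) (nat_lit 595638266406) (nat_lit 3) (nat_lit 4) (nat_lit 4) (nat_lit 5) (nat_lit 4) (nat_lit 4) (nat_lit 403) (nat_lit 350) (nat_lit 267)) (XT.nd (nat_lit 78) (nat_lit 0) (nat_lit 0) (XT.lf (nat_lit 0) (nat_lit 3029457525492) (nat_lit 76) (nat_lit 531125383672) (nat_lit 76) (nat_lit 514984879049) (nat_lit 3) (nat_lit 4) (nat_lit 4) (nat_lit 5) (nat_lit 4) (nat_lit 4) (nat_lit 404) (nat_lit 350) (nat_lit 266)) (XT.lf (nat_lit 0) (nat_lit 3803803882497) (nat_lit 76) (nat_lit 438374390283) (nat_lit 76) (nat_lit 422233868884) (nat_lit 3) (nat_lit 4)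 (nat_lit 4) (nat_lit 5) (nat_lit 4) (nat_lit 4) (nat_lit 405) (nat_lit 350) (nat_lit 265)))) (XT.nd (nat_lit 78) (nat_lit 0) (nat_lit 0) (XT.lf (nat_lit 0) (nat_lit 4694301571380) (nat_lit 76) (nat_lit 331711078221) (nat_lit 76) (nat_lit 315570542234) (nat_lit 3) (nat_lit 4) (nat_lit 4) (nat_lit 5) (nat_lit 4) (nat_lit 4) (nat_lit 406) (nat_lit 350) (nat_lit 264)) (XT.nd (nat_lit 78) (nat_lit 0) (nat_lit 0) (XT.lf (nat_lit 0) (nat_lit 5718373373013) (nat_lit 76) (nat_lit 209048556598) (nat_lit 76) (nat_lit 192908007926) (nat_lit 3) (nat_lit 4) (nat_lit 4) (nat_lit 5) (nat_lit 4) (nat_lit 4) (nat_lit 407) (nat_lit 350) (nat_lit 263)) (XT.lf (nat_lit 0) (nat_lit 6896055474817) (nat_lit 76) (nat_lit 67986906512) (nat_lit 76) (nat_lit 51846346809) (nat_lit 3) (nat_lit 4) (nat_lit 4) (nat_lit 5) (nat_lit 4) (nat_lit 4) (nat_lit 408) (nat_lit 350) (nat_lit 262))))) (XT.nd (nat_lit 234) (nat_lit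 0) (nat_lit 0) (XT.nd (nat_lit 78) (nat_lit 0) (nat_lit 0) (XT.lf (nat_lit 0) (nat_lit 114193319192) (nat_lit 152) (nat_lit 7828697660909) (nat_lit 0) (nat_lit 100158041544) (nat_lit 1) (nat_lit 5) (nat_lit 3) (nat_lit 4) (nat_lit 1) (nat_lit 4) (nat_lit 409) (nat_lit 350) (nat_lit 261)) (XT.nd (nat_lit 78) (nat_lit 0) (nat_lit 0) (XT.lf (nat_lit 0) (nat_lit 309630425232) (nat_lit 152) (nat_lit 8617217527292) (nat_lit 0) (nat_lit 295595140331) (nat_lit 1) (nat_lit 5) (nat_lit 3) (nat_lit 4) (nat_lit 1) (nat_lit 4) (nat_lit 410) (nat_lit 350) (nat_lit 260)) (XT.lf (nat_lit 0) (nat_lit 534382922880) (nat_lit 152) (nat_lit 9524015746340) (nat_lit 0) (nat_lit 520347631673) (nat_lit 1) (nat_lit 5) (nat_lit 3) (nat_lit 4) (nat_lit 1) (nat_lit 4) (nat_lit 411) (nat_lit 350) (nat_lit 259)))) (XT.nd (nat_lit 78) (nat_lit 0) (nat_lit 0) (XT.lf (nat_lit 0) (nat_lit 792848143612) (nat_lit 152) (nat_lit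 10566834022339) (nat_lit 0) (nat_lit 778812846921) (nat_lit 1) (nat_lit 5) (nat_lit 3) (nat_lit 4) (nat_lit 1) (nat_lit 4) (nat_lit 412) (nat_lit 350) (nat_lit 258)) (XT.nd (nat_lit 78) (nat_lit 0) (nat_lit 0) (XT.lf (nat_lit 0) (nat_lit 1090083015660) (nat_lit 152) (nat_lit 11766075321558) (nat_lit 0) (nat_lit 1076047714200) (nat_lit 1) (nat_lit 5) (nat_lit 3) (nat_lit 4) (nat_lit 1) (nat_lit 4) (nat_lit 413) (nat_lit 350) (nat_lit 257)) (XT.lf (nat_lit 0) (nat_lit 1431903003912) (nat_lit 152) (nat_lit 13145203060721) (nat_lit 0) (nat_lit 1417867698305) (nat_lit 1) (nat_lit 5) (nat_lit 3) (nat_lit 4) (nat_lit 1) (nat_lit 4) (nat_lit 414) (nat_lit 350) (nat_lit 256)))))) (XT.nd (nat_lit 468) (nat_lit 0) (nat_lit 0) (XT.nd (nat_lit 234) (nat_lit 0) (nat_lit 0) (XT.nd (nat_lit 78) (nat_lit 0) (nat_lit 0) (XT.lf (nat_lit 0) (nat_lit 1824995890746) (nat_lit 152) (nat_lit 14731200173855) (nat_lit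 0) (nat_lit 1810960581533) (nat_lit 1) (nat_lit 5) (nat_lit 3) (nat_lit 4) (nat_lit 1) (nat_lit 4) (nat_lit 415) (nat_lit 350) (nat_lit 255)) (XT.nd (nat_lit 78) (nat_lit 0) (nat_lit 0) (XT.lf (nat_lit 0) (nat_lit 2277052623948) (nat_lit 152) (nat_lit 16555097039260) (nat_lit 0) (nat_lit 2263017311599) (nat_lit 1) (nat_lit 5) (nat_lit 3) (nat_lit 4) (nat_lit 1) (nat_lit 4) (nat_lit 416) (nat_lit 350) (nat_lit 254)) (XT.lf (nat_lit 0) (nat_lit 2796917791777) (nat_lit 152) (nat_lit 18652578595609) (nat_lit 0) (nat_lit 2782882476701) (nat_lit 1) (nat_lit 5) (nat_lit 3) (nat_lit 4) (nat_lit 1) (nat_lit 4) (nat_lit 417) (nat_lit 350) (nat_lit 253)))) (XT.nd (nat_lit 78) (nat_lit 0) (nat_lit 0) (XT.lf (nat_lit 0) (nat_lit 3394762669255) (nat_lit 152) (nat_lit 21064682525524) (nat_lit 0) (nat_lit 3380727351809) (nat_lit 1) (nat_lit 5) (nat_lit 3) (nat_lit 4) (nat_lit 1) (nat_lit 4) (nat_lit 418)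 (nat_lit 350) (nat_lit 252)) (XT.nd (nat_lit 78) (nat_lit 0) (nat_lit 0) (XT.lf (nat_lit 0) (nat_lit 4082284221377) (nat_lit 152) (nat_lit 23838602166765) (nat_lit 0) (nat_lit 4068248901868) (nat_lit 1) (nat_lit 5) (nat_lit 3) (nat_lit 4) (nat_lit 1) (nat_lit 4) (nat_lit 419) (nat_lit 350) (nat_lit 251)) (XT.lf (nat_lit 0) (nat_lit 4872933956770) (nat_lit 152) (nat_lit 27028609860139) (nat_lit 0) (nat_lit 4858898635469) (nat_lit 1) (nat_lit 5) (nat_lit 3) (nat_lit 4) (nat_lit 1) (nat_lit 4) (nat_lit 420) (nat_lit 350) (nat_lit 250))))) (XT.nd (nat_lit 234) (nat_lit 0) (nat_lit 0) (XT.nd (nat_lit 78) (nat_lit 0) (nat_lit 0) (XT.lf (nat_lit 0) (nat_lit 5782181109389) (nat_lit 152) (nat_lit 30697118799647) (nat_lit 0) (nat_lit 5768145786529) (nat_lit 1) (nat_lit 5) (nat_lit 3) (nat_lit 4) (nat_lit 1) (nat_lit 4) (nat_lit 421) (nat_lit 350) (nat_lit 249)) (XT.nd (nat_lit 78) (nat_lit 0) (nat_lit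 0) (XT.lf (nat_lit 0) (nat_lit 6827815297437) (nat_lit 152) (nat_lit 34915904160192) (nat_lit 0) (nat_lit 6813779973221) (nat_lit 1) (nat_lit 5) (nat_lit 3) (nat_lit 4) (nat_lit 1) (nat_lit 4) (nat_lit 422) (nat_lit 350) (nat_lit 248)) (XT.lf (nat_lit 0) (nat_lit 8030294581114) (nat_lit 152) (nat_lit 39767507394480) (nat_lit 0) (nat_lit 8016259255719) (nat_lit 1) (nat_lit 5) (nat_lit 3) (nat_lit 4) (nat_lit 1) (nat_lit 4) (nat_lit 423) (nat_lit 350) (nat_lit 247)))) (XT.nd (nat_lit 156) (nat_lit 0) (nat_lit 0) (XT.nd (nat_lit 78) (nat_lit 0) (nat_lit 0) (XT.lf (nat_lit 0) (nat_lit 9413145729014) (nat_lit 152) (nat_lit 45346851174487) (nat_lit 0) (nat_lit 9399110402595) (nat_lit 1) (nat_lit 5) (nat_lit 3) (nat_lit 4) (nat_lit 1) (nat_lit 4) (nat_lit 424) (nat_lit 350) (nat_lit 246)) (XT.lf (nat_lit 0) (nat_lit 11003424524467) (nat_lit 152) (nat_lit 51763096574169) (nat_lit 0) (nat_lit 10989389197156)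 (nat_lit 1) (nat_lit 5) (nat_lit 3) (nat_lit 4) (nat_lit 1) (nat_lit 4) (nat_lit 425) (nat_lit 350) (nat_lit 245))) (XT.nd (nat_lit 78) (nat_lit 0) (nat_lit 0) (XT.lf (nat_lit 0) (nat_lit 12832245117816) (nat_lit 152) (nat_lit 59141778829607) (nat_lit 0) (nat_lit 12818209789731) (nat_lit 1) (nat_lit 5) (nat_lit 3) (nat_lit 4) (nat_lit 1) (nat_lit 4) (nat_lit 426) (nat_lit 350) (nat_lit 244)) (XT.lf (nat_lit 0) (nat_lit 14935388781543) (nat_lit 152) (nat_lit 67627263463190) (nat_lit 0) (nat_lit 14921353452783) (nat_lit 1) (nat_lit 5) (nat_lit 3) (nat_lit 4) (nat_lit 1) (nat_lit 4) (nat_lit 427) (nat_lit 350) (nat_lit 243))))))) (XT.nd (nat_lit 47502) (nat_lit 0) (nat_lit 1748) (XT.nd (nat_lit 468) (nat_lit 0) (nat_lit 0) (XT.nd (nat_lit 234) (nat_lit 0) (nat_lit 0) (XT.nd (nat_lit 78) (nat_lit 0) (nat_lit 0) (XT.lf (nat_lit 0) (nat_lit 17354003978631) (nat_lit 152) (nat_lit 77385570826445)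 (nat_lit 0) (nat_lit 17339968649285) (nat_lit 1) (nat_lit 5) (nat_lit 3) (nat_lit 4) (nat_lit 1) (nat_lit 4) (nat_lit 428) (nat_lit 350) (nat_lit 242)) (XT.nd (nat_lit 78) (nat_lit 0) (nat_lit 0) (XT.lf (nat_lit 0) (nat_lit 20135411441198) (nat_lit 152) (nat_lit 88607624324305) (nat_lit 0) (nat_lit 20121376111343) (nat_lit 1) (nat_lit 5) (nat_lit 3) (nat_lit 4) (nat_lit 1) (nat_lit 4) (nat_lit 429) (nat_lit 350) (nat_lit 241)) (XT.lf (nat_lit 0) (nat_lit 23334030010903) (nat_lit 152) (nat_lit 101512985873032) (nat_lit 0) (nat_lit 23319994680605) (nat_lit 1) (nat_lit 5) (nat_lit 3) (nat_lit 4) (nat_lit 1) (nat_lit 4) (nat_lit 430) (nat_lit 350) (nat_lit 240)))) (XT.nd (nat_lit 78) (nat_lit 0) (nat_lit 0) (XT.lf (nat_lit 0) (nat_lit 27012441355415) (nat_lit 152) (nat_lit 116354151676841) (nat_lit 0) (nat_lit 26998406024731) (nat_lit 1) (nat_lit 5) (nat_lit 3) (nat_lit 4) (nat_lit 1) (nat_lit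 4) (nat_lit 431) (nat_lit 350) (nat_lit 239)) (XT.nd (nat_lit 78) (nat_lit 0) (nat_lit 0) (XT.lf (nat_lit 0) (nat_lit 31242614392343) (nat_lit 152) (nat_lit 133421492371023) (nat_lit 0) (nat_lit 31228579061324) (nat_lit 1) (nat_lit 5) (nat_lit 3) (nat_lit 4) (nat_lit 1) (nat_lit 4) (nat_lit 432) (nat_lit 350) (nat_lit 238)) (XT.lf (nat_lit 0) (nat_lit 36107313376757) (nat_lit 152) (nat_lit 153048934186552) (nat_lit 0) (nat_lit 36093278045447) (nat_lit 1) (nat_lit 5) (nat_lit 3) (nat_lit 4) (nat_lit 1) (nat_lit 4) (nat_lit 433) (nat_lit 350) (nat_lit 237))))) (XT.nd (nat_lit 46722) (nat_lit 0) (nat_lit 2736) (XT.nd (nat_lit 78) (nat_lit 0) (nat_lit 0) (XT.lf (nat_lit 0) (nat_lit 41701717201831) (nat_lit 152) (nat_lit 175620492289383) (nat_lit 0) (nat_lit 41687681870267) (nat_lit 1) (nat_lit 5) (nat_lit 3) (nat_lit 4) (nat_lit 1) (nat_lit 4) (nat_lit 434) (nat_lit 350) (nat_lit 236)) (XT.nd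 (nat_lit 46566) (nat_lit 0) (nat_lit 2736) (XT.lf (nat_lit 0) (nat_lit 48135281594577) (nat_lit 152) (nat_lit 201577784120660) (nat_lit 0) (nat_lit 48121246262793) (nat_lit 1) (nat_lit 5) (nat_lit 3) (nat_lit 4) (nat_lit 1) (nat_lit 4) (nat_lit 435) (nat_lit 350) (nat_lit 235)) (XT.lf (nat_lit 0) (nat_lit 2302952636) (nat_lit 380) (nat_lit 3592947467) (nat_lit 380) (nat_lit 3592947467) (nat_lit 37) (nat_lit 3) (nat_lit 42) (nat_lit 3) (nat_lit 42) (nat_lit 5) (nat_lit 351) (nat_lit 351) (nat_lit 318)))) (XT.nd (nat_lit 156) (nat_lit 0) (nat_lit 76) (XT.nd (nat_lit 78) (nat_lit 0) (nat_lit 76) (XT.lf (nat_lit 76) (nat_lit 2440801411) (nat_lit 0) (nat_lit 2782052850) (nat_lit 380) (nat_lit 15137361690) (nat_lit 38) (nat_lit 5) (nat_lit 37) (nat_lit 3) (nat_lit 42) (nat_lit 5) (nat_lit 352) (nat_lit 351) (nat_lit 317)) (XT.lf (nat_lit 0) (nat_lit 6609051009) (nat_lit 304) (nat_lit 7930739919)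 (nat_lit 380) (nat_lit 7308832462) (nat_lit 38) (nat_lit 5) (nat_lit 42) (nat_lit 5) (nat_lit 43) (nat_lit 5) (nat_lit 353) (nat_lit 351) (nat_lit 316))) (XT.nd (nat_lit 78) (nat_lit 0) (nat_lit 76) (XT.lf (nat_lit 76) (nat_lit 3735114076) (nat_lit 0) (nat_lit 4728557530) (nat_lit 380) (nat_lit 15057558639) (nat_lit 39) (nat_lit 5) (nat_lit 38) (nat_lit 5) (nat_lit 43) (nat_lit 5) (nat_lit 354) (nat_lit 351) (nat_lit 315)) (XT.lf (nat_lit 0) (nat_lit 11278338821) (nat_lit 304) (nat_lit 7655509944) (nat_lit 76) (nat_lit 6408612159) (nat_lit 39) (nat_lit 5) (nat_lit 43) (nat_lit 5) (nat_lit 40) (nat_lit 5) (nat_lit 355) (nat_lit 351) (nat_lit 314)))))) (XT.nd (nat_lit 468) (nat_lit 380) (nat_lit 0) (XT.nd (nat_lit 234) (nat_lit 304) (nat_lit 0) (XT.nd (nat_lit 78) (nat_lit 152) (nat_lit 0) (XT.lf (nat_lit 0) (nat_lit 6639788958) (nat_lit 304) (nat_lit 8354786063) (nat_lit 380) (nat_lit 12370405262)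 (nat_lit 35) (nat_lit 5) (nat_lit 39) (nat_lit 5) (nat_lit 40) (nat_lit 5) (nat_lit 356) (nat_lit 351) (nat_lit 313)) (XT.nd (nat_lit 78) (nat_lit 152) (nat_lit 0) (XT.lf (nat_lit 0) (nat_lit 19826385969) (nat_lit 380) (nat_lit 5890655668) (nat_lit 76) (nat_lit 3890123197) (nat_lit 35) (nat_lit 5) (nat_lit 40) (nat_lit 5) (nat_lit 36) (nat_lit 5) (nat_lit 357) (nat_lit 351) (nat_lit 312)) (XT.lf (nat_lit 0) (nat_lit 11802191318) (nat_lit 152) (nat_lit 14450891245) (nat_lit 228) (nat_lit 5802084524) (nat_lit 33) (nat_lit 5) (nat_lit 35) (nat_lit 5) (nat_lit 36) (nat_lit 5) (nat_lit 358) (nat_lit 351) (nat_lit 311)))) (XT.nd (nat_lit 78) (nat_lit 304) (nat_lit 0) (XT.lf (nat_lit 0) (nat_lit 32792157008) (nat_lit 152) (nat_lit 1144474614) (nat_lit 228) (nat_lit 889817049) (nat_lit 33) (nat_lit 5) (nat_lit 35) (nat_lit 5) (nat_lit 36) (nat_lit 5) (nat_lit 359) (nat_lit 351) (nat_lit 310)) (XT.nd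 (nat_lit 78) (nat_lit 152) (nat_lit 0) (XT.lf (nat_lit 0) (nat_lit 5807907873) (nat_lit 152) (nat_lit 17964230054) (nat_lit 76) (nat_lit 13990880090) (nat_lit 31) (nat_lit 5) (nat_lit 33) (nat_lit 5) (nat_lit 32) (nat_lit 5) (nat_lit 360) (nat_lit 351) (nat_lit 309)) (XT.lf (nat_lit 0) (nat_lit 4270986587) (nat_lit 152) (nat_lit 9478135672) (nat_lit 228) (nat_lit 27335109086) (nat_lit 29) (nat_lit 5) (nat_lit 31) (nat_lit 5) (nat_lit 32) (nat_lit 5) (nat_lit 361) (nat_lit 351) (nat_lit 308))))) (XT.nd (nat_lit 234) (nat_lit 304) (nat_lit 0) (XT.nd (nat_lit 78) (nat_lit 76) (nat_lit 0) (XT.lf (nat_lit 0) (nat_lit 24141340421) (nat_lit 228) (nat_lit 13254603833) (nat_lit 76) (nat_lit 7318712714) (nat_lit 29) (nat_lit 5) (nat_lit 32) (nat_lit 5) (nat_lit 30) (nat_lit 4) (nat_lit 362) (nat_lit 351) (nat_lit 307)) (XT.nd (nat_lit 78) (nat_lit 0) (nat_lit 0) (XT.lf (nat_lit 0) (nat_lit 14676258281)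 (nat_lit 76) (nat_lit 22464636486) (nat_lit 152) (nat_lit 11591479226) (nat_lit 28) (nat_lit 5) (nat_lit 29) (nat_lit 5) (nat_lit 30) (nat_lit 4) (nat_lit 363) (nat_lit 351) (nat_lit 306)) (XT.lf (nat_lit 0) (nat_lit 48270333700) (nat_lit 76) (nat_lit 4503065197) (nat_lit 152) (nat_lit 476899856) (nat_lit 28) (nat_lit 5) (nat_lit 29) (nat_lit 5) (nat_lit 30) (nat_lit 4) (nat_lit 364) (nat_lit 351) (nat_lit 305)))) (XT.nd (nat_lit 156) (nat_lit 76) (nat_lit 0) (XT.nd (nat_lit 78) (nat_lit 76) (nat_lit 0) (XT.lf (nat_lit 0) (nat_lit 13223463241) (nat_lit 152) (nat_lit 28270615264) (nat_lit 76) (nat_lit 16573298836) (nat_lit 26) (nat_lit 5) (nat_lit 28) (nat_lit 5) (nat_lit 27) (nat_lit 4) (nat_lit 365) (nat_lit 351) (nat_lit 304)) (XT.lf (nat_lit 0) (nat_lit 7153876428) (nat_lit 76) (nat_lit 22550929143) (nat_lit 152) (nat_lit 33782594942) (nat_lit 25) (nat_lit 5) (nat_lit 26) (nat_lit 5)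 (nat_lit 27) (nat_lit 4) (nat_lit 366) (nat_lit 351) (nat_lit 303))) (XT.nd (nat_lit 78) (nat_lit 76) (nat_lit 0) (XT.lf (nat_lit 0) (nat_lit 50166409762) (nat_lit 152) (nat_lit 18483568866) (nat_lit 0) (nat_lit 844240988) (nat_lit 25) (nat_lit 5) (nat_lit 27) (nat_lit 4) (nat_lit 25) (nat_lit 4) (nat_lit 367) (nat_lit 351) (nat_lit 302)) (XT.lf (nat_lit 0) (nat_lit 26297809957) (nat_lit 76) (nat_lit 49554964121) (nat_lit 76) (nat_lit 225960913) (nat_lit 24) (nat_lit 4) (nat_lit 25) (nat_lit 5) (nat_lit 25) (nat_lit 4) (nat_lit 368) (nat_lit 351) (nat_lit 301))))))))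
noncomputable def xc67 : XT := (XT.nd (nat_lit 2028) (nat_lit 228) (nat_lit 0) (XT.nd (nat_lit 1014) (nat_lit 684) (nat_lit 0) (XT.nd (nat_lit 468) (nat_lit 456) (nat_lit 0) (XT.nd (nat_lit 234) (nat_lit 152) (nat_lit 0) (XT.nd (nat_lit 78) (nat_lit 152) (nat_lit 0) (XT.lf (nat_lit 0) (nat_lit 20810631580) (nat_lit 152) (nat_lit 4592088296) (nat_lit 76) (nat_lit 57962418242) (nat_lit 23) (nat_lit 5) (nat_lit 25) (nat_lit 5) (nat_lit 24) (nat_lit 4) (nat_lit 369) (nat_lit 351) (nat_lit 300)) (XT.nd (nat_lit 78) (nat_lit 76) (nat_lit 0) (XT.lf (nat_lit 0) (nat_lit 47326737197) (nat_lit 152) (nat_lit 39641787401) (nat_lit 0) (nat_lit 4422290233) (nat_lit 22) (nat_lit 5) (nat_lit 24) (nat_lit 4) (nat_lit 22) (nat_lit 4) (nat_lit 370) (nat_lit 351) (nat_lit 299)) (XT.lf (nat_lit 0) (nat_lit 16729463072) (nat_lit 76) (nat_lit 63238537047) (nat_lit 76) (nat_lit 20330182474) (nat_lit 21) (nat_lit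 4) (nat_lit 22) (nat_lit 5) (nat_lit 22) (nat_lit 4) (nat_lit 371) (nat_lit 351) (nat_lit 298)))) (XT.nd (nat_lit 78) (nat_lit 76) (nat_lit 0) (XT.lf (nat_lit 0) (nat_lit 8508628177) (nat_lit 152) (nat_lit 24618201911) (nat_lit 76) (nat_lit 77046853122) (nat_lit 20) (nat_lit 5) (nat_lit 22) (nat_lit 5) (nat_lit 21) (nat_lit 4) (nat_lit 372) (nat_lit 351) (nat_lit 297)) (XT.nd (nat_lit 78) (nat_lit 0) (nat_lit 0) (XT.lf (nat_lit 0) (nat_lit 41703985328) (nat_lit 152) (nat_lit 74977637627) (nat_lit 0) (nat_lit 4386848625) (nat_lit 19) (nat_lit 5) (nat_lit 21) (nat_lit 4) (nat_lit 19) (nat_lit 4) (nat_lit 373) (nat_lit 351) (nat_lit 296)) (XT.lf (nat_lit 0) (nat_lit 82799055193) (nat_lit 152) (nat_lit 4880677774) (nat_lit 0) (nat_lit 45479684301) (nat_lit 19) (nat_lit 5) (nat_lit 21) (nat_lit 4) (nat_lit 19) (nat_lit 4) (nat_lit 374) (nat_lit 351) (nat_lit 295))))) (XT.nd (nat_lit 234) (nat_lit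 228) (nat_lit 0) (XT.nd (nat_lit 78) (nat_lit 152) (nat_lit 0) (XT.lf (nat_lit 0) (nat_lit 83121811588) (nat_lit 76) (nat_lit 50373950398) (nat_lit 76) (nat_lit 13052636734) (nat_lit 18) (nat_lit 4) (nat_lit 19) (nat_lit 5) (nat_lit 19) (nat_lit 4) (nat_lit 375) (nat_lit 351) (nat_lit 294)) (XT.nd (nat_lit 78) (nat_lit 0) (nat_lit 0) (XT.lf (nat_lit 0) (nat_lit 23829895041) (nat_lit 76) (nat_lit 4613313364) (nat_lit 152) (nat_lit 133129678977) (nat_lit 16) (nat_lit 5) (nat_lit 17) (nat_lit 5) (nat_lit 18) (nat_lit 4) (nat_lit 376) (nat_lit 351) (nat_lit 293)) (XT.lf (nat_lit 0) (nat_lit 80284047442) (nat_lit 152) (nat_lit 49827240462) (nat_lit 0) (nat_lit 47827984793) (nat_lit 16) (nat_lit 5) (nat_lit 18) (nat_lit 4) (nat_lit 16) (nat_lit 4) (nat_lit 377) (nat_lit 351) (nat_lit 292)))) (XT.nd (nat_lit 156) (nat_lit 152) (nat_lit 0) (XT.nd (nat_lit 78) (nat_lit 0) (nat_lit 0) (XT.lf (nat_lit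 0) (nat_lit 56037029907) (nat_lit 76) (nat_lit 86400166008) (nat_lit 76) (nat_lit 53942992572) (nat_lit 15) (nat_lit 4) (nat_lit 16) (nat_lit 5) (nat_lit 16) (nat_lit 4) (nat_lit 378) (nat_lit 351) (nat_lit 291)) (XT.lf (nat_lit 0) (nat_lit 183373238707) (nat_lit 76) (nat_lit 33141001933) (nat_lit 76) (nat_lit 682862596) (nat_lit 15) (nat_lit 4) (nat_lit 16) (nat_lit 5) (nat_lit 16) (nat_lit 4) (nat_lit 379) (nat_lit 351) (nat_lit 290))) (XT.nd (nat_lit 78) (nat_lit 0) (nat_lit 0) (XT.lf (nat_lit 0) (nat_lit 60556815720) (nat_lit 152) (nat_lit 147064551354) (nat_lit 0) (nat_lit 32331616371) (nat_lit 13) (nat_lit 5) (nat_lit 15) (nat_lit 4) (nat_lit 13) (nat_lit 4) (nat_lit 380) (nat_lit 351) (nat_lit 289)) (XT.lf (nat_lit 0) (nat_lit 134339602687) (nat_lit 152) (nat_lit 25149936937) (nat_lit 0) (nat_lit 106113768242) (nat_lit 13) (nat_lit 5) (nat_lit 15) (nat_lit 4) (nat_lit 13) (nat_lit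 4) (nat_lit 381) (nat_lit 351) (nat_lit 288)))))) (XT.nd (nat_lit 468) (nat_lit 380) (nat_lit 0) (XT.nd (nat_lit 234) (nat_lit 76) (nat_lit 0) (XT.nd (nat_lit 78) (nat_lit 152) (nat_lit 0) (XT.lf (nat_lit 0) (nat_lit 126288929896) (nat_lit 76) (nat_lit 98127334666) (nat_lit 76) (nat_lit 69900947964) (nat_lit 12) (nat_lit 4) (nat_lit 13) (nat_lit 5) (nat_lit 13) (nat_lit 4) (nat_lit 382) (nat_lit 351) (nat_lit 287)) (XT.nd (nat_lit 78) (nat_lit 76) (nat_lit 0) (XT.lf (nat_lit 0) (nat_lit 1981278394) (nat_lit 152) (nat_lit 23967118377) (nat_lit 76) (nat_lit 301179513067) (nat_lit 11) (nat_lit 5) (nat_lit 13) (nat_lit 5) (nat_lit 12) (nat_lit 4) (nat_lit 383) (nat_lit 351) (nat_lit 286)) (XT.lf (nat_lit 0) (nat_lit 86596830857) (nat_lit 152) (nat_lit 214346594745) (nat_lit 0) (nat_lit 62051366064) (nat_lit 10) (nat_lit 5) (nat_lit 12) (nat_lit 4) (nat_lit 10) (nat_lit 4) (nat_lit 384) (nat_lit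 351) (nat_lit 285)))) (XT.nd (nat_lit 78) (nat_lit 76) (nat_lit 0) (XT.lf (nat_lit 0) (nat_lit 186450335587) (nat_lit 152) (nat_lit 55504972293) (nat_lit 0) (nat_lit 161904555039) (nat_lit 10) (nat_lit 5) (nat_lit 12) (nat_lit 4) (nat_lit 10) (nat_lit 4) (nat_lit 385) (nat_lit 351) (nat_lit 284)) (XT.nd (nat_lit 78) (nat_lit 0) (nat_lit 0) (XT.lf (nat_lit 0) (nat_lit 139585135382) (nat_lit 76) (nat_lit 167474476394) (nat_lit 76) (nat_lit 142928421276) (nat_lit 9) (nat_lit 4) (nat_lit 10) (nat_lit 5) (nat_lit 10) (nat_lit 4) (nat_lit 386) (nat_lit 351) (nat_lit 283)) (XT.lf (nat_lit 0) (nat_lit 370172377801) (nat_lit 76) (nat_lit 78487223285) (nat_lit 76) (nat_lit 53940929412) (nat_lit 9) (nat_lit 4) (nat_lit 10) (nat_lit 5) (nat_lit 10) (nat_lit 4) (nat_lit 387) (nat_lit 351) (nat_lit 282))))) (XT.nd (nat_lit 234) (nat_lit 228) (nat_lit 0) (XT.nd (nat_lit 78) (nat_lit 0) (nat_lit 0) (XT.lf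 (nat_lit 0) (nat_lit 48511722377) (nat_lit 152) (nat_lit 486461833765) (nat_lit 0) (nat_lit 27166938475) (nat_lit 7) (nat_lit 5) (nat_lit 9) (nat_lit 4) (nat_lit 7) (nat_lit 4) (nat_lit 388) (nat_lit 351) (nat_lit 281)) (XT.nd (nat_lit 78) (nat_lit 0) (nat_lit 0) (XT.lf (nat_lit 0) (nat_lit 171797368172) (nat_lit 152) (nat_lit 306328222580) (nat_lit 0) (nat_lit 150452427285) (nat_lit 7) (nat_lit 5) (nat_lit 9) (nat_lit 4) (nat_lit 7) (nat_lit 4) (nat_lit 389) (nat_lit 351) (nat_lit 280)) (XT.lf (nat_lit 0) (nat_lit 313574221928) (nat_lit 152) (nat_lit 99178049375) (nat_lit 0) (nat_lit 292229144530) (nat_lit 7) (nat_lit 5) (nat_lit 9) (nat_lit 4) (nat_lit 7) (nat_lit 4) (nat_lit 390) (nat_lit 351) (nat_lit 279)))) (XT.nd (nat_lit 156) (nat_lit 152) (nat_lit 0) (XT.nd (nat_lit 78) (nat_lit 0) (nat_lit 0) (XT.lf (nat_lit 0) (nat_lit 152629782731) (nat_lit 76) (nat_lit 330306469695) (nat_lit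 76) (nat_lit 308961273594) (nat_lit 6) (nat_lit 4) (nat_lit 7) (nat_lit 5) (nat_lit 7) (nat_lit 4) (nat_lit 391) (nat_lit 351) (nat_lit 278)) (XT.lf (nat_lit 0) (nat_lit 453352161723) (nat_lit 76) (nat_lit 229533374056) (nat_lit 76) (nat_lit 208188074734) (nat_lit 6) (nat_lit 4) (nat_lit 7) (nat_lit 5) (nat_lit 7) (nat_lit 4) (nat_lit 392) (nat_lit 351) (nat_lit 277))) (XT.nd (nat_lit 78) (nat_lit 152) (nat_lit 0) (XT.lf (nat_lit 0) (nat_lit 799180386039) (nat_lit 76) (nat_lit 113645643989) (nat_lit 76) (nat_lit 92300254909) (nat_lit 6) (nat_lit 4) (nat_lit 7) (nat_lit 5) (nat_lit 7) (nat_lit 4) (nat_lit 393) (nat_lit 351) (nat_lit 276)) (XT.lf (nat_lit 0) (nat_lit 41020166426) (nat_lit 152) (nat_lit 1071998787778) (nat_lit 0) (nat_lit 22458890662) (nat_lit 4) (nat_lit 5) (nat_lit 6) (nat_lit 4) (nat_lit 4) (nat_lit 4) (nat_lit 394) (nat_lit 351) (nat_lit 275))))))) (XT.nd (nat_lit 1014)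 (nat_lit 152) (nat_lit 0) (XT.nd (nat_lit 468) (nat_lit 0) (nat_lit 0) (XT.nd (nat_lit 234) (nat_lit 76) (nat_lit 0) (XT.nd (nat_lit 78) (nat_lit 0) (nat_lit 0) (XT.lf (nat_lit 0) (nat_lit 201577475518) (nat_lit 152) (nat_lit 897625943121) (nat_lit 0) (nat_lit 183016140737) (nat_lit 4) (nat_lit 5) (nat_lit 6) (nat_lit 4) (nat_lit 4) (nat_lit 4) (nat_lit 395) (nat_lit 351) (nat_lit 274)) (XT.nd (nat_lit 78) (nat_lit 0) (nat_lit 0) (XT.lf (nat_lit 0) (nat_lit 386217446646) (nat_lit 152) (nat_lit 697099164030) (nat_lit 0) (nat_lit 367656060545) (nat_lit 4) (nat_lit 5) (nat_lit 6) (nat_lit 4) (nat_lit 4) (nat_lit 4) (nat_lit 396) (nat_lit 351) (nat_lit 273)) (XT.lf (nat_lit 0) (nat_lit 598552600984) (nat_lit 152) (nat_lit 466495100479) (nat_lit 0) (nat_lit 579991170258) (nat_lit 4) (nat_lit 5) (nat_lit 6) (nat_lit 4) (nat_lit 4) (nat_lit 4) (nat_lit 397) (nat_lit 351) (nat_lit 272)))) (XT.nd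 (nat_lit 78) (nat_lit 76) (nat_lit 0) (XT.lf (nat_lit 0) (nat_lit 842737321986) (nat_lit 152) (nat_lit 201301933833) (nat_lit 0) (nat_lit 824175852456) (nat_lit 4) (nat_lit 5) (nat_lit 6) (nat_lit 4) (nat_lit 4) (nat_lit 4) (nat_lit 398) (nat_lit 351) (nat_lit 271)) (XT.nd (nat_lit 78) (nat_lit 0) (nat_lit 0) (XT.lf (nat_lit 0) (nat_lit 113800176517) (nat_lit 76) (nat_lit 1014461182916) (nat_lit 76) (nat_lit 995899679643) (nat_lit 3) (nat_lit 4) (nat_lit 4) (nat_lit 5) (nat_lit 4) (nat_lit 4) (nat_lit 399) (nat_lit 351) (nat_lit 270)) (XT.lf (nat_lit 0) (nat_lit 498789945354) (nat_lit 76) (nat_lit 968346072249) (nat_lit 76) (nat_lit 949784539634) (nat_lit 3) (nat_lit 4) (nat_lit 4) (nat_lit 5) (nat_lit 4) (nat_lit 4) (nat_lit 400) (nat_lit 351) (nat_lit 269))))) (XT.nd (nat_lit 234) (nat_lit 0) (nat_lit 0) (XT.nd (nat_lit 78) (nat_lit 0) (nat_lit 0) (XT.lf (nat_lit 0) (nat_lit 941527092209)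 (nat_lit 76) (nat_lit 915314272740) (nat_lit 76) (nat_lit 896752714610) (nat_lit 3) (nat_lit 4) (nat_lit 4) (nat_lit 5) (nat_lit 4) (nat_lit 4) (nat_lit 401) (nat_lit 351) (nat_lit 268)) (XT.nd (nat_lit 78) (nat_lit 0) (nat_lit 0) (XT.lf (nat_lit 0) (nat_lit 1450673865609) (nat_lit 76) (nat_lit 854328205703) (nat_lit 76) (nat_lit 835766625386) (nat_lit 3) (nat_lit 4) (nat_lit 4) (nat_lit 5) (nat_lit 4) (nat_lit 4) (nat_lit 402) (nat_lit 351) (nat_lit 267)) (XT.lf (nat_lit 0) (nat_lit 2036191832858) (nat_lit 76) (nat_lit 784194665478) (nat_lit 76) (nat_lit 765633065869) (nat_lit 3) (nat_lit 4) (nat_lit 4) (nat_lit 5) (nat_lit 4) (nat_lit 4) (nat_lit 403) (nat_lit 351) (nat_lit 266)))) (XT.nd (nat_lit 156) (nat_lit 0) (nat_lit 0) (XT.nd (nat_lit 78) (nat_lit 0) (nat_lit 0) (XT.lf (nat_lit 0) (nat_lit 2709536780272) (nat_lit 76) (nat_lit 703541474104) (nat_lit 76) (nat_lit 684979857719) (nat_lit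 3) (nat_lit 4) (nat_lit 4) (nat_lit 5) (nat_lit 4) (nat_lit 4) (nat_lit 404) (nat_lit 351) (nat_lit 265)) (XT.lf (nat_lit 0) (nat_lit 3483882848127) (nat_lit 76) (nat_lit 610790634360) (nat_lit 76) (nat_lit 592229003387) (nat_lit 3) (nat_lit 4) (nat_lit 4) (nat_lit 5) (nat_lit 4) (nat_lit 4) (nat_lit 405) (nat_lit 351) (nat_lit 264))) (XT.nd (nat_lit 78) (nat_lit 0) (nat_lit 0) (XT.lf (nat_lit 0) (nat_lit 4374380285576) (nat_lit 76) (nat_lit 504127455902) (nat_lit 76) (nat_lit 485565812243) (nat_lit 3) (nat_lit 4) (nat_lit 4) (nat_lit 5) (nat_lit 4) (nat_lit 4) (nat_lit 406) (nat_lit 351) (nat_lit 263)) (XT.lf (nat_lit 0) (nat_lit 5398451868570) (nat_lit 76) (nat_lit 381465050455) (nat_lit 76) (nat_lit 362903395766) (nat_lit 3) (nat_lit 4) (nat_lit 4) (nat_lit 5) (nat_lit 4) (nat_lit 4) (nat_lit 407) (nat_lit 351) (nat_lit 262)))))) (XT.nd (nat_lit 468) (nat_lit 0) (nat_lit 0) (XT.nd (nat_lit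 234) (nat_lit 0) (nat_lit 0) (XT.nd (nat_lit 78) (nat_lit 152) (nat_lit 0) (XT.lf (nat_lit 0) (nat_lit 6576133780254) (nat_lit 76) (nat_lit 240403501393) (nat_lit 76) (nat_lit 221841837112) (nat_lit 3) (nat_lit 4) (nat_lit 4) (nat_lit 5) (nat_lit 4) (nat_lit 4) (nat_lit 408) (nat_lit 351) (nat_lit 261)) (XT.nd (nat_lit 78) (nat_lit 152) (nat_lit 0) (XT.lf (nat_lit 0) (nat_lit 7930467623248) (nat_lit 76) (nat_lit 78182908841) (nat_lit 76) (nat_lit 59621236219) (nat_lit 3) (nat_lit 4) (nat_lit 4) (nat_lit 5) (nat_lit 4) (nat_lit 4) (nat_lit 409) (nat_lit 351) (nat_lit 260)) (XT.lf (nat_lit 0) (nat_lit 131324193812) (nat_lit 152) (nat_lit 9002998296939) (nat_lit 0) (nat_lit 115183602616) (nat_lit 1) (nat_lit 5) (nat_lit 3) (nat_lit 4) (nat_lit 1) (nat_lit 4) (nat_lit 410) (nat_lit 351) (nat_lit 259)))) (XT.nd (nat_lit 78) (nat_lit 0) (nat_lit 0) (XT.lf (nat_lit 0) (nat_lit 356076620965) (nat_lit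 152) (nat_lit 9909796666728) (nat_lit 0) (nat_lit 339936024286) (nat_lit 1) (nat_lit 5) (nat_lit 3) (nat_lit 4) (nat_lit 1) (nat_lit 4) (nat_lit 411) (nat_lit 351) (nat_lit 258)) (XT.nd (nat_lit 78) (nat_lit 0) (nat_lit 0) (XT.lf (nat_lit 0) (nat_lit 614541780398) (nat_lit 152) (nat_lit 10952615073806) (nat_lit 0) (nat_lit 598401178950) (nat_lit 1) (nat_lit 5) (nat_lit 3) (nat_lit 4) (nat_lit 1) (nat_lit 4) (nat_lit 412) (nat_lit 351) (nat_lit 257)) (XT.lf (nat_lit 0) (nat_lit 911776599142) (nat_lit 152) (nat_lit 12151856487007) (nat_lit 0) (nat_lit 895635993547) (nat_lit 1) (nat_lit 5) (nat_lit 3) (nat_lit 4) (nat_lit 1) (nat_lit 4) (nat_lit 413) (nat_lit 351) (nat_lit 256))))) (XT.nd (nat_lit 234) (nat_lit 0) (nat_lit 0) (XT.nd (nat_lit 78) (nat_lit 0) (nat_lit 0) (XT.lf (nat_lit 0) (nat_lit 1253596541042) (nat_lit 152) (nat_lit 13530984325285) (nat_lit 0) (nat_lit 1237455931841) (nat_lit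 1) (nat_lit 5) (nat_lit 3) (nat_lit 4) (nat_lit 1) (nat_lit 4) (nat_lit 414) (nat_lit 351) (nat_lit 255)) (XT.nd (nat_lit 78) (nat_lit 0) (nat_lit 0) (XT.lf (nat_lit 0) (nat_lit 1646689387571) (nat_lit 152) (nat_lit 15116981524606) (nat_lit 0) (nat_lit 1630548775234) (nat_lit 1) (nat_lit 5) (nat_lit 3) (nat_lit 4) (nat_lit 1) (nat_lit 4) (nat_lit 415) (nat_lit 351) (nat_lit 254)) (XT.lf (nat_lit 0) (nat_lit 2098746085725) (nat_lit 152) (nat_lit 16940878464956) (nat_lit 0) (nat_lit 2082605470661) (nat_lit 1) (nat_lit 5) (nat_lit 3) (nat_lit 4) (nat_lit 1) (nat_lit 4) (nat_lit 416) (nat_lit 351) (nat_lit 253)))) (XT.nd (nat_lit 156) (nat_lit 0) (nat_lit 0) (XT.nd (nat_lit 78) (nat_lit 0) (nat_lit 0) (XT.lf (nat_lit 0) (nat_lit 2618611223077) (nat_lit 152) (nat_lit 19038360086474) (nat_lit 0) (nat_lit 2602470605642) (nat_lit 1) (nat_lit 5) (nat_lit 3) (nat_lit 4) (nat_lit 1) (nat_lit 4) (nat_lit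 417) (nat_lit 351) (nat_lit 252)) (XT.lf (nat_lit 0) (nat_lit 3216456074053) (nat_lit 152) (nat_lit 21450464073059) (nat_lit 0) (nat_lit 3200315454557) (nat_lit 1) (nat_lit 5) (nat_lit 3) (nat_lit 4) (nat_lit 1) (nat_lit 4) (nat_lit 418) (nat_lit 351) (nat_lit 251))) (XT.nd (nat_lit 78) (nat_lit 0) (nat_lit 0) (XT.lf (nat_lit 0) (nat_lit 3903977603130) (nat_lit 152) (nat_lit 24224383763577) (nat_lit 0) (nat_lit 3887836981841) (nat_lit 1) (nat_lit 5) (nat_lit 3) (nat_lit 4) (nat_lit 1) (nat_lit 4) (nat_lit 419) (nat_lit 351) (nat_lit 250)) (XT.lf (nat_lit 0) (nat_lit 4694627318485) (nat_lit 152) (nat_lit 27414391499801) (nat_lit 0) (nat_lit 4678486695637) (nat_lit 1) (nat_lit 5) (nat_lit 3) (nat_lit 4) (nat_lit 1) (nat_lit 4) (nat_lit 420) (nat_lit 351) (nat_lit 249))))))))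
noncomputable def xc68 : XT := (XT.nd (nat_lit 48438) (nat_lit 0) (nat_lit 684) (XT.nd (nat_lit 936) (nat_lit 0) (nat_lit 0) (XT.nd (nat_lit 468) (nat_lit 0) (nat_lit 0) (XT.nd (nat_lit 234) (nat_lit 0) (nat_lit 0) (XT.nd (nat_lit 78) (nat_lit 0) (nat_lit 0) (XT.lf (nat_lit 0) (nat_lit 5603874453679) (nat_lit 152) (nat_lit 31082900476570) (nat_lit 0) (nat_lit 5587733829475) (nat_lit 1) (nat_lit 5) (nat_lit 3) (nat_lit 4) (nat_lit 1) (nat_lit 4) (nat_lit 421) (nat_lit 351) (nat_lit 248)) (XT.nd (nat_lit 78) (nat_lit 0) (nat_lit 0) (XT.lf (nat_lit 0) (nat_lit 6649508626574) (nat_lit 152) (nat_lit 35301685869516) (nat_lit 0) (nat_lit 6633368001192) (nat_lit 1) (nat_lit 5) (nat_lit 3) (nat_lit 4) (nat_lit 1) (nat_lit 4) (nat_lit 422) (nat_lit 351) (nat_lit 247)) (XT.lf (nat_lit 0) (nat_lit 7851987897075) (nat_lit 152) (nat_lit 40153289131979) (nat_lit 0) (nat_lit 7835847270668) (nat_lit 1)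 (nat_lit 5) (nat_lit 3) (nat_lit 4) (nat_lit 1) (nat_lit 4) (nat_lit 423) (nat_lit 351) (nat_lit 246)))) (XT.nd (nat_lit 78) (nat_lit 0) (nat_lit 0) (XT.lf (nat_lit 0) (nat_lit 9234839033518) (nat_lit 152) (nat_lit 45732632936485) (nat_lit 0) (nat_lit 9218698406220) (nat_lit 1) (nat_lit 5) (nat_lit 3) (nat_lit 4) (nat_lit 1) (nat_lit 4) (nat_lit 424) (nat_lit 351) (nat_lit 245)) (XT.nd (nat_lit 78) (nat_lit 0) (nat_lit 0) (XT.lf (nat_lit 0) (nat_lit 10825117819008) (nat_lit 152) (nat_lit 52148878357471) (nat_lit 0) (nat_lit 10808977190934) (nat_lit 1) (nat_lit 5) (nat_lit 3) (nat_lit 4) (nat_lit 1) (nat_lit 4) (nat_lit 425) (nat_lit 351) (nat_lit 244)) (XT.lf (nat_lit 0) (nat_lit 12653938403694) (nat_lit 152) (nat_lit 59527560631435) (nat_lit 0) (nat_lit 12637797774947) (nat_lit 1) (nat_lit 5) (nat_lit 3) (nat_lit 4) (nat_lit 1) (nat_lit 4) (nat_lit 426) (nat_lit 351) (nat_lit 243)))))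 (XT.nd (nat_lit 234) (nat_lit 0) (nat_lit 0) (XT.nd (nat_lit 78) (nat_lit 0) (nat_lit 0) (XT.lf (nat_lit 0) (nat_lit 14757082059887) (nat_lit 152) (nat_lit 68013045281127) (nat_lit 0) (nat_lit 14740941430553) (nat_lit 1) (nat_lit 5) (nat_lit 3) (nat_lit 4) (nat_lit 1) (nat_lit 4) (nat_lit 427) (nat_lit 351) (nat_lit 242)) (XT.nd (nat_lit 78) (nat_lit 0) (nat_lit 0) (XT.lf (nat_lit 0) (nat_lit 17175697250424) (nat_lit 152) (nat_lit 77771352658389) (nat_lit 0) (nat_lit 17159556620581) (nat_lit 1) (nat_lit 5) (nat_lit 3) (nat_lit 4) (nat_lit 1) (nat_lit 4) (nat_lit 428) (nat_lit 351) (nat_lit 241)) (XT.lf (nat_lit 0) (nat_lit 19957104707295) (nat_lit 152) (nat_lit 88993406168430) (nat_lit 0) (nat_lit 19940964077009) (nat_lit 1) (nat_lit 5) (nat_lit 3) (nat_lit 4) (nat_lit 1) (nat_lit 4) (nat_lit 429) (nat_lit 351) (nat_lit 240)))) (XT.nd (nat_lit 78) (nat_lit 0) (nat_lit 0) (XT.lf (nat_lit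 0) (nat_lit 23155723272048) (nat_lit 152) (nat_lit 101898767727749) (nat_lit 0) (nat_lit 23139582641375) (nat_lit 1) (nat_lit 5) (nat_lit 3) (nat_lit 4) (nat_lit 1) (nat_lit 4) (nat_lit 430) (nat_lit 351) (nat_lit 239)) (XT.nd (nat_lit 78) (nat_lit 0) (nat_lit 0) (XT.lf (nat_lit 0) (nat_lit 26834134612252) (nat_lit 152) (nat_lit 116739933540768) (nat_lit 0) (nat_lit 26817993981245) (nat_lit 1) (nat_lit 5) (nat_lit 3) (nat_lit 4) (nat_lit 1) (nat_lit 4) (nat_lit 431) (nat_lit 351) (nat_lit 238)) (XT.lf (nat_lit 0) (nat_lit 31064307645434) (nat_lit 152) (nat_lit 133807274242959) (nat_lit 0) (nat_lit 31048167014136) (nat_lit 1) (nat_lit 5) (nat_lit 3) (nat_lit 4) (nat_lit 1) (nat_lit 4) (nat_lit 432) (nat_lit 351) (nat_lit 237)))))) (XT.nd (nat_lit 46956) (nat_lit 0) (nat_lit 2432) (XT.nd (nat_lit 234) (nat_lit 0) (nat_lit 0) (XT.nd (nat_lit 78) (nat_lit 0) (nat_lit 0) (XT.lf (nat_lit 0) (nat_lit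 35929006626591) (nat_lit 152) (nat_lit 153434716065453) (nat_lit 0) (nat_lit 35912865995040) (nat_lit 1) (nat_lit 5) (nat_lit 3) (nat_lit 4) (nat_lit 1) (nat_lit 4) (nat_lit 433) (nat_lit 351) (nat_lit 236)) (XT.nd (nat_lit 78) (nat_lit 0) (nat_lit 0) (XT.lf (nat_lit 0) (nat_lit 41523410448833) (nat_lit 152) (nat_lit 176006274174340) (nat_lit 0) (nat_lit 41507269817061) (nat_lit 1) (nat_lit 5) (nat_lit 3) (nat_lit 4) (nat_lit 1) (nat_lit 4) (nat_lit 434) (nat_lit 351) (nat_lit 235)) (XT.lf (nat_lit 0) (nat_lit 47956974839117) (nat_lit 152) (nat_lit 201963566010882) (nat_lit 0) (nat_lit 47940834207153) (nat_lit 1) (nat_lit 5) (nat_lit 3) (nat_lit 4) (nat_lit 1) (nat_lit 4) (nat_lit 435) (nat_lit 351) (nat_lit 234)))) (XT.nd (nat_lit 46566) (nat_lit 0) (nat_lit 2736) (XT.lf (nat_lit 0) (nat_lit 55355573883339) (nat_lit 152) (nat_lit 231814451632752) (nat_lit 0) (nat_lit 55339433251208) (nat_lit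 1) (nat_lit 5) (nat_lit 3) (nat_lit 4) (nat_lit 1) (nat_lit 4) (nat_lit 436) (nat_lit 351) (nat_lit 233)) (XT.nd (nat_lit 78) (nat_lit 0) (nat_lit 0) (XT.lf (nat_lit 0) (nat_lit 2811775782) (nat_lit 380) (nat_lit 4037907402) (nat_lit 380) (nat_lit 4037907402) (nat_lit 37) (nat_lit 3) (nat_lit 42) (nat_lit 3) (nat_lit 42) (nat_lit 5) (nat_lit 352) (nat_lit 352) (nat_lit 316)) (XT.lf (nat_lit 76) (nat_lit 2986342157) (nat_lit 0) (nat_lit 3311509233) (nat_lit 380) (nat_lit 17072527553) (nat_lit 38) (nat_lit 5) (nat_lit 37) (nat_lit 3) (nat_lit 42) (nat_lit 5) (nat_lit 353) (nat_lit 352) (nat_lit 315))))) (XT.nd (nat_lit 234) (nat_lit 380) (nat_lit 0) (XT.nd (nat_lit 78) (nat_lit 0) (nat_lit 0) (XT.lf (nat_lit 0) (nat_lit 7849908800) (nat_lit 304) (nat_lit 8922147635) (nat_lit 380) (nat_lit 8316318876) (nat_lit 38) (nat_lit 5) (nat_lit 42) (nat_lit 5) (nat_lit 43) (nat_lit 5) (nat_lit 354)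 (nat_lit 352) (nat_lit 314)) (XT.nd (nat_lit 78) (nat_lit 0) (nat_lit 76) (XT.lf (nat_lit 76) (nat_lit 4484575220) (nat_lit 0) (nat_lit 5473437891) (nat_lit 380) (nat_lit 17057581692) (nat_lit 39) (nat_lit 5) (nat_lit 38) (nat_lit 5) (nat_lit 43) (nat_lit 5) (nat_lit 355) (nat_lit 352) (nat_lit 313)) (XT.lf (nat_lit 0) (nat_lit 13164278148) (nat_lit 304) (nat_lit 8608629483) (nat_lit 76) (nat_lit 7341706014) (nat_lit 39) (nat_lit 5) (nat_lit 43) (nat_lit 5) (nat_lit 40) (nat_lit 5) (nat_lit 356) (nat_lit 352) (nat_lit 312)))) (XT.nd (nat_lit 156) (nat_lit 152) (nat_lit 0) (XT.nd (nat_lit 78) (nat_lit 0) (nat_lit 0) (XT.lf (nat_lit 0) (nat_lit 7822091211) (nat_lit 304) (nat_lit 9598245322) (nat_lit 380) (nat_lit 14022827859) (nat_lit 35) (nat_lit 5) (nat_lit 39) (nat_lit 5) (nat_lit 40) (nat_lit 5) (nat_lit 357) (nat_lit 352) (nat_lit 311)) (XT.lf (nat_lit 0) (nat_lit 22954238946) (nat_lit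 380) (nat_lit 6589477707) (nat_lit 76) (nat_lit 4481371996) (nat_lit 35) (nat_lit 5) (nat_lit 40) (nat_lit 5) (nat_lit 36) (nat_lit 5) (nat_lit 358) (nat_lit 352) (nat_lit 310))) (XT.nd (nat_lit 78) (nat_lit 0) (nat_lit 0) (XT.lf (nat_lit 0) (nat_lit 13748897403) (nat_lit 152) (nat_lit 16583272765) (nat_lit 228) (nat_lit 6510045243) (nat_lit 33) (nat_lit 5) (nat_lit 35) (nat_lit 5) (nat_lit 36) (nat_lit 5) (nat_lit 359) (nat_lit 352) (nat_lit 309)) (XT.lf (nat_lit 0) (nat_lit 37864352201) (nat_lit 152) (nat_lit 1285491748) (nat_lit 228) (nat_lit 882113989) (nat_lit 33) (nat_lit 5) (nat_lit 35) (nat_lit 5) (nat_lit 36) (nat_lit 5) (nat_lit 360) (nat_lit 352) (nat_lit 308))))))) (XT.nd (nat_lit 1014) (nat_lit 760) (nat_lit 0) (XT.nd (nat_lit 468) (nat_lit 456) (nat_lit 0) (XT.nd (nat_lit 234) (nat_lit 228) (nat_lit 0) (XT.nd (nat_lit 78) (nat_lit 152) (nat_lit 0) (XT.lf (nat_lit 0) (nat_lit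 6799145247) (nat_lit 152) (nat_lit 20484286569) (nat_lit 76) (nat_lit 16125993120) (nat_lit 31) (nat_lit 5) (nat_lit 33) (nat_lit 5) (nat_lit 32) (nat_lit 5) (nat_lit 361) (nat_lit 352) (nat_lit 307)) (XT.nd (nat_lit 78) (nat_lit 0) (nat_lit 0) (XT.lf (nat_lit 0) (nat_lit 5078277206) (nat_lit 152) (nat_lit 10844506049) (nat_lit 228) (nat_lit 31307355757) (nat_lit 29) (nat_lit 5) (nat_lit 31) (nat_lit 5) (nat_lit 32) (nat_lit 5) (nat_lit 362) (nat_lit 352) (nat_lit 306)) (XT.lf (nat_lit 0) (nat_lit 27861310686) (nat_lit 228) (nat_lit 15085335503) (nat_lit 76) (nat_lit 8460365130) (nat_lit 29) (nat_lit 5) (nat_lit 32) (nat_lit 5) (nat_lit 30) (nat_lit 4) (nat_lit 363) (nat_lit 352) (nat_lit 305)))) (XT.nd (nat_lit 78) (nat_lit 152) (nat_lit 0) (XT.lf (nat_lit 0) (nat_lit 17027998705) (nat_lit 76) (nat_lit 25776140212) (nat_lit 152) (nat_lit 13224249630) (nat_lit 28) (nat_lit 5) (nat_lit 29)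 (nat_lit 5) (nat_lit 30) (nat_lit 4) (nat_lit 364) (nat_lit 352) (nat_lit 304)) (XT.nd (nat_lit 78) (nat_lit 152) (nat_lit 0) (XT.lf (nat_lit 0) (nat_lit 55641580870) (nat_lit 76) (nat_lit 5127923457) (nat_lit 152) (nat_lit 456303112) (nat_lit 28) (nat_lit 5) (nat_lit 29) (nat_lit 5) (nat_lit 30) (nat_lit 4) (nat_lit 365) (nat_lit 352) (nat_lit 303)) (XT.lf (nat_lit 0) (nat_lit 15287697197) (nat_lit 152) (nat_lit 32369057768) (nat_lit 76) (nat_lit 19108605332) (nat_lit 26) (nat_lit 5) (nat_lit 28) (nat_lit 5) (nat_lit 27) (nat_lit 4) (nat_lit 366) (nat_lit 352) (nat_lit 302))))) (XT.nd (nat_lit 234) (nat_lit 304) (nat_lit 0) (XT.nd (nat_lit 78) (nat_lit 76) (nat_lit 0) (XT.lf (nat_lit 0) (nat_lit 8362646325) (nat_lit 76) (nat_lit 25873685147) (nat_lit 152) (nat_lit 38762794033) (nat_lit 25) (nat_lit 5) (nat_lit 26) (nat_lit 5) (nat_lit 27) (nat_lit 4) (nat_lit 367) (nat_lit 352) (nat_lit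 301)) (XT.nd (nat_lit 78) (nat_lit 76) (nat_lit 0) (XT.lf (nat_lit 0) (nat_lit 57759444885) (nat_lit 152) (nat_lit 21130370392) (nat_lit 0) (nat_lit 1018313776) (nat_lit 25) (nat_lit 5) (nat_lit 27) (nat_lit 4) (nat_lit 25) (nat_lit 4) (nat_lit 368) (nat_lit 352) (nat_lit 300)) (XT.lf (nat_lit 0) (nat_lit 30362500081) (nat_lit 76) (nat_lit 56932354309) (nat_lit 76) (nat_lit 186055386) (nat_lit 24) (nat_lit 4) (nat_lit 25) (nat_lit 5) (nat_lit 25) (nat_lit 4) (nat_lit 369) (nat_lit 352) (nat_lit 299)))) (XT.nd (nat_lit 156) (nat_lit 152) (nat_lit 0) (XT.nd (nat_lit 78) (nat_lit 76) (nat_lit 0) (XT.lf (nat_lit 0) (nat_lit 23990686758) (nat_lit 152) (nat_lit 5170816143) (nat_lit 76) (nat_lit 66699628678) (nat_lit 23) (nat_lit 5) (nat_lit 25) (nat_lit 5) (nat_lit 24) (nat_lit 4) (nat_lit 370) (nat_lit 352) (nat_lit 298)) (XT.lf (nat_lit 0) (nat_lit 54483000195) (nat_lit 152) (nat_lit 45476754970)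 (nat_lit 0) (nat_lit 5131086905) (nat_lit 22) (nat_lit 5) (nat_lit 24) (nat_lit 4) (nat_lit 22) (nat_lit 4) (nat_lit 371) (nat_lit 352) (nat_lit 297))) (XT.nd (nat_lit 78) (nat_lit 76) (nat_lit 0) (XT.lf (nat_lit 0) (nat_lit 19345123959) (nat_lit 76) (nat_lit 72672260121) (nat_lit 76) (nat_lit 23317392117) (nat_lit 21) (nat_lit 4) (nat_lit 22) (nat_lit 5) (nat_lit 22) (nat_lit 4) (nat_lit 372) (nat_lit 352) (nat_lit 296)) (XT.lf (nat_lit 0) (nat_lit 9834287424) (nat_lit 152) (nat_lit 28213719358) (nat_lit 76) (nat_lit 88644319474) (nat_lit 20) (nat_lit 5) (nat_lit 22) (nat_lit 5) (nat_lit 21) (nat_lit 4) (nat_lit 373) (nat_lit 352) (nat_lit 295)))))) (XT.nd (nat_lit 468) (nat_lit 380) (nat_lit 0) (XT.nd (nat_lit 234) (nat_lit 228) (nat_lit 0) (XT.nd (nat_lit 78) (nat_lit 76) (nat_lit 0) (XT.lf (nat_lit 0) (nat_lit 48008257457) (nat_lit 152) (nat_lit 86126375668) (nat_lit 0) (nat_lit 5086803970)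 (nat_lit 19) (nat_lit 5) (nat_lit 21) (nat_lit 4) (nat_lit 19) (nat_lit 4) (nat_lit 374) (nat_lit 352) (nat_lit 294)) (XT.nd (nat_lit 78) (nat_lit 76) (nat_lit 0) (XT.lf (nat_lit 0) (nat_lit 95261238975) (nat_lit 152) (nat_lit 5527642395) (nat_lit 0) (nat_lit 52338096122) (nat_lit 19) (nat_lit 5) (nat_lit 21) (nat_lit 4) (nat_lit 19) (nat_lit 4) (nat_lit 375) (nat_lit 352) (nat_lit 293)) (XT.lf (nat_lit 0) (nat_lit 95671350507) (nat_lit 76) (nat_lit 57888945664) (nat_lit 76) (nat_lit 14964333795) (nat_lit 18) (nat_lit 4) (nat_lit 19) (nat_lit 5) (nat_lit 19) (nat_lit 4) (nat_lit 376) (nat_lit 352) (nat_lit 292)))) (XT.nd (nat_lit 78) (nat_lit 76) (nat_lit 0) (XT.lf (nat_lit 0) (nat_lit 27485881025) (nat_lit 76) (nat_lit 5263779578) (nat_lit 152) (nat_lit 153053161917) (nat_lit 16) (nat_lit 5) (nat_lit 17) (nat_lit 5) (nat_lit 18) (nat_lit 4) (nat_lit 377) (nat_lit 352) (nat_lit 291)) (XT.nd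 (nat_lit 78) (nat_lit 76) (nat_lit 0) (XT.lf (nat_lit 0) (nat_lit 92362907288) (nat_lit 152) (nat_lit 57226735230) (nat_lit 0) (nat_lit 55035081149) (nat_lit 16) (nat_lit 5) (nat_lit 18) (nat_lit 4) (nat_lit 16) (nat_lit 4) (nat_lit 378) (nat_lit 352) (nat_lit 290)) (XT.lf (nat_lit 0) (nat_lit 64513785180) (nat_lit 76) (nat_lit 99323462508) (nat_lit 76) (nat_lit 61994796454) (nat_lit 15) (nat_lit 4) (nat_lit 16) (nat_lit 5) (nat_lit 16) (nat_lit 4) (nat_lit 379) (nat_lit 352) (nat_lit 289))))) (XT.nd (nat_lit 234) (nat_lit 228) (nat_lit 0) (XT.nd (nat_lit 78) (nat_lit 152) (nat_lit 0) (XT.lf (nat_lit 0) (nat_lit 210941138242) (nat_lit 76) (nat_lit 38080214483) (nat_lit 76) (nat_lit 750818069) (nat_lit 15) (nat_lit 4) (nat_lit 16) (nat_lit 5) (nat_lit 16) (nat_lit 4) (nat_lit 380) (nat_lit 352) (nat_lit 288)) (XT.nd (nat_lit 78) (nat_lit 0) (nat_lit 0) (XT.lf (nat_lit 0) (nat_lit 69671546551)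 (nat_lit 152) (nat_lit 169059052397) (nat_lit 0) (nat_lit 37210649586) (nat_lit 13) (nat_lit 5) (nat_lit 15) (nat_lit 4) (nat_lit 13) (nat_lit 4) (nat_lit 381) (nat_lit 352) (nat_lit 287)) (XT.lf (nat_lit 0) (nat_lit 154517680892) (nat_lit 152) (nat_lit 28865747772) (nat_lit 0) (nat_lit 122056303704) (nat_lit 13) (nat_lit 5) (nat_lit 15) (nat_lit 4) (nat_lit 13) (nat_lit 4) (nat_lit 382) (nat_lit 352) (nat_lit 286)))) (XT.nd (nat_lit 156) (nat_lit 76) (nat_lit 0) (XT.nd (nat_lit 78) (nat_lit 76) (nat_lit 0) (XT.lf (nat_lit 0) (nat_lit 145286372734) (nat_lit 76) (nat_lit 112818169905) (nat_lit 76) (nat_lit 80356375131) (nat_lit 12) (nat_lit 4) (nat_lit 13) (nat_lit 5) (nat_lit 13) (nat_lit 4) (nat_lit 383) (nat_lit 352) (nat_lit 285)) (XT.lf (nat_lit 0) (nat_lit 2302008928) (nat_lit 152) (nat_lit 27512838696) (nat_lit 76) (nat_lit 346378717212) (nat_lit 11) (nat_lit 5) (nat_lit 13) (nat_lit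 5) (nat_lit 12) (nat_lit 4) (nat_lit 384) (nat_lit 352) (nat_lit 284))) (XT.nd (nat_lit 78) (nat_lit 0) (nat_lit 0) (XT.lf (nat_lit 0) (nat_lit 99609796645) (nat_lit 152) (nat_lit 246449138330) (nat_lit 0) (nat_lit 71381558691) (nat_lit 10) (nat_lit 5) (nat_lit 12) (nat_lit 4) (nat_lit 10) (nat_lit 4) (nat_lit 385) (nat_lit 352) (nat_lit 283)) (XT.lf (nat_lit 0) (nat_lit 214438269543) (nat_lit 152) (nat_lit 63787721939) (nat_lit 0) (nat_lit 186209792832) (nat_lit 10) (nat_lit 5) (nat_lit 12) (nat_lit 4) (nat_lit 10) (nat_lit 4) (nat_lit 386) (nat_lit 352) (nat_lit 282))))))))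
noncomputable def xc69 : XT := (XT.nd (nat_lit 1950) (nat_lit 0) (nat_lit 0) (XT.nd (nat_lit 936) (nat_lit 228) (nat_lit 0) (XT.nd (nat_lit 468) (nat_lit 152) (nat_lit 0) (XT.nd (nat_lit 234) (nat_lit 76) (nat_lit 0) (XT.nd (nat_lit 78) (nat_lit 152) (nat_lit 0) (XT.lf (nat_lit 0) (nat_lit 160563947515) (nat_lit 76) (nat_lit 192574030367) (nat_lit 76) (nat_lit 164345346043) (nat_lit 9) (nat_lit 4) (nat_lit 10) (nat_lit 5) (nat_lit 10) (nat_lit 4) (nat_lit 387) (nat_lit 352) (nat_lit 281)) (XT.nd (nat_lit 78) (nat_lit 152) (nat_lit 0) (XT.lf (nat_lit 0) (nat_lit 425733923015) (nat_lit 76) (nat_lit 90241508964) (nat_lit 76) (nat_lit 62012644106) (nat_lit 9) (nat_lit 4) (nat_lit 10) (nat_lit 5) (nat_lit 10) (nat_lit 4) (nat_lit 388) (nat_lit 352) (nat_lit 280)) (XT.lf (nat_lit 0) (nat_lit 55806127597) (nat_lit 152) (nat_lit 559393641817) (nat_lit 0) (nat_lit 31259152080) (nat_lit 7) (nat_lit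 5) (nat_lit 9) (nat_lit 4) (nat_lit 7) (nat_lit 4) (nat_lit 389) (nat_lit 352) (nat_lit 279)))) (XT.nd (nat_lit 78) (nat_lit 76) (nat_lit 0) (XT.lf (nat_lit 0) (nat_lit 197582318497) (nat_lit 152) (nat_lit 352244875956) (nat_lit 0) (nat_lit 173035224276) (nat_lit 7) (nat_lit 5) (nat_lit 9) (nat_lit 4) (nat_lit 7) (nat_lit 4) (nat_lit 390) (nat_lit 352) (nat_lit 278)) (XT.nd (nat_lit 78) (nat_lit 76) (nat_lit 0) (XT.lf (nat_lit 0) (nat_lit 360623698781) (nat_lit 152) (nat_lit 114026426337) (nat_lit 0) (nat_lit 336076501340) (nat_lit 7) (nat_lit 5) (nat_lit 9) (nat_lit 4) (nat_lit 7) (nat_lit 4) (nat_lit 391) (nat_lit 352) (nat_lit 277)) (XT.lf (nat_lit 0) (nat_lit 175551292838) (nat_lit 76) (nat_lit 379838120332) (nat_lit 76) (nat_lit 355290833133) (nat_lit 6) (nat_lit 4) (nat_lit 7) (nat_lit 5) (nat_lit 7) (nat_lit 4) (nat_lit 392) (nat_lit 352) (nat_lit 276))))) (XT.nd (nat_lit 234) (nat_lit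 0) (nat_lit 0) (XT.nd (nat_lit 78) (nat_lit 152) (nat_lit 0) (XT.lf (nat_lit 0) (nat_lit 521378501371) (nat_lit 76) (nat_lit 263950928149) (nat_lit 76) (nat_lit 239403562901) (nat_lit 6) (nat_lit 4) (nat_lit 7) (nat_lit 5) (nat_lit 7) (nat_lit 4) (nat_lit 393) (nat_lit 352) (nat_lit 275)) (XT.nd (nat_lit 78) (nat_lit 152) (nat_lit 0) (XT.lf (nat_lit 0) (nat_lit 919077892109) (nat_lit 76) (nat_lit 130681662748) (nat_lit 76) (nat_lit 106134229630) (nat_lit 6) (nat_lit 4) (nat_lit 7) (nat_lit 5) (nat_lit 7) (nat_lit 4) (nat_lit 394) (nat_lit 352) (nat_lit 274)) (XT.lf (nat_lit 0) (nat_lit 47183251710) (nat_lit 152) (nat_lit 1232777154354) (nat_lit 0) (nat_lit 25837606376) (nat_lit 4) (nat_lit 5) (nat_lit 6) (nat_lit 4) (nat_lit 4) (nat_lit 4) (nat_lit 395) (nat_lit 352) (nat_lit 273)))) (XT.nd (nat_lit 78) (nat_lit 0) (nat_lit 0) (XT.lf (nat_lit 0) (nat_lit 231822844950) (nat_lit 152) (nat_lit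 1032251181032) (nat_lit 0) (nat_lit 210477154991) (nat_lit 4) (nat_lit 5) (nat_lit 6) (nat_lit 4) (nat_lit 4) (nat_lit 4) (nat_lit 396) (nat_lit 352) (nat_lit 272)) (XT.nd (nat_lit 78) (nat_lit 0) (nat_lit 0) (XT.lf (nat_lit 0) (nat_lit 444157670690) (nat_lit 152) (nat_lit 801647818150) (nat_lit 0) (nat_lit 422811941926) (nat_lit 4) (nat_lit 5) (nat_lit 6) (nat_lit 4) (nat_lit 4) (nat_lit 4) (nat_lit 397) (nat_lit 352) (nat_lit 271)) (XT.lf (nat_lit 0) (nat_lit 688342105955) (nat_lit 152) (nat_lit 536455260781) (nat_lit 0) (nat_lit 666996343448) (nat_lit 4) (nat_lit 5) (nat_lit 6) (nat_lit 4) (nat_lit 4) (nat_lit 4) (nat_lit 398) (nat_lit 352) (nat_lit 270)))))) (XT.nd (nat_lit 468) (nat_lit 152) (nat_lit 0) (XT.nd (nat_lit 234) (nat_lit 0) (nat_lit 0) (XT.nd (nat_lit 78) (nat_lit 76) (nat_lit 0) (XT.lf (nat_lit 0) (nat_lit 969153672305) (nat_lit 152) (nat_lit 231484958891) (nat_lit 0)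 (nat_lit 947807880456) (nat_lit 4) (nat_lit 5) (nat_lit 6) (nat_lit 4) (nat_lit 4) (nat_lit 4) (nat_lit 399) (nat_lit 352) (nat_lit 269)) (XT.nd (nat_lit 78) (nat_lit 0) (nat_lit 0) (XT.lf (nat_lit 0) (nat_lit 130881910510) (nat_lit 76) (nat_lit 1166624139378) (nat_lit 76) (nat_lit 1145278322015) (nat_lit 3) (nat_lit 4) (nat_lit 4) (nat_lit 5) (nat_lit 4) (nat_lit 4) (nat_lit 400) (nat_lit 352) (nat_lit 268)) (XT.lf (nat_lit 0) (nat_lit 573618617606) (nat_lit 76) (nat_lit 1113592573543) (nat_lit 76) (nat_lit 1092246733993) (nat_lit 3) (nat_lit 4) (nat_lit 4) (nat_lit 5) (nat_lit 4) (nat_lit 4) (nat_lit 401) (nat_lit 352) (nat_lit 267)))) (XT.nd (nat_lit 78) (nat_lit 0) (nat_lit 0) (XT.lf (nat_lit 0) (nat_lit 1082765008605) (nat_lit 76) (nat_lit 1052606709700) (nat_lit 76) (nat_lit 1031260850857) (nat_lit 3) (nat_lit 4) (nat_lit 4) (nat_lit 5) (nat_lit 4) (nat_lit 4) (nat_lit 402) (nat_lit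 352) (nat_lit 266)) (XT.nd (nat_lit 78) (nat_lit 0) (nat_lit 0) (XT.lf (nat_lit 0) (nat_lit 1668282643332) (nat_lit 76) (nat_lit 982473346166) (nat_lit 76) (nat_lit 961127470547) (nat_lit 3) (nat_lit 4) (nat_lit 4) (nat_lit 5) (nat_lit 4) (nat_lit 4) (nat_lit 403) (nat_lit 352) (nat_lit 265)) (XT.lf (nat_lit 0) (nat_lit 2341627301596) (nat_lit 76) (nat_lit 901820308436) (nat_lit 76) (nat_lit 880474418229) (nat_lit 3) (nat_lit 4) (nat_lit 4) (nat_lit 5) (nat_lit 4) (nat_lit 4) (nat_lit 404) (nat_lit 352) (nat_lit 264))))) (XT.nd (nat_lit 234) (nat_lit 152) (nat_lit 0) (XT.nd (nat_lit 78) (nat_lit 0) (nat_lit 0) (XT.lf (nat_lit 0) (nat_lit 3115973118017) (nat_lit 76) (nat_lit 809069602296) (nat_lit 76) (nat_lit 787723699403) (nat_lit 3) (nat_lit 4) (nat_lit 4) (nat_lit 5) (nat_lit 4) (nat_lit 4) (nat_lit 405) (nat_lit 352) (nat_lit 263)) (XT.nd (nat_lit 78) (nat_lit 0) (nat_lit 0) (XT.lf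 (nat_lit 0) (nat_lit 4006470336828) (nat_lit 76) (nat_lit 702406540014) (nat_lit 76) (nat_lit 681060626091) (nat_lit 3) (nat_lit 4) (nat_lit 4) (nat_lit 5) (nat_lit 4) (nat_lit 4) (nat_lit 406) (nat_lit 352) (nat_lit 262)) (XT.lf (nat_lit 0) (nat_lit 5030541729701) (nat_lit 76) (nat_lit 579744235592) (nat_lit 76) (nat_lit 558398312077) (nat_lit 3) (nat_lit 4) (nat_lit 4) (nat_lit 5) (nat_lit 4) (nat_lit 4) (nat_lit 407) (nat_lit 352) (nat_lit 261)))) (XT.nd (nat_lit 156) (nat_lit 152) (nat_lit 0) (XT.nd (nat_lit 78) (nat_lit 0) (nat_lit 0) (XT.lf (nat_lit 0) (nat_lit 6208223476063) (nat_lit 76) (nat_lit 438682774376) (nat_lit 76) (nat_lit 417336842520) (nat_lit 3) (nat_lit 4) (nat_lit 4) (nat_lit 5) (nat_lit 4) (nat_lit 4) (nat_lit 408) (nat_lit 352) (nat_lit 260)) (XT.lf (nat_lit 0) (nat_lit 7562557175299) (nat_lit 76) (nat_lit 276462258212) (nat_lit 76) (nat_lit 255116319104) (nat_lit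 3) (nat_lit 4) (nat_lit 4) (nat_lit 5) (nat_lit 4) (nat_lit 4) (nat_lit 409) (nat_lit 352) (nat_lit 259))) (XT.nd (nat_lit 78) (nat_lit 152) (nat_lit 0) (XT.lf (nat_lit 0) (nat_lit 9120040660654) (nat_lit 76) (nat_lit 89908807437) (nat_lit 76) (nat_lit 68562862022) (nat_lit 3) (nat_lit 4) (nat_lit 4) (nat_lit 5) (nat_lit 4) (nat_lit 4) (nat_lit 410) (nat_lit 352) (nat_lit 258)) (XT.lf (nat_lit 0) (nat_lit 151024241970) (nat_lit 152) (nat_lit 10353445006995) (nat_lit 0) (nat_lit 132462545535) (nat_lit 1) (nat_lit 5) (nat_lit 3) (nat_lit 4) (nat_lit 1) (nat_lit 4) (nat_lit 411) (nat_lit 352) (nat_lit 257))))))) (XT.nd (nat_lit 1014) (nat_lit 0) (nat_lit 0) (XT.nd (nat_lit 468) (nat_lit 0) (nat_lit 0) (XT.nd (nat_lit 234) (nat_lit 0) (nat_lit 0) (XT.nd (nat_lit 78) (nat_lit 0) (nat_lit 0) (XT.lf (nat_lit 0) (nat_lit 409489348098) (nat_lit 152) (nat_lit 11396263528055) (nat_lit 0) (nat_lit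 390927647517) (nat_lit 1) (nat_lit 5) (nat_lit 3) (nat_lit 4) (nat_lit 1) (nat_lit 4) (nat_lit 412) (nat_lit 352) (nat_lit 256)) (XT.nd (nat_lit 78) (nat_lit 0) (nat_lit 0) (XT.lf (nat_lit 0) (nat_lit 706724120491) (nat_lit 152) (nat_lit 12595505040371) (nat_lit 0) (nat_lit 688162416304) (nat_lit 1) (nat_lit 5) (nat_lit 3) (nat_lit 4) (nat_lit 1) (nat_lit 4) (nat_lit 413) (nat_lit 352) (nat_lit 255)) (XT.lf (nat_lit 0) (nat_lit 1048544022086) (nat_lit 152) (nat_lit 13974632964835) (nat_lit 0) (nat_lit 1029982314763) (nat_lit 1) (nat_lit 5) (nat_lit 3) (nat_lit 4) (nat_lit 1) (nat_lit 4) (nat_lit 414) (nat_lit 352) (nat_lit 254)))) (XT.nd (nat_lit 78) (nat_lit 0) (nat_lit 0) (XT.lf (nat_lit 0) (nat_lit 1441636833566) (nat_lit 152) (nat_lit 15560630239101) (nat_lit 0) (nat_lit 1423075123516) (nat_lit 1) (nat_lit 5) (nat_lit 3) (nat_lit 4) (nat_lit 1) (nat_lit 4) (nat_lit 415) (nat_lit 352)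 (nat_lit 253)) (XT.nd (nat_lit 78) (nat_lit 0) (nat_lit 0) (XT.lf (nat_lit 0) (nat_lit 1893693501243) (nat_lit 152) (nat_lit 17384527244621) (nat_lit 0) (nat_lit 1875131788822) (nat_lit 1) (nat_lit 5) (nat_lit 3) (nat_lit 4) (nat_lit 1) (nat_lit 4) (nat_lit 416) (nat_lit 352) (nat_lit 252)) (XT.lf (nat_lit 0) (nat_lit 2413558612094) (nat_lit 152) (nat_lit 19482008922808) (nat_lit 0) (nat_lit 2394996897611) (nat_lit 1) (nat_lit 5) (nat_lit 3) (nat_lit 4) (nat_lit 1) (nat_lit 4) (nat_lit 417) (nat_lit 352) (nat_lit 251))))) (XT.nd (nat_lit 234) (nat_lit 0) (nat_lit 0) (XT.nd (nat_lit 78) (nat_lit 0) (nat_lit 0) (XT.lf (nat_lit 0) (nat_lit 3011403440025) (nat_lit 152) (nat_lit 21894112958670) (nat_lit 0) (nat_lit 2992841723750) (nat_lit 1) (nat_lit 5) (nat_lit 3) (nat_lit 4) (nat_lit 1) (nat_lit 4) (nat_lit 418) (nat_lit 352) (nat_lit 250)) (XT.nd (nat_lit 78) (nat_lit 0) (nat_lit 0) (XT.lf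 (nat_lit 0) (nat_lit 3698924949063) (nat_lit 152) (nat_lit 24668032692039) (nat_lit 0) (nat_lit 3680363231229) (nat_lit 1) (nat_lit 5) (nat_lit 3) (nat_lit 4) (nat_lit 1) (nat_lit 4) (nat_lit 419) (nat_lit 352) (nat_lit 249)) (XT.lf (nat_lit 0) (nat_lit 4489574646993) (nat_lit 152) (nat_lit 27858040465524) (nat_lit 0) (nat_lit 4471012927803) (nat_lit 1) (nat_lit 5) (nat_lit 3) (nat_lit 4) (nat_lit 1) (nat_lit 4) (nat_lit 420) (nat_lit 352) (nat_lit 248)))) (XT.nd (nat_lit 156) (nat_lit 0) (nat_lit 0) (XT.nd (nat_lit 78) (nat_lit 0) (nat_lit 0) (XT.lf (nat_lit 0) (nat_lit 5398821767034) (nat_lit 152) (nat_lit 31526549474693) (nat_lit 0) (nat_lit 5380260046666) (nat_lit 1) (nat_lit 5) (nat_lit 3) (nat_lit 4) (nat_lit 1) (nat_lit 4) (nat_lit 421) (nat_lit 352) (nat_lit 247)) (XT.lf (nat_lit 0) (nat_lit 6444455926753) (nat_lit 152) (nat_lit 35745334895814) (nat_lit 0) (nat_lit 6425894205360)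 (nat_lit 1) (nat_lit 5) (nat_lit 3) (nat_lit 4) (nat_lit 1) (nat_lit 4) (nat_lit 422) (nat_lit 352) (nat_lit 246))) (XT.nd (nat_lit 78) (nat_lit 0) (nat_lit 0) (XT.lf (nat_lit 0) (nat_lit 7646935185797) (nat_lit 152) (nat_lit 40596938182776) (nat_lit 0) (nat_lit 7628373463513) (nat_lit 1) (nat_lit 5) (nat_lit 3) (nat_lit 4) (nat_lit 1) (nat_lit 4) (nat_lit 423) (nat_lit 352) (nat_lit 245)) (XT.lf (nat_lit 0) (nat_lit 9029786312277) (nat_lit 152) (nat_lit 46176282008587) (nat_lit 0) (nat_lit 9011224589218) (nat_lit 1) (nat_lit 5) (nat_lit 3) (nat_lit 4) (nat_lit 1) (nat_lit 4) (nat_lit 424) (nat_lit 352) (nat_lit 244)))))) (XT.nd (nat_lit 468) (nat_lit 0) (nat_lit 0) (XT.nd (nat_lit 234) (nat_lit 0) (nat_lit 0) (XT.nd (nat_lit 78) (nat_lit 0) (nat_lit 0) (XT.lf (nat_lit 0) (nat_lit 10620065089103) (nat_lit 152) (nat_lit 52592527448098) (nat_lit 0) (nat_lit 10601503365370) (nat_lit 1) (nat_lit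 5) (nat_lit 3) (nat_lit 4) (nat_lit 1) (nat_lit 4) (nat_lit 425) (nat_lit 352) (nat_lit 243)) (XT.nd (nat_lit 78) (nat_lit 0) (nat_lit 0) (XT.lf (nat_lit 0) (nat_lit 12448885666257) (nat_lit 152) (nat_lit 59971209738171) (nat_lit 0) (nat_lit 12430323941937) (nat_lit 1) (nat_lit 5) (nat_lit 3) (nat_lit 4) (nat_lit 1) (nat_lit 4) (nat_lit 426) (nat_lit 352) (nat_lit 242)) (XT.lf (nat_lit 0) (nat_lit 14552029315899) (nat_lit 152) (nat_lit 68456694401871) (nat_lit 0) (nat_lit 14533467591069) (nat_lit 1) (nat_lit 5) (nat_lit 3) (nat_lit 4) (nat_lit 1) (nat_lit 4) (nat_lit 427) (nat_lit 352) (nat_lit 241)))) (XT.nd (nat_lit 78) (nat_lit 0) (nat_lit 0) (XT.lf (nat_lit 0) (nat_lit 16970644500740) (nat_lit 152) (nat_lit 78215001791314) (nat_lit 0) (nat_lit 16952082775467) (nat_lit 1) (nat_lit 5) (nat_lit 3) (nat_lit 4) (nat_lit 1) (nat_lit 4) (nat_lit 428) (nat_lit 352) (nat_lit 240)) (XT.nd (nat_lit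 78) (nat_lit 0) (nat_lit 0) (XT.lf (nat_lit 0) (nat_lit 19752051952657) (nat_lit 152) (nat_lit 89437055311946) (nat_lit 0) (nat_lit 19733490226999) (nat_lit 1) (nat_lit 5) (nat_lit 3) (nat_lit 4) (nat_lit 1) (nat_lit 4) (nat_lit 429) (nat_lit 352) (nat_lit 239)) (XT.lf (nat_lit 0) (nat_lit 22950670513102) (nat_lit 152) (nat_lit 102342416880475) (nat_lit 0) (nat_lit 22932108787109) (nat_lit 1) (nat_lit 5) (nat_lit 3) (nat_lit 4) (nat_lit 1) (nat_lit 4) (nat_lit 430) (nat_lit 352) (nat_lit 238))))) (XT.nd (nat_lit 234) (nat_lit 0) (nat_lit 0) (XT.nd (nat_lit 78) (nat_lit 0) (nat_lit 0) (XT.lf (nat_lit 0) (nat_lit 26629081849561) (nat_lit 152) (nat_lit 117183582701503) (nat_lit 0) (nat_lit 26610520123277) (nat_lit 1) (nat_lit 5) (nat_lit 3) (nat_lit 4) (nat_lit 1) (nat_lit 4) (nat_lit 431) (nat_lit 352) (nat_lit 237)) (XT.nd (nat_lit 78) (nat_lit 0) (nat_lit 0) (XT.lf (nat_lit 0) (nat_lit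 30859254879486) (nat_lit 152) (nat_lit 134250923410659) (nat_lit 0) (nat_lit 30840693152949) (nat_lit 1) (nat_lit 5) (nat_lit 3) (nat_lit 4) (nat_lit 1) (nat_lit 4) (nat_lit 432) (nat_lit 352) (nat_lit 236)) (XT.lf (nat_lit 0) (nat_lit 35723953857812) (nat_lit 152) (nat_lit 153878365239208) (nat_lit 0) (nat_lit 35705392131054) (nat_lit 1) (nat_lit 5) (nat_lit 3) (nat_lit 4) (nat_lit 1) (nat_lit 4) (nat_lit 433) (nat_lit 352) (nat_lit 235)))) (XT.nd (nat_lit 156) (nat_lit 0) (nat_lit 0) (XT.nd (nat_lit 78) (nat_lit 0) (nat_lit 0) (XT.lf (nat_lit 0) (nat_lit 41318357677591) (nat_lit 152) (nat_lit 176449923353362) (nat_lit 0) (nat_lit 41299795950641) (nat_lit 1) (nat_lit 5) (nat_lit 3) (nat_lit 4) (nat_lit 1) (nat_lit 4) (nat_lit 434) (nat_lit 352) (nat_lit 234)) (XT.lf (nat_lit 0) (nat_lit 47751922065733) (nat_lit 152) (nat_lit 202407215194483) (nat_lit 0) (nat_lit 47733360338617) (nat_lit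 1) (nat_lit 5) (nat_lit 3) (nat_lit 4) (nat_lit 1) (nat_lit 4) (nat_lit 435) (nat_lit 352) (nat_lit 233))) (XT.nd (nat_lit 46644) (nat_lit 0) (nat_lit 2736) (XT.lf (nat_lit 0) (nat_lit 55150521108093) (nat_lit 152) (nat_lit 232258100820335) (nat_lit 0) (nat_lit 55131959380832) (nat_lit 1) (nat_lit 5) (nat_lit 3) (nat_lit 4) (nat_lit 1) (nat_lit 4) (nat_lit 436) (nat_lit 352) (nat_lit 232)) (XT.lf (nat_lit 0) (nat_lit 3357081092) (nat_lit 380) (nat_lit 4572529479) (nat_lit 380) (nat_lit 4572529479) (nat_lit 37) (nat_lit 3) (nat_lit 42) (nat_lit 3) (nat_lit 42) (nat_lit 5) (nat_lit 353) (nat_lit 353) (nat_lit 314))))))))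
noncomputable def xc70 : XT := (XT.nd (nat_lit 1950) (nat_lit 988) (nat_lit 0) (XT.nd (nat_lit 936) (nat_lit 912) (nat_lit 0) (XT.nd (nat_lit 468) (nat_lit 532) (nat_lit 0) (XT.nd (nat_lit 234) (nat_lit 152) (nat_lit 0) (XT.nd (nat_lit 78) (nat_lit 0) (nat_lit 76) (XT.lf (nat_lit 76) (nat_lit 3569961182) (nat_lit 0) (nat_lit 3893035961) (nat_lit 380) (nat_lit 19379767072) (nat_lit 38) (nat_lit 5) (nat_lit 37) (nat_lit 3) (nat_lit 42) (nat_lit 5) (nat_lit 354) (nat_lit 353) (nat_lit 313)) (XT.nd (nat_lit 78) (nat_lit 0) (nat_lit 0) (XT.lf (nat_lit 0) (nat_lit 9216053070) (nat_lit 304) (nat_lit 10110599631) (nat_lit 380) (nat_lit 9496592072) (nat_lit 38) (nat_lit 5) (nat_lit 42) (nat_lit 5) (nat_lit 43) (nat_lit 5) (nat_lit 355) (nat_lit 353) (nat_lit 312)) (XT.lf (nat_lit 76) (nat_lit 5300319373) (nat_lit 0) (nat_lit 6321369818) (nat_lit 380) (nat_lit 19420672071) (nat_lit 39) (nat_lit 5)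 (nat_lit 38) (nat_lit 5) (nat_lit 43) (nat_lit 5) (nat_lit 356) (nat_lit 353) (nat_lit 311)))) (XT.nd (nat_lit 78) (nat_lit 304) (nat_lit 0) (XT.lf (nat_lit 0) (nat_lit 15285754278) (nat_lit 304) (nat_lit 9752319405) (nat_lit 76) (nat_lit 8421640200) (nat_lit 39) (nat_lit 5) (nat_lit 43) (nat_lit 5) (nat_lit 40) (nat_lit 5) (nat_lit 357) (nat_lit 353) (nat_lit 310)) (XT.nd (nat_lit 78) (nat_lit 0) (nat_lit 0) (XT.lf (nat_lit 0) (nat_lit 9136300098) (nat_lit 304) (nat_lit 11030603178) (nat_lit 380) (nat_lit 15972650380) (nat_lit 35) (nat_lit 5) (nat_lit 39) (nat_lit 5) (nat_lit 40) (nat_lit 5) (nat_lit 358) (nat_lit 353) (nat_lit 309)) (XT.lf (nat_lit 0) (nat_lit 26513741580) (nat_lit 380) (nat_lit 7438181925) (nat_lit 76) (nat_lit 5159423028) (nat_lit 35) (nat_lit 5) (nat_lit 40) (nat_lit 5) (nat_lit 36) (nat_lit 5) (nat_lit 359) (nat_lit 353) (nat_lit 308))))) (XT.nd (nat_lit 234) (nat_lit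 228) (nat_lit 0) (XT.nd (nat_lit 78) (nat_lit 152) (nat_lit 0) (XT.lf (nat_lit 0) (nat_lit 15944598659) (nat_lit 152) (nat_lit 19044107978) (nat_lit 228) (nat_lit 7363790624) (nat_lit 33) (nat_lit 5) (nat_lit 35) (nat_lit 5) (nat_lit 36) (nat_lit 5) (nat_lit 360) (nat_lit 353) (nat_lit 307)) (XT.nd (nat_lit 78) (nat_lit 152) (nat_lit 0) (XT.lf (nat_lit 0) (nat_lit 43659976026) (nat_lit 152) (nat_lit 1455136638) (nat_lit 228) (nat_lit 907682039) (nat_lit 33) (nat_lit 5) (nat_lit 35) (nat_lit 5) (nat_lit 36) (nat_lit 5) (nat_lit 361) (nat_lit 353) (nat_lit 306)) (XT.lf (nat_lit 0) (nat_lit 7909792984) (nat_lit 152) (nat_lit 23424923509) (nat_lit 76) (nat_lit 18572476977) (nat_lit 31) (nat_lit 5) (nat_lit 33) (nat_lit 5) (nat_lit 32) (nat_lit 5) (nat_lit 362) (nat_lit 353) (nat_lit 305)))) (XT.nd (nat_lit 78) (nat_lit 76) (nat_lit 0) (XT.lf (nat_lit 0) (nat_lit 5966024557) (nat_lit 152) (nat_lit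 12429329425) (nat_lit 228) (nat_lit 35906657841) (nat_lit 29) (nat_lit 5) (nat_lit 31) (nat_lit 5) (nat_lit 32) (nat_lit 5) (nat_lit 363) (nat_lit 353) (nat_lit 304)) (XT.nd (nat_lit 78) (nat_lit 76) (nat_lit 0) (XT.lf (nat_lit 0) (nat_lit 32115190996) (nat_lit 228) (nat_lit 17229074275) (nat_lit 76) (nat_lit 9762573404) (nat_lit 29) (nat_lit 5) (nat_lit 32) (nat_lit 5) (nat_lit 30) (nat_lit 4) (nat_lit 364) (nat_lit 353) (nat_lit 303)) (XT.lf (nat_lit 0) (nat_lit 19695848175) (nat_lit 76) (nat_lit 29598559922) (nat_lit 152) (nat_lit 15127772534) (nat_lit 28) (nat_lit 5) (nat_lit 29) (nat_lit 5) (nat_lit 30) (nat_lit 4) (nat_lit 365) (nat_lit 353) (nat_lit 302)))))) (XT.nd (nat_lit 468) (nat_lit 532) (nat_lit 0) (XT.nd (nat_lit 234) (nat_lit 152) (nat_lit 0) (XT.nd (nat_lit 78) (nat_lit 228) (nat_lit 0) (XT.lf (nat_lit 0) (nat_lit 64086643796) (nat_lit 76) (nat_lit 5858849957) (nat_lit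 152) (nat_lit 455083761) (nat_lit 28) (nat_lit 5) (nat_lit 29) (nat_lit 5) (nat_lit 30) (nat_lit 4) (nat_lit 366) (nat_lit 353) (nat_lit 301)) (XT.nd (nat_lit 78) (nat_lit 76) (nat_lit 0) (XT.lf (nat_lit 0) (nat_lit 17641883512) (nat_lit 152) (nat_lit 37116930772) (nat_lit 76) (nat_lit 22012182840) (nat_lit 26) (nat_lit 5) (nat_lit 28) (nat_lit 5) (nat_lit 27) (nat_lit 4) (nat_lit 367) (nat_lit 353) (nat_lit 300)) (XT.lf (nat_lit 0) (nat_lit 9719643222) (nat_lit 76) (nat_lit 29709457490) (nat_lit 152) (nat_lit 44511284859) (nat_lit 25) (nat_lit 5) (nat_lit 26) (nat_lit 5) (nat_lit 27) (nat_lit 4) (nat_lit 368) (nat_lit 353) (nat_lit 299)))) (XT.nd (nat_lit 78) (nat_lit 152) (nat_lit 0) (XT.lf (nat_lit 0) (nat_lit 66474835083) (nat_lit 152) (nat_lit 24204853131) (nat_lit 0) (nat_lit 1206929757) (nat_lit 25) (nat_lit 5) (nat_lit 27) (nat_lit 4) (nat_lit 25) (nat_lit 4) (nat_lit 369) (nat_lit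 353) (nat_lit 298)) (XT.nd (nat_lit 78) (nat_lit 76) (nat_lit 0) (XT.lf (nat_lit 0) (nat_lit 35007626421) (nat_lit 76) (nat_lit 65429973482) (nat_lit 76) (nat_lit 158160546) (nat_lit 24) (nat_lit 4) (nat_lit 25) (nat_lit 5) (nat_lit 25) (nat_lit 4) (nat_lit 370) (nat_lit 353) (nat_lit 297)) (XT.lf (nat_lit 0) (nat_lit 27633494264) (nat_lit 152) (nat_lit 5863198189) (nat_lit 76) (nat_lit 76736971996) (nat_lit 23) (nat_lit 5) (nat_lit 25) (nat_lit 5) (nat_lit 24) (nat_lit 4) (nat_lit 371) (nat_lit 353) (nat_lit 296))))) (XT.nd (nat_lit 234) (nat_lit 304) (nat_lit 0) (XT.nd (nat_lit 78) (nat_lit 152) (nat_lit 0) (XT.lf (nat_lit 0) (nat_lit 62698741279) (nat_lit 152) (nat_lit 52214109016) (nat_lit 0) (nat_lit 5935119043) (nat_lit 22) (nat_lit 5) (nat_lit 24) (nat_lit 4) (nat_lit 22) (nat_lit 4) (nat_lit 372) (nat_lit 353) (nat_lit 295)) (XT.nd (nat_lit 78) (nat_lit 76) (nat_lit 0) (XT.lf (nat_lit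 0) (nat_lit 22327226334) (nat_lit 76) (nat_lit 83533736204) (nat_lit 76) (nat_lit 26767879780) (nat_lit 21) (nat_lit 4) (nat_lit 22) (nat_lit 5) (nat_lit 22) (nat_lit 4) (nat_lit 373) (nat_lit 353) (nat_lit 294)) (XT.lf (nat_lit 0) (nat_lit 11346757585) (nat_lit 152) (nat_lit 32372270388) (nat_lit 76) (nat_lit 101971544624) (nat_lit 20) (nat_lit 5) (nat_lit 22) (nat_lit 5) (nat_lit 21) (nat_lit 4) (nat_lit 374) (nat_lit 353) (nat_lit 293)))) (XT.nd (nat_lit 156) (nat_lit 228) (nat_lit 0) (XT.nd (nat_lit 78) (nat_lit 0) (nat_lit 0) (XT.lf (nat_lit 0) (nat_lit 55246300861) (nat_lit 152) (nat_lit 98971299804) (nat_lit 0) (nat_lit 5881528197) (nat_lit 19) (nat_lit 5) (nat_lit 21) (nat_lit 4) (nat_lit 19) (nat_lit 4) (nat_lit 375) (nat_lit 353) (nat_lit 292)) (XT.lf (nat_lit 0) (nat_lit 109582428984) (nat_lit 152) (nat_lit 6292412916) (nat_lit 0) (nat_lit 60216378914) (nat_lit 19) (nat_lit 5)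 (nat_lit 21) (nat_lit 4) (nat_lit 19) (nat_lit 4) (nat_lit 376) (nat_lit 353) (nat_lit 291))) (XT.nd (nat_lit 78) (nat_lit 152) (nat_lit 0) (XT.lf (nat_lit 0) (nat_lit 110083502746) (nat_lit 76) (nat_lit 66541212056) (nat_lit 76) (nat_lit 17174051200) (nat_lit 18) (nat_lit 4) (nat_lit 19) (nat_lit 5) (nat_lit 19) (nat_lit 4) (nat_lit 377) (nat_lit 353) (nat_lit 290)) (XT.lf (nat_lit 0) (nat_lit 31670390195) (nat_lit 76) (nat_lit 6021943270) (nat_lit 152) (nat_lit 175976377107) (nat_lit 16) (nat_lit 5) (nat_lit 17) (nat_lit 5) (nat_lit 18) (nat_lit 4) (nat_lit 378) (nat_lit 353) (nat_lit 289))))))) (XT.nd (nat_lit 1014) (nat_lit 304) (nat_lit 0) (XT.nd (nat_lit 468) (nat_lit 380) (nat_lit 0) (XT.nd (nat_lit 234) (nat_lit 228) (nat_lit 0) (XT.nd (nat_lit 78) (nat_lit 76) (nat_lit 0) (XT.lf (nat_lit 0) (nat_lit 106244755653) (nat_lit 152) (nat_lit 65754343775) (nat_lit 0) (nat_lit 63315219417)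 (nat_lit 16) (nat_lit 5) (nat_lit 18) (nat_lit 4) (nat_lit 16) (nat_lit 4) (nat_lit 379) (nat_lit 353) (nat_lit 288)) (XT.nd (nat_lit 78) (nat_lit 0) (nat_lit 0) (XT.lf (nat_lit 0) (nat_lit 74244690981) (nat_lit 76) (nat_lit 114194209935) (nat_lit 76) (nat_lit 71264038604) (nat_lit 15) (nat_lit 4) (nat_lit 16) (nat_lit 5) (nat_lit 16) (nat_lit 4) (nat_lit 380) (nat_lit 353) (nat_lit 287)) (XT.lf (nat_lit 0) (nat_lit 242629124651) (nat_lit 76) (nat_lit 43768097135) (nat_lit 76) (nat_lit 837373546) (nat_lit 15) (nat_lit 4) (nat_lit 16) (nat_lit 5) (nat_lit 16) (nat_lit 4) (nat_lit 381) (nat_lit 353) (nat_lit 286)))) (XT.nd (nat_lit 78) (nat_lit 76) (nat_lit 0) (XT.lf (nat_lit 0) (nat_lit 80145876623) (nat_lit 152) (nat_lit 194368623556) (nat_lit 0) (nat_lit 42814395046) (nat_lit 13) (nat_lit 5) (nat_lit 15) (nat_lit 4) (nat_lit 13) (nat_lit 4) (nat_lit 382) (nat_lit 353) (nat_lit 285)) (XT.nd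 (nat_lit 78) (nat_lit 76) (nat_lit 0) (XT.lf (nat_lit 0) (nat_lit 177715853103) (nat_lit 152) (nat_lit 33152751939) (nat_lit 0) (nat_lit 140384008409) (nat_lit 13) (nat_lit 5) (nat_lit 15) (nat_lit 4) (nat_lit 13) (nat_lit 4) (nat_lit 383) (nat_lit 353) (nat_lit 284)) (XT.lf (nat_lit 0) (nat_lit 167120238554) (nat_lit 76) (nat_lit 129719523020) (nat_lit 76) (nat_lit 92387362570) (nat_lit 12) (nat_lit 4) (nat_lit 13) (nat_lit 5) (nat_lit 13) (nat_lit 4) (nat_lit 384) (nat_lit 353) (nat_lit 283))))) (XT.nd (nat_lit 234) (nat_lit 228) (nat_lit 0) (XT.nd (nat_lit 78) (nat_lit 76) (nat_lit 0) (XT.lf (nat_lit 0) (nat_lit 2665108962) (nat_lit 152) (nat_lit 31602450748) (nat_lit 76) (nat_lit 398352369546) (nat_lit 11) (nat_lit 5) (nat_lit 13) (nat_lit 5) (nat_lit 12) (nat_lit 4) (nat_lit 385) (nat_lit 353) (nat_lit 282)) (XT.nd (nat_lit 78) (nat_lit 0) (nat_lit 0) (XT.lf (nat_lit 0) (nat_lit 114568991027)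 (nat_lit 152) (nat_lit 283379121082) (nat_lit 0) (nat_lit 82105796440) (nat_lit 10) (nat_lit 5) (nat_lit 12) (nat_lit 4) (nat_lit 10) (nat_lit 4) (nat_lit 386) (nat_lit 353) (nat_lit 281)) (XT.lf (nat_lit 0) (nat_lit 246619422917) (nat_lit 152) (nat_lit 73323368928) (nat_lit 0) (nat_lit 214156047797) (nat_lit 10) (nat_lit 5) (nat_lit 12) (nat_lit 4) (nat_lit 10) (nat_lit 4) (nat_lit 387) (nat_lit 353) (nat_lit 280)))) (XT.nd (nat_lit 156) (nat_lit 152) (nat_lit 0) (XT.nd (nat_lit 78) (nat_lit 0) (nat_lit 0) (XT.lf (nat_lit 0) (nat_lit 184679573158) (nat_lit 76) (nat_lit 221443788997) (nat_lit 76) (nat_lit 188980256891) (nat_lit 9) (nat_lit 4) (nat_lit 10) (nat_lit 5) (nat_lit 10) (nat_lit 4) (nat_lit 388) (nat_lit 353) (nat_lit 279)) (XT.lf (nat_lit 0) (nat_lit 489620997133) (nat_lit 76) (nat_lit 103763521461) (nat_lit 76) (nat_lit 71299852845) (nat_lit 9) (nat_lit 4) (nat_lit 10) (nat_lit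 5) (nat_lit 10) (nat_lit 4) (nat_lit 389) (nat_lit 353) (nat_lit 278))) (XT.nd (nat_lit 78) (nat_lit 0) (nat_lit 0) (XT.lf (nat_lit 0) (nat_lit 64190390300) (nat_lit 152) (nat_lit 643274357645) (nat_lit 0) (nat_lit 35961010022) (nat_lit 7) (nat_lit 5) (nat_lit 9) (nat_lit 4) (nat_lit 7) (nat_lit 4) (nat_lit 390) (nat_lit 353) (nat_lit 277)) (XT.lf (nat_lit 0) (nat_lit 227231269371) (nat_lit 152) (nat_lit 405056972180) (nat_lit 0) (nat_lit 199001799335) (nat_lit 7) (nat_lit 5) (nat_lit 9) (nat_lit 4) (nat_lit 7) (nat_lit 4) (nat_lit 391) (nat_lit 353) (nat_lit 276)))))) (XT.nd (nat_lit 468) (nat_lit 76) (nat_lit 0) (XT.nd (nat_lit 234) (nat_lit 152) (nat_lit 0) (XT.nd (nat_lit 78) (nat_lit 76) (nat_lit 0) (XT.lf (nat_lit 0) (nat_lit 414727343249) (nat_lit 152) (nat_lit 131108968401) (nat_lit 0) (nat_lit 386497795164) (nat_lit 7) (nat_lit 5) (nat_lit 9) (nat_lit 4) (nat_lit 7) (nat_lit 4)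 (nat_lit 392) (nat_lit 353) (nat_lit 275)) (XT.nd (nat_lit 78) (nat_lit 0) (nat_lit 0) (XT.lf (nat_lit 0) (nat_lit 201904434928) (nat_lit 76) (nat_lit 436803010542) (nat_lit 76) (nat_lit 408573394587) (nat_lit 6) (nat_lit 4) (nat_lit 7) (nat_lit 5) (nat_lit 7) (nat_lit 4) (nat_lit 393) (nat_lit 353) (nat_lit 274)) (XT.lf (nat_lit 0) (nat_lit 599603057588) (nat_lit 76) (nat_lit 303534151859) (nat_lit 76) (nat_lit 275304476887) (nat_lit 6) (nat_lit 4) (nat_lit 7) (nat_lit 5) (nat_lit 7) (nat_lit 4) (nat_lit 394) (nat_lit 353) (nat_lit 273)))) (XT.nd (nat_lit 78) (nat_lit 152) (nat_lit 0) (XT.lf (nat_lit 0) (nat_lit 1056955037676) (nat_lit 76) (nat_lit 150275724758) (nat_lit 76) (nat_lit 122045998468) (nat_lit 6) (nat_lit 4) (nat_lit 7) (nat_lit 5) (nat_lit 7) (nat_lit 4) (nat_lit 395) (nat_lit 353) (nat_lit 272)) (XT.nd (nat_lit 78) (nat_lit 0) (nat_lit 0) (XT.lf (nat_lit 0) (nat_lit 54268346514)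 (nat_lit 152) (nat_lit 1417677507022) (nat_lit 0) (nat_lit 29720719631) (nat_lit 4) (nat_lit 5) (nat_lit 6) (nat_lit 4) (nat_lit 4) (nat_lit 4) (nat_lit 396) (nat_lit 353) (nat_lit 271)) (XT.lf (nat_lit 0) (nat_lit 266602886517) (nat_lit 152) (nat_lit 1187074753417) (nat_lit 0) (nat_lit 242055225890) (nat_lit 4) (nat_lit 5) (nat_lit 6) (nat_lit 4) (nat_lit 4) (nat_lit 4) (nat_lit 397) (nat_lit 353) (nat_lit 270))))) (XT.nd (nat_lit 234) (nat_lit 76) (nat_lit 0) (XT.nd (nat_lit 78) (nat_lit 0) (nat_lit 0) (XT.lf (nat_lit 0) (nat_lit 510787073314) (nat_lit 152) (nat_lit 921882725855) (nat_lit 0) (nat_lit 486239383346) (nat_lit 4) (nat_lit 5) (nat_lit 6) (nat_lit 4) (nat_lit 4) (nat_lit 4) (nat_lit 398) (nat_lit 353) (nat_lit 269)) (XT.nd (nat_lit 78) (nat_lit 0) (nat_lit 0) (XT.lf (nat_lit 0) (nat_lit 791598423606) (nat_lit 152) (nat_lit 616912884667) (nat_lit 0) (nat_lit 767050708123) (nat_lit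 4) (nat_lit 5) (nat_lit 6) (nat_lit 4) (nat_lit 4) (nat_lit 4) (nat_lit 399) (nat_lit 353) (nat_lit 268)) (XT.lf (nat_lit 0) (nat_lit 1114531072505) (nat_lit 152) (nat_lit 266198428611) (nat_lit 0) (nat_lit 1089983334836) (nat_lit 4) (nat_lit 5) (nat_lit 6) (nat_lit 4) (nat_lit 4) (nat_lit 4) (nat_lit 400) (nat_lit 353) (nat_lit 267)))) (XT.nd (nat_lit 156) (nat_lit 0) (nat_lit 0) (XT.nd (nat_lit 78) (nat_lit 0) (nat_lit 0) (XT.lf (nat_lit 0) (nat_lit 150523049651) (nat_lit 76) (nat_lit 1341613056334) (nat_lit 76) (nat_lit 1317065299372) (nat_lit 3) (nat_lit 4) (nat_lit 4) (nat_lit 5) (nat_lit 4) (nat_lit 4) (nat_lit 401) (nat_lit 353) (nat_lit 266)) (XT.lf (nat_lit 0) (nat_lit 659669108128) (nat_lit 76) (nat_lit 1280627369182) (nat_lit 76) (nat_lit 1256079595444) (nat_lit 3) (nat_lit 4) (nat_lit 4) (nat_lit 5) (nat_lit 4) (nat_lit 4) (nat_lit 402) (nat_lit 353) (nat_lit 265))) (XT.nd (nat_lit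 78) (nat_lit 0) (nat_lit 0) (XT.lf (nat_lit 0) (nat_lit 1245186453706) (nat_lit 76) (nat_lit 1210494159292) (nat_lit 76) (nat_lit 1185946370966) (nat_lit 3) (nat_lit 4) (nat_lit 4) (nat_lit 5) (nat_lit 4) (nat_lit 4) (nat_lit 403) (nat_lit 353) (nat_lit 264)) (XT.lf (nat_lit 0) (nat_lit 1918530860536) (nat_lit 76) (nat_lit 1129841255166) (nat_lit 76) (nat_lit 1105293454155) (nat_lit 3) (nat_lit 4) (nat_lit 4) (nat_lit 5) (nat_lit 4) (nat_lit 4) (nat_lit 404) (nat_lit 353) (nat_lit 263))))))))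
noncomputable def xc71 : XT := (XT.nd (nat_lit 2028) (nat_lit 0) (nat_lit 0) (XT.nd (nat_lit 1014) (nat_lit 0) (nat_lit 0) (XT.nd (nat_lit 468) (nat_lit 152) (nat_lit 0) (XT.nd (nat_lit 234) (nat_lit 0) (nat_lit 0) (XT.nd (nat_lit 78) (nat_lit 0) (nat_lit 0) (XT.lf (nat_lit 0) (nat_lit 2692876458318) (nat_lit 76) (nat_lit 1037090665203) (nat_lit 76) (nat_lit 1012542853160) (nat_lit 3) (nat_lit 4) (nat_lit 4) (nat_lit 5) (nat_lit 4) (nat_lit 4) (nat_lit 405) (nat_lit 353) (nat_lit 262)) (XT.nd (nat_lit 78) (nat_lit 0) (nat_lit 0) (XT.lf (nat_lit 0) (nat_lit 3583373487009) (nat_lit 76) (nat_lit 930427703945) (nat_lit 76) (nat_lit 905879882311) (nat_lit 3) (nat_lit 4) (nat_lit 4) (nat_lit 5) (nat_lit 4) (nat_lit 4) (nat_lit 406) (nat_lit 353) (nat_lit 261)) (XT.lf (nat_lit 0) (nat_lit 4607444714560) (nat_lit 76) (nat_lit 807765487369) (nat_lit 76) (nat_lit 783217657394) (nat_lit 3) (nat_lit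 4) (nat_lit 4) (nat_lit 5) (nat_lit 4) (nat_lit 4) (nat_lit 407) (nat_lit 353) (nat_lit 260)))) (XT.nd (nat_lit 78) (nat_lit 0) (nat_lit 0) (XT.lf (nat_lit 0) (nat_lit 5785126317163) (nat_lit 76) (nat_lit 666704102541) (nat_lit 76) (nat_lit 642156265313) (nat_lit 3) (nat_lit 4) (nat_lit 4) (nat_lit 5) (nat_lit 4) (nat_lit 4) (nat_lit 408) (nat_lit 353) (nat_lit 259)) (XT.nd (nat_lit 78) (nat_lit 0) (nat_lit 0) (XT.lf (nat_lit 0) (nat_lit 7139459891391) (nat_lit 76) (nat_lit 504483652802) (nat_lit 76) (nat_lit 479935809268) (nat_lit 3) (nat_lit 4) (nat_lit 4) (nat_lit 5) (nat_lit 4) (nat_lit 4) (nat_lit 409) (nat_lit 353) (nat_lit 258)) (XT.lf (nat_lit 0) (nat_lit 8696943268045) (nat_lit 76) (nat_lit 317930259788) (nat_lit 76) (nat_lit 293382410769) (nat_lit 3) (nat_lit 4) (nat_lit 4) (nat_lit 5) (nat_lit 4) (nat_lit 4) (nat_lit 410) (nat_lit 353) (nat_lit 257))))) (XT.nd (nat_lit 234) (nat_lit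 0) (nat_lit 0) (XT.nd (nat_lit 78) (nat_lit 152) (nat_lit 0) (XT.lf (nat_lit 0) (nat_lit 10488048947970) (nat_lit 76) (nat_lit 103393965808) (nat_lit 76) (nat_lit 78846112020) (nat_lit 3) (nat_lit 4) (nat_lit 4) (nat_lit 5) (nat_lit 4) (nat_lit 4) (nat_lit 411) (nat_lit 353) (nat_lit 256)) (XT.nd (nat_lit 78) (nat_lit 0) (nat_lit 0) (XT.lf (nat_lit 0) (nat_lit 173678951298) (nat_lit 152) (nat_lit 11906459463538) (nat_lit 0) (nat_lit 152332987877) (nat_lit 1) (nat_lit 5) (nat_lit 3) (nat_lit 4) (nat_lit 1) (nat_lit 4) (nat_lit 412) (nat_lit 353) (nat_lit 255)) (XT.lf (nat_lit 0) (nat_lit 470913683385) (nat_lit 152) (nat_lit 13105701062040) (nat_lit 0) (nat_lit 449567716828) (nat_lit 1) (nat_lit 5) (nat_lit 3) (nat_lit 4) (nat_lit 1) (nat_lit 4) (nat_lit 413) (nat_lit 353) (nat_lit 254)))) (XT.nd (nat_lit 156) (nat_lit 0) (nat_lit 0) (XT.nd (nat_lit 78) (nat_lit 0) (nat_lit 0) (XT.lf (nat_lit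 0) (nat_lit 812733549931) (nat_lit 152) (nat_lit 14484829061450) (nat_lit 0) (nat_lit 791387580648) (nat_lit 1) (nat_lit 5) (nat_lit 3) (nat_lit 4) (nat_lit 1) (nat_lit 4) (nat_lit 414) (nat_lit 353) (nat_lit 253)) (XT.lf (nat_lit 0) (nat_lit 1205826330935) (nat_lit 152) (nat_lit 16070826400885) (nat_lit 0) (nat_lit 1184480359280) (nat_lit 1) (nat_lit 5) (nat_lit 3) (nat_lit 4) (nat_lit 1) (nat_lit 4) (nat_lit 415) (nat_lit 353) (nat_lit 252))) (XT.nd (nat_lit 78) (nat_lit 0) (nat_lit 0) (XT.lf (nat_lit 0) (nat_lit 1657882972111) (nat_lit 152) (nat_lit 17894723463075) (nat_lit 0) (nat_lit 1636536998394) (nat_lit 1) (nat_lit 5) (nat_lit 3) (nat_lit 4) (nat_lit 1) (nat_lit 4) (nat_lit 416) (nat_lit 353) (nat_lit 251)) (XT.lf (nat_lit 0) (nat_lit 2177748059916) (nat_lit 152) (nat_lit 19992205190539) (nat_lit 0) (nat_lit 2156402084407) (nat_lit 1) (nat_lit 5) (nat_lit 3) (nat_lit 4) (nat_lit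 1) (nat_lit 4) (nat_lit 417) (nat_lit 353) (nat_lit 250)))))) (XT.nd (nat_lit 468) (nat_lit 0) (nat_lit 0) (XT.nd (nat_lit 234) (nat_lit 0) (nat_lit 0) (XT.nd (nat_lit 78) (nat_lit 0) (nat_lit 0) (XT.lf (nat_lit 0) (nat_lit 2775592867809) (nat_lit 152) (nat_lit 22404309269251) (nat_lit 0) (nat_lit 2754246890741) (nat_lit 1) (nat_lit 5) (nat_lit 3) (nat_lit 4) (nat_lit 1) (nat_lit 4) (nat_lit 418) (nat_lit 353) (nat_lit 249)) (XT.nd (nat_lit 78) (nat_lit 0) (nat_lit 0) (XT.lf (nat_lit 0) (nat_lit 3463114359422) (nat_lit 152) (nat_lit 25178229039881) (nat_lit 0) (nat_lit 3441768380998) (nat_lit 1) (nat_lit 5) (nat_lit 3) (nat_lit 4) (nat_lit 1) (nat_lit 4) (nat_lit 419) (nat_lit 353) (nat_lit 248)) (XT.lf (nat_lit 0) (nat_lit 4253764042199) (nat_lit 152) (nat_lit 28368236845767) (nat_lit 0) (nat_lit 4232418062597) (nat_lit 1) (nat_lit 5) (nat_lit 3) (nat_lit 4) (nat_lit 1) (nat_lit 4) (nat_lit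 420) (nat_lit 353) (nat_lit 247)))) (XT.nd (nat_lit 78) (nat_lit 0) (nat_lit 0) (XT.lf (nat_lit 0) (nat_lit 5163011149065) (nat_lit 152) (nat_lit 32036745883111) (nat_lit 0) (nat_lit 5141665168437) (nat_lit 1) (nat_lit 5) (nat_lit 3) (nat_lit 4) (nat_lit 1) (nat_lit 4) (nat_lit 421) (nat_lit 353) (nat_lit 246)) (XT.nd (nat_lit 78) (nat_lit 0) (nat_lit 0) (XT.lf (nat_lit 0) (nat_lit 6208645297327) (nat_lit 152) (nat_lit 36255531328731) (nat_lit 0) (nat_lit 6187299315808) (nat_lit 1) (nat_lit 5) (nat_lit 3) (nat_lit 4) (nat_lit 1) (nat_lit 4) (nat_lit 422) (nat_lit 353) (nat_lit 245)) (XT.lf (nat_lit 0) (nat_lit 7411124546407) (nat_lit 152) (nat_lit 41107134636997) (nat_lit 0) (nat_lit 7389778564114) (nat_lit 1) (nat_lit 5) (nat_lit 3) (nat_lit 4) (nat_lit 1) (nat_lit 4) (nat_lit 423) (nat_lit 353) (nat_lit 244))))) (XT.nd (nat_lit 234) (nat_lit 0) (nat_lit 0) (XT.nd (nat_lit 78) (nat_lit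 0) (nat_lit 0) (XT.lf (nat_lit 0) (nat_lit 8793975664224) (nat_lit 152) (nat_lit 46686478481333) (nat_lit 0) (nat_lit 8772629681257) (nat_lit 1) (nat_lit 5) (nat_lit 3) (nat_lit 4) (nat_lit 1) (nat_lit 4) (nat_lit 424) (nat_lit 353) (nat_lit 243)) (XT.nd (nat_lit 78) (nat_lit 0) (nat_lit 0) (XT.lf (nat_lit 0) (nat_lit 10384254433517) (nat_lit 152) (nat_lit 53102723936953) (nat_lit 0) (nat_lit 10362908449963) (nat_lit 1) (nat_lit 5) (nat_lit 3) (nat_lit 4) (nat_lit 1) (nat_lit 4) (nat_lit 425) (nat_lit 353) (nat_lit 242)) (XT.lf (nat_lit 0) (nat_lit 12213075004119) (nat_lit 152) (nat_lit 60481406241033) (nat_lit 0) (nat_lit 12191729020056) (nat_lit 1) (nat_lit 5) (nat_lit 3) (nat_lit 4) (nat_lit 1) (nat_lit 4) (nat_lit 426) (nat_lit 353) (nat_lit 241)))) (XT.nd (nat_lit 156) (nat_lit 0) (nat_lit 0) (XT.nd (nat_lit 78) (nat_lit 0) (nat_lit 0) (XT.lf (nat_lit 0) (nat_lit 14316218648065) (nat_lit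 152) (nat_lit 68966890916914) (nat_lit 0) (nat_lit 14294872663558) (nat_lit 1) (nat_lit 5) (nat_lit 3) (nat_lit 4) (nat_lit 1) (nat_lit 4) (nat_lit 427) (nat_lit 353) (nat_lit 240)) (XT.lf (nat_lit 0) (nat_lit 16734833827953) (nat_lit 152) (nat_lit 78725198316949) (nat_lit 0) (nat_lit 16713487843061) (nat_lit 1) (nat_lit 5) (nat_lit 3) (nat_lit 4) (nat_lit 1) (nat_lit 4) (nat_lit 428) (nat_lit 353) (nat_lit 239))) (XT.nd (nat_lit 78) (nat_lit 0) (nat_lit 0) (XT.lf (nat_lit 0) (nat_lit 19516241275563) (nat_lit 152) (nat_lit 89947251846792) (nat_lit 0) (nat_lit 19494895290336) (nat_lit 1) (nat_lit 5) (nat_lit 3) (nat_lit 4) (nat_lit 1) (nat_lit 4) (nat_lit 429) (nat_lit 353) (nat_lit 238)) (XT.lf (nat_lit 0) (nat_lit 22714859832263) (nat_lit 152) (nat_lit 102852613423330) (nat_lit 0) (nat_lit 22693513846744) (nat_lit 1) (nat_lit 5) (nat_lit 3) (nat_lit 4) (nat_lit 1) (nat_lit 4) (nat_lit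 430) (nat_lit 353) (nat_lit 237))))))) (XT.nd (nat_lit 47658) (nat_lit 0) (nat_lit 1596) (XT.nd (nat_lit 47112) (nat_lit 0) (nat_lit 2584) (XT.nd (nat_lit 234) (nat_lit 0) (nat_lit 0) (XT.nd (nat_lit 78) (nat_lit 0) (nat_lit 0) (XT.lf (nat_lit 0) (nat_lit 26393271165465) (nat_lit 152) (nat_lit 117693779251322) (nat_lit 0) (nat_lit 26371925179693) (nat_lit 1) (nat_lit 5) (nat_lit 3) (nat_lit 4) (nat_lit 1) (nat_lit 4) (nat_lit 431) (nat_lit 353) (nat_lit 236)) (XT.nd (nat_lit 78) (nat_lit 0) (nat_lit 0) (XT.lf (nat_lit 0) (nat_lit 30623444192558) (nat_lit 152) (nat_lit 134761119966534) (nat_lit 0) (nat_lit 30602098206566) (nat_lit 1) (nat_lit 5) (nat_lit 3) (nat_lit 4) (nat_lit 1) (nat_lit 4) (nat_lit 432) (nat_lit 353) (nat_lit 235)) (XT.lf (nat_lit 0) (nat_lit 35488143168420) (nat_lit 152) (nat_lit 154388561800349) (nat_lit 0) (nat_lit 35466797182237) (nat_lit 1) (nat_lit 5) (nat_lit 3)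 (nat_lit 4) (nat_lit 1) (nat_lit 4) (nat_lit 433) (nat_lit 353) (nat_lit 234)))) (XT.nd (nat_lit 78) (nat_lit 0) (nat_lit 0) (XT.lf (nat_lit 0) (nat_lit 41082546986058) (nat_lit 152) (nat_lit 176960119919082) (nat_lit 0) (nat_lit 41061200999708) (nat_lit 1) (nat_lit 5) (nat_lit 3) (nat_lit 4) (nat_lit 1) (nat_lit 4) (nat_lit 434) (nat_lit 353) (nat_lit 233)) (XT.nd (nat_lit 78) (nat_lit 0) (nat_lit 0) (XT.lf (nat_lit 0) (nat_lit 47516111372338) (nat_lit 152) (nat_lit 202917411764185) (nat_lit 0) (nat_lit 47494765385843) (nat_lit 1) (nat_lit 5) (nat_lit 3) (nat_lit 4) (nat_lit 1) (nat_lit 4) (nat_lit 435) (nat_lit 353) (nat_lit 232)) (XT.lf (nat_lit 0) (nat_lit 54914710413078) (nat_lit 152) (nat_lit 232768297393499) (nat_lit 0) (nat_lit 54893364426458) (nat_lit 1) (nat_lit 5) (nat_lit 3) (nat_lit 4) (nat_lit 1) (nat_lit 4) (nat_lit 436) (nat_lit 353) (nat_lit 231))))) (XT.nd (nat_lit 234)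 (nat_lit 152) (nat_lit 0) (XT.nd (nat_lit 78) (nat_lit 0) (nat_lit 0) (XT.lf (nat_lit 0) (nat_lit 3954056445) (nat_lit 380) (nat_lit 5204674282) (nat_lit 380) (nat_lit 5204674282) (nat_lit 37) (nat_lit 3) (nat_lit 42) (nat_lit 3) (nat_lit 42) (nat_lit 5) (nat_lit 354) (nat_lit 354) (nat_lit 312)) (XT.nd (nat_lit 78) (nat_lit 0) (nat_lit 76) (XT.lf (nat_lit 76) (nat_lit 4208039632) (nat_lit 0) (nat_lit 4541112599) (nat_lit 380) (nat_lit 22094944145) (nat_lit 38) (nat_lit 5) (nat_lit 37) (nat_lit 3) (nat_lit 42) (nat_lit 5) (nat_lit 355) (nat_lit 354) (nat_lit 311)) (XT.lf (nat_lit 0) (nat_lit 10741113546) (nat_lit 304) (nat_lit 11513866211) (nat_lit 380) (nat_lit 10870287208) (nat_lit 38) (nat_lit 5) (nat_lit 42) (nat_lit 5) (nat_lit 43) (nat_lit 5) (nat_lit 356) (nat_lit 354) (nat_lit 310)))) (XT.nd (nat_lit 156) (nat_lit 228) (nat_lit 0) (XT.nd (nat_lit 78) (nat_lit 0) (nat_lit 76) (XT.lf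 (nat_lit 76) (nat_lit 6203539582) (nat_lit 0) (nat_lit 7289927838) (nat_lit 380) (nat_lit 22185911351) (nat_lit 39) (nat_lit 5) (nat_lit 38) (nat_lit 5) (nat_lit 43) (nat_lit 5) (nat_lit 357) (nat_lit 354) (nat_lit 309)) (XT.lf (nat_lit 0) (nat_lit 17689645327) (nat_lit 304) (nat_lit 11103557107) (nat_lit 76) (nat_lit 9668763950) (nat_lit 39) (nat_lit 5) (nat_lit 43) (nat_lit 5) (nat_lit 40) (nat_lit 5) (nat_lit 358) (nat_lit 354) (nat_lit 308))) (XT.nd (nat_lit 78) (nat_lit 0) (nat_lit 0) (XT.lf (nat_lit 0) (nat_lit 10613282130) (nat_lit 304) (nat_lit 12679614115) (nat_lit 380) (nat_lit 18252403016) (nat_lit 35) (nat_lit 5) (nat_lit 39) (nat_lit 5) (nat_lit 40) (nat_lit 5) (nat_lit 359) (nat_lit 354) (nat_lit 307)) (XT.lf (nat_lit 0) (nat_lit 30578792829) (nat_lit 380) (nat_lit 8448262759) (nat_lit 76) (nat_lit 5937756318) (nat_lit 35) (nat_lit 5) (nat_lit 40) (nat_lit 5) (nat_lit 36)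 (nat_lit 5) (nat_lit 360) (nat_lit 354) (nat_lit 306)))))) (XT.nd (nat_lit 468) (nat_lit 456) (nat_lit 0) (XT.nd (nat_lit 234) (nat_lit 228) (nat_lit 0) (XT.nd (nat_lit 78) (nat_lit 152) (nat_lit 0) (XT.lf (nat_lit 0) (nat_lit 18437132802) (nat_lit 152) (nat_lit 21880568634) (nat_lit 228) (nat_lit 8375533958) (nat_lit 33) (nat_lit 5) (nat_lit 35) (nat_lit 5) (nat_lit 36) (nat_lit 5) (nat_lit 361) (nat_lit 354) (nat_lit 305)) (XT.nd (nat_lit 78) (nat_lit 152) (nat_lit 0) (XT.lf (nat_lit 0) (nat_lit 50296663164) (nat_lit 152) (nat_lit 1655880577) (nat_lit 228) (nat_lit 963116728) (nat_lit 33) (nat_lit 5) (nat_lit 35) (nat_lit 5) (nat_lit 36) (nat_lit 5) (nat_lit 362) (nat_lit 354) (nat_lit 304)) (XT.lf (nat_lit 0) (nat_lit 9164901590) (nat_lit 152) (nat_lit 26838846501) (nat_lit 76) (nat_lit 21379206663) (nat_lit 31) (nat_lit 5) (nat_lit 33) (nat_lit 5) (nat_lit 32) (nat_lit 5) (nat_lit 363)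 (nat_lit 354) (nat_lit 303)))) (XT.nd (nat_lit 78) (nat_lit 76) (nat_lit 0) (XT.lf (nat_lit 0) (nat_lit 6956206705) (nat_lit 152) (nat_lit 14262082313) (nat_lit 228) (nat_lit 41219460843) (nat_lit 29) (nat_lit 5) (nat_lit 31) (nat_lit 5) (nat_lit 32) (nat_lit 5) (nat_lit 364) (nat_lit 354) (nat_lit 302)) (XT.nd (nat_lit 78) (nat_lit 76) (nat_lit 0) (XT.lf (nat_lit 0) (nat_lit 36988941257) (nat_lit 228) (nat_lit 19723407777) (nat_lit 76) (nat_lit 11252028227) (nat_lit 29) (nat_lit 5) (nat_lit 32) (nat_lit 5) (nat_lit 30) (nat_lit 4) (nat_lit 365) (nat_lit 354) (nat_lit 301)) (XT.lf (nat_lit 0) (nat_lit 22736160876) (nat_lit 76) (nat_lit 34005072590) (nat_lit 152) (nat_lit 17336360311) (nat_lit 28) (nat_lit 5) (nat_lit 29) (nat_lit 5) (nat_lit 30) (nat_lit 4) (nat_lit 366) (nat_lit 354) (nat_lit 300))))) (XT.nd (nat_lit 234) (nat_lit 228) (nat_lit 0) (XT.nd (nat_lit 78) (nat_lit 228) (nat_lit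 0) (XT.lf (nat_lit 0) (nat_lit 73774366865) (nat_lit 76) (nat_lit 6708745868) (nat_lit 152) (nat_lit 470669715) (nat_lit 28) (nat_lit 5) (nat_lit 29) (nat_lit 5) (nat_lit 30) (nat_lit 4) (nat_lit 367) (nat_lit 354) (nat_lit 299)) (XT.nd (nat_lit 78) (nat_lit 76) (nat_lit 0) (XT.lf (nat_lit 0) (nat_lit 20334314799) (nat_lit 152) (nat_lit 42603195787) (nat_lit 76) (nat_lit 25342204373) (nat_lit 26) (nat_lit 5) (nat_lit 28) (nat_lit 5) (nat_lit 27) (nat_lit 4) (nat_lit 368) (nat_lit 354) (nat_lit 298)) (XT.lf (nat_lit 0) (nat_lit 11255170007) (nat_lit 76) (nat_lit 34131637604) (nat_lit 152) (nat_lit 51138126337) (nat_lit 25) (nat_lit 5) (nat_lit 26) (nat_lit 5) (nat_lit 27) (nat_lit 4) (nat_lit 369) (nat_lit 354) (nat_lit 297)))) (XT.nd (nat_lit 156) (nat_lit 152) (nat_lit 0) (XT.nd (nat_lit 78) (nat_lit 76) (nat_lit 0) (XT.lf (nat_lit 0) (nat_lit 76484981681) (nat_lit 152) (nat_lit 27763692390)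 (nat_lit 0) (nat_lit 1415091274) (nat_lit 25) (nat_lit 5) (nat_lit 27) (nat_lit 4) (nat_lit 25) (nat_lit 4) (nat_lit 370) (nat_lit 354) (nat_lit 296)) (XT.lf (nat_lit 0) (nat_lit 40327391427) (nat_lit 76) (nat_lit 75212534552) (nat_lit 76) (nat_lit 139689431) (nat_lit 24) (nat_lit 4) (nat_lit 25) (nat_lit 5) (nat_lit 25) (nat_lit 4) (nat_lit 371) (nat_lit 354) (nat_lit 295))) (XT.nd (nat_lit 78) (nat_lit 76) (nat_lit 0) (XT.lf (nat_lit 0) (nat_lit 31811943350) (nat_lit 152) (nat_lit 6679736234) (nat_lit 76) (nat_lit 88272016107) (nat_lit 23) (nat_lit 5) (nat_lit 25) (nat_lit 5) (nat_lit 24) (nat_lit 4) (nat_lit 372) (nat_lit 354) (nat_lit 294)) (XT.lf (nat_lit 0) (nat_lit 72136286727) (nat_lit 152) (nat_lit 59982588923) (nat_lit 0) (nat_lit 6851374878) (nat_lit 22) (nat_lit 5) (nat_lit 24) (nat_lit 4) (nat_lit 22) (nat_lit 4) (nat_lit 373) (nat_lit 354) (nat_lit 293))))))))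
noncomputable def xc72 : XT := (XT.nd (nat_lit 1950) (nat_lit 228) (nat_lit 0) (XT.nd (nat_lit 936) (nat_lit 608) (nat_lit 0) (XT.nd (nat_lit 468) (nat_lit 304) (nat_lit 0) (XT.nd (nat_lit 234) (nat_lit 228) (nat_lit 0) (XT.nd (nat_lit 78) (nat_lit 152) (nat_lit 0) (XT.lf (nat_lit 0) (nat_lit 25737054164) (nat_lit 76) (nat_lit 96034032600) (nat_lit 76) (nat_lit 30747431383) (nat_lit 21) (nat_lit 4) (nat_lit 22) (nat_lit 5) (nat_lit 22) (nat_lit 4) (nat_lit 374) (nat_lit 354) (nat_lit 292)) (XT.nd (nat_lit 78) (nat_lit 76) (nat_lit 0) (XT.lf (nat_lit 0) (nat_lit 13076995833) (nat_lit 152) (nat_lit 37172529189) (nat_lit 76) (nat_lit 117290397095) (nat_lit 20) (nat_lit 5) (nat_lit 22) (nat_lit 5) (nat_lit 21) (nat_lit 4) (nat_lit 375) (nat_lit 354) (nat_lit 291)) (XT.lf (nat_lit 0) (nat_lit 63561075697) (nat_lit 152) (nat_lit 113761015785) (nat_lit 0) (nat_lit 6787729926) (nat_lit 19) (nat_lit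 5) (nat_lit 21) (nat_lit 4) (nat_lit 19) (nat_lit 4) (nat_lit 376) (nat_lit 354) (nat_lit 290)))) (XT.nd (nat_lit 78) (nat_lit 228) (nat_lit 0) (XT.lf (nat_lit 0) (nat_lit 126043993075) (nat_lit 152) (nat_lit 7187597471) (nat_lit 0) (nat_lit 69269681403) (nat_lit 19) (nat_lit 5) (nat_lit 21) (nat_lit 4) (nat_lit 19) (nat_lit 4) (nat_lit 377) (nat_lit 354) (nat_lit 289)) (XT.nd (nat_lit 78) (nat_lit 152) (nat_lit 0) (XT.lf (nat_lit 0) (nat_lit 126642492932) (nat_lit 76) (nat_lit 76498896353) (nat_lit 76) (nat_lit 19723744767) (nat_lit 18) (nat_lit 4) (nat_lit 19) (nat_lit 5) (nat_lit 19) (nat_lit 4) (nat_lit 378) (nat_lit 354) (nat_lit 288)) (XT.lf (nat_lit 0) (nat_lit 36467547602) (nat_lit 76) (nat_lit 6901489397) (nat_lit 152) (nat_lit 202346550802) (nat_lit 16) (nat_lit 5) (nat_lit 17) (nat_lit 5) (nat_lit 18) (nat_lit 4) (nat_lit 379) (nat_lit 354) (nat_lit 287))))) (XT.nd (nat_lit 234)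 (nat_lit 228) (nat_lit 0) (XT.nd (nat_lit 78) (nat_lit 76) (nat_lit 0) (XT.lf (nat_lit 0) (nat_lit 122202196617) (nat_lit 152) (nat_lit 75574847523) (nat_lit 0) (nat_lit 72831312232) (nat_lit 16) (nat_lit 5) (nat_lit 18) (nat_lit 4) (nat_lit 16) (nat_lit 4) (nat_lit 380) (nat_lit 354) (nat_lit 286)) (XT.nd (nat_lit 78) (nat_lit 0) (nat_lit 0) (XT.lf (nat_lit 0) (nat_lit 85422103910) (nat_lit 76) (nat_lit 131302341843) (nat_lit 76) (nat_lit 81930977235) (nat_lit 15) (nat_lit 4) (nat_lit 16) (nat_lit 5) (nat_lit 16) (nat_lit 4) (nat_lit 381) (nat_lit 354) (nat_lit 285)) (XT.lf (nat_lit 0) (nat_lit 279058892724) (nat_lit 76) (nat_lit 50315051198) (nat_lit 76) (nat_lit 943269004) (nat_lit 15) (nat_lit 4) (nat_lit 16) (nat_lit 5) (nat_lit 16) (nat_lit 4) (nat_lit 382) (nat_lit 354) (nat_lit 284)))) (XT.nd (nat_lit 78) (nat_lit 76) (nat_lit 0) (XT.lf (nat_lit 0) (nat_lit 92185601662) (nat_lit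 152) (nat_lit 223486649264) (nat_lit 0) (nat_lit 49253301390) (nat_lit 13) (nat_lit 5) (nat_lit 15) (nat_lit 4) (nat_lit 13) (nat_lit 4) (nat_lit 383) (nat_lit 354) (nat_lit 283)) (XT.nd (nat_lit 78) (nat_lit 76) (nat_lit 0) (XT.lf (nat_lit 0) (nat_lit 204388747195) (nat_lit 152) (nat_lit 38093257924) (nat_lit 0) (nat_lit 161456172354) (nat_lit 13) (nat_lit 5) (nat_lit 15) (nat_lit 4) (nat_lit 13) (nat_lit 4) (nat_lit 384) (nat_lit 354) (nat_lit 282)) (XT.lf (nat_lit 0) (nat_lit 192219208105) (nat_lit 76) (nat_lit 149161290889) (nat_lit 76) (nat_lit 106228477292) (nat_lit 12) (nat_lit 4) (nat_lit 13) (nat_lit 5) (nat_lit 13) (nat_lit 4) (nat_lit 385) (nat_lit 354) (nat_lit 281)))))) (XT.nd (nat_lit 468) (nat_lit 228) (nat_lit 0) (XT.nd (nat_lit 234) (nat_lit 228) (nat_lit 0) (XT.nd (nat_lit 78) (nat_lit 76) (nat_lit 0) (XT.lf (nat_lit 0) (nat_lit 3078333677) (nat_lit 152) (nat_lit 36314603803)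 (nat_lit 76) (nat_lit 458117962030) (nat_lit 11) (nat_lit 5) (nat_lit 13) (nat_lit 5) (nat_lit 12) (nat_lit 4) (nat_lit 386) (nat_lit 354) (nat_lit 280)) (XT.nd (nat_lit 78) (nat_lit 0) (nat_lit 0) (XT.lf (nat_lit 0) (nat_lit 131767742240) (nat_lit 152) (nat_lit 325857718546) (nat_lit 0) (nat_lit 94434523332) (nat_lit 10) (nat_lit 5) (nat_lit 12) (nat_lit 4) (nat_lit 10) (nat_lit 4) (nat_lit 387) (nat_lit 354) (nat_lit 279)) (XT.lf (nat_lit 0) (nat_lit 283623990754) (nat_lit 152) (nat_lit 84297291052) (nat_lit 0) (nat_lit 246290635336) (nat_lit 10) (nat_lit 5) (nat_lit 12) (nat_lit 4) (nat_lit 10) (nat_lit 4) (nat_lit 388) (nat_lit 354) (nat_lit 278)))) (XT.nd (nat_lit 78) (nat_lit 152) (nat_lit 0) (XT.lf (nat_lit 0) (nat_lit 212404974928) (nat_lit 76) (nat_lit 254647997479) (nat_lit 76) (nat_lit 217314523357) (nat_lit 9) (nat_lit 4) (nat_lit 10) (nat_lit 5) (nat_lit 10) (nat_lit 4) (nat_lit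 389) (nat_lit 354) (nat_lit 277)) (XT.nd (nat_lit 78) (nat_lit 152) (nat_lit 0) (XT.lf (nat_lit 0) (nat_lit 563084551744) (nat_lit 76) (nat_lit 119317301969) (nat_lit 76) (nat_lit 81983724626) (nat_lit 9) (nat_lit 4) (nat_lit 10) (nat_lit 5) (nat_lit 10) (nat_lit 4) (nat_lit 390) (nat_lit 354) (nat_lit 276)) (XT.lf (nat_lit 0) (nat_lit 73829038497) (nat_lit 152) (nat_lit 739744089406) (nat_lit 0) (nat_lit 41364980149) (nat_lit 7) (nat_lit 5) (nat_lit 9) (nat_lit 4) (nat_lit 7) (nat_lit 4) (nat_lit 391) (nat_lit 354) (nat_lit 275))))) (XT.nd (nat_lit 234) (nat_lit 152) (nat_lit 0) (XT.nd (nat_lit 78) (nat_lit 76) (nat_lit 0) (XT.lf (nat_lit 0) (nat_lit 261324733386) (nat_lit 152) (nat_lit 465796890280) (nat_lit 0) (nat_lit 228860607169) (nat_lit 7) (nat_lit 5) (nat_lit 9) (nat_lit 4) (nat_lit 7) (nat_lit 4) (nat_lit 392) (nat_lit 354) (nat_lit 274)) (XT.nd (nat_lit 78) (nat_lit 76) (nat_lit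 0) (XT.lf (nat_lit 0) (nat_lit 476944073963) (nat_lit 152) (nat_lit 150759115638) (nat_lit 0) (nat_lit 444479888729) (nat_lit 7) (nat_lit 5) (nat_lit 9) (nat_lit 4) (nat_lit 7) (nat_lit 4) (nat_lit 393) (nat_lit 354) (nat_lit 273)) (XT.lf (nat_lit 0) (nat_lit 232205561917) (nat_lit 76) (nat_lit 502315274721) (nat_lit 76) (nat_lit 469851038168) (nat_lit 6) (nat_lit 4) (nat_lit 7) (nat_lit 5) (nat_lit 7) (nat_lit 4) (nat_lit 394) (nat_lit 354) (nat_lit 272)))) (XT.nd (nat_lit 156) (nat_lit 152) (nat_lit 0) (XT.nd (nat_lit 78) (nat_lit 0) (nat_lit 0) (XT.lf (nat_lit 0) (nat_lit 689556961227) (nat_lit 76) (nat_lit 349057155157) (nat_lit 76) (nat_lit 316592873979) (nat_lit 6) (nat_lit 4) (nat_lit 7) (nat_lit 5) (nat_lit 7) (nat_lit 4) (nat_lit 395) (nat_lit 354) (nat_lit 271)) (XT.lf (nat_lit 0) (nat_lit 1215509984631) (nat_lit 76) (nat_lit 172810892619) (nat_lit 76) (nat_lit 140346572637) (nat_lit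 6) (nat_lit 4) (nat_lit 7) (nat_lit 5) (nat_lit 7) (nat_lit 4) (nat_lit 396) (nat_lit 354) (nat_lit 270))) (XT.nd (nat_lit 78) (nat_lit 0) (nat_lit 0) (XT.lf (nat_lit 0) (nat_lit 62414350512) (nat_lit 152) (nat_lit 1630316868059) (nat_lit 0) (nat_lit 34184477707) (nat_lit 4) (nat_lit 5) (nat_lit 6) (nat_lit 4) (nat_lit 4) (nat_lit 4) (nat_lit 397) (nat_lit 354) (nat_lit 269)) (XT.lf (nat_lit 0) (nat_lit 306598321251) (nat_lit 152) (nat_lit 1365125301198) (nat_lit 0) (nat_lit 278368422932) (nat_lit 4) (nat_lit 5) (nat_lit 6) (nat_lit 4) (nat_lit 4) (nat_lit 4) (nat_lit 398) (nat_lit 354) (nat_lit 268))))))) (XT.nd (nat_lit 1014) (nat_lit 152) (nat_lit 0) (XT.nd (nat_lit 468) (nat_lit 0) (nat_lit 0) (XT.nd (nat_lit 234) (nat_lit 76) (nat_lit 0) (XT.nd (nat_lit 78) (nat_lit 0) (nat_lit 0) (XT.lf (nat_lit 0) (nat_lit 587409483666) (nat_lit 152) (nat_lit 1060155860619) (nat_lit 0) (nat_lit 559179563159)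 (nat_lit 4) (nat_lit 5) (nat_lit 6) (nat_lit 4) (nat_lit 4) (nat_lit 4) (nat_lit 399) (nat_lit 354) (nat_lit 267)) (XT.nd (nat_lit 78) (nat_lit 0) (nat_lit 0) (XT.lf (nat_lit 0) (nat_lit 910341969193) (nat_lit 152) (nat_lit 709441752919) (nat_lit 0) (nat_lit 882112029394) (nat_lit 4) (nat_lit 5) (nat_lit 6) (nat_lit 4) (nat_lit 4) (nat_lit 4) (nat_lit 400) (nat_lit 354) (nat_lit 266)) (XT.lf (nat_lit 0) (nat_lit 1281714022117) (nat_lit 152) (nat_lit 306121180339) (nat_lit 0) (nat_lit 1253484065542) (nat_lit 4) (nat_lit 5) (nat_lit 6) (nat_lit 4) (nat_lit 4) (nat_lit 4) (nat_lit 401) (nat_lit 354) (nat_lit 265)))) (XT.nd (nat_lit 78) (nat_lit 0) (nat_lit 0) (XT.lf (nat_lit 0) (nat_lit 173108200909) (nat_lit 76) (nat_lit 1542851457921) (nat_lit 76) (nat_lit 1514621486758) (nat_lit 3) (nat_lit 4) (nat_lit 4) (nat_lit 5) (nat_lit 4) (nat_lit 4) (nat_lit 402) (nat_lit 354) (nat_lit 264)) (XT.nd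 (nat_lit 78) (nat_lit 0) (nat_lit 0) (XT.lf (nat_lit 0) (nat_lit 758625295052) (nat_lit 76) (nat_lit 1472718381635) (nat_lit 76) (nat_lit 1444488397786) (nat_lit 3) (nat_lit 4) (nat_lit 4) (nat_lit 5) (nat_lit 4) (nat_lit 4) (nat_lit 403) (nat_lit 354) (nat_lit 263)) (XT.lf (nat_lit 0) (nat_lit 1431969483244) (nat_lit 76) (nat_lit 1392065593686) (nat_lit 76) (nat_lit 1363835598807) (nat_lit 3) (nat_lit 4) (nat_lit 4) (nat_lit 5) (nat_lit 4) (nat_lit 4) (nat_lit 404) (nat_lit 354) (nat_lit 262))))) (XT.nd (nat_lit 234) (nat_lit 0) (nat_lit 0) (XT.nd (nat_lit 78) (nat_lit 0) (nat_lit 0) (XT.lf (nat_lit 0) (nat_lit 2206314890906) (nat_lit 76) (nat_lit 1299315104746) (nat_lit 76) (nat_lit 1271085100275) (nat_lit 3) (nat_lit 4) (nat_lit 4) (nat_lit 5) (nat_lit 4) (nat_lit 4) (nat_lit 405) (nat_lit 354) (nat_lit 261)) (XT.nd (nat_lit 78) (nat_lit 0) (nat_lit 0) (XT.lf (nat_lit 0) (nat_lit 3096811754274)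 (nat_lit 76) (nat_lit 1192652231335) (nat_lit 76) (nat_lit 1164422218523) (nat_lit 3) (nat_lit 4) (nat_lit 4) (nat_lit 5) (nat_lit 4) (nat_lit 4) (nat_lit 406) (nat_lit 354) (nat_lit 260)) (XT.lf (nat_lit 0) (nat_lit 4120882838067) (nat_lit 76) (nat_lit 1069990091147) (nat_lit 76) (nat_lit 1041760071083) (nat_lit 3) (nat_lit 4) (nat_lit 4) (nat_lit 5) (nat_lit 4) (nat_lit 4) (nat_lit 407) (nat_lit 354) (nat_lit 259)))) (XT.nd (nat_lit 156) (nat_lit 0) (nat_lit 0) (XT.nd (nat_lit 78) (nat_lit 0) (nat_lit 0) (XT.lf (nat_lit 0) (nat_lit 5298564315663) (nat_lit 76) (nat_lit 928928772744) (nat_lit 76) (nat_lit 900698746373) (nat_lit 3) (nat_lit 4) (nat_lit 4) (nat_lit 5) (nat_lit 4) (nat_lit 4) (nat_lit 408) (nat_lit 354) (nat_lit 258)) (XT.lf (nat_lit 0) (nat_lit 6652897781189) (nat_lit 76) (nat_lit 766708380766) (nat_lit 76) (nat_lit 738478348910) (nat_lit 3) (nat_lit 4) (nat_lit 4) (nat_lit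 5) (nat_lit 4) (nat_lit 4) (nat_lit 409) (nat_lit 354) (nat_lit 257))) (XT.nd (nat_lit 78) (nat_lit 0) (nat_lit 0) (XT.lf (nat_lit 0) (nat_lit 8210381063319) (nat_lit 76) (nat_lit 580155037978) (nat_lit 76) (nat_lit 551925001353) (nat_lit 3) (nat_lit 4) (nat_lit 4) (nat_lit 5) (nat_lit 4) (nat_lit 4) (nat_lit 410) (nat_lit 354) (nat_lit 256)) (XT.lf (nat_lit 0) (nat_lit 10001486661050) (nat_lit 76) (nat_lit 365618787673) (nat_lit 76) (nat_lit 337388746902) (nat_lit 3) (nat_lit 4) (nat_lit 4) (nat_lit 5) (nat_lit 4) (nat_lit 4) (nat_lit 411) (nat_lit 354) (nat_lit 255)))))) (XT.nd (nat_lit 468) (nat_lit 0) (nat_lit 0) (XT.nd (nat_lit 234) (nat_lit 0) (nat_lit 0) (XT.nd (nat_lit 78) (nat_lit 152) (nat_lit 0) (XT.lf (nat_lit 0) (nat_lit 12061257944773) (nat_lit 76) (nat_lit 118902181477) (nat_lit 76) (nat_lit 90672137100) (nat_lit 3) (nat_lit 4) (nat_lit 4) (nat_lit 5) (nat_lit 4) (nat_lit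 4) (nat_lit 412) (nat_lit 354) (nat_lit 254)) (XT.nd (nat_lit 78) (nat_lit 0) (nat_lit 0) (XT.lf (nat_lit 0) (nat_lit 199731605360) (nat_lit 152) (nat_lit 13692426648092) (nat_lit 0) (nat_lit 175183737957) (nat_lit 1) (nat_lit 5) (nat_lit 3) (nat_lit 4) (nat_lit 1) (nat_lit 4) (nat_lit 413) (nat_lit 354) (nat_lit 253)) (XT.lf (nat_lit 0) (nat_lit 541551441429) (nat_lit 152) (nat_lit 15071554712671) (nat_lit 0) (nat_lit 517003571656) (nat_lit 1) (nat_lit 5) (nat_lit 3) (nat_lit 4) (nat_lit 1) (nat_lit 4) (nat_lit 414) (nat_lit 354) (nat_lit 252)))) (XT.nd (nat_lit 78) (nat_lit 0) (nat_lit 0) (XT.lf (nat_lit 0) (nat_lit 934644195931) (nat_lit 152) (nat_lit 16657552108776) (nat_lit 0) (nat_lit 910096324096) (nat_lit 1) (nat_lit 5) (nat_lit 3) (nat_lit 4) (nat_lit 1) (nat_lit 4) (nat_lit 415) (nat_lit 354) (nat_lit 251)) (XT.nd (nat_lit 78) (nat_lit 0) (nat_lit 0) (XT.lf (nat_lit 0) (nat_lit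 1386700814062) (nat_lit 152) (nat_lit 18481449220243) (nat_lit 0) (nat_lit 1362152940434) (nat_lit 1) (nat_lit 5) (nat_lit 3) (nat_lit 4) (nat_lit 1) (nat_lit 4) (nat_lit 416) (nat_lit 354) (nat_lit 250)) (XT.lf (nat_lit 0) (nat_lit 1906565881829) (nat_lit 152) (nat_lit 20578930990558) (nat_lit 0) (nat_lit 1882018006642) (nat_lit 1) (nat_lit 5) (nat_lit 3) (nat_lit 4) (nat_lit 1) (nat_lit 4) (nat_lit 417) (nat_lit 354) (nat_lit 249))))) (XT.nd (nat_lit 234) (nat_lit 0) (nat_lit 0) (XT.nd (nat_lit 78) (nat_lit 0) (nat_lit 0) (XT.lf (nat_lit 0) (nat_lit 2504410672297) (nat_lit 152) (nat_lit 22991035106530) (nat_lit 0) (nat_lit 2479862795754) (nat_lit 1) (nat_lit 5) (nat_lit 3) (nat_lit 4) (nat_lit 1) (nat_lit 4) (nat_lit 418) (nat_lit 354) (nat_lit 248)) (XT.nd (nat_lit 78) (nat_lit 0) (nat_lit 0) (XT.lf (nat_lit 0) (nat_lit 3191932148757) (nat_lit 152) (nat_lit 25764954909561) (nat_lit 0)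 (nat_lit 3167384271036) (nat_lit 1) (nat_lit 5) (nat_lit 3) (nat_lit 4) (nat_lit 1) (nat_lit 4) (nat_lit 419) (nat_lit 354) (nat_lit 247)) (XT.lf (nat_lit 0) (nat_lit 3982581818358) (nat_lit 152) (nat_lit 28954962743621) (nat_lit 0) (nat_lit 3958033939612) (nat_lit 1) (nat_lit 5) (nat_lit 3) (nat_lit 4) (nat_lit 1) (nat_lit 4) (nat_lit 420) (nat_lit 354) (nat_lit 246)))) (XT.nd (nat_lit 156) (nat_lit 0) (nat_lit 0) (XT.nd (nat_lit 78) (nat_lit 0) (nat_lit 0) (XT.lf (nat_lit 0) (nat_lit 4891828913766) (nat_lit 152) (nat_lit 32623471805465) (nat_lit 0) (nat_lit 4867281034129) (nat_lit 1) (nat_lit 5) (nat_lit 3) (nat_lit 4) (nat_lit 1) (nat_lit 4) (nat_lit 421) (nat_lit 354) (nat_lit 245)) (XT.lf (nat_lit 0) (nat_lit 5937463052065) (nat_lit 152) (nat_lit 36842257272389) (nat_lit 0) (nat_lit 5912915171653) (nat_lit 1) (nat_lit 5) (nat_lit 3) (nat_lit 4) (nat_lit 1) (nat_lit 4) (nat_lit 422)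 (nat_lit 354) (nat_lit 244))) (XT.nd (nat_lit 78) (nat_lit 0) (nat_lit 0) (XT.lf (nat_lit 0) (nat_lit 7139942292483) (nat_lit 152) (nat_lit 41693860599181) (nat_lit 0) (nat_lit 7115394411396) (nat_lit 1) (nat_lit 5) (nat_lit 3) (nat_lit 4) (nat_lit 1) (nat_lit 4) (nat_lit 423) (nat_lit 354) (nat_lit 243)) (XT.lf (nat_lit 0) (nat_lit 8522793402767) (nat_lit 152) (nat_lit 47273204459625) (nat_lit 0) (nat_lit 8498245521094) (nat_lit 1) (nat_lit 5) (nat_lit 3) (nat_lit 4) (nat_lit 1) (nat_lit 4) (nat_lit 424) (nat_lit 354) (nat_lit 242))))))))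
noncomputable def xc73 : XT := (XT.nd (nat_lit 48750) (nat_lit 0) (nat_lit 456) (XT.nd (nat_lit 47736) (nat_lit 0) (nat_lit 2052) (XT.nd (nat_lit 468) (nat_lit 0) (nat_lit 0) (XT.nd (nat_lit 234) (nat_lit 0) (nat_lit 0) (XT.nd (nat_lit 78) (nat_lit 0) (nat_lit 0) (XT.lf (nat_lit 0) (nat_lit 10113072165508) (nat_lit 152) (nat_lit 53689449929253) (nat_lit 0) (nat_lit 10088524283326) (nat_lit 1) (nat_lit 5) (nat_lit 3) (nat_lit 4) (nat_lit 1) (nat_lit 4) (nat_lit 425) (nat_lit 354) (nat_lit 241)) (XT.nd (nat_lit 78) (nat_lit 0) (nat_lit 0) (XT.lf (nat_lit 0) (nat_lit 11941892730415) (nat_lit 152) (nat_lit 61068132245514) (nat_lit 0) (nat_lit 11917344847789) (nat_lit 1) (nat_lit 5) (nat_lit 3) (nat_lit 4) (nat_lit 1) (nat_lit 4) (nat_lit 426) (nat_lit 354) (nat_lit 240)) (XT.lf (nat_lit 0) (nat_lit 14045036369407) (nat_lit 152) (nat_lit 69553616931987) (nat_lit 0) (nat_lit 14020488486396) (nat_lit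 1) (nat_lit 5) (nat_lit 3) (nat_lit 4) (nat_lit 1) (nat_lit 4) (nat_lit 427) (nat_lit 354) (nat_lit 239)))) (XT.nd (nat_lit 78) (nat_lit 0) (nat_lit 0) (XT.lf (nat_lit 0) (nat_lit 16463651544987) (nat_lit 152) (nat_lit 79311924341232) (nat_lit 0) (nat_lit 16439103661641) (nat_lit 1) (nat_lit 5) (nat_lit 3) (nat_lit 4) (nat_lit 1) (nat_lit 4) (nat_lit 428) (nat_lit 354) (nat_lit 238)) (XT.nd (nat_lit 78) (nat_lit 0) (nat_lit 0) (XT.lf (nat_lit 0) (nat_lit 19245058988852) (nat_lit 152) (nat_lit 90533977879084) (nat_lit 0) (nat_lit 19220511105215) (nat_lit 1) (nat_lit 5) (nat_lit 3) (nat_lit 4) (nat_lit 1) (nat_lit 4) (nat_lit 429) (nat_lit 354) (nat_lit 237)) (XT.lf (nat_lit 0) (nat_lit 22443677542295) (nat_lit 152) (nat_lit 103439339462586) (nat_lit 0) (nat_lit 22419129658404) (nat_lit 1) (nat_lit 5) (nat_lit 3) (nat_lit 4) (nat_lit 1) (nat_lit 4) (nat_lit 430) (nat_lit 354) (nat_lit 236)))))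 (XT.nd (nat_lit 234) (nat_lit 0) (nat_lit 0) (XT.nd (nat_lit 78) (nat_lit 0) (nat_lit 0) (XT.lf (nat_lit 0) (nat_lit 26122088872665) (nat_lit 152) (nat_lit 118280505296635) (nat_lit 0) (nat_lit 26097540988554) (nat_lit 1) (nat_lit 5) (nat_lit 3) (nat_lit 4) (nat_lit 1) (nat_lit 4) (nat_lit 431) (nat_lit 354) (nat_lit 235)) (XT.nd (nat_lit 78) (nat_lit 0) (nat_lit 0) (XT.lf (nat_lit 0) (nat_lit 30352261897295) (nat_lit 152) (nat_lit 135347846017112) (nat_lit 0) (nat_lit 30327714012993) (nat_lit 1) (nat_lit 5) (nat_lit 3) (nat_lit 4) (nat_lit 1) (nat_lit 4) (nat_lit 432) (nat_lit 354) (nat_lit 234)) (XT.lf (nat_lit 0) (nat_lit 35216960871016) (nat_lit 152) (nat_lit 154975287855507) (nat_lit 0) (nat_lit 35192412986547) (nat_lit 1) (nat_lit 5) (nat_lit 3) (nat_lit 4) (nat_lit 1) (nat_lit 4) (nat_lit 433) (nat_lit 354) (nat_lit 233)))) (XT.nd (nat_lit 78) (nat_lit 0) (nat_lit 0) (XT.lf (nat_lit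 0) (nat_lit 40811364686792) (nat_lit 152) (nat_lit 177546845978221) (nat_lit 0) (nat_lit 40786816802178) (nat_lit 1) (nat_lit 5) (nat_lit 3) (nat_lit 4) (nat_lit 1) (nat_lit 4) (nat_lit 434) (nat_lit 354) (nat_lit 232)) (XT.nd (nat_lit 46878) (nat_lit 0) (nat_lit 2736) (XT.lf (nat_lit 0) (nat_lit 47244929071452) (nat_lit 152) (nat_lit 203504137826788) (nat_lit 0) (nat_lit 47220381186712) (nat_lit 1) (nat_lit 5) (nat_lit 3) (nat_lit 4) (nat_lit 1) (nat_lit 4) (nat_lit 435) (nat_lit 354) (nat_lit 231)) (XT.lf (nat_lit 0) (nat_lit 4617798703) (nat_lit 380) (nat_lit 5944744332) (nat_lit 380) (nat_lit 5944744332) (nat_lit 37) (nat_lit 3) (nat_lit 42) (nat_lit 3) (nat_lit 42) (nat_lit 5) (nat_lit 355) (nat_lit 355) (nat_lit 310)))))) (XT.nd (nat_lit 468) (nat_lit 532) (nat_lit 0) (XT.nd (nat_lit 234) (nat_lit 152) (nat_lit 0) (XT.nd (nat_lit 78) (nat_lit 0) (nat_lit 76) (XT.lf (nat_lit 76) (nat_lit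 4916814025) (nat_lit 0) (nat_lit 5270764361) (nat_lit 380) (nat_lit 25264166494) (nat_lit 38) (nat_lit 5) (nat_lit 37) (nat_lit 3) (nat_lit 42) (nat_lit 5) (nat_lit 356) (nat_lit 355) (nat_lit 309)) (XT.nd (nat_lit 78) (nat_lit 0) (nat_lit 0) (XT.lf (nat_lit 0) (nat_lit 12460146373) (nat_lit 304) (nat_lit 13155257398) (nat_lit 380) (nat_lit 12462422973) (nat_lit 38) (nat_lit 5) (nat_lit 42) (nat_lit 5) (nat_lit 43) (nat_lit 5) (nat_lit 357) (nat_lit 355) (nat_lit 308)) (XT.lf (nat_lit 76) (nat_lit 7215864320) (nat_lit 0) (nat_lit 8398806463) (nat_lit 380) (nat_lit 25401993493) (nat_lit 39) (nat_lit 5) (nat_lit 38) (nat_lit 5) (nat_lit 43) (nat_lit 5) (nat_lit 358) (nat_lit 355) (nat_lit 307)))) (XT.nd (nat_lit 78) (nat_lit 304) (nat_lit 0) (XT.lf (nat_lit 0) (nat_lit 20427045176) (nat_lit 304) (nat_lit 12684697321) (nat_lit 76) (nat_lit 11106887782) (nat_lit 39) (nat_lit 5) (nat_lit 43)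 (nat_lit 5) (nat_lit 40) (nat_lit 5) (nat_lit 359) (nat_lit 355) (nat_lit 306)) (XT.nd (nat_lit 78) (nat_lit 0) (nat_lit 0) (XT.lf (nat_lit 0) (nat_lit 12285831741) (nat_lit 304) (nat_lit 14577337299) (nat_lit 380) (nat_lit 20902441222) (nat_lit 35) (nat_lit 5) (nat_lit 39) (nat_lit 5) (nat_lit 40) (nat_lit 5) (nat_lit 360) (nat_lit 355) (nat_lit 305)) (XT.lf (nat_lit 0) (nat_lit 35232144844) (nat_lit 380) (nat_lit 9635618274) (nat_lit 76) (nat_lit 6831761797) (nat_lit 35) (nat_lit 5) (nat_lit 40) (nat_lit 5) (nat_lit 36) (nat_lit 5) (nat_lit 361) (nat_lit 355) (nat_lit 304))))) (XT.nd (nat_lit 234) (nat_lit 228) (nat_lit 0) (XT.nd (nat_lit 78) (nat_lit 152) (nat_lit 0) (XT.lf (nat_lit 0) (nat_lit 21278955535) (nat_lit 152) (nat_lit 25147413444) (nat_lit 228) (nat_lit 9561674819) (nat_lit 33) (nat_lit 5) (nat_lit 35) (nat_lit 5) (nat_lit 36) (nat_lit 5) (nat_lit 362) (nat_lit 355) (nat_lit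 303)) (XT.nd (nat_lit 78) (nat_lit 152) (nat_lit 0) (XT.lf (nat_lit 0) (nat_lit 57907469432) (nat_lit 152) (nat_lit 1891010068) (nat_lit 228) (nat_lit 1046550122) (nat_lit 33) (nat_lit 5) (nat_lit 35) (nat_lit 5) (nat_lit 36) (nat_lit 5) (nat_lit 363) (nat_lit 355) (nat_lit 302)) (XT.lf (nat_lit 0) (nat_lit 10591538272) (nat_lit 152) (nat_lit 30789198592) (nat_lit 76) (nat_lit 24601859412) (nat_lit 31) (nat_lit 5) (nat_lit 33) (nat_lit 5) (nat_lit 32) (nat_lit 5) (nat_lit 364) (nat_lit 355) (nat_lit 301)))) (XT.nd (nat_lit 156) (nat_lit 76) (nat_lit 0) (XT.nd (nat_lit 78) (nat_lit 0) (nat_lit 0) (XT.lf (nat_lit 0) (nat_lit 8071681919) (nat_lit 152) (nat_lit 16377465339) (nat_lit 228) (nat_lit 47347033524) (nat_lit 29) (nat_lit 5) (nat_lit 31) (nat_lit 5) (nat_lit 32) (nat_lit 5) (nat_lit 365) (nat_lit 355) (nat_lit 300)) (XT.lf (nat_lit 0) (nat_lit 42579983097) (nat_lit 228) (nat_lit 22613845113)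 (nat_lit 76) (nat_lit 12958788084) (nat_lit 29) (nat_lit 5) (nat_lit 32) (nat_lit 5) (nat_lit 30) (nat_lit 4) (nat_lit 366) (nat_lit 355) (nat_lit 299))) (XT.nd (nat_lit 78) (nat_lit 0) (nat_lit 0) (XT.lf (nat_lit 0) (nat_lit 26211564573) (nat_lit 76) (nat_lit 39080675581) (nat_lit 152) (nat_lit 19891008610) (nat_lit 28) (nat_lit 5) (nat_lit 29) (nat_lit 5) (nat_lit 30) (nat_lit 4) (nat_lit 367) (nat_lit 355) (nat_lit 298)) (XT.lf (nat_lit 0) (nat_lit 84897025864) (nat_lit 76) (nat_lit 7693181315) (nat_lit 152) (nat_lit 501439086) (nat_lit 28) (nat_lit 5) (nat_lit 29) (nat_lit 5) (nat_lit 30) (nat_lit 4) (nat_lit 368) (nat_lit 355) (nat_lit 297))))))) (XT.nd (nat_lit 1014) (nat_lit 684) (nat_lit 0) (XT.nd (nat_lit 468) (nat_lit 456) (nat_lit 0) (XT.nd (nat_lit 234) (nat_lit 228) (nat_lit 0) (XT.nd (nat_lit 78) (nat_lit 76) (nat_lit 0) (XT.lf (nat_lit 0) (nat_lit 23419357112) (nat_lit 152)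 (nat_lit 48932219880) (nat_lit 76) (nat_lit 29164853826) (nat_lit 26) (nat_lit 5) (nat_lit 28) (nat_lit 5) (nat_lit 27) (nat_lit 4) (nat_lit 369) (nat_lit 355) (nat_lit 296)) (XT.nd (nat_lit 78) (nat_lit 0) (nat_lit 0) (XT.lf (nat_lit 0) (nat_lit 13002107362) (nat_lit 76) (nat_lit 39225494012) (nat_lit 152) (nat_lit 58771150580) (nat_lit 25) (nat_lit 5) (nat_lit 26) (nat_lit 5) (nat_lit 27) (nat_lit 4) (nat_lit 370) (nat_lit 355) (nat_lit 295)) (XT.lf (nat_lit 0) (nat_lit 87987159054) (nat_lit 152) (nat_lit 31873888056) (nat_lit 0) (nat_lit 1647863134) (nat_lit 25) (nat_lit 5) (nat_lit 27) (nat_lit 4) (nat_lit 25) (nat_lit 4) (nat_lit 371) (nat_lit 355) (nat_lit 294)))) (XT.nd (nat_lit 78) (nat_lit 152) (nat_lit 0) (XT.lf (nat_lit 0) (nat_lit 46428387507) (nat_lit 76) (nat_lit 86470267324) (nat_lit 76) (nat_lit 128737215) (nat_lit 24) (nat_lit 4) (nat_lit 25) (nat_lit 5) (nat_lit 25) (nat_lit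 4) (nat_lit 372) (nat_lit 355) (nat_lit 293)) (XT.nd (nat_lit 78) (nat_lit 76) (nat_lit 0) (XT.lf (nat_lit 0) (nat_lit 36609008914) (nat_lit 152) (nat_lit 7634103714) (nat_lit 76) (nat_lit 101531342766) (nat_lit 23) (nat_lit 5) (nat_lit 25) (nat_lit 5) (nat_lit 24) (nat_lit 4) (nat_lit 373) (nat_lit 355) (nat_lit 292)) (XT.lf (nat_lit 0) (nat_lit 82981481537) (nat_lit 152) (nat_lit 68931858966) (nat_lit 0) (nat_lit 7898731755) (nat_lit 22) (nat_lit 5) (nat_lit 24) (nat_lit 4) (nat_lit 22) (nat_lit 4) (nat_lit 374) (nat_lit 355) (nat_lit 291))))) (XT.nd (nat_lit 234) (nat_lit 228) (nat_lit 0) (XT.nd (nat_lit 78) (nat_lit 152) (nat_lit 0) (XT.lf (nat_lit 0) (nat_lit 29643543389) (nat_lit 76) (nat_lit 110416631604) (nat_lit 76) (nat_lit 35332604418) (nat_lit 21) (nat_lit 4) (nat_lit 22) (nat_lit 5) (nat_lit 22) (nat_lit 4) (nat_lit 375) (nat_lit 355) (nat_lit 290)) (XT.nd (nat_lit 78) (nat_lit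 76) (nat_lit 0) (XT.lf (nat_lit 0) (nat_lit 15059887068) (nat_lit 152) (nat_lit 42706380774) (nat_lit 76) (nat_lit 134901439289) (nat_lit 20) (nat_lit 5) (nat_lit 22) (nat_lit 5) (nat_lit 21) (nat_lit 4) (nat_lit 376) (nat_lit 355) (nat_lit 289)) (XT.lf (nat_lit 0) (nat_lit 73116280307) (nat_lit 152) (nat_lit 130782839995) (nat_lit 0) (nat_lit 7824016069) (nat_lit 19) (nat_lit 5) (nat_lit 21) (nat_lit 4) (nat_lit 19) (nat_lit 4) (nat_lit 377) (nat_lit 355) (nat_lit 288)))) (XT.nd (nat_lit 156) (nat_lit 152) (nat_lit 0) (XT.nd (nat_lit 78) (nat_lit 76) (nat_lit 0) (XT.lf (nat_lit 0) (nat_lit 144968890520) (nat_lit 152) (nat_lit 8228929997) (nat_lit 0) (nat_lit 79675895922) (nat_lit 19) (nat_lit 5) (nat_lit 21) (nat_lit 4) (nat_lit 19) (nat_lit 4) (nat_lit 378) (nat_lit 355) (nat_lit 287)) (XT.lf (nat_lit 0) (nat_lit 145674000917) (nat_lit 76) (nat_lit 87955963312) (nat_lit 76) (nat_lit 22662333618)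 (nat_lit 18) (nat_lit 4) (nat_lit 19) (nat_lit 5) (nat_lit 19) (nat_lit 4) (nat_lit 379) (nat_lit 355) (nat_lit 286))) (XT.nd (nat_lit 78) (nat_lit 0) (nat_lit 0) (XT.lf (nat_lit 0) (nat_lit 41972915189) (nat_lit 76) (nat_lit 7918757899) (nat_lit 152) (nat_lit 232678659796) (nat_lit 16) (nat_lit 5) (nat_lit 17) (nat_lit 5) (nat_lit 18) (nat_lit 4) (nat_lit 380) (nat_lit 355) (nat_lit 285)) (XT.lf (nat_lit 0) (nat_lit 140548199165) (nat_lit 152) (nat_lit 86878826774) (nat_lit 0) (nat_lit 83770232056) (nat_lit 16) (nat_lit 5) (nat_lit 18) (nat_lit 4) (nat_lit 16) (nat_lit 4) (nat_lit 381) (nat_lit 355) (nat_lit 284)))))) (XT.nd (nat_lit 468) (nat_lit 304) (nat_lit 0) (XT.nd (nat_lit 234) (nat_lit 152) (nat_lit 0) (XT.nd (nat_lit 78) (nat_lit 152) (nat_lit 0) (XT.lf (nat_lit 0) (nat_lit 98266201562) (nat_lit 76) (nat_lit 150981814418) (nat_lit 76) (nat_lit 94203484191) (nat_lit 15) (nat_lit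 4) (nat_lit 16) (nat_lit 5) (nat_lit 16) (nat_lit 4) (nat_lit 382) (nat_lit 355) (nat_lit 283)) (XT.nd (nat_lit 78) (nat_lit 152) (nat_lit 0) (XT.lf (nat_lit 0) (nat_lit 320944493645) (nat_lit 76) (nat_lit 57848501312) (nat_lit 76) (nat_lit 1069855330) (nat_lit 15) (nat_lit 4) (nat_lit 16) (nat_lit 5) (nat_lit 16) (nat_lit 4) (nat_lit 383) (nat_lit 355) (nat_lit 282)) (XT.lf (nat_lit 0) (nat_lit 106026934195) (nat_lit 152) (nat_lit 256981466823) (nat_lit 0) (nat_lit 56653959802) (nat_lit 13) (nat_lit 5) (nat_lit 15) (nat_lit 4) (nat_lit 13) (nat_lit 4) (nat_lit 384) (nat_lit 355) (nat_lit 281)))) (XT.nd (nat_lit 78) (nat_lit 152) (nat_lit 0) (XT.lf (nat_lit 0) (nat_lit 235058791695) (nat_lit 152) (nat_lit 43782742413) (nat_lit 0) (nat_lit 185685609689) (nat_lit 13) (nat_lit 5) (nat_lit 15) (nat_lit 4) (nat_lit 13) (nat_lit 4) (nat_lit 385) (nat_lit 355) (nat_lit 280)) (XT.nd (nat_lit 78)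 (nat_lit 76) (nat_lit 0) (XT.lf (nat_lit 0) (nat_lit 221075479694) (nat_lit 76) (nat_lit 171523264800) (nat_lit 76) (nat_lit 122149902260) (nat_lit 12) (nat_lit 4) (nat_lit 13) (nat_lit 5) (nat_lit 13) (nat_lit 4) (nat_lit 386) (nat_lit 355) (nat_lit 279)) (XT.lf (nat_lit 0) (nat_lit 3550260191) (nat_lit 152) (nat_lit 41740460115) (nat_lit 76) (nat_lit 526845287377) (nat_lit 11) (nat_lit 5) (nat_lit 13) (nat_lit 5) (nat_lit 12) (nat_lit 4) (nat_lit 387) (nat_lit 355) (nat_lit 278))))) (XT.nd (nat_lit 234) (nat_lit 152) (nat_lit 0) (XT.nd (nat_lit 78) (nat_lit 76) (nat_lit 0) (XT.lf (nat_lit 0) (nat_lit 151543037837) (nat_lit 152) (nat_lit 374714999619) (nat_lit 0) (nat_lit 108609423892) (nat_lit 10) (nat_lit 5) (nat_lit 12) (nat_lit 4) (nat_lit 10) (nat_lit 4) (nat_lit 388) (nat_lit 355) (nat_lit 277)) (XT.nd (nat_lit 78) (nat_lit 76) (nat_lit 0) (XT.lf (nat_lit 0) (nat_lit 326176401768)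 (nat_lit 152) (nat_lit 96923296267) (nat_lit 0) (nat_lit 283242684603) (nat_lit 10) (nat_lit 5) (nat_lit 12) (nat_lit 4) (nat_lit 10) (nat_lit 4) (nat_lit 389) (nat_lit 355) (nat_lit 276)) (XT.lf (nat_lit 0) (nat_lit 244283464681) (nat_lit 76) (nat_lit 292835851265) (nat_lit 76) (nat_lit 249902044343) (nat_lit 9) (nat_lit 4) (nat_lit 10) (nat_lit 5) (nat_lit 10) (nat_lit 4) (nat_lit 390) (nat_lit 355) (nat_lit 275)))) (XT.nd (nat_lit 156) (nat_lit 0) (nat_lit 0) (XT.nd (nat_lit 78) (nat_lit 152) (nat_lit 0) (XT.lf (nat_lit 0) (nat_lit 647562663648) (nat_lit 76) (nat_lit 137206770451) (nat_lit 76) (nat_lit 94272885479) (nat_lit 9) (nat_lit 4) (nat_lit 10) (nat_lit 5) (nat_lit 10) (nat_lit 4) (nat_lit 391) (nat_lit 355) (nat_lit 274)) (XT.lf (nat_lit 0) (nat_lit 84911023497) (nat_lit 152) (nat_lit 850689504793) (nat_lit 0) (nat_lit 47577151461) (nat_lit 7) (nat_lit 5) (nat_lit 9) (nat_lit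 4) (nat_lit 7) (nat_lit 4) (nat_lit 392) (nat_lit 355) (nat_lit 273))) (XT.nd (nat_lit 78) (nat_lit 0) (nat_lit 0) (XT.lf (nat_lit 0) (nat_lit 300530077504) (nat_lit 152) (nat_lit 535652338585) (nat_lit 0) (nat_lit 263196154149) (nat_lit 7) (nat_lit 5) (nat_lit 9) (nat_lit 4) (nat_lit 7) (nat_lit 4) (nat_lit 393) (nat_lit 355) (nat_lit 272)) (XT.lf (nat_lit 0) (nat_lit 548491453848) (nat_lit 152) (nat_lit 173360734951) (nat_lit 0) (nat_lit 511157485868) (nat_lit 7) (nat_lit 5) (nat_lit 9) (nat_lit 4) (nat_lit 7) (nat_lit 4) (nat_lit 394) (nat_lit 355) (nat_lit 271))))))))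
noncomputable def xc74 : XT := (XT.nd (nat_lit 1950) (nat_lit 0) (nat_lit 0) (XT.nd (nat_lit 936) (nat_lit 152) (nat_lit 0) (XT.nd (nat_lit 468) (nat_lit 76) (nat_lit 0) (XT.nd (nat_lit 234) (nat_lit 152) (nat_lit 0) (XT.nd (nat_lit 78) (nat_lit 0) (nat_lit 0) (XT.lf (nat_lit 0) (nat_lit 267048087509) (nat_lit 76) (nat_lit 577656375077) (nat_lit 76) (nat_lit 540322368293) (nat_lit 6) (nat_lit 4) (nat_lit 7) (nat_lit 5) (nat_lit 7) (nat_lit 4) (nat_lit 395) (nat_lit 355) (nat_lit 270)) (XT.nd (nat_lit 78) (nat_lit 0) (nat_lit 0) (XT.lf (nat_lit 0) (nat_lit 793000671762) (nat_lit 76) (nat_lit 401410345081) (nat_lit 76) (nat_lit 364076304554) (nat_lit 6) (nat_lit 4) (nat_lit 7) (nat_lit 5) (nat_lit 7) (nat_lit 4) (nat_lit 396) (nat_lit 355) (nat_lit 269)) (XT.lf (nat_lit 0) (nat_lit 1397845322632) (nat_lit 76) (nat_lit 198727845339) (nat_lit 76) (nat_lit 161393775469) (nat_lit 6) (nat_lit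 4) (nat_lit 7) (nat_lit 5) (nat_lit 7) (nat_lit 4) (nat_lit 397) (nat_lit 355) (nat_lit 268)))) (XT.nd (nat_lit 78) (nat_lit 0) (nat_lit 0) (XT.lf (nat_lit 0) (nat_lit 71780852443) (nat_lit 152) (nat_lit 1874855124153) (nat_lit 0) (nat_lit 39316421674) (nat_lit 4) (nat_lit 5) (nat_lit 6) (nat_lit 4) (nat_lit 4) (nat_lit 4) (nat_lit 398) (nat_lit 355) (nat_lit 267)) (XT.nd (nat_lit 78) (nat_lit 0) (nat_lit 0) (XT.lf (nat_lit 0) (nat_lit 352591851486) (nat_lit 152) (nat_lit 1569886031930) (nat_lit 0) (nat_lit 320127401425) (nat_lit 4) (nat_lit 5) (nat_lit 6) (nat_lit 4) (nat_lit 4) (nat_lit 4) (nat_lit 399) (nat_lit 355) (nat_lit 266)) (XT.lf (nat_lit 0) (nat_lit 675524194952) (nat_lit 152) (nat_lit 1219172227149) (nat_lit 0) (nat_lit 643059728114) (nat_lit 4) (nat_lit 5) (nat_lit 6) (nat_lit 4) (nat_lit 4) (nat_lit 4) (nat_lit 400) (nat_lit 355) (nat_lit 265))))) (XT.nd (nat_lit 234) (nat_lit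 0) (nat_lit 0) (XT.nd (nat_lit 78) (nat_lit 76) (nat_lit 0) (XT.lf (nat_lit 0) (nat_lit 1046896124343) (nat_lit 152) (nat_lit 815851917976) (nat_lit 0) (nat_lit 1014431642918) (nat_lit 4) (nat_lit 5) (nat_lit 6) (nat_lit 4) (nat_lit 4) (nat_lit 4) (nat_lit 401) (nat_lit 355) (nat_lit 264)) (XT.nd (nat_lit 78) (nat_lit 76) (nat_lit 0) (XT.lf (nat_lit 0) (nat_lit 1473973612192) (nat_lit 152) (nat_lit 352034054885) (nat_lit 0) (nat_lit 1441509118081) (nat_lit 4) (nat_lit 5) (nat_lit 6) (nat_lit 4) (nat_lit 4) (nat_lit 4) (nat_lit 402) (nat_lit 355) (nat_lit 263)) (XT.lf (nat_lit 0) (nat_lit 199079492528) (nat_lit 76) (nat_lit 1774276487110) (nat_lit 76) (nat_lit 1741811981968) (nat_lit 3) (nat_lit 4) (nat_lit 4) (nat_lit 5) (nat_lit 4) (nat_lit 4) (nat_lit 403) (nat_lit 355) (nat_lit 262)))) (XT.nd (nat_lit 78) (nat_lit 0) (nat_lit 0) (XT.lf (nat_lit 0) (nat_lit 872423490599) (nat_lit 76)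 (nat_lit 1693623800185) (nat_lit 76) (nat_lit 1661159285451) (nat_lit 3) (nat_lit 4) (nat_lit 4) (nat_lit 5) (nat_lit 4) (nat_lit 4) (nat_lit 404) (nat_lit 355) (nat_lit 261)) (XT.nd (nat_lit 78) (nat_lit 0) (nat_lit 0) (XT.lf (nat_lit 0) (nat_lit 1646768732938) (nat_lit 76) (nat_lit 1600873399091) (nat_lit 76) (nat_lit 1568408876017) (nat_lit 3) (nat_lit 4) (nat_lit 4) (nat_lit 5) (nat_lit 4) (nat_lit 4) (nat_lit 405) (nat_lit 355) (nat_lit 260)) (XT.lf (nat_lit 0) (nat_lit 2537265452548) (nat_lit 76) (nat_lit 1494210602069) (nat_lit 76) (nat_lit 1461746071741) (nat_lit 3) (nat_lit 4) (nat_lit 4) (nat_lit 5) (nat_lit 4) (nat_lit 4) (nat_lit 406) (nat_lit 355) (nat_lit 259)))))) (XT.nd (nat_lit 468) (nat_lit 152) (nat_lit 0) (XT.nd (nat_lit 234) (nat_lit 0) (nat_lit 0) (XT.nd (nat_lit 78) (nat_lit 0) (nat_lit 0) (XT.lf (nat_lit 0) (nat_lit 3561336411334) (nat_lit 76) (nat_lit 1371548528305)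 (nat_lit 76) (nat_lit 1339083991671) (nat_lit 3) (nat_lit 4) (nat_lit 4) (nat_lit 5) (nat_lit 4) (nat_lit 4) (nat_lit 407) (nat_lit 355) (nat_lit 258)) (XT.nd (nat_lit 78) (nat_lit 0) (nat_lit 0) (XT.lf (nat_lit 0) (nat_lit 4739017780228) (nat_lit 76) (nat_lit 1230487267663) (nat_lit 76) (nat_lit 1198022725545) (nat_lit 3) (nat_lit 4) (nat_lit 4) (nat_lit 5) (nat_lit 4) (nat_lit 4) (nat_lit 408) (nat_lit 355) (nat_lit 257)) (XT.lf (nat_lit 0) (nat_lit 6093351151231) (nat_lit 76) (nat_lit 1068266925911) (nat_lit 76) (nat_lit 1035802379024) (nat_lit 3) (nat_lit 4) (nat_lit 4) (nat_lit 5) (nat_lit 4) (nat_lit 4) (nat_lit 409) (nat_lit 355) (nat_lit 256)))) (XT.nd (nat_lit 78) (nat_lit 0) (nat_lit 0) (XT.lf (nat_lit 0) (nat_lit 7650834351166) (nat_lit 76) (nat_lit 881713626798) (nat_lit 76) (nat_lit 849249075764) (nat_lit 3) (nat_lit 4) (nat_lit 4) (nat_lit 5) (nat_lit 4) (nat_lit 4) (nat_lit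 410) (nat_lit 355) (nat_lit 255)) (XT.nd (nat_lit 78) (nat_lit 0) (nat_lit 0) (XT.lf (nat_lit 0) (nat_lit 9441939877424) (nat_lit 76) (nat_lit 667177414472) (nat_lit 76) (nat_lit 634712859832) (nat_lit 3) (nat_lit 4) (nat_lit 4) (nat_lit 5) (nat_lit 4) (nat_lit 4) (nat_lit 411) (nat_lit 355) (nat_lit 254)) (XT.lf (nat_lit 0) (nat_lit 11501711098997) (nat_lit 76) (nat_lit 420460841301) (nat_lit 76) (nat_lit 387996283525) (nat_lit 3) (nat_lit 4) (nat_lit 4) (nat_lit 5) (nat_lit 4) (nat_lit 4) (nat_lit 412) (nat_lit 355) (nat_lit 253))))) (XT.nd (nat_lit 234) (nat_lit 0) (nat_lit 0) (XT.nd (nat_lit 78) (nat_lit 152) (nat_lit 0) (XT.lf (nat_lit 0) (nat_lit 13870447887610) (nat_lit 76) (nat_lit 136736843895) (nat_lit 76) (nat_lit 104272283393) (nat_lit 3) (nat_lit 4) (nat_lit 4) (nat_lit 5) (nat_lit 4) (nat_lit 4) (nat_lit 413) (nat_lit 355) (nat_lit 252)) (XT.nd (nat_lit 78) (nat_lit 0) (nat_lit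 0) (XT.lf (nat_lit 0) (nat_lit 229691959674) (nat_lit 152) (nat_lit 15746289333415) (nat_lit 0) (nat_lit 201461905001) (nat_lit 1) (nat_lit 5) (nat_lit 3) (nat_lit 4) (nat_lit 1) (nat_lit 4) (nat_lit 414) (nat_lit 355) (nat_lit 251)) (XT.lf (nat_lit 0) (nat_lit 622784691131) (nat_lit 152) (nat_lit 17332286778797) (nat_lit 0) (nat_lit 594554634666) (nat_lit 1) (nat_lit 5) (nat_lit 3) (nat_lit 4) (nat_lit 1) (nat_lit 4) (nat_lit 415) (nat_lit 355) (nat_lit 250)))) (XT.nd (nat_lit 156) (nat_lit 0) (nat_lit 0) (XT.nd (nat_lit 78) (nat_lit 0) (nat_lit 0) (XT.lf (nat_lit 0) (nat_lit 1074841289223) (nat_lit 152) (nat_lit 19156183933114) (nat_lit 0) (nat_lit 1046611231199) (nat_lit 1) (nat_lit 5) (nat_lit 3) (nat_lit 4) (nat_lit 1) (nat_lit 4) (nat_lit 416) (nat_lit 355) (nat_lit 249)) (XT.lf (nat_lit 0) (nat_lit 1594706339564) (nat_lit 152) (nat_lit 21253665740689) (nat_lit 0) (nat_lit 1566476280185)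 (nat_lit 1) (nat_lit 5) (nat_lit 3) (nat_lit 4) (nat_lit 1) (nat_lit 4) (nat_lit 417) (nat_lit 355) (nat_lit 248))) (XT.nd (nat_lit 78) (nat_lit 0) (nat_lit 0) (XT.lf (nat_lit 0) (nat_lit 2192551114880) (nat_lit 152) (nat_lit 23665769889063) (nat_lit 0) (nat_lit 2164321054321) (nat_lit 1) (nat_lit 5) (nat_lit 3) (nat_lit 4) (nat_lit 1) (nat_lit 4) (nat_lit 418) (nat_lit 355) (nat_lit 247)) (XT.lf (nat_lit 0) (nat_lit 2880072578164) (nat_lit 152) (nat_lit 26439689720268) (nat_lit 0) (nat_lit 2851842516581) (nat_lit 1) (nat_lit 5) (nat_lit 3) (nat_lit 4) (nat_lit 1) (nat_lit 4) (nat_lit 419) (nat_lit 355) (nat_lit 246))))))) (XT.nd (nat_lit 1014) (nat_lit 0) (nat_lit 0) (XT.nd (nat_lit 468) (nat_lit 0) (nat_lit 0) (XT.nd (nat_lit 234) (nat_lit 0) (nat_lit 0) (XT.nd (nat_lit 78) (nat_lit 0) (nat_lit 0) (XT.lf (nat_lit 0) (nat_lit 3670722236308) (nat_lit 152) (nat_lit 29629697578828) (nat_lit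 0) (nat_lit 3642492173833) (nat_lit 1) (nat_lit 5) (nat_lit 3) (nat_lit 4) (nat_lit 1) (nat_lit 4) (nat_lit 420) (nat_lit 355) (nat_lit 245)) (XT.nd (nat_lit 78) (nat_lit 0) (nat_lit 0) (XT.lf (nat_lit 0) (nat_lit 4579969321753) (nat_lit 152) (nat_lit 33298206661976) (nat_lit 0) (nat_lit 4551739258503) (nat_lit 1) (nat_lit 5) (nat_lit 3) (nat_lit 4) (nat_lit 1) (nat_lit 4) (nat_lit 421) (nat_lit 355) (nat_lit 244)) (XT.lf (nat_lit 0) (nat_lit 5625603451389) (nat_lit 152) (nat_lit 37516992147425) (nat_lit 0) (nat_lit 5597373387465) (nat_lit 1) (nat_lit 5) (nat_lit 3) (nat_lit 4) (nat_lit 1) (nat_lit 4) (nat_lit 422) (nat_lit 355) (nat_lit 243)))) (XT.nd (nat_lit 78) (nat_lit 0) (nat_lit 0) (XT.lf (nat_lit 0) (nat_lit 6828082684273) (nat_lit 152) (nat_lit 42368595490326) (nat_lit 0) (nat_lit 6799852619763) (nat_lit 1) (nat_lit 5) (nat_lit 3) (nat_lit 4) (nat_lit 1) (nat_lit 4) (nat_lit 423)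 (nat_lit 355) (nat_lit 242)) (XT.nd (nat_lit 78) (nat_lit 0) (nat_lit 0) (XT.lf (nat_lit 0) (nat_lit 8210933788006) (nat_lit 152) (nat_lit 47947939364778) (nat_lit 0) (nat_lit 8182703722986) (nat_lit 1) (nat_lit 5) (nat_lit 3) (nat_lit 4) (nat_lit 1) (nat_lit 4) (nat_lit 424) (nat_lit 355) (nat_lit 241)) (XT.lf (nat_lit 0) (nat_lit 9801212545051) (nat_lit 152) (nat_lit 54364184846587) (nat_lit 0) (nat_lit 9772982479589) (nat_lit 1) (nat_lit 5) (nat_lit 3) (nat_lit 4) (nat_lit 1) (nat_lit 4) (nat_lit 425) (nat_lit 355) (nat_lit 240))))) (XT.nd (nat_lit 234) (nat_lit 0) (nat_lit 0) (XT.nd (nat_lit 78) (nat_lit 0) (nat_lit 0) (XT.lf (nat_lit 0) (nat_lit 11630033105004) (nat_lit 152) (nat_lit 61742867173440) (nat_lit 0) (nat_lit 11601803039156) (nat_lit 1) (nat_lit 5) (nat_lit 3) (nat_lit 4) (nat_lit 1) (nat_lit 4) (nat_lit 426) (nat_lit 355) (nat_lit 239)) (XT.nd (nat_lit 78) (nat_lit 0) (nat_lit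 0) (XT.lf (nat_lit 0) (nat_lit 13733176739689) (nat_lit 152) (nat_lit 70228351869122) (nat_lit 0) (nat_lit 13704946673506) (nat_lit 1) (nat_lit 5) (nat_lit 3) (nat_lit 4) (nat_lit 1) (nat_lit 4) (nat_lit 427) (nat_lit 355) (nat_lit 238)) (XT.lf (nat_lit 0) (nat_lit 16151791911524) (nat_lit 152) (nat_lit 79986659286377) (nat_lit 0) (nat_lit 16123561845050) (nat_lit 1) (nat_lit 5) (nat_lit 3) (nat_lit 4) (nat_lit 1) (nat_lit 4) (nat_lit 428) (nat_lit 355) (nat_lit 237)))) (XT.nd (nat_lit 156) (nat_lit 0) (nat_lit 0) (XT.nd (nat_lit 78) (nat_lit 0) (nat_lit 0) (XT.lf (nat_lit 0) (nat_lit 18933199352133) (nat_lit 152) (nat_lit 91208712831193) (nat_lit 0) (nat_lit 18904969285405) (nat_lit 1) (nat_lit 5) (nat_lit 3) (nat_lit 4) (nat_lit 1) (nat_lit 4) (nat_lit 429) (nat_lit 355) (nat_lit 236)) (XT.lf (nat_lit 0) (nat_lit 22131817902743) (nat_lit 152) (nat_lit 104114074420752) (nat_lit 0) (nat_lit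 22103587835795) (nat_lit 1) (nat_lit 5) (nat_lit 3) (nat_lit 4) (nat_lit 1) (nat_lit 4) (nat_lit 430) (nat_lit 355) (nat_lit 235))) (XT.nd (nat_lit 78) (nat_lit 0) (nat_lit 0) (XT.lf (nat_lit 0) (nat_lit 25810229230650) (nat_lit 152) (nat_lit 118955240260066) (nat_lit 0) (nat_lit 25781999163510) (nat_lit 1) (nat_lit 5) (nat_lit 3) (nat_lit 4) (nat_lit 1) (nat_lit 4) (nat_lit 431) (nat_lit 355) (nat_lit 234)) (XT.lf (nat_lit 0) (nat_lit 30040402253139) (nat_lit 152) (nat_lit 136022580985123) (nat_lit 0) (nat_lit 30012172185833) (nat_lit 1) (nat_lit 5) (nat_lit 3) (nat_lit 4) (nat_lit 1) (nat_lit 4) (nat_lit 432) (nat_lit 355) (nat_lit 233)))))) (XT.nd (nat_lit 47424) (nat_lit 0) (nat_lit 2128) (XT.nd (nat_lit 47190) (nat_lit 0) (nat_lit 2736) (XT.nd (nat_lit 78) (nat_lit 0) (nat_lit 0) (XT.lf (nat_lit 0) (nat_lit 34905101224998) (nat_lit 152) (nat_lit 155650022827499) (nat_lit 0) (nat_lit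 34876871157547) (nat_lit 1) (nat_lit 5) (nat_lit 3) (nat_lit 4) (nat_lit 1) (nat_lit 4) (nat_lit 433) (nat_lit 355) (nat_lit 232)) (XT.nd (nat_lit 47034) (nat_lit 0) (nat_lit 2736) (XT.lf (nat_lit 0) (nat_lit 40499505039155) (nat_lit 152) (nat_lit 178221580953676) (nat_lit 0) (nat_lit 40471274971577) (nat_lit 1) (nat_lit 5) (nat_lit 3) (nat_lit 4) (nat_lit 1) (nat_lit 4) (nat_lit 434) (nat_lit 355) (nat_lit 231)) (XT.lf (nat_lit 0) (nat_lit 5363877802) (nat_lit 380) (nat_lit 6805733039) (nat_lit 380) (nat_lit 6805733039) (nat_lit 37) (nat_lit 3) (nat_lit 42) (nat_lit 3) (nat_lit 42) (nat_lit 5) (nat_lit 356) (nat_lit 356) (nat_lit 308)))) (XT.nd (nat_lit 78) (nat_lit 0) (nat_lit 76) (XT.lf (nat_lit 76) (nat_lit 5712989019) (nat_lit 0) (nat_lit 6098040544) (nat_lit 380) (nat_lit 28944136063) (nat_lit 38) (nat_lit 5) (nat_lit 37) (nat_lit 3) (nat_lit 42) (nat_lit 5) (nat_lit 357) (nat_lit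 356) (nat_lit 307)) (XT.nd (nat_lit 78) (nat_lit 0) (nat_lit 0) (XT.lf (nat_lit 0) (nat_lit 14410730367) (nat_lit 304) (nat_lit 15063753007) (nat_lit 380) (nat_lit 14302744970) (nat_lit 38) (nat_lit 5) (nat_lit 42) (nat_lit 5) (nat_lit 43) (nat_lit 5) (nat_lit 358) (nat_lit 356) (nat_lit 306)) (XT.lf (nat_lit 76) (nat_lit 8360091833) (nat_lit 0) (nat_lit 9670264067) (nat_lit 380) (nat_lit 29127752206) (nat_lit 39) (nat_lit 5) (nat_lit 38) (nat_lit 5) (nat_lit 43) (nat_lit 5) (nat_lit 359) (nat_lit 356) (nat_lit 305))))) (XT.nd (nat_lit 234) (nat_lit 456) (nat_lit 0) (XT.nd (nat_lit 78) (nat_lit 304) (nat_lit 0) (XT.lf (nat_lit 0) (nat_lit 23554582519) (nat_lit 304) (nat_lit 14523588420) (nat_lit 76) (nat_lit 12763702983) (nat_lit 39) (nat_lit 5) (nat_lit 43) (nat_lit 5) (nat_lit 40) (nat_lit 5) (nat_lit 360) (nat_lit 356) (nat_lit 304)) (XT.nd (nat_lit 78) (nat_lit 0) (nat_lit 0) (XT.lf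 (nat_lit 0) (nat_lit 14189619387) (nat_lit 304) (nat_lit 16760747773) (nat_lit 380) (nat_lit 23971401170) (nat_lit 35) (nat_lit 5) (nat_lit 39) (nat_lit 5) (nat_lit 40) (nat_lit 5) (nat_lit 361) (nat_lit 356) (nat_lit 303)) (XT.lf (nat_lit 0) (nat_lit 40567275146) (nat_lit 380) (nat_lit 11020557311) (nat_lit 76) (nat_lit 7859053121) (nat_lit 35) (nat_lit 5) (nat_lit 40) (nat_lit 5) (nat_lit 36) (nat_lit 5) (nat_lit 362) (nat_lit 356) (nat_lit 302)))) (XT.nd (nat_lit 156) (nat_lit 304) (nat_lit 0) (XT.nd (nat_lit 78) (nat_lit 0) (nat_lit 0) (XT.lf (nat_lit 0) (nat_lit 24528456946) (nat_lit 152) (nat_lit 28908001465) (nat_lit 228) (nat_lit 10942852899) (nat_lit 33) (nat_lit 5) (nat_lit 35) (nat_lit 5) (nat_lit 36) (nat_lit 5) (nat_lit 363) (nat_lit 356) (nat_lit 301)) (XT.lf (nat_lit 0) (nat_lit 66643727309) (nat_lit 152) (nat_lit 2164640713) (nat_lit 228) (nat_lit 1157382081) (nat_lit 33)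 (nat_lit 5) (nat_lit 35) (nat_lit 5) (nat_lit 36) (nat_lit 5) (nat_lit 364) (nat_lit 356) (nat_lit 300))) (XT.nd (nat_lit 78) (nat_lit 152) (nat_lit 0) (XT.lf (nat_lit 0) (nat_lit 12219513961) (nat_lit 152) (nat_lit 35350508525) (nat_lit 76) (nat_lit 28304064033) (nat_lit 31) (nat_lit 5) (nat_lit 33) (nat_lit 5) (nat_lit 32) (nat_lit 5) (nat_lit 365) (nat_lit 356) (nat_lit 299)) (XT.lf (nat_lit 0) (nat_lit 9336909979) (nat_lit 152) (nat_lit 18815991135) (nat_lit 228) (nat_lit 54407238688) (nat_lit 29) (nat_lit 5) (nat_lit 31) (nat_lit 5) (nat_lit 32) (nat_lit 5) (nat_lit 366) (nat_lit 356) (nat_lit 298))))))))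
noncomputable def xc75 : XT := (XT.nd (nat_lit 2028) (nat_lit 608) (nat_lit 0) (XT.nd (nat_lit 1014) (nat_lit 760) (nat_lit 0) (XT.nd (nat_lit 468) (nat_lit 456) (nat_lit 0) (XT.nd (nat_lit 234) (nat_lit 228) (nat_lit 0) (XT.nd (nat_lit 78) (nat_lit 76) (nat_lit 0) (XT.lf (nat_lit 0) (nat_lit 48999268389) (nat_lit 228) (nat_lit 25954448285) (nat_lit 76) (nat_lit 14916939472) (nat_lit 29) (nat_lit 5) (nat_lit 32) (nat_lit 5) (nat_lit 30) (nat_lit 4) (nat_lit 367) (nat_lit 356) (nat_lit 297)) (XT.nd (nat_lit 78) (nat_lit 0) (nat_lit 0) (XT.lf (nat_lit 0) (nat_lit 30192433145) (nat_lit 76) (nat_lit 44923753932) (nat_lit 152) (nat_lit 22840024174) (nat_lit 28) (nat_lit 5) (nat_lit 29) (nat_lit 5) (nat_lit 30) (nat_lit 4) (nat_lit 368) (nat_lit 356) (nat_lit 296)) (XT.lf (nat_lit 0) (nat_lit 97674304862) (nat_lit 76) (nat_lit 8830616786) (nat_lit 152) (nat_lit 546536926) (nat_lit 28) (nat_lit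 5) (nat_lit 29) (nat_lit 5) (nat_lit 30) (nat_lit 4) (nat_lit 369) (nat_lit 356) (nat_lit 295)))) (XT.nd (nat_lit 78) (nat_lit 76) (nat_lit 0) (XT.lf (nat_lit 0) (nat_lit 26958646383) (nat_lit 152) (nat_lit 56225583844) (nat_lit 76) (nat_lit 33555701972) (nat_lit 26) (nat_lit 5) (nat_lit 28) (nat_lit 5) (nat_lit 27) (nat_lit 4) (nat_lit 370) (nat_lit 356) (nat_lit 294)) (XT.nd (nat_lit 78) (nat_lit 0) (nat_lit 0) (XT.lf (nat_lit 0) (nat_lit 14996780255) (nat_lit 76) (nat_lit 45089742135) (nat_lit 152) (nat_lit 67558320552) (nat_lit 25) (nat_lit 5) (nat_lit 26) (nat_lit 5) (nat_lit 27) (nat_lit 4) (nat_lit 371) (nat_lit 356) (nat_lit 293)) (XT.lf (nat_lit 0) (nat_lit 101207486312) (nat_lit 152) (nat_lit 36613868661) (nat_lit 0) (nat_lit 1910549726) (nat_lit 25) (nat_lit 5) (nat_lit 27) (nat_lit 4) (nat_lit 25) (nat_lit 4) (nat_lit 372) (nat_lit 356) (nat_lit 292))))) (XT.nd (nat_lit 234)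 (nat_lit 228) (nat_lit 0) (XT.nd (nat_lit 78) (nat_lit 152) (nat_lit 0) (XT.lf (nat_lit 0) (nat_lit 53431879936) (nat_lit 76) (nat_lit 99422548510) (nat_lit 76) (nat_lit 123922556) (nat_lit 24) (nat_lit 4) (nat_lit 25) (nat_lit 5) (nat_lit 25) (nat_lit 4) (nat_lit 373) (nat_lit 356) (nat_lit 291)) (XT.nd (nat_lit 78) (nat_lit 76) (nat_lit 0) (XT.lf (nat_lit 0) (nat_lit 42119471073) (nat_lit 152) (nat_lit 8743232160) (nat_lit 76) (nat_lit 116775051170) (nat_lit 23) (nat_lit 5) (nat_lit 25) (nat_lit 5) (nat_lit 24) (nat_lit 4) (nat_lit 374) (nat_lit 356) (nat_lit 290)) (XT.lf (nat_lit 0) (nat_lit 95447419685) (nat_lit 152) (nat_lit 79235253467) (nat_lit 0) (nat_lit 9098400230) (nat_lit 22) (nat_lit 5) (nat_lit 24) (nat_lit 4) (nat_lit 22) (nat_lit 4) (nat_lit 375) (nat_lit 356) (nat_lit 289)))) (XT.nd (nat_lit 156) (nat_lit 76) (nat_lit 0) (XT.nd (nat_lit 78) (nat_lit 76) (nat_lit 0) (XT.lf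 (nat_lit 0) (nat_lit 34124805407) (nat_lit 76) (nat_lit 126962108661) (nat_lit 76) (nat_lit 40612123304) (nat_lit 21) (nat_lit 4) (nat_lit 22) (nat_lit 5) (nat_lit 22) (nat_lit 4) (nat_lit 376) (nat_lit 356) (nat_lit 288)) (XT.lf (nat_lit 0) (nat_lit 17335007641) (nat_lit 152) (nat_lit 49080558840) (nat_lit 76) (nat_lit 155149874562) (nat_lit 20) (nat_lit 5) (nat_lit 22) (nat_lit 5) (nat_lit 21) (nat_lit 4) (nat_lit 377) (nat_lit 356) (nat_lit 287))) (XT.nd (nat_lit 78) (nat_lit 0) (nat_lit 0) (XT.lf (nat_lit 0) (nat_lit 84099634078) (nat_lit 152) (nat_lit 150368259825) (nat_lit 0) (nat_lit 9011324834) (nat_lit 19) (nat_lit 5) (nat_lit 21) (nat_lit 4) (nat_lit 19) (nat_lit 4) (nat_lit 378) (nat_lit 356) (nat_lit 286)) (XT.lf (nat_lit 0) (nat_lit 166728060381) (nat_lit 152) (nat_lit 9435438046) (nat_lit 0) (nat_lit 91639198879) (nat_lit 19) (nat_lit 5) (nat_lit 21) (nat_lit 4) (nat_lit 19)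 (nat_lit 4) (nat_lit 379) (nat_lit 356) (nat_lit 285)))))) (XT.nd (nat_lit 468) (nat_lit 304) (nat_lit 0) (XT.nd (nat_lit 234) (nat_lit 228) (nat_lit 0) (XT.nd (nat_lit 78) (nat_lit 152) (nat_lit 0) (XT.lf (nat_lit 0) (nat_lit 167551667440) (nat_lit 76) (nat_lit 101135923031) (nat_lit 76) (nat_lit 26046581306) (nat_lit 18) (nat_lit 4) (nat_lit 19) (nat_lit 5) (nat_lit 19) (nat_lit 4) (nat_lit 380) (nat_lit 356) (nat_lit 284)) (XT.nd (nat_lit 78) (nat_lit 0) (nat_lit 0) (XT.lf (nat_lit 0) (nat_lit 48295495526) (nat_lit 76) (nat_lit 9092995095) (nat_lit 152) (nat_lit 267565431448) (nat_lit 16) (nat_lit 5) (nat_lit 17) (nat_lit 5) (nat_lit 18) (nat_lit 4) (nat_lit 381) (nat_lit 356) (nat_lit 283)) (XT.lf (nat_lit 0) (nat_lit 161642280121) (nat_lit 152) (nat_lit 99886266762) (nat_lit 0) (nat_lit 96346521487) (nat_lit 16) (nat_lit 5) (nat_lit 18) (nat_lit 4) (nat_lit 16) (nat_lit 4) (nat_lit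 382) (nat_lit 356) (nat_lit 282)))) (XT.nd (nat_lit 78) (nat_lit 152) (nat_lit 0) (XT.lf (nat_lit 0) (nat_lit 113029407459) (nat_lit 76) (nat_lit 173617080001) (nat_lit 76) (nat_lit 108321046798) (nat_lit 15) (nat_lit 4) (nat_lit 16) (nat_lit 5) (nat_lit 16) (nat_lit 4) (nat_lit 383) (nat_lit 356) (nat_lit 281)) (XT.nd (nat_lit 78) (nat_lit 152) (nat_lit 0) (XT.lf (nat_lit 0) (nat_lit 369106407400) (nat_lit 76) (nat_lit 66515336004) (nat_lit 76) (nat_lit 1219064045) (nat_lit 15) (nat_lit 4) (nat_lit 16) (nat_lit 5) (nat_lit 16) (nat_lit 4) (nat_lit 384) (nat_lit 356) (nat_lit 280)) (XT.lf (nat_lit 0) (nat_lit 121941176429) (nat_lit 152) (nat_lit 295507378846) (nat_lit 0) (nat_lit 65161628974) (nat_lit 13) (nat_lit 5) (nat_lit 15) (nat_lit 4) (nat_lit 13) (nat_lit 4) (nat_lit 385) (nat_lit 356) (nat_lit 279))))) (XT.nd (nat_lit 234) (nat_lit 152) (nat_lit 0) (XT.nd (nat_lit 78) (nat_lit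 152) (nat_lit 0) (XT.lf (nat_lit 0) (nat_lit 270326481845) (nat_lit 152) (nat_lit 50331625079) (nat_lit 0) (nat_lit 213546777404) (nat_lit 13) (nat_lit 5) (nat_lit 15) (nat_lit 4) (nat_lit 13) (nat_lit 4) (nat_lit 386) (nat_lit 356) (nat_lit 278)) (XT.nd (nat_lit 78) (nat_lit 76) (nat_lit 0) (XT.lf (nat_lit 0) (nat_lit 254254488131) (nat_lit 76) (nat_lit 197242514654) (nat_lit 76) (nat_lit 140462673704) (nat_lit 12) (nat_lit 4) (nat_lit 13) (nat_lit 5) (nat_lit 13) (nat_lit 4) (nat_lit 387) (nat_lit 356) (nat_lit 277)) (XT.lf (nat_lit 0) (nat_lit 4090494086) (nat_lit 152) (nat_lit 47985397368) (nat_lit 76) (nat_lit 605879362935) (nat_lit 11) (nat_lit 5) (nat_lit 13) (nat_lit 5) (nat_lit 12) (nat_lit 4) (nat_lit 388) (nat_lit 356) (nat_lit 276)))) (XT.nd (nat_lit 156) (nat_lit 76) (nat_lit 0) (XT.nd (nat_lit 78) (nat_lit 0) (nat_lit 0) (XT.lf (nat_lit 0) (nat_lit 174282156469) (nat_lit 152)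 (nat_lit 430906085699) (nat_lit 0) (nat_lit 124908188751) (nat_lit 10) (nat_lit 5) (nat_lit 12) (nat_lit 4) (nat_lit 10) (nat_lit 4) (nat_lit 389) (nat_lit 356) (nat_lit 275)) (XT.lf (nat_lit 0) (nat_lit 375109525474) (nat_lit 152) (nat_lit 111447735174) (nat_lit 0) (nat_lit 325735479706) (nat_lit 10) (nat_lit 5) (nat_lit 12) (nat_lit 4) (nat_lit 10) (nat_lit 4) (nat_lit 390) (nat_lit 356) (nat_lit 274))) (XT.nd (nat_lit 78) (nat_lit 0) (nat_lit 0) (XT.lf (nat_lit 0) (nat_lit 280939401029) (nat_lit 76) (nat_lit 336754162161) (nat_lit 76) (nat_lit 287380048524) (nat_lit 9) (nat_lit 4) (nat_lit 10) (nat_lit 5) (nat_lit 10) (nat_lit 4) (nat_lit 391) (nat_lit 356) (nat_lit 273)) (XT.lf (nat_lit 0) (nat_lit 744708729843) (nat_lit 76) (nat_lit 157781640980) (nat_lit 76) (nat_lit 108407468326) (nat_lit 9) (nat_lit 4) (nat_lit 10) (nat_lit 5) (nat_lit 10) (nat_lit 4) (nat_lit 392) (nat_lit 356)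 (nat_lit 272))))))) (XT.nd (nat_lit 1014) (nat_lit 152) (nat_lit 0) (XT.nd (nat_lit 468) (nat_lit 228) (nat_lit 0) (XT.nd (nat_lit 234) (nat_lit 76) (nat_lit 0) (XT.nd (nat_lit 78) (nat_lit 0) (nat_lit 0) (XT.lf (nat_lit 0) (nat_lit 97653445813) (nat_lit 152) (nat_lit 978280682479) (nat_lit 0) (nat_lit 54719338011) (nat_lit 7) (nat_lit 5) (nat_lit 9) (nat_lit 4) (nat_lit 7) (nat_lit 4) (nat_lit 393) (nat_lit 356) (nat_lit 271)) (XT.nd (nat_lit 78) (nat_lit 0) (nat_lit 0) (XT.lf (nat_lit 0) (nat_lit 345614605469) (nat_lit 152) (nat_lit 615989538909) (nat_lit 0) (nat_lit 302680458862) (nat_lit 7) (nat_lit 5) (nat_lit 9) (nat_lit 4) (nat_lit 7) (nat_lit 4) (nat_lit 394) (nat_lit 356) (nat_lit 270)) (XT.lf (nat_lit 0) (nat_lit 630769533960) (nat_lit 152) (nat_lit 199355583921) (nat_lit 0) (nat_lit 587835353610) (nat_lit 7) (nat_lit 5) (nat_lit 9) (nat_lit 4) (nat_lit 7) (nat_lit 4) (nat_lit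 395) (nat_lit 356) (nat_lit 269)))) (XT.nd (nat_lit 78) (nat_lit 0) (nat_lit 0) (XT.lf (nat_lit 0) (nat_lit 307114140941) (nat_lit 76) (nat_lit 664300150165) (nat_lit 76) (nat_lit 621365940473) (nat_lit 6) (nat_lit 4) (nat_lit 7) (nat_lit 5) (nat_lit 7) (nat_lit 4) (nat_lit 396) (nat_lit 356) (nat_lit 268)) (XT.nd (nat_lit 78) (nat_lit 0) (nat_lit 0) (XT.lf (nat_lit 0) (nat_lit 911958459749) (nat_lit 76) (nat_lit 461617826258) (nat_lit 76) (nat_lit 418683591051) (nat_lit 6) (nat_lit 4) (nat_lit 7) (nat_lit 5) (nat_lit 7) (nat_lit 4) (nat_lit 397) (nat_lit 356) (nat_lit 267)) (XT.lf (nat_lit 0) (nat_lit 1607528805567) (nat_lit 76) (nat_lit 228533482500) (nat_lit 76) (nat_lit 185599225107) (nat_lit 6) (nat_lit 4) (nat_lit 7) (nat_lit 5) (nat_lit 7) (nat_lit 4) (nat_lit 398) (nat_lit 356) (nat_lit 266))))) (XT.nd (nat_lit 234) (nat_lit 76) (nat_lit 0) (XT.nd (nat_lit 78) (nat_lit 0) (nat_lit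 0) (XT.lf (nat_lit 0) (nat_lit 82551269046) (nat_lit 152) (nat_lit 2156076380213) (nat_lit 0) (nat_lit 45217115407) (nat_lit 4) (nat_lit 5) (nat_lit 6) (nat_lit 4) (nat_lit 4) (nat_lit 4) (nat_lit 399) (nat_lit 356) (nat_lit 265)) (XT.nd (nat_lit 78) (nat_lit 0) (nat_lit 0) (XT.lf (nat_lit 0) (nat_lit 405483488980) (nat_lit 152) (nat_lit 1805362838839) (nat_lit 0) (nat_lit 368149320752) (nat_lit 4) (nat_lit 5) (nat_lit 6) (nat_lit 4) (nat_lit 4) (nat_lit 4) (nat_lit 400) (nat_lit 356) (nat_lit 264)) (XT.lf (nat_lit 0) (nat_lit 776855310952) (nat_lit 152) (nat_lit 1402042758716) (nat_lit 0) (nat_lit 739521130039) (nat_lit 4) (nat_lit 5) (nat_lit 6) (nat_lit 4) (nat_lit 4) (nat_lit 4) (nat_lit 401) (nat_lit 356) (nat_lit 263)))) (XT.nd (nat_lit 156) (nat_lit 76) (nat_lit 0) (XT.nd (nat_lit 78) (nat_lit 0) (nat_lit 0) (XT.lf (nat_lit 0) (nat_lit 1203932705393) (nat_lit 152) (nat_lit 938225094799)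 (nat_lit 0) (nat_lit 1166598513449) (nat_lit 4) (nat_lit 5) (nat_lit 6) (nat_lit 4) (nat_lit 4) (nat_lit 4) (nat_lit 402) (nat_lit 356) (nat_lit 262)) (XT.lf (nat_lit 0) (nat_lit 1695071534367) (nat_lit 152) (nat_lit 404835153662) (nat_lit 0) (nat_lit 1657737332831) (nat_lit 4) (nat_lit 5) (nat_lit 6) (nat_lit 4) (nat_lit 4) (nat_lit 4) (nat_lit 403) (nat_lit 356) (nat_lit 261))) (XT.nd (nat_lit 78) (nat_lit 0) (nat_lit 0) (XT.lf (nat_lit 0) (nat_lit 228945243615) (nat_lit 76) (nat_lit 2040415926529) (nat_lit 76) (nat_lit 2003081716652) (nat_lit 3) (nat_lit 4) (nat_lit 4) (nat_lit 5) (nat_lit 4) (nat_lit 4) (nat_lit 404) (nat_lit 356) (nat_lit 260)) (XT.lf (nat_lit 0) (nat_lit 1003290342196) (nat_lit 76) (nat_lit 1947665601823) (nat_lit 76) (nat_lit 1910331384694) (nat_lit 3) (nat_lit 4) (nat_lit 4) (nat_lit 5) (nat_lit 4) (nat_lit 4) (nat_lit 405) (nat_lit 356) (nat_lit 259)))))) (XT.nd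 (nat_lit 468) (nat_lit 152) (nat_lit 0) (XT.nd (nat_lit 234) (nat_lit 0) (nat_lit 0) (XT.nd (nat_lit 78) (nat_lit 0) (nat_lit 0) (XT.lf (nat_lit 0) (nat_lit 1893786936798) (nat_lit 76) (nat_lit 1841002871225) (nat_lit 76) (nat_lit 1803668647789) (nat_lit 3) (nat_lit 4) (nat_lit 4) (nat_lit 5) (nat_lit 4) (nat_lit 4) (nat_lit 406) (nat_lit 356) (nat_lit 258)) (XT.nd (nat_lit 78) (nat_lit 0) (nat_lit 0) (XT.lf (nat_lit 0) (nat_lit 2917857786882) (nat_lit 76) (nat_lit 1718340855223) (nat_lit 76) (nat_lit 1681006626302) (nat_lit 3) (nat_lit 4) (nat_lit 4) (nat_lit 5) (nat_lit 4) (nat_lit 4) (nat_lit 407) (nat_lit 356) (nat_lit 257)) (XT.lf (nat_lit 0) (nat_lit 4095539061252) (nat_lit 76) (nat_lit 1577279644807) (nat_lit 76) (nat_lit 1539945411117) (nat_lit 3) (nat_lit 4) (nat_lit 4) (nat_lit 5) (nat_lit 4) (nat_lit 4) (nat_lit 408) (nat_lit 356) (nat_lit 256)))) (XT.nd (nat_lit 78) (nat_lit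 0) (nat_lit 0) (XT.lf (nat_lit 0) (nat_lit 5449872350061) (nat_lit 76) (nat_lit 1415059346730) (nat_lit 76) (nat_lit 1377725108894) (nat_lit 3) (nat_lit 4) (nat_lit 4) (nat_lit 5) (nat_lit 4) (nat_lit 4) (nat_lit 409) (nat_lit 356) (nat_lit 255)) (XT.nd (nat_lit 78) (nat_lit 0) (nat_lit 0) (XT.lf (nat_lit 0) (nat_lit 7007355478523) (nat_lit 76) (nat_lit 1228506085596) (nat_lit 76) (nat_lit 1191171844154) (nat_lit 3) (nat_lit 4) (nat_lit 4) (nat_lit 5) (nat_lit 4) (nat_lit 4) (nat_lit 410) (nat_lit 356) (nat_lit 254)) (XT.lf (nat_lit 0) (nat_lit 8798460942630) (nat_lit 76) (nat_lit 1013969906295) (nat_lit 76) (nat_lit 976635661717) (nat_lit 3) (nat_lit 4) (nat_lit 4) (nat_lit 5) (nat_lit 4) (nat_lit 4) (nat_lit 411) (nat_lit 356) (nat_lit 253))))) (XT.nd (nat_lit 234) (nat_lit 152) (nat_lit 0) (XT.nd (nat_lit 78) (nat_lit 0) (nat_lit 0) (XT.lf (nat_lit 0) (nat_lit 10858232110159) (nat_lit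 76) (nat_lit 767253361840) (nat_lit 76) (nat_lit 729919114536) (nat_lit 3) (nat_lit 4) (nat_lit 4) (nat_lit 5) (nat_lit 4) (nat_lit 4) (nat_lit 412) (nat_lit 356) (nat_lit 252)) (XT.nd (nat_lit 78) (nat_lit 0) (nat_lit 0) (XT.lf (nat_lit 0) (nat_lit 13226968851778) (nat_lit 76) (nat_lit 483529389406) (nat_lit 76) (nat_lit 446195139731) (nat_lit 3) (nat_lit 4) (nat_lit 4) (nat_lit 5) (nat_lit 4) (nat_lit 4) (nat_lit 413) (nat_lit 356) (nat_lit 251)) (XT.lf (nat_lit 0) (nat_lit 15951016016779) (nat_lit 76) (nat_lit 157246867793) (nat_lit 76) (nat_lit 119912616056) (nat_lit 3) (nat_lit 4) (nat_lit 4) (nat_lit 5) (nat_lit 4) (nat_lit 4) (nat_lit 414) (nat_lit 356) (nat_lit 250)))) (XT.nd (nat_lit 156) (nat_lit 0) (nat_lit 0) (XT.nd (nat_lit 78) (nat_lit 0) (nat_lit 0) (XT.lf (nat_lit 0) (nat_lit 264146217526) (nat_lit 152) (nat_lit 18108231741449) (nat_lit 0) (nat_lit 231681649240) (nat_lit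 1) (nat_lit 5) (nat_lit 3) (nat_lit 4) (nat_lit 1) (nat_lit 4) (nat_lit 415) (nat_lit 356) (nat_lit 249)) (XT.lf (nat_lit 0) (nat_lit 716202798193) (nat_lit 152) (nat_lit 19932128933026) (nat_lit 0) (nat_lit 683738228551) (nat_lit 1) (nat_lit 5) (nat_lit 3) (nat_lit 4) (nat_lit 1) (nat_lit 4) (nat_lit 416) (nat_lit 356) (nat_lit 248))) (XT.nd (nat_lit 78) (nat_lit 0) (nat_lit 0) (XT.lf (nat_lit 0) (nat_lit 1236067833383) (nat_lit 152) (nat_lit 22029610773003) (nat_lit 0) (nat_lit 1203603262562) (nat_lit 1) (nat_lit 5) (nat_lit 3) (nat_lit 4) (nat_lit 1) (nat_lit 4) (nat_lit 417) (nat_lit 356) (nat_lit 247)) (XT.lf (nat_lit 0) (nat_lit 1833912595522) (nat_lit 152) (nat_lit 24441714949551) (nat_lit 0) (nat_lit 1801448023676) (nat_lit 1) (nat_lit 5) (nat_lit 3) (nat_lit 4) (nat_lit 1) (nat_lit 4) (nat_lit 418) (nat_lit 356) (nat_lit 246))))))))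
noncomputable def xc76 : XT := (XT.nd (nat_lit 49062) (nat_lit 0) (nat_lit 608) (XT.nd (nat_lit 936) (nat_lit 0) (nat_lit 0) (XT.nd (nat_lit 468) (nat_lit 0) (nat_lit 0) (XT.nd (nat_lit 234) (nat_lit 0) (nat_lit 0) (XT.nd (nat_lit 78) (nat_lit 0) (nat_lit 0) (XT.lf (nat_lit 0) (nat_lit 2521434047349) (nat_lit 152) (nat_lit 27215634805256) (nat_lit 0) (nat_lit 2488969474612) (nat_lit 1) (nat_lit 5) (nat_lit 3) (nat_lit 4) (nat_lit 1) (nat_lit 4) (nat_lit 419) (nat_lit 356) (nat_lit 245)) (XT.nd (nat_lit 78) (nat_lit 0) (nat_lit 0) (XT.lf (nat_lit 0) (nat_lit 3312083695530) (nat_lit 152) (nat_lit 30405642685120) (nat_lit 0) (nat_lit 3279619122018) (nat_lit 1) (nat_lit 5) (nat_lit 3) (nat_lit 4) (nat_lit 1) (nat_lit 4) (nat_lit 420) (nat_lit 356) (nat_lit 244)) (XT.lf (nat_lit 0) (nat_lit 4221330772312) (nat_lit 152) (nat_lit 34074151786793) (nat_lit 0) (nat_lit 4188866198125) (nat_lit 1)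 (nat_lit 5) (nat_lit 3) (nat_lit 4) (nat_lit 1) (nat_lit 4) (nat_lit 421) (nat_lit 356) (nat_lit 243)))) (XT.nd (nat_lit 78) (nat_lit 0) (nat_lit 0) (XT.lf (nat_lit 0) (nat_lit 5266964894414) (nat_lit 152) (nat_lit 38292937288351) (nat_lit 0) (nat_lit 5234500319642) (nat_lit 1) (nat_lit 5) (nat_lit 3) (nat_lit 4) (nat_lit 1) (nat_lit 4) (nat_lit 422) (nat_lit 356) (nat_lit 242)) (XT.nd (nat_lit 78) (nat_lit 0) (nat_lit 0) (XT.lf (nat_lit 0) (nat_lit 6469444120748) (nat_lit 152) (nat_lit 43144540645259) (nat_lit 0) (nat_lit 6436979545466) (nat_lit 1) (nat_lit 5) (nat_lit 3) (nat_lit 4) (nat_lit 1) (nat_lit 4) (nat_lit 423) (nat_lit 356) (nat_lit 241)) (XT.lf (nat_lit 0) (nat_lit 7852295218784) (nat_lit 152) (nat_lit 48723884531892) (nat_lit 0) (nat_lit 7819830643059) (nat_lit 1) (nat_lit 5) (nat_lit 3) (nat_lit 4) (nat_lit 1) (nat_lit 4) (nat_lit 424) (nat_lit 356) (nat_lit 240))))) (XT.nd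 (nat_lit 234) (nat_lit 0) (nat_lit 0) (XT.nd (nat_lit 78) (nat_lit 0) (nat_lit 0) (XT.lf (nat_lit 0) (nat_lit 9442573970876) (nat_lit 152) (nat_lit 55140130024293) (nat_lit 0) (nat_lit 9410109394766) (nat_lit 1) (nat_lit 5) (nat_lit 3) (nat_lit 4) (nat_lit 1) (nat_lit 4) (nat_lit 425) (nat_lit 356) (nat_lit 239)) (XT.nd (nat_lit 78) (nat_lit 0) (nat_lit 0) (XT.lf (nat_lit 0) (nat_lit 11271394526522) (nat_lit 152) (nat_lit 62518812360356) (nat_lit 0) (nat_lit 11238929950076) (nat_lit 1) (nat_lit 5) (nat_lit 3) (nat_lit 4) (nat_lit 1) (nat_lit 4) (nat_lit 426) (nat_lit 356) (nat_lit 238)) (XT.lf (nat_lit 0) (nat_lit 13374538157461) (nat_lit 152) (nat_lit 71004297064048) (nat_lit 0) (nat_lit 13342073580724) (nat_lit 1) (nat_lit 5) (nat_lit 3) (nat_lit 4) (nat_lit 1) (nat_lit 4) (nat_lit 427) (nat_lit 356) (nat_lit 237)))) (XT.nd (nat_lit 78) (nat_lit 0) (nat_lit 0) (XT.lf (nat_lit 0) (nat_lit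 15793153326040) (nat_lit 152) (nat_lit 80762604488266) (nat_lit 0) (nat_lit 15760688749049) (nat_lit 1) (nat_lit 5) (nat_lit 3) (nat_lit 4) (nat_lit 1) (nat_lit 4) (nat_lit 428) (nat_lit 356) (nat_lit 236)) (XT.nd (nat_lit 78) (nat_lit 0) (nat_lit 0) (XT.lf (nat_lit 0) (nat_lit 18574560763816) (nat_lit 152) (nat_lit 91984658039139) (nat_lit 0) (nat_lit 18542096186605) (nat_lit 1) (nat_lit 5) (nat_lit 3) (nat_lit 4) (nat_lit 1) (nat_lit 4) (nat_lit 429) (nat_lit 356) (nat_lit 235)) (XT.lf (nat_lit 0) (nat_lit 21773179311963) (nat_lit 152) (nat_lit 104890019633963) (nat_lit 0) (nat_lit 21740714734561) (nat_lit 1) (nat_lit 5) (nat_lit 3) (nat_lit 4) (nat_lit 1) (nat_lit 4) (nat_lit 430) (nat_lit 356) (nat_lit 234)))))) (XT.nd (nat_lit 47580) (nat_lit 0) (nat_lit 2280) (XT.nd (nat_lit 47346) (nat_lit 0) (nat_lit 2736) (XT.nd (nat_lit 78) (nat_lit 0) (nat_lit 0) (XT.lf (nat_lit 0) (nat_lit 25451590637729)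 (nat_lit 152) (nat_lit 119731185477856) (nat_lit 0) (nat_lit 25419126060160) (nat_lit 1) (nat_lit 5) (nat_lit 3) (nat_lit 4) (nat_lit 1) (nat_lit 4) (nat_lit 431) (nat_lit 356) (nat_lit 233)) (XT.nd (nat_lit 78) (nat_lit 0) (nat_lit 0) (XT.lf (nat_lit 0) (nat_lit 29681763658356) (nat_lit 152) (nat_lit 136798526206895) (nat_lit 0) (nat_lit 29649299080642) (nat_lit 1) (nat_lit 5) (nat_lit 3) (nat_lit 4) (nat_lit 1) (nat_lit 4) (nat_lit 432) (nat_lit 356) (nat_lit 232)) (XT.lf (nat_lit 0) (nat_lit 34546462628596) (nat_lit 152) (nat_lit 156425968052734) (nat_lit 0) (nat_lit 34513998050756) (nat_lit 1) (nat_lit 5) (nat_lit 3) (nat_lit 4) (nat_lit 1) (nat_lit 4) (nat_lit 433) (nat_lit 356) (nat_lit 231)))) (XT.nd (nat_lit 78) (nat_lit 0) (nat_lit 0) (XT.lf (nat_lit 0) (nat_lit 6208844572) (nat_lit 380) (nat_lit 7803362037) (nat_lit 380) (nat_lit 7803362037) (nat_lit 37) (nat_lit 3) (nat_lit 42)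 (nat_lit 3) (nat_lit 42) (nat_lit 5) (nat_lit 357) (nat_lit 357) (nat_lit 306)) (XT.nd (nat_lit 78) (nat_lit 0) (nat_lit 76) (XT.lf (nat_lit 76) (nat_lit 6614287384) (nat_lit 0) (nat_lit 7040468008) (nat_lit 380) (nat_lit 33202841233) (nat_lit 38) (nat_lit 5) (nat_lit 37) (nat_lit 3) (nat_lit 42) (nat_lit 5) (nat_lit 358) (nat_lit 357) (nat_lit 305)) (XT.lf (nat_lit 0) (nat_lit 16634012541) (nat_lit 304) (nat_lit 17274323140) (nat_lit 380) (nat_lit 16426197208) (nat_lit 38) (nat_lit 5) (nat_lit 42) (nat_lit 5) (nat_lit 43) (nat_lit 5) (nat_lit 359) (nat_lit 357) (nat_lit 304))))) (XT.nd (nat_lit 234) (nat_lit 304) (nat_lit 0) (XT.nd (nat_lit 78) (nat_lit 228) (nat_lit 0) (XT.lf (nat_lit 76) (nat_lit 9660871480) (nat_lit 0) (nat_lit 11129602645) (nat_lit 380) (nat_lit 33432990417) (nat_lit 39) (nat_lit 5) (nat_lit 38) (nat_lit 5) (nat_lit 43) (nat_lit 5) (nat_lit 360) (nat_lit 357) (nat_lit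 303)) (XT.nd (nat_lit 78) (nat_lit 304) (nat_lit 0) (XT.lf (nat_lit 0) (nat_lit 27135770325) (nat_lit 304) (nat_lit 16653874510) (nat_lit 76) (nat_lit 14671288324) (nat_lit 39) (nat_lit 5) (nat_lit 43) (nat_lit 5) (nat_lit 40) (nat_lit 5) (nat_lit 361) (nat_lit 357) (nat_lit 302)) (XT.lf (nat_lit 0) (nat_lit 16364121188) (nat_lit 304) (nat_lit 19272447750) (nat_lit 380) (nat_lit 27516898691) (nat_lit 35) (nat_lit 5) (nat_lit 39) (nat_lit 5) (nat_lit 40) (nat_lit 5) (nat_lit 362) (nat_lit 357) (nat_lit 301)))) (XT.nd (nat_lit 156) (nat_lit 152) (nat_lit 0) (XT.nd (nat_lit 78) (nat_lit 152) (nat_lit 0) (XT.lf (nat_lit 0) (nat_lit 46690406928) (nat_lit 380) (nat_lit 12627967030) (nat_lit 76) (nat_lit 9039821907) (nat_lit 35) (nat_lit 5) (nat_lit 40) (nat_lit 5) (nat_lit 36) (nat_lit 5) (nat_lit 363) (nat_lit 357) (nat_lit 300)) (XT.lf (nat_lit 0) (nat_lit 28251323281) (nat_lit 152) (nat_lit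 33235487888) (nat_lit 228) (nat_lit 12544149913) (nat_lit 33) (nat_lit 5) (nat_lit 35) (nat_lit 5) (nat_lit 36) (nat_lit 5) (nat_lit 364) (nat_lit 357) (nat_lit 299))) (XT.nd (nat_lit 78) (nat_lit 152) (nat_lit 0) (XT.lf (nat_lit 0) (nat_lit 76678197530) (nat_lit 152) (nat_lit 2481759605) (nat_lit 228) (nat_lit 1296092940) (nat_lit 33) (nat_lit 5) (nat_lit 35) (nat_lit 5) (nat_lit 36) (nat_lit 5) (nat_lit 365) (nat_lit 357) (nat_lit 298)) (XT.lf (nat_lit 0) (nat_lit 14082115874) (nat_lit 152) (nat_lit 40609931794) (nat_lit 76) (nat_lit 32558691187) (nat_lit 31) (nat_lit 5) (nat_lit 33) (nat_lit 5) (nat_lit 32) (nat_lit 5) (nat_lit 366) (nat_lit 357) (nat_lit 297))))))) (XT.nd (nat_lit 1014) (nat_lit 760) (nat_lit 0) (XT.nd (nat_lit 468) (nat_lit 456) (nat_lit 0) (XT.nd (nat_lit 234) (nat_lit 228) (nat_lit 0) (XT.nd (nat_lit 78) (nat_lit 76) (nat_lit 0) (XT.lf (nat_lit 0) (nat_lit 10778637985)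 (nat_lit 152) (nat_lit 21624708139) (nat_lit 228) (nat_lit 62536679982) (nat_lit 29) (nat_lit 5) (nat_lit 31) (nat_lit 5) (nat_lit 32) (nat_lit 5) (nat_lit 367) (nat_lit 357) (nat_lit 296)) (XT.nd (nat_lit 78) (nat_lit 76) (nat_lit 0) (XT.lf (nat_lit 0) (nat_lit 56373572883) (nat_lit 228) (nat_lit 29808694095) (nat_lit 76) (nat_lit 17165318332) (nat_lit 29) (nat_lit 5) (nat_lit 32) (nat_lit 5) (nat_lit 30) (nat_lit 4) (nat_lit 368) (nat_lit 357) (nat_lit 295)) (XT.lf (nat_lit 0) (nat_lit 34758450394) (nat_lit 76) (nat_lit 51647932912) (nat_lit 152) (nat_lit 26239838215) (nat_lit 28) (nat_lit 5) (nat_lit 29) (nat_lit 5) (nat_lit 30) (nat_lit 4) (nat_lit 369) (nat_lit 357) (nat_lit 294)))) (XT.nd (nat_lit 78) (nat_lit 228) (nat_lit 0) (XT.lf (nat_lit 0) (nat_lit 112357756920) (nat_lit 76) (nat_lit 10142701382) (nat_lit 152) (nat_lit 605743912) (nat_lit 28) (nat_lit 5) (nat_lit 29) (nat_lit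 5) (nat_lit 30) (nat_lit 4) (nat_lit 370) (nat_lit 357) (nat_lit 293)) (XT.nd (nat_lit 78) (nat_lit 76) (nat_lit 0) (XT.lf (nat_lit 0) (nat_lit 31022394723) (nat_lit 152) (nat_lit 64624284168) (nat_lit 76) (nat_lit 38601246359) (nat_lit 26) (nat_lit 5) (nat_lit 28) (nat_lit 5) (nat_lit 27) (nat_lit 4) (nat_lit 371) (nat_lit 357) (nat_lit 292)) (XT.lf (nat_lit 0) (nat_lit 17279837399) (nat_lit 76) (nat_lit 51838401203) (nat_lit 152) (nat_lit 77670516564) (nat_lit 25) (nat_lit 5) (nat_lit 26) (nat_lit 5) (nat_lit 27) (nat_lit 4) (nat_lit 372) (nat_lit 357) (nat_lit 291))))) (XT.nd (nat_lit 234) (nat_lit 304) (nat_lit 0) (XT.nd (nat_lit 78) (nat_lit 152) (nat_lit 0) (XT.lf (nat_lit 0) (nat_lit 116405436026) (nat_lit 152) (nat_lit 42074869486) (nat_lit 0) (nat_lit 2208857797) (nat_lit 25) (nat_lit 5) (nat_lit 27) (nat_lit 4) (nat_lit 25) (nat_lit 4) (nat_lit 373) (nat_lit 357) (nat_lit 290))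 (XT.nd (nat_lit 78) (nat_lit 76) (nat_lit 0) (XT.lf (nat_lit 0) (nat_lit 61476328697) (nat_lit 76) (nat_lit 114322124426) (nat_lit 76) (nat_lit 124268792) (nat_lit 24) (nat_lit 4) (nat_lit 25) (nat_lit 5) (nat_lit 25) (nat_lit 4) (nat_lit 374) (nat_lit 357) (nat_lit 289)) (XT.lf (nat_lit 0) (nat_lit 48451842261) (nat_lit 152) (nat_lit 10027505557) (nat_lit 76) (nat_lit 134301900142) (nat_lit 23) (nat_lit 5) (nat_lit 25) (nat_lit 5) (nat_lit 24) (nat_lit 4) (nat_lit 375) (nat_lit 357) (nat_lit 288)))) (XT.nd (nat_lit 156) (nat_lit 152) (nat_lit 0) (XT.nd (nat_lit 78) (nat_lit 76) (nat_lit 0) (XT.lf (nat_lit 0) (nat_lit 109778684560) (nat_lit 152) (nat_lit 91093029695) (nat_lit 0) (nat_lit 10474395585) (nat_lit 22) (nat_lit 5) (nat_lit 24) (nat_lit 4) (nat_lit 22) (nat_lit 4) (nat_lit 376) (nat_lit 357) (nat_lit 287)) (XT.lf (nat_lit 0) (nat_lit 39269787474) (nat_lit 76) (nat_lit 145993557147)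 (nat_lit 76) (nat_lit 46688537811) (nat_lit 21) (nat_lit 4) (nat_lit 22) (nat_lit 5) (nat_lit 22) (nat_lit 4) (nat_lit 377) (nat_lit 357) (nat_lit 286))) (XT.nd (nat_lit 78) (nat_lit 76) (nat_lit 0) (XT.lf (nat_lit 0) (nat_lit 19947461066) (nat_lit 152) (nat_lit 56418613139) (nat_lit 76) (nat_lit 178432351496) (nat_lit 20) (nat_lit 5) (nat_lit 22) (nat_lit 5) (nat_lit 21) (nat_lit 4) (nat_lit 378) (nat_lit 357) (nat_lit 285)) (XT.lf (nat_lit 0) (nat_lit 96726610739) (nat_lit 152) (nat_lit 172899297537) (nat_lit 0) (nat_lit 10373387532) (nat_lit 19) (nat_lit 5) (nat_lit 21) (nat_lit 4) (nat_lit 19) (nat_lit 4) (nat_lit 379) (nat_lit 357) (nat_lit 284)))))) (XT.nd (nat_lit 468) (nat_lit 456) (nat_lit 0) (XT.nd (nat_lit 234) (nat_lit 76) (nat_lit 0) (XT.nd (nat_lit 78) (nat_lit 228) (nat_lit 0) (XT.lf (nat_lit 0) (nat_lit 191747731655) (nat_lit 152) (nat_lit 10829709177) (nat_lit 0) (nat_lit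 105394090862) (nat_lit 19) (nat_lit 5) (nat_lit 21) (nat_lit 4) (nat_lit 19) (nat_lit 4) (nat_lit 380) (nat_lit 357) (nat_lit 283)) (XT.nd (nat_lit 78) (nat_lit 152) (nat_lit 0) (XT.lf (nat_lit 0) (nat_lit 192704505560) (nat_lit 76) (nat_lit 116296152863) (nat_lit 76) (nat_lit 29942148952) (nat_lit 18) (nat_lit 4) (nat_lit 19) (nat_lit 5) (nat_lit 19) (nat_lit 4) (nat_lit 381) (nat_lit 357) (nat_lit 282)) (XT.lf (nat_lit 0) (nat_lit 55559965836) (nat_lit 76) (nat_lit 10446678583) (nat_lit 152) (nat_lit 307688883355) (nat_lit 16) (nat_lit 5) (nat_lit 17) (nat_lit 5) (nat_lit 18) (nat_lit 4) (nat_lit 382) (nat_lit 357) (nat_lit 281)))) (XT.nd (nat_lit 78) (nat_lit 76) (nat_lit 0) (XT.lf (nat_lit 0) (nat_lit 185897583260) (nat_lit 152) (nat_lit 114850768947) (nat_lit 0) (nat_lit 110806631751) (nat_lit 16) (nat_lit 5) (nat_lit 18) (nat_lit 4) (nat_lit 16) (nat_lit 4) (nat_lit 383) (nat_lit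 357) (nat_lit 280)) (XT.nd (nat_lit 78) (nat_lit 0) (nat_lit 0) (XT.lf (nat_lit 0) (nat_lit 130001418324) (nat_lit 76) (nat_lit 199650563302) (nat_lit 76) (nat_lit 124559404179) (nat_lit 15) (nat_lit 4) (nat_lit 16) (nat_lit 5) (nat_lit 16) (nat_lit 4) (nat_lit 384) (nat_lit 357) (nat_lit 279)) (XT.lf (nat_lit 0) (nat_lit 424487672637) (nat_lit 76) (nat_lit 76484741884) (nat_lit 76) (nat_lit 1393402227) (nat_lit 15) (nat_lit 4) (nat_lit 16) (nat_lit 5) (nat_lit 16) (nat_lit 4) (nat_lit 385) (nat_lit 357) (nat_lit 278))))) (XT.nd (nat_lit 234) (nat_lit 228) (nat_lit 0) (XT.nd (nat_lit 78) (nat_lit 76) (nat_lit 0) (XT.lf (nat_lit 0) (nat_lit 140240067151) (nat_lit 152) (nat_lit 339817373764) (nat_lit 0) (nat_lit 74943113548) (nat_lit 13) (nat_lit 5) (nat_lit 15) (nat_lit 4) (nat_lit 13) (nat_lit 4) (nat_lit 386) (nat_lit 357) (nat_lit 277)) (XT.nd (nat_lit 78) (nat_lit 76) (nat_lit 0) (XT.lf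 (nat_lit 0) (nat_lit 310882162172) (nat_lit 152) (nat_lit 57867358484) (nat_lit 0) (nat_lit 245585089865) (nat_lit 13) (nat_lit 5) (nat_lit 15) (nat_lit 4) (nat_lit 13) (nat_lit 4) (nat_lit 387) (nat_lit 357) (nat_lit 276)) (XT.lf (nat_lit 0) (nat_lit 292406034872) (nat_lit 76) (nat_lit 226821905186) (nat_lit 76) (nat_lit 161524729659) (nat_lit 12) (nat_lit 4) (nat_lit 13) (nat_lit 5) (nat_lit 13) (nat_lit 4) (nat_lit 388) (nat_lit 357) (nat_lit 275)))) (XT.nd (nat_lit 156) (nat_lit 76) (nat_lit 0) (XT.nd (nat_lit 78) (nat_lit 76) (nat_lit 0) (XT.lf (nat_lit 0) (nat_lit 4709886624) (nat_lit 152) (nat_lit 55171009041) (nat_lit 76) (nat_lit 696766773954) (nat_lit 11) (nat_lit 5) (nat_lit 13) (nat_lit 5) (nat_lit 12) (nat_lit 4) (nat_lit 389) (nat_lit 357) (nat_lit 274)) (XT.lf (nat_lit 0) (nat_lit 200430274236) (nat_lit 152) (nat_lit 495529776351) (nat_lit 0) (nat_lit 143649975684) (nat_lit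 10) (nat_lit 5) (nat_lit 12) (nat_lit 4) (nat_lit 10) (nat_lit 4) (nat_lit 390) (nat_lit 357) (nat_lit 273))) (XT.nd (nat_lit 78) (nat_lit 76) (nat_lit 0) (XT.lf (nat_lit 0) (nat_lit 431380992813) (nat_lit 152) (nat_lit 128154267448) (nat_lit 0) (nat_lit 374600635245) (nat_lit 10) (nat_lit 5) (nat_lit 12) (nat_lit 4) (nat_lit 10) (nat_lit 4) (nat_lit 391) (nat_lit 357) (nat_lit 272)) (XT.lf (nat_lit 0) (nat_lit 323090456095) (nat_lit 76) (nat_lit 387261942973) (nat_lit 76) (nat_lit 330481534085) (nat_lit 9) (nat_lit 4) (nat_lit 10) (nat_lit 5) (nat_lit 10) (nat_lit 4) (nat_lit 392) (nat_lit 357) (nat_lit 271))))))))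
noncomputable def xc77 : XT := (XT.nd (nat_lit 1950) (nat_lit 0) (nat_lit 0) (XT.nd (nat_lit 936) (nat_lit 228) (nat_lit 0) (XT.nd (nat_lit 468) (nat_lit 152) (nat_lit 0) (XT.nd (nat_lit 234) (nat_lit 76) (nat_lit 0) (XT.nd (nat_lit 78) (nat_lit 152) (nat_lit 0) (XT.lf (nat_lit 0) (nat_lit 856423860982) (nat_lit 76) (nat_lit 181444240595) (nat_lit 76) (nat_lit 124663787082) (nat_lit 9) (nat_lit 4) (nat_lit 10) (nat_lit 5) (nat_lit 10) (nat_lit 4) (nat_lit 393) (nat_lit 357) (nat_lit 270)) (XT.nd (nat_lit 78) (nat_lit 0) (nat_lit 0) (XT.lf (nat_lit 0) (nat_lit 112305824720) (nat_lit 152) (nat_lit 1125013523579) (nat_lit 0) (nat_lit 62931483574) (nat_lit 7) (nat_lit 5) (nat_lit 9) (nat_lit 4) (nat_lit 7) (nat_lit 4) (nat_lit 394) (nat_lit 357) (nat_lit 269)) (XT.lf (nat_lit 0) (nat_lit 397460589363) (nat_lit 152) (nat_lit 708379916465) (nat_lit 0) (nat_lit 348086218876) (nat_lit 7) (nat_lit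 5) (nat_lit 9) (nat_lit 4) (nat_lit 7) (nat_lit 4) (nat_lit 395) (nat_lit 357) (nat_lit 268)))) (XT.nd (nat_lit 78) (nat_lit 76) (nat_lit 0) (XT.lf (nat_lit 0) (nat_lit 725388262379) (nat_lit 152) (nat_lit 229251918657) (nat_lit 0) (nat_lit 676013866377) (nat_lit 7) (nat_lit 5) (nat_lit 9) (nat_lit 4) (nat_lit 7) (nat_lit 4) (nat_lit 396) (nat_lit 357) (nat_lit 267)) (XT.nd (nat_lit 78) (nat_lit 0) (nat_lit 0) (XT.lf (nat_lit 0) (nat_lit 353187946623) (nat_lit 76) (nat_lit 763941633050) (nat_lit 76) (nat_lit 714567214862) (nat_lit 6) (nat_lit 4) (nat_lit 7) (nat_lit 5) (nat_lit 7) (nat_lit 4) (nat_lit 397) (nat_lit 357) (nat_lit 266)) (XT.lf (nat_lit 0) (nat_lit 1048758041356) (nat_lit 76) (nat_lit 530857422249) (nat_lit 76) (nat_lit 481482984767) (nat_lit 6) (nat_lit 4) (nat_lit 7) (nat_lit 5) (nat_lit 7) (nat_lit 4) (nat_lit 398) (nat_lit 357) (nat_lit 265))))) (XT.nd (nat_lit 234) (nat_lit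 0) (nat_lit 0) (XT.nd (nat_lit 78) (nat_lit 152) (nat_lit 0) (XT.lf (nat_lit 0) (nat_lit 1848663180876) (nat_lit 76) (nat_lit 262810828398) (nat_lit 76) (nat_lit 213436374141) (nat_lit 6) (nat_lit 4) (nat_lit 7) (nat_lit 5) (nat_lit 7) (nat_lit 4) (nat_lit 399) (nat_lit 357) (nat_lit 264)) (XT.nd (nat_lit 78) (nat_lit 0) (nat_lit 0) (XT.lf (nat_lit 0) (nat_lit 94936446161) (nat_lit 152) (nat_lit 2479482534740) (nat_lit 0) (nat_lit 52002125425) (nat_lit 4) (nat_lit 5) (nat_lit 6) (nat_lit 4) (nat_lit 4) (nat_lit 4) (nat_lit 400) (nat_lit 357) (nat_lit 263)) (XT.lf (nat_lit 0) (nat_lit 466308174725) (nat_lit 152) (nat_lit 2076162653791) (nat_lit 0) (nat_lit 423373842959) (nat_lit 4) (nat_lit 5) (nat_lit 6) (nat_lit 4) (nat_lit 4) (nat_lit 4) (nat_lit 401) (nat_lit 357) (nat_lit 262)))) (XT.nd (nat_lit 78) (nat_lit 0) (nat_lit 0) (XT.lf (nat_lit 0) (nat_lit 893385487941) (nat_lit 152) (nat_lit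 1612345163068) (nat_lit 0) (nat_lit 850451146583) (nat_lit 4) (nat_lit 5) (nat_lit 6) (nat_lit 4) (nat_lit 4) (nat_lit 4) (nat_lit 402) (nat_lit 357) (nat_lit 261)) (XT.nd (nat_lit 78) (nat_lit 0) (nat_lit 0) (XT.lf (nat_lit 0) (nat_lit 1384524246285) (nat_lit 152) (nat_lit 1078955372535) (nat_lit 0) (nat_lit 1341589896586) (nat_lit 4) (nat_lit 5) (nat_lit 6) (nat_lit 4) (nat_lit 4) (nat_lit 4) (nat_lit 403) (nat_lit 357) (nat_lit 260)) (XT.lf (nat_lit 0) (nat_lit 1949333686333) (nat_lit 152) (nat_lit 465557394987) (nat_lit 0) (nat_lit 1906399329382) (nat_lit 4) (nat_lit 5) (nat_lit 6) (nat_lit 4) (nat_lit 4) (nat_lit 4) (nat_lit 404) (nat_lit 357) (nat_lit 259)))))) (XT.nd (nat_lit 468) (nat_lit 152) (nat_lit 0) (XT.nd (nat_lit 234) (nat_lit 0) (nat_lit 0) (XT.nd (nat_lit 78) (nat_lit 0) (nat_lit 0) (XT.lf (nat_lit 0) (nat_lit 263289924076) (nat_lit 76) (nat_lit 2346476777778) (nat_lit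 76) (nat_lit 2303542414520) (nat_lit 3) (nat_lit 4) (nat_lit 4) (nat_lit 5) (nat_lit 4) (nat_lit 4) (nat_lit 405) (nat_lit 357) (nat_lit 258)) (XT.nd (nat_lit 78) (nat_lit 0) (nat_lit 0) (XT.lf (nat_lit 0) (nat_lit 1153786409976) (nat_lit 76) (nat_lit 2239814104940) (nat_lit 76) (nat_lit 2196879736198) (nat_lit 3) (nat_lit 4) (nat_lit 4) (nat_lit 5) (nat_lit 4) (nat_lit 4) (nat_lit 406) (nat_lit 357) (nat_lit 257)) (XT.lf (nat_lit 0) (nat_lit 2177857165536) (nat_lit 76) (nat_lit 2117152139164) (nat_lit 76) (nat_lit 2074217765653) (nat_lit 3) (nat_lit 4) (nat_lit 4) (nat_lit 5) (nat_lit 4) (nat_lit 4) (nat_lit 407) (nat_lit 357) (nat_lit 256)))) (XT.nd (nat_lit 78) (nat_lit 0) (nat_lit 0) (XT.lf (nat_lit 0) (nat_lit 3355538357713) (nat_lit 76) (nat_lit 1976090972424) (nat_lit 76) (nat_lit 1933156594765) (nat_lit 3) (nat_lit 4) (nat_lit 4) (nat_lit 5) (nat_lit 4) (nat_lit 4) (nat_lit 408)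 (nat_lit 357) (nat_lit 255)) (XT.nd (nat_lit 78) (nat_lit 0) (nat_lit 0) (XT.lf (nat_lit 0) (nat_lit 4709871575048) (nat_lit 76) (nat_lit 1813870712326) (nat_lit 76) (nat_lit 1770936331061) (nat_lit 3) (nat_lit 4) (nat_lit 4) (nat_lit 5) (nat_lit 4) (nat_lit 4) (nat_lit 409) (nat_lit 357) (nat_lit 254)) (XT.lf (nat_lit 0) (nat_lit 6267354641359) (nat_lit 76) (nat_lit 1627317484216) (nat_lit 76) (nat_lit 1584383099816) (nat_lit 3) (nat_lit 4) (nat_lit 4) (nat_lit 5) (nat_lit 4) (nat_lit 4) (nat_lit 410) (nat_lit 357) (nat_lit 253))))) (XT.nd (nat_lit 234) (nat_lit 152) (nat_lit 0) (XT.nd (nat_lit 78) (nat_lit 0) (nat_lit 0) (XT.lf (nat_lit 0) (nat_lit 8058460051422) (nat_lit 76) (nat_lit 1412781333632) (nat_lit 76) (nat_lit 1369846946506) (nat_lit 3) (nat_lit 4) (nat_lit 4) (nat_lit 5) (nat_lit 4) (nat_lit 4) (nat_lit 411) (nat_lit 357) (nat_lit 252)) (XT.nd (nat_lit 78) (nat_lit 0) (nat_lit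 0) (XT.lf (nat_lit 0) (nat_lit 10118231171956) (nat_lit 76) (nat_lit 1166064814149) (nat_lit 76) (nat_lit 1123130424652) (nat_lit 3) (nat_lit 4) (nat_lit 4) (nat_lit 5) (nat_lit 4) (nat_lit 4) (nat_lit 412) (nat_lit 357) (nat_lit 251)) (XT.lf (nat_lit 0) (nat_lit 12486967872710) (nat_lit 76) (nat_lit 882340863430) (nat_lit 76) (nat_lit 839406471871) (nat_lit 3) (nat_lit 4) (nat_lit 4) (nat_lit 5) (nat_lit 4) (nat_lit 4) (nat_lit 413) (nat_lit 357) (nat_lit 250)))) (XT.nd (nat_lit 156) (nat_lit 152) (nat_lit 0) (XT.nd (nat_lit 78) (nat_lit 0) (nat_lit 0) (XT.lf (nat_lit 0) (nat_lit 15211015002177) (nat_lit 76) (nat_lit 556058360698) (nat_lit 76) (nat_lit 513123967347) (nat_lit 3) (nat_lit 4) (nat_lit 4) (nat_lit 5) (nat_lit 4) (nat_lit 4) (nat_lit 414) (nat_lit 357) (nat_lit 249)) (XT.lf (nat_lit 0) (nat_lit 18343669134629) (nat_lit 76) (nat_lit 180833517859) (nat_lit 76) (nat_lit 137899122948)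 (nat_lit 3) (nat_lit 4) (nat_lit 4) (nat_lit 5) (nat_lit 4) (nat_lit 4) (nat_lit 415) (nat_lit 357) (nat_lit 248))) (XT.nd (nat_lit 78) (nat_lit 0) (nat_lit 0) (XT.lf (nat_lit 0) (nat_lit 303768500932) (nat_lit 152) (nat_lit 20824465752588) (nat_lit 0) (nat_lit 266434243309) (nat_lit 1) (nat_lit 5) (nat_lit 3) (nat_lit 4) (nat_lit 1) (nat_lit 4) (nat_lit 416) (nat_lit 357) (nat_lit 247)) (XT.lf (nat_lit 0) (nat_lit 823633522945) (nat_lit 152) (nat_lit 22921947620739) (nat_lit 0) (nat_lit 786299264297) (nat_lit 1) (nat_lit 5) (nat_lit 3) (nat_lit 4) (nat_lit 1) (nat_lit 4) (nat_lit 417) (nat_lit 357) (nat_lit 246))))))) (XT.nd (nat_lit 1014) (nat_lit 0) (nat_lit 0) (XT.nd (nat_lit 468) (nat_lit 0) (nat_lit 0) (XT.nd (nat_lit 234) (nat_lit 0) (nat_lit 0) (XT.nd (nat_lit 78) (nat_lit 0) (nat_lit 0) (XT.lf (nat_lit 0) (nat_lit 1421478273627) (nat_lit 152) (nat_lit 25334051821786) (nat_lit 0)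 (nat_lit 1384144014088) (nat_lit 1) (nat_lit 5) (nat_lit 3) (nat_lit 4) (nat_lit 1) (nat_lit 4) (nat_lit 418) (nat_lit 357) (nat_lit 245)) (XT.nd (nat_lit 78) (nat_lit 0) (nat_lit 0) (XT.lf (nat_lit 0) (nat_lit 2108999715492) (nat_lit 152) (nat_lit 28107971698795) (nat_lit 0) (nat_lit 2071665455177) (nat_lit 1) (nat_lit 5) (nat_lit 3) (nat_lit 4) (nat_lit 1) (nat_lit 4) (nat_lit 419) (nat_lit 357) (nat_lit 244)) (XT.lf (nat_lit 0) (nat_lit 2899649355009) (nat_lit 152) (nat_lit 31297979597184) (nat_lit 0) (nat_lit 2862315094021) (nat_lit 1) (nat_lit 5) (nat_lit 3) (nat_lit 4) (nat_lit 1) (nat_lit 4) (nat_lit 420) (nat_lit 357) (nat_lit 243)))) (XT.nd (nat_lit 78) (nat_lit 0) (nat_lit 0) (XT.lf (nat_lit 0) (nat_lit 3808896424258) (nat_lit 152) (nat_lit 34966488714966) (nat_lit 0) (nat_lit 3771562162683) (nat_lit 1) (nat_lit 5) (nat_lit 3) (nat_lit 4) (nat_lit 1) (nat_lit 4) (nat_lit 421)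 (nat_lit 357) (nat_lit 242)) (XT.nd (nat_lit 78) (nat_lit 0) (nat_lit 0) (XT.lf (nat_lit 0) (nat_lit 4854530539809) (nat_lit 152) (nat_lit 39185274230532) (nat_lit 0) (nat_lit 4817196277725) (nat_lit 1) (nat_lit 5) (nat_lit 3) (nat_lit 4) (nat_lit 1) (nat_lit 4) (nat_lit 422) (nat_lit 357) (nat_lit 241)) (XT.lf (nat_lit 0) (nat_lit 6057009760446) (nat_lit 152) (nat_lit 44036877599621) (nat_lit 0) (nat_lit 6019675497919) (nat_lit 1) (nat_lit 5) (nat_lit 3) (nat_lit 4) (nat_lit 1) (nat_lit 4) (nat_lit 423) (nat_lit 357) (nat_lit 240))))) (XT.nd (nat_lit 234) (nat_lit 0) (nat_lit 0) (XT.nd (nat_lit 78) (nat_lit 0) (nat_lit 0) (XT.lf (nat_lit 0) (nat_lit 7439860853529) (nat_lit 152) (nat_lit 49616221496846) (nat_lit 0) (nat_lit 7402526590617) (nat_lit 1) (nat_lit 5) (nat_lit 3) (nat_lit 4) (nat_lit 1) (nat_lit 4) (nat_lit 424) (nat_lit 357) (nat_lit 239)) (XT.nd (nat_lit 78) (nat_lit 0) (nat_lit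 0) (XT.lf (nat_lit 0) (nat_lit 9030139601314) (nat_lit 152) (nat_lit 56032466998457) (nat_lit 0) (nat_lit 8992805338067) (nat_lit 1) (nat_lit 5) (nat_lit 3) (nat_lit 4) (nat_lit 1) (nat_lit 4) (nat_lit 425) (nat_lit 357) (nat_lit 238)) (XT.lf (nat_lit 0) (nat_lit 10858960153214) (nat_lit 152) (nat_lit 63411149342529) (nat_lit 0) (nat_lit 10821625889675) (nat_lit 1) (nat_lit 5) (nat_lit 3) (nat_lit 4) (nat_lit 1) (nat_lit 4) (nat_lit 426) (nat_lit 357) (nat_lit 237)))) (XT.nd (nat_lit 156) (nat_lit 0) (nat_lit 0) (XT.nd (nat_lit 78) (nat_lit 0) (nat_lit 0) (XT.lf (nat_lit 0) (nat_lit 12962103780897) (nat_lit 152) (nat_lit 71896634053185) (nat_lit 0) (nat_lit 12924769517105) (nat_lit 1) (nat_lit 5) (nat_lit 3) (nat_lit 4) (nat_lit 1) (nat_lit 4) (nat_lit 427) (nat_lit 357) (nat_lit 236)) (XT.lf (nat_lit 0) (nat_lit 15380718946643) (nat_lit 152) (nat_lit 81654941483460) (nat_lit 0) (nat_lit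 15343384682631) (nat_lit 1) (nat_lit 5) (nat_lit 3) (nat_lit 4) (nat_lit 1) (nat_lit 4) (nat_lit 428) (nat_lit 357) (nat_lit 235))) (XT.nd (nat_lit 78) (nat_lit 0) (nat_lit 0) (XT.lf (nat_lit 0) (nat_lit 18162126381957) (nat_lit 152) (nat_lit 92876995039598) (nat_lit 0) (nat_lit 18124792117752) (nat_lit 1) (nat_lit 5) (nat_lit 3) (nat_lit 4) (nat_lit 1) (nat_lit 4) (nat_lit 429) (nat_lit 357) (nat_lit 234)) (XT.lf (nat_lit 0) (nat_lit 21360744927963) (nat_lit 152) (nat_lit 105782356639002) (nat_lit 0) (nat_lit 21323410663592) (nat_lit 1) (nat_lit 5) (nat_lit 3) (nat_lit 4) (nat_lit 1) (nat_lit 4) (nat_lit 430) (nat_lit 357) (nat_lit 233)))))) (XT.nd (nat_lit 47736) (nat_lit 0) (nat_lit 2128) (XT.nd (nat_lit 47502) (nat_lit 0) (nat_lit 2736) (XT.nd (nat_lit 78) (nat_lit 0) (nat_lit 0) (XT.lf (nat_lit 0) (nat_lit 25039156251867) (nat_lit 152) (nat_lit 120623522486877) (nat_lit 0) (nat_lit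 25001821987351) (nat_lit 1) (nat_lit 5) (nat_lit 3) (nat_lit 4) (nat_lit 1) (nat_lit 4) (nat_lit 431) (nat_lit 357) (nat_lit 232)) (XT.nd (nat_lit 47346) (nat_lit 0) (nat_lit 2736) (XT.lf (nat_lit 0) (nat_lit 29269329270874) (nat_lit 152) (nat_lit 137690863219378) (nat_lit 0) (nat_lit 29231995006232) (nat_lit 1) (nat_lit 5) (nat_lit 3) (nat_lit 4) (nat_lit 1) (nat_lit 4) (nat_lit 432) (nat_lit 357) (nat_lit 231)) (XT.lf (nat_lit 0) (nat_lit 7170708195) (nat_lit 380) (nat_lit 8956300400) (nat_lit 380) (nat_lit 8956300400) (nat_lit 37) (nat_lit 3) (nat_lit 42) (nat_lit 3) (nat_lit 42) (nat_lit 5) (nat_lit 358) (nat_lit 358) (nat_lit 304)))) (XT.nd (nat_lit 78) (nat_lit 0) (nat_lit 76) (XT.lf (nat_lit 76) (nat_lit 7639965473) (nat_lit 0) (nat_lit 8117499557) (nat_lit 380) (nat_lit 38120571584) (nat_lit 38) (nat_lit 5) (nat_lit 37) (nat_lit 3) (nat_lit 42) (nat_lit 5) (nat_lit 359) (nat_lit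 358) (nat_lit 303)) (XT.nd (nat_lit 78) (nat_lit 0) (nat_lit 0) (XT.lf (nat_lit 0) (nat_lit 19175747783) (nat_lit 304) (nat_lit 19828426002) (nat_lit 380) (nat_lit 18873522247) (nat_lit 38) (nat_lit 5) (nat_lit 42) (nat_lit 5) (nat_lit 43) (nat_lit 5) (nat_lit 360) (nat_lit 358) (nat_lit 302)) (XT.lf (nat_lit 76) (nat_lit 11145363919) (nat_lit 0) (nat_lit 12805696326) (nat_lit 380) (nat_lit 38399602783) (nat_lit 39) (nat_lit 5) (nat_lit 38) (nat_lit 5) (nat_lit 43) (nat_lit 5) (nat_lit 361) (nat_lit 358) (nat_lit 301))))) (XT.nd (nat_lit 234) (nat_lit 456) (nat_lit 0) (XT.nd (nat_lit 78) (nat_lit 304) (nat_lit 0) (XT.lf (nat_lit 0) (nat_lit 31242431094) (nat_lit 304) (nat_lit 19115470112) (nat_lit 76) (nat_lit 16866711171) (nat_lit 39) (nat_lit 5) (nat_lit 43) (nat_lit 5) (nat_lit 40) (nat_lit 5) (nat_lit 362) (nat_lit 358) (nat_lit 300)) (XT.nd (nat_lit 78) (nat_lit 0) (nat_lit 0) (XT.lf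 (nat_lit 0) (nat_lit 18853566507) (nat_lit 304) (nat_lit 22161490952) (nat_lit 380) (nat_lit 31606465515) (nat_lit 35) (nat_lit 5) (nat_lit 39) (nat_lit 5) (nat_lit 40) (nat_lit 5) (nat_lit 363) (nat_lit 358) (nat_lit 299)) (XT.lf (nat_lit 0) (nat_lit 53722732059) (nat_lit 380) (nat_lit 14487626071) (nat_lit 76) (nat_lit 10397240045) (nat_lit 35) (nat_lit 5) (nat_lit 40) (nat_lit 5) (nat_lit 36) (nat_lit 5) (nat_lit 364) (nat_lit 358) (nat_lit 298)))) (XT.nd (nat_lit 156) (nat_lit 304) (nat_lit 0) (XT.nd (nat_lit 78) (nat_lit 0) (nat_lit 0) (XT.lf (nat_lit 0) (nat_lit 32521987968) (nat_lit 152) (nat_lit 38214222190) (nat_lit 228) (nat_lit 14395427657) (nat_lit 33) (nat_lit 5) (nat_lit 35) (nat_lit 5) (nat_lit 36) (nat_lit 5) (nat_lit 365) (nat_lit 358) (nat_lit 297)) (XT.lf (nat_lit 0) (nat_lit 88208593416) (nat_lit 152) (nat_lit 2848294083) (nat_lit 228) (nat_lit 1464120149) (nat_lit 33)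 (nat_lit 5) (nat_lit 35) (nat_lit 5) (nat_lit 36) (nat_lit 5) (nat_lit 366) (nat_lit 358) (nat_lit 296))) (XT.nd (nat_lit 78) (nat_lit 152) (nat_lit 0) (XT.lf (nat_lit 0) (nat_lit 16216871682) (nat_lit 152) (nat_lit 46668791688) (nat_lit 76) (nat_lit 37449313428) (nat_lit 31) (nat_lit 5) (nat_lit 33) (nat_lit 5) (nat_lit 32) (nat_lit 5) (nat_lit 367) (nat_lit 358) (nat_lit 295)) (XT.lf (nat_lit 0) (nat_lit 12426580382) (nat_lit 152) (nat_lit 24858069054) (nat_lit 228) (nat_lit 71893254183) (nat_lit 29) (nat_lit 5) (nat_lit 31) (nat_lit 5) (nat_lit 32) (nat_lit 5) (nat_lit 368) (nat_lit 358) (nat_lit 294))))))))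
noncomputable def xc78 : XT := (XT.nd (nat_lit 1950) (nat_lit 608) (nat_lit 0) (XT.nd (nat_lit 936) (nat_lit 760) (nat_lit 0) (XT.nd (nat_lit 468) (nat_lit 456) (nat_lit 0) (XT.nd (nat_lit 234) (nat_lit 228) (nat_lit 0) (XT.nd (nat_lit 78) (nat_lit 76) (nat_lit 0) (XT.lf (nat_lit 0) (nat_lit 64848069486) (nat_lit 228) (nat_lit 34250568014) (nat_lit 76) (nat_lit 19748311121) (nat_lit 29) (nat_lit 5) (nat_lit 32) (nat_lit 5) (nat_lit 30) (nat_lit 4) (nat_lit 369) (nat_lit 358) (nat_lit 293)) (XT.nd (nat_lit 78) (nat_lit 0) (nat_lit 0) (XT.lf (nat_lit 0) (nat_lit 40000310412) (nat_lit 76) (nat_lit 59384246396) (nat_lit 152) (nat_lit 30156010858) (nat_lit 28) (nat_lit 5) (nat_lit 29) (nat_lit 5) (nat_lit 30) (nat_lit 4) (nat_lit 370) (nat_lit 358) (nat_lit 292)) (XT.lf (nat_lit 0) (nat_lit 129235848683) (nat_lit 76) (nat_lit 11654648804) (nat_lit 152) (nat_lit 679385422) (nat_lit 28) (nat_lit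 5) (nat_lit 29) (nat_lit 5) (nat_lit 30) (nat_lit 4) (nat_lit 371) (nat_lit 358) (nat_lit 291)))) (XT.nd (nat_lit 78) (nat_lit 76) (nat_lit 0) (XT.lf (nat_lit 0) (nat_lit 35690840043) (nat_lit 152) (nat_lit 74291357982) (nat_lit 76) (nat_lit 44400650017) (nat_lit 26) (nat_lit 5) (nat_lit 28) (nat_lit 5) (nat_lit 27) (nat_lit 4) (nat_lit 372) (nat_lit 358) (nat_lit 290)) (XT.nd (nat_lit 78) (nat_lit 0) (nat_lit 0) (XT.lf (nat_lit 0) (nat_lit 19897174147) (nat_lit 76) (nat_lit 59602968754) (nat_lit 152) (nat_lit 89304797586) (nat_lit 25) (nat_lit 5) (nat_lit 26) (nat_lit 5) (nat_lit 27) (nat_lit 4) (nat_lit 373) (nat_lit 358) (nat_lit 289)) (XT.lf (nat_lit 0) (nat_lit 133878974884) (nat_lit 152) (nat_lit 48362599362) (nat_lit 0) (nat_lit 2549052713) (nat_lit 25) (nat_lit 5) (nat_lit 27) (nat_lit 4) (nat_lit 25) (nat_lit 4) (nat_lit 374) (nat_lit 358) (nat_lit 288))))) (XT.nd (nat_lit 234)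 (nat_lit 228) (nat_lit 0) (XT.nd (nat_lit 78) (nat_lit 152) (nat_lit 0) (XT.lf (nat_lit 0) (nat_lit 70720210342) (nat_lit 76) (nat_lit 131460003497) (nat_lit 76) (nat_lit 129115426) (nat_lit 24) (nat_lit 4) (nat_lit 25) (nat_lit 5) (nat_lit 25) (nat_lit 4) (nat_lit 375) (nat_lit 358) (nat_lit 287)) (XT.nd (nat_lit 78) (nat_lit 76) (nat_lit 0) (XT.lf (nat_lit 0) (nat_lit 55730545275) (nat_lit 152) (nat_lit 11511055643) (nat_lit 76) (nat_lit 154455193704) (nat_lit 23) (nat_lit 5) (nat_lit 25) (nat_lit 5) (nat_lit 24) (nat_lit 4) (nat_lit 376) (nat_lit 358) (nat_lit 286)) (XT.lf (nat_lit 0) (nat_lit 126256188131) (nat_lit 152) (nat_lit 104736181283) (nat_lit 0) (nat_lit 12054050439) (nat_lit 22) (nat_lit 5) (nat_lit 24) (nat_lit 4) (nat_lit 22) (nat_lit 4) (nat_lit 377) (nat_lit 358) (nat_lit 285)))) (XT.nd (nat_lit 78) (nat_lit 152) (nat_lit 0) (XT.lf (nat_lit 0) (nat_lit 45180112878) (nat_lit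 76) (nat_lit 167882860803) (nat_lit 76) (nat_lit 53680170854) (nat_lit 21) (nat_lit 4) (nat_lit 22) (nat_lit 5) (nat_lit 22) (nat_lit 4) (nat_lit 378) (nat_lit 358) (nat_lit 284)) (XT.nd (nat_lit 78) (nat_lit 76) (nat_lit 0) (XT.lf (nat_lit 0) (nat_lit 22948806901) (nat_lit 152) (nat_lit 64863235335) (nat_lit 76) (nat_lit 205204762444) (nat_lit 20) (nat_lit 5) (nat_lit 22) (nat_lit 5) (nat_lit 21) (nat_lit 4) (nat_lit 379) (nat_lit 358) (nat_lit 283)) (XT.lf (nat_lit 0) (nat_lit 111244699931) (nat_lit 152) (nat_lit 198815892536) (nat_lit 0) (nat_lit 11937232314) (nat_lit 19) (nat_lit 5) (nat_lit 21) (nat_lit 4) (nat_lit 19) (nat_lit 4) (nat_lit 380) (nat_lit 358) (nat_lit 282)))))) (XT.nd (nat_lit 468) (nat_lit 456) (nat_lit 0) (XT.nd (nat_lit 234) (nat_lit 76) (nat_lit 0) (XT.nd (nat_lit 78) (nat_lit 228) (nat_lit 0) (XT.lf (nat_lit 0) (nat_lit 220517802343) (nat_lit 152) (nat_lit 12438252831)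 (nat_lit 0) (nat_lit 121210018971) (nat_lit 19) (nat_lit 5) (nat_lit 21) (nat_lit 4) (nat_lit 19) (nat_lit 4) (nat_lit 381) (nat_lit 358) (nat_lit 281)) (XT.nd (nat_lit 78) (nat_lit 152) (nat_lit 0) (XT.lf (nat_lit 0) (nat_lit 221625370811) (nat_lit 76) (nat_lit 133732894415) (nat_lit 76) (nat_lit 34424836474) (nat_lit 18) (nat_lit 4) (nat_lit 19) (nat_lit 5) (nat_lit 19) (nat_lit 4) (nat_lit 382) (nat_lit 358) (nat_lit 280)) (XT.lf (nat_lit 0) (nat_lit 63909193968) (nat_lit 76) (nat_lit 12005917968) (nat_lit 152) (nat_lit 353833623941) (nat_lit 16) (nat_lit 5) (nat_lit 17) (nat_lit 5) (nat_lit 18) (nat_lit 4) (nat_lit 383) (nat_lit 358) (nat_lit 279)))) (XT.nd (nat_lit 78) (nat_lit 76) (nat_lit 0) (XT.lf (nat_lit 0) (nat_lit 213788996643) (nat_lit 152) (nat_lit 132064442642) (nat_lit 0) (nat_lit 127433775504) (nat_lit 16) (nat_lit 5) (nat_lit 18) (nat_lit 4) (nat_lit 16) (nat_lit 4) (nat_lit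 384) (nat_lit 358) (nat_lit 278)) (XT.nd (nat_lit 78) (nat_lit 0) (nat_lit 0) (XT.lf (nat_lit 0) (nat_lit 149514939009) (nat_lit 76) (nat_lit 229591282996) (nat_lit 76) (nat_lit 143235904871) (nat_lit 15) (nat_lit 4) (nat_lit 16) (nat_lit 5) (nat_lit 16) (nat_lit 4) (nat_lit 385) (nat_lit 358) (nat_lit 277)) (XT.lf (nat_lit 0) (nat_lit 488172395651) (nat_lit 76) (nat_lit 87951483775) (nat_lit 76) (nat_lit 1595969140) (nat_lit 15) (nat_lit 4) (nat_lit 16) (nat_lit 5) (nat_lit 16) (nat_lit 4) (nat_lit 386) (nat_lit 358) (nat_lit 276))))) (XT.nd (nat_lit 234) (nat_lit 228) (nat_lit 0) (XT.nd (nat_lit 78) (nat_lit 76) (nat_lit 0) (XT.lf (nat_lit 0) (nat_lit 161281910310) (nat_lit 152) (nat_lit 390777796910) (nat_lit 0) (nat_lit 86190055232) (nat_lit 13) (nat_lit 5) (nat_lit 15) (nat_lit 4) (nat_lit 13) (nat_lit 4) (nat_lit 387) (nat_lit 358) (nat_lit 275)) (XT.nd (nat_lit 78) (nat_lit 76) (nat_lit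 0) (XT.lf (nat_lit 0) (nat_lit 357519558747) (nat_lit 152) (nat_lit 66536868415) (nat_lit 0) (nat_lit 282427613912) (nat_lit 13) (nat_lit 5) (nat_lit 15) (nat_lit 4) (nat_lit 13) (nat_lit 4) (nat_lit 388) (nat_lit 358) (nat_lit 274)) (XT.lf (nat_lit 0) (nat_lit 336277052407) (nat_lit 76) (nat_lit 260839908041) (nat_lit 76) (nat_lit 185747885157) (nat_lit 12) (nat_lit 4) (nat_lit 13) (nat_lit 5) (nat_lit 13) (nat_lit 4) (nat_lit 389) (nat_lit 358) (nat_lit 273)))) (XT.nd (nat_lit 156) (nat_lit 76) (nat_lit 0) (XT.nd (nat_lit 78) (nat_lit 76) (nat_lit 0) (XT.lf (nat_lit 0) (nat_lit 5420769183) (nat_lit 152) (nat_lit 63437437008) (nat_lit 76) (nat_lit 801285953813) (nat_lit 11) (nat_lit 5) (nat_lit 13) (nat_lit 5) (nat_lit 12) (nat_lit 4) (nat_lit 390) (nat_lit 358) (nat_lit 272)) (XT.lf (nat_lit 0) (nat_lit 230499196691) (nat_lit 152) (nat_lit 569850001062) (nat_lit 0) (nat_lit 165201675152)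 (nat_lit 10) (nat_lit 5) (nat_lit 12) (nat_lit 4) (nat_lit 10) (nat_lit 4) (nat_lit 391) (nat_lit 358) (nat_lit 271))) (XT.nd (nat_lit 78) (nat_lit 76) (nat_lit 0) (XT.lf (nat_lit 0) (nat_lit 496091951579) (nat_lit 152) (nat_lit 147369371268) (nat_lit 0) (nat_lit 430794385414) (nat_lit 10) (nat_lit 5) (nat_lit 12) (nat_lit 4) (nat_lit 10) (nat_lit 4) (nat_lit 392) (nat_lit 358) (nat_lit 270)) (XT.lf (nat_lit 0) (nat_lit 371561695519) (nat_lit 76) (nat_lit 445347193956) (nat_lit 76) (nat_lit 380049588987) (nat_lit 9) (nat_lit 4) (nat_lit 10) (nat_lit 5) (nat_lit 10) (nat_lit 4) (nat_lit 393) (nat_lit 358) (nat_lit 269))))))) (XT.nd (nat_lit 1014) (nat_lit 152) (nat_lit 0) (XT.nd (nat_lit 468) (nat_lit 228) (nat_lit 0) (XT.nd (nat_lit 234) (nat_lit 76) (nat_lit 0) (XT.nd (nat_lit 78) (nat_lit 152) (nat_lit 0) (XT.lf (nat_lit 0) (nat_lit 984894110573) (nat_lit 76) (nat_lit 208657363239) (nat_lit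 76) (nat_lit 143359724526) (nat_lit 9) (nat_lit 4) (nat_lit 10) (nat_lit 5) (nat_lit 10) (nat_lit 4) (nat_lit 394) (nat_lit 358) (nat_lit 268)) (XT.nd (nat_lit 78) (nat_lit 0) (nat_lit 0) (XT.lf (nat_lit 0) (nat_lit 129154996753) (nat_lit 152) (nat_lit 1293758549263) (nat_lit 0) (nat_lit 72374415836) (nat_lit 7) (nat_lit 5) (nat_lit 9) (nat_lit 4) (nat_lit 7) (nat_lit 4) (nat_lit 395) (nat_lit 358) (nat_lit 267)) (XT.lf (nat_lit 0) (nat_lit 457082545876) (nat_lit 152) (nat_lit 814630814498) (nat_lit 0) (nat_lit 400301942773) (nat_lit 7) (nat_lit 5) (nat_lit 9) (nat_lit 4) (nat_lit 7) (nat_lit 4) (nat_lit 396) (nat_lit 358) (nat_lit 266)))) (XT.nd (nat_lit 78) (nat_lit 76) (nat_lit 0) (XT.lf (nat_lit 0) (nat_lit 834198995744) (nat_lit 152) (nat_lit 263634411293) (nat_lit 0) (nat_lit 777418373348) (nat_lit 7) (nat_lit 5) (nat_lit 9) (nat_lit 4) (nat_lit 7) (nat_lit 4) (nat_lit 397) (nat_lit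 358) (nat_lit 265)) (XT.nd (nat_lit 78) (nat_lit 0) (nat_lit 0) (XT.lf (nat_lit 0) (nat_lit 406171193090) (nat_lit 76) (nat_lit 878530201531) (nat_lit 76) (nat_lit 821749562359) (nat_lit 6) (nat_lit 4) (nat_lit 7) (nat_lit 5) (nat_lit 7) (nat_lit 4) (nat_lit 398) (nat_lit 358) (nat_lit 264)) (XT.lf (nat_lit 0) (nat_lit 1206076142753) (nat_lit 76) (nat_lit 610483708215) (nat_lit 76) (nat_lit 553703054455) (nat_lit 6) (nat_lit 4) (nat_lit 7) (nat_lit 5) (nat_lit 7) (nat_lit 4) (nat_lit 399) (nat_lit 358) (nat_lit 263))))) (XT.nd (nat_lit 234) (nat_lit 76) (nat_lit 0) (XT.nd (nat_lit 78) (nat_lit 152) (nat_lit 0) (XT.lf (nat_lit 0) (nat_lit 2125966479916) (nat_lit 76) (nat_lit 302230428858) (nat_lit 76) (nat_lit 245449762412) (nat_lit 6) (nat_lit 4) (nat_lit 7) (nat_lit 5) (nat_lit 7) (nat_lit 4) (nat_lit 400) (nat_lit 358) (nat_lit 262)) (XT.nd (nat_lit 78) (nat_lit 0) (nat_lit 0) (XT.lf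 (nat_lit 0) (nat_lit 109178793431) (nat_lit 152) (nat_lit 2851400905495) (nat_lit 0) (nat_lit 59804291277) (nat_lit 4) (nat_lit 5) (nat_lit 6) (nat_lit 4) (nat_lit 4) (nat_lit 4) (nat_lit 401) (nat_lit 358) (nat_lit 261)) (XT.lf (nat_lit 0) (nat_lit 536256036017) (nat_lit 152) (nat_lit 2387583565376) (nat_lit 0) (nat_lit 486881525523) (nat_lit 4) (nat_lit 5) (nat_lit 6) (nat_lit 4) (nat_lit 4) (nat_lit 4) (nat_lit 402) (nat_lit 358) (nat_lit 260)))) (XT.nd (nat_lit 156) (nat_lit 76) (nat_lit 0) (XT.nd (nat_lit 78) (nat_lit 0) (nat_lit 0) (XT.lf (nat_lit 0) (nat_lit 1027394732944) (nat_lit 152) (nat_lit 1854193905804) (nat_lit 0) (nat_lit 978020215197) (nat_lit 4) (nat_lit 5) (nat_lit 6) (nat_lit 4) (nat_lit 4) (nat_lit 4) (nat_lit 403) (nat_lit 358) (nat_lit 259)) (XT.lf (nat_lit 0) (nat_lit 1592204119586) (nat_lit 152) (nat_lit 1240796042133) (nat_lit 0) (nat_lit 1542829595532) (nat_lit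 4) (nat_lit 5) (nat_lit 6) (nat_lit 4) (nat_lit 4) (nat_lit 4) (nat_lit 404) (nat_lit 358) (nat_lit 258))) (XT.nd (nat_lit 78) (nat_lit 76) (nat_lit 0) (XT.lf (nat_lit 0) (nat_lit 2241734814377) (nat_lit 152) (nat_lit 535388711816) (nat_lit 0) (nat_lit 2192360284839) (nat_lit 4) (nat_lit 5) (nat_lit 6) (nat_lit 4) (nat_lit 4) (nat_lit 4) (nat_lit 405) (nat_lit 358) (nat_lit 257)) (XT.lf (nat_lit 0) (nat_lit 302785600906) (nat_lit 76) (nat_lit 2698447131700) (nat_lit 76) (nat_lit 2649072597393) (nat_lit 3) (nat_lit 4) (nat_lit 4) (nat_lit 5) (nat_lit 4) (nat_lit 4) (nat_lit 406) (nat_lit 358) (nat_lit 256)))))) (XT.nd (nat_lit 468) (nat_lit 152) (nat_lit 0) (XT.nd (nat_lit 234) (nat_lit 0) (nat_lit 0) (XT.nd (nat_lit 78) (nat_lit 0) (nat_lit 0) (XT.lf (nat_lit 0) (nat_lit 1326856274272) (nat_lit 76) (nat_lit 2575785209599) (nat_lit 76) (nat_lit 2526410671145) (nat_lit 3) (nat_lit 4) (nat_lit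 4) (nat_lit 5) (nat_lit 4) (nat_lit 4) (nat_lit 407) (nat_lit 358) (nat_lit 255)) (XT.nd (nat_lit 78) (nat_lit 0) (nat_lit 0) (XT.lf (nat_lit 0) (nat_lit 2504537394974) (nat_lit 76) (nat_lit 2434724080837) (nat_lit 76) (nat_lit 2385349538777) (nat_lit 3) (nat_lit 4) (nat_lit 4) (nat_lit 5) (nat_lit 4) (nat_lit 4) (nat_lit 408) (nat_lit 358) (nat_lit 254)) (XT.lf (nat_lit 0) (nat_lit 3858870550159) (nat_lit 76) (nat_lit 2272503853764) (nat_lit 76) (nat_lit 2223129308568) (nat_lit 3) (nat_lit 4) (nat_lit 4) (nat_lit 5) (nat_lit 4) (nat_lit 4) (nat_lit 409) (nat_lit 358) (nat_lit 253)))) (XT.nd (nat_lit 78) (nat_lit 0) (nat_lit 0) (XT.lf (nat_lit 0) (nat_lit 5416353562426) (nat_lit 76) (nat_lit 2085950654371) (nat_lit 76) (nat_lit 2036576106449) (nat_lit 3) (nat_lit 4) (nat_lit 4) (nat_lit 5) (nat_lit 4) (nat_lit 4) (nat_lit 410) (nat_lit 358) (nat_lit 252)) (XT.nd (nat_lit 78) (nat_lit 0)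 (nat_lit 0) (XT.lf (nat_lit 0) (nat_lit 7207458925494) (nat_lit 76) (nat_lit 1871414528759) (nat_lit 76) (nat_lit 1822039978466) (nat_lit 3) (nat_lit 4) (nat_lit 4) (nat_lit 5) (nat_lit 4) (nat_lit 4) (nat_lit 411) (nat_lit 358) (nat_lit 251)) (XT.lf (nat_lit 0) (nat_lit 9267230005163) (nat_lit 76) (nat_lit 1624698030990) (nat_lit 76) (nat_lit 1575323478636) (nat_lit 3) (nat_lit 4) (nat_lit 4) (nat_lit 5) (nat_lit 4) (nat_lit 4) (nat_lit 412) (nat_lit 358) (nat_lit 250))))) (XT.nd (nat_lit 234) (nat_lit 152) (nat_lit 0) (XT.nd (nat_lit 78) (nat_lit 0) (nat_lit 0) (XT.lf (nat_lit 0) (nat_lit 11635966670382) (nat_lit 76) (nat_lit 1340974099153) (nat_lit 76) (nat_lit 1291599545005) (nat_lit 3) (nat_lit 4) (nat_lit 4) (nat_lit 5) (nat_lit 4) (nat_lit 4) (nat_lit 413) (nat_lit 358) (nat_lit 249)) (XT.nd (nat_lit 78) (nat_lit 0) (nat_lit 0) (XT.lf (nat_lit 0) (nat_lit 14360013768949) (nat_lit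 76) (nat_lit 1014691612841) (nat_lit 76) (nat_lit 965317057134) (nat_lit 3) (nat_lit 4) (nat_lit 4) (nat_lit 5) (nat_lit 4) (nat_lit 4) (nat_lit 414) (nat_lit 358) (nat_lit 248)) (XT.lf (nat_lit 0) (nat_lit 17492667874531) (nat_lit 76) (nat_lit 639466784279) (nat_lit 76) (nat_lit 590092227217) (nat_lit 3) (nat_lit 4) (nat_lit 4) (nat_lit 5) (nat_lit 4) (nat_lit 4) (nat_lit 415) (nat_lit 358) (nat_lit 247)))) (XT.nd (nat_lit 156) (nat_lit 0) (nat_lit 0) (XT.nd (nat_lit 78) (nat_lit 152) (nat_lit 0) (XT.lf (nat_lit 0) (nat_lit 21095220045717) (nat_lit 76) (nat_lit 207958258125) (nat_lit 76) (nat_lit 158583699884) (nat_lit 3) (nat_lit 4) (nat_lit 4) (nat_lit 5) (nat_lit 4) (nat_lit 4) (nat_lit 416) (nat_lit 358) (nat_lit 246)) (XT.lf (nat_lit 0) (nat_lit 349334041309) (nat_lit 152) (nat_lit 23948135048309) (nat_lit 0) (nat_lit 306399641947) (nat_lit 1) (nat_lit 5) (nat_lit 3) (nat_lit 4) (nat_lit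 1) (nat_lit 4) (nat_lit 417) (nat_lit 358) (nat_lit 245))) (XT.nd (nat_lit 78) (nat_lit 0) (nat_lit 0) (XT.lf (nat_lit 0) (nat_lit 947178782028) (nat_lit 152) (nat_lit 26360239270661) (nat_lit 0) (nat_lit 904244381892) (nat_lit 1) (nat_lit 5) (nat_lit 3) (nat_lit 4) (nat_lit 1) (nat_lit 4) (nat_lit 418) (nat_lit 358) (nat_lit 244)) (XT.lf (nat_lit 0) (nat_lit 1634700215229) (nat_lit 152) (nat_lit 29134159166195) (nat_lit 0) (nat_lit 1591765814418) (nat_lit 1) (nat_lit 5) (nat_lit 3) (nat_lit 4) (nat_lit 1) (nat_lit 4) (nat_lit 419) (nat_lit 358) (nat_lit 243))))))))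
noncomputable def xc79 : XT := (XT.nd (nat_lit 49374) (nat_lit 0) (nat_lit 456) (XT.nd (nat_lit 48360) (nat_lit 0) (nat_lit 2052) (XT.nd (nat_lit 468) (nat_lit 0) (nat_lit 0) (XT.nd (nat_lit 234) (nat_lit 0) (nat_lit 0) (XT.nd (nat_lit 78) (nat_lit 0) (nat_lit 0) (XT.lf (nat_lit 0) (nat_lit 2425349847213) (nat_lit 152) (nat_lit 32324167080693) (nat_lit 0) (nat_lit 2382415445816) (nat_lit 1) (nat_lit 5) (nat_lit 3) (nat_lit 4) (nat_lit 1) (nat_lit 4) (nat_lit 420) (nat_lit 358) (nat_lit 242)) (XT.nd (nat_lit 78) (nat_lit 0) (nat_lit 0) (XT.lf (nat_lit 0) (nat_lit 3334596909911) (nat_lit 152) (nat_lit 35992676212483) (nat_lit 0) (nat_lit 3291662508005) (nat_lit 1) (nat_lit 5) (nat_lit 3) (nat_lit 4) (nat_lit 1) (nat_lit 4) (nat_lit 421) (nat_lit 358) (nat_lit 241)) (XT.lf (nat_lit 0) (nat_lit 4380231019766) (nat_lit 152) (nat_lit 40211461740229) (nat_lit 0) (nat_lit 4337296617417) (nat_lit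 1) (nat_lit 5) (nat_lit 3) (nat_lit 4) (nat_lit 1) (nat_lit 4) (nat_lit 422) (nat_lit 358) (nat_lit 240)))) (XT.nd (nat_lit 78) (nat_lit 0) (nat_lit 0) (XT.lf (nat_lit 0) (nat_lit 5582710235450) (nat_lit 152) (nat_lit 45063065119910) (nat_lit 0) (nat_lit 5539775832715) (nat_lit 1) (nat_lit 5) (nat_lit 3) (nat_lit 4) (nat_lit 1) (nat_lit 4) (nat_lit 423) (nat_lit 358) (nat_lit 239)) (XT.nd (nat_lit 78) (nat_lit 0) (nat_lit 0) (XT.lf (nat_lit 0) (nat_lit 6965561324226) (nat_lit 152) (nat_lit 50642409026346) (nat_lit 0) (nat_lit 6922626921156) (nat_lit 1) (nat_lit 5) (nat_lit 3) (nat_lit 4) (nat_lit 1) (nat_lit 4) (nat_lit 424) (nat_lit 358) (nat_lit 238)) (XT.lf (nat_lit 0) (nat_lit 8555840068265) (nat_lit 152) (nat_lit 57058654535965) (nat_lit 0) (nat_lit 8512905664904) (nat_lit 1) (nat_lit 5) (nat_lit 3) (nat_lit 4) (nat_lit 1) (nat_lit 4) (nat_lit 425) (nat_lit 358) (nat_lit 237))))) (XT.nd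 (nat_lit 234) (nat_lit 0) (nat_lit 0) (XT.nd (nat_lit 78) (nat_lit 0) (nat_lit 0) (XT.lf (nat_lit 0) (nat_lit 10384660616908) (nat_lit 152) (nat_lit 64437336887002) (nat_lit 0) (nat_lit 10341726213294) (nat_lit 1) (nat_lit 5) (nat_lit 3) (nat_lit 4) (nat_lit 1) (nat_lit 4) (nat_lit 426) (nat_lit 358) (nat_lit 236)) (XT.nd (nat_lit 78) (nat_lit 0) (nat_lit 0) (XT.lf (nat_lit 0) (nat_lit 12487804241759) (nat_lit 152) (nat_lit 72922821603714) (nat_lit 0) (nat_lit 12444869837924) (nat_lit 1) (nat_lit 5) (nat_lit 3) (nat_lit 4) (nat_lit 1) (nat_lit 4) (nat_lit 427) (nat_lit 358) (nat_lit 235)) (XT.lf (nat_lit 0) (nat_lit 14906419405043) (nat_lit 152) (nat_lit 82681129039254) (nat_lit 0) (nat_lit 14863485001016) (nat_lit 1) (nat_lit 5) (nat_lit 3) (nat_lit 4) (nat_lit 1) (nat_lit 4) (nat_lit 428) (nat_lit 358) (nat_lit 234)))) (XT.nd (nat_lit 156) (nat_lit 0) (nat_lit 0) (XT.nd (nat_lit 78) (nat_lit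 0) (nat_lit 0) (XT.lf (nat_lit 0) (nat_lit 17687826838215) (nat_lit 152) (nat_lit 93903182599972) (nat_lit 0) (nat_lit 17644892434021) (nat_lit 1) (nat_lit 5) (nat_lit 3) (nat_lit 4) (nat_lit 1) (nat_lit 4) (nat_lit 429) (nat_lit 358) (nat_lit 233)) (XT.lf (nat_lit 0) (nat_lit 20886445382359) (nat_lit 152) (nat_lit 106808544203357) (nat_lit 0) (nat_lit 20843510978021) (nat_lit 1) (nat_lit 5) (nat_lit 3) (nat_lit 4) (nat_lit 1) (nat_lit 4) (nat_lit 430) (nat_lit 358) (nat_lit 232))) (XT.nd (nat_lit 78) (nat_lit 0) (nat_lit 0) (XT.lf (nat_lit 0) (nat_lit 24564856704643) (nat_lit 152) (nat_lit 121649710054695) (nat_lit 0) (nat_lit 24521922300179) (nat_lit 1) (nat_lit 5) (nat_lit 3) (nat_lit 4) (nat_lit 1) (nat_lit 4) (nat_lit 431) (nat_lit 358) (nat_lit 231)) (XT.lf (nat_lit 0) (nat_lit 28795029722243) (nat_lit 152) (nat_lit 138717050790207) (nat_lit 0) (nat_lit 28752095317669) (nat_lit 1)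 (nat_lit 5) (nat_lit 3) (nat_lit 4) (nat_lit 1) (nat_lit 4) (nat_lit 432) (nat_lit 358) (nat_lit 230)))))) (XT.nd (nat_lit 468) (nat_lit 532) (nat_lit 0) (XT.nd (nat_lit 234) (nat_lit 152) (nat_lit 0) (XT.nd (nat_lit 78) (nat_lit 0) (nat_lit 0) (XT.lf (nat_lit 0) (nat_lit 8269404736) (nat_lit 380) (nat_lit 10286463084) (nat_lit 380) (nat_lit 10286463084) (nat_lit 37) (nat_lit 3) (nat_lit 42) (nat_lit 3) (nat_lit 42) (nat_lit 5) (nat_lit 359) (nat_lit 359) (nat_lit 302)) (XT.nd (nat_lit 78) (nat_lit 0) (nat_lit 76) (XT.lf (nat_lit 76) (nat_lit 8811317557) (nat_lit 0) (nat_lit 9350974282) (nat_lit 380) (nat_lit 43791250265) (nat_lit 38) (nat_lit 5) (nat_lit 37) (nat_lit 3) (nat_lit 42) (nat_lit 5) (nat_lit 360) (nat_lit 359) (nat_lit 301)) (XT.lf (nat_lit 0) (nat_lit 22087371470) (nat_lit 304) (nat_lit 22774678100) (nat_lit 380) (nat_lit 21691995165) (nat_lit 38) (nat_lit 5) (nat_lit 42)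 (nat_lit 5) (nat_lit 43) (nat_lit 5) (nat_lit 361) (nat_lit 359) (nat_lit 300)))) (XT.nd (nat_lit 78) (nat_lit 228) (nat_lit 0) (XT.lf (nat_lit 76) (nat_lit 12843907046) (nat_lit 0) (nat_lit 14731581613) (nat_lit 380) (nat_lit 44122994091) (nat_lit 39) (nat_lit 5) (nat_lit 38) (nat_lit 5) (nat_lit 43) (nat_lit 5) (nat_lit 362) (nat_lit 359) (nat_lit 299)) (XT.nd (nat_lit 78) (nat_lit 304) (nat_lit 0) (XT.lf (nat_lit 0) (nat_lit 35956240158) (nat_lit 304) (nat_lit 21955202292) (nat_lit 76) (nat_lit 19392732665) (nat_lit 39) (nat_lit 5) (nat_lit 43) (nat_lit 5) (nat_lit 40) (nat_lit 5) (nat_lit 363) (nat_lit 359) (nat_lit 298)) (XT.lf (nat_lit 0) (nat_lit 21707935804) (nat_lit 304) (nat_lit 25484335417) (nat_lit 380) (nat_lit 36318726094) (nat_lit 35) (nat_lit 5) (nat_lit 39) (nat_lit 5) (nat_lit 40) (nat_lit 5) (nat_lit 364) (nat_lit 359) (nat_lit 297))))) (XT.nd (nat_lit 234) (nat_lit 380)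 (nat_lit 0) (XT.nd (nat_lit 78) (nat_lit 152) (nat_lit 0) (XT.lf (nat_lit 0) (nat_lit 61802891653) (nat_lit 380) (nat_lit 16634655793) (nat_lit 76) (nat_lit 11957918567) (nat_lit 35) (nat_lit 5) (nat_lit 40) (nat_lit 5) (nat_lit 36) (nat_lit 5) (nat_lit 365) (nat_lit 359) (nat_lit 296)) (XT.nd (nat_lit 78) (nat_lit 0) (nat_lit 0) (XT.lf (nat_lit 0) (nat_lit 37425213343) (nat_lit 152) (nat_lit 43941373377) (nat_lit 228) (nat_lit 16531796822) (nat_lit 33) (nat_lit 5) (nat_lit 35) (nat_lit 5) (nat_lit 36) (nat_lit 5) (nat_lit 366) (nat_lit 359) (nat_lit 295)) (XT.lf (nat_lit 0) (nat_lit 101461558237) (nat_lit 152) (nat_lit 3271205899) (nat_lit 228) (nat_lit 1663786011) (nat_lit 33) (nat_lit 5) (nat_lit 35) (nat_lit 5) (nat_lit 36) (nat_lit 5) (nat_lit 367) (nat_lit 359) (nat_lit 294)))) (XT.nd (nat_lit 156) (nat_lit 76) (nat_lit 0) (XT.nd (nat_lit 78) (nat_lit 152) (nat_lit 0) (XT.lf (nat_lit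 0) (nat_lit 18666369108) (nat_lit 152) (nat_lit 53644437567) (nat_lit 76) (nat_lit 43071866255) (nat_lit 31) (nat_lit 5) (nat_lit 33) (nat_lit 5) (nat_lit 32) (nat_lit 5) (nat_lit 368) (nat_lit 359) (nat_lit 293)) (XT.lf (nat_lit 0) (nat_lit 14314118819) (nat_lit 152) (nat_lit 28578956875) (nat_lit 228) (nat_lit 82659149460) (nat_lit 29) (nat_lit 5) (nat_lit 31) (nat_lit 5) (nat_lit 32) (nat_lit 5) (nat_lit 369) (nat_lit 359) (nat_lit 292))) (XT.nd (nat_lit 78) (nat_lit 76) (nat_lit 0) (XT.lf (nat_lit 0) (nat_lit 74589238827) (nat_lit 228) (nat_lit 39365899760) (nat_lit 76) (nat_lit 22716754416) (nat_lit 29) (nat_lit 5) (nat_lit 32) (nat_lit 5) (nat_lit 30) (nat_lit 4) (nat_lit 370) (nat_lit 359) (nat_lit 291)) (XT.lf (nat_lit 0) (nat_lit 46021598909) (nat_lit 76) (nat_lit 68283659194) (nat_lit 152) (nat_lit 34664438507) (nat_lit 28) (nat_lit 5) (nat_lit 29) (nat_lit 5) (nat_lit 30) (nat_lit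 4) (nat_lit 371) (nat_lit 359) (nat_lit 290))))))) (XT.nd (nat_lit 1014) (nat_lit 684) (nat_lit 0) (XT.nd (nat_lit 468) (nat_lit 532) (nat_lit 0) (XT.nd (nat_lit 234) (nat_lit 152) (nat_lit 0) (XT.nd (nat_lit 78) (nat_lit 228) (nat_lit 0) (XT.lf (nat_lit 0) (nat_lit 148639697233) (nat_lit 76) (nat_lit 13395694679) (nat_lit 152) (nat_lit 768272383) (nat_lit 28) (nat_lit 5) (nat_lit 29) (nat_lit 5) (nat_lit 30) (nat_lit 4) (nat_lit 372) (nat_lit 359) (nat_lit 289)) (XT.nd (nat_lit 78) (nat_lit 76) (nat_lit 0) (XT.lf (nat_lit 0) (nat_lit 41055873317) (nat_lit 152) (nat_lit 85414971841) (nat_lit 76) (nat_lit 51067716672) (nat_lit 26) (nat_lit 5) (nat_lit 28) (nat_lit 5) (nat_lit 27) (nat_lit 4) (nat_lit 373) (nat_lit 359) (nat_lit 288)) (XT.lf (nat_lit 0) (nat_lit 22900926933) (nat_lit 76) (nat_lit 68534950831) (nat_lit 152) (nat_lit 102688194757) (nat_lit 25) (nat_lit 5) (nat_lit 26) (nat_lit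 5) (nat_lit 27) (nat_lit 4) (nat_lit 374) (nat_lit 359) (nat_lit 287)))) (XT.nd (nat_lit 78) (nat_lit 152) (nat_lit 0) (XT.lf (nat_lit 0) (nat_lit 153970441875) (nat_lit 152) (nat_lit 55599219477) (nat_lit 0) (nat_lit 2938114777) (nat_lit 25) (nat_lit 5) (nat_lit 27) (nat_lit 4) (nat_lit 25) (nat_lit 4) (nat_lit 375) (nat_lit 359) (nat_lit 286)) (XT.nd (nat_lit 78) (nat_lit 76) (nat_lit 0) (XT.lf (nat_lit 0) (nat_lit 81345203966) (nat_lit 76) (nat_lit 151171110190) (nat_lit 76) (nat_lit 138052732) (nat_lit 24) (nat_lit 4) (nat_lit 25) (nat_lit 5) (nat_lit 25) (nat_lit 4) (nat_lit 376) (nat_lit 359) (nat_lit 285)) (XT.lf (nat_lit 0) (nat_lit 64098389202) (nat_lit 152) (nat_lit 13222155768) (nat_lit 76) (nat_lit 177629528368) (nat_lit 23) (nat_lit 5) (nat_lit 25) (nat_lit 5) (nat_lit 24) (nat_lit 4) (nat_lit 377) (nat_lit 359) (nat_lit 284))))) (XT.nd (nat_lit 234) (nat_lit 304) (nat_lit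 0) (XT.nd (nat_lit 78) (nat_lit 152) (nat_lit 0) (XT.lf (nat_lit 0) (nat_lit 145202707758) (nat_lit 152) (nat_lit 120430878519) (nat_lit 0) (nat_lit 13868581835) (nat_lit 22) (nat_lit 5) (nat_lit 24) (nat_lit 4) (nat_lit 22) (nat_lit 4) (nat_lit 378) (nat_lit 359) (nat_lit 283)) (XT.nd (nat_lit 78) (nat_lit 76) (nat_lit 0) (XT.lf (nat_lit 0) (nat_lit 51972144767) (nat_lit 76) (nat_lit 193057932709) (nat_lit 76) (nat_lit 61723389201) (nat_lit 21) (nat_lit 4) (nat_lit 22) (nat_lit 5) (nat_lit 22) (nat_lit 4) (nat_lit 379) (nat_lit 359) (nat_lit 282)) (XT.lf (nat_lit 0) (nat_lit 26398104628) (nat_lit 152) (nat_lit 74578981675) (nat_lit 76) (nat_lit 235991191913) (nat_lit 20) (nat_lit 5) (nat_lit 22) (nat_lit 5) (nat_lit 21) (nat_lit 4) (nat_lit 380) (nat_lit 359) (nat_lit 281)))) (XT.nd (nat_lit 156) (nat_lit 228) (nat_lit 0) (XT.nd (nat_lit 78) (nat_lit 0) (nat_lit 0) (XT.lf (nat_lit 0) (nat_lit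 127938283998) (nat_lit 152) (nat_lit 228624439267) (nat_lit 0) (nat_lit 13733742797) (nat_lit 19) (nat_lit 5) (nat_lit 21) (nat_lit 4) (nat_lit 19) (nat_lit 4) (nat_lit 381) (nat_lit 359) (nat_lit 280)) (XT.lf (nat_lit 0) (nat_lit 253601454501) (nat_lit 152) (nat_lit 14291958451) (nat_lit 0) (nat_lit 139396674544) (nat_lit 19) (nat_lit 5) (nat_lit 21) (nat_lit 4) (nat_lit 19) (nat_lit 4) (nat_lit 382) (nat_lit 359) (nat_lit 279))) (XT.nd (nat_lit 78) (nat_lit 152) (nat_lit 0) (XT.lf (nat_lit 0) (nat_lit 254880661815) (nat_lit 76) (nat_lit 153787020352) (nat_lit 76) (nat_lit 39582032781) (nat_lit 18) (nat_lit 4) (nat_lit 19) (nat_lit 5) (nat_lit 19) (nat_lit 4) (nat_lit 383) (nat_lit 359) (nat_lit 278)) (XT.lf (nat_lit 0) (nat_lit 73507091593) (nat_lit 76) (nat_lit 13800936173) (nat_lit 152) (nat_lit 406902170808) (nat_lit 16) (nat_lit 5) (nat_lit 17) (nat_lit 5) (nat_lit 18) (nat_lit 4)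 (nat_lit 384) (nat_lit 359) (nat_lit 277)))))) (XT.nd (nat_lit 468) (nat_lit 380) (nat_lit 0) (XT.nd (nat_lit 234) (nat_lit 228) (nat_lit 0) (XT.nd (nat_lit 78) (nat_lit 76) (nat_lit 0) (XT.lf (nat_lit 0) (nat_lit 245862469690) (nat_lit 152) (nat_lit 151863567150) (nat_lit 0) (nat_lit 146553491350) (nat_lit 16) (nat_lit 5) (nat_lit 18) (nat_lit 4) (nat_lit 16) (nat_lit 4) (nat_lit 385) (nat_lit 359) (nat_lit 276)) (XT.nd (nat_lit 78) (nat_lit 0) (nat_lit 0) (XT.lf (nat_lit 0) (nat_lit 171952242572) (nat_lit 76) (nat_lit 264024784670) (nat_lit 76) (nat_lit 164715687626) (nat_lit 15) (nat_lit 4) (nat_lit 16) (nat_lit 5) (nat_lit 16) (nat_lit 4) (nat_lit 386) (nat_lit 359) (nat_lit 275)) (XT.lf (nat_lit 0) (nat_lit 561407005182) (nat_lit 76) (nat_lit 101139692623) (nat_lit 76) (nat_lit 1830492358) (nat_lit 15) (nat_lit 4) (nat_lit 16) (nat_lit 5) (nat_lit 16) (nat_lit 4) (nat_lit 387) (nat_lit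 359) (nat_lit 274)))) (XT.nd (nat_lit 78) (nat_lit 76) (nat_lit 0) (XT.lf (nat_lit 0) (nat_lit 185478607508) (nat_lit 152) (nat_lit 449385254410) (nat_lit 0) (nat_lit 99122703141) (nat_lit 13) (nat_lit 5) (nat_lit 15) (nat_lit 4) (nat_lit 13) (nat_lit 4) (nat_lit 388) (nat_lit 359) (nat_lit 273)) (XT.nd (nat_lit 78) (nat_lit 76) (nat_lit 0) (XT.lf (nat_lit 0) (nat_lit 411151327908) (nat_lit 152) (nat_lit 76509388211) (nat_lit 0) (nat_lit 324795355672) (nat_lit 13) (nat_lit 5) (nat_lit 15) (nat_lit 4) (nat_lit 13) (nat_lit 4) (nat_lit 389) (nat_lit 359) (nat_lit 272)) (XT.lf (nat_lit 0) (nat_lit 386726256623) (nat_lit 76) (nat_lit 299961899598) (nat_lit 76) (nat_lit 213605868345) (nat_lit 12) (nat_lit 4) (nat_lit 13) (nat_lit 5) (nat_lit 13) (nat_lit 4) (nat_lit 390) (nat_lit 359) (nat_lit 271))))) (XT.nd (nat_lit 234) (nat_lit 228) (nat_lit 0) (XT.nd (nat_lit 78) (nat_lit 76) (nat_lit 0)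 (XT.lf (nat_lit 0) (nat_lit 6237211264) (nat_lit 152) (nat_lit 72946078353) (nat_lit 76) (nat_lit 921481995289) (nat_lit 11) (nat_lit 5) (nat_lit 13) (nat_lit 5) (nat_lit 12) (nat_lit 4) (nat_lit 391) (nat_lit 359) (nat_lit 270)) (XT.nd (nat_lit 78) (nat_lit 0) (nat_lit 0) (XT.lf (nat_lit 0) (nat_lit 265077389103) (nat_lit 152) (nat_lit 655320513137) (nat_lit 0) (nat_lit 189985104583) (nat_lit 10) (nat_lit 5) (nat_lit 12) (nat_lit 4) (nat_lit 10) (nat_lit 4) (nat_lit 392) (nat_lit 359) (nat_lit 269)) (XT.lf (nat_lit 0) (nat_lit 570508625106) (nat_lit 152) (nat_lit 169468700363) (nat_lit 0) (nat_lit 495416306843) (nat_lit 10) (nat_lit 5) (nat_lit 12) (nat_lit 4) (nat_lit 10) (nat_lit 4) (nat_lit 393) (nat_lit 359) (nat_lit 268)))) (XT.nd (nat_lit 156) (nat_lit 152) (nat_lit 0) (XT.nd (nat_lit 78) (nat_lit 0) (nat_lit 0) (XT.lf (nat_lit 0) (nat_lit 427301750234) (nat_lit 76) (nat_lit 512146217880)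 (nat_lit 76) (nat_lit 437053870275) (nat_lit 9) (nat_lit 4) (nat_lit 10) (nat_lit 5) (nat_lit 10) (nat_lit 4) (nat_lit 394) (nat_lit 359) (nat_lit 267)) (XT.lf (nat_lit 0) (nat_lit 1132633270973) (nat_lit 76) (nat_lit 239953311055) (nat_lit 76) (nat_lit 164860937936) (nat_lit 9) (nat_lit 4) (nat_lit 10) (nat_lit 5) (nat_lit 10) (nat_lit 4) (nat_lit 395) (nat_lit 359) (nat_lit 266))) (XT.nd (nat_lit 78) (nat_lit 0) (nat_lit 0) (XT.lf (nat_lit 0) (nat_lit 148530740273) (nat_lit 152) (nat_lit 1487817036490) (nat_lit 0) (nat_lit 83233005225) (nat_lit 7) (nat_lit 5) (nat_lit 9) (nat_lit 4) (nat_lit 7) (nat_lit 4) (nat_lit 396) (nat_lit 359) (nat_lit 265)) (XT.lf (nat_lit 0) (nat_lit 525647096460) (nat_lit 152) (nat_lit 936820832183) (nat_lit 0) (nat_lit 460349344636) (nat_lit 7) (nat_lit 5) (nat_lit 9) (nat_lit 4) (nat_lit 7) (nat_lit 4) (nat_lit 397) (nat_lit 359) (nat_lit 264))))))))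
noncomputable def xc80 : XT := (XT.nd (nat_lit 1950) (nat_lit 0) (nat_lit 0) (XT.nd (nat_lit 936) (nat_lit 152) (nat_lit 0) (XT.nd (nat_lit 468) (nat_lit 76) (nat_lit 0) (XT.nd (nat_lit 234) (nat_lit 152) (nat_lit 0) (XT.nd (nat_lit 78) (nat_lit 76) (nat_lit 0) (XT.lf (nat_lit 0) (nat_lit 959330730933) (nat_lit 152) (nat_lit 303175569083) (nat_lit 0) (nat_lit 894032964521) (nat_lit 7) (nat_lit 5) (nat_lit 9) (nat_lit 4) (nat_lit 7) (nat_lit 4) (nat_lit 398) (nat_lit 359) (nat_lit 263)) (XT.nd (nat_lit 78) (nat_lit 0) (nat_lit 0) (XT.lf (nat_lit 0) (nat_lit 467100693962) (nat_lit 76) (nat_lit 1010307707961) (nat_lit 76) (nat_lit 945009928863) (nat_lit 6) (nat_lit 4) (nat_lit 7) (nat_lit 5) (nat_lit 7) (nat_lit 4) (nat_lit 399) (nat_lit 359) (nat_lit 262)) (XT.lf (nat_lit 0) (nat_lit 1386990887565) (nat_lit 76) (nat_lit 702054504621) (nat_lit 76) (nat_lit 636756714493) (nat_lit 6) (nat_lit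 4) (nat_lit 7) (nat_lit 5) (nat_lit 7) (nat_lit 4) (nat_lit 400) (nat_lit 359) (nat_lit 261)))) (XT.nd (nat_lit 78) (nat_lit 152) (nat_lit 0) (XT.lf (nat_lit 0) (nat_lit 2444864341815) (nat_lit 76) (nat_lit 347563462902) (nat_lit 76) (nat_lit 282265663182) (nat_lit 6) (nat_lit 4) (nat_lit 7) (nat_lit 5) (nat_lit 7) (nat_lit 4) (nat_lit 401) (nat_lit 359) (nat_lit 260)) (XT.nd (nat_lit 78) (nat_lit 0) (nat_lit 0) (XT.lf (nat_lit 0) (nat_lit 125557034257) (nat_lit 152) (nat_lit 3279108009595) (nat_lit 0) (nat_lit 68776331595) (nat_lit 4) (nat_lit 5) (nat_lit 6) (nat_lit 4) (nat_lit 4) (nat_lit 4) (nat_lit 402) (nat_lit 359) (nat_lit 259)) (XT.lf (nat_lit 0) (nat_lit 616695677777) (nat_lit 152) (nat_lit 2745718463901) (nat_lit 0) (nat_lit 559914968808) (nat_lit 4) (nat_lit 5) (nat_lit 6) (nat_lit 4) (nat_lit 4) (nat_lit 4) (nat_lit 403) (nat_lit 359) (nat_lit 258))))) (XT.nd (nat_lit 234)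 (nat_lit 76) (nat_lit 0) (XT.nd (nat_lit 78) (nat_lit 0) (nat_lit 0) (XT.lf (nat_lit 0) (nat_lit 1181505017979) (nat_lit 152) (nat_lit 2132320699255) (nat_lit 0) (nat_lit 1124724303526) (nat_lit 4) (nat_lit 5) (nat_lit 6) (nat_lit 4) (nat_lit 4) (nat_lit 4) (nat_lit 404) (nat_lit 359) (nat_lit 257)) (XT.nd (nat_lit 78) (nat_lit 0) (nat_lit 0) (XT.lf (nat_lit 0) (nat_lit 1831035672388) (nat_lit 152) (nat_lit 1426913455045) (nat_lit 0) (nat_lit 1774254953166) (nat_lit 4) (nat_lit 5) (nat_lit 6) (nat_lit 4) (nat_lit 4) (nat_lit 4) (nat_lit 405) (nat_lit 359) (nat_lit 256)) (XT.lf (nat_lit 0) (nat_lit 2577995849459) (nat_lit 152) (nat_lit 615695285190) (nat_lit 0) (nat_lit 2521215126091) (nat_lit 4) (nat_lit 5) (nat_lit 6) (nat_lit 4) (nat_lit 4) (nat_lit 4) (nat_lit 406) (nat_lit 359) (nat_lit 255)))) (XT.nd (nat_lit 78) (nat_lit 0) (nat_lit 0) (XT.lf (nat_lit 0) (nat_lit 348205095649) (nat_lit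 76) (nat_lit 3103213322253) (nat_lit 76) (nat_lit 3046432595278) (nat_lit 3) (nat_lit 4) (nat_lit 4) (nat_lit 5) (nat_lit 4) (nat_lit 4) (nat_lit 407) (nat_lit 359) (nat_lit 254)) (XT.nd (nat_lit 78) (nat_lit 0) (nat_lit 0) (XT.lf (nat_lit 0) (nat_lit 1525886154201) (nat_lit 76) (nat_lit 2962152226516) (nat_lit 76) (nat_lit 2905371496405) (nat_lit 3) (nat_lit 4) (nat_lit 4) (nat_lit 5) (nat_lit 4) (nat_lit 4) (nat_lit 408) (nat_lit 359) (nat_lit 253)) (XT.lf (nat_lit 0) (nat_lit 2880219255342) (nat_lit 76) (nat_lit 2799932028159) (nat_lit 76) (nat_lit 2743151295323) (nat_lit 3) (nat_lit 4) (nat_lit 4) (nat_lit 5) (nat_lit 4) (nat_lit 4) (nat_lit 409) (nat_lit 359) (nat_lit 252)))))) (XT.nd (nat_lit 468) (nat_lit 152) (nat_lit 0) (XT.nd (nat_lit 234) (nat_lit 0) (nat_lit 0) (XT.nd (nat_lit 78) (nat_lit 0) (nat_lit 0) (XT.lf (nat_lit 0) (nat_lit 4437702220614) (nat_lit 76) (nat_lit 2613378853739)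 (nat_lit 76) (nat_lit 2556598118531) (nat_lit 3) (nat_lit 4) (nat_lit 4) (nat_lit 5) (nat_lit 4) (nat_lit 4) (nat_lit 410) (nat_lit 359) (nat_lit 251)) (XT.nd (nat_lit 78) (nat_lit 0) (nat_lit 0) (XT.lf (nat_lit 0) (nat_lit 6228807542817) (nat_lit 76) (nat_lit 2398842749840) (nat_lit 76) (nat_lit 2342062012571) (nat_lit 3) (nat_lit 4) (nat_lit 4) (nat_lit 5) (nat_lit 4) (nat_lit 4) (nat_lit 411) (nat_lit 359) (nat_lit 250)) (XT.lf (nat_lit 0) (nat_lit 8288578586951) (nat_lit 76) (nat_lit 2152126270954) (nat_lit 76) (nat_lit 2095345531892) (nat_lit 3) (nat_lit 4) (nat_lit 4) (nat_lit 5) (nat_lit 4) (nat_lit 4) (nat_lit 412) (nat_lit 359) (nat_lit 249)))) (XT.nd (nat_lit 78) (nat_lit 0) (nat_lit 0) (XT.lf (nat_lit 0) (nat_lit 10657315221270) (nat_lit 76) (nat_lit 1868402355536) (nat_lit 76) (nat_lit 1811621614914) (nat_lit 3) (nat_lit 4) (nat_lit 4) (nat_lit 5) (nat_lit 4) (nat_lit 4) (nat_lit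 413) (nat_lit 359) (nat_lit 248)) (XT.nd (nat_lit 78) (nat_lit 0) (nat_lit 0) (XT.lf (nat_lit 0) (nat_lit 13381362292967) (nat_lit 76) (nat_lit 1542119883501) (nat_lit 76) (nat_lit 1485339141524) (nat_lit 3) (nat_lit 4) (nat_lit 4) (nat_lit 5) (nat_lit 4) (nat_lit 4) (nat_lit 414) (nat_lit 359) (nat_lit 247)) (XT.lf (nat_lit 0) (nat_lit 16514016375185) (nat_lit 76) (nat_lit 1166895067354) (nat_lit 76) (nat_lit 1110114324199) (nat_lit 3) (nat_lit 4) (nat_lit 4) (nat_lit 5) (nat_lit 4) (nat_lit 4) (nat_lit 415) (nat_lit 359) (nat_lit 246))))) (XT.nd (nat_lit 234) (nat_lit 0) (nat_lit 0) (XT.nd (nat_lit 78) (nat_lit 152) (nat_lit 0) (XT.lf (nat_lit 0) (nat_lit 20116568526054) (nat_lit 76) (nat_lit 735386551996) (nat_lit 76) (nat_lit 678605807816) (nat_lit 3) (nat_lit 4) (nat_lit 4) (nat_lit 5) (nat_lit 4) (nat_lit 4) (nat_lit 416) (nat_lit 359) (nat_lit 245)) (XT.nd (nat_lit 78) (nat_lit 152)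 (nat_lit 0) (XT.lf (nat_lit 0) (nat_lit 24259503461569) (nat_lit 76) (nat_lit 239151779519) (nat_lit 76) (nat_lit 182371034447) (nat_lit 3) (nat_lit 4) (nat_lit 4) (nat_lit 5) (nat_lit 4) (nat_lit 4) (nat_lit 417) (nat_lit 359) (nat_lit 244)) (XT.lf (nat_lit 0) (nat_lit 401734348063) (nat_lit 152) (nat_lit 27540354876696) (nat_lit 0) (nat_lit 352359786457) (nat_lit 1) (nat_lit 5) (nat_lit 3) (nat_lit 4) (nat_lit 1) (nat_lit 4) (nat_lit 418) (nat_lit 359) (nat_lit 243)))) (XT.nd (nat_lit 156) (nat_lit 0) (nat_lit 0) (XT.nd (nat_lit 78) (nat_lit 0) (nat_lit 0) (XT.lf (nat_lit 0) (nat_lit 1089255773730) (nat_lit 152) (nat_lit 30314274788339) (nat_lit 0) (nat_lit 1039881211538) (nat_lit 1) (nat_lit 5) (nat_lit 3) (nat_lit 4) (nat_lit 1) (nat_lit 4) (nat_lit 419) (nat_lit 359) (nat_lit 242)) (XT.lf (nat_lit 0) (nat_lit 1879905399164) (nat_lit 152) (nat_lit 33504282716844) (nat_lit 0) (nat_lit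 1830530836462) (nat_lit 1) (nat_lit 5) (nat_lit 3) (nat_lit 4) (nat_lit 1) (nat_lit 4) (nat_lit 420) (nat_lit 359) (nat_lit 241))) (XT.nd (nat_lit 78) (nat_lit 0) (nat_lit 0) (XT.lf (nat_lit 0) (nat_lit 2789152456165) (nat_lit 152) (nat_lit 37172791860815) (nat_lit 0) (nat_lit 2739777893020) (nat_lit 1) (nat_lit 5) (nat_lit 3) (nat_lit 4) (nat_lit 1) (nat_lit 4) (nat_lit 421) (nat_lit 359) (nat_lit 240)) (XT.lf (nat_lit 0) (nat_lit 3834786561067) (nat_lit 152) (nat_lit 41391577399153) (nat_lit 0) (nat_lit 3785411997537) (nat_lit 1) (nat_lit 5) (nat_lit 3) (nat_lit 4) (nat_lit 1) (nat_lit 4) (nat_lit 422) (nat_lit 359) (nat_lit 239))))))) (XT.nd (nat_lit 48282) (nat_lit 0) (nat_lit 2052) (XT.nd (nat_lit 468) (nat_lit 0) (nat_lit 0) (XT.nd (nat_lit 234) (nat_lit 0) (nat_lit 0) (XT.nd (nat_lit 78) (nat_lit 0) (nat_lit 0) (XT.lf (nat_lit 0) (nat_lit 5037265772444) (nat_lit 152) (nat_lit 46243180788045)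 (nat_lit 0) (nat_lit 4987891208578) (nat_lit 1) (nat_lit 5) (nat_lit 3) (nat_lit 4) (nat_lit 1) (nat_lit 4) (nat_lit 423) (nat_lit 359) (nat_lit 238)) (XT.nd (nat_lit 78) (nat_lit 0) (nat_lit 0) (XT.lf (nat_lit 0) (nat_lit 6420116857474) (nat_lit 152) (nat_lit 51822524702489) (nat_lit 0) (nat_lit 6370742293317) (nat_lit 1) (nat_lit 5) (nat_lit 3) (nat_lit 4) (nat_lit 1) (nat_lit 4) (nat_lit 424) (nat_lit 359) (nat_lit 237)) (XT.lf (nat_lit 0) (nat_lit 8010395598257) (nat_lit 152) (nat_lit 58238770219073) (nat_lit 0) (nat_lit 7961021033846) (nat_lit 1) (nat_lit 5) (nat_lit 3) (nat_lit 4) (nat_lit 1) (nat_lit 4) (nat_lit 425) (nat_lit 359) (nat_lit 236)))) (XT.nd (nat_lit 78) (nat_lit 0) (nat_lit 0) (XT.lf (nat_lit 0) (nat_lit 9839216144068) (nat_lit 152) (nat_lit 65617452576165) (nat_lit 0) (nat_lit 9789841579437) (nat_lit 1) (nat_lit 5) (nat_lit 3) (nat_lit 4) (nat_lit 1) (nat_lit 4) (nat_lit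 426) (nat_lit 359) (nat_lit 235)) (XT.nd (nat_lit 78) (nat_lit 0) (nat_lit 0) (XT.lf (nat_lit 0) (nat_lit 11942359766456) (nat_lit 152) (nat_lit 74102937298143) (nat_lit 0) (nat_lit 11892985201634) (nat_lit 1) (nat_lit 5) (nat_lit 3) (nat_lit 4) (nat_lit 1) (nat_lit 4) (nat_lit 427) (nat_lit 359) (nat_lit 234)) (XT.lf (nat_lit 0) (nat_lit 14360974927598) (nat_lit 152) (nat_lit 83861244738263) (nat_lit 0) (nat_lit 14311600362609) (nat_lit 1) (nat_lit 5) (nat_lit 3) (nat_lit 4) (nat_lit 1) (nat_lit 4) (nat_lit 428) (nat_lit 359) (nat_lit 233))))) (XT.nd (nat_lit 546) (nat_lit 0) (nat_lit 0) (XT.nd (nat_lit 78) (nat_lit 0) (nat_lit 0) (XT.lf (nat_lit 0) (nat_lit 17142382358908) (nat_lit 152) (nat_lit 95083298302962) (nat_lit 0) (nat_lit 17093007793774) (nat_lit 1) (nat_lit 5) (nat_lit 3) (nat_lit 4) (nat_lit 1) (nat_lit 4) (nat_lit 429) (nat_lit 359) (nat_lit 232)) (XT.nd (nat_lit 78) (nat_lit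 0) (nat_lit 0) (XT.lf (nat_lit 0) (nat_lit 20341000901433) (nat_lit 152) (nat_lit 107988659909810) (nat_lit 0) (nat_lit 20291626336173) (nat_lit 1) (nat_lit 5) (nat_lit 3) (nat_lit 4) (nat_lit 1) (nat_lit 4) (nat_lit 430) (nat_lit 359) (nat_lit 231)) (XT.lf (nat_lit 0) (nat_lit 24019412222309) (nat_lit 152) (nat_lit 122829825764159) (nat_lit 0) (nat_lit 23970037656940) (nat_lit 1) (nat_lit 5) (nat_lit 3) (nat_lit 4) (nat_lit 1) (nat_lit 4) (nat_lit 431) (nat_lit 359) (nat_lit 230)))) (XT.nd (nat_lit 156) (nat_lit 0) (nat_lit 0) (XT.nd (nat_lit 78) (nat_lit 0) (nat_lit 0) (XT.lf (nat_lit 0) (nat_lit 52540851428605) (nat_lit 152) (nat_lit 237904343994687) (nat_lit 0) (nat_lit 52491476862869) (nat_lit 1) (nat_lit 5) (nat_lit 3) (nat_lit 4) (nat_lit 1) (nat_lit 4) (nat_lit 436) (nat_lit 359) (nat_lit 225)) (XT.lf (nat_lit 0) (nat_lit 61049240317101) (nat_lit 152) (nat_lit 272232862486265) (nat_lit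 0) (nat_lit 60999865751317) (nat_lit 1) (nat_lit 5) (nat_lit 3) (nat_lit 4) (nat_lit 1) (nat_lit 4) (nat_lit 437) (nat_lit 359) (nat_lit 224))) (XT.nd (nat_lit 47034) (nat_lit 0) (nat_lit 2736) (XT.lf (nat_lit 0) (nat_lit 70833887537732) (nat_lit 152) (nat_lit 311710658754014) (nat_lit 0) (nat_lit 70784512971908) (nat_lit 1) (nat_lit 5) (nat_lit 3) (nat_lit 4) (nat_lit 1) (nat_lit 4) (nat_lit 438) (nat_lit 359) (nat_lit 223)) (XT.lf (nat_lit 0) (nat_lit 9527275039) (nat_lit 380) (nat_lit 11819389162) (nat_lit 380) (nat_lit 11819389162) (nat_lit 37) (nat_lit 3) (nat_lit 42) (nat_lit 3) (nat_lit 42) (nat_lit 5) (nat_lit 360) (nat_lit 360) (nat_lit 300)))))) (XT.nd (nat_lit 468) (nat_lit 532) (nat_lit 0) (XT.nd (nat_lit 234) (nat_lit 152) (nat_lit 0) (XT.nd (nat_lit 78) (nat_lit 0) (nat_lit 76) (XT.lf (nat_lit 76) (nat_lit 10152188924) (nat_lit 0) (nat_lit 10765605143) (nat_lit 380) (nat_lit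 50324091258) (nat_lit 38) (nat_lit 5) (nat_lit 37) (nat_lit 3) (nat_lit 42) (nat_lit 5) (nat_lit 361) (nat_lit 360) (nat_lit 299)) (XT.nd (nat_lit 78) (nat_lit 0) (nat_lit 0) (XT.lf (nat_lit 0) (nat_lit 25427139966) (nat_lit 304) (nat_lit 26169698868) (nat_lit 380) (nat_lit 24936300738) (nat_lit 38) (nat_lit 5) (nat_lit 42) (nat_lit 5) (nat_lit 43) (nat_lit 5) (nat_lit 362) (nat_lit 360) (nat_lit 298)) (XT.lf (nat_lit 76) (nat_lit 14790711280) (nat_lit 0) (nat_lit 16945122892) (nat_lit 380) (nat_lit 50713806827) (nat_lit 39) (nat_lit 5) (nat_lit 38) (nat_lit 5) (nat_lit 43) (nat_lit 5) (nat_lit 363) (nat_lit 360) (nat_lit 297)))) (XT.nd (nat_lit 78) (nat_lit 304) (nat_lit 0) (XT.lf (nat_lit 0) (nat_lit 41370428092) (nat_lit 304) (nat_lit 25227621890) (nat_lit 76) (nat_lit 22298629195) (nat_lit 39) (nat_lit 5) (nat_lit 43) (nat_lit 5) (nat_lit 40) (nat_lit 5) (nat_lit 364) (nat_lit 360)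 (nat_lit 296)) (XT.nd (nat_lit 78) (nat_lit 0) (nat_lit 0) (XT.lf (nat_lit 0) (nat_lit 24984038705) (nat_lit 304) (nat_lit 29305942874) (nat_lit 380) (nat_lit 41744826692) (nat_lit 35) (nat_lit 5) (nat_lit 39) (nat_lit 5) (nat_lit 40) (nat_lit 5) (nat_lit 365) (nat_lit 360) (nat_lit 295)) (XT.lf (nat_lit 0) (nat_lit 71089771363) (nat_lit 380) (nat_lit 19110108084) (nat_lit 76) (nat_lit 13752432451) (nat_lit 35) (nat_lit 5) (nat_lit 40) (nat_lit 5) (nat_lit 36) (nat_lit 5) (nat_lit 366) (nat_lit 360) (nat_lit 294))))) (XT.nd (nat_lit 234) (nat_lit 228) (nat_lit 0) (XT.nd (nat_lit 78) (nat_lit 152) (nat_lit 0) (XT.lf (nat_lit 0) (nat_lit 43057843873) (nat_lit 152) (nat_lit 50528812169) (nat_lit 228) (nat_lit 18994216640) (nat_lit 33) (nat_lit 5) (nat_lit 35) (nat_lit 5) (nat_lit 36) (nat_lit 5) (nat_lit 367) (nat_lit 360) (nat_lit 293)) (XT.nd (nat_lit 78) (nat_lit 152) (nat_lit 0) (XT.lf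 (nat_lit 0) (nat_lit 116697181997) (nat_lit 152) (nat_lit 3758610945) (nat_lit 228) (nat_lit 1898267212) (nat_lit 33) (nat_lit 5) (nat_lit 35) (nat_lit 5) (nat_lit 36) (nat_lit 5) (nat_lit 368) (nat_lit 360) (nat_lit 292)) (XT.lf (nat_lit 0) (nat_lit 21479153718) (nat_lit 152) (nat_lit 61672446965) (nat_lit 76) (nat_lit 49536544729) (nat_lit 31) (nat_lit 5) (nat_lit 33) (nat_lit 5) (nat_lit 32) (nat_lit 5) (nat_lit 369) (nat_lit 360) (nat_lit 291)))) (XT.nd (nat_lit 156) (nat_lit 76) (nat_lit 0) (XT.nd (nat_lit 78) (nat_lit 0) (nat_lit 0) (XT.lf (nat_lit 0) (nat_lit 16479044868) (nat_lit 152) (nat_lit 32859885444) (nat_lit 228) (nat_lit 95044341084) (nat_lit 29) (nat_lit 5) (nat_lit 31) (nat_lit 5) (nat_lit 32) (nat_lit 5) (nat_lit 370) (nat_lit 360) (nat_lit 290)) (XT.lf (nat_lit 0) (nat_lit 85788179599) (nat_lit 228) (nat_lit 45253957915) (nat_lit 76) (nat_lit 26128953119) (nat_lit 29)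 (nat_lit 5) (nat_lit 32) (nat_lit 5) (nat_lit 30) (nat_lit 4) (nat_lit 371) (nat_lit 360) (nat_lit 289))) (XT.nd (nat_lit 78) (nat_lit 0) (nat_lit 0) (XT.lf (nat_lit 0) (nat_lit 52940900700) (nat_lit 76) (nat_lit 78519989425) (nat_lit 152) (nat_lit 39852781802) (nat_lit 28) (nat_lit 5) (nat_lit 29) (nat_lit 5) (nat_lit 30) (nat_lit 4) (nat_lit 372) (nat_lit 360) (nat_lit 288)) (XT.lf (nat_lit 0) (nat_lit 170949618735) (nat_lit 76) (nat_lit 15399641362) (nat_lit 152) (nat_lit 873667605) (nat_lit 28) (nat_lit 5) (nat_lit 29) (nat_lit 5) (nat_lit 30) (nat_lit 4) (nat_lit 373) (nat_lit 360) (nat_lit 287))))))))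
noncomputable def xc81 : XT := (XT.nd (nat_lit 1950) (nat_lit 456) (nat_lit 0) (XT.nd (nat_lit 936) (nat_lit 684) (nat_lit 0) (XT.nd (nat_lit 468) (nat_lit 456) (nat_lit 0) (XT.nd (nat_lit 234) (nat_lit 228) (nat_lit 0) (XT.nd (nat_lit 78) (nat_lit 76) (nat_lit 0) (XT.lf (nat_lit 0) (nat_lit 47222879848) (nat_lit 152) (nat_lit 98212026813) (nat_lit 76) (nat_lit 58733143853) (nat_lit 26) (nat_lit 5) (nat_lit 28) (nat_lit 5) (nat_lit 27) (nat_lit 4) (nat_lit 374) (nat_lit 360) (nat_lit 286)) (XT.nd (nat_lit 78) (nat_lit 0) (nat_lit 0) (XT.lf (nat_lit 0) (nat_lit 26350566286) (nat_lit 76) (nat_lit 78808794034) (nat_lit 152) (nat_lit 118082106415) (nat_lit 25) (nat_lit 5) (nat_lit 26) (nat_lit 5) (nat_lit 27) (nat_lit 4) (nat_lit 375) (nat_lit 360) (nat_lit 285)) (XT.lf (nat_lit 0) (nat_lit 177073282832) (nat_lit 152) (nat_lit 63925665885) (nat_lit 0) (nat_lit 3383901299) (nat_lit 25) (nat_lit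 5) (nat_lit 27) (nat_lit 4) (nat_lit 25) (nat_lit 4) (nat_lit 376) (nat_lit 360) (nat_lit 284)))) (XT.nd (nat_lit 78) (nat_lit 152) (nat_lit 0) (XT.lf (nat_lit 0) (nat_lit 93559810324) (nat_lit 76) (nat_lit 173840807848) (nat_lit 76) (nat_lit 150874058) (nat_lit 24) (nat_lit 4) (nat_lit 25) (nat_lit 5) (nat_lit 25) (nat_lit 4) (nat_lit 377) (nat_lit 360) (nat_lit 283)) (XT.nd (nat_lit 78) (nat_lit 76) (nat_lit 0) (XT.lf (nat_lit 0) (nat_lit 73719394944) (nat_lit 152) (nat_lit 15193714882) (nat_lit 76) (nat_lit 204278536533) (nat_lit 23) (nat_lit 5) (nat_lit 25) (nat_lit 5) (nat_lit 24) (nat_lit 4) (nat_lit 378) (nat_lit 360) (nat_lit 282)) (XT.lf (nat_lit 0) (nat_lit 166989232188) (nat_lit 152) (nat_lit 138483616190) (nat_lit 0) (nat_lit 15953726450) (nat_lit 22) (nat_lit 5) (nat_lit 24) (nat_lit 4) (nat_lit 22) (nat_lit 4) (nat_lit 379) (nat_lit 360) (nat_lit 281))))) (XT.nd (nat_lit 234)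 (nat_lit 228) (nat_lit 0) (XT.nd (nat_lit 78) (nat_lit 152) (nat_lit 0) (XT.lf (nat_lit 0) (nat_lit 59779319948) (nat_lit 76) (nat_lit 222011059505) (nat_lit 76) (nat_lit 70975238012) (nat_lit 21) (nat_lit 4) (nat_lit 22) (nat_lit 5) (nat_lit 22) (nat_lit 4) (nat_lit 380) (nat_lit 360) (nat_lit 280)) (XT.nd (nat_lit 78) (nat_lit 76) (nat_lit 0) (XT.lf (nat_lit 0) (nat_lit 30363095703) (nat_lit 152) (nat_lit 85755440299) (nat_lit 76) (nat_lit 271394192139) (nat_lit 20) (nat_lit 5) (nat_lit 22) (nat_lit 5) (nat_lit 21) (nat_lit 4) (nat_lit 381) (nat_lit 360) (nat_lit 279)) (XT.lf (nat_lit 0) (nat_lit 147134228169) (nat_lit 152) (nat_lit 262907642283) (nat_lit 0) (nat_lit 15798284848) (nat_lit 19) (nat_lit 5) (nat_lit 21) (nat_lit 4) (nat_lit 19) (nat_lit 4) (nat_lit 382) (nat_lit 360) (nat_lit 278)))) (XT.nd (nat_lit 78) (nat_lit 228) (nat_lit 0) (XT.lf (nat_lit 0) (nat_lit 291646195781)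 (nat_lit 152) (nat_lit 16426654068) (nat_lit 0) (nat_lit 160310071926) (nat_lit 19) (nat_lit 5) (nat_lit 21) (nat_lit 4) (nat_lit 19) (nat_lit 4) (nat_lit 383) (nat_lit 360) (nat_lit 277)) (XT.nd (nat_lit 78) (nat_lit 152) (nat_lit 0) (XT.lf (nat_lit 0) (nat_lit 293121445685) (nat_lit 76) (nat_lit 176850681552) (nat_lit 76) (nat_lit 45514400711) (nat_lit 18) (nat_lit 4) (nat_lit 19) (nat_lit 5) (nat_lit 19) (nat_lit 4) (nat_lit 384) (nat_lit 360) (nat_lit 276)) (XT.lf (nat_lit 0) (nat_lit 84541864995) (nat_lit 76) (nat_lit 15866638420) (nat_lit 152) (nat_lit 467932583973) (nat_lit 16) (nat_lit 5) (nat_lit 17) (nat_lit 5) (nat_lit 18) (nat_lit 4) (nat_lit 385) (nat_lit 360) (nat_lit 275)))))) (XT.nd (nat_lit 468) (nat_lit 380) (nat_lit 0) (XT.nd (nat_lit 234) (nat_lit 228) (nat_lit 0) (XT.nd (nat_lit 78) (nat_lit 76) (nat_lit 0) (XT.lf (nat_lit 0) (nat_lit 282745714283) (nat_lit 152) (nat_lit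 174635131040) (nat_lit 0) (nat_lit 168540030757) (nat_lit 16) (nat_lit 5) (nat_lit 18) (nat_lit 4) (nat_lit 16) (nat_lit 4) (nat_lit 386) (nat_lit 360) (nat_lit 274)) (XT.nd (nat_lit 78) (nat_lit 0) (nat_lit 0) (XT.lf (nat_lit 0) (nat_lit 197752687814) (nat_lit 76) (nat_lit 303624577399) (nat_lit 76) (nat_lit 189418804116) (nat_lit 15) (nat_lit 4) (nat_lit 16) (nat_lit 5) (nat_lit 16) (nat_lit 4) (nat_lit 387) (nat_lit 360) (nat_lit 273)) (XT.lf (nat_lit 0) (nat_lit 645624672356) (nat_lit 76) (nat_lit 116307233497) (nat_lit 76) (nat_lit 2101382165) (nat_lit 15) (nat_lit 4) (nat_lit 16) (nat_lit 5) (nat_lit 16) (nat_lit 4) (nat_lit 388) (nat_lit 360) (nat_lit 272)))) (XT.nd (nat_lit 78) (nat_lit 76) (nat_lit 0) (XT.lf (nat_lit 0) (nat_lit 213303733721) (nat_lit 152) (nat_lit 516786076948) (nat_lit 0) (nat_lit 113994238763) (nat_lit 13) (nat_lit 5) (nat_lit 15) (nat_lit 4) (nat_lit 13) (nat_lit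 4) (nat_lit 389) (nat_lit 360) (nat_lit 271)) (XT.nd (nat_lit 78) (nat_lit 76) (nat_lit 0) (XT.lf (nat_lit 0) (nat_lit 472826927170) (nat_lit 152) (nat_lit 87979739379) (nat_lit 0) (nat_lit 373517380893) (nat_lit 13) (nat_lit 5) (nat_lit 15) (nat_lit 4) (nat_lit 13) (nat_lit 4) (nat_lit 390) (nat_lit 360) (nat_lit 270)) (XT.lf (nat_lit 0) (nat_lit 444740976859) (nat_lit 76) (nat_lit 344953164010) (nat_lit 76) (nat_lit 245643573108) (nat_lit 12) (nat_lit 4) (nat_lit 13) (nat_lit 5) (nat_lit 13) (nat_lit 4) (nat_lit 391) (nat_lit 360) (nat_lit 269))))) (XT.nd (nat_lit 234) (nat_lit 228) (nat_lit 0) (XT.nd (nat_lit 78) (nat_lit 76) (nat_lit 0) (XT.lf (nat_lit 0) (nat_lit 7175308420) (nat_lit 152) (nat_lit 83882716603) (nat_lit 76) (nat_lit 1059706675229) (nat_lit 11) (nat_lit 5) (nat_lit 13) (nat_lit 5) (nat_lit 12) (nat_lit 4) (nat_lit 392) (nat_lit 360) (nat_lit 268)) (XT.nd (nat_lit 78)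 (nat_lit 0) (nat_lit 0) (XT.lf (nat_lit 0) (nat_lit 304841502503) (nat_lit 152) (nat_lit 753613306112) (nat_lit 0) (nat_lit 218485273416) (nat_lit 10) (nat_lit 5) (nat_lit 12) (nat_lit 4) (nat_lit 10) (nat_lit 4) (nat_lit 393) (nat_lit 360) (nat_lit 267)) (XT.lf (nat_lit 0) (nat_lit 656087097162) (nat_lit 152) (nat_lit 194884410639) (nat_lit 0) (nat_lit 569730842561) (nat_lit 10) (nat_lit 5) (nat_lit 12) (nat_lit 4) (nat_lit 10) (nat_lit 4) (nat_lit 394) (nat_lit 360) (nat_lit 266)))) (XT.nd (nat_lit 156) (nat_lit 152) (nat_lit 0) (XT.nd (nat_lit 78) (nat_lit 0) (nat_lit 0) (XT.lf (nat_lit 0) (nat_lit 491401398694) (nat_lit 76) (nat_lit 588965840414) (nat_lit 76) (nat_lit 502609563626) (nat_lit 9) (nat_lit 4) (nat_lit 10) (nat_lit 5) (nat_lit 10) (nat_lit 4) (nat_lit 395) (nat_lit 360) (nat_lit 265)) (XT.lf (nat_lit 0) (nat_lit 1302532075467) (nat_lit 76) (nat_lit 275944298889) (nat_lit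 76) (nat_lit 189588002808) (nat_lit 9) (nat_lit 4) (nat_lit 10) (nat_lit 5) (nat_lit 10) (nat_lit 4) (nat_lit 396) (nat_lit 360) (nat_lit 264))) (XT.nd (nat_lit 78) (nat_lit 0) (nat_lit 0) (XT.lf (nat_lit 0) (nat_lit 170812237142) (nat_lit 152) (nat_lit 1710985588060) (nat_lit 0) (nat_lit 95719791180) (nat_lit 7) (nat_lit 5) (nat_lit 9) (nat_lit 4) (nat_lit 7) (nat_lit 4) (nat_lit 397) (nat_lit 360) (nat_lit 263)) (XT.lf (nat_lit 0) (nat_lit 604495800780) (nat_lit 152) (nat_lit 1077340475355) (nat_lit 0) (nat_lit 529403342132) (nat_lit 7) (nat_lit 5) (nat_lit 9) (nat_lit 4) (nat_lit 7) (nat_lit 4) (nat_lit 398) (nat_lit 360) (nat_lit 262))))))) (XT.nd (nat_lit 1014) (nat_lit 152) (nat_lit 0) (XT.nd (nat_lit 468) (nat_lit 76) (nat_lit 0) (XT.nd (nat_lit 234) (nat_lit 152) (nat_lit 0) (XT.nd (nat_lit 78) (nat_lit 76) (nat_lit 0) (XT.lf (nat_lit 0) (nat_lit 1103231766530) (nat_lit 152) (nat_lit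 348648876919) (nat_lit 0) (nat_lit 1028139296852) (nat_lit 7) (nat_lit 5) (nat_lit 9) (nat_lit 4) (nat_lit 7) (nat_lit 4) (nat_lit 399) (nat_lit 360) (nat_lit 261)) (XT.nd (nat_lit 78) (nat_lit 0) (nat_lit 0) (XT.lf (nat_lit 0) (nat_lit 537168687968) (nat_lit 76) (nat_lit 1161852333871) (nat_lit 76) (nat_lit 1086759854600) (nat_lit 6) (nat_lit 4) (nat_lit 7) (nat_lit 5) (nat_lit 7) (nat_lit 4) (nat_lit 400) (nat_lit 360) (nat_lit 260)) (XT.lf (nat_lit 0) (nat_lit 1595042033666) (nat_lit 76) (nat_lit 807361349633) (nat_lit 76) (nat_lit 732268862022) (nat_lit 6) (nat_lit 4) (nat_lit 7) (nat_lit 5) (nat_lit 7) (nat_lit 4) (nat_lit 401) (nat_lit 360) (nat_lit 259)))) (XT.nd (nat_lit 78) (nat_lit 152) (nat_lit 0) (XT.lf (nat_lit 0) (nat_lit 2811596178275) (nat_lit 76) (nat_lit 399696825223) (nat_lit 76) (nat_lit 324604330359) (nat_lit 6) (nat_lit 4) (nat_lit 7) (nat_lit 5) (nat_lit 7) (nat_lit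 4) (nat_lit 402) (nat_lit 360) (nat_lit 258)) (XT.nd (nat_lit 78) (nat_lit 0) (nat_lit 0) (XT.lf (nat_lit 0) (nat_lit 144391664489) (nat_lit 152) (nat_lit 3770971918615) (nat_lit 0) (nat_lit 79093837384) (nat_lit 4) (nat_lit 5) (nat_lit 6) (nat_lit 4) (nat_lit 4) (nat_lit 4) (nat_lit 403) (nat_lit 360) (nat_lit 257)) (XT.lf (nat_lit 0) (nat_lit 709200964308) (nat_lit 152) (nat_lit 3157574240078) (nat_lit 0) (nat_lit 643903132434) (nat_lit 4) (nat_lit 5) (nat_lit 6) (nat_lit 4) (nat_lit 4) (nat_lit 4) (nat_lit 404) (nat_lit 360) (nat_lit 256))))) (XT.nd (nat_lit 234) (nat_lit 76) (nat_lit 0) (XT.nd (nat_lit 78) (nat_lit 0) (nat_lit 0) (XT.lf (nat_lit 0) (nat_lit 1358731583601) (nat_lit 152) (nat_lit 2452167070745) (nat_lit 0) (nat_lit 1293433747580) (nat_lit 4) (nat_lit 5) (nat_lit 6) (nat_lit 4) (nat_lit 4) (nat_lit 4) (nat_lit 405) (nat_lit 360) (nat_lit 255)) (XT.nd (nat_lit 78) (nat_lit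 0) (nat_lit 0) (XT.lf (nat_lit 0) (nat_lit 2105691730138) (nat_lit 152) (nat_lit 1640948965999) (nat_lit 0) (nat_lit 2040393890511) (nat_lit 4) (nat_lit 5) (nat_lit 6) (nat_lit 4) (nat_lit 4) (nat_lit 4) (nat_lit 406) (nat_lit 360) (nat_lit 254)) (XT.lf (nat_lit 0) (nat_lit 2964695841567) (nat_lit 152) (nat_lit 708048267270) (nat_lit 0) (nat_lit 2899397998804) (nat_lit 4) (nat_lit 5) (nat_lit 6) (nat_lit 4) (nat_lit 4) (nat_lit 4) (nat_lit 407) (nat_lit 360) (nat_lit 253)))) (XT.nd (nat_lit 156) (nat_lit 0) (nat_lit 0) (XT.nd (nat_lit 78) (nat_lit 0) (nat_lit 0) (XT.lf (nat_lit 0) (nat_lit 400437111118) (nat_lit 76) (nat_lit 3568694655788) (nat_lit 76) (nat_lit 3503396810299) (nat_lit 3) (nat_lit 4) (nat_lit 4) (nat_lit 5) (nat_lit 4) (nat_lit 4) (nat_lit 408) (nat_lit 360) (nat_lit 252)) (XT.lf (nat_lit 0) (nat_lit 1754770165263) (nat_lit 76) (nat_lit 3406474482403) (nat_lit 76) (nat_lit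 3341176634543) (nat_lit 3) (nat_lit 4) (nat_lit 4) (nat_lit 5) (nat_lit 4) (nat_lit 4) (nat_lit 409) (nat_lit 360) (nat_lit 251))) (XT.nd (nat_lit 78) (nat_lit 0) (nat_lit 0) (XT.lf (nat_lit 0) (nat_lit 3312253089670) (nat_lit 76) (nat_lit 3219921329697) (nat_lit 76) (nat_lit 3154623479775) (nat_lit 3) (nat_lit 4) (nat_lit 4) (nat_lit 5) (nat_lit 4) (nat_lit 4) (nat_lit 410) (nat_lit 360) (nat_lit 250)) (XT.lf (nat_lit 0) (nat_lit 5103358376339) (nat_lit 76) (nat_lit 3005385244681) (nat_lit 76) (nat_lit 2940087392966) (nat_lit 3) (nat_lit 4) (nat_lit 4) (nat_lit 5) (nat_lit 4) (nat_lit 4) (nat_lit 411) (nat_lit 360) (nat_lit 249)))))) (XT.nd (nat_lit 468) (nat_lit 152) (nat_lit 0) (XT.nd (nat_lit 234) (nat_lit 0) (nat_lit 0) (XT.nd (nat_lit 78) (nat_lit 0) (nat_lit 0) (XT.lf (nat_lit 0) (nat_lit 7163129389572) (nat_lit 76) (nat_lit 2758668782213) (nat_lit 76) (nat_lit 2693370928940) (nat_lit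 3) (nat_lit 4) (nat_lit 4) (nat_lit 5) (nat_lit 4) (nat_lit 4) (nat_lit 412) (nat_lit 360) (nat_lit 248)) (XT.nd (nat_lit 78) (nat_lit 0) (nat_lit 0) (XT.lf (nat_lit 0) (nat_lit 9531865997022) (nat_lit 76) (nat_lit 2474944881072) (nat_lit 76) (nat_lit 2409647026443) (nat_lit 3) (nat_lit 4) (nat_lit 4) (nat_lit 5) (nat_lit 4) (nat_lit 4) (nat_lit 413) (nat_lit 360) (nat_lit 247)) (XT.lf (nat_lit 0) (nat_lit 12255913045355) (nat_lit 76) (nat_lit 2148662421453) (nat_lit 76) (nat_lit 2083364565645) (nat_lit 3) (nat_lit 4) (nat_lit 4) (nat_lit 5) (nat_lit 4) (nat_lit 4) (nat_lit 414) (nat_lit 360) (nat_lit 246)))) (XT.nd (nat_lit 78) (nat_lit 0) (nat_lit 0) (XT.lf (nat_lit 0) (nat_lit 15388567107255) (nat_lit 76) (nat_lit 1773437616102) (nat_lit 76) (nat_lit 1708139759269) (nat_lit 3) (nat_lit 4) (nat_lit 4) (nat_lit 5) (nat_lit 4) (nat_lit 4) (nat_lit 415) (nat_lit 360) (nat_lit 245)) (XT.nd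 (nat_lit 78) (nat_lit 0) (nat_lit 0) (XT.lf (nat_lit 0) (nat_lit 18991119240457) (nat_lit 76) (nat_lit 1341929110132) (nat_lit 76) (nat_lit 1276631252408) (nat_lit 3) (nat_lit 4) (nat_lit 4) (nat_lit 5) (nat_lit 4) (nat_lit 4) (nat_lit 416) (nat_lit 360) (nat_lit 244)) (XT.lf (nat_lit 0) (nat_lit 23134054160609) (nat_lit 76) (nat_lit 845694345817) (nat_lit 76) (nat_lit 780396487318) (nat_lit 3) (nat_lit 4) (nat_lit 4) (nat_lit 5) (nat_lit 4) (nat_lit 4) (nat_lit 417) (nat_lit 360) (nat_lit 243))))) (XT.nd (nat_lit 234) (nat_lit 0) (nat_lit 0) (XT.nd (nat_lit 78) (nat_lit 152) (nat_lit 0) (XT.lf (nat_lit 0) (nat_lit 27898429290062) (nat_lit 76) (nat_lit 275024382117) (nat_lit 76) (nat_lit 209726522944) (nat_lit 3) (nat_lit 4) (nat_lit 4) (nat_lit 5) (nat_lit 4) (nat_lit 4) (nat_lit 418) (nat_lit 360) (nat_lit 242)) (XT.nd (nat_lit 78) (nat_lit 0) (nat_lit 0) (XT.lf (nat_lit 0) (nat_lit 461994651923)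 (nat_lit 152) (nat_lit 31671407783921) (nat_lit 0) (nat_lit 405213904306) (nat_lit 1) (nat_lit 5) (nat_lit 3) (nat_lit 4) (nat_lit 1) (nat_lit 4) (nat_lit 419) (nat_lit 360) (nat_lit 241)) (XT.lf (nat_lit 0) (nat_lit 1252644271660) (nat_lit 152) (nat_lit 34861415724607) (nat_lit 0) (nat_lit 1195863523600) (nat_lit 1) (nat_lit 5) (nat_lit 3) (nat_lit 4) (nat_lit 1) (nat_lit 4) (nat_lit 420) (nat_lit 360) (nat_lit 240)))) (XT.nd (nat_lit 156) (nat_lit 0) (nat_lit 0) (XT.nd (nat_lit 78) (nat_lit 0) (nat_lit 0) (XT.lf (nat_lit 0) (nat_lit 2161891323708) (nat_lit 152) (nat_lit 38529924879169) (nat_lit 0) (nat_lit 2105110575263) (nat_lit 1) (nat_lit 5) (nat_lit 3) (nat_lit 4) (nat_lit 1) (nat_lit 4) (nat_lit 421) (nat_lit 360) (nat_lit 239)) (XT.lf (nat_lit 0) (nat_lit 3207525424302) (nat_lit 152) (nat_lit 42748710426718) (nat_lit 0) (nat_lit 3150744675522) (nat_lit 1) (nat_lit 5) (nat_lit 3)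 (nat_lit 4) (nat_lit 1) (nat_lit 4) (nat_lit 422) (nat_lit 360) (nat_lit 238))) (XT.nd (nat_lit 78) (nat_lit 0) (nat_lit 0) (XT.lf (nat_lit 0) (nat_lit 4410004631934) (nat_lit 152) (nat_lit 47600313823618) (nat_lit 0) (nat_lit 4353223882862) (nat_lit 1) (nat_lit 5) (nat_lit 3) (nat_lit 4) (nat_lit 1) (nat_lit 4) (nat_lit 423) (nat_lit 360) (nat_lit 237)) (XT.lf (nat_lit 0) (nat_lit 5792855713707) (nat_lit 152) (nat_lit 53179657745027) (nat_lit 0) (nat_lit 5736074964382) (nat_lit 1) (nat_lit 5) (nat_lit 3) (nat_lit 4) (nat_lit 1) (nat_lit 4) (nat_lit 424) (nat_lit 360) (nat_lit 236))))))))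
noncomputable def xc82 : XT := (XT.nd (nat_lit 49140) (nat_lit 0) (nat_lit 456) (XT.nd (nat_lit 48126) (nat_lit 0) (nat_lit 2052) (XT.nd (nat_lit 702) (nat_lit 0) (nat_lit 0) (XT.nd (nat_lit 234) (nat_lit 0) (nat_lit 0) (XT.nd (nat_lit 78) (nat_lit 0) (nat_lit 0) (XT.lf (nat_lit 0) (nat_lit 7383134451658) (nat_lit 152) (nat_lit 59595903267667) (nat_lit 0) (nat_lit 7326353702112) (nat_lit 1) (nat_lit 5) (nat_lit 3) (nat_lit 4) (nat_lit 1) (nat_lit 4) (nat_lit 425) (nat_lit 360) (nat_lit 235)) (XT.nd (nat_lit 78) (nat_lit 0) (nat_lit 0) (XT.lf (nat_lit 0) (nat_lit 9211954995006) (nat_lit 152) (nat_lit 66974585630026) (nat_lit 0) (nat_lit 9155174245269) (nat_lit 1) (nat_lit 5) (nat_lit 3) (nat_lit 4) (nat_lit 1) (nat_lit 4) (nat_lit 426) (nat_lit 360) (nat_lit 234)) (XT.lf (nat_lit 0) (nat_lit 11315098615253) (nat_lit 152) (nat_lit 75460070356583) (nat_lit 0) (nat_lit 11258317865349) (nat_lit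 1) (nat_lit 5) (nat_lit 3) (nat_lit 4) (nat_lit 1) (nat_lit 4) (nat_lit 427) (nat_lit 360) (nat_lit 233)))) (XT.nd (nat_lit 78) (nat_lit 0) (nat_lit 0) (XT.lf (nat_lit 0) (nat_lit 13733713774533) (nat_lit 152) (nat_lit 85218377800684) (nat_lit 0) (nat_lit 13676933024484) (nat_lit 1) (nat_lit 5) (nat_lit 3) (nat_lit 4) (nat_lit 1) (nat_lit 4) (nat_lit 428) (nat_lit 360) (nat_lit 232)) (XT.nd (nat_lit 78) (nat_lit 0) (nat_lit 0) (XT.lf (nat_lit 0) (nat_lit 16515121204223) (nat_lit 152) (nat_lit 96440431368846) (nat_lit 0) (nat_lit 16458340454049) (nat_lit 1) (nat_lit 5) (nat_lit 3) (nat_lit 4) (nat_lit 1) (nat_lit 4) (nat_lit 429) (nat_lit 360) (nat_lit 231)) (XT.lf (nat_lit 0) (nat_lit 19713739745340) (nat_lit 152) (nat_lit 109345792978705) (nat_lit 0) (nat_lit 19656958995056) (nat_lit 1) (nat_lit 5) (nat_lit 3) (nat_lit 4) (nat_lit 1) (nat_lit 4) (nat_lit 430) (nat_lit 360) (nat_lit 230)))))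 (XT.nd (nat_lit 234) (nat_lit 0) (nat_lit 0) (XT.nd (nat_lit 78) (nat_lit 0) (nat_lit 0) (XT.lf (nat_lit 0) (nat_lit 38081426854648) (nat_lit 152) (nat_lit 183453299569586) (nat_lit 0) (nat_lit 38024646104051) (nat_lit 1) (nat_lit 5) (nat_lit 3) (nat_lit 4) (nat_lit 1) (nat_lit 4) (nat_lit 434) (nat_lit 360) (nat_lit 226)) (XT.nd (nat_lit 78) (nat_lit 0) (nat_lit 0) (XT.lf (nat_lit 0) (nat_lit 44514991233180) (nat_lit 152) (nat_lit 209410591431256) (nat_lit 0) (nat_lit 44458210482529) (nat_lit 1) (nat_lit 5) (nat_lit 3) (nat_lit 4) (nat_lit 1) (nat_lit 4) (nat_lit 435) (nat_lit 360) (nat_lit 225)) (XT.lf (nat_lit 0) (nat_lit 51913590267184) (nat_lit 152) (nat_lit 239261477074976) (nat_lit 0) (nat_lit 51856809516486) (nat_lit 1) (nat_lit 5) (nat_lit 3) (nat_lit 4) (nat_lit 1) (nat_lit 4) (nat_lit 436) (nat_lit 360) (nat_lit 224)))) (XT.nd (nat_lit 78) (nat_lit 0) (nat_lit 0) (XT.lf (nat_lit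 0) (nat_lit 60421979155150) (nat_lit 152) (nat_lit 273589995567686) (nat_lit 0) (nat_lit 60365198404411) (nat_lit 1) (nat_lit 5) (nat_lit 3) (nat_lit 4) (nat_lit 1) (nat_lit 4) (nat_lit 437) (nat_lit 360) (nat_lit 223)) (XT.nd (nat_lit 78) (nat_lit 0) (nat_lit 0) (XT.lf (nat_lit 0) (nat_lit 70206626375321) (nat_lit 152) (nat_lit 313067791836419) (nat_lit 0) (nat_lit 70149845624546) (nat_lit 1) (nat_lit 5) (nat_lit 3) (nat_lit 4) (nat_lit 1) (nat_lit 4) (nat_lit 438) (nat_lit 360) (nat_lit 222)) (XT.lf (nat_lit 0) (nat_lit 81458970677658) (nat_lit 152) (nat_lit 358467257547302) (nat_lit 0) (nat_lit 81402189926852) (nat_lit 1) (nat_lit 5) (nat_lit 3) (nat_lit 4) (nat_lit 1) (nat_lit 4) (nat_lit 439) (nat_lit 360) (nat_lit 221)))))) (XT.nd (nat_lit 468) (nat_lit 532) (nat_lit 0) (XT.nd (nat_lit 234) (nat_lit 152) (nat_lit 0) (XT.nd (nat_lit 78) (nat_lit 0) (nat_lit 0) (XT.lf (nat_lit 0) (nat_lit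 10969568255) (nat_lit 380) (nat_lit 13584703295) (nat_lit 380) (nat_lit 13584703295) (nat_lit 37) (nat_lit 3) (nat_lit 42) (nat_lit 3) (nat_lit 42) (nat_lit 5) (nat_lit 361) (nat_lit 361) (nat_lit 298)) (XT.nd (nat_lit 78) (nat_lit 0) (nat_lit 76) (XT.lf (nat_lit 76) (nat_lit 11689515361) (nat_lit 0) (nat_lit 12389508084) (nat_lit 380) (nat_lit 57845599808) (nat_lit 38) (nat_lit 5) (nat_lit 37) (nat_lit 3) (nat_lit 42) (nat_lit 5) (nat_lit 362) (nat_lit 361) (nat_lit 297)) (XT.lf (nat_lit 0) (nat_lit 29261371849) (nat_lit 304) (nat_lit 30079137860) (nat_lit 380) (nat_lit 28669567247) (nat_lit 38) (nat_lit 5) (nat_lit 42) (nat_lit 5) (nat_lit 43) (nat_lit 5) (nat_lit 363) (nat_lit 361) (nat_lit 296)))) (XT.nd (nat_lit 78) (nat_lit 228) (nat_lit 0) (XT.lf (nat_lit 76) (nat_lit 17024605818) (nat_lit 0) (nat_lit 19489767724) (nat_lit 380) (nat_lit 58299980780) (nat_lit 39) (nat_lit 5) (nat_lit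 38) (nat_lit 5) (nat_lit 43) (nat_lit 5) (nat_lit 364) (nat_lit 361) (nat_lit 295)) (XT.nd (nat_lit 78) (nat_lit 304) (nat_lit 0) (XT.lf (nat_lit 0) (nat_lit 47591683731) (nat_lit 304) (nat_lit 28995991452) (nat_lit 76) (nat_lit 25641145035) (nat_lit 39) (nat_lit 5) (nat_lit 43) (nat_lit 5) (nat_lit 40) (nat_lit 5) (nat_lit 365) (nat_lit 361) (nat_lit 294)) (XT.lf (nat_lit 0) (nat_lit 28746701244) (nat_lit 304) (nat_lit 33701045756) (nat_lit 380) (nat_lit 47990136090) (nat_lit 35) (nat_lit 5) (nat_lit 39) (nat_lit 5) (nat_lit 40) (nat_lit 5) (nat_lit 366) (nat_lit 361) (nat_lit 293))))) (XT.nd (nat_lit 234) (nat_lit 380) (nat_lit 0) (XT.nd (nat_lit 78) (nat_lit 152) (nat_lit 0) (XT.lf (nat_lit 0) (nat_lit 81765672578) (nat_lit 380) (nat_lit 21961693425) (nat_lit 76) (nat_lit 15815921968) (nat_lit 35) (nat_lit 5) (nat_lit 40) (nat_lit 5) (nat_lit 36) (nat_lit 5) (nat_lit 367) (nat_lit 361)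 (nat_lit 292)) (XT.nd (nat_lit 78) (nat_lit 0) (nat_lit 0) (XT.lf (nat_lit 0) (nat_lit 49530772650) (nat_lit 152) (nat_lit 58105285439) (nat_lit 228) (nat_lit 21830230267) (nat_lit 33) (nat_lit 5) (nat_lit 35) (nat_lit 5) (nat_lit 36) (nat_lit 5) (nat_lit 368) (nat_lit 361) (nat_lit 291)) (XT.lf (nat_lit 0) (nat_lit 134214152511) (nat_lit 152) (nat_lit 4319925582) (nat_lit 228) (nat_lit 2171599582) (nat_lit 33) (nat_lit 5) (nat_lit 35) (nat_lit 5) (nat_lit 36) (nat_lit 5) (nat_lit 369) (nat_lit 361) (nat_lit 290)))) (XT.nd (nat_lit 156) (nat_lit 76) (nat_lit 0) (XT.nd (nat_lit 78) (nat_lit 152) (nat_lit 0) (XT.lf (nat_lit 0) (nat_lit 24710727526) (nat_lit 152) (nat_lit 70909207215) (nat_lit 76) (nat_lit 56969974291) (nat_lit 31) (nat_lit 5) (nat_lit 33) (nat_lit 5) (nat_lit 32) (nat_lit 5) (nat_lit 370) (nat_lit 361) (nat_lit 289)) (XT.lf (nat_lit 0) (nat_lit 18964367176) (nat_lit 152)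 (nat_lit 37784395700) (nat_lit 228) (nat_lit 109290647600) (nat_lit 29) (nat_lit 5) (nat_lit 31) (nat_lit 5) (nat_lit 32) (nat_lit 5) (nat_lit 371) (nat_lit 361) (nat_lit 288))) (XT.nd (nat_lit 78) (nat_lit 76) (nat_lit 0) (XT.lf (nat_lit 0) (nat_lit 98664387596) (nat_lit 228) (nat_lit 52029328117) (nat_lit 76) (nat_lit 30051839028) (nat_lit 29) (nat_lit 5) (nat_lit 32) (nat_lit 5) (nat_lit 30) (nat_lit 4) (nat_lit 372) (nat_lit 361) (nat_lit 287)) (XT.lf (nat_lit 0) (nat_lit 60894180950) (nat_lit 76) (nat_lit 90293285648) (nat_lit 152) (nat_lit 45822137651) (nat_lit 28) (nat_lit 5) (nat_lit 29) (nat_lit 5) (nat_lit 30) (nat_lit 4) (nat_lit 373) (nat_lit 361) (nat_lit 286))))))) (XT.nd (nat_lit 1014) (nat_lit 684) (nat_lit 0) (XT.nd (nat_lit 468) (nat_lit 532) (nat_lit 0) (XT.nd (nat_lit 234) (nat_lit 152) (nat_lit 0) (XT.nd (nat_lit 78) (nat_lit 228) (nat_lit 0) (XT.lf (nat_lit 0) (nat_lit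 196602622542) (nat_lit 76) (nat_lit 17705498704) (nat_lit 152) (nat_lit 997273031) (nat_lit 28) (nat_lit 5) (nat_lit 29) (nat_lit 5) (nat_lit 30) (nat_lit 4) (nat_lit 374) (nat_lit 361) (nat_lit 285)) (XT.nd (nat_lit 78) (nat_lit 76) (nat_lit 0) (XT.lf (nat_lit 0) (nat_lit 54312833968) (nat_lit 152) (nat_lit 112932344405) (nat_lit 76) (nat_lit 67547100066) (nat_lit 26) (nat_lit 5) (nat_lit 28) (nat_lit 5) (nat_lit 27) (nat_lit 4) (nat_lit 375) (nat_lit 361) (nat_lit 284)) (XT.lf (nat_lit 0) (nat_lit 30314115548) (nat_lit 76) (nat_lit 90625274256) (nat_lit 152) (nat_lit 135787376967) (nat_lit 25) (nat_lit 5) (nat_lit 26) (nat_lit 5) (nat_lit 27) (nat_lit 4) (nat_lit 376) (nat_lit 361) (nat_lit 283)))) (XT.nd (nat_lit 78) (nat_lit 152) (nat_lit 0) (XT.lf (nat_lit 0) (nat_lit 203639775957) (nat_lit 152) (nat_lit 73504355832) (nat_lit 0) (nat_lit 3895319618) (nat_lit 25) (nat_lit 5) (nat_lit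 27) (nat_lit 4) (nat_lit 25) (nat_lit 4) (nat_lit 377) (nat_lit 361) (nat_lit 282)) (XT.nd (nat_lit 78) (nat_lit 76) (nat_lit 0) (XT.lf (nat_lit 0) (nat_lit 107603479992) (nat_lit 76) (nat_lit 199912415701) (nat_lit 76) (nat_lit 167541776) (nat_lit 24) (nat_lit 4) (nat_lit 25) (nat_lit 5) (nat_lit 25) (nat_lit 4) (nat_lit 378) (nat_lit 361) (nat_lit 281)) (XT.lf (nat_lit 0) (nat_lit 84782028088) (nat_lit 152) (nat_lit 17463876651) (nat_lit 76) (nat_lit 234923779326) (nat_lit 23) (nat_lit 5) (nat_lit 25) (nat_lit 5) (nat_lit 24) (nat_lit 4) (nat_lit 379) (nat_lit 361) (nat_lit 280))))) (XT.nd (nat_lit 234) (nat_lit 304) (nat_lit 0) (XT.nd (nat_lit 78) (nat_lit 152) (nat_lit 0) (XT.lf (nat_lit 0) (nat_lit 192042243305) (nat_lit 152) (nat_lit 159247164965) (nat_lit 0) (nat_lit 18350458264) (nat_lit 22) (nat_lit 5) (nat_lit 24) (nat_lit 4) (nat_lit 22) (nat_lit 4) (nat_lit 380) (nat_lit 361)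 (nat_lit 279)) (XT.nd (nat_lit 78) (nat_lit 76) (nat_lit 0) (XT.lf (nat_lit 0) (nat_lit 68754802791) (nat_lit 76) (nat_lit 255308511920) (nat_lit 76) (nat_lit 81616488122) (nat_lit 21) (nat_lit 4) (nat_lit 22) (nat_lit 5) (nat_lit 22) (nat_lit 4) (nat_lit 381) (nat_lit 361) (nat_lit 278)) (XT.lf (nat_lit 0) (nat_lit 34921549005) (nat_lit 152) (nat_lit 98610901049) (nat_lit 76) (nat_lit 312106588588) (nat_lit 20) (nat_lit 5) (nat_lit 22) (nat_lit 5) (nat_lit 21) (nat_lit 4) (nat_lit 382) (nat_lit 361) (nat_lit 277)))) (XT.nd (nat_lit 156) (nat_lit 228) (nat_lit 0) (XT.nd (nat_lit 78) (nat_lit 0) (nat_lit 0) (XT.lf (nat_lit 0) (nat_lit 169208295529) (nat_lit 152) (nat_lit 302335877190) (nat_lit 0) (nat_lit 18171415576) (nat_lit 19) (nat_lit 5) (nat_lit 21) (nat_lit 4) (nat_lit 19) (nat_lit 4) (nat_lit 383) (nat_lit 361) (nat_lit 276)) (XT.lf (nat_lit 0) (nat_lit 335396545266) (nat_lit 152)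 (nat_lit 18883772670) (nat_lit 0) (nat_lit 184359528804) (nat_lit 19) (nat_lit 5) (nat_lit 21) (nat_lit 4) (nat_lit 19) (nat_lit 4) (nat_lit 384) (nat_lit 361) (nat_lit 275))) (XT.nd (nat_lit 78) (nat_lit 152) (nat_lit 0) (XT.lf (nat_lit 0) (nat_lit 337096229342) (nat_lit 76) (nat_lit 203374962913) (nat_lit 76) (nat_lit 52337827747) (nat_lit 18) (nat_lit 4) (nat_lit 19) (nat_lit 5) (nat_lit 19) (nat_lit 4) (nat_lit 385) (nat_lit 361) (nat_lit 274)) (XT.lf (nat_lit 0) (nat_lit 97229730501) (nat_lit 76) (nat_lit 18243278283) (nat_lit 152) (nat_lit 538118757046) (nat_lit 16) (nat_lit 5) (nat_lit 17) (nat_lit 5) (nat_lit 18) (nat_lit 4) (nat_lit 386) (nat_lit 361) (nat_lit 273)))))) (XT.nd (nat_lit 468) (nat_lit 380) (nat_lit 0) (XT.nd (nat_lit 234) (nat_lit 228) (nat_lit 0) (XT.nd (nat_lit 78) (nat_lit 76) (nat_lit 0) (XT.lf (nat_lit 0) (nat_lit 325160500831) (nat_lit 152) (nat_lit 200824373337)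 (nat_lit 0) (nat_lit 193823693749) (nat_lit 16) (nat_lit 5) (nat_lit 18) (nat_lit 4) (nat_lit 16) (nat_lit 4) (nat_lit 387) (nat_lit 361) (nat_lit 272)) (XT.nd (nat_lit 78) (nat_lit 0) (nat_lit 0) (XT.lf (nat_lit 0) (nat_lit 227421344374) (nat_lit 76) (nat_lit 349165296166) (nat_lit 76) (nat_lit 217828421214) (nat_lit 15) (nat_lit 4) (nat_lit 16) (nat_lit 5) (nat_lit 16) (nat_lit 4) (nat_lit 388) (nat_lit 361) (nat_lit 271)) (XT.lf (nat_lit 0) (nat_lit 742473376156) (nat_lit 76) (nat_lit 133750737789) (nat_lit 76) (nat_lit 2413803821) (nat_lit 15) (nat_lit 4) (nat_lit 16) (nat_lit 5) (nat_lit 16) (nat_lit 4) (nat_lit 389) (nat_lit 361) (nat_lit 270)))) (XT.nd (nat_lit 78) (nat_lit 76) (nat_lit 0) (XT.lf (nat_lit 0) (nat_lit 245301815583) (nat_lit 152) (nat_lit 594298721479) (nat_lit 0) (nat_lit 131095741420) (nat_lit 13) (nat_lit 5) (nat_lit 15) (nat_lit 4) (nat_lit 13) (nat_lit 4) (nat_lit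 390) (nat_lit 361) (nat_lit 269)) (XT.nd (nat_lit 78) (nat_lit 76) (nat_lit 0) (XT.lf (nat_lit 0) (nat_lit 543753159119) (nat_lit 152) (nat_lit 101172120275) (nat_lit 0) (nat_lit 429547046151) (nat_lit 13) (nat_lit 5) (nat_lit 15) (nat_lit 4) (nat_lit 13) (nat_lit 4) (nat_lit 391) (nat_lit 361) (nat_lit 268)) (XT.lf (nat_lit 0) (nat_lit 511456495216) (nat_lit 76) (nat_lit 396693854658) (nat_lit 76) (nat_lit 282487707947) (nat_lit 12) (nat_lit 4) (nat_lit 13) (nat_lit 5) (nat_lit 13) (nat_lit 4) (nat_lit 392) (nat_lit 361) (nat_lit 267))))) (XT.nd (nat_lit 234) (nat_lit 228) (nat_lit 0) (XT.nd (nat_lit 78) (nat_lit 76) (nat_lit 0) (XT.lf (nat_lit 0) (nat_lit 8253506736) (nat_lit 152) (nat_lit 96461136568) (nat_lit 76) (nat_lit 1218664476624) (nat_lit 11) (nat_lit 5) (nat_lit 13) (nat_lit 5) (nat_lit 12) (nat_lit 4) (nat_lit 393) (nat_lit 361) (nat_lit 266)) (XT.nd (nat_lit 78) (nat_lit 0)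 (nat_lit 0) (XT.lf (nat_lit 0) (nat_lit 350569622044) (nat_lit 152) (nat_lit 866651306570) (nat_lit 0) (nat_lit 251259881551) (nat_lit 10) (nat_lit 5) (nat_lit 12) (nat_lit 4) (nat_lit 10) (nat_lit 4) (nat_lit 394) (nat_lit 361) (nat_lit 265)) (XT.lf (nat_lit 0) (nat_lit 754501808837) (nat_lit 152) (nat_lit 224113597922) (nat_lit 0) (nat_lit 655192049052) (nat_lit 10) (nat_lit 5) (nat_lit 12) (nat_lit 4) (nat_lit 10) (nat_lit 4) (nat_lit 395) (nat_lit 361) (nat_lit 264)))) (XT.nd (nat_lit 156) (nat_lit 152) (nat_lit 0) (XT.nd (nat_lit 78) (nat_lit 0) (nat_lit 0) (XT.lf (nat_lit 0) (nat_lit 565114924887) (nat_lit 76) (nat_lit 677308969673) (nat_lit 76) (nat_lit 577999193111) (nat_lit 9) (nat_lit 4) (nat_lit 10) (nat_lit 5) (nat_lit 10) (nat_lit 4) (nat_lit 396) (nat_lit 361) (nat_lit 263)) (XT.lf (nat_lit 0) (nat_lit 1497914770604) (nat_lit 76) (nat_lit 317334424763) (nat_lit 76) (nat_lit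 218024633613) (nat_lit 9) (nat_lit 4) (nat_lit 10) (nat_lit 5) (nat_lit 10) (nat_lit 4) (nat_lit 397) (nat_lit 361) (nat_lit 262))) (XT.nd (nat_lit 78) (nat_lit 0) (nat_lit 0) (XT.lf (nat_lit 0) (nat_lit 196435498670) (nat_lit 152) (nat_lit 1967630398742) (nat_lit 0) (nat_lit 110079147509) (nat_lit 7) (nat_lit 5) (nat_lit 9) (nat_lit 4) (nat_lit 7) (nat_lit 4) (nat_lit 398) (nat_lit 361) (nat_lit 261)) (XT.lf (nat_lit 0) (nat_lit 695171410859) (nat_lit 152) (nat_lit 1238938914027) (nat_lit 0) (nat_lit 608815050106) (nat_lit 7) (nat_lit 5) (nat_lit 9) (nat_lit 4) (nat_lit 7) (nat_lit 4) (nat_lit 399) (nat_lit 361) (nat_lit 260))))))))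
noncomputable def xc83 : XT := (XT.nd (nat_lit 2028) (nat_lit 0) (nat_lit 0) (XT.nd (nat_lit 1014) (nat_lit 152) (nat_lit 0) (XT.nd (nat_lit 468) (nat_lit 76) (nat_lit 0) (XT.nd (nat_lit 234) (nat_lit 152) (nat_lit 0) (XT.nd (nat_lit 78) (nat_lit 76) (nat_lit 0) (XT.lf (nat_lit 0) (nat_lit 1268717609738) (nat_lit 152) (nat_lit 400943919212) (nat_lit 0) (nat_lit 1182361240645) (nat_lit 7) (nat_lit 5) (nat_lit 9) (nat_lit 4) (nat_lit 7) (nat_lit 4) (nat_lit 400) (nat_lit 361) (nat_lit 259)) (XT.nd (nat_lit 78) (nat_lit 0) (nat_lit 0) (XT.lf (nat_lit 0) (nat_lit 617746176352) (nat_lit 76) (nat_lit 1336129026837) (nat_lit 76) (nat_lit 1249772650490) (nat_lit 6) (nat_lit 4) (nat_lit 7) (nat_lit 5) (nat_lit 7) (nat_lit 4) (nat_lit 401) (nat_lit 361) (nat_lit 258)) (XT.lf (nat_lit 0) (nat_lit 1834300238880) (nat_lit 76) (nat_lit 928464545891) (nat_lit 76) (nat_lit 842108163238) (nat_lit 6) (nat_lit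 4) (nat_lit 7) (nat_lit 5) (nat_lit 7) (nat_lit 4) (nat_lit 402) (nat_lit 361) (nat_lit 257)))) (XT.nd (nat_lit 78) (nat_lit 152) (nat_lit 0) (XT.lf (nat_lit 0) (nat_lit 3233337257333) (nat_lit 76) (nat_lit 459650474062) (nat_lit 76) (nat_lit 373294085925) (nat_lit 6) (nat_lit 4) (nat_lit 7) (nat_lit 5) (nat_lit 7) (nat_lit 4) (nat_lit 403) (nat_lit 361) (nat_lit 256)) (XT.nd (nat_lit 78) (nat_lit 0) (nat_lit 0) (XT.lf (nat_lit 0) (nat_lit 166051227088) (nat_lit 152) (nat_lit 4336615973009) (nat_lit 0) (nat_lit 90958711517) (nat_lit 4) (nat_lit 5) (nat_lit 6) (nat_lit 4) (nat_lit 4) (nat_lit 4) (nat_lit 404) (nat_lit 361) (nat_lit 255)) (XT.lf (nat_lit 0) (nat_lit 815581815846) (nat_lit 152) (nat_lit 3631208868787) (nat_lit 0) (nat_lit 740489296669) (nat_lit 4) (nat_lit 5) (nat_lit 6) (nat_lit 4) (nat_lit 4) (nat_lit 4) (nat_lit 405) (nat_lit 361) (nat_lit 254))))) (XT.nd (nat_lit 234)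 (nat_lit 76) (nat_lit 0) (XT.nd (nat_lit 78) (nat_lit 0) (nat_lit 0) (XT.lf (nat_lit 0) (nat_lit 1562541935830) (nat_lit 152) (nat_lit 2819990820659) (nat_lit 0) (nat_lit 1487449413518) (nat_lit 4) (nat_lit 5) (nat_lit 6) (nat_lit 4) (nat_lit 4) (nat_lit 4) (nat_lit 406) (nat_lit 361) (nat_lit 253)) (XT.nd (nat_lit 78) (nat_lit 0) (nat_lit 0) (XT.lf (nat_lit 0) (nat_lit 2421546024170) (nat_lit 152) (nat_lit 1887090171162) (nat_lit 0) (nat_lit 2346453499131) (nat_lit 4) (nat_lit 5) (nat_lit 6) (nat_lit 4) (nat_lit 4) (nat_lit 4) (nat_lit 407) (nat_lit 361) (nat_lit 252)) (XT.lf (nat_lit 0) (nat_lit 3409400682595) (nat_lit 152) (nat_lit 814254516284) (nat_lit 0) (nat_lit 3334308155185) (nat_lit 4) (nat_lit 5) (nat_lit 6) (nat_lit 4) (nat_lit 4) (nat_lit 4) (nat_lit 408) (nat_lit 361) (nat_lit 251)))) (XT.nd (nat_lit 156) (nat_lit 0) (nat_lit 0) (XT.nd (nat_lit 78) (nat_lit 0) (nat_lit 0)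 (XT.lf (nat_lit 0) (nat_lit 460503623813) (nat_lit 76) (nat_lit 4103998351469) (nat_lit 76) (nat_lit 4028905821998) (nat_lit 3) (nat_lit 4) (nat_lit 4) (nat_lit 5) (nat_lit 4) (nat_lit 4) (nat_lit 409) (nat_lit 361) (nat_lit 250)) (XT.lf (nat_lit 0) (nat_lit 2017986512685) (nat_lit 76) (nat_lit 3917445217645) (nat_lit 76) (nat_lit 3842352686381) (nat_lit 3) (nat_lit 4) (nat_lit 4) (nat_lit 5) (nat_lit 4) (nat_lit 4) (nat_lit 410) (nat_lit 361) (nat_lit 249))) (XT.nd (nat_lit 78) (nat_lit 0) (nat_lit 0) (XT.lf (nat_lit 0) (nat_lit 3809091768453) (nat_lit 76) (nat_lit 3702909149048) (nat_lit 76) (nat_lit 3627816616225) (nat_lit 3) (nat_lit 4) (nat_lit 4) (nat_lit 5) (nat_lit 4) (nat_lit 4) (nat_lit 411) (nat_lit 361) (nat_lit 248)) (XT.lf (nat_lit 0) (nat_lit 5868862754818) (nat_lit 76) (nat_lit 3456192700858) (nat_lit 76) (nat_lit 3381100166679) (nat_lit 3) (nat_lit 4) (nat_lit 4) (nat_lit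 5) (nat_lit 4) (nat_lit 4) (nat_lit 412) (nat_lit 361) (nat_lit 247)))))) (XT.nd (nat_lit 468) (nat_lit 152) (nat_lit 0) (XT.nd (nat_lit 234) (nat_lit 0) (nat_lit 0) (XT.nd (nat_lit 78) (nat_lit 0) (nat_lit 0) (XT.lf (nat_lit 0) (nat_lit 8237599338903) (nat_lit 76) (nat_lit 3172468812133) (nat_lit 76) (nat_lit 3097376276775) (nat_lit 3) (nat_lit 4) (nat_lit 4) (nat_lit 5) (nat_lit 4) (nat_lit 4) (nat_lit 413) (nat_lit 361) (nat_lit 246)) (XT.nd (nat_lit 78) (nat_lit 0) (nat_lit 0) (XT.lf (nat_lit 0) (nat_lit 10961646366918) (nat_lit 76) (nat_lit 2846186363309) (nat_lit 76) (nat_lit 2771093826926) (nat_lit 3) (nat_lit 4) (nat_lit 4) (nat_lit 5) (nat_lit 4) (nat_lit 4) (nat_lit 414) (nat_lit 361) (nat_lit 245)) (XT.lf (nat_lit 0) (nat_lit 14094300411152) (nat_lit 76) (nat_lit 2470961567346) (nat_lit 76) (nat_lit 2395869030072) (nat_lit 3) (nat_lit 4) (nat_lit 4) (nat_lit 5) (nat_lit 4) (nat_lit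 4) (nat_lit 415) (nat_lit 361) (nat_lit 244)))) (XT.nd (nat_lit 78) (nat_lit 0) (nat_lit 0) (XT.lf (nat_lit 0) (nat_lit 17696852528991) (nat_lit 76) (nat_lit 2039453069539) (nat_lit 76) (nat_lit 1964360531490) (nat_lit 3) (nat_lit 4) (nat_lit 4) (nat_lit 5) (nat_lit 4) (nat_lit 4) (nat_lit 416) (nat_lit 361) (nat_lit 243)) (XT.nd (nat_lit 78) (nat_lit 0) (nat_lit 0) (XT.lf (nat_lit 0) (nat_lit 21839787435784) (nat_lit 76) (nat_lit 1543218312323) (nat_lit 76) (nat_lit 1468125773600) (nat_lit 3) (nat_lit 4) (nat_lit 4) (nat_lit 5) (nat_lit 4) (nat_lit 4) (nat_lit 417) (nat_lit 361) (nat_lit 242)) (XT.lf (nat_lit 0) (nat_lit 26604162553620) (nat_lit 76) (nat_lit 972548354795) (nat_lit 76) (nat_lit 897455815486) (nat_lit 3) (nat_lit 4) (nat_lit 4) (nat_lit 5) (nat_lit 4) (nat_lit 4) (nat_lit 418) (nat_lit 361) (nat_lit 241))))) (XT.nd (nat_lit 234) (nat_lit 0) (nat_lit 0) (XT.nd (nat_lit 78)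 (nat_lit 152) (nat_lit 0) (XT.lf (nat_lit 0) (nat_lit 32083193917415) (nat_lit 76) (nat_lit 316277915179) (nat_lit 76) (nat_lit 241185375360) (nat_lit 3) (nat_lit 4) (nat_lit 4) (nat_lit 5) (nat_lit 4) (nat_lit 4) (nat_lit 419) (nat_lit 361) (nat_lit 240)) (XT.nd (nat_lit 78) (nat_lit 0) (nat_lit 0) (XT.lf (nat_lit 0) (nat_lit 531293964381) (nat_lit 152) (nat_lit 36422118706307) (nat_lit 0) (nat_lit 465996103283) (nat_lit 1) (nat_lit 5) (nat_lit 3) (nat_lit 4) (nat_lit 1) (nat_lit 4) (nat_lit 420) (nat_lit 361) (nat_lit 239)) (XT.lf (nat_lit 0) (nat_lit 1440541012121) (nat_lit 152) (nat_lit 40090627870079) (nat_lit 0) (nat_lit 1375243150689) (nat_lit 1) (nat_lit 5) (nat_lit 3) (nat_lit 4) (nat_lit 1) (nat_lit 4) (nat_lit 421) (nat_lit 361) (nat_lit 238)))) (XT.nd (nat_lit 156) (nat_lit 0) (nat_lit 0) (XT.nd (nat_lit 78) (nat_lit 0) (nat_lit 0) (XT.lf (nat_lit 0) (nat_lit 2486175108971)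 (nat_lit 152) (nat_lit 44309413425637) (nat_lit 0) (nat_lit 2420877247247) (nat_lit 1) (nat_lit 5) (nat_lit 3) (nat_lit 4) (nat_lit 1) (nat_lit 4) (nat_lit 422) (nat_lit 361) (nat_lit 237)) (XT.lf (nat_lit 0) (nat_lit 3688654313345) (nat_lit 152) (nat_lit 49161016829502) (nat_lit 0) (nat_lit 3623356451368) (nat_lit 1) (nat_lit 5) (nat_lit 3) (nat_lit 4) (nat_lit 1) (nat_lit 4) (nat_lit 423) (nat_lit 361) (nat_lit 236))) (XT.nd (nat_lit 78) (nat_lit 0) (nat_lit 0) (XT.lf (nat_lit 0) (nat_lit 5071505392286) (nat_lit 152) (nat_lit 54740360756966) (nat_lit 0) (nat_lit 5006207530089) (nat_lit 1) (nat_lit 5) (nat_lit 3) (nat_lit 4) (nat_lit 1) (nat_lit 4) (nat_lit 424) (nat_lit 361) (nat_lit 235)) (XT.lf (nat_lit 0) (nat_lit 6661784127774) (nat_lit 152) (nat_lit 61156606284872) (nat_lit 0) (nat_lit 6596486265385) (nat_lit 1) (nat_lit 5) (nat_lit 3) (nat_lit 4) (nat_lit 1) (nat_lit 4) (nat_lit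 425) (nat_lit 361) (nat_lit 234))))))) (XT.nd (nat_lit 48126) (nat_lit 0) (nat_lit 2052) (XT.nd (nat_lit 624) (nat_lit 0) (nat_lit 0) (XT.nd (nat_lit 234) (nat_lit 0) (nat_lit 0) (XT.nd (nat_lit 78) (nat_lit 0) (nat_lit 0) (XT.lf (nat_lit 0) (nat_lit 8490604668981) (nat_lit 152) (nat_lit 68535288651810) (nat_lit 0) (nat_lit 8425306806426) (nat_lit 1) (nat_lit 5) (nat_lit 3) (nat_lit 4) (nat_lit 1) (nat_lit 4) (nat_lit 426) (nat_lit 361) (nat_lit 233)) (XT.nd (nat_lit 78) (nat_lit 0) (nat_lit 0) (XT.lf (nat_lit 0) (nat_lit 10593748287366) (nat_lit 152) (nat_lit 77020773382349) (nat_lit 0) (nat_lit 10528450424665) (nat_lit 1) (nat_lit 5) (nat_lit 3) (nat_lit 4) (nat_lit 1) (nat_lit 4) (nat_lit 427) (nat_lit 361) (nat_lit 232)) (XT.lf (nat_lit 0) (nat_lit 13012363445026) (nat_lit 152) (nat_lit 86779080829913) (nat_lit 0) (nat_lit 12947065582200) (nat_lit 1) (nat_lit 5) (nat_lit 3) (nat_lit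 4) (nat_lit 1) (nat_lit 4) (nat_lit 428) (nat_lit 361) (nat_lit 231)))) (XT.nd (nat_lit 78) (nat_lit 0) (nat_lit 0) (XT.lf (nat_lit 0) (nat_lit 15793770873309) (nat_lit 152) (nat_lit 98001134401086) (nat_lit 0) (nat_lit 15728473010373) (nat_lit 1) (nat_lit 5) (nat_lit 3) (nat_lit 4) (nat_lit 1) (nat_lit 4) (nat_lit 429) (nat_lit 361) (nat_lit 230)) (XT.nd (nat_lit 234) (nat_lit 0) (nat_lit 0) (XT.lf (nat_lit 0) (nat_lit 18992389413201) (nat_lit 152) (nat_lit 110906496013563) (nat_lit 0) (nat_lit 18927091550170) (nat_lit 1) (nat_lit 5) (nat_lit 3) (nat_lit 4) (nat_lit 1) (nat_lit 4) (nat_lit 430) (nat_lit 361) (nat_lit 229)) (XT.lf (nat_lit 0) (nat_lit 31765672710985) (nat_lit 152) (nat_lit 162442444472638) (nat_lit 0) (nat_lit 31700374847736) (nat_lit 1) (nat_lit 5) (nat_lit 3) (nat_lit 4) (nat_lit 1) (nat_lit 4) (nat_lit 433) (nat_lit 361) (nat_lit 226))))) (XT.nd (nat_lit 234) (nat_lit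 0) (nat_lit 0) (XT.nd (nat_lit 78) (nat_lit 0) (nat_lit 0) (XT.lf (nat_lit 0) (nat_lit 37360076519014) (nat_lit 152) (nat_lit 185014002611919) (nat_lit 0) (nat_lit 37294778655710) (nat_lit 1) (nat_lit 5) (nat_lit 3) (nat_lit 4) (nat_lit 1) (nat_lit 4) (nat_lit 434) (nat_lit 361) (nat_lit 225)) (XT.nd (nat_lit 78) (nat_lit 0) (nat_lit 0) (XT.lf (nat_lit 0) (nat_lit 43793640896937) (nat_lit 152) (nat_lit 210971294474891) (nat_lit 0) (nat_lit 43728343033587) (nat_lit 1) (nat_lit 5) (nat_lit 3) (nat_lit 4) (nat_lit 1) (nat_lit 4) (nat_lit 435) (nat_lit 361) (nat_lit 224)) (XT.lf (nat_lit 0) (nat_lit 51192239930411) (nat_lit 152) (nat_lit 240822180119742) (nat_lit 0) (nat_lit 51126942067020) (nat_lit 1) (nat_lit 5) (nat_lit 3) (nat_lit 4) (nat_lit 1) (nat_lit 4) (nat_lit 436) (nat_lit 361) (nat_lit 223)))) (XT.nd (nat_lit 156) (nat_lit 0) (nat_lit 0) (XT.nd (nat_lit 78) (nat_lit 0) (nat_lit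 0) (XT.lf (nat_lit 0) (nat_lit 59700628817917) (nat_lit 152) (nat_lit 275150698613436) (nat_lit 0) (nat_lit 59635330954490) (nat_lit 1) (nat_lit 5) (nat_lit 3) (nat_lit 4) (nat_lit 1) (nat_lit 4) (nat_lit 437) (nat_lit 361) (nat_lit 222)) (XT.lf (nat_lit 0) (nat_lit 69485276037689) (nat_lit 152) (nat_lit 314628494883026) (nat_lit 0) (nat_lit 69419978174230) (nat_lit 1) (nat_lit 5) (nat_lit 3) (nat_lit 4) (nat_lit 1) (nat_lit 4) (nat_lit 438) (nat_lit 361) (nat_lit 221))) (XT.nd (nat_lit 78) (nat_lit 0) (nat_lit 0) (XT.lf (nat_lit 0) (nat_lit 80737620339677) (nat_lit 152) (nat_lit 360027960594652) (nat_lit 0) (nat_lit 80672322476191) (nat_lit 1) (nat_lit 5) (nat_lit 3) (nat_lit 4) (nat_lit 1) (nat_lit 4) (nat_lit 439) (nat_lit 361) (nat_lit 220)) (XT.lf (nat_lit 0) (nat_lit 93677816286314) (nat_lit 152) (nat_lit 412237346164416) (nat_lit 0) (nat_lit 93612518422804) (nat_lit 1) (nat_lit 5)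 (nat_lit 3) (nat_lit 4) (nat_lit 1) (nat_lit 4) (nat_lit 440) (nat_lit 361) (nat_lit 219)))))) (XT.nd (nat_lit 468) (nat_lit 532) (nat_lit 0) (XT.nd (nat_lit 234) (nat_lit 152) (nat_lit 0) (XT.nd (nat_lit 78) (nat_lit 0) (nat_lit 0) (XT.lf (nat_lit 0) (nat_lit 12624986073) (nat_lit 380) (nat_lit 15616666452) (nat_lit 380) (nat_lit 15616666452) (nat_lit 37) (nat_lit 3) (nat_lit 42) (nat_lit 3) (nat_lit 42) (nat_lit 5) (nat_lit 362) (nat_lit 362) (nat_lit 296)) (XT.nd (nat_lit 78) (nat_lit 0) (nat_lit 76) (XT.lf (nat_lit 76) (nat_lit 13453905310) (nat_lit 0) (nat_lit 14254786598) (nat_lit 380) (nat_lit 66501944400) (nat_lit 38) (nat_lit 5) (nat_lit 37) (nat_lit 3) (nat_lit 42) (nat_lit 5) (nat_lit 363) (nat_lit 362) (nat_lit 295)) (XT.lf (nat_lit 0) (nat_lit 33665822154) (nat_lit 304) (nat_lit 34578898264) (nat_lit 380) (nat_lit 32964574280) (nat_lit 38) (nat_lit 5) (nat_lit 42) (nat_lit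 5) (nat_lit 43) (nat_lit 5) (nat_lit 364) (nat_lit 362) (nat_lit 294)))) (XT.nd (nat_lit 78) (nat_lit 228) (nat_lit 0) (XT.lf (nat_lit 76) (nat_lit 19589856499) (nat_lit 0) (nat_lit 22415407853) (nat_lit 380) (nat_lit 67029176708) (nat_lit 39) (nat_lit 5) (nat_lit 38) (nat_lit 5) (nat_lit 43) (nat_lit 5) (nat_lit 365) (nat_lit 362) (nat_lit 293)) (XT.nd (nat_lit 78) (nat_lit 304) (nat_lit 0) (XT.lf (nat_lit 0) (nat_lit 54742301263) (nat_lit 304) (nat_lit 33333462971) (nat_lit 76) (nat_lit 29485593886) (nat_lit 39) (nat_lit 5) (nat_lit 43) (nat_lit 5) (nat_lit 40) (nat_lit 5) (nat_lit 366) (nat_lit 362) (nat_lit 292)) (XT.lf (nat_lit 0) (nat_lit 33070091485) (nat_lit 304) (nat_lit 38755606364) (nat_lit 380) (nat_lit 55176244703) (nat_lit 35) (nat_lit 5) (nat_lit 39) (nat_lit 5) (nat_lit 40) (nat_lit 5) (nat_lit 367) (nat_lit 362) (nat_lit 291))))) (XT.nd (nat_lit 234) (nat_lit 380) (nat_lit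 0) (XT.nd (nat_lit 78) (nat_lit 152) (nat_lit 0) (XT.lf (nat_lit 0) (nat_lit 94039926497) (nat_lit 380) (nat_lit 25244657555) (nat_lit 76) (nat_lit 18188782588) (nat_lit 35) (nat_lit 5) (nat_lit 40) (nat_lit 5) (nat_lit 36) (nat_lit 5) (nat_lit 368) (nat_lit 362) (nat_lit 290)) (XT.nd (nat_lit 78) (nat_lit 0) (nat_lit 0) (XT.lf (nat_lit 0) (nat_lit 56971165255) (nat_lit 152) (nat_lit 66818924337) (nat_lit 228) (nat_lit 25094845057) (nat_lit 33) (nat_lit 5) (nat_lit 35) (nat_lit 5) (nat_lit 36) (nat_lit 5) (nat_lit 369) (nat_lit 362) (nat_lit 289)) (XT.lf (nat_lit 0) (nat_lit 154355646437) (nat_lit 152) (nat_lit 4966041448) (nat_lit 228) (nat_lit 2488713650) (nat_lit 33) (nat_lit 5) (nat_lit 35) (nat_lit 5) (nat_lit 36) (nat_lit 5) (nat_lit 370) (nat_lit 362) (nat_lit 288)))) (XT.nd (nat_lit 156) (nat_lit 76) (nat_lit 0) (XT.nd (nat_lit 78) (nat_lit 152) (nat_lit 0) (XT.lf (nat_lit 0) (nat_lit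 28424671817) (nat_lit 152) (nat_lit 81534921533) (nat_lit 76) (nat_lit 65517699435) (nat_lit 31) (nat_lit 5) (nat_lit 33) (nat_lit 5) (nat_lit 32) (nat_lit 5) (nat_lit 371) (nat_lit 362) (nat_lit 287)) (XT.lf (nat_lit 0) (nat_lit 21819204164) (nat_lit 152) (nat_lit 43448673156) (nat_lit 228) (nat_lit 125676422701) (nat_lit 29) (nat_lit 5) (nat_lit 31) (nat_lit 5) (nat_lit 32) (nat_lit 5) (nat_lit 372) (nat_lit 362) (nat_lit 286))) (XT.nd (nat_lit 78) (nat_lit 76) (nat_lit 0) (XT.lf (nat_lit 0) (nat_lit 113470080562) (nat_lit 228) (nat_lit 59824106551) (nat_lit 76) (nat_lit 34562293855) (nat_lit 29) (nat_lit 5) (nat_lit 32) (nat_lit 5) (nat_lit 30) (nat_lit 4) (nat_lit 373) (nat_lit 362) (nat_lit 285)) (XT.lf (nat_lit 0) (nat_lit 70037491568) (nat_lit 76) (nat_lit 103833722963) (nat_lit 152) (nat_lit 52688984633) (nat_lit 28) (nat_lit 5) (nat_lit 29) (nat_lit 5) (nat_lit 30) (nat_lit 4)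 (nat_lit 374) (nat_lit 362) (nat_lit 284))))))))
noncomputable def xc84 : XT := (XT.nd (nat_lit 1950) (nat_lit 456) (nat_lit 0) (XT.nd (nat_lit 936) (nat_lit 836) (nat_lit 0) (XT.nd (nat_lit 468) (nat_lit 380) (nat_lit 0) (XT.nd (nat_lit 234) (nat_lit 152) (nat_lit 0) (XT.nd (nat_lit 78) (nat_lit 228) (nat_lit 0) (XT.lf (nat_lit 0) (nat_lit 226101001553) (nat_lit 76) (nat_lit 20358231743) (nat_lit 152) (nat_lit 1141234712) (nat_lit 28) (nat_lit 5) (nat_lit 29) (nat_lit 5) (nat_lit 30) (nat_lit 4) (nat_lit 375) (nat_lit 362) (nat_lit 283)) (XT.nd (nat_lit 78) (nat_lit 76) (nat_lit 0) (XT.lf (nat_lit 0) (nat_lit 62464690740) (nat_lit 152) (nat_lit 129863510674) (nat_lit 76) (nat_lit 77682178033) (nat_lit 26) (nat_lit 5) (nat_lit 28) (nat_lit 5) (nat_lit 27) (nat_lit 4) (nat_lit 376) (nat_lit 362) (nat_lit 282)) (XT.lf (nat_lit 0) (nat_lit 34869523482) (nat_lit 76) (nat_lit 104215406504) (nat_lit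 152) (nat_lit 156150156170) (nat_lit 25) (nat_lit 5) (nat_lit 26) (nat_lit 5) (nat_lit 27) (nat_lit 4) (nat_lit 377) (nat_lit 362) (nat_lit 281)))) (XT.nd (nat_lit 78) (nat_lit 152) (nat_lit 0) (XT.lf (nat_lit 0) (nat_lit 234189901670) (nat_lit 152) (nat_lit 84522326837) (nat_lit 0) (nat_lit 4482515952) (nat_lit 25) (nat_lit 5) (nat_lit 27) (nat_lit 4) (nat_lit 25) (nat_lit 4) (nat_lit 378) (nat_lit 362) (nat_lit 280)) (XT.nd (nat_lit 78) (nat_lit 76) (nat_lit 0) (XT.lf (nat_lit 0) (nat_lit 123751335163) (nat_lit 76) (nat_lit 229895865335) (nat_lit 76) (nat_lit 188163863) (nat_lit 24) (nat_lit 4) (nat_lit 25) (nat_lit 5) (nat_lit 25) (nat_lit 4) (nat_lit 379) (nat_lit 362) (nat_lit 279)) (XT.lf (nat_lit 0) (nat_lit 97502904251) (nat_lit 152) (nat_lit 20076731901) (nat_lit 76) (nat_lit 270164964231) (nat_lit 23) (nat_lit 5) (nat_lit 25) (nat_lit 5) (nat_lit 24) (nat_lit 4) (nat_lit 380)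 (nat_lit 362) (nat_lit 278))))) (XT.nd (nat_lit 234) (nat_lit 152) (nat_lit 0) (XT.nd (nat_lit 78) (nat_lit 152) (nat_lit 0) (XT.lf (nat_lit 0) (nat_lit 220852077940) (nat_lit 152) (nat_lit 183127439216) (nat_lit 0) (nat_lit 21105804203) (nat_lit 22) (nat_lit 5) (nat_lit 24) (nat_lit 4) (nat_lit 22) (nat_lit 4) (nat_lit 381) (nat_lit 362) (nat_lit 277)) (XT.nd (nat_lit 78) (nat_lit 76) (nat_lit 0) (XT.lf (nat_lit 0) (nat_lit 79074514591) (nat_lit 76) (nat_lit 293601607981) (nat_lit 76) (nat_lit 93855153710) (nat_lit 21) (nat_lit 4) (nat_lit 22) (nat_lit 5) (nat_lit 22) (nat_lit 4) (nat_lit 382) (nat_lit 362) (nat_lit 276)) (XT.lf (nat_lit 0) (nat_lit 40162797573) (nat_lit 152) (nat_lit 113396596474) (nat_lit 76) (nat_lit 358925047673) (nat_lit 20) (nat_lit 5) (nat_lit 22) (nat_lit 5) (nat_lit 21) (nat_lit 4) (nat_lit 383) (nat_lit 362) (nat_lit 275)))) (XT.nd (nat_lit 78) (nat_lit 76) (nat_lit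 0) (XT.lf (nat_lit 0) (nat_lit 194592513874) (nat_lit 152) (nat_lit 347680276587) (nat_lit 0) (nat_lit 20899689729) (nat_lit 19) (nat_lit 5) (nat_lit 21) (nat_lit 4) (nat_lit 19) (nat_lit 4) (nat_lit 384) (nat_lit 362) (nat_lit 274)) (XT.nd (nat_lit 78) (nat_lit 76) (nat_lit 0) (XT.lf (nat_lit 0) (nat_lit 385708613156) (nat_lit 152) (nat_lit 21711136673) (nat_lit 0) (nat_lit 212015685790) (nat_lit 19) (nat_lit 5) (nat_lit 21) (nat_lit 4) (nat_lit 19) (nat_lit 4) (nat_lit 385) (nat_lit 362) (nat_lit 273)) (XT.lf (nat_lit 0) (nat_lit 387665629191) (nat_lit 76) (nat_lit 233878696294) (nat_lit 76) (nat_lit 60185679171) (nat_lit 18) (nat_lit 4) (nat_lit 19) (nat_lit 5) (nat_lit 19) (nat_lit 4) (nat_lit 386) (nat_lit 362) (nat_lit 272)))))) (XT.nd (nat_lit 468) (nat_lit 456) (nat_lit 0) (XT.nd (nat_lit 234) (nat_lit 152) (nat_lit 0) (XT.nd (nat_lit 78) (nat_lit 76) (nat_lit 0) (XT.lf (nat_lit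 0) (nat_lit 111819169855) (nat_lit 76) (nat_lit 20977232483) (nat_lit 152) (nat_lit 618833761890) (nat_lit 16) (nat_lit 5) (nat_lit 17) (nat_lit 5) (nat_lit 18) (nat_lit 4) (nat_lit 387) (nat_lit 362) (nat_lit 271)) (XT.nd (nat_lit 78) (nat_lit 76) (nat_lit 0) (XT.lf (nat_lit 0) (nat_lit 373936791008) (nat_lit 152) (nat_lit 230943471789) (nat_lit 0) (nat_lit 222899257928) (nat_lit 16) (nat_lit 5) (nat_lit 18) (nat_lit 4) (nat_lit 16) (nat_lit 4) (nat_lit 388) (nat_lit 362) (nat_lit 270)) (XT.lf (nat_lit 0) (nat_lit 261538896418) (nat_lit 76) (nat_lit 401537846475) (nat_lit 76) (nat_lit 250500262076) (nat_lit 15) (nat_lit 4) (nat_lit 16) (nat_lit 5) (nat_lit 16) (nat_lit 4) (nat_lit 389) (nat_lit 362) (nat_lit 269)))) (XT.nd (nat_lit 78) (nat_lit 152) (nat_lit 0) (XT.lf (nat_lit 0) (nat_lit 853848165525) (nat_lit 76) (nat_lit 153811397053) (nat_lit 76) (nat_lit 2773768028) (nat_lit 15) (nat_lit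 4) (nat_lit 16) (nat_lit 5) (nat_lit 16) (nat_lit 4) (nat_lit 390) (nat_lit 362) (nat_lit 268)) (XT.nd (nat_lit 78) (nat_lit 0) (nat_lit 0) (XT.lf (nat_lit 0) (nat_lit 282098994767) (nat_lit 152) (nat_lit 683439547083) (nat_lit 0) (nat_lit 150761892307) (nat_lit 13) (nat_lit 5) (nat_lit 15) (nat_lit 4) (nat_lit 13) (nat_lit 4) (nat_lit 391) (nat_lit 362) (nat_lit 267)) (XT.lf (nat_lit 0) (nat_lit 625317791114) (nat_lit 152) (nat_lit 116344475171) (nat_lit 0) (nat_lit 493980659312) (nat_lit 13) (nat_lit 5) (nat_lit 15) (nat_lit 4) (nat_lit 13) (nat_lit 4) (nat_lit 392) (nat_lit 362) (nat_lit 266))))) (XT.nd (nat_lit 234) (nat_lit 228) (nat_lit 0) (XT.nd (nat_lit 78) (nat_lit 152) (nat_lit 0) (XT.lf (nat_lit 0) (nat_lit 588178275228) (nat_lit 76) (nat_lit 456196205859) (nat_lit 76) (nat_lit 324859048543) (nat_lit 12) (nat_lit 4) (nat_lit 13) (nat_lit 5) (nat_lit 13) (nat_lit 4) (nat_lit 393)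 (nat_lit 362) (nat_lit 265)) (XT.nd (nat_lit 78) (nat_lit 76) (nat_lit 0) (XT.lf (nat_lit 0) (nat_lit 9492970972) (nat_lit 152) (nat_lit 110927291911) (nat_lit 76) (nat_lit 1401465509260) (nat_lit 11) (nat_lit 5) (nat_lit 13) (nat_lit 5) (nat_lit 12) (nat_lit 4) (nat_lit 394) (nat_lit 362) (nat_lit 264)) (XT.lf (nat_lit 0) (nat_lit 403156497612) (nat_lit 152) (nat_lit 996645981414) (nat_lit 0) (nat_lit 288950237789) (nat_lit 10) (nat_lit 5) (nat_lit 12) (nat_lit 4) (nat_lit 10) (nat_lit 4) (nat_lit 395) (nat_lit 362) (nat_lit 263)))) (XT.nd (nat_lit 156) (nat_lit 152) (nat_lit 0) (XT.nd (nat_lit 78) (nat_lit 76) (nat_lit 0) (XT.lf (nat_lit 0) (nat_lit 867678325608) (nat_lit 152) (nat_lit 257728010531) (nat_lit 0) (nat_lit 753472051197) (nat_lit 10) (nat_lit 5) (nat_lit 12) (nat_lit 4) (nat_lit 10) (nat_lit 4) (nat_lit 396) (nat_lit 362) (nat_lit 262)) (XT.lf (nat_lit 0) (nat_lit 649884671288)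 (nat_lit 76) (nat_lit 778903994289) (nat_lit 76) (nat_lit 664697707194) (nat_lit 9) (nat_lit 4) (nat_lit 10) (nat_lit 5) (nat_lit 10) (nat_lit 4) (nat_lit 397) (nat_lit 362) (nat_lit 261))) (XT.nd (nat_lit 78) (nat_lit 152) (nat_lit 0) (XT.lf (nat_lit 0) (nat_lit 1722604166775) (nat_lit 76) (nat_lit 364933439926) (nat_lit 76) (nat_lit 250727141799) (nat_lit 9) (nat_lit 4) (nat_lit 10) (nat_lit 5) (nat_lit 10) (nat_lit 4) (nat_lit 398) (nat_lit 362) (nat_lit 260)) (XT.lf (nat_lit 0) (nat_lit 225901901699) (nat_lit 152) (nat_lit 2262772669309) (nat_lit 0) (nat_lit 126592068901) (nat_lit 7) (nat_lit 5) (nat_lit 9) (nat_lit 4) (nat_lit 7) (nat_lit 4) (nat_lit 399) (nat_lit 362) (nat_lit 259))))))) (XT.nd (nat_lit 1014) (nat_lit 152) (nat_lit 0) (XT.nd (nat_lit 468) (nat_lit 76) (nat_lit 0) (XT.nd (nat_lit 234) (nat_lit 152) (nat_lit 0) (XT.nd (nat_lit 78) (nat_lit 76) (nat_lit 0) (XT.lf (nat_lit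 0) (nat_lit 799448060078) (nat_lit 152) (nat_lit 1424777760483) (nat_lit 0) (nat_lit 700138220027) (nat_lit 7) (nat_lit 5) (nat_lit 9) (nat_lit 4) (nat_lit 7) (nat_lit 4) (nat_lit 400) (nat_lit 362) (nat_lit 258)) (XT.nd (nat_lit 78) (nat_lit 76) (nat_lit 0) (XT.lf (nat_lit 0) (nat_lit 1459026066495) (nat_lit 152) (nat_lit 461083776096) (nat_lit 0) (nat_lit 1359716220137) (nat_lit 7) (nat_lit 5) (nat_lit 9) (nat_lit 4) (nat_lit 7) (nat_lit 4) (nat_lit 401) (nat_lit 362) (nat_lit 257)) (XT.lf (nat_lit 0) (nat_lit 710409755121) (nat_lit 76) (nat_lit 1536547505918) (nat_lit 76) (nat_lit 1437237654075) (nat_lit 6) (nat_lit 4) (nat_lit 7) (nat_lit 5) (nat_lit 7) (nat_lit 4) (nat_lit 402) (nat_lit 362) (nat_lit 256)))) (XT.nd (nat_lit 78) (nat_lit 152) (nat_lit 0) (XT.lf (nat_lit 0) (nat_lit 2109446711509) (nat_lit 76) (nat_lit 1067733466953) (nat_lit 76) (nat_lit 968423610342) (nat_lit 6) (nat_lit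 4) (nat_lit 7) (nat_lit 5) (nat_lit 7) (nat_lit 4) (nat_lit 403) (nat_lit 362) (nat_lit 255)) (XT.nd (nat_lit 78) (nat_lit 152) (nat_lit 0) (XT.lf (nat_lit 0) (nat_lit 3718339095322) (nat_lit 76) (nat_lit 528597383587) (nat_lit 76) (nat_lit 429287522829) (nat_lit 6) (nat_lit 4) (nat_lit 7) (nat_lit 5) (nat_lit 7) (nat_lit 4) (nat_lit 404) (nat_lit 362) (nat_lit 254)) (XT.lf (nat_lit 0) (nat_lit 190959525840) (nat_lit 152) (nat_lit 4987107058262) (nat_lit 0) (nat_lit 104603122045) (nat_lit 4) (nat_lit 5) (nat_lit 6) (nat_lit 4) (nat_lit 4) (nat_lit 4) (nat_lit 405) (nat_lit 362) (nat_lit 253))))) (XT.nd (nat_lit 234) (nat_lit 76) (nat_lit 0) (XT.nd (nat_lit 78) (nat_lit 0) (nat_lit 0) (XT.lf (nat_lit 0) (nat_lit 937919622735) (nat_lit 152) (nat_lit 4175889059367) (nat_lit 0) (nat_lit 851563216213) (nat_lit 4) (nat_lit 5) (nat_lit 6) (nat_lit 4) (nat_lit 4) (nat_lit 4) (nat_lit 406) (nat_lit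 362) (nat_lit 252)) (XT.nd (nat_lit 78) (nat_lit 0) (nat_lit 0) (XT.lf (nat_lit 0) (nat_lit 1796923690997) (nat_lit 152) (nat_lit 3242988452681) (nat_lit 0) (nat_lit 1710567282105) (nat_lit 4) (nat_lit 5) (nat_lit 6) (nat_lit 4) (nat_lit 4) (nat_lit 4) (nat_lit 407) (nat_lit 362) (nat_lit 251)) (XT.lf (nat_lit 0) (nat_lit 2784778331963) (nat_lit 152) (nat_lit 2170152835031) (nat_lit 0) (nat_lit 2698421921009) (nat_lit 4) (nat_lit 5) (nat_lit 6) (nat_lit 4) (nat_lit 4) (nat_lit 4) (nat_lit 408) (nat_lit 362) (nat_lit 250)))) (XT.nd (nat_lit 156) (nat_lit 0) (nat_lit 0) (XT.nd (nat_lit 78) (nat_lit 76) (nat_lit 0) (XT.lf (nat_lit 0) (nat_lit 3920811136434) (nat_lit 152) (nat_lit 936391944331) (nat_lit 0) (nat_lit 3834454723687) (nat_lit 4) (nat_lit 5) (nat_lit 6) (nat_lit 4) (nat_lit 4) (nat_lit 4) (nat_lit 409) (nat_lit 362) (nat_lit 249)) (XT.lf (nat_lit 0) (nat_lit 529579882717) (nat_lit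 76) (nat_lit 4719597724087) (nat_lit 76) (nat_lit 4633241309781) (nat_lit 3) (nat_lit 4) (nat_lit 4) (nat_lit 5) (nat_lit 4) (nat_lit 4) (nat_lit 410) (nat_lit 362) (nat_lit 248))) (XT.nd (nat_lit 78) (nat_lit 0) (nat_lit 0) (XT.lf (nat_lit 0) (nat_lit 2320685111616) (nat_lit 76) (nat_lit 4505061669767) (nat_lit 76) (nat_lit 4418705254106) (nat_lit 3) (nat_lit 4) (nat_lit 4) (nat_lit 5) (nat_lit 4) (nat_lit 4) (nat_lit 411) (nat_lit 362) (nat_lit 247)) (XT.lf (nat_lit 0) (nat_lit 4380456074616) (nat_lit 76) (nat_lit 4258345233993) (nat_lit 76) (nat_lit 4171988817152) (nat_lit 3) (nat_lit 4) (nat_lit 4) (nat_lit 5) (nat_lit 4) (nat_lit 4) (nat_lit 412) (nat_lit 362) (nat_lit 246)))))) (XT.nd (nat_lit 468) (nat_lit 152) (nat_lit 0) (XT.nd (nat_lit 234) (nat_lit 0) (nat_lit 0) (XT.nd (nat_lit 78) (nat_lit 0) (nat_lit 0) (XT.lf (nat_lit 0) (nat_lit 6749192638383) (nat_lit 76) (nat_lit 3974621356063)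 (nat_lit 76) (nat_lit 3888264938198) (nat_lit 3) (nat_lit 4) (nat_lit 4) (nat_lit 5) (nat_lit 4) (nat_lit 4) (nat_lit 413) (nat_lit 362) (nat_lit 245)) (XT.nd (nat_lit 78) (nat_lit 0) (nat_lit 0) (XT.lf (nat_lit 0) (nat_lit 9473239648732) (nat_lit 76) (nat_lit 3648338916627) (nat_lit 76) (nat_lit 3561982497871) (nat_lit 3) (nat_lit 4) (nat_lit 4) (nat_lit 5) (nat_lit 4) (nat_lit 4) (nat_lit 414) (nat_lit 362) (nat_lit 244)) (XT.lf (nat_lit 0) (nat_lit 12605893677603) (nat_lit 76) (nat_lit 3273114128827) (nat_lit 76) (nat_lit 3186757709295) (nat_lit 3) (nat_lit 4) (nat_lit 4) (nat_lit 5) (nat_lit 4) (nat_lit 4) (nat_lit 415) (nat_lit 362) (nat_lit 243)))) (XT.nd (nat_lit 78) (nat_lit 0) (nat_lit 0) (XT.lf (nat_lit 0) (nat_lit 16208445782082) (nat_lit 76) (nat_lit 2841605638119) (nat_lit 76) (nat_lit 2755249217913) (nat_lit 3) (nat_lit 4) (nat_lit 4) (nat_lit 5) (nat_lit 4) (nat_lit 4) (nat_lit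 416) (nat_lit 362) (nat_lit 242)) (XT.nd (nat_lit 78) (nat_lit 0) (nat_lit 0) (XT.lf (nat_lit 0) (nat_lit 20351380677259) (nat_lit 76) (nat_lit 2345370887075) (nat_lit 76) (nat_lit 2259014466283) (nat_lit 3) (nat_lit 4) (nat_lit 4) (nat_lit 5) (nat_lit 4) (nat_lit 4) (nat_lit 417) (nat_lit 362) (nat_lit 241)) (XT.lf (nat_lit 0) (nat_lit 25115755784995) (nat_lit 76) (nat_lit 1774700934915) (nat_lit 76) (nat_lit 1688344513614) (nat_lit 3) (nat_lit 4) (nat_lit 4) (nat_lit 5) (nat_lit 4) (nat_lit 4) (nat_lit 418) (nat_lit 362) (nat_lit 240))))) (XT.nd (nat_lit 234) (nat_lit 0) (nat_lit 0) (XT.nd (nat_lit 78) (nat_lit 152) (nat_lit 0) (XT.lf (nat_lit 0) (nat_lit 30594787140006) (nat_lit 76) (nat_lit 1118430499966) (nat_lit 76) (nat_lit 1032074078221) (nat_lit 3) (nat_lit 4) (nat_lit 4) (nat_lit 5) (nat_lit 4) (nat_lit 4) (nat_lit 419) (nat_lit 362) (nat_lit 239)) (XT.nd (nat_lit 78) (nat_lit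 152) (nat_lit 0) (XT.lf (nat_lit 0) (nat_lit 36895673181846) (nat_lit 76) (nat_lit 363719508500) (nat_lit 76) (nat_lit 277363086370) (nat_lit 3) (nat_lit 4) (nat_lit 4) (nat_lit 5) (nat_lit 4) (nat_lit 4) (nat_lit 420) (nat_lit 362) (nat_lit 238)) (XT.lf (nat_lit 0) (nat_lit 610988145744) (nat_lit 152) (nat_lit 41885436326845) (nat_lit 0) (nat_lit 535895604471) (nat_lit 1) (nat_lit 5) (nat_lit 3) (nat_lit 4) (nat_lit 1) (nat_lit 4) (nat_lit 421) (nat_lit 362) (nat_lit 237)))) (XT.nd (nat_lit 156) (nat_lit 0) (nat_lit 0) (XT.nd (nat_lit 78) (nat_lit 0) (nat_lit 0) (XT.lf (nat_lit 0) (nat_lit 1656622239337) (nat_lit 152) (nat_lit 46104221889367) (nat_lit 0) (nat_lit 1581529697810) (nat_lit 1) (nat_lit 5) (nat_lit 3) (nat_lit 4) (nat_lit 1) (nat_lit 4) (nat_lit 422) (nat_lit 362) (nat_lit 236)) (XT.lf (nat_lit 0) (nat_lit 2859101440879) (nat_lit 152) (nat_lit 50955825299288) (nat_lit 0) (nat_lit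 2784008899131) (nat_lit 1) (nat_lit 5) (nat_lit 3) (nat_lit 4) (nat_lit 1) (nat_lit 4) (nat_lit 423) (nat_lit 362) (nat_lit 235))) (XT.nd (nat_lit 78) (nat_lit 0) (nat_lit 0) (XT.lf (nat_lit 0) (nat_lit 4241952517358) (nat_lit 152) (nat_lit 56535169232018) (nat_lit 0) (nat_lit 4166859975419) (nat_lit 1) (nat_lit 5) (nat_lit 3) (nat_lit 4) (nat_lit 1) (nat_lit 4) (nat_lit 424) (nat_lit 362) (nat_lit 234)) (XT.lf (nat_lit 0) (nat_lit 5832231250704) (nat_lit 152) (nat_lit 62951414764504) (nat_lit 0) (nat_lit 5757138708598) (nat_lit 1) (nat_lit 5) (nat_lit 3) (nat_lit 4) (nat_lit 1) (nat_lit 4) (nat_lit 425) (nat_lit 362) (nat_lit 233))))))))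
noncomputable def xc85 : XT := (XT.nd (nat_lit 49218) (nat_lit 0) (nat_lit 456) (XT.nd (nat_lit 48204) (nat_lit 0) (nat_lit 2052) (XT.nd (nat_lit 702) (nat_lit 0) (nat_lit 0) (XT.nd (nat_lit 234) (nat_lit 0) (nat_lit 0) (XT.nd (nat_lit 78) (nat_lit 0) (nat_lit 0) (XT.lf (nat_lit 0) (nat_lit 7661051790049) (nat_lit 152) (nat_lit 70330097135423) (nat_lit 0) (nat_lit 7585959247798) (nat_lit 1) (nat_lit 5) (nat_lit 3) (nat_lit 4) (nat_lit 1) (nat_lit 4) (nat_lit 426) (nat_lit 362) (nat_lit 232)) (XT.nd (nat_lit 78) (nat_lit 0) (nat_lit 0) (XT.lf (nat_lit 0) (nat_lit 9764195406814) (nat_lit 152) (nat_lit 78815581869425) (nat_lit 0) (nat_lit 9689102864438) (nat_lit 1) (nat_lit 5) (nat_lit 3) (nat_lit 4) (nat_lit 1) (nat_lit 4) (nat_lit 427) (nat_lit 362) (nat_lit 231)) (XT.lf (nat_lit 0) (nat_lit 12182810563067) (nat_lit 152) (nat_lit 88573889320000) (nat_lit 0) (nat_lit 12107718020581) (nat_lit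 1) (nat_lit 5) (nat_lit 3) (nat_lit 4) (nat_lit 1) (nat_lit 4) (nat_lit 428) (nat_lit 362) (nat_lit 230)))) (XT.nd (nat_lit 312) (nat_lit 0) (nat_lit 0) (XT.lf (nat_lit 0) (nat_lit 14964217990125) (nat_lit 152) (nat_lit 99795942893790) (nat_lit 0) (nat_lit 14889125447544) (nat_lit 1) (nat_lit 5) (nat_lit 3) (nat_lit 4) (nat_lit 1) (nat_lit 4) (nat_lit 429) (nat_lit 362) (nat_lit 229)) (XT.nd (nat_lit 78) (nat_lit 0) (nat_lit 0) (XT.lf (nat_lit 0) (nat_lit 30936119824305) (nat_lit 152) (nat_lit 164237252972818) (nat_lit 0) (nat_lit 30861027281452) (nat_lit 1) (nat_lit 5) (nat_lit 3) (nat_lit 4) (nat_lit 1) (nat_lit 4) (nat_lit 433) (nat_lit 362) (nat_lit 225)) (XT.lf (nat_lit 0) (nat_lit 36530523631725) (nat_lit 152) (nat_lit 186808811113400) (nat_lit 0) (nat_lit 36455431088825) (nat_lit 1) (nat_lit 5) (nat_lit 3) (nat_lit 4) (nat_lit 1) (nat_lit 4) (nat_lit 434) (nat_lit 362) (nat_lit 224)))))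 (XT.nd (nat_lit 234) (nat_lit 0) (nat_lit 0) (XT.nd (nat_lit 78) (nat_lit 0) (nat_lit 0) (XT.lf (nat_lit 0) (nat_lit 42964088009120) (nat_lit 152) (nat_lit 212766102977504) (nat_lit 0) (nat_lit 42888995466178) (nat_lit 1) (nat_lit 5) (nat_lit 3) (nat_lit 4) (nat_lit 1) (nat_lit 4) (nat_lit 435) (nat_lit 362) (nat_lit 223)) (XT.nd (nat_lit 78) (nat_lit 0) (nat_lit 0) (XT.lf (nat_lit 0) (nat_lit 50362687042134) (nat_lit 152) (nat_lit 242616988623339) (nat_lit 0) (nat_lit 50287594499156) (nat_lit 1) (nat_lit 5) (nat_lit 3) (nat_lit 4) (nat_lit 1) (nat_lit 4) (nat_lit 436) (nat_lit 362) (nat_lit 222)) (XT.lf (nat_lit 0) (nat_lit 58871075929239) (nat_lit 152) (nat_lit 276945507117889) (nat_lit 0) (nat_lit 58795983386231) (nat_lit 1) (nat_lit 5) (nat_lit 3) (nat_lit 4) (nat_lit 1) (nat_lit 4) (nat_lit 437) (nat_lit 362) (nat_lit 221)))) (XT.nd (nat_lit 78) (nat_lit 0) (nat_lit 0) (XT.lf (nat_lit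 0) (nat_lit 68655723148663) (nat_lit 152) (nat_lit 316423303388223) (nat_lit 0) (nat_lit 68580630605626) (nat_lit 1) (nat_lit 5) (nat_lit 3) (nat_lit 4) (nat_lit 1) (nat_lit 4) (nat_lit 438) (nat_lit 362) (nat_lit 220)) (XT.nd (nat_lit 78) (nat_lit 0) (nat_lit 0) (XT.lf (nat_lit 0) (nat_lit 79908067450348) (nat_lit 152) (nat_lit 361822769100497) (nat_lit 0) (nat_lit 79832974907289) (nat_lit 1) (nat_lit 5) (nat_lit 3) (nat_lit 4) (nat_lit 1) (nat_lit 4) (nat_lit 439) (nat_lit 362) (nat_lit 219)) (XT.lf (nat_lit 0) (nat_lit 92848263396721) (nat_lit 152) (nat_lit 414032154670823) (nat_lit 0) (nat_lit 92773170853642) (nat_lit 1) (nat_lit 5) (nat_lit 3) (nat_lit 4) (nat_lit 1) (nat_lit 4) (nat_lit 440) (nat_lit 362) (nat_lit 218)))))) (XT.nd (nat_lit 468) (nat_lit 532) (nat_lit 0) (XT.nd (nat_lit 234) (nat_lit 152) (nat_lit 0) (XT.nd (nat_lit 78) (nat_lit 0) (nat_lit 0) (XT.lf (nat_lit 0) (nat_lit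 14526282248) (nat_lit 380) (nat_lit 17954824387) (nat_lit 380) (nat_lit 17954824387) (nat_lit 37) (nat_lit 3) (nat_lit 42) (nat_lit 3) (nat_lit 42) (nat_lit 5) (nat_lit 363) (nat_lit 363) (nat_lit 294)) (XT.nd (nat_lit 78) (nat_lit 0) (nat_lit 76) (XT.lf (nat_lit 76) (nat_lit 15480280441) (nat_lit 0) (nat_lit 16398185913) (nat_lit 380) (nat_lit 76461738609) (nat_lit 38) (nat_lit 5) (nat_lit 37) (nat_lit 3) (nat_lit 42) (nat_lit 5) (nat_lit 364) (nat_lit 363) (nat_lit 293)) (XT.lf (nat_lit 0) (nat_lit 38727222531) (nat_lit 304) (nat_lit 39756575895) (nat_lit 380) (nat_lit 37905156033) (nat_lit 38) (nat_lit 5) (nat_lit 42) (nat_lit 5) (nat_lit 43) (nat_lit 5) (nat_lit 365) (nat_lit 363) (nat_lit 292)))) (XT.nd (nat_lit 78) (nat_lit 228) (nat_lit 0) (XT.lf (nat_lit 76) (nat_lit 22537075850) (nat_lit 0) (nat_lit 25779363621) (nat_lit 380) (nat_lit 77071605246) (nat_lit 39) (nat_lit 5) (nat_lit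 38) (nat_lit 5) (nat_lit 43) (nat_lit 5) (nat_lit 366) (nat_lit 363) (nat_lit 291)) (XT.nd (nat_lit 78) (nat_lit 304) (nat_lit 0) (XT.lf (nat_lit 0) (nat_lit 62962618075) (nat_lit 304) (nat_lit 38324463740) (nat_lit 76) (nat_lit 33907130206) (nat_lit 39) (nat_lit 5) (nat_lit 43) (nat_lit 5) (nat_lit 40) (nat_lit 5) (nat_lit 367) (nat_lit 363) (nat_lit 290)) (XT.lf (nat_lit 0) (nat_lit 38039213944) (nat_lit 304) (nat_lit 44568496463) (nat_lit 380) (nat_lit 63443296304) (nat_lit 35) (nat_lit 5) (nat_lit 39) (nat_lit 5) (nat_lit 40) (nat_lit 5) (nat_lit 368) (nat_lit 363) (nat_lit 289))))) (XT.nd (nat_lit 234) (nat_lit 380) (nat_lit 0) (XT.nd (nat_lit 78) (nat_lit 152) (nat_lit 0) (XT.lf (nat_lit 0) (nat_lit 108153025516) (nat_lit 380) (nat_lit 29022819414) (nat_lit 76) (nat_lit 20917457122) (nat_lit 35) (nat_lit 5) (nat_lit 40) (nat_lit 5) (nat_lit 36) (nat_lit 5) (nat_lit 369) (nat_lit 363)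 (nat_lit 288)) (XT.nd (nat_lit 78) (nat_lit 0) (nat_lit 0) (XT.lf (nat_lit 0) (nat_lit 65524988782) (nat_lit 152) (nat_lit 76840134317) (nat_lit 228) (nat_lit 28851571059) (nat_lit 33) (nat_lit 5) (nat_lit 35) (nat_lit 5) (nat_lit 36) (nat_lit 5) (nat_lit 370) (nat_lit 363) (nat_lit 287)) (XT.lf (nat_lit 0) (nat_lit 177516079263) (nat_lit 152) (nat_lit 5709531430) (nat_lit 228) (nat_lit 2855498301) (nat_lit 33) (nat_lit 5) (nat_lit 35) (nat_lit 5) (nat_lit 36) (nat_lit 5) (nat_lit 371) (nat_lit 363) (nat_lit 286)))) (XT.nd (nat_lit 156) (nat_lit 76) (nat_lit 0) (XT.nd (nat_lit 78) (nat_lit 152) (nat_lit 0) (XT.lf (nat_lit 0) (nat_lit 32693919025) (nat_lit 152) (nat_lit 93757094157) (nat_lit 76) (nat_lit 75347039795) (nat_lit 31) (nat_lit 5) (nat_lit 33) (nat_lit 5) (nat_lit 32) (nat_lit 5) (nat_lit 372) (nat_lit 363) (nat_lit 285)) (XT.lf (nat_lit 0) (nat_lit 25099783776) (nat_lit 152)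 (nat_lit 49963416928) (nat_lit 228) (nat_lit 144521971521) (nat_lit 29) (nat_lit 5) (nat_lit 31) (nat_lit 5) (nat_lit 32) (nat_lit 5) (nat_lit 373) (nat_lit 363) (nat_lit 284))) (XT.nd (nat_lit 78) (nat_lit 76) (nat_lit 0) (XT.lf (nat_lit 0) (nat_lit 130495155841) (nat_lit 228) (nat_lit 68790447840) (nat_lit 76) (nat_lit 39748663622) (nat_lit 29) (nat_lit 5) (nat_lit 32) (nat_lit 5) (nat_lit 30) (nat_lit 4) (nat_lit 374) (nat_lit 363) (nat_lit 283)) (XT.lf (nat_lit 0) (nat_lit 80550059329) (nat_lit 76) (nat_lit 119406092914) (nat_lit 152) (nat_lit 60587437308) (nat_lit 28) (nat_lit 5) (nat_lit 29) (nat_lit 5) (nat_lit 30) (nat_lit 4) (nat_lit 375) (nat_lit 363) (nat_lit 282))))))) (XT.nd (nat_lit 1014) (nat_lit 684) (nat_lit 0) (XT.nd (nat_lit 468) (nat_lit 532) (nat_lit 0) (XT.nd (nat_lit 234) (nat_lit 152) (nat_lit 0) (XT.nd (nat_lit 78) (nat_lit 228) (nat_lit 0) (XT.lf (nat_lit 0) (nat_lit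 260022190070) (nat_lit 76) (nat_lit 23409628684) (nat_lit 152) (nat_lit 1308163379) (nat_lit 28) (nat_lit 5) (nat_lit 29) (nat_lit 5) (nat_lit 30) (nat_lit 4) (nat_lit 376) (nat_lit 363) (nat_lit 281)) (XT.nd (nat_lit 78) (nat_lit 76) (nat_lit 0) (XT.lf (nat_lit 0) (nat_lit 71838123407) (nat_lit 152) (nat_lit 149336469871) (nat_lit 76) (nat_lit 89336782967) (nat_lit 26) (nat_lit 5) (nat_lit 28) (nat_lit 5) (nat_lit 27) (nat_lit 4) (nat_lit 377) (nat_lit 363) (nat_lit 280)) (XT.lf (nat_lit 0) (nat_lit 40106220890) (nat_lit 76) (nat_lit 119844950833) (nat_lit 152) (nat_lit 179568651359) (nat_lit 25) (nat_lit 5) (nat_lit 26) (nat_lit 5) (nat_lit 27) (nat_lit 4) (nat_lit 378) (nat_lit 363) (nat_lit 279)))) (XT.nd (nat_lit 78) (nat_lit 152) (nat_lit 0) (XT.lf (nat_lit 0) (nat_lit 269321531964) (nat_lit 152) (nat_lit 97194866887) (nat_lit 0) (nat_lit 5157084946) (nat_lit 25) (nat_lit 5) (nat_lit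 27) (nat_lit 4) (nat_lit 25) (nat_lit 4) (nat_lit 379) (nat_lit 363) (nat_lit 278)) (XT.nd (nat_lit 78) (nat_lit 76) (nat_lit 0) (XT.lf (nat_lit 0) (nat_lit 142319580369) (nat_lit 76) (nat_lit 264377664628) (nat_lit 76) (nat_lit 212978854) (nat_lit 24) (nat_lit 4) (nat_lit 25) (nat_lit 5) (nat_lit 25) (nat_lit 4) (nat_lit 380) (nat_lit 363) (nat_lit 277)) (XT.lf (nat_lit 0) (nat_lit 112131040796) (nat_lit 152) (nat_lit 23083155676) (nat_lit 76) (nat_lit 310691688455) (nat_lit 23) (nat_lit 5) (nat_lit 25) (nat_lit 5) (nat_lit 24) (nat_lit 4) (nat_lit 381) (nat_lit 363) (nat_lit 276))))) (XT.nd (nat_lit 234) (nat_lit 304) (nat_lit 0) (XT.nd (nat_lit 78) (nat_lit 152) (nat_lit 0) (XT.lf (nat_lit 0) (nat_lit 253982534727) (nat_lit 152) (nat_lit 210591412948) (nat_lit 0) (nat_lit 24273774795) (nat_lit 22) (nat_lit 5) (nat_lit 24) (nat_lit 4) (nat_lit 22) (nat_lit 4) (nat_lit 382) (nat_lit 363)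 (nat_lit 275)) (XT.nd (nat_lit 78) (nat_lit 76) (nat_lit 0) (XT.lf (nat_lit 0) (nat_lit 90940600196) (nat_lit 76) (nat_lit 337639444092) (nat_lit 76) (nat_lit 107930547651) (nat_lit 21) (nat_lit 4) (nat_lit 22) (nat_lit 5) (nat_lit 22) (nat_lit 4) (nat_lit 383) (nat_lit 363) (nat_lit 274)) (XT.lf (nat_lit 0) (nat_lit 46189497902) (nat_lit 152) (nat_lit 130401594655) (nat_lit 76) (nat_lit 412765673101) (nat_lit 20) (nat_lit 5) (nat_lit 22) (nat_lit 5) (nat_lit 21) (nat_lit 4) (nat_lit 384) (nat_lit 363) (nat_lit 273)))) (XT.nd (nat_lit 156) (nat_lit 228) (nat_lit 0) (XT.nd (nat_lit 78) (nat_lit 0) (nat_lit 0) (XT.lf (nat_lit 0) (nat_lit 223783639737) (nat_lit 152) (nat_lit 399827794686) (nat_lit 0) (nat_lit 24036580289) (nat_lit 19) (nat_lit 5) (nat_lit 21) (nat_lit 4) (nat_lit 19) (nat_lit 4) (nat_lit 385) (nat_lit 363) (nat_lit 272)) (XT.lf (nat_lit 0) (nat_lit 443566860592) (nat_lit 152)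 (nat_lit 24963873792) (nat_lit 0) (nat_lit 243819723094) (nat_lit 19) (nat_lit 5) (nat_lit 21) (nat_lit 4) (nat_lit 19) (nat_lit 4) (nat_lit 386) (nat_lit 363) (nat_lit 271))) (XT.nd (nat_lit 78) (nat_lit 152) (nat_lit 0) (XT.lf (nat_lit 0) (nat_lit 445819228162) (nat_lit 76) (nat_lit 268958602019) (nat_lit 76) (nat_lit 69211396651) (nat_lit 18) (nat_lit 4) (nat_lit 19) (nat_lit 5) (nat_lit 19) (nat_lit 4) (nat_lit 387) (nat_lit 363) (nat_lit 270)) (XT.lf (nat_lit 0) (nat_lit 128595810761) (nat_lit 76) (nat_lit 24121898608) (nat_lit 152) (nat_lit 711656702383) (nat_lit 16) (nat_lit 5) (nat_lit 17) (nat_lit 5) (nat_lit 18) (nat_lit 4) (nat_lit 388) (nat_lit 363) (nat_lit 269)))))) (XT.nd (nat_lit 468) (nat_lit 380) (nat_lit 0) (XT.nd (nat_lit 234) (nat_lit 228) (nat_lit 0) (XT.nd (nat_lit 78) (nat_lit 76) (nat_lit 0) (XT.lf (nat_lit 0) (nat_lit 430028984557) (nat_lit 152) (nat_lit 265581546395)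 (nat_lit 0) (nat_lit 256335666553) (nat_lit 16) (nat_lit 5) (nat_lit 18) (nat_lit 4) (nat_lit 16) (nat_lit 4) (nat_lit 389) (nat_lit 363) (nat_lit 268)) (XT.nd (nat_lit 78) (nat_lit 0) (nat_lit 0) (XT.lf (nat_lit 0) (nat_lit 300773020399) (nat_lit 76) (nat_lit 461766826573) (nat_lit 76) (nat_lit 288073469765) (nat_lit 15) (nat_lit 4) (nat_lit 16) (nat_lit 5) (nat_lit 16) (nat_lit 4) (nat_lit 390) (nat_lit 363) (nat_lit 267)) (XT.lf (nat_lit 0) (nat_lit 981928250805) (nat_lit 76) (nat_lit 176881631068) (nat_lit 76) (nat_lit 3188240517) (nat_lit 15) (nat_lit 4) (nat_lit 16) (nat_lit 5) (nat_lit 16) (nat_lit 4) (nat_lit 391) (nat_lit 363) (nat_lit 266)))) (XT.nd (nat_lit 78) (nat_lit 76) (nat_lit 0) (XT.lf (nat_lit 0) (nat_lit 324415285832) (nat_lit 152) (nat_lit 785952467715) (nat_lit 0) (nat_lit 173377529404) (nat_lit 13) (nat_lit 5) (nat_lit 15) (nat_lit 4) (nat_lit 13) (nat_lit 4) (nat_lit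 392) (nat_lit 363) (nat_lit 265)) (XT.nd (nat_lit 78) (nat_lit 76) (nat_lit 0) (XT.lf (nat_lit 0) (nat_lit 719116713563) (nat_lit 152) (nat_lit 133793527811) (nat_lit 0) (nat_lit 568078934948) (nat_lit 13) (nat_lit 5) (nat_lit 15) (nat_lit 4) (nat_lit 13) (nat_lit 4) (nat_lit 393) (nat_lit 363) (nat_lit 264)) (XT.lf (nat_lit 0) (nat_lit 676407516119) (nat_lit 76) (nat_lit 524624330881) (nat_lit 76) (nat_lit 373586532973) (nat_lit 12) (nat_lit 4) (nat_lit 13) (nat_lit 5) (nat_lit 13) (nat_lit 4) (nat_lit 394) (nat_lit 363) (nat_lit 263))))) (XT.nd (nat_lit 234) (nat_lit 228) (nat_lit 0) (XT.nd (nat_lit 78) (nat_lit 76) (nat_lit 0) (XT.lf (nat_lit 0) (nat_lit 10918004123) (nat_lit 152) (nat_lit 127564105817) (nat_lit 76) (nat_lit 1611686364868) (nat_lit 11) (nat_lit 5) (nat_lit 13) (nat_lit 5) (nat_lit 12) (nat_lit 4) (nat_lit 395) (nat_lit 363) (nat_lit 262)) (XT.nd (nat_lit 78) (nat_lit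 0) (nat_lit 0) (XT.lf (nat_lit 0) (nat_lit 463631055249) (nat_lit 152) (nat_lit 1146140594209) (nat_lit 0) (nat_lit 332293812404) (nat_lit 10) (nat_lit 5) (nat_lit 12) (nat_lit 4) (nat_lit 10) (nat_lit 4) (nat_lit 396) (nat_lit 363) (nat_lit 261)) (XT.lf (nat_lit 0) (nat_lit 997831016184) (nat_lit 152) (nat_lit 296385225661) (nat_lit 0) (nat_lit 866493762308) (nat_lit 10) (nat_lit 5) (nat_lit 12) (nat_lit 4) (nat_lit 10) (nat_lit 4) (nat_lit 397) (nat_lit 363) (nat_lit 260)))) (XT.nd (nat_lit 156) (nat_lit 152) (nat_lit 0) (XT.nd (nat_lit 78) (nat_lit 0) (nat_lit 0) (XT.lf (nat_lit 0) (nat_lit 747369268137) (nat_lit 76) (nat_lit 895738594692) (nat_lit 76) (nat_lit 764401331225) (nat_lit 9) (nat_lit 4) (nat_lit 10) (nat_lit 5) (nat_lit 10) (nat_lit 4) (nat_lit 398) (nat_lit 363) (nat_lit 259)) (XT.lf (nat_lit 0) (nat_lit 1980996440623) (nat_lit 76) (nat_lit 419672587444) (nat_lit 76) (nat_lit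 288335315636) (nat_lit 9) (nat_lit 4) (nat_lit 10) (nat_lit 5) (nat_lit 10) (nat_lit 4) (nat_lit 399) (nat_lit 363) (nat_lit 258))) (XT.nd (nat_lit 78) (nat_lit 0) (nat_lit 0) (XT.lf (nat_lit 0) (nat_lit 259788002250) (nat_lit 152) (nat_lit 2602186838707) (nat_lit 0) (nat_lit 145581672631) (nat_lit 7) (nat_lit 5) (nat_lit 9) (nat_lit 4) (nat_lit 7) (nat_lit 4) (nat_lit 400) (nat_lit 363) (nat_lit 257)) (XT.lf (nat_lit 0) (nat_lit 919365978042) (nat_lit 152) (nat_lit 1638492919340) (nat_lit 0) (nat_lit 805159642939) (nat_lit 7) (nat_lit 5) (nat_lit 9) (nat_lit 4) (nat_lit 7) (nat_lit 4) (nat_lit 401) (nat_lit 363) (nat_lit 256))))))))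
noncomputable def xc86 : XT := (XT.nd (nat_lit 1950) (nat_lit 0) (nat_lit 0) (XT.nd (nat_lit 936) (nat_lit 152) (nat_lit 0) (XT.nd (nat_lit 468) (nat_lit 76) (nat_lit 0) (XT.nd (nat_lit 234) (nat_lit 152) (nat_lit 0) (XT.nd (nat_lit 78) (nat_lit 76) (nat_lit 0) (XT.lf (nat_lit 0) (nat_lit 1677880592949) (nat_lit 152) (nat_lit 530245033627) (nat_lit 0) (nat_lit 1563674253078) (nat_lit 7) (nat_lit 5) (nat_lit 9) (nat_lit 4) (nat_lit 7) (nat_lit 4) (nat_lit 402) (nat_lit 363) (nat_lit 255)) (XT.nd (nat_lit 78) (nat_lit 0) (nat_lit 0) (XT.lf (nat_lit 0) (nat_lit 816972467777) (nat_lit 76) (nat_lit 1767028970221) (nat_lit 76) (nat_lit 1652822626203) (nat_lit 6) (nat_lit 4) (nat_lit 7) (nat_lit 5) (nat_lit 7) (nat_lit 4) (nat_lit 403) (nat_lit 363) (nat_lit 254)) (XT.lf (nat_lit 0) (nat_lit 2425864804660) (nat_lit 76) (nat_lit 1227892911706) (nat_lit 76) (nat_lit 1113686564081) (nat_lit 6) (nat_lit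 4) (nat_lit 7) (nat_lit 5) (nat_lit 7) (nat_lit 4) (nat_lit 404) (nat_lit 363) (nat_lit 253)))) (XT.nd (nat_lit 78) (nat_lit 152) (nat_lit 0) (XT.lf (nat_lit 0) (nat_lit 4276090904337) (nat_lit 76) (nat_lit 607886490873) (nat_lit 76) (nat_lit 493680140113) (nat_lit 6) (nat_lit 4) (nat_lit 7) (nat_lit 5) (nat_lit 7) (nat_lit 4) (nat_lit 405) (nat_lit 363) (nat_lit 252)) (XT.nd (nat_lit 78) (nat_lit 0) (nat_lit 0) (XT.lf (nat_lit 0) (nat_lit 219603919508) (nat_lit 152) (nat_lit 5735172125926) (nat_lit 0) (nat_lit 120294046911) (nat_lit 4) (nat_lit 5) (nat_lit 6) (nat_lit 4) (nat_lit 4) (nat_lit 4) (nat_lit 406) (nat_lit 363) (nat_lit 251)) (XT.lf (nat_lit 0) (nat_lit 1078607970312) (nat_lit 152) (nat_lit 4802271556467) (nat_lit 0) (nat_lit 979298095653) (nat_lit 4) (nat_lit 5) (nat_lit 6) (nat_lit 4) (nat_lit 4) (nat_lit 4) (nat_lit 407) (nat_lit 363) (nat_lit 250))))) (XT.nd (nat_lit 234)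 (nat_lit 76) (nat_lit 0) (XT.nd (nat_lit 78) (nat_lit 0) (nat_lit 0) (XT.lf (nat_lit 0) (nat_lit 2066462596097) (nat_lit 152) (nat_lit 3729435971188) (nat_lit 0) (nat_lit 1967152719645) (nat_lit 4) (nat_lit 5) (nat_lit 6) (nat_lit 4) (nat_lit 4) (nat_lit 4) (nat_lit 408) (nat_lit 363) (nat_lit 249)) (XT.nd (nat_lit 78) (nat_lit 0) (nat_lit 0) (XT.lf (nat_lit 0) (nat_lit 3202495387366) (nat_lit 152) (nat_lit 2495675108637) (nat_lit 0) (nat_lit 3103185509356) (nat_lit 4) (nat_lit 5) (nat_lit 6) (nat_lit 4) (nat_lit 4) (nat_lit 4) (nat_lit 409) (nat_lit 363) (nat_lit 248)) (XT.lf (nat_lit 0) (nat_lit 4508933072646) (nat_lit 152) (nat_lit 1076850169330) (nat_lit 0) (nat_lit 4409623193280) (nat_lit 4) (nat_lit 5) (nat_lit 6) (nat_lit 4) (nat_lit 4) (nat_lit 4) (nat_lit 410) (nat_lit 363) (nat_lit 247)))) (XT.nd (nat_lit 78) (nat_lit 0) (nat_lit 0) (XT.lf (nat_lit 0) (nat_lit 609017406019) (nat_lit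 76) (nat_lit 5427537095287) (nat_lit 76) (nat_lit 5328227214742) (nat_lit 3) (nat_lit 4) (nat_lit 4) (nat_lit 5) (nat_lit 4) (nat_lit 4) (nat_lit 411) (nat_lit 363) (nat_lit 246)) (XT.nd (nat_lit 78) (nat_lit 0) (nat_lit 0) (XT.lf (nat_lit 0) (nat_lit 2668788348701) (nat_lit 76) (nat_lit 5180820670308) (nat_lit 76) (nat_lit 5081510788738) (nat_lit 3) (nat_lit 4) (nat_lit 4) (nat_lit 5) (nat_lit 4) (nat_lit 4) (nat_lit 412) (nat_lit 363) (nat_lit 245)) (XT.lf (nat_lit 0) (nat_lit 5037524894802) (nat_lit 76) (nat_lit 4897096801766) (nat_lit 76) (nat_lit 4797786919305) (nat_lit 3) (nat_lit 4) (nat_lit 4) (nat_lit 5) (nat_lit 4) (nat_lit 4) (nat_lit 413) (nat_lit 363) (nat_lit 244)))))) (XT.nd (nat_lit 468) (nat_lit 152) (nat_lit 0) (XT.nd (nat_lit 234) (nat_lit 0) (nat_lit 0) (XT.nd (nat_lit 78) (nat_lit 0) (nat_lit 0) (XT.lf (nat_lit 0) (nat_lit 7761571889787) (nat_lit 76) (nat_lit 4570814370494)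 (nat_lit 76) (nat_lit 4471504487257) (nat_lit 3) (nat_lit 4) (nat_lit 4) (nat_lit 5) (nat_lit 4) (nat_lit 4) (nat_lit 414) (nat_lit 363) (nat_lit 243)) (XT.nd (nat_lit 78) (nat_lit 0) (nat_lit 0) (XT.lf (nat_lit 0) (nat_lit 10894225905299) (nat_lit 76) (nat_lit 4195589589792) (nat_lit 76) (nat_lit 4096279705882) (nat_lit 3) (nat_lit 4) (nat_lit 4) (nat_lit 5) (nat_lit 4) (nat_lit 4) (nat_lit 415) (nat_lit 363) (nat_lit 242)) (XT.lf (nat_lit 0) (nat_lit 14496777998163) (nat_lit 76) (nat_lit 3764081105256) (nat_lit 76) (nat_lit 3664771220760) (nat_lit 3) (nat_lit 4) (nat_lit 4) (nat_lit 5) (nat_lit 4) (nat_lit 4) (nat_lit 416) (nat_lit 363) (nat_lit 241)))) (XT.nd (nat_lit 78) (nat_lit 0) (nat_lit 0) (XT.lf (nat_lit 0) (nat_lit 18639712883238) (nat_lit 76) (nat_lit 3267846359580) (nat_lit 76) (nat_lit 3168536474574) (nat_lit 3) (nat_lit 4) (nat_lit 4) (nat_lit 5) (nat_lit 4) (nat_lit 4) (nat_lit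 417) (nat_lit 363) (nat_lit 240)) (XT.nd (nat_lit 78) (nat_lit 0) (nat_lit 0) (XT.lf (nat_lit 0) (nat_lit 23404087982190) (nat_lit 76) (nat_lit 2697176412087) (nat_lit 76) (nat_lit 2597866526638) (nat_lit 3) (nat_lit 4) (nat_lit 4) (nat_lit 5) (nat_lit 4) (nat_lit 4) (nat_lit 418) (nat_lit 363) (nat_lit 239)) (XT.lf (nat_lit 0) (nat_lit 28883119329563) (nat_lit 76) (nat_lit 2040905981197) (nat_lit 76) (nat_lit 1941596095362) (nat_lit 3) (nat_lit 4) (nat_lit 4) (nat_lit 5) (nat_lit 4) (nat_lit 4) (nat_lit 419) (nat_lit 363) (nat_lit 238))))) (XT.nd (nat_lit 234) (nat_lit 0) (nat_lit 0) (XT.nd (nat_lit 78) (nat_lit 152) (nat_lit 0) (XT.lf (nat_lit 0) (nat_lit 35184005364762) (nat_lit 76) (nat_lit 1286194993260) (nat_lit 76) (nat_lit 1186885107090) (nat_lit 3) (nat_lit 4) (nat_lit 4) (nat_lit 5) (nat_lit 4) (nat_lit 4) (nat_lit 420) (nat_lit 363) (nat_lit 237)) (XT.nd (nat_lit 78) (nat_lit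 152) (nat_lit 0) (XT.lf (nat_lit 0) (nat_lit 42430024292824) (nat_lit 76) (nat_lit 418277363731) (nat_lit 76) (nat_lit 318967477269) (nat_lit 3) (nat_lit 4) (nat_lit 4) (nat_lit 5) (nat_lit 4) (nat_lit 4) (nat_lit 421) (nat_lit 363) (nat_lit 236)) (XT.lf (nat_lit 0) (nat_lit 702636433169) (nat_lit 152) (nat_lit 48168251635677) (nat_lit 0) (nat_lit 616280009939) (nat_lit 1) (nat_lit 5) (nat_lit 3) (nat_lit 4) (nat_lit 1) (nat_lit 4) (nat_lit 422) (nat_lit 363) (nat_lit 235)))) (XT.nd (nat_lit 156) (nat_lit 0) (nat_lit 0) (XT.nd (nat_lit 78) (nat_lit 0) (nat_lit 0) (XT.lf (nat_lit 0) (nat_lit 1905115632248) (nat_lit 152) (nat_lit 53019855050863) (nat_lit 0) (nat_lit 1818759208827) (nat_lit 1) (nat_lit 5) (nat_lit 3) (nat_lit 4) (nat_lit 1) (nat_lit 4) (nat_lit 423) (nat_lit 363) (nat_lit 234)) (XT.lf (nat_lit 0) (nat_lit 3287966706586) (nat_lit 152) (nat_lit 58599198988173) (nat_lit 0) (nat_lit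 3201610282997) (nat_lit 1) (nat_lit 5) (nat_lit 3) (nat_lit 4) (nat_lit 1) (nat_lit 4) (nat_lit 424) (nat_lit 363) (nat_lit 233))) (XT.nd (nat_lit 78) (nat_lit 0) (nat_lit 0) (XT.lf (nat_lit 0) (nat_lit 4878245438070) (nat_lit 152) (nat_lit 65015444524640) (nat_lit 0) (nat_lit 4791889014337) (nat_lit 1) (nat_lit 5) (nat_lit 3) (nat_lit 4) (nat_lit 1) (nat_lit 4) (nat_lit 425) (nat_lit 363) (nat_lit 232)) (XT.lf (nat_lit 0) (nat_lit 6707065975795) (nat_lit 152) (nat_lit 72394126899022) (nat_lit 0) (nat_lit 6620709551936) (nat_lit 1) (nat_lit 5) (nat_lit 3) (nat_lit 4) (nat_lit 1) (nat_lit 4) (nat_lit 426) (nat_lit 363) (nat_lit 231))))))) (XT.nd (nat_lit 48438) (nat_lit 0) (nat_lit 1824) (XT.nd (nat_lit 780) (nat_lit 0) (nat_lit 0) (XT.nd (nat_lit 546) (nat_lit 0) (nat_lit 0) (XT.nd (nat_lit 78) (nat_lit 0) (nat_lit 0) (XT.lf (nat_lit 0) (nat_lit 8810209591153) (nat_lit 152) (nat_lit 80879611636035)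 (nat_lit 0) (nat_lit 8723853167184) (nat_lit 1) (nat_lit 5) (nat_lit 3) (nat_lit 4) (nat_lit 1) (nat_lit 4) (nat_lit 427) (nat_lit 363) (nat_lit 230)) (XT.nd (nat_lit 390) (nat_lit 0) (nat_lit 0) (XT.lf (nat_lit 0) (nat_lit 11228824746181) (nat_lit 152) (nat_lit 90637919089228) (nat_lit 0) (nat_lit 11142468322117) (nat_lit 1) (nat_lit 5) (nat_lit 3) (nat_lit 4) (nat_lit 1) (nat_lit 4) (nat_lit 428) (nat_lit 363) (nat_lit 229)) (XT.lf (nat_lit 0) (nat_lit 29982134003315) (nat_lit 152) (nat_lit 166301282750823) (nat_lit 0) (nat_lit 29895777578932) (nat_lit 1) (nat_lit 5) (nat_lit 3) (nat_lit 4) (nat_lit 1) (nat_lit 4) (nat_lit 433) (nat_lit 363) (nat_lit 224)))) (XT.nd (nat_lit 78) (nat_lit 0) (nat_lit 0) (XT.lf (nat_lit 0) (nat_lit 35576537810206) (nat_lit 152) (nat_lit 188872840892537) (nat_lit 0) (nat_lit 35490181385781) (nat_lit 1) (nat_lit 5) (nat_lit 3) (nat_lit 4) (nat_lit 1) (nat_lit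 4) (nat_lit 434) (nat_lit 363) (nat_lit 223)) (XT.nd (nat_lit 78) (nat_lit 0) (nat_lit 0) (XT.lf (nat_lit 0) (nat_lit 42010102187140) (nat_lit 152) (nat_lit 214830132757625) (nat_lit 0) (nat_lit 41923745762680) (nat_lit 1) (nat_lit 5) (nat_lit 3) (nat_lit 4) (nat_lit 1) (nat_lit 4) (nat_lit 435) (nat_lit 363) (nat_lit 222)) (XT.lf (nat_lit 0) (nat_lit 49408701219754) (nat_lit 152) (nat_lit 244681018404316) (nat_lit 0) (nat_lit 49322344795262) (nat_lit 1) (nat_lit 5) (nat_lit 3) (nat_lit 4) (nat_lit 1) (nat_lit 4) (nat_lit 436) (nat_lit 363) (nat_lit 221))))) (XT.nd (nat_lit 234) (nat_lit 0) (nat_lit 0) (XT.nd (nat_lit 78) (nat_lit 0) (nat_lit 0) (XT.lf (nat_lit 0) (nat_lit 57917090106511) (nat_lit 152) (nat_lit 279009536899610) (nat_lit 0) (nat_lit 57830733681993) (nat_lit 1) (nat_lit 5) (nat_lit 3) (nat_lit 4) (nat_lit 1) (nat_lit 4) (nat_lit 437) (nat_lit 363) (nat_lit 220)) (XT.nd (nat_lit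 78) (nat_lit 0) (nat_lit 0) (XT.lf (nat_lit 0) (nat_lit 67701737325632) (nat_lit 152) (nat_lit 318487333170591) (nat_lit 0) (nat_lit 67615380901090) (nat_lit 1) (nat_lit 5) (nat_lit 3) (nat_lit 4) (nat_lit 1) (nat_lit 4) (nat_lit 438) (nat_lit 363) (nat_lit 219)) (XT.lf (nat_lit 0) (nat_lit 78954081627054) (nat_lit 152) (nat_lit 363886798883428) (nat_lit 0) (nat_lit 78867725202492) (nat_lit 1) (nat_lit 5) (nat_lit 3) (nat_lit 4) (nat_lit 1) (nat_lit 4) (nat_lit 439) (nat_lit 363) (nat_lit 218)))) (XT.nd (nat_lit 47268) (nat_lit 0) (nat_lit 2736) (XT.nd (nat_lit 47190) (nat_lit 0) (nat_lit 2736) (XT.lf (nat_lit 0) (nat_lit 91894277573198) (nat_lit 152) (nat_lit 416096184454243) (nat_lit 0) (nat_lit 91807921148619) (nat_lit 1) (nat_lit 5) (nat_lit 3) (nat_lit 4) (nat_lit 1) (nat_lit 4) (nat_lit 440) (nat_lit 363) (nat_lit 217)) (XT.lf (nat_lit 0) (nat_lit 16710932157) (nat_lit 380) (nat_lit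 20644764845) (nat_lit 380) (nat_lit 20644764845) (nat_lit 37) (nat_lit 3) (nat_lit 42) (nat_lit 3) (nat_lit 42) (nat_lit 5) (nat_lit 364) (nat_lit 364) (nat_lit 292))) (XT.nd (nat_lit 78) (nat_lit 0) (nat_lit 76) (XT.lf (nat_lit 76) (nat_lit 17808590434) (nat_lit 0) (nat_lit 18861831625) (nat_lit 380) (nat_lit 87919281101) (nat_lit 38) (nat_lit 5) (nat_lit 37) (nat_lit 3) (nat_lit 42) (nat_lit 5) (nat_lit 365) (nat_lit 364) (nat_lit 291)) (XT.lf (nat_lit 0) (nat_lit 44545022019) (nat_lit 304) (nat_lit 45713138191) (nat_lit 380) (nat_lit 43587825930) (nat_lit 38) (nat_lit 5) (nat_lit 42) (nat_lit 5) (nat_lit 43) (nat_lit 5) (nat_lit 366) (nat_lit 364) (nat_lit 290)))))) (XT.nd (nat_lit 468) (nat_lit 608) (nat_lit 0) (XT.nd (nat_lit 234) (nat_lit 152) (nat_lit 0) (XT.nd (nat_lit 78) (nat_lit 228) (nat_lit 0) (XT.lf (nat_lit 76) (nat_lit 25924246586) (nat_lit 0) (nat_lit 29647511710) (nat_lit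 380) (nat_lit 88623311652) (nat_lit 39) (nat_lit 5) (nat_lit 38) (nat_lit 5) (nat_lit 43) (nat_lit 5) (nat_lit 367) (nat_lit 364) (nat_lit 289)) (XT.nd (nat_lit 78) (nat_lit 304) (nat_lit 0) (XT.lf (nat_lit 0) (nat_lit 72413794623) (nat_lit 304) (nat_lit 44066313887) (nat_lit 76) (nat_lit 38992214661) (nat_lit 39) (nat_lit 5) (nat_lit 43) (nat_lit 5) (nat_lit 40) (nat_lit 5) (nat_lit 368) (nat_lit 364) (nat_lit 288)) (XT.lf (nat_lit 0) (nat_lit 43751605477) (nat_lit 304) (nat_lit 51253430021) (nat_lit 380) (nat_lit 72952694263) (nat_lit 35) (nat_lit 5) (nat_lit 39) (nat_lit 5) (nat_lit 40) (nat_lit 5) (nat_lit 369) (nat_lit 364) (nat_lit 287)))) (XT.nd (nat_lit 78) (nat_lit 152) (nat_lit 0) (XT.lf (nat_lit 0) (nat_lit 124381355557) (nat_lit 380) (nat_lit 33369787298) (nat_lit 76) (nat_lit 24055345744) (nat_lit 35) (nat_lit 5) (nat_lit 40) (nat_lit 5) (nat_lit 36) (nat_lit 5) (nat_lit 370)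 (nat_lit 364) (nat_lit 286)) (XT.nd (nat_lit 78) (nat_lit 0) (nat_lit 0) (XT.lf (nat_lit 0) (nat_lit 75359898717) (nat_lit 152) (nat_lit 88364922956) (nat_lit 228) (nat_lit 33173635069) (nat_lit 33) (nat_lit 5) (nat_lit 35) (nat_lit 5) (nat_lit 36) (nat_lit 5) (nat_lit 371) (nat_lit 364) (nat_lit 285)) (XT.lf (nat_lit 0) (nat_lit 204148849081) (nat_lit 152) (nat_lit 6564890267) (nat_lit 228) (nat_lit 3278891177) (nat_lit 33) (nat_lit 5) (nat_lit 35) (nat_lit 5) (nat_lit 36) (nat_lit 5) (nat_lit 372) (nat_lit 364) (nat_lit 284))))) (XT.nd (nat_lit 234) (nat_lit 304) (nat_lit 0) (XT.nd (nat_lit 78) (nat_lit 152) (nat_lit 0) (XT.lf (nat_lit 0) (nat_lit 37602200781) (nat_lit 152) (nat_lit 107814559523) (nat_lit 76) (nat_lit 86650370202) (nat_lit 31) (nat_lit 5) (nat_lit 33) (nat_lit 5) (nat_lit 32) (nat_lit 5) (nat_lit 373) (nat_lit 364) (nat_lit 283)) (XT.nd (nat_lit 78) (nat_lit 0) (nat_lit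 0) (XT.lf (nat_lit 0) (nat_lit 28870572883) (nat_lit 152) (nat_lit 57455995856) (nat_lit 228) (nat_lit 166195794974) (nat_lit 29) (nat_lit 5) (nat_lit 31) (nat_lit 5) (nat_lit 32) (nat_lit 5) (nat_lit 374) (nat_lit 364) (nat_lit 282)) (XT.lf (nat_lit 0) (nat_lit 150072879649) (nat_lit 228) (nat_lit 79103514302) (nat_lit 76) (nat_lit 45712494877) (nat_lit 29) (nat_lit 5) (nat_lit 32) (nat_lit 5) (nat_lit 30) (nat_lit 4) (nat_lit 375) (nat_lit 364) (nat_lit 281)))) (XT.nd (nat_lit 156) (nat_lit 228) (nat_lit 0) (XT.nd (nat_lit 78) (nat_lit 0) (nat_lit 0) (XT.lf (nat_lit 0) (nat_lit 92637818910) (nat_lit 76) (nat_lit 137314973965) (nat_lit 152) (nat_lit 69671851565) (nat_lit 28) (nat_lit 5) (nat_lit 29) (nat_lit 5) (nat_lit 30) (nat_lit 4) (nat_lit 376) (nat_lit 364) (nat_lit 280)) (XT.lf (nat_lit 0) (nat_lit 299030084390) (nat_lit 76) (nat_lit 26919305259) (nat_lit 152) (nat_lit 1501169330)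 (nat_lit 28) (nat_lit 5) (nat_lit 29) (nat_lit 5) (nat_lit 30) (nat_lit 4) (nat_lit 377) (nat_lit 364) (nat_lit 279))) (XT.nd (nat_lit 78) (nat_lit 76) (nat_lit 0) (XT.lf (nat_lit 0) (nat_lit 82616661620) (nat_lit 152) (nat_lit 171731974451) (nat_lit 76) (nat_lit 102739023080) (nat_lit 26) (nat_lit 5) (nat_lit 28) (nat_lit 5) (nat_lit 27) (nat_lit 4) (nat_lit 378) (nat_lit 364) (nat_lit 278)) (XT.lf (nat_lit 0) (nat_lit 46126894201) (nat_lit 76) (nat_lit 137819601476) (nat_lit 152) (nat_lit 206500903138) (nat_lit 25) (nat_lit 5) (nat_lit 26) (nat_lit 5) (nat_lit 27) (nat_lit 4) (nat_lit 379) (nat_lit 364) (nat_lit 277))))))))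
noncomputable def xc87 : XT := (XT.nd (nat_lit 2028) (nat_lit 380) (nat_lit 0) (XT.nd (nat_lit 1014) (nat_lit 684) (nat_lit 0) (XT.nd (nat_lit 468) (nat_lit 380) (nat_lit 0) (XT.nd (nat_lit 234) (nat_lit 228) (nat_lit 0) (XT.nd (nat_lit 78) (nat_lit 152) (nat_lit 0) (XT.lf (nat_lit 0) (nat_lit 309722139863) (nat_lit 152) (nat_lit 111769704499) (nat_lit 0) (nat_lit 5932304853) (nat_lit 25) (nat_lit 5) (nat_lit 27) (nat_lit 4) (nat_lit 25) (nat_lit 4) (nat_lit 380) (nat_lit 364) (nat_lit 276)) (XT.nd (nat_lit 78) (nat_lit 76) (nat_lit 0) (XT.lf (nat_lit 0) (nat_lit 163671710189) (nat_lit 76) (nat_lit 304032363088) (nat_lit 76) (nat_lit 242347544) (nat_lit 24) (nat_lit 4) (nat_lit 25) (nat_lit 5) (nat_lit 25) (nat_lit 4) (nat_lit 381) (nat_lit 364) (nat_lit 275)) (XT.lf (nat_lit 0) (nat_lit 128952739189) (nat_lit 152) (nat_lit 26541783273) (nat_lit 76) (nat_lit 357296938577) (nat_lit 23) (nat_lit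 5) (nat_lit 25) (nat_lit 5) (nat_lit 24) (nat_lit 4) (nat_lit 382) (nat_lit 364) (nat_lit 274)))) (XT.nd (nat_lit 78) (nat_lit 152) (nat_lit 0) (XT.lf (nat_lit 0) (nat_lit 292081915008) (nat_lit 152) (nat_lit 242176236686) (nat_lit 0) (nat_lit 27916428887) (nat_lit 22) (nat_lit 5) (nat_lit 24) (nat_lit 4) (nat_lit 22) (nat_lit 4) (nat_lit 383) (nat_lit 364) (nat_lit 273)) (XT.nd (nat_lit 78) (nat_lit 76) (nat_lit 0) (XT.lf (nat_lit 0) (nat_lit 104585401694) (nat_lit 76) (nat_lit 388283542115) (nat_lit 76) (nat_lit 124117952773) (nat_lit 21) (nat_lit 4) (nat_lit 22) (nat_lit 5) (nat_lit 22) (nat_lit 4) (nat_lit 384) (nat_lit 364) (nat_lit 272)) (XT.lf (nat_lit 0) (nat_lit 53119647119) (nat_lit 152) (nat_lit 149958437793) (nat_lit 76) (nat_lit 474681936752) (nat_lit 20) (nat_lit 5) (nat_lit 22) (nat_lit 5) (nat_lit 21) (nat_lit 4) (nat_lit 385) (nat_lit 364) (nat_lit 271))))) (XT.nd (nat_lit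 234) (nat_lit 228) (nat_lit 0) (XT.nd (nat_lit 78) (nat_lit 76) (nat_lit 0) (XT.lf (nat_lit 0) (nat_lit 257352886101) (nat_lit 152) (nat_lit 459798543557) (nat_lit 0) (nat_lit 27643532058) (nat_lit 19) (nat_lit 5) (nat_lit 21) (nat_lit 4) (nat_lit 19) (nat_lit 4) (nat_lit 386) (nat_lit 364) (nat_lit 270)) (XT.nd (nat_lit 78) (nat_lit 76) (nat_lit 0) (XT.lf (nat_lit 0) (nat_lit 510103368293) (nat_lit 152) (nat_lit 28705480660) (nat_lit 0) (nat_lit 280393955233) (nat_lit 19) (nat_lit 5) (nat_lit 21) (nat_lit 4) (nat_lit 19) (nat_lit 4) (nat_lit 387) (nat_lit 364) (nat_lit 269)) (XT.lf (nat_lit 0) (nat_lit 512694951397) (nat_lit 76) (nat_lit 309300956618) (nat_lit 76) (nat_lit 79591492239) (nat_lit 18) (nat_lit 4) (nat_lit 19) (nat_lit 5) (nat_lit 19) (nat_lit 4) (nat_lit 388) (nat_lit 364) (nat_lit 268)))) (XT.nd (nat_lit 156) (nat_lit 76) (nat_lit 0) (XT.nd (nat_lit 78) (nat_lit 0) (nat_lit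 0) (XT.lf (nat_lit 0) (nat_lit 147888029580) (nat_lit 76) (nat_lit 27738732551) (nat_lit 152) (nat_lit 818403601850) (nat_lit 16) (nat_lit 5) (nat_lit 17) (nat_lit 5) (nat_lit 18) (nat_lit 4) (nat_lit 389) (nat_lit 364) (nat_lit 267)) (XT.lf (nat_lit 0) (nat_lit 494534598703) (nat_lit 152) (nat_lit 305416172561) (nat_lit 0) (nat_lit 294787165827) (nat_lit 16) (nat_lit 5) (nat_lit 18) (nat_lit 4) (nat_lit 16) (nat_lit 4) (nat_lit 390) (nat_lit 364) (nat_lit 266))) (XT.nd (nat_lit 78) (nat_lit 0) (nat_lit 0) (XT.lf (nat_lit 0) (nat_lit 345891460807) (nat_lit 76) (nat_lit 531030567478) (nat_lit 76) (nat_lit 331283105260) (nat_lit 15) (nat_lit 4) (nat_lit 16) (nat_lit 5) (nat_lit 16) (nat_lit 4) (nat_lit 391) (nat_lit 364) (nat_lit 265)) (XT.lf (nat_lit 0) (nat_lit 1129219651337) (nat_lit 76) (nat_lit 203412760006) (nat_lit 76) (nat_lit 3665272273) (nat_lit 15) (nat_lit 4) (nat_lit 16) (nat_lit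 5) (nat_lit 16) (nat_lit 4) (nat_lit 392) (nat_lit 364) (nat_lit 264)))))) (XT.nd (nat_lit 468) (nat_lit 304) (nat_lit 0) (XT.nd (nat_lit 234) (nat_lit 152) (nat_lit 0) (XT.nd (nat_lit 78) (nat_lit 76) (nat_lit 0) (XT.lf (nat_lit 0) (nat_lit 373078668952) (nat_lit 152) (nat_lit 903843060797) (nat_lit 0) (nat_lit 199385182066) (nat_lit 13) (nat_lit 5) (nat_lit 15) (nat_lit 4) (nat_lit 13) (nat_lit 4) (nat_lit 393) (nat_lit 364) (nat_lit 263)) (XT.nd (nat_lit 78) (nat_lit 76) (nat_lit 0) (XT.lf (nat_lit 0) (nat_lit 826985168638) (nat_lit 152) (nat_lit 153860576918) (nat_lit 0) (nat_lit 653291664975) (nat_lit 13) (nat_lit 5) (nat_lit 15) (nat_lit 4) (nat_lit 13) (nat_lit 4) (nat_lit 394) (nat_lit 364) (nat_lit 262)) (XT.lf (nat_lit 0) (nat_lit 777870533599) (nat_lit 76) (nat_lit 603316993097) (nat_lit 76) (nat_lit 429623474846) (nat_lit 12) (nat_lit 4) (nat_lit 13) (nat_lit 5) (nat_lit 13)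 (nat_lit 4) (nat_lit 395) (nat_lit 364) (nat_lit 261)))) (XT.nd (nat_lit 78) (nat_lit 76) (nat_lit 0) (XT.lf (nat_lit 0) (nat_lit 12556527052) (nat_lit 152) (nat_lit 146696997773) (nat_lit 76) (nat_lit 1853440097836) (nat_lit 11) (nat_lit 5) (nat_lit 13) (nat_lit 5) (nat_lit 12) (nat_lit 4) (nat_lit 396) (nat_lit 364) (nat_lit 260)) (XT.nd (nat_lit 78) (nat_lit 0) (nat_lit 0) (XT.lf (nat_lit 0) (nat_lit 533176532437) (nat_lit 152) (nat_lit 1318059955992) (nat_lit 0) (nat_lit 382138669857) (nat_lit 10) (nat_lit 5) (nat_lit 12) (nat_lit 4) (nat_lit 10) (nat_lit 4) (nat_lit 397) (nat_lit 364) (nat_lit 259)) (XT.lf (nat_lit 0) (nat_lit 1147506380699) (nat_lit 152) (nat_lit 340841507469) (nat_lit 0) (nat_lit 996468509778) (nat_lit 10) (nat_lit 5) (nat_lit 12) (nat_lit 4) (nat_lit 10) (nat_lit 4) (nat_lit 398) (nat_lit 364) (nat_lit 258))))) (XT.nd (nat_lit 234) (nat_lit 76) (nat_lit 0) (XT.nd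 (nat_lit 78) (nat_lit 152) (nat_lit 0) (XT.lf (nat_lit 0) (nat_lit 859476092125) (nat_lit 76) (nat_lit 1030098628705) (nat_lit 76) (nat_lit 879060750531) (nat_lit 9) (nat_lit 4) (nat_lit 10) (nat_lit 5) (nat_lit 10) (nat_lit 4) (nat_lit 399) (nat_lit 364) (nat_lit 257)) (XT.nd (nat_lit 78) (nat_lit 152) (nat_lit 0) (XT.lf (nat_lit 0) (nat_lit 2278147153470) (nat_lit 76) (nat_lit 482622818873) (nat_lit 76) (nat_lit 331584934393) (nat_lit 9) (nat_lit 4) (nat_lit 10) (nat_lit 5) (nat_lit 10) (nat_lit 4) (nat_lit 400) (nat_lit 364) (nat_lit 256)) (XT.lf (nat_lit 0) (nat_lit 298756819068) (nat_lit 152) (nat_lit 2992513555630) (nat_lit 0) (nat_lit 167419523446) (nat_lit 7) (nat_lit 5) (nat_lit 9) (nat_lit 4) (nat_lit 7) (nat_lit 4) (nat_lit 401) (nat_lit 364) (nat_lit 255)))) (XT.nd (nat_lit 156) (nat_lit 76) (nat_lit 0) (XT.nd (nat_lit 78) (nat_lit 0) (nat_lit 0) (XT.lf (nat_lit 0) (nat_lit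 1057271410819) (nat_lit 152) (nat_lit 1884265719082) (nat_lit 0) (nat_lit 925934111050) (nat_lit 7) (nat_lit 5) (nat_lit 9) (nat_lit 4) (nat_lit 7) (nat_lit 4) (nat_lit 402) (nat_lit 364) (nat_lit 254)) (XT.lf (nat_lit 0) (nat_lit 1929563148040) (nat_lit 152) (nat_lit 609780798967) (nat_lit 0) (nat_lit 1798225844666) (nat_lit 7) (nat_lit 5) (nat_lit 9) (nat_lit 4) (nat_lit 7) (nat_lit 4) (nat_lit 403) (nat_lit 364) (nat_lit 253))) (XT.nd (nat_lit 78) (nat_lit 0) (nat_lit 0) (XT.lf (nat_lit 0) (nat_lit 939519282661) (nat_lit 76) (nat_lit 2032082815502) (nat_lit 76) (nat_lit 1900745508992) (nat_lit 6) (nat_lit 4) (nat_lit 7) (nat_lit 5) (nat_lit 7) (nat_lit 4) (nat_lit 404) (nat_lit 364) (nat_lit 252)) (XT.lf (nat_lit 0) (nat_lit 2789745346853) (nat_lit 76) (nat_lit 1412076413460) (nat_lit 76) (nat_lit 1280739104223) (nat_lit 6) (nat_lit 4) (nat_lit 7) (nat_lit 5) (nat_lit 7) (nat_lit 4)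 (nat_lit 405) (nat_lit 364) (nat_lit 251))))))) (XT.nd (nat_lit 1014) (nat_lit 152) (nat_lit 0) (XT.nd (nat_lit 468) (nat_lit 76) (nat_lit 0) (XT.nd (nat_lit 234) (nat_lit 0) (nat_lit 0) (XT.nd (nat_lit 78) (nat_lit 152) (nat_lit 0) (XT.lf (nat_lit 0) (nat_lit 4917505254330) (nat_lit 76) (nat_lit 699069086241) (nat_lit 76) (nat_lit 567731774634) (nat_lit 6) (nat_lit 4) (nat_lit 7) (nat_lit 5) (nat_lit 7) (nat_lit 4) (nat_lit 406) (nat_lit 364) (nat_lit 250)) (XT.nd (nat_lit 78) (nat_lit 0) (nat_lit 0) (XT.lf (nat_lit 0) (nat_lit 252544858885) (nat_lit 152) (nat_lit 6595447195419) (nat_lit 0) (nat_lit 138338499173) (nat_lit 4) (nat_lit 5) (nat_lit 6) (nat_lit 4) (nat_lit 4) (nat_lit 4) (nat_lit 407) (nat_lit 364) (nat_lit 249)) (XT.lf (nat_lit 0) (nat_lit 1240399471468) (nat_lit 152) (nat_lit 5522611638288) (nat_lit 0) (nat_lit 1126193110197) (nat_lit 4) (nat_lit 5) (nat_lit 6) (nat_lit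 4) (nat_lit 4) (nat_lit 4) (nat_lit 408) (nat_lit 364) (nat_lit 248)))) (XT.nd (nat_lit 78) (nat_lit 0) (nat_lit 0) (XT.lf (nat_lit 0) (nat_lit 2376432251258) (nat_lit 152) (nat_lit 4288850800215) (nat_lit 0) (nat_lit 2262225888631) (nat_lit 4) (nat_lit 5) (nat_lit 6) (nat_lit 4) (nat_lit 4) (nat_lit 4) (nat_lit 409) (nat_lit 364) (nat_lit 247)) (XT.nd (nat_lit 78) (nat_lit 0) (nat_lit 0) (XT.lf (nat_lit 0) (nat_lit 3682869926556) (nat_lit 152) (nat_lit 2870025882193) (nat_lit 0) (nat_lit 3568663562750) (nat_lit 4) (nat_lit 5) (nat_lit 6) (nat_lit 4) (nat_lit 4) (nat_lit 4) (nat_lit 410) (nat_lit 364) (nat_lit 246)) (XT.lf (nat_lit 0) (nat_lit 5185273234486) (nat_lit 152) (nat_lit 1238377266260) (nat_lit 0) (nat_lit 5071066869655) (nat_lit 4) (nat_lit 5) (nat_lit 6) (nat_lit 4) (nat_lit 4) (nat_lit 4) (nat_lit 411) (nat_lit 364) (nat_lit 245))))) (XT.nd (nat_lit 234) (nat_lit 0) (nat_lit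 0) (XT.nd (nat_lit 78) (nat_lit 0) (nat_lit 0) (XT.lf (nat_lit 0) (nat_lit 700370425915) (nat_lit 76) (nat_lit 6241667442255) (nat_lit 76) (nat_lit 6127461076533) (nat_lit 3) (nat_lit 4) (nat_lit 4) (nat_lit 5) (nat_lit 4) (nat_lit 4) (nat_lit 412) (nat_lit 364) (nat_lit 244)) (XT.nd (nat_lit 78) (nat_lit 0) (nat_lit 0) (XT.lf (nat_lit 0) (nat_lit 3069106956653) (nat_lit 76) (nat_lit 5957943581876) (nat_lit 76) (nat_lit 5843737215379) (nat_lit 3) (nat_lit 4) (nat_lit 4) (nat_lit 5) (nat_lit 4) (nat_lit 4) (nat_lit 413) (nat_lit 364) (nat_lit 243)) (XT.lf (nat_lit 0) (nat_lit 5793153938280) (nat_lit 76) (nat_lit 5631661157702) (nat_lit 76) (nat_lit 5517454790531) (nat_lit 3) (nat_lit 4) (nat_lit 4) (nat_lit 5) (nat_lit 4) (nat_lit 4) (nat_lit 414) (nat_lit 364) (nat_lit 242)))) (XT.nd (nat_lit 156) (nat_lit 0) (nat_lit 0) (XT.nd (nat_lit 78) (nat_lit 0) (nat_lit 0) (XT.lf (nat_lit 0) (nat_lit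 8925807942176) (nat_lit 76) (nat_lit 5256436383173) (nat_lit 76) (nat_lit 5142230015416) (nat_lit 3) (nat_lit 4) (nat_lit 4) (nat_lit 5) (nat_lit 4) (nat_lit 4) (nat_lit 415) (nat_lit 364) (nat_lit 241)) (XT.lf (nat_lit 0) (nat_lit 12528360024938) (nat_lit 76) (nat_lit 4824927904005) (nat_lit 76) (nat_lit 4710721535738) (nat_lit 3) (nat_lit 4) (nat_lit 4) (nat_lit 5) (nat_lit 4) (nat_lit 4) (nat_lit 416) (nat_lit 364) (nat_lit 240))) (XT.nd (nat_lit 78) (nat_lit 0) (nat_lit 0) (XT.lf (nat_lit 0) (nat_lit 16671294901230) (nat_lit 76) (nat_lit 4328693162996) (nat_lit 76) (nat_lit 4214486794286) (nat_lit 3) (nat_lit 4) (nat_lit 4) (nat_lit 5) (nat_lit 4) (nat_lit 4) (nat_lit 417) (nat_lit 364) (nat_lit 239)) (XT.lf (nat_lit 0) (nat_lit 21435669992543) (nat_lit 76) (nat_lit 3758023219562) (nat_lit 76) (nat_lit 3643816850466) (nat_lit 3) (nat_lit 4) (nat_lit 4) (nat_lit 5) (nat_lit 4) (nat_lit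 4) (nat_lit 418) (nat_lit 364) (nat_lit 238)))))) (XT.nd (nat_lit 468) (nat_lit 0) (nat_lit 0) (XT.nd (nat_lit 234) (nat_lit 152) (nat_lit 0) (XT.nd (nat_lit 78) (nat_lit 0) (nat_lit 0) (XT.lf (nat_lit 0) (nat_lit 26914701333275) (nat_lit 76) (nat_lit 3101752792200) (nat_lit 76) (nat_lit 2987546422770) (nat_lit 3) (nat_lit 4) (nat_lit 4) (nat_lit 5) (nat_lit 4) (nat_lit 4) (nat_lit 419) (nat_lit 364) (nat_lit 237)) (XT.nd (nat_lit 78) (nat_lit 0) (nat_lit 0) (XT.lf (nat_lit 0) (nat_lit 33215587362698) (nat_lit 76) (nat_lit 2347041807332) (nat_lit 76) (nat_lit 2232835437610) (nat_lit 3) (nat_lit 4) (nat_lit 4) (nat_lit 5) (nat_lit 4) (nat_lit 4) (nat_lit 420) (nat_lit 364) (nat_lit 236)) (XT.lf (nat_lit 0) (nat_lit 40461606285738) (nat_lit 76) (nat_lit 1479124180471) (nat_lit 76) (nat_lit 1364917810496) (nat_lit 3) (nat_lit 4) (nat_lit 4) (nat_lit 5) (nat_lit 4) (nat_lit 4) (nat_lit 421)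 (nat_lit 364) (nat_lit 235)))) (XT.nd (nat_lit 78) (nat_lit 152) (nat_lit 0) (XT.lf (nat_lit 0) (nat_lit 48794528037845) (nat_lit 76) (nat_lit 481018914571) (nat_lit 76) (nat_lit 366812544375) (nat_lit 3) (nat_lit 4) (nat_lit 4) (nat_lit 5) (nat_lit 4) (nat_lit 4) (nat_lit 422) (nat_lit 364) (nat_lit 234)) (XT.nd (nat_lit 78) (nat_lit 0) (nat_lit 0) (XT.lf (nat_lit 0) (nat_lit 808031947719) (nat_lit 152) (nat_lit 55393489275021) (nat_lit 0) (nat_lit 708722060426) (nat_lit 1) (nat_lit 5) (nat_lit 3) (nat_lit 4) (nat_lit 1) (nat_lit 4) (nat_lit 423) (nat_lit 364) (nat_lit 233)) (XT.lf (nat_lit 0) (nat_lit 2190883020194) (nat_lit 152) (nat_lit 60972833216313) (nat_lit 0) (nat_lit 2091573132756) (nat_lit 1) (nat_lit 5) (nat_lit 3) (nat_lit 4) (nat_lit 1) (nat_lit 4) (nat_lit 424) (nat_lit 364) (nat_lit 232))))) (XT.nd (nat_lit 624) (nat_lit 0) (nat_lit 0) (XT.nd (nat_lit 78) (nat_lit 0) (nat_lit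 0) (XT.lf (nat_lit 0) (nat_lit 3781161750059) (nat_lit 152) (nat_lit 67389078756242) (nat_lit 0) (nat_lit 3681851862495) (nat_lit 1) (nat_lit 5) (nat_lit 3) (nat_lit 4) (nat_lit 1) (nat_lit 4) (nat_lit 425) (nat_lit 364) (nat_lit 231)) (XT.nd (nat_lit 78) (nat_lit 0) (nat_lit 0) (XT.lf (nat_lit 0) (nat_lit 5609982286377) (nat_lit 152) (nat_lit 74767761133635) (nat_lit 0) (nat_lit 5510672398703) (nat_lit 1) (nat_lit 5) (nat_lit 3) (nat_lit 4) (nat_lit 1) (nat_lit 4) (nat_lit 426) (nat_lit 364) (nat_lit 230)) (XT.lf (nat_lit 0) (nat_lit 7713125900509) (nat_lit 152) (nat_lit 83253245873266) (nat_lit 0) (nat_lit 7613816012741) (nat_lit 1) (nat_lit 5) (nat_lit 3) (nat_lit 4) (nat_lit 1) (nat_lit 4) (nat_lit 427) (nat_lit 364) (nat_lit 229)))) (XT.nd (nat_lit 156) (nat_lit 0) (nat_lit 0) (XT.nd (nat_lit 78) (nat_lit 0) (nat_lit 0) (XT.lf (nat_lit 0) (nat_lit 28885050308038) (nat_lit 152) (nat_lit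 168674916997962) (nat_lit 0) (nat_lit 28785740419909) (nat_lit 1) (nat_lit 5) (nat_lit 3) (nat_lit 4) (nat_lit 1) (nat_lit 4) (nat_lit 433) (nat_lit 364) (nat_lit 223)) (XT.lf (nat_lit 0) (nat_lit 34479454114468) (nat_lit 152) (nat_lit 191246475140660) (nat_lit 0) (nat_lit 34380144226304) (nat_lit 1) (nat_lit 5) (nat_lit 3) (nat_lit 4) (nat_lit 1) (nat_lit 4) (nat_lit 434) (nat_lit 364) (nat_lit 222))) (XT.nd (nat_lit 78) (nat_lit 0) (nat_lit 0) (XT.lf (nat_lit 0) (nat_lit 40913018491002) (nat_lit 152) (nat_lit 217203767006604) (nat_lit 0) (nat_lit 40813708602806) (nat_lit 1) (nat_lit 5) (nat_lit 3) (nat_lit 4) (nat_lit 1) (nat_lit 4) (nat_lit 435) (nat_lit 364) (nat_lit 221)) (XT.lf (nat_lit 0) (nat_lit 48311617523268) (nat_lit 152) (nat_lit 247054652654040) (nat_lit 0) (nat_lit 48212307635045) (nat_lit 1) (nat_lit 5) (nat_lit 3) (nat_lit 4) (nat_lit 1) (nat_lit 4) (nat_lit 436) (nat_lit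 364) (nat_lit 220))))))))
noncomputable def xc88 : XT := (XT.nd (nat_lit 48828) (nat_lit 0) (nat_lit 380) (XT.nd (nat_lit 47814) (nat_lit 0) (nat_lit 1824) (XT.nd (nat_lit 780) (nat_lit 0) (nat_lit 0) (XT.nd (nat_lit 234) (nat_lit 0) (nat_lit 0) (XT.nd (nat_lit 78) (nat_lit 0) (nat_lit 0) (XT.lf (nat_lit 0) (nat_lit 56820006409723) (nat_lit 152) (nat_lit 281383171149981) (nat_lit 0) (nat_lit 56720696521477) (nat_lit 1) (nat_lit 5) (nat_lit 3) (nat_lit 4) (nat_lit 1) (nat_lit 4) (nat_lit 437) (nat_lit 364) (nat_lit 219)) (XT.nd (nat_lit 78) (nat_lit 0) (nat_lit 0) (XT.lf (nat_lit 0) (nat_lit 66604653628580) (nat_lit 152) (nat_lit 320860967421525) (nat_lit 0) (nat_lit 66505343740313) (nat_lit 1) (nat_lit 5) (nat_lit 3) (nat_lit 4) (nat_lit 1) (nat_lit 4) (nat_lit 438) (nat_lit 364) (nat_lit 218)) (XT.lf (nat_lit 0) (nat_lit 77856997929774) (nat_lit 152) (nat_lit 366260433134851) (nat_lit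 0) (nat_lit 77757688041489) (nat_lit 1) (nat_lit 5) (nat_lit 3) (nat_lit 4) (nat_lit 1) (nat_lit 4) (nat_lit 439) (nat_lit 364) (nat_lit 217)))) (XT.nd (nat_lit 390) (nat_lit 0) (nat_lit 0) (XT.lf (nat_lit 0) (nat_lit 90797193875720) (nat_lit 152) (nat_lit 418469818706092) (nat_lit 0) (nat_lit 90697883987419) (nat_lit 1) (nat_lit 5) (nat_lit 3) (nat_lit 4) (nat_lit 1) (nat_lit 4) (nat_lit 440) (nat_lit 364) (nat_lit 216)) (XT.nd (nat_lit 78) (nat_lit 0) (nat_lit 0) (XT.lf (nat_lit 0) (nat_lit 191132088564736) (nat_lit 152) (nat_lit 823287738420564) (nat_lit 0) (nat_lit 191032778676385) (nat_lit 1) (nat_lit 5) (nat_lit 3) (nat_lit 4) (nat_lit 1) (nat_lit 4) (nat_lit 445) (nat_lit 364) (nat_lit 211)) (XT.lf (nat_lit 0) (nat_lit 221063548104307) (nat_lit 152) (nat_lit 944051219788124) (nat_lit 0) (nat_lit 220964238215948) (nat_lit 1) (nat_lit 5) (nat_lit 3) (nat_lit 4) (nat_lit 1) (nat_lit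 4) (nat_lit 446) (nat_lit 364) (nat_lit 210))))) (XT.nd (nat_lit 46800) (nat_lit 0) (nat_lit 2736) (XT.nd (nat_lit 78) (nat_lit 0) (nat_lit 0) (XT.lf (nat_lit 0) (nat_lit 255484726574651) (nat_lit 152) (nat_lit 1082929223361165) (nat_lit 0) (nat_lit 255385416686286) (nat_lit 1) (nat_lit 5) (nat_lit 3) (nat_lit 4) (nat_lit 1) (nat_lit 4) (nat_lit 447) (nat_lit 364) (nat_lit 209)) (XT.nd (nat_lit 46644) (nat_lit 0) (nat_lit 2736) (XT.lf (nat_lit 0) (nat_lit 295069081815408) (nat_lit 152) (nat_lit 1242638927470455) (nat_lit 0) (nat_lit 294969771927038) (nat_lit 1) (nat_lit 5) (nat_lit 3) (nat_lit 4) (nat_lit 1) (nat_lit 4) (nat_lit 448) (nat_lit 364) (nat_lit 208)) (XT.lf (nat_lit 0) (nat_lit 19221887725) (nat_lit 380) (nat_lit 23738997001) (nat_lit 380) (nat_lit 23738997001) (nat_lit 37) (nat_lit 3) (nat_lit 42) (nat_lit 3) (nat_lit 42) (nat_lit 5) (nat_lit 365) (nat_lit 365) (nat_lit 290))))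 (XT.nd (nat_lit 78) (nat_lit 0) (nat_lit 76) (XT.lf (nat_lit 76) (nat_lit 20484618453) (nat_lit 0) (nat_lit 21694068808) (nat_lit 380) (nat_lit 101098312548) (nat_lit 38) (nat_lit 5) (nat_lit 37) (nat_lit 3) (nat_lit 42) (nat_lit 5) (nat_lit 366) (nat_lit 365) (nat_lit 289)) (XT.nd (nat_lit 78) (nat_lit 0) (nat_lit 0) (XT.lf (nat_lit 0) (nat_lit 51233365952) (nat_lit 304) (nat_lit 52564873313) (nat_lit 380) (nat_lit 50123653122) (nat_lit 38) (nat_lit 5) (nat_lit 42) (nat_lit 5) (nat_lit 43) (nat_lit 5) (nat_lit 367) (nat_lit 365) (nat_lit 288)) (XT.lf (nat_lit 76) (nat_lit 29817881198) (nat_lit 0) (nat_lit 34095578766) (nat_lit 380) (nat_lit 101909977110) (nat_lit 39) (nat_lit 5) (nat_lit 38) (nat_lit 5) (nat_lit 43) (nat_lit 5) (nat_lit 368) (nat_lit 365) (nat_lit 287)))))) (XT.nd (nat_lit 468) (nat_lit 456) (nat_lit 0) (XT.nd (nat_lit 234) (nat_lit 304) (nat_lit 0) (XT.nd (nat_lit 78)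 (nat_lit 304) (nat_lit 0) (XT.lf (nat_lit 0) (nat_lit 83280993371) (nat_lit 304) (nat_lit 50671104512) (nat_lit 76) (nat_lit 44840302002) (nat_lit 39) (nat_lit 5) (nat_lit 43) (nat_lit 5) (nat_lit 40) (nat_lit 5) (nat_lit 369) (nat_lit 365) (nat_lit 286)) (XT.nd (nat_lit 78) (nat_lit 0) (nat_lit 0) (XT.lf (nat_lit 0) (nat_lit 50319268372) (nat_lit 304) (nat_lit 58941186746) (nat_lit 380) (nat_lit 83890232439) (nat_lit 35) (nat_lit 5) (nat_lit 39) (nat_lit 5) (nat_lit 40) (nat_lit 5) (nat_lit 370) (nat_lit 365) (nat_lit 285)) (XT.lf (nat_lit 0) (nat_lit 143042624081) (nat_lit 380) (nat_lit 38370374464) (nat_lit 76) (nat_lit 27663851804) (nat_lit 35) (nat_lit 5) (nat_lit 40) (nat_lit 5) (nat_lit 36) (nat_lit 5) (nat_lit 371) (nat_lit 365) (nat_lit 284)))) (XT.nd (nat_lit 78) (nat_lit 152) (nat_lit 0) (XT.lf (nat_lit 0) (nat_lit 86668542593) (nat_lit 152) (nat_lit 101618730201) (nat_lit 228)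 (nat_lit 38145391748) (nat_lit 33) (nat_lit 5) (nat_lit 35) (nat_lit 5) (nat_lit 36) (nat_lit 5) (nat_lit 372) (nat_lit 365) (nat_lit 283)) (XT.nd (nat_lit 78) (nat_lit 152) (nat_lit 0) (XT.lf (nat_lit 0) (nat_lit 234775227807) (nat_lit 152) (nat_lit 7548814070) (nat_lit 228) (nat_lit 3766995652) (nat_lit 33) (nat_lit 5) (nat_lit 35) (nat_lit 5) (nat_lit 36) (nat_lit 5) (nat_lit 373) (nat_lit 365) (nat_lit 282)) (XT.lf (nat_lit 0) (nat_lit 43245702091) (nat_lit 152) (nat_lit 123982131916) (nat_lit 76) (nat_lit 99648889391) (nat_lit 31) (nat_lit 5) (nat_lit 33) (nat_lit 5) (nat_lit 32) (nat_lit 5) (nat_lit 374) (nat_lit 365) (nat_lit 281))))) (XT.nd (nat_lit 234) (nat_lit 228) (nat_lit 0) (XT.nd (nat_lit 78) (nat_lit 76) (nat_lit 0) (XT.lf (nat_lit 0) (nat_lit 33205560737) (nat_lit 152) (nat_lit 66072933146) (nat_lit 228) (nat_lit 191121782536) (nat_lit 29) (nat_lit 5) (nat_lit 31) (nat_lit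 5) (nat_lit 32) (nat_lit 5) (nat_lit 375) (nat_lit 365) (nat_lit 280)) (XT.nd (nat_lit 78) (nat_lit 76) (nat_lit 0) (XT.lf (nat_lit 0) (nat_lit 172586420618) (nat_lit 228) (nat_lit 90964882118) (nat_lit 76) (nat_lit 52570527302) (nat_lit 29) (nat_lit 5) (nat_lit 32) (nat_lit 5) (nat_lit 30) (nat_lit 4) (nat_lit 376) (nat_lit 365) (nat_lit 279)) (XT.lf (nat_lit 0) (nat_lit 106537462016) (nat_lit 76) (nat_lit 157910682905) (nat_lit 152) (nat_lit 80119830556) (nat_lit 28) (nat_lit 5) (nat_lit 29) (nat_lit 5) (nat_lit 30) (nat_lit 4) (nat_lit 377) (nat_lit 365) (nat_lit 278)))) (XT.nd (nat_lit 156) (nat_lit 76) (nat_lit 0) (XT.nd (nat_lit 78) (nat_lit 152) (nat_lit 0) (XT.lf (nat_lit 0) (nat_lit 343888049457) (nat_lit 76) (nat_lit 30955864392) (nat_lit 152) (nat_lit 1723911039) (nat_lit 28) (nat_lit 5) (nat_lit 29) (nat_lit 5) (nat_lit 30) (nat_lit 4) (nat_lit 378) (nat_lit 365) (nat_lit 277))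 (XT.lf (nat_lit 0) (nat_lit 95011292963) (nat_lit 152) (nat_lit 197488015685) (nat_lit 76) (nat_lit 118151179126) (nat_lit 26) (nat_lit 5) (nat_lit 28) (nat_lit 5) (nat_lit 27) (nat_lit 4) (nat_lit 379) (nat_lit 365) (nat_lit 276))) (XT.nd (nat_lit 78) (nat_lit 0) (nat_lit 0) (XT.lf (nat_lit 0) (nat_lit 53049512587) (nat_lit 76) (nat_lit 158490959858) (nat_lit 152) (nat_lit 237473735452) (nat_lit 25) (nat_lit 5) (nat_lit 26) (nat_lit 5) (nat_lit 27) (nat_lit 4) (nat_lit 380) (nat_lit 365) (nat_lit 275)) (XT.lf (nat_lit 0) (nat_lit 356182259031) (nat_lit 152) (nat_lit 128531838874) (nat_lit 0) (nat_lit 6823403636) (nat_lit 25) (nat_lit 5) (nat_lit 27) (nat_lit 4) (nat_lit 25) (nat_lit 4) (nat_lit 381) (nat_lit 365) (nat_lit 274))))))) (XT.nd (nat_lit 1014) (nat_lit 532) (nat_lit 0) (XT.nd (nat_lit 468) (nat_lit 456) (nat_lit 0) (XT.nd (nat_lit 234) (nat_lit 228) (nat_lit 0) (XT.nd (nat_lit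 78) (nat_lit 152) (nat_lit 0) (XT.lf (nat_lit 0) (nat_lit 188225637050) (nat_lit 76) (nat_lit 349635742138) (nat_lit 76) (nat_lit 276750233) (nat_lit 24) (nat_lit 4) (nat_lit 25) (nat_lit 5) (nat_lit 25) (nat_lit 4) (nat_lit 382) (nat_lit 365) (nat_lit 273)) (XT.nd (nat_lit 78) (nat_lit 76) (nat_lit 0) (XT.lf (nat_lit 0) (nat_lit 148297194319) (nat_lit 152) (nat_lit 30520142821) (nat_lit 76) (nat_lit 410892611200) (nat_lit 23) (nat_lit 5) (nat_lit 25) (nat_lit 5) (nat_lit 24) (nat_lit 4) (nat_lit 383) (nat_lit 365) (nat_lit 272)) (XT.lf (nat_lit 0) (nat_lit 335895714601) (nat_lit 152) (nat_lit 278499732147) (nat_lit 0) (nat_lit 32105093880) (nat_lit 22) (nat_lit 5) (nat_lit 24) (nat_lit 4) (nat_lit 22) (nat_lit 4) (nat_lit 384) (nat_lit 365) (nat_lit 271)))) (XT.nd (nat_lit 78) (nat_lit 152) (nat_lit 0) (XT.lf (nat_lit 0) (nat_lit 120276018351) (nat_lit 76) (nat_lit 446524698316) (nat_lit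 76) (nat_lit 142733999545) (nat_lit 21) (nat_lit 4) (nat_lit 22) (nat_lit 5) (nat_lit 22) (nat_lit 4) (nat_lit 385) (nat_lit 365) (nat_lit 270)) (XT.nd (nat_lit 78) (nat_lit 76) (nat_lit 0) (XT.lf (nat_lit 0) (nat_lit 61088898180) (nat_lit 152) (nat_lit 172449635552) (nat_lit 76) (nat_lit 545885295458) (nat_lit 20) (nat_lit 5) (nat_lit 22) (nat_lit 5) (nat_lit 21) (nat_lit 4) (nat_lit 386) (nat_lit 365) (nat_lit 269)) (XT.lf (nat_lit 0) (nat_lit 295957104765) (nat_lit 152) (nat_lit 528765738829) (nat_lit 0) (nat_lit 31791169411) (nat_lit 19) (nat_lit 5) (nat_lit 21) (nat_lit 4) (nat_lit 19) (nat_lit 4) (nat_lit 387) (nat_lit 365) (nat_lit 268))))) (XT.nd (nat_lit 234) (nat_lit 228) (nat_lit 0) (XT.nd (nat_lit 78) (nat_lit 228) (nat_lit 0) (XT.lf (nat_lit 0) (nat_lit 586619991579) (nat_lit 152) (nat_lit 33009053835) (nat_lit 0) (nat_lit 322454011600) (nat_lit 19) (nat_lit 5) (nat_lit 21)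 (nat_lit 4) (nat_lit 19) (nat_lit 4) (nat_lit 388) (nat_lit 365) (nat_lit 267)) (XT.nd (nat_lit 78) (nat_lit 152) (nat_lit 0) (XT.lf (nat_lit 0) (nat_lit 589601340806) (nat_lit 76) (nat_lit 355695014512) (nat_lit 76) (nat_lit 91528995728) (nat_lit 18) (nat_lit 4) (nat_lit 19) (nat_lit 5) (nat_lit 19) (nat_lit 4) (nat_lit 389) (nat_lit 365) (nat_lit 266)) (XT.lf (nat_lit 0) (nat_lit 170073386913) (nat_lit 76) (nat_lit 31898445384) (nat_lit 152) (nat_lit 941162927843) (nat_lit 16) (nat_lit 5) (nat_lit 17) (nat_lit 5) (nat_lit 18) (nat_lit 4) (nat_lit 390) (nat_lit 365) (nat_lit 265)))) (XT.nd (nat_lit 156) (nat_lit 152) (nat_lit 0) (XT.nd (nat_lit 78) (nat_lit 76) (nat_lit 0) (XT.lf (nat_lit 0) (nat_lit 568715746137) (nat_lit 152) (nat_lit 351226628091) (nat_lit 0) (nat_lit 339006109730) (nat_lit 16) (nat_lit 5) (nat_lit 18) (nat_lit 4) (nat_lit 16) (nat_lit 4) (nat_lit 391) (nat_lit 365)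 (nat_lit 264)) (XT.lf (nat_lit 0) (nat_lit 397777060721) (nat_lit 76) (nat_lit 610684182407) (nat_lit 76) (nat_lit 380974523813) (nat_lit 15) (nat_lit 4) (nat_lit 16) (nat_lit 5) (nat_lit 16) (nat_lit 4) (nat_lit 392) (nat_lit 365) (nat_lit 263))) (XT.nd (nat_lit 78) (nat_lit 152) (nat_lit 0) (XT.lf (nat_lit 0) (nat_lit 1298604234510) (nat_lit 76) (nat_lit 233923830361) (nat_lit 76) (nat_lit 4214152474) (nat_lit 15) (nat_lit 4) (nat_lit 16) (nat_lit 5) (nat_lit 16) (nat_lit 4) (nat_lit 393) (nat_lit 365) (nat_lit 262)) (XT.lf (nat_lit 0) (nat_lit 429041293678) (nat_lit 152) (nat_lit 1039417798121) (nat_lit 0) (nat_lit 229293733101) (nat_lit 13) (nat_lit 5) (nat_lit 15) (nat_lit 4) (nat_lit 13) (nat_lit 4) (nat_lit 394) (nat_lit 365) (nat_lit 261)))))) (XT.nd (nat_lit 468) (nat_lit 228) (nat_lit 0) (XT.nd (nat_lit 234) (nat_lit 152) (nat_lit 0) (XT.nd (nat_lit 78) (nat_lit 152) (nat_lit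 0) (XT.lf (nat_lit 0) (nat_lit 951033660787) (nat_lit 152) (nat_lit 176938166242) (nat_lit 0) (nat_lit 751286087525) (nat_lit 13) (nat_lit 5) (nat_lit 15) (nat_lit 4) (nat_lit 13) (nat_lit 4) (nat_lit 395) (nat_lit 365) (nat_lit 260)) (XT.nd (nat_lit 78) (nat_lit 76) (nat_lit 0) (XT.lf (nat_lit 0) (nat_lit 894552542797) (nat_lit 76) (nat_lit 693813795433) (nat_lit 76) (nat_lit 494066211140) (nat_lit 12) (nat_lit 4) (nat_lit 13) (nat_lit 5) (nat_lit 13) (nat_lit 4) (nat_lit 396) (nat_lit 365) (nat_lit 259)) (XT.lf (nat_lit 0) (nat_lit 14440627895) (nat_lit 152) (nat_lit 168700243909) (nat_lit 76) (nat_lit 2131456700971) (nat_lit 11) (nat_lit 5) (nat_lit 13) (nat_lit 5) (nat_lit 12) (nat_lit 4) (nat_lit 397) (nat_lit 365) (nat_lit 258)))) (XT.nd (nat_lit 78) (nat_lit 76) (nat_lit 0) (XT.lf (nat_lit 0) (nat_lit 613153631508) (nat_lit 152) (nat_lit 1515767643268) (nat_lit 0) (nat_lit 439460064356)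 (nat_lit 10) (nat_lit 5) (nat_lit 12) (nat_lit 4) (nat_lit 10) (nat_lit 4) (nat_lit 398) (nat_lit 365) (nat_lit 257)) (XT.nd (nat_lit 78) (nat_lit 76) (nat_lit 0) (XT.lf (nat_lit 0) (nat_lit 1319632876244) (nat_lit 152) (nat_lit 391966597831) (nat_lit 0) (nat_lit 1145939302784) (nat_lit 10) (nat_lit 5) (nat_lit 12) (nat_lit 4) (nat_lit 10) (nat_lit 4) (nat_lit 399) (nat_lit 365) (nat_lit 256)) (XT.lf (nat_lit 0) (nat_lit 988398590077) (nat_lit 76) (nat_lit 1184612851978) (nat_lit 76) (nat_lit 1010919273034) (nat_lit 9) (nat_lit 4) (nat_lit 10) (nat_lit 5) (nat_lit 10) (nat_lit 4) (nat_lit 400) (nat_lit 365) (nat_lit 255))))) (XT.nd (nat_lit 234) (nat_lit 76) (nat_lit 0) (XT.nd (nat_lit 78) (nat_lit 152) (nat_lit 0) (XT.lf (nat_lit 0) (nat_lit 2619870169216) (nat_lit 76) (nat_lit 555015745153) (nat_lit 76) (nat_lit 381322161441) (nat_lit 9) (nat_lit 4) (nat_lit 10) (nat_lit 5) (nat_lit 10)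 (nat_lit 4) (nat_lit 401) (nat_lit 365) (nat_lit 254)) (XT.nd (nat_lit 78) (nat_lit 0) (nat_lit 0) (XT.lf (nat_lit 0) (nat_lit 343570808076) (nat_lit 152) (nat_lit 3441389599271) (nat_lit 0) (nat_lit 192532905590) (nat_lit 7) (nat_lit 5) (nat_lit 9) (nat_lit 4) (nat_lit 7) (nat_lit 4) (nat_lit 402) (nat_lit 365) (nat_lit 253)) (XT.lf (nat_lit 0) (nat_lit 1215862527787) (nat_lit 152) (nat_lit 2166904716332) (nat_lit 0) (nat_lit 1064824622166) (nat_lit 7) (nat_lit 5) (nat_lit 9) (nat_lit 4) (nat_lit 7) (nat_lit 4) (nat_lit 403) (nat_lit 365) (nat_lit 252)))) (XT.nd (nat_lit 156) (nat_lit 0) (nat_lit 0) (XT.nd (nat_lit 78) (nat_lit 76) (nat_lit 0) (XT.lf (nat_lit 0) (nat_lit 2218997972721) (nat_lit 152) (nat_lit 701247170454) (nat_lit 0) (nat_lit 2067960064372) (nat_lit 7) (nat_lit 5) (nat_lit 9) (nat_lit 4) (nat_lit 7) (nat_lit 4) (nat_lit 404) (nat_lit 365) (nat_lit 251)) (XT.lf (nat_lit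 0) (nat_lit 1080447889402) (nat_lit 76) (nat_lit 2336894859565) (nat_lit 76) (nat_lit 2185856948845) (nat_lit 6) (nat_lit 4) (nat_lit 7) (nat_lit 5) (nat_lit 7) (nat_lit 4) (nat_lit 405) (nat_lit 365) (nat_lit 250))) (XT.nd (nat_lit 78) (nat_lit 0) (nat_lit 0) (XT.lf (nat_lit 0) (nat_lit 3208207770047) (nat_lit 76) (nat_lit 1623887546555) (nat_lit 76) (nat_lit 1472849633774) (nat_lit 6) (nat_lit 4) (nat_lit 7) (nat_lit 5) (nat_lit 7) (nat_lit 4) (nat_lit 406) (nat_lit 365) (nat_lit 249)) (XT.lf (nat_lit 0) (nat_lit 5655131582624) (nat_lit 76) (nat_lit 803929163157) (nat_lit 76) (nat_lit 652891248583) (nat_lit 6) (nat_lit 4) (nat_lit 7) (nat_lit 5) (nat_lit 7) (nat_lit 4) (nat_lit 407) (nat_lit 365) (nat_lit 248))))))))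
noncomputable def xc89 : XT := (XT.nd (nat_lit 2340) (nat_lit 0) (nat_lit 0) (XT.nd (nat_lit 936) (nat_lit 152) (nat_lit 0) (XT.nd (nat_lit 468) (nat_lit 0) (nat_lit 0) (XT.nd (nat_lit 234) (nat_lit 76) (nat_lit 0) (XT.nd (nat_lit 78) (nat_lit 0) (nat_lit 0) (XT.lf (nat_lit 0) (nat_lit 290426853464) (nat_lit 152) (nat_lit 7584763708081) (nat_lit 0) (nat_lit 159089535088) (nat_lit 4) (nat_lit 5) (nat_lit 6) (nat_lit 4) (nat_lit 4) (nat_lit 4) (nat_lit 408) (nat_lit 365) (nat_lit 247)) (XT.nd (nat_lit 78) (nat_lit 0) (nat_lit 0) (XT.lf (nat_lit 0) (nat_lit 1426459623272) (nat_lit 152) (nat_lit 6351002891292) (nat_lit 0) (nat_lit 1295122303717) (nat_lit 4) (nat_lit 5) (nat_lit 6) (nat_lit 4) (nat_lit 4) (nat_lit 4) (nat_lit 409) (nat_lit 365) (nat_lit 246)) (XT.lf (nat_lit 0) (nat_lit 2732897289890) (nat_lit 152) (nat_lit 4932177991778) (nat_lit 0) (nat_lit 2601559969310) (nat_lit 4) (nat_lit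 5) (nat_lit 6) (nat_lit 4) (nat_lit 4) (nat_lit 4) (nat_lit 410) (nat_lit 365) (nat_lit 245)))) (XT.nd (nat_lit 78) (nat_lit 76) (nat_lit 0) (XT.lf (nat_lit 0) (nat_lit 4235300590272) (nat_lit 152) (nat_lit 3300529391939) (nat_lit 0) (nat_lit 4103963268800) (nat_lit 4) (nat_lit 5) (nat_lit 6) (nat_lit 4) (nat_lit 4) (nat_lit 4) (nat_lit 411) (nat_lit 365) (nat_lit 244)) (XT.nd (nat_lit 78) (nat_lit 76) (nat_lit 0) (XT.lf (nat_lit 0) (nat_lit 5963064371600) (nat_lit 152) (nat_lit 1424133532214) (nat_lit 0) (nat_lit 5831727049353) (nat_lit 4) (nat_lit 5) (nat_lit 6) (nat_lit 4) (nat_lit 4) (nat_lit 4) (nat_lit 412) (nat_lit 365) (nat_lit 243)) (XT.lf (nat_lit 0) (nat_lit 805426299061) (nat_lit 76) (nat_lit 7177917394264) (nat_lit 76) (nat_lit 7046580071343) (nat_lit 3) (nat_lit 4) (nat_lit 4) (nat_lit 5) (nat_lit 4) (nat_lit 4) (nat_lit 413) (nat_lit 365) (nat_lit 242))))) (XT.nd (nat_lit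 234) (nat_lit 0) (nat_lit 0) (XT.nd (nat_lit 78) (nat_lit 0) (nat_lit 0) (XT.lf (nat_lit 0) (nat_lit 3529473269071) (nat_lit 76) (nat_lit 6851634976263) (nat_lit 76) (nat_lit 6720297652756) (nat_lit 3) (nat_lit 4) (nat_lit 4) (nat_lit 5) (nat_lit 4) (nat_lit 4) (nat_lit 414) (nat_lit 365) (nat_lit 241)) (XT.nd (nat_lit 78) (nat_lit 0) (nat_lit 0) (XT.lf (nat_lit 0) (nat_lit 6662127262866) (nat_lit 76) (nat_lit 6476410207101) (nat_lit 76) (nat_lit 6345072883085) (nat_lit 3) (nat_lit 4) (nat_lit 4) (nat_lit 5) (nat_lit 4) (nat_lit 4) (nat_lit 415) (nat_lit 365) (nat_lit 240)) (XT.lf (nat_lit 0) (nat_lit 10264679336844) (nat_lit 76) (nat_lit 6044901732600) (nat_lit 76) (nat_lit 5913564408140) (nat_lit 3) (nat_lit 4) (nat_lit 4) (nat_lit 5) (nat_lit 4) (nat_lit 4) (nat_lit 416) (nat_lit 365) (nat_lit 239)))) (XT.nd (nat_lit 78) (nat_lit 0) (nat_lit 0) (XT.lf (nat_lit 0) (nat_lit 14407614205498)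 (nat_lit 76) (nat_lit 5548666995650) (nat_lit 76) (nat_lit 5417329670805) (nat_lit 3) (nat_lit 4) (nat_lit 4) (nat_lit 5) (nat_lit 4) (nat_lit 4) (nat_lit 417) (nat_lit 365) (nat_lit 238)) (XT.nd (nat_lit 78) (nat_lit 0) (nat_lit 0) (XT.lf (nat_lit 0) (nat_lit 19171989290170) (nat_lit 76) (nat_lit 4977997055745) (nat_lit 76) (nat_lit 4846659730565) (nat_lit 3) (nat_lit 4) (nat_lit 4) (nat_lit 5) (nat_lit 4) (nat_lit 4) (nat_lit 418) (nat_lit 365) (nat_lit 237)) (XT.lf (nat_lit 0) (nat_lit 24651020625126) (nat_lit 76) (nat_lit 4321726631452) (nat_lit 76) (nat_lit 4190389305981) (nat_lit 3) (nat_lit 4) (nat_lit 4) (nat_lit 5) (nat_lit 4) (nat_lit 4) (nat_lit 419) (nat_lit 365) (nat_lit 236)))))) (XT.nd (nat_lit 468) (nat_lit 0) (nat_lit 0) (XT.nd (nat_lit 234) (nat_lit 152) (nat_lit 0) (XT.nd (nat_lit 78) (nat_lit 0) (nat_lit 0) (XT.lf (nat_lit 0) (nat_lit 30951906649527) (nat_lit 76) (nat_lit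 3567015649253) (nat_lit 76) (nat_lit 3435678323528) (nat_lit 3) (nat_lit 4) (nat_lit 4) (nat_lit 5) (nat_lit 4) (nat_lit 4) (nat_lit 420) (nat_lit 365) (nat_lit 235)) (XT.nd (nat_lit 78) (nat_lit 0) (nat_lit 0) (XT.lf (nat_lit 0) (nat_lit 38197925568200) (nat_lit 76) (nat_lit 2699098024712) (nat_lit 76) (nat_lit 2567760698767) (nat_lit 3) (nat_lit 4) (nat_lit 4) (nat_lit 5) (nat_lit 4) (nat_lit 4) (nat_lit 421) (nat_lit 365) (nat_lit 234)) (XT.lf (nat_lit 0) (nat_lit 46530847316510) (nat_lit 76) (nat_lit 1700992760830) (nat_lit 76) (nat_lit 1569655434693) (nat_lit 3) (nat_lit 4) (nat_lit 4) (nat_lit 5) (nat_lit 4) (nat_lit 4) (nat_lit 422) (nat_lit 365) (nat_lit 233)))) (XT.nd (nat_lit 78) (nat_lit 152) (nat_lit 0) (XT.lf (nat_lit 0) (nat_lit 56113707319966) (nat_lit 76) (nat_lit 553171711137) (nat_lit 76) (nat_lit 421834384834) (nat_lit 3) (nat_lit 4) (nat_lit 4) (nat_lit 5) (nat_lit 4)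 (nat_lit 4) (nat_lit 423) (nat_lit 365) (nat_lit 232)) (XT.nd (nat_lit 78) (nat_lit 0) (nat_lit 0) (XT.lf (nat_lit 0) (nat_lit 929236777362) (nat_lit 152) (nat_lit 63702512586117) (nat_lit 0) (nat_lit 815030406538) (nat_lit 1) (nat_lit 5) (nat_lit 3) (nat_lit 4) (nat_lit 1) (nat_lit 4) (nat_lit 424) (nat_lit 365) (nat_lit 231)) (XT.lf (nat_lit 0) (nat_lit 2519515505819) (nat_lit 152) (nat_lit 70118758129058) (nat_lit 0) (nat_lit 2405309134885) (nat_lit 1) (nat_lit 5) (nat_lit 3) (nat_lit 4) (nat_lit 1) (nat_lit 4) (nat_lit 425) (nat_lit 365) (nat_lit 230))))) (XT.nd (nat_lit 624) (nat_lit 0) (nat_lit 0) (XT.nd (nat_lit 468) (nat_lit 0) (nat_lit 0) (XT.lf (nat_lit 0) (nat_lit 4348336040913) (nat_lit 152) (nat_lit 77497440509069) (nat_lit 0) (nat_lit 4234129669883) (nat_lit 1) (nat_lit 5) (nat_lit 3) (nat_lit 4) (nat_lit 1) (nat_lit 4) (nat_lit 426) (nat_lit 365) (nat_lit 229)) (XT.nd (nat_lit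 78) (nat_lit 0) (nat_lit 0) (XT.lf (nat_lit 0) (nat_lit 22758705094967) (nat_lit 152) (nat_lit 151777154521928) (nat_lit 0) (nat_lit 22644498723577) (nat_lit 1) (nat_lit 5) (nat_lit 3) (nat_lit 4) (nat_lit 1) (nat_lit 4) (nat_lit 432) (nat_lit 365) (nat_lit 223)) (XT.lf (nat_lit 0) (nat_lit 27623404057480) (nat_lit 152) (nat_lit 171404596384288) (nat_lit 0) (nat_lit 27509197686055) (nat_lit 1) (nat_lit 5) (nat_lit 3) (nat_lit 4) (nat_lit 1) (nat_lit 4) (nat_lit 433) (nat_lit 365) (nat_lit 222)))) (XT.nd (nat_lit 156) (nat_lit 0) (nat_lit 0) (XT.nd (nat_lit 78) (nat_lit 0) (nat_lit 0) (XT.lf (nat_lit 0) (nat_lit 33217807863510) (nat_lit 152) (nat_lit 193976154527842) (nat_lit 0) (nat_lit 33103601492053) (nat_lit 1) (nat_lit 5) (nat_lit 3) (nat_lit 4) (nat_lit 1) (nat_lit 4) (nat_lit 434) (nat_lit 365) (nat_lit 221)) (XT.lf (nat_lit 0) (nat_lit 39651372239696) (nat_lit 152) (nat_lit 219933446394530)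 (nat_lit 0) (nat_lit 39537165868212) (nat_lit 1) (nat_lit 5) (nat_lit 3) (nat_lit 4) (nat_lit 1) (nat_lit 4) (nat_lit 435) (nat_lit 365) (nat_lit 220))) (XT.nd (nat_lit 78) (nat_lit 0) (nat_lit 0) (XT.lf (nat_lit 0) (nat_lit 47049971271659) (nat_lit 152) (nat_lit 249784332042613) (nat_lit 0) (nat_lit 46935764900152) (nat_lit 1) (nat_lit 5) (nat_lit 3) (nat_lit 4) (nat_lit 1) (nat_lit 4) (nat_lit 436) (nat_lit 365) (nat_lit 219)) (XT.lf (nat_lit 0) (nat_lit 55558360157851) (nat_lit 152) (nat_lit 284112850539117) (nat_lit 0) (nat_lit 55444153786323) (nat_lit 1) (nat_lit 5) (nat_lit 3) (nat_lit 4) (nat_lit 1) (nat_lit 4) (nat_lit 437) (nat_lit 365) (nat_lit 218))))))) (XT.nd (nat_lit 47892) (nat_lit 0) (nat_lit 1748) (XT.nd (nat_lit 702) (nat_lit 0) (nat_lit 0) (XT.nd (nat_lit 468) (nat_lit 0) (nat_lit 0) (XT.nd (nat_lit 78) (nat_lit 0) (nat_lit 0) (XT.lf (nat_lit 0) (nat_lit 65343007376479)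 (nat_lit 152) (nat_lit 323590646811150) (nat_lit 0) (nat_lit 65228801004934) (nat_lit 1) (nat_lit 5) (nat_lit 3) (nat_lit 4) (nat_lit 1) (nat_lit 4) (nat_lit 438) (nat_lit 365) (nat_lit 217)) (XT.nd (nat_lit 78) (nat_lit 0) (nat_lit 0) (XT.lf (nat_lit 0) (nat_lit 76595351677474) (nat_lit 152) (nat_lit 368990112524902) (nat_lit 0) (nat_lit 76481145305913) (nat_lit 1) (nat_lit 5) (nat_lit 3) (nat_lit 4) (nat_lit 1) (nat_lit 4) (nat_lit 439) (nat_lit 365) (nat_lit 216)) (XT.lf (nat_lit 0) (nat_lit 89535547623246) (nat_lit 152) (nat_lit 421199498096513) (nat_lit 0) (nat_lit 89421341251672) (nat_lit 1) (nat_lit 5) (nat_lit 3) (nat_lit 4) (nat_lit 1) (nat_lit 4) (nat_lit 440) (nat_lit 365) (nat_lit 215)))) (XT.nd (nat_lit 78) (nat_lit 0) (nat_lit 0) (XT.lf (nat_lit 0) (nat_lit 163843086190243) (nat_lit 152) (nat_lit 721005694884074) (nat_lit 0) (nat_lit 163728879818630) (nat_lit 1) (nat_lit 5)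 (nat_lit 3) (nat_lit 4) (nat_lit 1) (nat_lit 4) (nat_lit 444) (nat_lit 365) (nat_lit 211)) (XT.nd (nat_lit 78) (nat_lit 0) (nat_lit 0) (XT.lf (nat_lit 0) (nat_lit 189870442311682) (nat_lit 152) (nat_lit 826017417812227) (nat_lit 0) (nat_lit 189756235940064) (nat_lit 1) (nat_lit 5) (nat_lit 3) (nat_lit 4) (nat_lit 1) (nat_lit 4) (nat_lit 445) (nat_lit 365) (nat_lit 210)) (XT.lf (nat_lit 0) (nat_lit 219801901851178) (nat_lit 152) (nat_lit 946780899179946) (nat_lit 0) (nat_lit 219687695479554) (nat_lit 1) (nat_lit 5) (nat_lit 3) (nat_lit 4) (nat_lit 1) (nat_lit 4) (nat_lit 446) (nat_lit 365) (nat_lit 209))))) (XT.nd (nat_lit 46878) (nat_lit 0) (nat_lit 2736) (XT.nd (nat_lit 78) (nat_lit 0) (nat_lit 0) (XT.lf (nat_lit 0) (nat_lit 254223080321458) (nat_lit 152) (nat_lit 1085658902753125) (nat_lit 0) (nat_lit 254108873949829) (nat_lit 1) (nat_lit 5) (nat_lit 3) (nat_lit 4) (nat_lit 1) (nat_lit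 4) (nat_lit 447) (nat_lit 365) (nat_lit 208)) (XT.nd (nat_lit 46722) (nat_lit 0) (nat_lit 2736) (XT.lf (nat_lit 0) (nat_lit 293807435562158) (nat_lit 152) (nat_lit 1245368606862538) (nat_lit 0) (nat_lit 293693229190523) (nat_lit 1) (nat_lit 5) (nat_lit 3) (nat_lit 4) (nat_lit 1) (nat_lit 4) (nat_lit 448) (nat_lit 365) (nat_lit 207)) (XT.lf (nat_lit 0) (nat_lit 22108434206) (nat_lit 380) (nat_lit 27297969371) (nat_lit 380) (nat_lit 27297969371) (nat_lit 37) (nat_lit 3) (nat_lit 42) (nat_lit 3) (nat_lit 42) (nat_lit 5) (nat_lit 366) (nat_lit 366) (nat_lit 288)))) (XT.nd (nat_lit 156) (nat_lit 0) (nat_lit 76) (XT.nd (nat_lit 78) (nat_lit 0) (nat_lit 76) (XT.lf (nat_lit 76) (nat_lit 23560894930) (nat_lit 0) (nat_lit 24950419159) (nat_lit 380) (nat_lit 116256359454) (nat_lit 38) (nat_lit 5) (nat_lit 37) (nat_lit 3) (nat_lit 42) (nat_lit 5) (nat_lit 367) (nat_lit 366) (nat_lit 287)) (XT.lf (nat_lit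 0) (nat_lit 58923354309) (nat_lit 304) (nat_lit 60445645440) (nat_lit 380) (nat_lit 57640426650) (nat_lit 38) (nat_lit 5) (nat_lit 42) (nat_lit 5) (nat_lit 43) (nat_lit 5) (nat_lit 368) (nat_lit 366) (nat_lit 286))) (XT.nd (nat_lit 78) (nat_lit 0) (nat_lit 76) (XT.lf (nat_lit 76) (nat_lit 34294342299) (nat_lit 0) (nat_lit 39210626583) (nat_lit 380) (nat_lit 117191308240) (nat_lit 39) (nat_lit 5) (nat_lit 38) (nat_lit 5) (nat_lit 43) (nat_lit 5) (nat_lit 369) (nat_lit 366) (nat_lit 285)) (XT.lf (nat_lit 0) (nat_lit 95777021057) (nat_lit 304) (nat_lit 58267871167) (nat_lit 76) (nat_lit 51565784082) (nat_lit 39) (nat_lit 5) (nat_lit 43) (nat_lit 5) (nat_lit 40) (nat_lit 5) (nat_lit 370) (nat_lit 366) (nat_lit 284)))))) (XT.nd (nat_lit 468) (nat_lit 380) (nat_lit 0) (XT.nd (nat_lit 234) (nat_lit 304) (nat_lit 0) (XT.nd (nat_lit 78) (nat_lit 152) (nat_lit 0) (XT.lf (nat_lit 0) (nat_lit 57870880422)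 (nat_lit 304) (nat_lit 67782169841) (nat_lit 380) (nat_lit 96469709865) (nat_lit 35) (nat_lit 5) (nat_lit 39) (nat_lit 5) (nat_lit 40) (nat_lit 5) (nat_lit 371) (nat_lit 366) (nat_lit 283)) (XT.nd (nat_lit 78) (nat_lit 152) (nat_lit 0) (XT.lf (nat_lit 0) (nat_lit 164502091562) (nat_lit 380) (nat_lit 44122239951) (nat_lit 76) (nat_lit 31813583979) (nat_lit 35) (nat_lit 5) (nat_lit 40) (nat_lit 5) (nat_lit 36) (nat_lit 5) (nat_lit 372) (nat_lit 366) (nat_lit 282)) (XT.lf (nat_lit 0) (nat_lit 99672346907) (nat_lit 152) (nat_lit 116860835612) (nat_lit 228) (nat_lit 43863957726) (nat_lit 33) (nat_lit 5) (nat_lit 35) (nat_lit 5) (nat_lit 36) (nat_lit 5) (nat_lit 373) (nat_lit 366) (nat_lit 281)))) (XT.nd (nat_lit 78) (nat_lit 304) (nat_lit 0) (XT.lf (nat_lit 0) (nat_lit 269994575391) (nat_lit 152) (nat_lit 8680523903) (nat_lit 228) (nat_lit 4329225188) (nat_lit 33) (nat_lit 5) (nat_lit 35) (nat_lit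 5) (nat_lit 36) (nat_lit 5) (nat_lit 374) (nat_lit 366) (nat_lit 280)) (XT.nd (nat_lit 78) (nat_lit 152) (nat_lit 0) (XT.lf (nat_lit 0) (nat_lit 49734955282) (nat_lit 152) (nat_lit 142575964719) (nat_lit 76) (nat_lit 114596951464) (nat_lit 31) (nat_lit 5) (nat_lit 33) (nat_lit 5) (nat_lit 32) (nat_lit 5) (nat_lit 375) (nat_lit 366) (nat_lit 279)) (XT.lf (nat_lit 0) (nat_lit 38189723332) (nat_lit 152) (nat_lit 75982767569) (nat_lit 228) (nat_lit 219787492878) (nat_lit 29) (nat_lit 5) (nat_lit 31) (nat_lit 5) (nat_lit 32) (nat_lit 5) (nat_lit 376) (nat_lit 366) (nat_lit 278))))) (XT.nd (nat_lit 234) (nat_lit 304) (nat_lit 0) (XT.nd (nat_lit 78) (nat_lit 76) (nat_lit 0) (XT.lf (nat_lit 0) (nat_lit 198476356506) (nat_lit 228) (nat_lit 104606469384) (nat_lit 76) (nat_lit 60456982159) (nat_lit 29) (nat_lit 5) (nat_lit 32) (nat_lit 5) (nat_lit 30) (nat_lit 4) (nat_lit 377) (nat_lit 366) (nat_lit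 277)) (XT.nd (nat_lit 78) (nat_lit 0) (nat_lit 0) (XT.lf (nat_lit 0) (nat_lit 122521083413) (nat_lit 76) (nat_lit 181596123031) (nat_lit 152) (nat_lit 92135688887) (nat_lit 28) (nat_lit 5) (nat_lit 29) (nat_lit 5) (nat_lit 30) (nat_lit 4) (nat_lit 378) (nat_lit 366) (nat_lit 276)) (XT.lf (nat_lit 0) (nat_lit 395473867393) (nat_lit 76) (nat_lit 35598233347) (nat_lit 152) (nat_lit 1980657475) (nat_lit 28) (nat_lit 5) (nat_lit 29) (nat_lit 5) (nat_lit 30) (nat_lit 4) (nat_lit 379) (nat_lit 366) (nat_lit 275)))) (XT.nd (nat_lit 156) (nat_lit 76) (nat_lit 0) (XT.nd (nat_lit 78) (nat_lit 76) (nat_lit 0) (XT.lf (nat_lit 0) (nat_lit 109264599081) (nat_lit 152) (nat_lit 227108378767) (nat_lit 76) (nat_lit 135874840936) (nat_lit 26) (nat_lit 5) (nat_lit 28) (nat_lit 5) (nat_lit 27) (nat_lit 4) (nat_lit 380) (nat_lit 366) (nat_lit 274)) (XT.lf (nat_lit 0) (nat_lit 61009649687) (nat_lit 76) (nat_lit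 182263407739) (nat_lit 152) (nat_lit 273093054252) (nat_lit 25) (nat_lit 5) (nat_lit 26) (nat_lit 5) (nat_lit 27) (nat_lit 4) (nat_lit 381) (nat_lit 366) (nat_lit 273))) (XT.nd (nat_lit 78) (nat_lit 76) (nat_lit 0) (XT.lf (nat_lit 0) (nat_lit 409610957575) (nat_lit 152) (nat_lit 147809103324) (nat_lit 0) (nat_lit 7847861671) (nat_lit 25) (nat_lit 5) (nat_lit 27) (nat_lit 4) (nat_lit 25) (nat_lit 4) (nat_lit 382) (nat_lit 366) (nat_lit 272)) (XT.lf (nat_lit 0) (nat_lit 216461879835) (nat_lit 76) (nat_lit 402079987834) (nat_lit 76) (nat_lit 316788709) (nat_lit 24) (nat_lit 4) (nat_lit 25) (nat_lit 5) (nat_lit 25) (nat_lit 4) (nat_lit 383) (nat_lit 366) (nat_lit 271))))))))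
noncomputable def xc90 : XT := (XT.nd (nat_lit 1950) (nat_lit 380) (nat_lit 0) (XT.nd (nat_lit 936) (nat_lit 532) (nat_lit 0) (XT.nd (nat_lit 468) (nat_lit 456) (nat_lit 0) (XT.nd (nat_lit 234) (nat_lit 152) (nat_lit 0) (XT.nd (nat_lit 78) (nat_lit 152) (nat_lit 0) (XT.lf (nat_lit 0) (nat_lit 170542941144) (nat_lit 152) (nat_lit 35095965421) (nat_lit 76) (nat_lit 472527358711) (nat_lit 23) (nat_lit 5) (nat_lit 25) (nat_lit 5) (nat_lit 24) (nat_lit 4) (nat_lit 384) (nat_lit 366) (nat_lit 270)) (XT.nd (nat_lit 78) (nat_lit 76) (nat_lit 0) (XT.lf (nat_lit 0) (nat_lit 386281215339) (nat_lit 152) (nat_lit 320272468876) (nat_lit 0) (nat_lit 36921765833) (nat_lit 22) (nat_lit 5) (nat_lit 24) (nat_lit 4) (nat_lit 22) (nat_lit 4) (nat_lit 385) (nat_lit 366) (nat_lit 269)) (XT.lf (nat_lit 0) (nat_lit 138319543147) (nat_lit 76) (nat_lit 513502363279) (nat_lit 76) (nat_lit 164142854756) (nat_lit 21)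 (nat_lit 4) (nat_lit 22) (nat_lit 5) (nat_lit 22) (nat_lit 4) (nat_lit 386) (nat_lit 366) (nat_lit 268)))) (XT.nd (nat_lit 78) (nat_lit 76) (nat_lit 0) (XT.lf (nat_lit 0) (nat_lit 70253218914) (nat_lit 152) (nat_lit 198315139176) (nat_lit 76) (nat_lit 627768897485) (nat_lit 20) (nat_lit 5) (nat_lit 22) (nat_lit 5) (nat_lit 21) (nat_lit 4) (nat_lit 387) (nat_lit 366) (nat_lit 267)) (XT.nd (nat_lit 78) (nat_lit 0) (nat_lit 0) (XT.lf (nat_lit 0) (nat_lit 340351642691) (nat_lit 152) (nat_lit 608078644067) (nat_lit 0) (nat_lit 36560682285) (nat_lit 19) (nat_lit 5) (nat_lit 21) (nat_lit 4) (nat_lit 19) (nat_lit 4) (nat_lit 388) (nat_lit 366) (nat_lit 266)) (XT.lf (nat_lit 0) (nat_lit 674613835717) (nat_lit 152) (nat_lit 37958711401) (nat_lit 0) (nat_lit 370822841568) (nat_lit 19) (nat_lit 5) (nat_lit 21) (nat_lit 4) (nat_lit 19) (nat_lit 4) (nat_lit 389) (nat_lit 366) (nat_lit 265))))) (XT.nd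 (nat_lit 234) (nat_lit 228) (nat_lit 0) (XT.nd (nat_lit 78) (nat_lit 152) (nat_lit 0) (XT.lf (nat_lit 0) (nat_lit 678043165141) (nat_lit 76) (nat_lit 409048445820) (nat_lit 76) (nat_lit 105257422329) (nat_lit 18) (nat_lit 4) (nat_lit 19) (nat_lit 5) (nat_lit 19) (nat_lit 4) (nat_lit 390) (nat_lit 366) (nat_lit 264)) (XT.nd (nat_lit 78) (nat_lit 0) (nat_lit 0) (XT.lf (nat_lit 0) (nat_lit 195586022848) (nat_lit 76) (nat_lit 36682382665) (nat_lit 152) (nat_lit 1082336448846) (nat_lit 16) (nat_lit 5) (nat_lit 17) (nat_lit 5) (nat_lit 18) (nat_lit 4) (nat_lit 391) (nat_lit 366) (nat_lit 263)) (XT.lf (nat_lit 0) (nat_lit 654023832162) (nat_lit 152) (nat_lit 403909132434) (nat_lit 0) (nat_lit 389857683299) (nat_lit 16) (nat_lit 5) (nat_lit 18) (nat_lit 4) (nat_lit 16) (nat_lit 4) (nat_lit 392) (nat_lit 366) (nat_lit 262)))) (XT.nd (nat_lit 78) (nat_lit 152) (nat_lit 0) (XT.lf (nat_lit 0) (nat_lit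 457445041979) (nat_lit 76) (nat_lit 702286076163) (nat_lit 76) (nat_lit 438119910524) (nat_lit 15) (nat_lit 4) (nat_lit 16) (nat_lit 5) (nat_lit 16) (nat_lit 4) (nat_lit 393) (nat_lit 366) (nat_lit 261)) (XT.nd (nat_lit 78) (nat_lit 152) (nat_lit 0) (XT.lf (nat_lit 0) (nat_lit 1493396106338) (nat_lit 76) (nat_lit 269011766998) (nat_lit 76) (nat_lit 4845586771) (nat_lit 15) (nat_lit 4) (nat_lit 16) (nat_lit 5) (nat_lit 16) (nat_lit 4) (nat_lit 394) (nat_lit 366) (nat_lit 260)) (XT.lf (nat_lit 0) (nat_lit 493398111081) (nat_lit 152) (nat_lit 1195329165915) (nat_lit 0) (nat_lit 263688378114) (nat_lit 13) (nat_lit 5) (nat_lit 15) (nat_lit 4) (nat_lit 13) (nat_lit 4) (nat_lit 395) (nat_lit 366) (nat_lit 259)))))) (XT.nd (nat_lit 468) (nat_lit 228) (nat_lit 0) (XT.nd (nat_lit 234) (nat_lit 152) (nat_lit 0) (XT.nd (nat_lit 78) (nat_lit 152) (nat_lit 0) (XT.lf (nat_lit 0) (nat_lit 1093689251950)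 (nat_lit 152) (nat_lit 203477759070) (nat_lit 0) (nat_lit 863979509391) (nat_lit 13) (nat_lit 5) (nat_lit 15) (nat_lit 4) (nat_lit 13) (nat_lit 4) (nat_lit 396) (nat_lit 366) (nat_lit 258)) (XT.nd (nat_lit 78) (nat_lit 76) (nat_lit 0) (XT.lf (nat_lit 0) (nat_lit 1028736504866) (nat_lit 76) (nat_lit 797885300189) (nat_lit 76) (nat_lit 568175549290) (nat_lit 12) (nat_lit 4) (nat_lit 13) (nat_lit 5) (nat_lit 13) (nat_lit 4) (nat_lit 397) (nat_lit 366) (nat_lit 257)) (XT.lf (nat_lit 0) (nat_lit 16607192237) (nat_lit 152) (nat_lit 194004294841) (nat_lit 76) (nat_lit 2451175651076) (nat_lit 11) (nat_lit 5) (nat_lit 13) (nat_lit 5) (nat_lit 12) (nat_lit 4) (nat_lit 398) (nat_lit 366) (nat_lit 256)))) (XT.nd (nat_lit 78) (nat_lit 76) (nat_lit 0) (XT.lf (nat_lit 0) (nat_lit 705127144443) (nat_lit 152) (nat_lit 1743131802142) (nat_lit 0) (nat_lit 505379523174) (nat_lit 10) (nat_lit 5) (nat_lit 12)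 (nat_lit 4) (nat_lit 10) (nat_lit 4) (nat_lit 399) (nat_lit 366) (nat_lit 255)) (XT.nd (nat_lit 78) (nat_lit 76) (nat_lit 0) (XT.lf (nat_lit 0) (nat_lit 1517578214818) (nat_lit 152) (nat_lit 450760728708) (nat_lit 0) (nat_lit 1317830588780) (nat_lit 10) (nat_lit 5) (nat_lit 12) (nat_lit 4) (nat_lit 10) (nat_lit 4) (nat_lit 400) (nat_lit 366) (nat_lit 254)) (XT.lf (nat_lit 0) (nat_lit 1136659198350) (nat_lit 76) (nat_lit 1362304347991) (nat_lit 76) (nat_lit 1162556717806) (nat_lit 9) (nat_lit 4) (nat_lit 10) (nat_lit 5) (nat_lit 10) (nat_lit 4) (nat_lit 401) (nat_lit 366) (nat_lit 253))))) (XT.nd (nat_lit 234) (nat_lit 76) (nat_lit 0) (XT.nd (nat_lit 78) (nat_lit 152) (nat_lit 0) (XT.lf (nat_lit 0) (nat_lit 3012851407434) (nat_lit 76) (nat_lit 638267731463) (nat_lit 76) (nat_lit 438520097672) (nat_lit 9) (nat_lit 4) (nat_lit 10) (nat_lit 5) (nat_lit 10) (nat_lit 4) (nat_lit 402) (nat_lit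 366) (nat_lit 252)) (XT.nd (nat_lit 78) (nat_lit 0) (nat_lit 0) (XT.lf (nat_lit 0) (nat_lit 395106781762) (nat_lit 152) (nat_lit 3957597290804) (nat_lit 0) (nat_lit 221413184435) (nat_lit 7) (nat_lit 5) (nat_lit 9) (nat_lit 4) (nat_lit 7) (nat_lit 4) (nat_lit 403) (nat_lit 366) (nat_lit 251)) (XT.lf (nat_lit 0) (nat_lit 1398242213455) (nat_lit 152) (nat_lit 2491939773036) (nat_lit 0) (nat_lit 1224548613757) (nat_lit 7) (nat_lit 5) (nat_lit 9) (nat_lit 4) (nat_lit 7) (nat_lit 4) (nat_lit 404) (nat_lit 366) (nat_lit 250)))) (XT.nd (nat_lit 156) (nat_lit 0) (nat_lit 0) (XT.nd (nat_lit 78) (nat_lit 76) (nat_lit 0) (XT.lf (nat_lit 0) (nat_lit 2551847935150) (nat_lit 152) (nat_lit 806433680156) (nat_lit 0) (nat_lit 2378154333390) (nat_lit 7) (nat_lit 5) (nat_lit 9) (nat_lit 4) (nat_lit 7) (nat_lit 4) (nat_lit 405) (nat_lit 366) (nat_lit 249)) (XT.lf (nat_lit 0) (nat_lit 1242515612958) (nat_lit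 76) (nat_lit 2687428802478) (nat_lit 76) (nat_lit 2513735198926) (nat_lit 6) (nat_lit 4) (nat_lit 7) (nat_lit 5) (nat_lit 7) (nat_lit 4) (nat_lit 406) (nat_lit 366) (nat_lit 248))) (XT.nd (nat_lit 78) (nat_lit 0) (nat_lit 0) (XT.lf (nat_lit 0) (nat_lit 3689439405246) (nat_lit 76) (nat_lit 1867470429824) (nat_lit 76) (nat_lit 1693776824712) (nat_lit 6) (nat_lit 4) (nat_lit 7) (nat_lit 5) (nat_lit 7) (nat_lit 4) (nat_lit 407) (nat_lit 366) (nat_lit 247)) (XT.lf (nat_lit 0) (nat_lit 6503401728445) (nat_lit 76) (nat_lit 924518321357) (nat_lit 76) (nat_lit 750824714890) (nat_lit 6) (nat_lit 4) (nat_lit 7) (nat_lit 5) (nat_lit 7) (nat_lit 4) (nat_lit 408) (nat_lit 366) (nat_lit 246))))))) (XT.nd (nat_lit 1014) (nat_lit 152) (nat_lit 0) (XT.nd (nat_lit 468) (nat_lit 0) (nat_lit 0) (XT.nd (nat_lit 234) (nat_lit 76) (nat_lit 0) (XT.nd (nat_lit 78) (nat_lit 0) (nat_lit 0) (XT.lf (nat_lit 0) (nat_lit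 333991082427) (nat_lit 152) (nat_lit 8722477835823) (nat_lit 0) (nat_lit 182953162734) (nat_lit 4) (nat_lit 5) (nat_lit 6) (nat_lit 4) (nat_lit 4) (nat_lit 4) (nat_lit 409) (nat_lit 366) (nat_lit 245)) (XT.nd (nat_lit 78) (nat_lit 0) (nat_lit 0) (XT.lf (nat_lit 0) (nat_lit 1640428741496) (nat_lit 152) (nat_lit 7303652952403) (nat_lit 0) (nat_lit 1489390820913) (nat_lit 4) (nat_lit 5) (nat_lit 6) (nat_lit 4) (nat_lit 4) (nat_lit 4) (nat_lit 410) (nat_lit 366) (nat_lit 244)) (XT.lf (nat_lit 0) (nat_lit 3142832035315) (nat_lit 152) (nat_lit 5672004366560) (nat_lit 0) (nat_lit 2991794113956) (nat_lit 4) (nat_lit 5) (nat_lit 6) (nat_lit 4) (nat_lit 4) (nat_lit 4) (nat_lit 411) (nat_lit 366) (nat_lit 243)))) (XT.nd (nat_lit 78) (nat_lit 76) (nat_lit 0) (XT.lf (nat_lit 0) (nat_lit 4870595810936) (nat_lit 152) (nat_lit 3795608519005) (nat_lit 0) (nat_lit 4719557888903) (nat_lit 4) (nat_lit 5) (nat_lit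 6) (nat_lit 4) (nat_lit 4) (nat_lit 4) (nat_lit 412) (nat_lit 366) (nat_lit 242)) (XT.nd (nat_lit 78) (nat_lit 76) (nat_lit 0) (XT.lf (nat_lit 0) (nat_lit 6857524142230) (nat_lit 152) (nat_lit 1637753317068) (nat_lit 0) (nat_lit 6706486219611) (nat_lit 4) (nat_lit 5) (nat_lit 6) (nat_lit 4) (nat_lit 4) (nat_lit 4) (nat_lit 413) (nat_lit 366) (nat_lit 241)) (XT.lf (nat_lit 0) (nat_lit 926240477763) (nat_lit 76) (nat_lit 8254604879147) (nat_lit 76) (nat_lit 8103566956019) (nat_lit 3) (nat_lit 4) (nat_lit 4) (nat_lit 5) (nat_lit 4) (nat_lit 4) (nat_lit 414) (nat_lit 366) (nat_lit 240))))) (XT.nd (nat_lit 234) (nat_lit 0) (nat_lit 0) (XT.nd (nat_lit 78) (nat_lit 0) (nat_lit 0) (XT.lf (nat_lit 0) (nat_lit 4058894462774) (nat_lit 76) (nat_lit 7879380114653) (nat_lit 76) (nat_lit 7728342191081) (nat_lit 3) (nat_lit 4) (nat_lit 4) (nat_lit 5) (nat_lit 4) (nat_lit 4) (nat_lit 415) (nat_lit 366)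 (nat_lit 239)) (XT.nd (nat_lit 78) (nat_lit 0) (nat_lit 0) (XT.lf (nat_lit 0) (nat_lit 7661446529115) (nat_lit 76) (nat_lit 7447871644210) (nat_lit 76) (nat_lit 7296833720254) (nat_lit 3) (nat_lit 4) (nat_lit 4) (nat_lit 5) (nat_lit 4) (nat_lit 4) (nat_lit 416) (nat_lit 366) (nat_lit 238)) (XT.lf (nat_lit 0) (nat_lit 11804381391127) (nat_lit 76) (nat_lit 6951636910789) (nat_lit 76) (nat_lit 6800598986497) (nat_lit 3) (nat_lit 4) (nat_lit 4) (nat_lit 5) (nat_lit 4) (nat_lit 4) (nat_lit 417) (nat_lit 366) (nat_lit 237)))) (XT.nd (nat_lit 156) (nat_lit 0) (nat_lit 0) (XT.nd (nat_lit 78) (nat_lit 0) (nat_lit 0) (XT.lf (nat_lit 0) (nat_lit 16568756470023) (nat_lit 76) (nat_lit 6380966973953) (nat_lit 76) (nat_lit 6229929049370) (nat_lit 3) (nat_lit 4) (nat_lit 4) (nat_lit 5) (nat_lit 4) (nat_lit 4) (nat_lit 418) (nat_lit 366) (nat_lit 236)) (XT.lf (nat_lit 0) (nat_lit 22047787799957) (nat_lit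 76) (nat_lit 5724696552329) (nat_lit 76) (nat_lit 5573658627492) (nat_lit 3) (nat_lit 4) (nat_lit 4) (nat_lit 5) (nat_lit 4) (nat_lit 4) (nat_lit 419) (nat_lit 366) (nat_lit 235))) (XT.nd (nat_lit 78) (nat_lit 0) (nat_lit 0) (XT.lf (nat_lit 0) (nat_lit 28348673819992) (nat_lit 76) (nat_lit 4969985572450) (nat_lit 76) (nat_lit 4818947647393) (nat_lit 3) (nat_lit 4) (nat_lit 4) (nat_lit 5) (nat_lit 4) (nat_lit 4) (nat_lit 420) (nat_lit 366) (nat_lit 234)) (XT.lf (nat_lit 0) (nat_lit 35594692734867) (nat_lit 76) (nat_lit 4102067949928) (nat_lit 76) (nat_lit 3951030024679) (nat_lit 3) (nat_lit 4) (nat_lit 4) (nat_lit 5) (nat_lit 4) (nat_lit 4) (nat_lit 421) (nat_lit 366) (nat_lit 233)))))) (XT.nd (nat_lit 1014) (nat_lit 0) (nat_lit 0) (XT.nd (nat_lit 234) (nat_lit 152) (nat_lit 0) (XT.nd (nat_lit 78) (nat_lit 0) (nat_lit 0) (XT.lf (nat_lit 0) (nat_lit 43927614479874) (nat_lit 76) (nat_lit 3103962687800)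 (nat_lit 76) (nat_lit 2952924762384) (nat_lit 3) (nat_lit 4) (nat_lit 4) (nat_lit 5) (nat_lit 4) (nat_lit 4) (nat_lit 422) (nat_lit 366) (nat_lit 232)) (XT.nd (nat_lit 78) (nat_lit 0) (nat_lit 0) (XT.lf (nat_lit 0) (nat_lit 53510474480459) (nat_lit 76) (nat_lit 1956141639633) (nat_lit 76) (nat_lit 1805103714073) (nat_lit 3) (nat_lit 4) (nat_lit 4) (nat_lit 5) (nat_lit 4) (nat_lit 4) (nat_lit 423) (nat_lit 366) (nat_lit 231)) (XT.lf (nat_lit 0) (nat_lit 64530763475763) (nat_lit 76) (nat_lit 636147437093) (nat_lit 76) (nat_lit 485109511407) (nat_lit 3) (nat_lit 4) (nat_lit 4) (nat_lit 5) (nat_lit 4) (nat_lit 4) (nat_lit 424) (nat_lit 366) (nat_lit 230)))) (XT.nd (nat_lit 624) (nat_lit 0) (nat_lit 0) (XT.lf (nat_lit 0) (nat_lit 1068622322311) (nat_lit 152) (nat_lit 73257889413424) (nat_lit 0) (nat_lit 937284995533) (nat_lit 1) (nat_lit 5) (nat_lit 3) (nat_lit 4) (nat_lit 1) (nat_lit 4) (nat_lit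 425) (nat_lit 366) (nat_lit 229)) (XT.nd (nat_lit 78) (nat_lit 0) (nat_lit 0) (XT.lf (nat_lit 0) (nat_lit 26172510868478) (nat_lit 152) (nat_lit 174543727680403) (nat_lit 0) (nat_lit 26041173541272) (nat_lit 1) (nat_lit 5) (nat_lit 3) (nat_lit 4) (nat_lit 1) (nat_lit 4) (nat_lit 433) (nat_lit 366) (nat_lit 221)) (XT.lf (nat_lit 0) (nat_lit 31766914674160) (nat_lit 152) (nat_lit 197115285824702) (nat_lit 0) (nat_lit 31635577346927) (nat_lit 1) (nat_lit 5) (nat_lit 3) (nat_lit 4) (nat_lit 1) (nat_lit 4) (nat_lit 434) (nat_lit 366) (nat_lit 220))))) (XT.nd (nat_lit 234) (nat_lit 0) (nat_lit 0) (XT.nd (nat_lit 78) (nat_lit 0) (nat_lit 0) (XT.lf (nat_lit 0) (nat_lit 38200479050043) (nat_lit 152) (nat_lit 223072577692037) (nat_lit 0) (nat_lit 38069141722786) (nat_lit 1) (nat_lit 5) (nat_lit 3) (nat_lit 4) (nat_lit 1) (nat_lit 4) (nat_lit 435) (nat_lit 366) (nat_lit 219)) (XT.nd (nat_lit 78) (nat_lit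 0) (nat_lit 0) (XT.lf (nat_lit 0) (nat_lit 45599078081743) (nat_lit 152) (nat_lit 252923463340682) (nat_lit 0) (nat_lit 45467740754466) (nat_lit 1) (nat_lit 5) (nat_lit 3) (nat_lit 4) (nat_lit 1) (nat_lit 4) (nat_lit 436) (nat_lit 366) (nat_lit 218)) (XT.lf (nat_lit 0) (nat_lit 54107466967705) (nat_lit 152) (nat_lit 287251981837676) (nat_lit 0) (nat_lit 53976129640411) (nat_lit 1) (nat_lit 5) (nat_lit 3) (nat_lit 4) (nat_lit 1) (nat_lit 4) (nat_lit 437) (nat_lit 366) (nat_lit 217)))) (XT.nd (nat_lit 156) (nat_lit 0) (nat_lit 0) (XT.nd (nat_lit 78) (nat_lit 0) (nat_lit 0) (XT.lf (nat_lit 0) (nat_lit 63892114186135) (nat_lit 152) (nat_lit 326729778110135) (nat_lit 0) (nat_lit 63760776858825) (nat_lit 1) (nat_lit 5) (nat_lit 3) (nat_lit 4) (nat_lit 1) (nat_lit 4) (nat_lit 438) (nat_lit 366) (nat_lit 216)) (XT.lf (nat_lit 0) (nat_lit 75144458486957) (nat_lit 152) (nat_lit 372129243824256) (nat_lit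 0) (nat_lit 75013121159633) (nat_lit 1) (nat_lit 5) (nat_lit 3) (nat_lit 4) (nat_lit 1) (nat_lit 4) (nat_lit 439) (nat_lit 366) (nat_lit 215))) (XT.nd (nat_lit 312) (nat_lit 0) (nat_lit 0) (XT.lf (nat_lit 0) (nat_lit 88084654432579) (nat_lit 152) (nat_lit 424338629396189) (nat_lit 0) (nat_lit 87953317105243) (nat_lit 1) (nat_lit 5) (nat_lit 3) (nat_lit 4) (nat_lit 1) (nat_lit 4) (nat_lit 440) (nat_lit 366) (nat_lit 214)) (XT.lf (nat_lit 0) (nat_lit 162392192999146) (nat_lit 152) (nat_lit 724144826184668) (nat_lit 0) (nat_lit 162260855671777) (nat_lit 1) (nat_lit 5) (nat_lit 3) (nat_lit 4) (nat_lit 1) (nat_lit 4) (nat_lit 444) (nat_lit 366) (nat_lit 210))))))))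
noncomputable def xc91 : XT := (XT.nd (nat_lit 48750) (nat_lit 0) (nat_lit 228) (XT.nd (nat_lit 47736) (nat_lit 0) (nat_lit 1444) (XT.nd (nat_lit 47190) (nat_lit 0) (nat_lit 2432) (XT.nd (nat_lit 234) (nat_lit 0) (nat_lit 0) (XT.nd (nat_lit 78) (nat_lit 0) (nat_lit 0) (XT.lf (nat_lit 0) (nat_lit 188419549120511) (nat_lit 152) (nat_lit 829156549112982) (nat_lit 0) (nat_lit 188288211793135) (nat_lit 1) (nat_lit 5) (nat_lit 3) (nat_lit 4) (nat_lit 1) (nat_lit 4) (nat_lit 445) (nat_lit 366) (nat_lit 209)) (XT.nd (nat_lit 78) (nat_lit 0) (nat_lit 0) (XT.lf (nat_lit 0) (nat_lit 218351008659941) (nat_lit 152) (nat_lit 949920030480840) (nat_lit 0) (nat_lit 218219671332562) (nat_lit 1) (nat_lit 5) (nat_lit 3) (nat_lit 4) (nat_lit 1) (nat_lit 4) (nat_lit 446) (nat_lit 366) (nat_lit 208)) (XT.lf (nat_lit 0) (nat_lit 252772187130164) (nat_lit 152) (nat_lit 1088798034054140) (nat_lit 0) (nat_lit 252640849802781)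 (nat_lit 1) (nat_lit 5) (nat_lit 3) (nat_lit 4) (nat_lit 1) (nat_lit 4) (nat_lit 447) (nat_lit 366) (nat_lit 207)))) (XT.nd (nat_lit 46800) (nat_lit 0) (nat_lit 2736) (XT.lf (nat_lit 0) (nat_lit 292356542370815) (nat_lit 152) (nat_lit 1248507738163657) (nat_lit 0) (nat_lit 292225205043428) (nat_lit 1) (nat_lit 5) (nat_lit 3) (nat_lit 4) (nat_lit 1) (nat_lit 4) (nat_lit 448) (nat_lit 366) (nat_lit 206)) (XT.nd (nat_lit 78) (nat_lit 0) (nat_lit 0) (XT.lf (nat_lit 0) (nat_lit 25427166878) (nat_lit 380) (nat_lit 31391245358) (nat_lit 380) (nat_lit 31391245358) (nat_lit 37) (nat_lit 3) (nat_lit 42) (nat_lit 3) (nat_lit 42) (nat_lit 5) (nat_lit 367) (nat_lit 367) (nat_lit 286)) (XT.lf (nat_lit 76) (nat_lit 27097738967) (nat_lit 0) (nat_lit 28694675818) (nat_lit 380) (nat_lit 133689747228) (nat_lit 38) (nat_lit 5) (nat_lit 37) (nat_lit 3) (nat_lit 42) (nat_lit 5) (nat_lit 368) (nat_lit 367) (nat_lit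 285))))) (XT.nd (nat_lit 234) (nat_lit 380) (nat_lit 0) (XT.nd (nat_lit 78) (nat_lit 0) (nat_lit 0) (XT.lf (nat_lit 0) (nat_lit 67765625669) (nat_lit 304) (nat_lit 69509498781) (nat_lit 380) (nat_lit 66285148916) (nat_lit 38) (nat_lit 5) (nat_lit 42) (nat_lit 5) (nat_lit 43) (nat_lit 5) (nat_lit 369) (nat_lit 367) (nat_lit 284)) (XT.nd (nat_lit 78) (nat_lit 0) (nat_lit 76) (XT.lf (nat_lit 76) (nat_lit 39441351052) (nat_lit 0) (nat_lit 45092758190) (nat_lit 380) (nat_lit 134766098664) (nat_lit 39) (nat_lit 5) (nat_lit 38) (nat_lit 5) (nat_lit 43) (nat_lit 5) (nat_lit 370) (nat_lit 367) (nat_lit 283)) (XT.lf (nat_lit 0) (nat_lit 110146507055) (nat_lit 304) (nat_lit 67005103621) (nat_lit 76) (nat_lit 59300225819) (nat_lit 39) (nat_lit 5) (nat_lit 43) (nat_lit 5) (nat_lit 40) (nat_lit 5) (nat_lit 371) (nat_lit 367) (nat_lit 282)))) (XT.nd (nat_lit 156) (nat_lit 152) (nat_lit 0) (XT.nd (nat_lit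 78) (nat_lit 0) (nat_lit 0) (XT.lf (nat_lit 0) (nat_lit 66554326696) (nat_lit 304) (nat_lit 77949347932) (nat_lit 380) (nat_lit 110937098338) (nat_lit 35) (nat_lit 5) (nat_lit 39) (nat_lit 5) (nat_lit 40) (nat_lit 5) (nat_lit 372) (nat_lit 367) (nat_lit 281)) (XT.lf (nat_lit 0) (nat_lit 189179729582) (nat_lit 380) (nat_lit 50737785256) (nat_lit 76) (nat_lit 36585738327) (nat_lit 35) (nat_lit 5) (nat_lit 40) (nat_lit 5) (nat_lit 36) (nat_lit 5) (nat_lit 373) (nat_lit 367) (nat_lit 280))) (XT.nd (nat_lit 78) (nat_lit 0) (nat_lit 0) (XT.lf (nat_lit 0) (nat_lit 114625862781) (nat_lit 152) (nat_lit 134389428539) (nat_lit 228) (nat_lit 50441099375) (nat_lit 33) (nat_lit 5) (nat_lit 35) (nat_lit 5) (nat_lit 36) (nat_lit 5) (nat_lit 374) (nat_lit 367) (nat_lit 279)) (XT.lf (nat_lit 0) (nat_lit 310496078080) (nat_lit 152) (nat_lit 9982139518) (nat_lit 228) (nat_lit 4976476783) (nat_lit 33) (nat_lit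 5) (nat_lit 35) (nat_lit 5) (nat_lit 36) (nat_lit 5) (nat_lit 375) (nat_lit 367) (nat_lit 278)))))) (XT.nd (nat_lit 468) (nat_lit 456) (nat_lit 0) (XT.nd (nat_lit 234) (nat_lit 228) (nat_lit 0) (XT.nd (nat_lit 78) (nat_lit 152) (nat_lit 0) (XT.lf (nat_lit 0) (nat_lit 57197011715) (nat_lit 152) (nat_lit 163959722766) (nat_lit 76) (nat_lit 131787045159) (nat_lit 31) (nat_lit 5) (nat_lit 33) (nat_lit 5) (nat_lit 32) (nat_lit 5) (nat_lit 376) (nat_lit 367) (nat_lit 277)) (XT.nd (nat_lit 78) (nat_lit 0) (nat_lit 0) (XT.lf (nat_lit 0) (nat_lit 43920698645) (nat_lit 152) (nat_lit 87379346751) (nat_lit 228) (nat_lit 252753683322) (nat_lit 29) (nat_lit 5) (nat_lit 31) (nat_lit 5) (nat_lit 32) (nat_lit 5) (nat_lit 377) (nat_lit 367) (nat_lit 276)) (XT.lf (nat_lit 0) (nat_lit 228249301698) (nat_lit 228) (nat_lit 120295061682) (nat_lit 76) (nat_lit 69526191684) (nat_lit 29) (nat_lit 5) (nat_lit 32)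 (nat_lit 5) (nat_lit 30) (nat_lit 4) (nat_lit 378) (nat_lit 367) (nat_lit 275)))) (XT.nd (nat_lit 78) (nat_lit 152) (nat_lit 0) (XT.lf (nat_lit 0) (nat_lit 140901515939) (nat_lit 76) (nat_lit 208834662613) (nat_lit 152) (nat_lit 105954442029) (nat_lit 28) (nat_lit 5) (nat_lit 29) (nat_lit 5) (nat_lit 30) (nat_lit 4) (nat_lit 379) (nat_lit 367) (nat_lit 274)) (XT.nd (nat_lit 78) (nat_lit 152) (nat_lit 0) (XT.lf (nat_lit 0) (nat_lit 454796921427) (nat_lit 76) (nat_lit 40937204112) (nat_lit 152) (nat_lit 2276364626) (nat_lit 28) (nat_lit 5) (nat_lit 29) (nat_lit 5) (nat_lit 30) (nat_lit 4) (nat_lit 380) (nat_lit 367) (nat_lit 273)) (XT.lf (nat_lit 0) (nat_lit 125655507979) (nat_lit 152) (nat_lit 261172488687) (nat_lit 76) (nat_lit 156256811833) (nat_lit 26) (nat_lit 5) (nat_lit 28) (nat_lit 5) (nat_lit 27) (nat_lit 4) (nat_lit 381) (nat_lit 367) (nat_lit 272))))) (XT.nd (nat_lit 234) (nat_lit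 304) (nat_lit 0) (XT.nd (nat_lit 78) (nat_lit 76) (nat_lit 0) (XT.lf (nat_lit 0) (nat_lit 70163146450) (nat_lit 76) (nat_lit 209602014478) (nat_lit 152) (nat_lit 314055695552) (nat_lit 25) (nat_lit 5) (nat_lit 26) (nat_lit 5) (nat_lit 27) (nat_lit 4) (nat_lit 382) (nat_lit 367) (nat_lit 271)) (XT.nd (nat_lit 78) (nat_lit 76) (nat_lit 0) (XT.lf (nat_lit 0) (nat_lit 471053629331) (nat_lit 152) (nat_lit 169978569858) (nat_lit 0) (nat_lit 9025757360) (nat_lit 25) (nat_lit 5) (nat_lit 27) (nat_lit 4) (nat_lit 25) (nat_lit 4) (nat_lit 383) (nat_lit 367) (nat_lit 270)) (XT.lf (nat_lit 0) (nat_lit 248932974458) (nat_lit 76) (nat_lit 462391142436) (nat_lit 76) (nat_lit 363192415) (nat_lit 24) (nat_lit 4) (nat_lit 25) (nat_lit 5) (nat_lit 25) (nat_lit 4) (nat_lit 384) (nat_lit 367) (nat_lit 269)))) (XT.nd (nat_lit 156) (nat_lit 152) (nat_lit 0) (XT.nd (nat_lit 78) (nat_lit 76) (nat_lit 0) (XT.lf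 (nat_lit 0) (nat_lit 196125265247) (nat_lit 152) (nat_lit 40358697609) (nat_lit 76) (nat_lit 543407109649) (nat_lit 23) (nat_lit 5) (nat_lit 25) (nat_lit 5) (nat_lit 24) (nat_lit 4) (nat_lit 385) (nat_lit 367) (nat_lit 268)) (XT.lf (nat_lit 0) (nat_lit 444224262326) (nat_lit 152) (nat_lit 368311658229) (nat_lit 0) (nat_lit 42460717189) (nat_lit 22) (nat_lit 5) (nat_lit 24) (nat_lit 4) (nat_lit 22) (nat_lit 4) (nat_lit 386) (nat_lit 367) (nat_lit 267))) (XT.nd (nat_lit 78) (nat_lit 76) (nat_lit 0) (XT.lf (nat_lit 0) (nat_lit 159069079190) (nat_lit 76) (nat_lit 590526931544) (nat_lit 76) (nat_lit 188763341782) (nat_lit 21) (nat_lit 4) (nat_lit 22) (nat_lit 5) (nat_lit 22) (nat_lit 4) (nat_lit 387) (nat_lit 367) (nat_lit 266)) (XT.lf (nat_lit 0) (nat_lit 80791947313) (nat_lit 152) (nat_lit 228060941841) (nat_lit 76) (nat_lit 721934842851) (nat_lit 20) (nat_lit 5) (nat_lit 22) (nat_lit 5) (nat_lit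 21) (nat_lit 4) (nat_lit 388) (nat_lit 367) (nat_lit 265))))))) (XT.nd (nat_lit 1014) (nat_lit 456) (nat_lit 0) (XT.nd (nat_lit 468) (nat_lit 380) (nat_lit 0) (XT.nd (nat_lit 234) (nat_lit 228) (nat_lit 0) (XT.nd (nat_lit 78) (nat_lit 76) (nat_lit 0) (XT.lf (nat_lit 0) (nat_lit 391405124225) (nat_lit 152) (nat_lit 699288961974) (nat_lit 0) (nat_lit 42045417869) (nat_lit 19) (nat_lit 5) (nat_lit 21) (nat_lit 4) (nat_lit 19) (nat_lit 4) (nat_lit 389) (nat_lit 367) (nat_lit 264)) (XT.nd (nat_lit 78) (nat_lit 76) (nat_lit 0) (XT.lf (nat_lit 0) (nat_lit 775806550319) (nat_lit 152) (nat_lit 43651232281) (nat_lit 0) (nat_lit 426446818448) (nat_lit 19) (nat_lit 5) (nat_lit 21) (nat_lit 4) (nat_lit 19) (nat_lit 4) (nat_lit 390) (nat_lit 367) (nat_lit 263)) (XT.lf (nat_lit 0) (nat_lit 779750867294) (nat_lit 76) (nat_lit 470405091998) (nat_lit 76) (nat_lit 121045337941) (nat_lit 18) (nat_lit 4) (nat_lit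 19) (nat_lit 5) (nat_lit 19) (nat_lit 4) (nat_lit 391) (nat_lit 367) (nat_lit 262)))) (XT.nd (nat_lit 78) (nat_lit 76) (nat_lit 0) (XT.lf (nat_lit 0) (nat_lit 224925157200) (nat_lit 76) (nat_lit 42184112822) (nat_lit 152) (nat_lit 1244686221903) (nat_lit 16) (nat_lit 5) (nat_lit 17) (nat_lit 5) (nat_lit 18) (nat_lit 4) (nat_lit 392) (nat_lit 367) (nat_lit 261)) (XT.nd (nat_lit 78) (nat_lit 76) (nat_lit 0) (XT.lf (nat_lit 0) (nat_lit 752127954513) (nat_lit 152) (nat_lit 464494375742) (nat_lit 0) (nat_lit 448336832664) (nat_lit 16) (nat_lit 5) (nat_lit 18) (nat_lit 4) (nat_lit 16) (nat_lit 4) (nat_lit 393) (nat_lit 367) (nat_lit 260)) (XT.lf (nat_lit 0) (nat_lit 526062873625) (nat_lit 76) (nat_lit 807628432876) (nat_lit 76) (nat_lit 503837298342) (nat_lit 15) (nat_lit 4) (nat_lit 16) (nat_lit 5) (nat_lit 16) (nat_lit 4) (nat_lit 394) (nat_lit 367) (nat_lit 259))))) (XT.nd (nat_lit 234) (nat_lit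 228) (nat_lit 0) (XT.nd (nat_lit 78) (nat_lit 152) (nat_lit 0) (XT.lf (nat_lit 0) (nat_lit 1717406457375) (nat_lit 76) (nat_lit 309363049690) (nat_lit 76) (nat_lit 5571904125) (nat_lit 15) (nat_lit 4) (nat_lit 16) (nat_lit 5) (nat_lit 16) (nat_lit 4) (nat_lit 395) (nat_lit 367) (nat_lit 258)) (XT.nd (nat_lit 78) (nat_lit 0) (nat_lit 0) (XT.lf (nat_lit 0) (nat_lit 567408299086) (nat_lit 152) (nat_lit 1374627556360) (nat_lit 0) (nat_lit 303242077211) (nat_lit 13) (nat_lit 5) (nat_lit 15) (nat_lit 4) (nat_lit 13) (nat_lit 4) (nat_lit 396) (nat_lit 367) (nat_lit 257)) (XT.lf (nat_lit 0) (nat_lit 1257743049607) (nat_lit 152) (nat_lit 233998566894) (nat_lit 0) (nat_lit 993576820478) (nat_lit 13) (nat_lit 5) (nat_lit 15) (nat_lit 4) (nat_lit 13) (nat_lit 4) (nat_lit 397) (nat_lit 367) (nat_lit 256)))) (XT.nd (nat_lit 156) (nat_lit 76) (nat_lit 0) (XT.nd (nat_lit 78) (nat_lit 76) (nat_lit 0) (XT.lf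 (nat_lit 0) (nat_lit 1183047797722) (nat_lit 76) (nat_lit 917567668331) (nat_lit 76) (nat_lit 653401432895) (nat_lit 12) (nat_lit 4) (nat_lit 13) (nat_lit 5) (nat_lit 13) (nat_lit 4) (nat_lit 398) (nat_lit 367) (nat_lit 255)) (XT.lf (nat_lit 0) (nat_lit 19098626581) (nat_lit 152) (nat_lit 223104193770) (nat_lit 76) (nat_lit 2818852335191) (nat_lit 11) (nat_lit 5) (nat_lit 13) (nat_lit 5) (nat_lit 12) (nat_lit 4) (nat_lit 399) (nat_lit 367) (nat_lit 254))) (XT.nd (nat_lit 78) (nat_lit 0) (nat_lit 0) (XT.lf (nat_lit 0) (nat_lit 810896570143) (nat_lit 152) (nat_lit 2004600825684) (nat_lit 0) (nat_lit 581186791284) (nat_lit 10) (nat_lit 5) (nat_lit 12) (nat_lit 4) (nat_lit 10) (nat_lit 4) (nat_lit 400) (nat_lit 367) (nat_lit 253)) (XT.lf (nat_lit 0) (nat_lit 1745215254896) (nat_lit 152) (nat_lit 518374188641) (nat_lit 0) (nat_lit 1515505472431) (nat_lit 10) (nat_lit 5) (nat_lit 12) (nat_lit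 4) (nat_lit 10) (nat_lit 4) (nat_lit 401) (nat_lit 367) (nat_lit 252)))))) (XT.nd (nat_lit 468) (nat_lit 152) (nat_lit 0) (XT.nd (nat_lit 234) (nat_lit 76) (nat_lit 0) (XT.nd (nat_lit 78) (nat_lit 152) (nat_lit 0) (XT.lf (nat_lit 0) (nat_lit 1307158697959) (nat_lit 76) (nat_lit 1566649673700) (nat_lit 76) (nat_lit 1336939888099) (nat_lit 9) (nat_lit 4) (nat_lit 10) (nat_lit 5) (nat_lit 10) (nat_lit 4) (nat_lit 402) (nat_lit 367) (nat_lit 251)) (XT.nd (nat_lit 78) (nat_lit 152) (nat_lit 0) (XT.lf (nat_lit 0) (nat_lit 3464779657555) (nat_lit 76) (nat_lit 734007607278) (nat_lit 76) (nat_lit 504297818950) (nat_lit 9) (nat_lit 4) (nat_lit 10) (nat_lit 5) (nat_lit 10) (nat_lit 4) (nat_lit 403) (nat_lit 367) (nat_lit 250)) (XT.lf (nat_lit 0) (nat_lit 454373065548) (nat_lit 152) (nat_lit 4551236318558) (nat_lit 0) (nat_lit 254625421462) (nat_lit 7) (nat_lit 5) (nat_lit 9) (nat_lit 4) (nat_lit 7)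 (nat_lit 4) (nat_lit 404) (nat_lit 367) (nat_lit 249)))) (XT.nd (nat_lit 78) (nat_lit 76) (nat_lit 0) (XT.lf (nat_lit 0) (nat_lit 1607978777232) (nat_lit 152) (nat_lit 2865730246934) (nat_lit 0) (nat_lit 1408231131353) (nat_lit 7) (nat_lit 5) (nat_lit 9) (nat_lit 4) (nat_lit 7) (nat_lit 4) (nat_lit 405) (nat_lit 367) (nat_lit 248)) (XT.nd (nat_lit 78) (nat_lit 76) (nat_lit 0) (XT.lf (nat_lit 0) (nat_lit 2934625326951) (nat_lit 152) (nat_lit 927398304304) (nat_lit 0) (nat_lit 2734877679514) (nat_lit 7) (nat_lit 5) (nat_lit 9) (nat_lit 4) (nat_lit 7) (nat_lit 4) (nat_lit 406) (nat_lit 367) (nat_lit 247)) (XT.lf (nat_lit 0) (nat_lit 1428893363329) (nat_lit 76) (nat_lit 3090542906577) (nat_lit 76) (nat_lit 2890795257784) (nat_lit 6) (nat_lit 4) (nat_lit 7) (nat_lit 5) (nat_lit 7) (nat_lit 4) (nat_lit 407) (nat_lit 367) (nat_lit 246))))) (XT.nd (nat_lit 234) (nat_lit 0) (nat_lit 0) (XT.nd (nat_lit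 78) (nat_lit 152) (nat_lit 0) (XT.lf (nat_lit 0) (nat_lit 4242855671187) (nat_lit 76) (nat_lit 2147590806234) (nat_lit 76) (nat_lit 1947843156262) (nat_lit 6) (nat_lit 4) (nat_lit 7) (nat_lit 5) (nat_lit 7) (nat_lit 4) (nat_lit 408) (nat_lit 367) (nat_lit 245)) (XT.nd (nat_lit 78) (nat_lit 152) (nat_lit 0) (XT.lf (nat_lit 0) (nat_lit 7478912296542) (nat_lit 76) (nat_lit 1063195906027) (nat_lit 76) (nat_lit 863448255030) (nat_lit 6) (nat_lit 4) (nat_lit 7) (nat_lit 5) (nat_lit 7) (nat_lit 4) (nat_lit 409) (nat_lit 367) (nat_lit 244)) (XT.lf (nat_lit 0) (nat_lit 384089896732) (nat_lit 152) (nat_lit 10030849187212) (nat_lit 0) (nat_lit 210396286395) (nat_lit 4) (nat_lit 5) (nat_lit 6) (nat_lit 4) (nat_lit 4) (nat_lit 4) (nat_lit 410) (nat_lit 367) (nat_lit 243)))) (XT.nd (nat_lit 156) (nat_lit 0) (nat_lit 0) (XT.nd (nat_lit 78) (nat_lit 0) (nat_lit 0) (XT.lf (nat_lit 0) (nat_lit 1886493184844)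 (nat_lit 152) (nat_lit 8399200613538) (nat_lit 0) (nat_lit 1712799573832) (nat_lit 4) (nat_lit 5) (nat_lit 6) (nat_lit 4) (nat_lit 4) (nat_lit 4) (nat_lit 411) (nat_lit 367) (nat_lit 242)) (XT.lf (nat_lit 0) (nat_lit 3614256955502) (nat_lit 152) (nat_lit 6522804776565) (nat_lit 0) (nat_lit 3440563343904) (nat_lit 4) (nat_lit 5) (nat_lit 6) (nat_lit 4) (nat_lit 4) (nat_lit 4) (nat_lit 412) (nat_lit 367) (nat_lit 241))) (XT.nd (nat_lit 78) (nat_lit 0) (nat_lit 0) (XT.lf (nat_lit 0) (nat_lit 5601185282480) (nat_lit 152) (nat_lit 4364949583830) (nat_lit 0) (nat_lit 5427491670373) (nat_lit 4) (nat_lit 5) (nat_lit 6) (nat_lit 4) (nat_lit 4) (nat_lit 4) (nat_lit 413) (nat_lit 367) (nat_lit 240)) (XT.lf (nat_lit 0) (nat_lit 7886152850437) (nat_lit 152) (nat_lit 1883416129389) (nat_lit 0) (nat_lit 7712459237887) (nat_lit 4) (nat_lit 5) (nat_lit 6) (nat_lit 4) (nat_lit 4) (nat_lit 4) (nat_lit 414)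 (nat_lit 367) (nat_lit 239))))))))
noncomputable def xc92 : XT := (XT.nd (nat_lit 49608) (nat_lit 0) (nat_lit 1064) (XT.nd (nat_lit 1482) (nat_lit 0) (nat_lit 0) (XT.nd (nat_lit 468) (nat_lit 152) (nat_lit 0) (XT.nd (nat_lit 234) (nat_lit 0) (nat_lit 0) (XT.nd (nat_lit 78) (nat_lit 0) (nat_lit 0) (XT.lf (nat_lit 0) (nat_lit 1065176726247) (nat_lit 76) (nat_lit 9492795517064) (nat_lit 76) (nat_lit 9319101904128) (nat_lit 3) (nat_lit 4) (nat_lit 4) (nat_lit 5) (nat_lit 4) (nat_lit 4) (nat_lit 415) (nat_lit 367) (nat_lit 238)) (XT.nd (nat_lit 78) (nat_lit 0) (nat_lit 0) (XT.lf (nat_lit 0) (nat_lit 4667728785946) (nat_lit 76) (nat_lit 9061287050150) (nat_lit 76) (nat_lit 8887593436879) (nat_lit 3) (nat_lit 4) (nat_lit 4) (nat_lit 5) (nat_lit 4) (nat_lit 4) (nat_lit 416) (nat_lit 367) (nat_lit 237)) (XT.lf (nat_lit 0) (nat_lit 8810663642183) (nat_lit 76) (nat_lit 8565052319798) (nat_lit 76)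 (nat_lit 8391358706236) (nat_lit 3) (nat_lit 4) (nat_lit 4) (nat_lit 5) (nat_lit 4) (nat_lit 4) (nat_lit 417) (nat_lit 367) (nat_lit 236)))) (XT.nd (nat_lit 78) (nat_lit 0) (nat_lit 0) (XT.lf (nat_lit 0) (nat_lit 13575038716057) (nat_lit 76) (nat_lit 7994382385630) (nat_lit 76) (nat_lit 7820688771815) (nat_lit 3) (nat_lit 4) (nat_lit 4) (nat_lit 5) (nat_lit 4) (nat_lit 4) (nat_lit 418) (nat_lit 367) (nat_lit 235)) (XT.nd (nat_lit 78) (nat_lit 0) (nat_lit 0) (XT.lf (nat_lit 0) (nat_lit 19054070041624) (nat_lit 76) (nat_lit 7338111966327) (nat_lit 76) (nat_lit 7164418352291) (nat_lit 3) (nat_lit 4) (nat_lit 4) (nat_lit 5) (nat_lit 4) (nat_lit 4) (nat_lit 419) (nat_lit 367) (nat_lit 234)) (XT.lf (nat_lit 0) (nat_lit 25354956057861) (nat_lit 76) (nat_lit 6583400988466) (nat_lit 76) (nat_lit 6409707374238) (nat_lit 3) (nat_lit 4) (nat_lit 4) (nat_lit 5) (nat_lit 4) (nat_lit 4) (nat_lit 420)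 (nat_lit 367) (nat_lit 233))))) (XT.nd (nat_lit 234) (nat_lit 152) (nat_lit 0) (XT.nd (nat_lit 78) (nat_lit 0) (nat_lit 0) (XT.lf (nat_lit 0) (nat_lit 32600974969434) (nat_lit 76) (nat_lit 5715483367698) (nat_lit 76) (nat_lit 5541789753304) (nat_lit 3) (nat_lit 4) (nat_lit 4) (nat_lit 5) (nat_lit 4) (nat_lit 4) (nat_lit 421) (nat_lit 367) (nat_lit 232)) (XT.nd (nat_lit 78) (nat_lit 0) (nat_lit 0) (XT.lf (nat_lit 0) (nat_lit 40933896711570) (nat_lit 76) (nat_lit 4717378107096) (nat_lit 76) (nat_lit 4543684492557) (nat_lit 3) (nat_lit 4) (nat_lit 4) (nat_lit 5) (nat_lit 4) (nat_lit 4) (nat_lit 422) (nat_lit 367) (nat_lit 231)) (XT.lf (nat_lit 0) (nat_lit 50516756709658) (nat_lit 76) (nat_lit 3569557060255) (nat_lit 76) (nat_lit 3395863445591) (nat_lit 3) (nat_lit 4) (nat_lit 4) (nat_lit 5) (nat_lit 4) (nat_lit 4) (nat_lit 423) (nat_lit 367) (nat_lit 230)))) (XT.nd (nat_lit 78) (nat_lit 152)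 (nat_lit 0) (XT.lf (nat_lit 0) (nat_lit 61537045702791) (nat_lit 76) (nat_lit 2249562858870) (nat_lit 76) (nat_lit 2075869244095) (nat_lit 3) (nat_lit 4) (nat_lit 4) (nat_lit 5) (nat_lit 4) (nat_lit 4) (nat_lit 424) (nat_lit 367) (nat_lit 229)) (XT.nd (nat_lit 624) (nat_lit 152) (nat_lit 0) (XT.lf (nat_lit 0) (nat_lit 74210378040834) (nat_lit 76) (nat_lit 731569529433) (nat_lit 76) (nat_lit 557875914563) (nat_lit 3) (nat_lit 4) (nat_lit 4) (nat_lit 5) (nat_lit 4) (nat_lit 4) (nat_lit 425) (nat_lit 367) (nat_lit 228)) (XT.lf (nat_lit 0) (nat_lit 24503983700377) (nat_lit 152) (nat_lit 178153728672536) (nat_lit 0) (nat_lit 24352945774032) (nat_lit 1) (nat_lit 5) (nat_lit 3) (nat_lit 4) (nat_lit 1) (nat_lit 4) (nat_lit 433) (nat_lit 367) (nat_lit 220)))))) (XT.nd (nat_lit 468) (nat_lit 0) (nat_lit 0) (XT.nd (nat_lit 234) (nat_lit 0) (nat_lit 0) (XT.nd (nat_lit 78) (nat_lit 0) (nat_lit 0) (XT.lf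 (nat_lit 0) (nat_lit 30098387505756) (nat_lit 152) (nat_lit 200725286817482) (nat_lit 0) (nat_lit 29947349579387) (nat_lit 1) (nat_lit 5) (nat_lit 3) (nat_lit 4) (nat_lit 1) (nat_lit 4) (nat_lit 434) (nat_lit 367) (nat_lit 219)) (XT.nd (nat_lit 78) (nat_lit 0) (nat_lit 0) (XT.lf (nat_lit 0) (nat_lit 36531951881376) (nat_lit 152) (nat_lit 226682578685379) (nat_lit 0) (nat_lit 36380913954987) (nat_lit 1) (nat_lit 5) (nat_lit 3) (nat_lit 4) (nat_lit 1) (nat_lit 4) (nat_lit 435) (nat_lit 367) (nat_lit 218)) (XT.lf (nat_lit 0) (nat_lit 43930550912847) (nat_lit 152) (nat_lit 256533464334514) (nat_lit 0) (nat_lit 43779512986440) (nat_lit 1) (nat_lit 5) (nat_lit 3) (nat_lit 4) (nat_lit 1) (nat_lit 4) (nat_lit 436) (nat_lit 367) (nat_lit 217)))) (XT.nd (nat_lit 78) (nat_lit 0) (nat_lit 0) (XT.lf (nat_lit 0) (nat_lit 52438939798611) (nat_lit 152) (nat_lit 290861982831933) (nat_lit 0) (nat_lit 52287901872189)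 (nat_lit 1) (nat_lit 5) (nat_lit 3) (nat_lit 4) (nat_lit 1) (nat_lit 4) (nat_lit 437) (nat_lit 367) (nat_lit 216)) (XT.nd (nat_lit 78) (nat_lit 0) (nat_lit 0) (XT.lf (nat_lit 0) (nat_lit 62223587016868) (nat_lit 152) (nat_lit 330339779104762) (nat_lit 0) (nat_lit 62072549090431) (nat_lit 1) (nat_lit 5) (nat_lit 3) (nat_lit 4) (nat_lit 1) (nat_lit 4) (nat_lit 438) (nat_lit 367) (nat_lit 215)) (XT.lf (nat_lit 0) (nat_lit 73475931317539) (nat_lit 152) (nat_lit 375739244819205) (nat_lit 0) (nat_lit 73324893391091) (nat_lit 1) (nat_lit 5) (nat_lit 3) (nat_lit 4) (nat_lit 1) (nat_lit 4) (nat_lit 439) (nat_lit 367) (nat_lit 214))))) (XT.nd (nat_lit 468) (nat_lit 0) (nat_lit 0) (XT.nd (nat_lit 312) (nat_lit 0) (nat_lit 0) (XT.lf (nat_lit 0) (nat_lit 86416127263029) (nat_lit 152) (nat_lit 427948630391418) (nat_lit 0) (nat_lit 86265089336572) (nat_lit 1) (nat_lit 5) (nat_lit 3) (nat_lit 4) (nat_lit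 1) (nat_lit 4) (nat_lit 440) (nat_lit 367) (nat_lit 213)) (XT.nd (nat_lit 78) (nat_lit 0) (nat_lit 0) (XT.lf (nat_lit 0) (nat_lit 160723665829223) (nat_lit 152) (nat_lit 727754827180696) (nat_lit 0) (nat_lit 160572627902736) (nat_lit 1) (nat_lit 5) (nat_lit 3) (nat_lit 4) (nat_lit 1) (nat_lit 4) (nat_lit 444) (nat_lit 367) (nat_lit 209)) (XT.lf (nat_lit 0) (nat_lit 186751021950523) (nat_lit 152) (nat_lit 832766550109148) (nat_lit 0) (nat_lit 186599984024031) (nat_lit 1) (nat_lit 5) (nat_lit 3) (nat_lit 4) (nat_lit 1) (nat_lit 4) (nat_lit 445) (nat_lit 367) (nat_lit 208)))) (XT.nd (nat_lit 47034) (nat_lit 0) (nat_lit 2736) (XT.nd (nat_lit 78) (nat_lit 0) (nat_lit 0) (XT.lf (nat_lit 0) (nat_lit 216682481489897) (nat_lit 152) (nat_lit 953530031477128) (nat_lit 0) (nat_lit 216531443563401) (nat_lit 1) (nat_lit 5) (nat_lit 3) (nat_lit 4) (nat_lit 1) (nat_lit 4) (nat_lit 446) (nat_lit 367) (nat_lit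 207)) (XT.lf (nat_lit 0) (nat_lit 251103659960072) (nat_lit 152) (nat_lit 1092408035050532) (nat_lit 0) (nat_lit 250952622033571) (nat_lit 1) (nat_lit 5) (nat_lit 3) (nat_lit 4) (nat_lit 1) (nat_lit 4) (nat_lit 447) (nat_lit 367) (nat_lit 206))) (XT.nd (nat_lit 78) (nat_lit 0) (nat_lit 0) (XT.lf (nat_lit 0) (nat_lit 29243107725) (nat_lit 380) (nat_lit 36098858878) (nat_lit 380) (nat_lit 36098858878) (nat_lit 37) (nat_lit 3) (nat_lit 42) (nat_lit 3) (nat_lit 42) (nat_lit 5) (nat_lit 368) (nat_lit 368) (nat_lit 284)) (XT.lf (nat_lit 76) (nat_lit 31164448809) (nat_lit 0) (nat_lit 33000157934) (nat_lit 380) (nat_lit 153739378579) (nat_lit 38) (nat_lit 5) (nat_lit 37) (nat_lit 3) (nat_lit 42) (nat_lit 5) (nat_lit 369) (nat_lit 368) (nat_lit 283))))))) (XT.nd (nat_lit 1014) (nat_lit 836) (nat_lit 0) (XT.nd (nat_lit 468) (nat_lit 532) (nat_lit 0) (XT.nd (nat_lit 234) (nat_lit 380) (nat_lit 0)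 (XT.nd (nat_lit 78) (nat_lit 0) (nat_lit 0) (XT.lf (nat_lit 0) (nat_lit 77933318831) (nat_lit 304) (nat_lit 79933660101) (nat_lit 380) (nat_lit 76226906711) (nat_lit 38) (nat_lit 5) (nat_lit 42) (nat_lit 5) (nat_lit 43) (nat_lit 5) (nat_lit 370) (nat_lit 368) (nat_lit 282)) (XT.nd (nat_lit 78) (nat_lit 0) (nat_lit 76) (XT.lf (nat_lit 76) (nat_lit 45359714320) (nat_lit 0) (nat_lit 51857078436) (nat_lit 380) (nat_lit 154978060109) (nat_lit 39) (nat_lit 5) (nat_lit 38) (nat_lit 5) (nat_lit 43) (nat_lit 5) (nat_lit 371) (nat_lit 368) (nat_lit 281)) (XT.lf (nat_lit 0) (nat_lit 126670700762) (nat_lit 304) (nat_lit 77053639885) (nat_lit 76) (nat_lit 68194937669) (nat_lit 39) (nat_lit 5) (nat_lit 43) (nat_lit 5) (nat_lit 40) (nat_lit 5) (nat_lit 372) (nat_lit 368) (nat_lit 280)))) (XT.nd (nat_lit 78) (nat_lit 152) (nat_lit 0) (XT.lf (nat_lit 0) (nat_lit 76539603649) (nat_lit 304) (nat_lit 89641638677)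 (nat_lit 380) (nat_lit 127575343235) (nat_lit 35) (nat_lit 5) (nat_lit 39) (nat_lit 5) (nat_lit 40) (nat_lit 5) (nat_lit 373) (nat_lit 368) (nat_lit 279)) (XT.nd (nat_lit 78) (nat_lit 152) (nat_lit 0) (XT.lf (nat_lit 0) (nat_lit 217558446513) (nat_lit 380) (nat_lit 58346342885) (nat_lit 76) (nat_lit 42073687357) (nat_lit 35) (nat_lit 5) (nat_lit 40) (nat_lit 5) (nat_lit 36) (nat_lit 5) (nat_lit 374) (nat_lit 368) (nat_lit 278)) (XT.lf (nat_lit 0) (nat_lit 131821756441) (nat_lit 152) (nat_lit 154547440237) (nat_lit 228) (nat_lit 58005410209) (nat_lit 33) (nat_lit 5) (nat_lit 35) (nat_lit 5) (nat_lit 36) (nat_lit 5) (nat_lit 375) (nat_lit 368) (nat_lit 277))))) (XT.nd (nat_lit 234) (nat_lit 228) (nat_lit 0) (XT.nd (nat_lit 78) (nat_lit 304) (nat_lit 0) (XT.lf (nat_lit 0) (nat_lit 357072241308) (nat_lit 152) (nat_lit 11479110374) (nat_lit 228) (nat_lit 5721336064) (nat_lit 33) (nat_lit 5)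 (nat_lit 35) (nat_lit 5) (nat_lit 36) (nat_lit 5) (nat_lit 376) (nat_lit 368) (nat_lit 276)) (XT.nd (nat_lit 78) (nat_lit 152) (nat_lit 0) (XT.lf (nat_lit 0) (nat_lit 65777934466) (nat_lit 152) (nat_lit 188551687486) (nat_lit 76) (nat_lit 151555518549) (nat_lit 31) (nat_lit 5) (nat_lit 33) (nat_lit 5) (nat_lit 32) (nat_lit 5) (nat_lit 377) (nat_lit 368) (nat_lit 275)) (XT.lf (nat_lit 0) (nat_lit 50510706514) (nat_lit 152) (nat_lit 100485616662) (nat_lit 228) (nat_lit 290665273825) (nat_lit 29) (nat_lit 5) (nat_lit 31) (nat_lit 5) (nat_lit 32) (nat_lit 5) (nat_lit 378) (nat_lit 368) (nat_lit 274)))) (XT.nd (nat_lit 156) (nat_lit 152) (nat_lit 0) (XT.nd (nat_lit 78) (nat_lit 76) (nat_lit 0) (XT.lf (nat_lit 0) (nat_lit 262487824905) (nat_lit 228) (nat_lit 138337522741) (nat_lit 76) (nat_lit 79955621155) (nat_lit 29) (nat_lit 5) (nat_lit 32) (nat_lit 5) (nat_lit 30) (nat_lit 4) (nat_lit 379)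 (nat_lit 368) (nat_lit 273)) (XT.lf (nat_lit 0) (nat_lit 162038459787) (nat_lit 76) (nat_lit 240159197450) (nat_lit 152) (nat_lit 121846398359) (nat_lit 28) (nat_lit 5) (nat_lit 29) (nat_lit 5) (nat_lit 30) (nat_lit 4) (nat_lit 380) (nat_lit 368) (nat_lit 272))) (XT.nd (nat_lit 78) (nat_lit 152) (nat_lit 0) (XT.lf (nat_lit 0) (nat_lit 523017952213) (nat_lit 76) (nat_lit 47077206855) (nat_lit 152) (nat_lit 2616767169) (nat_lit 28) (nat_lit 5) (nat_lit 29) (nat_lit 5) (nat_lit 30) (nat_lit 4) (nat_lit 381) (nat_lit 368) (nat_lit 271)) (XT.lf (nat_lit 0) (nat_lit 144504755941) (nat_lit 152) (nat_lit 300346738628) (nat_lit 76) (nat_lit 179695896751) (nat_lit 26) (nat_lit 5) (nat_lit 28) (nat_lit 5) (nat_lit 27) (nat_lit 4) (nat_lit 382) (nat_lit 368) (nat_lit 270)))))) (XT.nd (nat_lit 468) (nat_lit 456) (nat_lit 0) (XT.nd (nat_lit 234) (nat_lit 228) (nat_lit 0) (XT.nd (nat_lit 78) (nat_lit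 76) (nat_lit 0) (XT.lf (nat_lit 0) (nat_lit 80689167990) (nat_lit 76) (nat_lit 241041632777) (nat_lit 152) (nat_lit 361163054166) (nat_lit 25) (nat_lit 5) (nat_lit 26) (nat_lit 5) (nat_lit 27) (nat_lit 4) (nat_lit 383) (nat_lit 368) (nat_lit 269)) (XT.nd (nat_lit 78) (nat_lit 76) (nat_lit 0) (XT.lf (nat_lit 0) (nat_lit 541712451138) (nat_lit 152) (nat_lit 195473919447) (nat_lit 0) (nat_lit 10380162694) (nat_lit 25) (nat_lit 5) (nat_lit 27) (nat_lit 4) (nat_lit 25) (nat_lit 4) (nat_lit 384) (nat_lit 368) (nat_lit 268)) (XT.lf (nat_lit 0) (nat_lit 286274291249) (nat_lit 76) (nat_lit 531749175940) (nat_lit 76) (nat_lit 416828480) (nat_lit 24) (nat_lit 4) (nat_lit 25) (nat_lit 5) (nat_lit 25) (nat_lit 4) (nat_lit 385) (nat_lit 368) (nat_lit 267)))) (XT.nd (nat_lit 78) (nat_lit 152) (nat_lit 0) (XT.lf (nat_lit 0) (nat_lit 225544722656) (nat_lit 152) (nat_lit 46411245066) (nat_lit 76) (nat_lit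 624918665421) (nat_lit 23) (nat_lit 5) (nat_lit 25) (nat_lit 5) (nat_lit 24) (nat_lit 4) (nat_lit 386) (nat_lit 368) (nat_lit 266)) (XT.nd (nat_lit 78) (nat_lit 76) (nat_lit 0) (XT.lf (nat_lit 0) (nat_lit 510858555502) (nat_lit 152) (nat_lit 423557135903) (nat_lit 0) (nat_lit 48830343846) (nat_lit 22) (nat_lit 5) (nat_lit 24) (nat_lit 4) (nat_lit 22) (nat_lit 4) (nat_lit 387) (nat_lit 368) (nat_lit 265)) (XT.lf (nat_lit 0) (nat_lit 182930654354) (nat_lit 76) (nat_lit 679105376775) (nat_lit 76) (nat_lit 217077131376) (nat_lit 21) (nat_lit 4) (nat_lit 22) (nat_lit 5) (nat_lit 22) (nat_lit 4) (nat_lit 388) (nat_lit 368) (nat_lit 264))))) (XT.nd (nat_lit 234) (nat_lit 304) (nat_lit 0) (XT.nd (nat_lit 78) (nat_lit 76) (nat_lit 0) (XT.lf (nat_lit 0) (nat_lit 92911303163) (nat_lit 152) (nat_lit 262268972939) (nat_lit 76) (nat_lit 830225531088) (nat_lit 20) (nat_lit 5) (nat_lit 22) (nat_lit 5)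 (nat_lit 21) (nat_lit 4) (nat_lit 389) (nat_lit 368) (nat_lit 263)) (XT.nd (nat_lit 78) (nat_lit 0) (nat_lit 0) (XT.lf (nat_lit 0) (nat_lit 450116448724) (nat_lit 152) (nat_lit 804181188157) (nat_lit 0) (nat_lit 48352709371) (nat_lit 19) (nat_lit 5) (nat_lit 21) (nat_lit 4) (nat_lit 19) (nat_lit 4) (nat_lit 390) (nat_lit 368) (nat_lit 262)) (XT.lf (nat_lit 0) (nat_lit 892178016227) (nat_lit 152) (nat_lit 50197944852) (nat_lit 0) (nat_lit 490414257582) (nat_lit 19) (nat_lit 5) (nat_lit 21) (nat_lit 4) (nat_lit 19) (nat_lit 4) (nat_lit 391) (nat_lit 368) (nat_lit 261)))) (XT.nd (nat_lit 156) (nat_lit 76) (nat_lit 0) (XT.nd (nat_lit 78) (nat_lit 152) (nat_lit 0) (XT.lf (nat_lit 0) (nat_lit 896714425466) (nat_lit 76) (nat_lit 540965386464) (nat_lit 76) (nat_lit 139201611042) (nat_lit 18) (nat_lit 4) (nat_lit 19) (nat_lit 5) (nat_lit 19) (nat_lit 4) (nat_lit 392) (nat_lit 368) (nat_lit 260))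 (XT.lf (nat_lit 0) (nat_lit 258664861537) (nat_lit 76) (nat_lit 48511255461) (nat_lit 152) (nat_lit 1431388630219) (nat_lit 16) (nat_lit 5) (nat_lit 17) (nat_lit 5) (nat_lit 18) (nat_lit 4) (nat_lit 393) (nat_lit 368) (nat_lit 259))) (XT.nd (nat_lit 78) (nat_lit 76) (nat_lit 0) (XT.lf (nat_lit 0) (nat_lit 864947561700) (nat_lit 152) (nat_lit 534167680265) (nat_lit 0) (nat_lit 515587733269) (nat_lit 16) (nat_lit 5) (nat_lit 18) (nat_lit 4) (nat_lit 16) (nat_lit 4) (nat_lit 394) (nat_lit 368) (nat_lit 258)) (XT.lf (nat_lit 0) (nat_lit 604973117788) (nat_lit 76) (nat_lit 928772278366) (nat_lit 76) (nat_lit 579412440344) (nat_lit 15) (nat_lit 4) (nat_lit 16) (nat_lit 5) (nat_lit 16) (nat_lit 4) (nat_lit 395) (nat_lit 368) (nat_lit 257))))))))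
noncomputable def xc93 : XT := (XT.nd (nat_lit 1950) (nat_lit 152) (nat_lit 0) (XT.nd (nat_lit 936) (nat_lit 304) (nat_lit 0) (XT.nd (nat_lit 468) (nat_lit 228) (nat_lit 0) (XT.nd (nat_lit 234) (nat_lit 228) (nat_lit 0) (XT.nd (nat_lit 78) (nat_lit 152) (nat_lit 0) (XT.lf (nat_lit 0) (nat_lit 1975018133041) (nat_lit 76) (nat_lit 355767142412) (nat_lit 76) (nat_lit 6407296049) (nat_lit 15) (nat_lit 4) (nat_lit 16) (nat_lit 5) (nat_lit 16) (nat_lit 4) (nat_lit 396) (nat_lit 368) (nat_lit 256)) (XT.nd (nat_lit 78) (nat_lit 0) (nat_lit 0) (XT.lf (nat_lit 0) (nat_lit 652519900353) (nat_lit 152) (nat_lit 1580820945435) (nat_lit 0) (nat_lit 348728723295) (nat_lit 13) (nat_lit 5) (nat_lit 15) (nat_lit 4) (nat_lit 13) (nat_lit 4) (nat_lit 397) (nat_lit 368) (nat_lit 255)) (XT.lf (nat_lit 0) (nat_lit 1446404816964) (nat_lit 152) (nat_lit 269097704642) (nat_lit 0) (nat_lit 1142613634422) (nat_lit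 13) (nat_lit 5) (nat_lit 15) (nat_lit 4) (nat_lit 13) (nat_lit 4) (nat_lit 398) (nat_lit 368) (nat_lit 254)))) (XT.nd (nat_lit 78) (nat_lit 152) (nat_lit 0) (XT.lf (nat_lit 0) (nat_lit 1360505585245) (nat_lit 76) (nat_lit 1055202495792) (nat_lit 76) (nat_lit 751411308482) (nat_lit 12) (nat_lit 4) (nat_lit 13) (nat_lit 5) (nat_lit 13) (nat_lit 4) (nat_lit 399) (nat_lit 368) (nat_lit 253)) (XT.nd (nat_lit 78) (nat_lit 76) (nat_lit 0) (XT.lf (nat_lit 0) (nat_lit 21963689382) (nat_lit 152) (nat_lit 256569259284) (nat_lit 76) (nat_lit 3241680439877) (nat_lit 11) (nat_lit 5) (nat_lit 13) (nat_lit 5) (nat_lit 12) (nat_lit 4) (nat_lit 400) (nat_lit 368) (nat_lit 252)) (XT.lf (nat_lit 0) (nat_lit 932531323365) (nat_lit 152) (nat_lit 2305290384863) (nat_lit 0) (nat_lit 668365066788) (nat_lit 10) (nat_lit 5) (nat_lit 12) (nat_lit 4) (nat_lit 10) (nat_lit 4) (nat_lit 401) (nat_lit 368) (nat_lit 251)))))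 (XT.nd (nat_lit 234) (nat_lit 152) (nat_lit 0) (XT.nd (nat_lit 78) (nat_lit 76) (nat_lit 0) (XT.lf (nat_lit 0) (nat_lit 2006997775913) (nat_lit 152) (nat_lit 596129825917) (nat_lit 0) (nat_lit 1742831516610) (nat_lit 10) (nat_lit 5) (nat_lit 12) (nat_lit 4) (nat_lit 10) (nat_lit 4) (nat_lit 402) (nat_lit 368) (nat_lit 250)) (XT.nd (nat_lit 78) (nat_lit 0) (nat_lit 0) (XT.lf (nat_lit 0) (nat_lit 1503232971354) (nat_lit 76) (nat_lit 1801646877882) (nat_lit 76) (nat_lit 1537480616207) (nat_lit 9) (nat_lit 4) (nat_lit 10) (nat_lit 5) (nat_lit 10) (nat_lit 4) (nat_lit 403) (nat_lit 368) (nat_lit 249)) (XT.lf (nat_lit 0) (nat_lit 3984497013754) (nat_lit 76) (nat_lit 844108533697) (nat_lit 76) (nat_lit 579942269961) (nat_lit 9) (nat_lit 4) (nat_lit 10) (nat_lit 5) (nat_lit 10) (nat_lit 4) (nat_lit 404) (nat_lit 368) (nat_lit 248)))) (XT.nd (nat_lit 78) (nat_lit 0) (nat_lit 0) (XT.lf (nat_lit 0)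 (nat_lit 522529226909) (nat_lit 152) (nat_lit 5233921338465) (nat_lit 0) (nat_lit 292819430797) (nat_lit 7) (nat_lit 5) (nat_lit 9) (nat_lit 4) (nat_lit 7) (nat_lit 4) (nat_lit 405) (nat_lit 368) (nat_lit 247)) (XT.nd (nat_lit 78) (nat_lit 0) (nat_lit 0) (XT.lf (nat_lit 0) (nat_lit 1849175769059) (nat_lit 152) (nat_lit 3295589411907) (nat_lit 0) (nat_lit 1619465971591) (nat_lit 7) (nat_lit 5) (nat_lit 9) (nat_lit 4) (nat_lit 7) (nat_lit 4) (nat_lit 406) (nat_lit 368) (nat_lit 246)) (XT.lf (nat_lit 0) (nat_lit 3374819278379) (nat_lit 152) (nat_lit 1066507726413) (nat_lit 0) (nat_lit 3145109479732) (nat_lit 7) (nat_lit 5) (nat_lit 9) (nat_lit 4) (nat_lit 7) (nat_lit 4) (nat_lit 407) (nat_lit 368) (nat_lit 245)))))) (XT.nd (nat_lit 468) (nat_lit 76) (nat_lit 0) (XT.nd (nat_lit 234) (nat_lit 152) (nat_lit 0) (XT.nd (nat_lit 78) (nat_lit 0) (nat_lit 0) (XT.lf (nat_lit 0) (nat_lit 1643227676658)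 (nat_lit 76) (nat_lit 3554124179031) (nat_lit 76) (nat_lit 3324414379359) (nat_lit 6) (nat_lit 4) (nat_lit 7) (nat_lit 5) (nat_lit 7) (nat_lit 4) (nat_lit 408) (nat_lit 368) (nat_lit 244)) (XT.nd (nat_lit 78) (nat_lit 0) (nat_lit 0) (XT.lf (nat_lit 0) (nat_lit 4879284290413) (nat_lit 76) (nat_lit 2469729284966) (nat_lit 76) (nat_lit 2240019484404) (nat_lit 6) (nat_lit 4) (nat_lit 7) (nat_lit 5) (nat_lit 7) (nat_lit 4) (nat_lit 409) (nat_lit 368) (nat_lit 243)) (XT.lf (nat_lit 0) (nat_lit 8600749374543) (nat_lit 76) (nat_lit 1222675168277) (nat_lit 76) (nat_lit 992965366939) (nat_lit 6) (nat_lit 4) (nat_lit 7) (nat_lit 5) (nat_lit 7) (nat_lit 4) (nat_lit 410) (nat_lit 368) (nat_lit 242)))) (XT.nd (nat_lit 78) (nat_lit 0) (nat_lit 0) (XT.lf (nat_lit 0) (nat_lit 441703496132) (nat_lit 152) (nat_lit 11535476320315) (nat_lit 0) (nat_lit 241955842209) (nat_lit 4) (nat_lit 5) (nat_lit 6) (nat_lit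 4) (nat_lit 4) (nat_lit 4) (nat_lit 411) (nat_lit 368) (nat_lit 241)) (XT.nd (nat_lit 78) (nat_lit 0) (nat_lit 0) (XT.lf (nat_lit 0) (nat_lit 2169467262474) (nat_lit 152) (nat_lit 9659080492544) (nat_lit 0) (nat_lit 1969719608042) (nat_lit 4) (nat_lit 5) (nat_lit 6) (nat_lit 4) (nat_lit 4) (nat_lit 4) (nat_lit 412) (nat_lit 368) (nat_lit 240)) (XT.lf (nat_lit 0) (nat_lit 4156395585700) (nat_lit 152) (nat_lit 7501225307811) (nat_lit 0) (nat_lit 3956647930824) (nat_lit 4) (nat_lit 5) (nat_lit 6) (nat_lit 4) (nat_lit 4) (nat_lit 4) (nat_lit 413) (nat_lit 368) (nat_lit 239))))) (XT.nd (nat_lit 234) (nat_lit 0) (nat_lit 0) (XT.nd (nat_lit 78) (nat_lit 76) (nat_lit 0) (XT.lf (nat_lit 0) (nat_lit 6441363150394) (nat_lit 152) (nat_lit 5019691860327) (nat_lit 0) (nat_lit 6241615495133) (nat_lit 4) (nat_lit 5) (nat_lit 6) (nat_lit 4) (nat_lit 4) (nat_lit 4) (nat_lit 414) (nat_lit 368) (nat_lit 238))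 (XT.nd (nat_lit 78) (nat_lit 76) (nat_lit 0) (XT.lf (nat_lit 0) (nat_lit 9069075843692) (nat_lit 152) (nat_lit 2165928408730) (nat_lit 0) (nat_lit 8869328188095) (nat_lit 4) (nat_lit 5) (nat_lit 6) (nat_lit 4) (nat_lit 4) (nat_lit 4) (nat_lit 415) (nat_lit 368) (nat_lit 237)) (XT.lf (nat_lit 0) (nat_lit 1224953368885) (nat_lit 76) (nat_lit 10916714773579) (nat_lit 76) (nat_lit 10716967117691) (nat_lit 3) (nat_lit 4) (nat_lit 4) (nat_lit 5) (nat_lit 4) (nat_lit 4) (nat_lit 416) (nat_lit 368) (nat_lit 236)))) (XT.nd (nat_lit 156) (nat_lit 0) (nat_lit 0) (XT.nd (nat_lit 78) (nat_lit 0) (nat_lit 0) (XT.lf (nat_lit 0) (nat_lit 5367888220100) (nat_lit 76) (nat_lit 10420480045895) (nat_lit 76) (nat_lit 10220732389754) (nat_lit 3) (nat_lit 4) (nat_lit 4) (nat_lit 5) (nat_lit 4) (nat_lit 4) (nat_lit 417) (nat_lit 368) (nat_lit 235)) (XT.lf (nat_lit 0) (nat_lit 10132263289607) (nat_lit 76) (nat_lit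 9849810114048) (nat_lit 76) (nat_lit 9650062457687) (nat_lit 3) (nat_lit 4) (nat_lit 4) (nat_lit 5) (nat_lit 4) (nat_lit 4) (nat_lit 418) (nat_lit 368) (nat_lit 234))) (XT.nd (nat_lit 78) (nat_lit 0) (nat_lit 0) (XT.lf (nat_lit 0) (nat_lit 15611294611376) (nat_lit 76) (nat_lit 9193539696762) (nat_lit 76) (nat_lit 8993792040209) (nat_lit 3) (nat_lit 4) (nat_lit 4) (nat_lit 5) (nat_lit 4) (nat_lit 4) (nat_lit 419) (nat_lit 368) (nat_lit 233)) (XT.lf (nat_lit 0) (nat_lit 21912180624311) (nat_lit 76) (nat_lit 8438828720656) (nat_lit 76) (nat_lit 8239081063936) (nat_lit 3) (nat_lit 4) (nat_lit 4) (nat_lit 5) (nat_lit 4) (nat_lit 4) (nat_lit 420) (nat_lit 368) (nat_lit 232))))))) (XT.nd (nat_lit 1950) (nat_lit 0) (nat_lit 0) (XT.nd (nat_lit 1092) (nat_lit 0) (nat_lit 0) (XT.nd (nat_lit 234) (nat_lit 152) (nat_lit 0) (XT.nd (nat_lit 78) (nat_lit 0) (nat_lit 0) (XT.lf (nat_lit 0) (nat_lit 29158199533013)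 (nat_lit 76) (nat_lit 7570911101414) (nat_lit 76) (nat_lit 7371163444550) (nat_lit 3) (nat_lit 4) (nat_lit 4) (nat_lit 5) (nat_lit 4) (nat_lit 4) (nat_lit 421) (nat_lit 368) (nat_lit 231)) (XT.nd (nat_lit 78) (nat_lit 0) (nat_lit 0) (XT.lf (nat_lit 0) (nat_lit 37491121272652) (nat_lit 76) (nat_lit 6572805842139) (nat_lit 76) (nat_lit 6373058185148) (nat_lit 3) (nat_lit 4) (nat_lit 4) (nat_lit 5) (nat_lit 4) (nat_lit 4) (nat_lit 422) (nat_lit 368) (nat_lit 230)) (XT.lf (nat_lit 0) (nat_lit 47073981268569) (nat_lit 76) (nat_lit 5424984796452) (nat_lit 76) (nat_lit 5225237139352) (nat_lit 3) (nat_lit 4) (nat_lit 4) (nat_lit 5) (nat_lit 4) (nat_lit 4) (nat_lit 423) (nat_lit 368) (nat_lit 229)))) (XT.nd (nat_lit 78) (nat_lit 152) (nat_lit 0) (XT.lf (nat_lit 0) (nat_lit 58094270259814) (nat_lit 76) (nat_lit 4104990596069) (nat_lit 76) (nat_lit 3905242938874) (nat_lit 3) (nat_lit 4) (nat_lit 4)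 (nat_lit 5) (nat_lit 4) (nat_lit 4) (nat_lit 424) (nat_lit 368) (nat_lit 228)) (XT.nd (nat_lit 702) (nat_lit 152) (nat_lit 0) (XT.lf (nat_lit 0) (nat_lit 70767602596216) (nat_lit 76) (nat_lit 2586997267505) (nat_lit 76) (nat_lit 2387249610227) (nat_lit 3) (nat_lit 4) (nat_lit 4) (nat_lit 5) (nat_lit 4) (nat_lit 4) (nat_lit 425) (nat_lit 368) (nat_lit 227)) (XT.lf (nat_lit 0) (nat_lit 28179581261526) (nat_lit 152) (nat_lit 204876787960388) (nat_lit 0) (nat_lit 28005887646158) (nat_lit 1) (nat_lit 5) (nat_lit 3) (nat_lit 4) (nat_lit 1) (nat_lit 4) (nat_lit 434) (nat_lit 368) (nat_lit 218))))) (XT.nd (nat_lit 234) (nat_lit 0) (nat_lit 0) (XT.nd (nat_lit 78) (nat_lit 0) (nat_lit 0) (XT.lf (nat_lit 0) (nat_lit 34613145636917) (nat_lit 152) (nat_lit 230834079828776) (nat_lit 0) (nat_lit 34439452021532) (nat_lit 1) (nat_lit 5) (nat_lit 3) (nat_lit 4) (nat_lit 1) (nat_lit 4) (nat_lit 435) (nat_lit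 368) (nat_lit 217)) (XT.nd (nat_lit 78) (nat_lit 0) (nat_lit 0) (XT.lf (nat_lit 0) (nat_lit 42011744668189) (nat_lit 152) (nat_lit 260684965478336) (nat_lit 0) (nat_lit 41838051052788) (nat_lit 1) (nat_lit 5) (nat_lit 3) (nat_lit 4) (nat_lit 1) (nat_lit 4) (nat_lit 436) (nat_lit 368) (nat_lit 216)) (XT.lf (nat_lit 0) (nat_lit 50520133553780) (nat_lit 152) (nat_lit 295013483976125) (nat_lit 0) (nat_lit 50346439938365) (nat_lit 1) (nat_lit 5) (nat_lit 3) (nat_lit 4) (nat_lit 1) (nat_lit 4) (nat_lit 437) (nat_lit 368) (nat_lit 215)))) (XT.nd (nat_lit 468) (nat_lit 0) (nat_lit 0) (XT.nd (nat_lit 78) (nat_lit 0) (nat_lit 0) (XT.lf (nat_lit 0) (nat_lit 60304780771886) (nat_lit 152) (nat_lit 334491280249276) (nat_lit 0) (nat_lit 60131087156460) (nat_lit 1) (nat_lit 5) (nat_lit 3) (nat_lit 4) (nat_lit 1) (nat_lit 4) (nat_lit 438) (nat_lit 368) (nat_lit 214)) (XT.lf (nat_lit 0) (nat_lit 71557125072427)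 (nat_lit 152) (nat_lit 379890745963998) (nat_lit 0) (nat_lit 71383431456990) (nat_lit 1) (nat_lit 5) (nat_lit 3) (nat_lit 4) (nat_lit 1) (nat_lit 4) (nat_lit 439) (nat_lit 368) (nat_lit 213))) (XT.nd (nat_lit 78) (nat_lit 0) (nat_lit 0) (XT.lf (nat_lit 0) (nat_lit 158804859583673) (nat_lit 152) (nat_lit 731906328326427) (nat_lit 0) (nat_lit 158631165968201) (nat_lit 1) (nat_lit 5) (nat_lit 3) (nat_lit 4) (nat_lit 1) (nat_lit 4) (nat_lit 444) (nat_lit 368) (nat_lit 208)) (XT.lf (nat_lit 0) (nat_lit 184832215704915) (nat_lit 152) (nat_lit 836918051255000) (nat_lit 0) (nat_lit 184658522089441) (nat_lit 1) (nat_lit 5) (nat_lit 3) (nat_lit 4) (nat_lit 1) (nat_lit 4) (nat_lit 445) (nat_lit 368) (nat_lit 207)))))) (XT.nd (nat_lit 47424) (nat_lit 0) (nat_lit 2128) (XT.nd (nat_lit 47190) (nat_lit 0) (nat_lit 2736) (XT.nd (nat_lit 78) (nat_lit 0) (nat_lit 0) (XT.lf (nat_lit 0) (nat_lit 214763675244240)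 (nat_lit 152) (nat_lit 957681532623085) (nat_lit 0) (nat_lit 214589981628763) (nat_lit 1) (nat_lit 5) (nat_lit 3) (nat_lit 4) (nat_lit 1) (nat_lit 4) (nat_lit 446) (nat_lit 368) (nat_lit 206)) (XT.nd (nat_lit 47034) (nat_lit 0) (nat_lit 2736) (XT.lf (nat_lit 0) (nat_lit 249184853714372) (nat_lit 152) (nat_lit 1096559536196582) (nat_lit 0) (nat_lit 249011160098890) (nat_lit 1) (nat_lit 5) (nat_lit 3) (nat_lit 4) (nat_lit 1) (nat_lit 4) (nat_lit 447) (nat_lit 368) (nat_lit 205)) (XT.lf (nat_lit 0) (nat_lit 33630984709) (nat_lit 380) (nat_lit 41512876153) (nat_lit 380) (nat_lit 41512876153) (nat_lit 37) (nat_lit 3) (nat_lit 42) (nat_lit 3) (nat_lit 42) (nat_lit 5) (nat_lit 369) (nat_lit 369) (nat_lit 282)))) (XT.nd (nat_lit 78) (nat_lit 0) (nat_lit 76) (XT.lf (nat_lit 76) (nat_lit 35840665466) (nat_lit 0) (nat_lit 37951150051) (nat_lit 380) (nat_lit 176797388782) (nat_lit 38) (nat_lit 5) (nat_lit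 37) (nat_lit 3) (nat_lit 42) (nat_lit 5) (nat_lit 370) (nat_lit 369) (nat_lit 281)) (XT.nd (nat_lit 78) (nat_lit 0) (nat_lit 0) (XT.lf (nat_lit 0) (nat_lit 89625471144) (nat_lit 304) (nat_lit 91921997587) (nat_lit 380) (nat_lit 87660175578) (nat_lit 38) (nat_lit 5) (nat_lit 42) (nat_lit 5) (nat_lit 43) (nat_lit 5) (nat_lit 371) (nat_lit 369) (nat_lit 280)) (XT.lf (nat_lit 76) (nat_lit 52165305201) (nat_lit 0) (nat_lit 59635947587) (nat_lit 380) (nat_lit 178222535964) (nat_lit 39) (nat_lit 5) (nat_lit 38) (nat_lit 5) (nat_lit 43) (nat_lit 5) (nat_lit 372) (nat_lit 369) (nat_lit 279))))) (XT.nd (nat_lit 234) (nat_lit 456) (nat_lit 0) (XT.nd (nat_lit 78) (nat_lit 304) (nat_lit 0) (XT.lf (nat_lit 0) (nat_lit 145672982737) (nat_lit 304) (nat_lit 88610000213) (nat_lit 76) (nat_lit 78423934823) (nat_lit 39) (nat_lit 5) (nat_lit 43) (nat_lit 5) (nat_lit 40) (nat_lit 5) (nat_lit 373) (nat_lit 369)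 (nat_lit 278)) (XT.nd (nat_lit 78) (nat_lit 0) (nat_lit 0) (XT.lf (nat_lit 0) (nat_lit 88022153231) (nat_lit 304) (nat_lit 103087800210) (nat_lit 380) (nat_lit 146709890577) (nat_lit 35) (nat_lit 5) (nat_lit 39) (nat_lit 5) (nat_lit 40) (nat_lit 5) (nat_lit 374) (nat_lit 369) (nat_lit 277)) (XT.lf (nat_lit 0) (nat_lit 250193542408) (nat_lit 380) (nat_lit 67096698734) (nat_lit 76) (nat_lit 48384807214) (nat_lit 35) (nat_lit 5) (nat_lit 40) (nat_lit 5) (nat_lit 36) (nat_lit 5) (nat_lit 375) (nat_lit 369) (nat_lit 276)))) (XT.nd (nat_lit 156) (nat_lit 304) (nat_lit 0) (XT.nd (nat_lit 78) (nat_lit 0) (nat_lit 0) (XT.lf (nat_lit 0) (nat_lit 151596542965) (nat_lit 152) (nat_lit 177729251863) (nat_lit 228) (nat_lit 66704819796) (nat_lit 33) (nat_lit 5) (nat_lit 35) (nat_lit 5) (nat_lit 36) (nat_lit 5) (nat_lit 376) (nat_lit 369) (nat_lit 275)) (XT.lf (nat_lit 0) (nat_lit 410634401903) (nat_lit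 152) (nat_lit 13200712226) (nat_lit 228) (nat_lit 6578317391) (nat_lit 33) (nat_lit 5) (nat_lit 35) (nat_lit 5) (nat_lit 36) (nat_lit 5) (nat_lit 377) (nat_lit 369) (nat_lit 274))) (XT.nd (nat_lit 78) (nat_lit 152) (nat_lit 0) (XT.lf (nat_lit 0) (nat_lit 75645661304) (nat_lit 152) (nat_lit 216832933090) (nat_lit 76) (nat_lit 174289161353) (nat_lit 31) (nat_lit 5) (nat_lit 33) (nat_lit 5) (nat_lit 32) (nat_lit 5) (nat_lit 378) (nat_lit 369) (nat_lit 273)) (XT.lf (nat_lit 0) (nat_lit 58088751487) (nat_lit 152) (nat_lit 115557981203) (nat_lit 228) (nat_lit 334263959421) (nat_lit 29) (nat_lit 5) (nat_lit 31) (nat_lit 5) (nat_lit 32) (nat_lit 5) (nat_lit 379) (nat_lit 369) (nat_lit 272))))))))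
noncomputable def xc94 : XT := (XT.nd (nat_lit 1950) (nat_lit 608) (nat_lit 0) (XT.nd (nat_lit 936) (nat_lit 760) (nat_lit 0) (XT.nd (nat_lit 468) (nat_lit 456) (nat_lit 0) (XT.nd (nat_lit 234) (nat_lit 228) (nat_lit 0) (XT.nd (nat_lit 78) (nat_lit 76) (nat_lit 0) (XT.lf (nat_lit 0) (nat_lit 301861851535) (nat_lit 228) (nat_lit 159086791460) (nat_lit 76) (nat_lit 91949342944) (nat_lit 29) (nat_lit 5) (nat_lit 32) (nat_lit 5) (nat_lit 30) (nat_lit 4) (nat_lit 380) (nat_lit 369) (nat_lit 271)) (XT.nd (nat_lit 78) (nat_lit 0) (nat_lit 0) (XT.lf (nat_lit 0) (nat_lit 186345526644) (nat_lit 76) (nat_lit 276182574569) (nat_lit 152) (nat_lit 140122443198) (nat_lit 28) (nat_lit 5) (nat_lit 29) (nat_lit 5) (nat_lit 30) (nat_lit 4) (nat_lit 381) (nat_lit 369) (nat_lit 270)) (XT.lf (nat_lit 0) (nat_lit 601471773643) (nat_lit 76) (nat_lit 54138350928) (nat_lit 152) (nat_lit 3008486666) (nat_lit 28)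 (nat_lit 5) (nat_lit 29) (nat_lit 5) (nat_lit 30) (nat_lit 4) (nat_lit 382) (nat_lit 369) (nat_lit 269)))) (XT.nd (nat_lit 78) (nat_lit 76) (nat_lit 0) (XT.lf (nat_lit 0) (nat_lit 166181166320) (nat_lit 152) (nat_lit 345397521927) (nat_lit 76) (nat_lit 206650707081) (nat_lit 26) (nat_lit 5) (nat_lit 28) (nat_lit 5) (nat_lit 27) (nat_lit 4) (nat_lit 383) (nat_lit 369) (nat_lit 268)) (XT.nd (nat_lit 78) (nat_lit 0) (nat_lit 0) (XT.lf (nat_lit 0) (nat_lit 92793714889) (nat_lit 76) (nat_lit 277197360587) (nat_lit 152) (nat_lit 415336759385) (nat_lit 25) (nat_lit 5) (nat_lit 26) (nat_lit 5) (nat_lit 27) (nat_lit 4) (nat_lit 384) (nat_lit 369) (nat_lit 267)) (XT.lf (nat_lit 0) (nat_lit 622969906639) (nat_lit 152) (nat_lit 224793921625) (nat_lit 0) (nat_lit 11937596724) (nat_lit 25) (nat_lit 5) (nat_lit 27) (nat_lit 4) (nat_lit 25) (nat_lit 4) (nat_lit 385) (nat_lit 369) (nat_lit 266))))) (XT.nd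 (nat_lit 234) (nat_lit 228) (nat_lit 0) (XT.nd (nat_lit 78) (nat_lit 152) (nat_lit 0) (XT.lf (nat_lit 0) (nat_lit 329216471324) (nat_lit 76) (nat_lit 611511070016) (nat_lit 76) (nat_lit 478715475) (nat_lit 24) (nat_lit 4) (nat_lit 25) (nat_lit 5) (nat_lit 25) (nat_lit 4) (nat_lit 386) (nat_lit 369) (nat_lit 265)) (XT.nd (nat_lit 78) (nat_lit 76) (nat_lit 0) (XT.lf (nat_lit 0) (nat_lit 259376935874) (nat_lit 152) (nat_lit 53371981215) (nat_lit 76) (nat_lit 718656835233) (nat_lit 23) (nat_lit 5) (nat_lit 25) (nat_lit 5) (nat_lit 24) (nat_lit 4) (nat_lit 387) (nat_lit 369) (nat_lit 264)) (XT.lf (nat_lit 0) (nat_lit 587487833215) (nat_lit 152) (nat_lit 487089745184) (nat_lit 0) (nat_lit 56155287921) (nat_lit 22) (nat_lit 5) (nat_lit 24) (nat_lit 4) (nat_lit 22) (nat_lit 4) (nat_lit 388) (nat_lit 369) (nat_lit 263)))) (XT.nd (nat_lit 78) (nat_lit 152) (nat_lit 0) (XT.lf (nat_lit 0) (nat_lit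 210371169925) (nat_lit 76) (nat_lit 780970733763) (nat_lit 76) (nat_lit 249638162955) (nat_lit 21) (nat_lit 4) (nat_lit 22) (nat_lit 5) (nat_lit 22) (nat_lit 4) (nat_lit 389) (nat_lit 369) (nat_lit 262)) (XT.nd (nat_lit 78) (nat_lit 76) (nat_lit 0) (XT.lf (nat_lit 0) (nat_lit 106848424915) (nat_lit 152) (nat_lit 301608479426) (nat_lit 76) (nat_lit 954759709946) (nat_lit 20) (nat_lit 5) (nat_lit 22) (nat_lit 5) (nat_lit 21) (nat_lit 4) (nat_lit 390) (nat_lit 369) (nat_lit 261)) (XT.lf (nat_lit 0) (nat_lit 517634336346) (nat_lit 152) (nat_lit 924807520927) (nat_lit 0) (nat_lit 55605977835) (nat_lit 19) (nat_lit 5) (nat_lit 21) (nat_lit 4) (nat_lit 19) (nat_lit 4) (nat_lit 391) (nat_lit 369) (nat_lit 260)))))) (XT.nd (nat_lit 468) (nat_lit 456) (nat_lit 0) (XT.nd (nat_lit 234) (nat_lit 76) (nat_lit 0) (XT.nd (nat_lit 78) (nat_lit 228) (nat_lit 0) (XT.lf (nat_lit 0) (nat_lit 1026005084151)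 (nat_lit 152) (nat_lit 57726901403) (nat_lit 0) (nat_lit 563976711052) (nat_lit 19) (nat_lit 5) (nat_lit 21) (nat_lit 4) (nat_lit 19) (nat_lit 4) (nat_lit 392) (nat_lit 369) (nat_lit 259)) (XT.nd (nat_lit 78) (nat_lit 152) (nat_lit 0) (XT.lf (nat_lit 0) (nat_lit 1031222291046) (nat_lit 76) (nat_lit 622109839549) (nat_lit 76) (nat_lit 160081453765) (nat_lit 18) (nat_lit 4) (nat_lit 19) (nat_lit 5) (nat_lit 19) (nat_lit 4) (nat_lit 393) (nat_lit 369) (nat_lit 258)) (XT.lf (nat_lit 0) (nat_lit 297465294552) (nat_lit 76) (nat_lit 55787585153) (nat_lit 152) (nat_lit 1646096527801) (nat_lit 16) (nat_lit 5) (nat_lit 17) (nat_lit 5) (nat_lit 18) (nat_lit 4) (nat_lit 394) (nat_lit 369) (nat_lit 257)))) (XT.nd (nat_lit 78) (nat_lit 76) (nat_lit 0) (XT.lf (nat_lit 0) (nat_lit 994690009005) (nat_lit 152) (nat_lit 614292188193) (nat_lit 0) (nat_lit 592926177347) (nat_lit 16) (nat_lit 5) (nat_lit 18)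 (nat_lit 4) (nat_lit 16) (nat_lit 4) (nat_lit 395) (nat_lit 369) (nat_lit 256)) (XT.nd (nat_lit 78) (nat_lit 0) (nat_lit 0) (XT.lf (nat_lit 0) (nat_lit 695719700291) (nat_lit 76) (nat_lit 1068087802964) (nat_lit 76) (nat_lit 666323964052) (nat_lit 15) (nat_lit 4) (nat_lit 16) (nat_lit 5) (nat_lit 16) (nat_lit 4) (nat_lit 396) (nat_lit 369) (nat_lit 255)) (XT.lf (nat_lit 0) (nat_lit 2271271387636) (nat_lit 76) (nat_lit 409131937985) (nat_lit 76) (nat_lit 7368092767) (nat_lit 15) (nat_lit 4) (nat_lit 16) (nat_lit 5) (nat_lit 16) (nat_lit 4) (nat_lit 397) (nat_lit 369) (nat_lit 254))))) (XT.nd (nat_lit 234) (nat_lit 228) (nat_lit 0) (XT.nd (nat_lit 78) (nat_lit 76) (nat_lit 0) (XT.lf (nat_lit 0) (nat_lit 750398154898) (nat_lit 152) (nat_lit 1817943524392) (nat_lit 0) (nat_lit 401038284722) (nat_lit 13) (nat_lit 5) (nat_lit 15) (nat_lit 4) (nat_lit 13) (nat_lit 4) (nat_lit 398) (nat_lit 369)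 (nat_lit 253)) (XT.nd (nat_lit 78) (nat_lit 76) (nat_lit 0) (XT.lf (nat_lit 0) (nat_lit 1663365773849) (nat_lit 152) (nat_lit 309461870896) (nat_lit 0) (nat_lit 1314005899527) (nat_lit 13) (nat_lit 5) (nat_lit 15) (nat_lit 4) (nat_lit 13) (nat_lit 4) (nat_lit 399) (nat_lit 369) (nat_lit 252)) (XT.lf (nat_lit 0) (nat_lit 1564581890226) (nat_lit 76) (nat_lit 1213482626087) (nat_lit 76) (nat_lit 864122748158) (nat_lit 12) (nat_lit 4) (nat_lit 13) (nat_lit 5) (nat_lit 13) (nat_lit 4) (nat_lit 400) (nat_lit 369) (nat_lit 251)))) (XT.nd (nat_lit 156) (nat_lit 76) (nat_lit 0) (XT.nd (nat_lit 78) (nat_lit 76) (nat_lit 0) (XT.lf (nat_lit 0) (nat_lit 25258446052) (nat_lit 152) (nat_lit 295054222050) (nat_lit 76) (nat_lit 3727932698228) (nat_lit 11) (nat_lit 5) (nat_lit 13) (nat_lit 5) (nat_lit 12) (nat_lit 4) (nat_lit 401) (nat_lit 369) (nat_lit 250)) (XT.lf (nat_lit 0) (nat_lit 1072411224289) (nat_lit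 152) (nat_lit 2651083515619) (nat_lit 0) (nat_lit 768620020993) (nat_lit 10) (nat_lit 5) (nat_lit 12) (nat_lit 4) (nat_lit 10) (nat_lit 4) (nat_lit 402) (nat_lit 369) (nat_lit 249))) (XT.nd (nat_lit 78) (nat_lit 76) (nat_lit 0) (XT.lf (nat_lit 0) (nat_lit 2308047618317) (nat_lit 152) (nat_lit 685548928523) (nat_lit 0) (nat_lit 2004256412959) (nat_lit 10) (nat_lit 5) (nat_lit 12) (nat_lit 4) (nat_lit 10) (nat_lit 4) (nat_lit 403) (nat_lit 369) (nat_lit 248)) (XT.lf (nat_lit 0) (nat_lit 1728718271462) (nat_lit 76) (nat_lit 2071893722892) (nat_lit 76) (nat_lit 1768102515741) (nat_lit 9) (nat_lit 4) (nat_lit 10) (nat_lit 5) (nat_lit 10) (nat_lit 4) (nat_lit 404) (nat_lit 369) (nat_lit 247))))))) (XT.nd (nat_lit 1014) (nat_lit 152) (nat_lit 0) (XT.nd (nat_lit 468) (nat_lit 228) (nat_lit 0) (XT.nd (nat_lit 234) (nat_lit 76) (nat_lit 0) (XT.nd (nat_lit 78) (nat_lit 152) (nat_lit 0) (XT.lf (nat_lit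 0) (nat_lit 4582171873996) (nat_lit 76) (nat_lit 970724651429) (nat_lit 76) (nat_lit 666933442719) (nat_lit 9) (nat_lit 4) (nat_lit 10) (nat_lit 5) (nat_lit 10) (nat_lit 4) (nat_lit 405) (nat_lit 369) (nat_lit 246)) (XT.nd (nat_lit 78) (nat_lit 0) (nat_lit 0) (XT.lf (nat_lit 0) (nat_lit 600908763330) (nat_lit 152) (nat_lit 6019009215699) (nat_lit 0) (nat_lit 336742493708) (nat_lit 7) (nat_lit 5) (nat_lit 9) (nat_lit 4) (nat_lit 7) (nat_lit 4) (nat_lit 406) (nat_lit 369) (nat_lit 245)) (XT.lf (nat_lit 0) (nat_lit 2126552266926) (nat_lit 152) (nat_lit 3789927542358) (nat_lit 0) (nat_lit 1862385996279) (nat_lit 7) (nat_lit 5) (nat_lit 9) (nat_lit 4) (nat_lit 7) (nat_lit 4) (nat_lit 407) (nat_lit 369) (nat_lit 244)))) (XT.nd (nat_lit 78) (nat_lit 76) (nat_lit 0) (XT.lf (nat_lit 0) (nat_lit 3881042285360) (nat_lit 152) (nat_lit 1226483640736) (nat_lit 0) (nat_lit 3616876013822) (nat_lit 7) (nat_lit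 5) (nat_lit 9) (nat_lit 4) (nat_lit 7) (nat_lit 4) (nat_lit 408) (nat_lit 369) (nat_lit 243)) (XT.nd (nat_lit 78) (nat_lit 0) (nat_lit 0) (XT.lf (nat_lit 0) (nat_lit 1889712061677) (nat_lit 76) (nat_lit 4087242682230) (nat_lit 76) (nat_lit 3823076409917) (nat_lit 6) (nat_lit 4) (nat_lit 7) (nat_lit 5) (nat_lit 7) (nat_lit 4) (nat_lit 409) (nat_lit 369) (nat_lit 242)) (XT.lf (nat_lit 0) (nat_lit 5611177137035) (nat_lit 76) (nat_lit 2840188570185) (nat_lit 76) (nat_lit 2576022297198) (nat_lit 6) (nat_lit 4) (nat_lit 7) (nat_lit 5) (nat_lit 7) (nat_lit 4) (nat_lit 410) (nat_lit 369) (nat_lit 241))))) (XT.nd (nat_lit 234) (nat_lit 76) (nat_lit 0) (XT.nd (nat_lit 78) (nat_lit 152) (nat_lit 0) (XT.lf (nat_lit 0) (nat_lit 9890861957299) (nat_lit 76) (nat_lit 1406076350017) (nat_lit 76) (nat_lit 1141910076444) (nat_lit 6) (nat_lit 4) (nat_lit 7) (nat_lit 5) (nat_lit 7) (nat_lit 4) (nat_lit 411)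 (nat_lit 369) (nat_lit 240)) (XT.nd (nat_lit 78) (nat_lit 0) (nat_lit 0) (XT.lf (nat_lit 0) (nat_lit 507959107425) (nat_lit 152) (nat_lit 13265797583123) (nat_lit 0) (nat_lit 278249303874) (nat_lit 4) (nat_lit 5) (nat_lit 6) (nat_lit 4) (nat_lit 4) (nat_lit 4) (nat_lit 412) (nat_lit 369) (nat_lit 239)) (XT.lf (nat_lit 0) (nat_lit 2494887427388) (nat_lit 152) (nat_lit 11107942405348) (nat_lit 0) (nat_lit 2265177623452) (nat_lit 4) (nat_lit 5) (nat_lit 6) (nat_lit 4) (nat_lit 4) (nat_lit 4) (nat_lit 413) (nat_lit 369) (nat_lit 238)))) (XT.nd (nat_lit 156) (nat_lit 76) (nat_lit 0) (XT.nd (nat_lit 78) (nat_lit 0) (nat_lit 0) (XT.lf (nat_lit 0) (nat_lit 4779854989244) (nat_lit 152) (nat_lit 8626408963915) (nat_lit 0) (nat_lit 4550145184973) (nat_lit 4) (nat_lit 5) (nat_lit 6) (nat_lit 4) (nat_lit 4) (nat_lit 4) (nat_lit 414) (nat_lit 369) (nat_lit 237)) (XT.lf (nat_lit 0) (nat_lit 7407567680074)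 (nat_lit 152) (nat_lit 5772645517579) (nat_lit 0) (nat_lit 7177857875511) (nat_lit 4) (nat_lit 5) (nat_lit 6) (nat_lit 4) (nat_lit 4) (nat_lit 4) (nat_lit 415) (nat_lit 369) (nat_lit 236))) (XT.nd (nat_lit 78) (nat_lit 76) (nat_lit 0) (XT.lf (nat_lit 0) (nat_lit 10429437269915) (nat_lit 152) (nat_lit 2490817564128) (nat_lit 0) (nat_lit 10199727465099) (nat_lit 4) (nat_lit 5) (nat_lit 6) (nat_lit 4) (nat_lit 4) (nat_lit 4) (nat_lit 416) (nat_lit 369) (nat_lit 235)) (XT.lf (nat_lit 0) (nat_lit 1408696475315) (nat_lit 76) (nat_lit 12554221935897) (nat_lit 76) (nat_lit 12324512130860) (nat_lit 3) (nat_lit 4) (nat_lit 4) (nat_lit 5) (nat_lit 4) (nat_lit 4) (nat_lit 417) (nat_lit 369) (nat_lit 234)))))) (XT.nd (nat_lit 468) (nat_lit 152) (nat_lit 0) (XT.nd (nat_lit 234) (nat_lit 0) (nat_lit 0) (XT.nd (nat_lit 78) (nat_lit 0) (nat_lit 0) (XT.lf (nat_lit 0) (nat_lit 6173071541025) (nat_lit 76)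 (nat_lit 11983552006067) (nat_lit 76) (nat_lit 11753842200839) (nat_lit 3) (nat_lit 4) (nat_lit 4) (nat_lit 5) (nat_lit 4) (nat_lit 4) (nat_lit 418) (nat_lit 369) (nat_lit 233)) (XT.nd (nat_lit 78) (nat_lit 0) (nat_lit 0) (XT.lf (nat_lit 0) (nat_lit 11652102859492) (nat_lit 76) (nat_lit 11327281590536) (nat_lit 76) (nat_lit 11097571785142) (nat_lit 3) (nat_lit 4) (nat_lit 4) (nat_lit 5) (nat_lit 4) (nat_lit 4) (nat_lit 419) (nat_lit 369) (nat_lit 232)) (XT.lf (nat_lit 0) (nat_lit 17952988869556) (nat_lit 76) (nat_lit 10572570615955) (nat_lit 76) (nat_lit 10342860810416) (nat_lit 3) (nat_lit 4) (nat_lit 4) (nat_lit 5) (nat_lit 4) (nat_lit 4) (nat_lit 420) (nat_lit 369) (nat_lit 231)))) (XT.nd (nat_lit 78) (nat_lit 0) (nat_lit 0) (XT.lf (nat_lit 0) (nat_lit 25199007775761) (nat_lit 76) (nat_lit 9704652998040) (nat_lit 76) (nat_lit 9474943192375) (nat_lit 3) (nat_lit 4) (nat_lit 4) (nat_lit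 5) (nat_lit 4) (nat_lit 4) (nat_lit 421) (nat_lit 369) (nat_lit 230)) (XT.nd (nat_lit 78) (nat_lit 0) (nat_lit 0) (XT.lf (nat_lit 0) (nat_lit 33531929513229) (nat_lit 76) (nat_lit 8706547739918) (nat_lit 76) (nat_lit 8476837934144) (nat_lit 3) (nat_lit 4) (nat_lit 4) (nat_lit 5) (nat_lit 4) (nat_lit 4) (nat_lit 422) (nat_lit 369) (nat_lit 229)) (XT.lf (nat_lit 0) (nat_lit 43114789507257) (nat_lit 76) (nat_lit 7558726695235) (nat_lit 76) (nat_lit 7329016889365) (nat_lit 3) (nat_lit 4) (nat_lit 4) (nat_lit 5) (nat_lit 4) (nat_lit 4) (nat_lit 423) (nat_lit 369) (nat_lit 228))))) (XT.nd (nat_lit 936) (nat_lit 0) (nat_lit 0) (XT.nd (nat_lit 78) (nat_lit 152) (nat_lit 0) (XT.lf (nat_lit 0) (nat_lit 54135078496860) (nat_lit 76) (nat_lit 6238732495725) (nat_lit 76) (nat_lit 6009022689772) (nat_lit 3) (nat_lit 4) (nat_lit 4) (nat_lit 5) (nat_lit 4) (nat_lit 4) (nat_lit 424) (nat_lit 369) (nat_lit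 227)) (XT.nd (nat_lit 780) (nat_lit 152) (nat_lit 0) (XT.lf (nat_lit 0) (nat_lit 66808410831835) (nat_lit 76) (nat_lit 4720739167919) (nat_lit 76) (nat_lit 4491029361894) (nat_lit 3) (nat_lit 4) (nat_lit 4) (nat_lit 5) (nat_lit 4) (nat_lit 4) (nat_lit 425) (nat_lit 369) (nat_lit 226)) (XT.lf (nat_lit 0) (nat_lit 32406518455362) (nat_lit 152) (nat_lit 235608306144596) (nat_lit 0) (nat_lit 32206770797635) (nat_lit 1) (nat_lit 5) (nat_lit 3) (nat_lit 4) (nat_lit 1) (nat_lit 4) (nat_lit 435) (nat_lit 369) (nat_lit 216)))) (XT.nd (nat_lit 156) (nat_lit 0) (nat_lit 0) (XT.nd (nat_lit 78) (nat_lit 0) (nat_lit 0) (XT.lf (nat_lit 0) (nat_lit 39805117486461) (nat_lit 152) (nat_lit 265459191794526) (nat_lit 0) (nat_lit 39605369828720) (nat_lit 1) (nat_lit 5) (nat_lit 3) (nat_lit 4) (nat_lit 1) (nat_lit 4) (nat_lit 436) (nat_lit 369) (nat_lit 215)) (XT.lf (nat_lit 0) (nat_lit 48313506371902) (nat_lit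 152) (nat_lit 299787710292637) (nat_lit 0) (nat_lit 48113758714149) (nat_lit 1) (nat_lit 5) (nat_lit 3) (nat_lit 4) (nat_lit 1) (nat_lit 4) (nat_lit 437) (nat_lit 369) (nat_lit 214))) (XT.nd (nat_lit 468) (nat_lit 0) (nat_lit 0) (XT.lf (nat_lit 0) (nat_lit 58098153589877) (nat_lit 152) (nat_lit 339265506566067) (nat_lit 0) (nat_lit 57898405932114) (nat_lit 1) (nat_lit 5) (nat_lit 3) (nat_lit 4) (nat_lit 1) (nat_lit 4) (nat_lit 438) (nat_lit 369) (nat_lit 213)) (XT.lf (nat_lit 0) (nat_lit 156598232401167) (nat_lit 152) (nat_lit 736680554644278) (nat_lit 0) (nat_lit 156398484743367) (nat_lit 1) (nat_lit 5) (nat_lit 3) (nat_lit 4) (nat_lit 1) (nat_lit 4) (nat_lit 444) (nat_lit 369) (nat_lit 207))))))))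
noncomputable def xc95 : XT := (XT.nd (nat_lit 49140) (nat_lit 0) (nat_lit 152) (XT.nd (nat_lit 48126) (nat_lit 0) (nat_lit 1368) (XT.nd (nat_lit 47580) (nat_lit 0) (nat_lit 2128) (XT.nd (nat_lit 47346) (nat_lit 0) (nat_lit 2736) (XT.nd (nat_lit 78) (nat_lit 0) (nat_lit 0) (XT.lf (nat_lit 0) (nat_lit 182625588522362) (nat_lit 152) (nat_lit 841692277572956) (nat_lit 0) (nat_lit 182425840864558) (nat_lit 1) (nat_lit 5) (nat_lit 3) (nat_lit 4) (nat_lit 1) (nat_lit 4) (nat_lit 445) (nat_lit 369) (nat_lit 206)) (XT.nd (nat_lit 47190) (nat_lit 0) (nat_lit 2736) (XT.lf (nat_lit 0) (nat_lit 212557048061645) (nat_lit 152) (nat_lit 962455758941131) (nat_lit 0) (nat_lit 212357300403838) (nat_lit 1) (nat_lit 5) (nat_lit 3) (nat_lit 4) (nat_lit 1) (nat_lit 4) (nat_lit 446) (nat_lit 369) (nat_lit 205)) (XT.lf (nat_lit 0) (nat_lit 38676699201) (nat_lit 380) (nat_lit 47739193923) (nat_lit 380) (nat_lit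 47739193923) (nat_lit 37) (nat_lit 3) (nat_lit 42) (nat_lit 3) (nat_lit 42) (nat_lit 5) (nat_lit 370) (nat_lit 370) (nat_lit 280)))) (XT.nd (nat_lit 78) (nat_lit 0) (nat_lit 76) (XT.lf (nat_lit 76) (nat_lit 41217936807) (nat_lit 0) (nat_lit 43644554829) (nat_lit 380) (nat_lit 203314806865) (nat_lit 38) (nat_lit 5) (nat_lit 37) (nat_lit 3) (nat_lit 42) (nat_lit 5) (nat_lit 371) (nat_lit 370) (nat_lit 279)) (XT.nd (nat_lit 78) (nat_lit 0) (nat_lit 0) (XT.lf (nat_lit 0) (nat_lit 103070920919) (nat_lit 304) (nat_lit 105709003064) (nat_lit 380) (nat_lit 100808621847) (nat_lit 38) (nat_lit 5) (nat_lit 42) (nat_lit 5) (nat_lit 43) (nat_lit 5) (nat_lit 372) (nat_lit 370) (nat_lit 278)) (XT.lf (nat_lit 76) (nat_lit 59991336317) (nat_lit 0) (nat_lit 68581572153) (nat_lit 380) (nat_lit 204954227769) (nat_lit 39) (nat_lit 5) (nat_lit 38) (nat_lit 5) (nat_lit 43) (nat_lit 5) (nat_lit 373) (nat_lit 370)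 (nat_lit 277))))) (XT.nd (nat_lit 234) (nat_lit 456) (nat_lit 0) (XT.nd (nat_lit 78) (nat_lit 304) (nat_lit 0) (XT.lf (nat_lit 0) (nat_lit 167525198095) (nat_lit 304) (nat_lit 101900225647) (nat_lit 76) (nat_lit 90187340929) (nat_lit 39) (nat_lit 5) (nat_lit 43) (nat_lit 5) (nat_lit 40) (nat_lit 5) (nat_lit 374) (nat_lit 370) (nat_lit 276)) (XT.nd (nat_lit 78) (nat_lit 0) (nat_lit 0) (XT.lf (nat_lit 0) (nat_lit 101226692877) (nat_lit 304) (nat_lit 118550906523) (nat_lit 380) (nat_lit 168715047779) (nat_lit 35) (nat_lit 5) (nat_lit 39) (nat_lit 5) (nat_lit 40) (nat_lit 5) (nat_lit 375) (nat_lit 370) (nat_lit 275)) (XT.lf (nat_lit 0) (nat_lit 287723578622) (nat_lit 380) (nat_lit 77159997053) (nat_lit 76) (nat_lit 55642578771) (nat_lit 35) (nat_lit 5) (nat_lit 40) (nat_lit 5) (nat_lit 36) (nat_lit 5) (nat_lit 376) (nat_lit 370) (nat_lit 274)))) (XT.nd (nat_lit 156) (nat_lit 304) (nat_lit 0)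 (XT.nd (nat_lit 78) (nat_lit 0) (nat_lit 0) (XT.lf (nat_lit 0) (nat_lit 174337176061) (nat_lit 152) (nat_lit 204388409464) (nat_lit 228) (nat_lit 76709482693) (nat_lit 33) (nat_lit 5) (nat_lit 35) (nat_lit 5) (nat_lit 36) (nat_lit 5) (nat_lit 377) (nat_lit 370) (nat_lit 273)) (XT.lf (nat_lit 0) (nat_lit 472230563623) (nat_lit 152) (nat_lit 15180618905) (nat_lit 228) (nat_lit 7564143198) (nat_lit 33) (nat_lit 5) (nat_lit 35) (nat_lit 5) (nat_lit 36) (nat_lit 5) (nat_lit 378) (nat_lit 370) (nat_lit 272))) (XT.nd (nat_lit 78) (nat_lit 152) (nat_lit 0) (XT.lf (nat_lit 0) (nat_lit 86993294370) (nat_lit 152) (nat_lit 249356733152) (nat_lit 76) (nat_lit 200432773757) (nat_lit 31) (nat_lit 5) (nat_lit 33) (nat_lit 5) (nat_lit 32) (nat_lit 5) (nat_lit 379) (nat_lit 370) (nat_lit 271)) (XT.lf (nat_lit 0) (nat_lit 66803152298) (nat_lit 152) (nat_lit 132891316977) (nat_lit 228) (nat_lit 384402717434)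 (nat_lit 29) (nat_lit 5) (nat_lit 31) (nat_lit 5) (nat_lit 32) (nat_lit 5) (nat_lit 380) (nat_lit 370) (nat_lit 270)))))) (XT.nd (nat_lit 468) (nat_lit 456) (nat_lit 0) (XT.nd (nat_lit 234) (nat_lit 228) (nat_lit 0) (XT.nd (nat_lit 78) (nat_lit 76) (nat_lit 0) (XT.lf (nat_lit 0) (nat_lit 347141774176) (nat_lit 228) (nat_lit 182948782056) (nat_lit 76) (nat_lit 105742030674) (nat_lit 29) (nat_lit 5) (nat_lit 32) (nat_lit 5) (nat_lit 30) (nat_lit 4) (nat_lit 381) (nat_lit 370) (nat_lit 269)) (XT.nd (nat_lit 78) (nat_lit 0) (nat_lit 0) (XT.lf (nat_lit 0) (nat_lit 214298337030) (nat_lit 76) (nat_lit 317609580794) (nat_lit 152) (nat_lit 161140117871) (nat_lit 28) (nat_lit 5) (nat_lit 29) (nat_lit 5) (nat_lit 30) (nat_lit 4) (nat_lit 382) (nat_lit 370) (nat_lit 268)) (XT.lf (nat_lit 0) (nat_lit 691693393072) (nat_lit 76) (nat_lit 62258773166) (nat_lit 152) (nat_lit 3459158095) (nat_lit 28) (nat_lit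 5) (nat_lit 29) (nat_lit 5) (nat_lit 30) (nat_lit 4) (nat_lit 383) (nat_lit 370) (nat_lit 267)))) (XT.nd (nat_lit 78) (nat_lit 76) (nat_lit 0) (XT.lf (nat_lit 0) (nat_lit 191108868290) (nat_lit 152) (nat_lit 397206222054) (nat_lit 76) (nat_lit 237648635122) (nat_lit 26) (nat_lit 5) (nat_lit 28) (nat_lit 5) (nat_lit 27) (nat_lit 4) (nat_lit 384) (nat_lit 370) (nat_lit 266)) (XT.nd (nat_lit 78) (nat_lit 0) (nat_lit 0) (XT.lf (nat_lit 0) (nat_lit 106713658095) (nat_lit 76) (nat_lit 318776573669) (nat_lit 152) (nat_lit 477636703988) (nat_lit 25) (nat_lit 5) (nat_lit 26) (nat_lit 5) (nat_lit 27) (nat_lit 4) (nat_lit 385) (nat_lit 370) (nat_lit 265)) (XT.lf (nat_lit 0) (nat_lit 716415837120) (nat_lit 152) (nat_lit 258512188894) (nat_lit 0) (nat_lit 13728545969) (nat_lit 25) (nat_lit 5) (nat_lit 27) (nat_lit 4) (nat_lit 25) (nat_lit 4) (nat_lit 386) (nat_lit 370) (nat_lit 264))))) (XT.nd (nat_lit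 234) (nat_lit 228) (nat_lit 0) (XT.nd (nat_lit 78) (nat_lit 152) (nat_lit 0) (XT.lf (nat_lit 0) (nat_lit 378599725680) (nat_lit 76) (nat_lit 703237365819) (nat_lit 76) (nat_lit 550040924) (nat_lit 24) (nat_lit 4) (nat_lit 25) (nat_lit 5) (nat_lit 25) (nat_lit 4) (nat_lit 387) (nat_lit 370) (nat_lit 263)) (XT.nd (nat_lit 78) (nat_lit 76) (nat_lit 0) (XT.lf (nat_lit 0) (nat_lit 298283857970) (nat_lit 152) (nat_lit 61377059598) (nat_lit 76) (nat_lit 826455640291) (nat_lit 23) (nat_lit 5) (nat_lit 25) (nat_lit 5) (nat_lit 24) (nat_lit 4) (nat_lit 388) (nat_lit 370) (nat_lit 262)) (XT.lf (nat_lit 0) (nat_lit 675611382025) (nat_lit 152) (nat_lit 560152480228) (nat_lit 0) (nat_lit 64578877894) (nat_lit 22) (nat_lit 5) (nat_lit 24) (nat_lit 4) (nat_lit 22) (nat_lit 4) (nat_lit 389) (nat_lit 370) (nat_lit 261)))) (XT.nd (nat_lit 156) (nat_lit 76) (nat_lit 0) (XT.nd (nat_lit 78) (nat_lit 76) (nat_lit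 0) (XT.lf (nat_lit 0) (nat_lit 241927539113) (nat_lit 76) (nat_lit 898116003920) (nat_lit 76) (nat_lit 287083480496) (nat_lit 21) (nat_lit 4) (nat_lit 22) (nat_lit 5) (nat_lit 22) (nat_lit 4) (nat_lit 390) (nat_lit 370) (nat_lit 260)) (XT.lf (nat_lit 0) (nat_lit 122876010980) (nat_lit 152) (nat_lit 346849116592) (nat_lit 76) (nat_lit 1097973930479) (nat_lit 20) (nat_lit 5) (nat_lit 22) (nat_lit 5) (nat_lit 21) (nat_lit 4) (nat_lit 391) (nat_lit 370) (nat_lit 259))) (XT.nd (nat_lit 78) (nat_lit 0) (nat_lit 0) (XT.lf (nat_lit 0) (nat_lit 595279804615) (nat_lit 152) (nat_lit 1063528009782) (nat_lit 0) (nat_lit 63947148278) (nat_lit 19) (nat_lit 5) (nat_lit 21) (nat_lit 4) (nat_lit 19) (nat_lit 4) (nat_lit 392) (nat_lit 370) (nat_lit 258)) (XT.lf (nat_lit 0) (nat_lit 1179906123137) (nat_lit 152) (nat_lit 66385380713) (nat_lit 0) (nat_lit 648573455769) (nat_lit 19) (nat_lit 5) (nat_lit 21) (nat_lit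 4) (nat_lit 19) (nat_lit 4) (nat_lit 393) (nat_lit 370) (nat_lit 257))))))) (XT.nd (nat_lit 1014) (nat_lit 456) (nat_lit 0) (XT.nd (nat_lit 468) (nat_lit 304) (nat_lit 0) (XT.nd (nat_lit 234) (nat_lit 228) (nat_lit 0) (XT.nd (nat_lit 78) (nat_lit 152) (nat_lit 0) (XT.lf (nat_lit 0) (nat_lit 1185906165335) (nat_lit 76) (nat_lit 715426047138) (nat_lit 76) (nat_lit 184093370178) (nat_lit 18) (nat_lit 4) (nat_lit 19) (nat_lit 5) (nat_lit 19) (nat_lit 4) (nat_lit 394) (nat_lit 370) (nat_lit 256)) (XT.nd (nat_lit 78) (nat_lit 0) (nat_lit 0) (XT.lf (nat_lit 0) (nat_lit 342085620898) (nat_lit 76) (nat_lit 64155451752) (nat_lit 152) (nat_lit 1893010706818) (nat_lit 16) (nat_lit 5) (nat_lit 17) (nat_lit 5) (nat_lit 18) (nat_lit 4) (nat_lit 395) (nat_lit 370) (nat_lit 255)) (XT.lf (nat_lit 0) (nat_lit 1143893747067) (nat_lit 152) (nat_lit 706435529380) (nat_lit 0) (nat_lit 681865318759) (nat_lit 16)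 (nat_lit 5) (nat_lit 18) (nat_lit 4) (nat_lit 16) (nat_lit 4) (nat_lit 396) (nat_lit 370) (nat_lit 254)))) (XT.nd (nat_lit 78) (nat_lit 152) (nat_lit 0) (XT.lf (nat_lit 0) (nat_lit 800078120238) (nat_lit 76) (nat_lit 1228300733591) (nat_lit 76) (nat_lit 766272299800) (nat_lit 15) (nat_lit 4) (nat_lit 16) (nat_lit 5) (nat_lit 16) (nat_lit 4) (nat_lit 397) (nat_lit 370) (nat_lit 253)) (XT.nd (nat_lit 78) (nat_lit 152) (nat_lit 0) (XT.lf (nat_lit 0) (nat_lit 2611962500045) (nat_lit 76) (nat_lit 470501520146) (nat_lit 76) (nat_lit 8473081586) (nat_lit 15) (nat_lit 4) (nat_lit 16) (nat_lit 5) (nat_lit 16) (nat_lit 4) (nat_lit 398) (nat_lit 370) (nat_lit 252)) (XT.lf (nat_lit 0) (nat_lit 862958081907) (nat_lit 152) (nat_lit 2090634627449) (nat_lit 0) (nat_lit 461194218683) (nat_lit 13) (nat_lit 5) (nat_lit 15) (nat_lit 4) (nat_lit 13) (nat_lit 4) (nat_lit 399) (nat_lit 370) (nat_lit 251)))))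 (XT.nd (nat_lit 234) (nat_lit 152) (nat_lit 0) (XT.nd (nat_lit 78) (nat_lit 152) (nat_lit 0) (XT.lf (nat_lit 0) (nat_lit 1912870817122) (nat_lit 152) (nat_lit 355880781442) (nat_lit 0) (nat_lit 1511106950763) (nat_lit 13) (nat_lit 5) (nat_lit 15) (nat_lit 4) (nat_lit 13) (nat_lit 4) (nat_lit 400) (nat_lit 370) (nat_lit 250)) (XT.nd (nat_lit 78) (nat_lit 76) (nat_lit 0) (XT.lf (nat_lit 0) (nat_lit 1799269527026) (nat_lit 76) (nat_lit 1395504835445) (nat_lit 76) (nat_lit 993740966359) (nat_lit 12) (nat_lit 4) (nat_lit 13) (nat_lit 5) (nat_lit 13) (nat_lit 4) (nat_lit 401) (nat_lit 370) (nat_lit 249)) (XT.lf (nat_lit 0) (nat_lit 29047366656) (nat_lit 152) (nat_lit 339312033145) (nat_lit 76) (nat_lit 4287122748420) (nat_lit 11) (nat_lit 5) (nat_lit 13) (nat_lit 5) (nat_lit 12) (nat_lit 4) (nat_lit 402) (nat_lit 370) (nat_lit 248)))) (XT.nd (nat_lit 156) (nat_lit 76) (nat_lit 0) (XT.nd (nat_lit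 78) (nat_lit 0) (nat_lit 0) (XT.lf (nat_lit 0) (nat_lit 1233273060991) (nat_lit 152) (nat_lit 3048745720108) (nat_lit 0) (nat_lit 883913170974) (nat_lit 10) (nat_lit 5) (nat_lit 12) (nat_lit 4) (nat_lit 10) (nat_lit 4) (nat_lit 403) (nat_lit 370) (nat_lit 247)) (XT.lf (nat_lit 0) (nat_lit 2654254894159) (nat_lit 152) (nat_lit 788380987059) (nat_lit 0) (nat_lit 2304895002583) (nat_lit 10) (nat_lit 5) (nat_lit 12) (nat_lit 4) (nat_lit 10) (nat_lit 4) (nat_lit 404) (nat_lit 370) (nat_lit 246))) (XT.nd (nat_lit 78) (nat_lit 0) (nat_lit 0) (XT.lf (nat_lit 0) (nat_lit 1988026280163) (nat_lit 76) (nat_lit 2382677640175) (nat_lit 76) (nat_lit 2033317747244) (nat_lit 9) (nat_lit 4) (nat_lit 10) (nat_lit 5) (nat_lit 10) (nat_lit 4) (nat_lit 405) (nat_lit 370) (nat_lit 245)) (XT.lf (nat_lit 0) (nat_lit 5269497888123) (nat_lit 76) (nat_lit 1116333226403) (nat_lit 76) (nat_lit 766973332294) (nat_lit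 9) (nat_lit 4) (nat_lit 10) (nat_lit 5) (nat_lit 10) (nat_lit 4) (nat_lit 406) (nat_lit 370) (nat_lit 244)))))) (XT.nd (nat_lit 468) (nat_lit 228) (nat_lit 0) (XT.nd (nat_lit 234) (nat_lit 76) (nat_lit 0) (XT.nd (nat_lit 78) (nat_lit 0) (nat_lit 0) (XT.lf (nat_lit 0) (nat_lit 691045193054) (nat_lit 152) (nat_lit 6921860353415) (nat_lit 0) (nat_lit 387253979893) (nat_lit 7) (nat_lit 5) (nat_lit 9) (nat_lit 4) (nat_lit 7) (nat_lit 4) (nat_lit 407) (nat_lit 370) (nat_lit 243)) (XT.nd (nat_lit 78) (nat_lit 0) (nat_lit 0) (XT.lf (nat_lit 0) (nat_lit 2445535207160) (nat_lit 152) (nat_lit 4358416460982) (nat_lit 0) (nat_lit 2141743993225) (nat_lit 7) (nat_lit 5) (nat_lit 9) (nat_lit 4) (nat_lit 7) (nat_lit 4) (nat_lit 408) (nat_lit 370) (nat_lit 242)) (XT.lf (nat_lit 0) (nat_lit 4463198715291) (nat_lit 152) (nat_lit 1410456001863) (nat_lit 0) (nat_lit 4159407500681) (nat_lit 7) (nat_lit 5) (nat_lit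 9) (nat_lit 4) (nat_lit 7) (nat_lit 4) (nat_lit 409) (nat_lit 370) (nat_lit 241)))) (XT.nd (nat_lit 78) (nat_lit 0) (nat_lit 0) (XT.lf (nat_lit 0) (nat_lit 2173169047503) (nat_lit 76) (nat_lit 4700328991064) (nat_lit 76) (nat_lit 4396537775869) (nat_lit 6) (nat_lit 4) (nat_lit 7) (nat_lit 5) (nat_lit 7) (nat_lit 4) (nat_lit 410) (nat_lit 370) (nat_lit 240)) (XT.nd (nat_lit 78) (nat_lit 0) (nat_lit 0) (XT.lf (nat_lit 0) (nat_lit 6452853861134) (nat_lit 76) (nat_lit 3266216774408) (nat_lit 76) (nat_lit 2962425558703) (nat_lit 6) (nat_lit 4) (nat_lit 7) (nat_lit 5) (nat_lit 7) (nat_lit 4) (nat_lit 411) (nat_lit 370) (nat_lit 239)) (XT.lf (nat_lit 0) (nat_lit 11374491384409) (nat_lit 76) (nat_lit 1616987731820) (nat_lit 76) (nat_lit 1313196515672) (nat_lit 6) (nat_lit 4) (nat_lit 7) (nat_lit 5) (nat_lit 7) (nat_lit 4) (nat_lit 412) (nat_lit 370) (nat_lit 238))))) (XT.nd (nat_lit 234) (nat_lit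 76) (nat_lit 0) (XT.nd (nat_lit 78) (nat_lit 0) (nat_lit 0) (XT.lf (nat_lit 0) (nat_lit 584153039227) (nat_lit 152) (nat_lit 15255667080524) (nat_lit 0) (nat_lit 319986763980) (nat_lit 4) (nat_lit 5) (nat_lit 6) (nat_lit 4) (nat_lit 4) (nat_lit 4) (nat_lit 413) (nat_lit 370) (nat_lit 237)) (XT.nd (nat_lit 78) (nat_lit 0) (nat_lit 0) (XT.lf (nat_lit 0) (nat_lit 2869120598616) (nat_lit 152) (nat_lit 12774133644353) (nat_lit 0) (nat_lit 2604954323078) (nat_lit 4) (nat_lit 5) (nat_lit 6) (nat_lit 4) (nat_lit 4) (nat_lit 4) (nat_lit 414) (nat_lit 370) (nat_lit 236)) (XT.lf (nat_lit 0) (nat_lit 5496833287301) (nat_lit 152) (nat_lit 9920370202591) (nat_lit 0) (nat_lit 5232667011509) (nat_lit 4) (nat_lit 5) (nat_lit 6) (nat_lit 4) (nat_lit 4) (nat_lit 4) (nat_lit 415) (nat_lit 370) (nat_lit 235)))) (XT.nd (nat_lit 156) (nat_lit 76) (nat_lit 0) (XT.nd (nat_lit 78) (nat_lit 0) (nat_lit 0) (XT.lf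 (nat_lit 0) (nat_lit 8518702875276) (nat_lit 152) (nat_lit 6638542253119) (nat_lit 0) (nat_lit 8254536599264) (nat_lit 4) (nat_lit 5) (nat_lit 6) (nat_lit 4) (nat_lit 4) (nat_lit 4) (nat_lit 416) (nat_lit 370) (nat_lit 234)) (XT.lf (nat_lit 0) (nat_lit 11993852897960) (nat_lit 152) (nat_lit 2864440118663) (nat_lit 0) (nat_lit 11729686621757) (nat_lit 4) (nat_lit 5) (nat_lit 6) (nat_lit 4) (nat_lit 4) (nat_lit 4) (nat_lit 417) (nat_lit 370) (nat_lit 233))) (XT.nd (nat_lit 78) (nat_lit 0) (nat_lit 0) (XT.lf (nat_lit 0) (nat_lit 1620001023056) (nat_lit 76) (nat_lit 14437355185661) (nat_lit 76) (nat_lit 14173188909291) (nat_lit 3) (nat_lit 4) (nat_lit 4) (nat_lit 5) (nat_lit 4) (nat_lit 4) (nat_lit 418) (nat_lit 370) (nat_lit 232)) (XT.lf (nat_lit 0) (nat_lit 7099032338652) (nat_lit 76) (nat_lit 13781084771656) (nat_lit 76) (nat_lit 13516918495141) (nat_lit 3) (nat_lit 4) (nat_lit 4) (nat_lit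 5) (nat_lit 4) (nat_lit 4) (nat_lit 419) (nat_lit 370) (nat_lit 231))))))))
noncomputable def xc96 : XT := (XT.nd (nat_lit 50778) (nat_lit 0) (nat_lit 76) (XT.nd (nat_lit 49764) (nat_lit 0) (nat_lit 1520) (XT.nd (nat_lit 49296) (nat_lit 0) (nat_lit 2432) (XT.nd (nat_lit 234) (nat_lit 0) (nat_lit 0) (XT.nd (nat_lit 78) (nat_lit 0) (nat_lit 0) (XT.lf (nat_lit 0) (nat_lit 13399918346219) (nat_lit 76) (nat_lit 13026373798402) (nat_lit 76) (nat_lit 12762207521761) (nat_lit 3) (nat_lit 4) (nat_lit 4) (nat_lit 5) (nat_lit 4) (nat_lit 4) (nat_lit 420) (nat_lit 370) (nat_lit 230)) (XT.nd (nat_lit 78) (nat_lit 0) (nat_lit 0) (XT.lf (nat_lit 0) (nat_lit 20645937250252) (nat_lit 76) (nat_lit 12158456181641) (nat_lit 76) (nat_lit 11894289904890) (nat_lit 3) (nat_lit 4) (nat_lit 4) (nat_lit 5) (nat_lit 4) (nat_lit 4) (nat_lit 421) (nat_lit 370) (nat_lit 229)) (XT.lf (nat_lit 0) (nat_lit 28978858985832)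 (nat_lit 76) (nat_lit 11160350924522) (nat_lit 76) (nat_lit 10896184647676) (nat_lit 3) (nat_lit 4) (nat_lit 4) (nat_lit 5) (nat_lit 4) (nat_lit 4) (nat_lit 422) (nat_lit 370) (nat_lit 228)))) (XT.nd (nat_lit 78) (nat_lit 0) (nat_lit 0) (XT.lf (nat_lit 0) (nat_lit 38561718978219) (nat_lit 76) (nat_lit 10012529880711) (nat_lit 76) (nat_lit 9748363603782) (nat_lit 3) (nat_lit 4) (nat_lit 4) (nat_lit 5) (nat_lit 4) (nat_lit 4) (nat_lit 423) (nat_lit 370) (nat_lit 227)) (XT.nd (nat_lit 78) (nat_lit 0) (nat_lit 0) (XT.lf (nat_lit 0) (nat_lit 49582007966395) (nat_lit 76) (nat_lit 8692535681959) (nat_lit 76) (nat_lit 8428369404959) (nat_lit 3) (nat_lit 4) (nat_lit 4) (nat_lit 5) (nat_lit 4) (nat_lit 4) (nat_lit 424) (nat_lit 370) (nat_lit 226)) (XT.lf (nat_lit 0) (nat_lit 62255340300127) (nat_lit 76) (nat_lit 7174542354813) (nat_lit 76) (nat_lit 6910376077750) (nat_lit 3) (nat_lit 4) (nat_lit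 4) (nat_lit 5) (nat_lit 4) (nat_lit 4) (nat_lit 425) (nat_lit 370) (nat_lit 225))))) (XT.nd (nat_lit 234) (nat_lit 152) (nat_lit 0) (XT.nd (nat_lit 78) (nat_lit 0) (nat_lit 0) (XT.lf (nat_lit 0) (nat_lit 44479010725) (nat_lit 380) (nat_lit 54899609001) (nat_lit 380) (nat_lit 54899609001) (nat_lit 37) (nat_lit 3) (nat_lit 42) (nat_lit 3) (nat_lit 42) (nat_lit 5) (nat_lit 371) (nat_lit 371) (nat_lit 278)) (XT.nd (nat_lit 78) (nat_lit 0) (nat_lit 76) (XT.lf (nat_lit 76) (nat_lit 47401513166) (nat_lit 0) (nat_lit 50191791754) (nat_lit 380) (nat_lit 233810371764) (nat_lit 38) (nat_lit 5) (nat_lit 37) (nat_lit 3) (nat_lit 42) (nat_lit 5) (nat_lit 372) (nat_lit 371) (nat_lit 277)) (XT.lf (nat_lit 0) (nat_lit 118532790893) (nat_lit 304) (nat_lit 121564374951) (nat_lit 380) (nat_lit 115929476510) (nat_lit 38) (nat_lit 5) (nat_lit 42) (nat_lit 5) (nat_lit 43) (nat_lit 5) (nat_lit 373) (nat_lit 371)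 (nat_lit 276)))) (XT.nd (nat_lit 78) (nat_lit 228) (nat_lit 0) (XT.lf (nat_lit 76) (nat_lit 68990970857) (nat_lit 0) (nat_lit 78868983724) (nat_lit 380) (nat_lit 235696085117) (nat_lit 39) (nat_lit 5) (nat_lit 38) (nat_lit 5) (nat_lit 43) (nat_lit 5) (nat_lit 374) (nat_lit 371) (nat_lit 275)) (XT.nd (nat_lit 78) (nat_lit 304) (nat_lit 0) (XT.lf (nat_lit 0) (nat_lit 192654936559) (nat_lit 304) (nat_lit 117184295716) (nat_lit 76) (nat_lit 103715302849) (nat_lit 39) (nat_lit 5) (nat_lit 43) (nat_lit 5) (nat_lit 40) (nat_lit 5) (nat_lit 375) (nat_lit 371) (nat_lit 274)) (XT.lf (nat_lit 0) (nat_lit 116411616779) (nat_lit 304) (nat_lit 136333494321) (nat_lit 380) (nat_lit 194021302009) (nat_lit 35) (nat_lit 5) (nat_lit 39) (nat_lit 5) (nat_lit 40) (nat_lit 5) (nat_lit 376) (nat_lit 371) (nat_lit 273)))))) (XT.nd (nat_lit 468) (nat_lit 456) (nat_lit 0) (XT.nd (nat_lit 234) (nat_lit 304) (nat_lit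 0) (XT.nd (nat_lit 78) (nat_lit 152) (nat_lit 0) (XT.lf (nat_lit 0) (nat_lit 330882875229) (nat_lit 380) (nat_lit 88733084330) (nat_lit 76) (nat_lit 63989003753) (nat_lit 35) (nat_lit 5) (nat_lit 40) (nat_lit 5) (nat_lit 36) (nat_lit 5) (nat_lit 377) (nat_lit 371) (nat_lit 272)) (XT.nd (nat_lit 78) (nat_lit 0) (nat_lit 0) (XT.lf (nat_lit 0) (nat_lit 200488623283) (nat_lit 152) (nat_lit 235046496836) (nat_lit 228) (nat_lit 88215103531) (nat_lit 33) (nat_lit 5) (nat_lit 35) (nat_lit 5) (nat_lit 36) (nat_lit 5) (nat_lit 378) (nat_lit 371) (nat_lit 271)) (XT.lf (nat_lit 0) (nat_lit 543065905396) (nat_lit 152) (nat_lit 17457560396) (nat_lit 228) (nat_lit 8698067663) (nat_lit 33) (nat_lit 5) (nat_lit 35) (nat_lit 5) (nat_lit 36) (nat_lit 5) (nat_lit 379) (nat_lit 371) (nat_lit 270)))) (XT.nd (nat_lit 78) (nat_lit 152) (nat_lit 0) (XT.lf (nat_lit 0) (nat_lit 100042881245) (nat_lit 152) (nat_lit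 286759381196) (nat_lit 76) (nat_lit 230497869935) (nat_lit 31) (nat_lit 5) (nat_lit 33) (nat_lit 5) (nat_lit 32) (nat_lit 5) (nat_lit 380) (nat_lit 371) (nat_lit 269)) (XT.nd (nat_lit 78) (nat_lit 0) (nat_lit 0) (XT.lf (nat_lit 0) (nat_lit 76824447893) (nat_lit 152) (nat_lit 152824741249) (nat_lit 228) (nat_lit 442062492988) (nat_lit 29) (nat_lit 5) (nat_lit 31) (nat_lit 5) (nat_lit 32) (nat_lit 5) (nat_lit 381) (nat_lit 371) (nat_lit 268)) (XT.lf (nat_lit 0) (nat_lit 399213527947) (nat_lit 228) (nat_lit 210390321956) (nat_lit 76) (nat_lit 121603551750) (nat_lit 29) (nat_lit 5) (nat_lit 32) (nat_lit 5) (nat_lit 30) (nat_lit 4) (nat_lit 382) (nat_lit 371) (nat_lit 267))))) (XT.nd (nat_lit 234) (nat_lit 228) (nat_lit 0) (XT.nd (nat_lit 78) (nat_lit 152) (nat_lit 0) (XT.lf (nat_lit 0) (nat_lit 246443829657) (nat_lit 76) (nat_lit 365250730607) (nat_lit 152) (nat_lit 185310612447) (nat_lit 28)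 (nat_lit 5) (nat_lit 29) (nat_lit 5) (nat_lit 30) (nat_lit 4) (nat_lit 383) (nat_lit 371) (nat_lit 266)) (XT.nd (nat_lit 78) (nat_lit 152) (nat_lit 0) (XT.lf (nat_lit 0) (nat_lit 795448047313) (nat_lit 76) (nat_lit 71597339311) (nat_lit 152) (nat_lit 3977576936) (nat_lit 28) (nat_lit 5) (nat_lit 29) (nat_lit 5) (nat_lit 30) (nat_lit 4) (nat_lit 384) (nat_lit 371) (nat_lit 265)) (XT.lf (nat_lit 0) (nat_lit 219775597039) (nat_lit 152) (nat_lit 456786453538) (nat_lit 76) (nat_lit 273296173853) (nat_lit 26) (nat_lit 5) (nat_lit 28) (nat_lit 5) (nat_lit 27) (nat_lit 4) (nat_lit 385) (nat_lit 371) (nat_lit 264)))) (XT.nd (nat_lit 156) (nat_lit 152) (nat_lit 0) (XT.nd (nat_lit 78) (nat_lit 0) (nat_lit 0) (XT.lf (nat_lit 0) (nat_lit 122721376733) (nat_lit 76) (nat_lit 366592764062) (nat_lit 152) (nat_lit 549281779110) (nat_lit 25) (nat_lit 5) (nat_lit 26) (nat_lit 5) (nat_lit 27) (nat_lit 4) (nat_lit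 386) (nat_lit 371) (nat_lit 263)) (XT.lf (nat_lit 0) (nat_lit 823878548782) (nat_lit 152) (nat_lit 297288396454) (nat_lit 0) (nat_lit 15788062069) (nat_lit 25) (nat_lit 5) (nat_lit 27) (nat_lit 4) (nat_lit 25) (nat_lit 4) (nat_lit 387) (nat_lit 371) (nat_lit 262))) (XT.nd (nat_lit 78) (nat_lit 76) (nat_lit 0) (XT.lf (nat_lit 0) (nat_lit 435390277090) (nat_lit 76) (nat_lit 808722694926) (nat_lit 76) (nat_lit 632182698) (nat_lit 24) (nat_lit 4) (nat_lit 25) (nat_lit 5) (nat_lit 25) (nat_lit 4) (nat_lit 388) (nat_lit 371) (nat_lit 261)) (XT.lf (nat_lit 0) (nat_lit 343026725298) (nat_lit 152) (nat_lit 70583075023) (nat_lit 76) (nat_lit 950424197883) (nat_lit 23) (nat_lit 5) (nat_lit 25) (nat_lit 5) (nat_lit 24) (nat_lit 4) (nat_lit 389) (nat_lit 371) (nat_lit 260))))))) (XT.nd (nat_lit 1014) (nat_lit 608) (nat_lit 0) (XT.nd (nat_lit 468) (nat_lit 456) (nat_lit 0) (XT.nd (nat_lit 234) (nat_lit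 152) (nat_lit 0) (XT.nd (nat_lit 78) (nat_lit 152) (nat_lit 0) (XT.lf (nat_lit 0) (nat_lit 776953371997) (nat_lit 152) (nat_lit 644174802748) (nat_lit 0) (nat_lit 74265933990) (nat_lit 22) (nat_lit 5) (nat_lit 24) (nat_lit 4) (nat_lit 22) (nat_lit 4) (nat_lit 390) (nat_lit 371) (nat_lit 259)) (XT.nd (nat_lit 78) (nat_lit 76) (nat_lit 0) (XT.lf (nat_lit 0) (nat_lit 278217194517) (nat_lit 76) (nat_lit 1032833147489) (nat_lit 76) (nat_lit 330145694895) (nat_lit 21) (nat_lit 4) (nat_lit 22) (nat_lit 5) (nat_lit 22) (nat_lit 4) (nat_lit 391) (nat_lit 371) (nat_lit 258)) (XT.lf (nat_lit 0) (nat_lit 141307656353) (nat_lit 152) (nat_lit 398876004120) (nat_lit 76) (nat_lit 1262670219704) (nat_lit 20) (nat_lit 5) (nat_lit 22) (nat_lit 5) (nat_lit 21) (nat_lit 4) (nat_lit 392) (nat_lit 371) (nat_lit 257)))) (XT.nd (nat_lit 78) (nat_lit 76) (nat_lit 0) (XT.lf (nat_lit 0) (nat_lit 684572015623) (nat_lit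 152) (nat_lit 1223056727858) (nat_lit 0) (nat_lit 73539427527) (nat_lit 19) (nat_lit 5) (nat_lit 21) (nat_lit 4) (nat_lit 19) (nat_lit 4) (nat_lit 393) (nat_lit 371) (nat_lit 256)) (XT.nd (nat_lit 78) (nat_lit 76) (nat_lit 0) (XT.lf (nat_lit 0) (nat_lit 1356892250578) (nat_lit 152) (nat_lit 76342767481) (nat_lit 0) (nat_lit 745859654141) (nat_lit 19) (nat_lit 5) (nat_lit 21) (nat_lit 4) (nat_lit 19) (nat_lit 4) (nat_lit 394) (nat_lit 371) (nat_lit 255)) (XT.lf (nat_lit 0) (nat_lit 1363792491368) (nat_lit 76) (nat_lit 822739751303) (nat_lit 76) (nat_lit 211707147613) (nat_lit 18) (nat_lit 4) (nat_lit 19) (nat_lit 5) (nat_lit 19) (nat_lit 4) (nat_lit 395) (nat_lit 371) (nat_lit 254))))) (XT.nd (nat_lit 234) (nat_lit 228) (nat_lit 0) (XT.nd (nat_lit 78) (nat_lit 76) (nat_lit 0) (XT.lf (nat_lit 0) (nat_lit 393398866425) (nat_lit 76) (nat_lit 73778564468) (nat_lit 152) (nat_lit 2176962085883)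 (nat_lit 16) (nat_lit 5) (nat_lit 17) (nat_lit 5) (nat_lit 18) (nat_lit 4) (nat_lit 396) (nat_lit 371) (nat_lit 253)) (XT.nd (nat_lit 78) (nat_lit 76) (nat_lit 0) (XT.lf (nat_lit 0) (nat_lit 1315477988114) (nat_lit 152) (nat_lit 812400490514) (nat_lit 0) (nat_lit 784145279001) (nat_lit 16) (nat_lit 5) (nat_lit 18) (nat_lit 4) (nat_lit 16) (nat_lit 4) (nat_lit 397) (nat_lit 371) (nat_lit 252)) (XT.lf (nat_lit 0) (nat_lit 920090189807) (nat_lit 76) (nat_lit 1412545662294) (nat_lit 76) (nat_lit 881212949034) (nat_lit 15) (nat_lit 4) (nat_lit 16) (nat_lit 5) (nat_lit 16) (nat_lit 4) (nat_lit 398) (nat_lit 371) (nat_lit 251)))) (XT.nd (nat_lit 156) (nat_lit 76) (nat_lit 0) (XT.nd (nat_lit 78) (nat_lit 152) (nat_lit 0) (XT.lf (nat_lit 0) (nat_lit 3003757180733) (nat_lit 76) (nat_lit 541076590485) (nat_lit 76) (nat_lit 9743873618) (nat_lit 15) (nat_lit 4) (nat_lit 16) (nat_lit 5) (nat_lit 16)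 (nat_lit 4) (nat_lit 399) (nat_lit 371) (nat_lit 250)) (XT.lf (nat_lit 0) (nat_lit 992401948276) (nat_lit 152) (nat_lit 2404229499751) (nat_lit 0) (nat_lit 530373496101) (nat_lit 13) (nat_lit 5) (nat_lit 15) (nat_lit 4) (nat_lit 13) (nat_lit 4) (nat_lit 400) (nat_lit 371) (nat_lit 249))) (XT.nd (nat_lit 78) (nat_lit 76) (nat_lit 0) (XT.lf (nat_lit 0) (nat_lit 2199801573676) (nat_lit 152) (nat_lit 409262618819) (nat_lit 0) (nat_lit 1737773119129) (nat_lit 13) (nat_lit 5) (nat_lit 15) (nat_lit 4) (nat_lit 13) (nat_lit 4) (nat_lit 401) (nat_lit 371) (nat_lit 248)) (XT.lf (nat_lit 0) (nat_lit 2069160223200) (nat_lit 76) (nat_lit 1604830421212) (nat_lit 76) (nat_lit 1142801964603) (nat_lit 12) (nat_lit 4) (nat_lit 13) (nat_lit 5) (nat_lit 13) (nat_lit 4) (nat_lit 402) (nat_lit 371) (nat_lit 247)))))) (XT.nd (nat_lit 468) (nat_lit 228) (nat_lit 0) (XT.nd (nat_lit 234) (nat_lit 228) (nat_lit 0)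 (XT.nd (nat_lit 78) (nat_lit 76) (nat_lit 0) (XT.lf (nat_lit 0) (nat_lit 33404587870) (nat_lit 152) (nat_lit 390208594478) (nat_lit 76) (nat_lit 4930191270670) (nat_lit 11) (nat_lit 5) (nat_lit 13) (nat_lit 5) (nat_lit 12) (nat_lit 4) (nat_lit 403) (nat_lit 371) (nat_lit 246)) (XT.nd (nat_lit 78) (nat_lit 0) (nat_lit 0) (XT.lf (nat_lit 0) (nat_lit 1418264135873) (nat_lit 152) (nat_lit 3506057334001) (nat_lit 0) (nat_lit 1016500257647) (nat_lit 10) (nat_lit 5) (nat_lit 12) (nat_lit 4) (nat_lit 10) (nat_lit 4) (nat_lit 404) (nat_lit 371) (nat_lit 245)) (XT.lf (nat_lit 0) (nat_lit 3052393228921) (nat_lit 152) (nat_lit 906637922836) (nat_lit 0) (nat_lit 2650629349516) (nat_lit 10) (nat_lit 5) (nat_lit 12) (nat_lit 4) (nat_lit 10) (nat_lit 4) (nat_lit 405) (nat_lit 371) (nat_lit 244)))) (XT.nd (nat_lit 78) (nat_lit 152) (nat_lit 0) (XT.lf (nat_lit 0) (nat_lit 2286230424819) (nat_lit 76) (nat_lit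 2740079179472) (nat_lit 76) (nat_lit 2338315299042) (nat_lit 9) (nat_lit 4) (nat_lit 10) (nat_lit 5) (nat_lit 10) (nat_lit 4) (nat_lit 406) (nat_lit 371) (nat_lit 243)) (XT.nd (nat_lit 78) (nat_lit 152) (nat_lit 0) (XT.lf (nat_lit 0) (nat_lit 6059922747543) (nat_lit 76) (nat_lit 1283783117555) (nat_lit 76) (nat_lit 882019236234) (nat_lit 9) (nat_lit 4) (nat_lit 10) (nat_lit 5) (nat_lit 10) (nat_lit 4) (nat_lit 407) (nat_lit 371) (nat_lit 242)) (XT.lf (nat_lit 0) (nat_lit 794702059139) (nat_lit 152) (nat_lit 7960139221444) (nat_lit 0) (nat_lit 445342161663) (nat_lit 7) (nat_lit 5) (nat_lit 9) (nat_lit 4) (nat_lit 7) (nat_lit 4) (nat_lit 408) (nat_lit 371) (nat_lit 241))))) (XT.nd (nat_lit 234) (nat_lit 152) (nat_lit 0) (XT.nd (nat_lit 78) (nat_lit 76) (nat_lit 0) (XT.lf (nat_lit 0) (nat_lit 2812365563996) (nat_lit 152) (nat_lit 5012178769275) (nat_lit 0) (nat_lit 2463005665935) (nat_lit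 7) (nat_lit 5) (nat_lit 9) (nat_lit 4) (nat_lit 7) (nat_lit 4) (nat_lit 409) (nat_lit 371) (nat_lit 240)) (XT.nd (nat_lit 78) (nat_lit 76) (nat_lit 0) (XT.lf (nat_lit 0) (nat_lit 5132678588465) (nat_lit 152) (nat_lit 1622024262269) (nat_lit 0) (nat_lit 4783318689894) (nat_lit 7) (nat_lit 5) (nat_lit 9) (nat_lit 4) (nat_lit 7) (nat_lit 4) (nat_lit 410) (nat_lit 371) (nat_lit 239)) (XT.lf (nat_lit 0) (nat_lit 2499144538144) (nat_lit 76) (nat_lit 5405378269024) (nat_lit 76) (nat_lit 5056018370010) (nat_lit 6) (nat_lit 4) (nat_lit 7) (nat_lit 5) (nat_lit 7) (nat_lit 4) (nat_lit 411) (nat_lit 371) (nat_lit 238)))) (XT.nd (nat_lit 156) (nat_lit 152) (nat_lit 0) (XT.nd (nat_lit 78) (nat_lit 0) (nat_lit 0) (XT.lf (nat_lit 0) (nat_lit 7420782056404) (nat_lit 76) (nat_lit 3756149229091) (nat_lit 76) (nat_lit 3406789329692) (nat_lit 6) (nat_lit 4) (nat_lit 7) (nat_lit 5) (nat_lit 7) (nat_lit 4) (nat_lit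 412) (nat_lit 371) (nat_lit 237)) (XT.lf (nat_lit 0) (nat_lit 13080665193028) (nat_lit 76) (nat_lit 1859535838134) (nat_lit 76) (nat_lit 1510175938399) (nat_lit 6) (nat_lit 4) (nat_lit 7) (nat_lit 5) (nat_lit 7) (nat_lit 4) (nat_lit 413) (nat_lit 371) (nat_lit 236))) (XT.nd (nat_lit 78) (nat_lit 0) (nat_lit 0) (XT.lf (nat_lit 0) (nat_lit 671776044781) (nat_lit 152) (nat_lit 17544017036692) (nat_lit 0) (nat_lit 367984827368) (nat_lit 4) (nat_lit 5) (nat_lit 6) (nat_lit 4) (nat_lit 4) (nat_lit 4) (nat_lit 414) (nat_lit 371) (nat_lit 235)) (XT.lf (nat_lit 0) (nat_lit 3299488731600) (nat_lit 152) (nat_lit 14690253598909) (nat_lit 0) (nat_lit 2995697513966) (nat_lit 4) (nat_lit 5) (nat_lit 6) (nat_lit 4) (nat_lit 4) (nat_lit 4) (nat_lit 415) (nat_lit 371) (nat_lit 234))))))))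
noncomputable def xc97 : XT := (XT.nd (nat_lit 50856) (nat_lit 0) (nat_lit 228) (XT.nd (nat_lit 49842) (nat_lit 0) (nat_lit 1748) (XT.nd (nat_lit 468) (nat_lit 0) (nat_lit 0) (XT.nd (nat_lit 234) (nat_lit 76) (nat_lit 0) (XT.nd (nat_lit 78) (nat_lit 0) (nat_lit 0) (XT.lf (nat_lit 0) (nat_lit 6321358317953) (nat_lit 152) (nat_lit 11408425652896) (nat_lit 0) (nat_lit 6017567100128) (nat_lit 4) (nat_lit 5) (nat_lit 6) (nat_lit 4) (nat_lit 4) (nat_lit 4) (nat_lit 416) (nat_lit 371) (nat_lit 233)) (XT.nd (nat_lit 78) (nat_lit 0) (nat_lit 0) (XT.lf (nat_lit 0) (nat_lit 9796508339227) (nat_lit 152) (nat_lit 7634323521449) (nat_lit 0) (nat_lit 9492717121234) (nat_lit 4) (nat_lit 5) (nat_lit 6) (nat_lit 4) (nat_lit 4) (nat_lit 4) (nat_lit 417) (nat_lit 371) (nat_lit 232)) (XT.lf (nat_lit 0) (nat_lit 13792930861053) (nat_lit 152) (nat_lit 3294106075908) (nat_lit 0) (nat_lit 13489139642916) (nat_lit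 4) (nat_lit 5) (nat_lit 6) (nat_lit 4) (nat_lit 4) (nat_lit 4) (nat_lit 418) (nat_lit 371) (nat_lit 231)))) (XT.nd (nat_lit 78) (nat_lit 0) (nat_lit 0) (XT.lf (nat_lit 0) (nat_lit 1863001234317) (nat_lit 76) (nat_lit 16602958432796) (nat_lit 76) (nat_lit 16299167214533) (nat_lit 3) (nat_lit 4) (nat_lit 4) (nat_lit 5) (nat_lit 4) (nat_lit 4) (nat_lit 419) (nat_lit 371) (nat_lit 230)) (XT.nd (nat_lit 78) (nat_lit 0) (nat_lit 0) (XT.lf (nat_lit 0) (nat_lit 8163887239713) (nat_lit 76) (nat_lit 15848247460696) (nat_lit 76) (nat_lit 15544456242324) (nat_lit 3) (nat_lit 4) (nat_lit 4) (nat_lit 5) (nat_lit 4) (nat_lit 4) (nat_lit 420) (nat_lit 371) (nat_lit 229)) (XT.lf (nat_lit 0) (nat_lit 15409906141858) (nat_lit 76) (nat_lit 14980329844938) (nat_lit 76) (nat_lit 14676538626470) (nat_lit 3) (nat_lit 4) (nat_lit 4) (nat_lit 5) (nat_lit 4) (nat_lit 4) (nat_lit 421) (nat_lit 371) (nat_lit 228)))))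 (XT.nd (nat_lit 234) (nat_lit 0) (nat_lit 0) (XT.nd (nat_lit 78) (nat_lit 0) (nat_lit 0) (XT.lf (nat_lit 0) (nat_lit 23742827875796) (nat_lit 76) (nat_lit 13982224588692) (nat_lit 76) (nat_lit 13678433370141) (nat_lit 3) (nat_lit 4) (nat_lit 4) (nat_lit 5) (nat_lit 4) (nat_lit 4) (nat_lit 422) (nat_lit 371) (nat_lit 227)) (XT.nd (nat_lit 78) (nat_lit 0) (nat_lit 0) (XT.lf (nat_lit 0) (nat_lit 33325687866756) (nat_lit 76) (nat_lit 12834403545639) (nat_lit 76) (nat_lit 12530612327017) (nat_lit 3) (nat_lit 4) (nat_lit 4) (nat_lit 5) (nat_lit 4) (nat_lit 4) (nat_lit 423) (nat_lit 371) (nat_lit 226)) (XT.lf (nat_lit 0) (nat_lit 44345976853690) (nat_lit 76) (nat_lit 11514409347547) (nat_lit 76) (nat_lit 11210618128862) (nat_lit 3) (nat_lit 4) (nat_lit 4) (nat_lit 5) (nat_lit 4) (nat_lit 4) (nat_lit 424) (nat_lit 371) (nat_lit 225)))) (XT.nd (nat_lit 48984) (nat_lit 0) (nat_lit 2584) (XT.lf (nat_lit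 0) (nat_lit 57019309186343) (nat_lit 76) (nat_lit 9996416020975) (nat_lit 76) (nat_lit 9692624802235) (nat_lit 3) (nat_lit 4) (nat_lit 4) (nat_lit 5) (nat_lit 4) (nat_lit 4) (nat_lit 425) (nat_lit 371) (nat_lit 224)) (XT.nd (nat_lit 78) (nat_lit 0) (nat_lit 0) (XT.lf (nat_lit 0) (nat_lit 51151472272) (nat_lit 380) (nat_lit 63134199492) (nat_lit 380) (nat_lit 63134199492) (nat_lit 37) (nat_lit 3) (nat_lit 42) (nat_lit 3) (nat_lit 42) (nat_lit 5) (nat_lit 372) (nat_lit 372) (nat_lit 276)) (XT.lf (nat_lit 76) (nat_lit 54512409961) (nat_lit 0) (nat_lit 57720979195) (nat_lit 380) (nat_lit 268880675255) (nat_lit 38) (nat_lit 5) (nat_lit 37) (nat_lit 3) (nat_lit 42) (nat_lit 5) (nat_lit 373) (nat_lit 372) (nat_lit 275)))))) (XT.nd (nat_lit 468) (nat_lit 532) (nat_lit 0) (XT.nd (nat_lit 234) (nat_lit 380) (nat_lit 0) (XT.nd (nat_lit 78) (nat_lit 0) (nat_lit 0) (XT.lf (nat_lit 0) (nat_lit 136313640972)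 (nat_lit 304) (nat_lit 139798291252) (nat_lit 380) (nat_lit 133318566331) (nat_lit 38) (nat_lit 5) (nat_lit 42) (nat_lit 5) (nat_lit 43) (nat_lit 5) (nat_lit 374) (nat_lit 372) (nat_lit 274)) (XT.nd (nat_lit 78) (nat_lit 0) (nat_lit 76) (XT.lf (nat_lit 76) (nat_lit 79340322793) (nat_lit 0) (nat_lit 90699464174) (nat_lit 380) (nat_lit 271049532428) (nat_lit 39) (nat_lit 5) (nat_lit 38) (nat_lit 5) (nat_lit 43) (nat_lit 5) (nat_lit 375) (nat_lit 372) (nat_lit 273)) (XT.lf (nat_lit 0) (nat_lit 221553901996) (nat_lit 304) (nat_lit 134761211318) (nat_lit 76) (nat_lit 119272493007) (nat_lit 39) (nat_lit 5) (nat_lit 43) (nat_lit 5) (nat_lit 40) (nat_lit 5) (nat_lit 376) (nat_lit 372) (nat_lit 272)))) (XT.nd (nat_lit 78) (nat_lit 152) (nat_lit 0) (XT.lf (nat_lit 0) (nat_lit 133874054926) (nat_lit 304) (nat_lit 156783482038) (nat_lit 380) (nat_lit 223123738946) (nat_lit 35) (nat_lit 5) (nat_lit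 39) (nat_lit 5) (nat_lit 40) (nat_lit 5) (nat_lit 377) (nat_lit 372) (nat_lit 271)) (XT.nd (nat_lit 78) (nat_lit 152) (nat_lit 0) (XT.lf (nat_lit 0) (nat_lit 380515881041) (nat_lit 380) (nat_lit 102042357165) (nat_lit 76) (nat_lit 73587383175) (nat_lit 35) (nat_lit 5) (nat_lit 40) (nat_lit 5) (nat_lit 36) (nat_lit 5) (nat_lit 378) (nat_lit 372) (nat_lit 270)) (XT.lf (nat_lit 0) (nat_lit 230562575235) (nat_lit 152) (nat_lit 270303339757) (nat_lit 228) (nat_lit 101446762961) (nat_lit 33) (nat_lit 5) (nat_lit 35) (nat_lit 5) (nat_lit 36) (nat_lit 5) (nat_lit 379) (nat_lit 372) (nat_lit 269))))) (XT.nd (nat_lit 234) (nat_lit 228) (nat_lit 0) (XT.nd (nat_lit 78) (nat_lit 304) (nat_lit 0) (XT.lf (nat_lit 0) (nat_lit 624526363779) (nat_lit 152) (nat_lit 20076080016) (nat_lit 228) (nat_lit 10002250770) (nat_lit 33) (nat_lit 5) (nat_lit 35) (nat_lit 5) (nat_lit 36) (nat_lit 5) (nat_lit 380) (nat_lit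 372) (nat_lit 268)) (XT.nd (nat_lit 78) (nat_lit 152) (nat_lit 0) (XT.lf (nat_lit 0) (nat_lit 115049761612) (nat_lit 152) (nat_lit 329772636633) (nat_lit 76) (nat_lit 265072686618) (nat_lit 31) (nat_lit 5) (nat_lit 33) (nat_lit 5) (nat_lit 32) (nat_lit 5) (nat_lit 381) (nat_lit 372) (nat_lit 267)) (XT.lf (nat_lit 0) (nat_lit 88348737195) (nat_lit 152) (nat_lit 175748245802) (nat_lit 228) (nat_lit 508371389008) (nat_lit 29) (nat_lit 5) (nat_lit 31) (nat_lit 5) (nat_lit 32) (nat_lit 5) (nat_lit 382) (nat_lit 372) (nat_lit 266)))) (XT.nd (nat_lit 156) (nat_lit 152) (nat_lit 0) (XT.nd (nat_lit 78) (nat_lit 76) (nat_lit 0) (XT.lf (nat_lit 0) (nat_lit 459095925869) (nat_lit 228) (nat_lit 241948282417) (nat_lit 76) (nat_lit 139844248198) (nat_lit 29) (nat_lit 5) (nat_lit 32) (nat_lit 5) (nat_lit 30) (nat_lit 4) (nat_lit 383) (nat_lit 372) (nat_lit 265)) (XT.lf (nat_lit 0) (nat_lit 283410965218)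 (nat_lit 76) (nat_lit 420038122955) (nat_lit 152) (nat_lit 213106808771) (nat_lit 28) (nat_lit 5) (nat_lit 29) (nat_lit 5) (nat_lit 30) (nat_lit 4) (nat_lit 384) (nat_lit 372) (nat_lit 264))) (XT.nd (nat_lit 78) (nat_lit 152) (nat_lit 0) (XT.lf (nat_lit 0) (nat_lit 914765742334) (nat_lit 76) (nat_lit 82336751300) (nat_lit 152) (nat_lit 4573869526) (nat_lit 28) (nat_lit 5) (nat_lit 29) (nat_lit 5) (nat_lit 30) (nat_lit 4) (nat_lit 385) (nat_lit 372) (nat_lit 263)) (XT.lf (nat_lit 0) (nat_lit 252742237921) (nat_lit 152) (nat_lit 525303890889) (nat_lit 76) (nat_lit 314290784024) (nat_lit 26) (nat_lit 5) (nat_lit 28) (nat_lit 5) (nat_lit 27) (nat_lit 4) (nat_lit 386) (nat_lit 372) (nat_lit 262))))))) (XT.nd (nat_lit 1014) (nat_lit 684) (nat_lit 0) (XT.nd (nat_lit 468) (nat_lit 456) (nat_lit 0) (XT.nd (nat_lit 234) (nat_lit 228) (nat_lit 0) (XT.nd (nat_lit 78) (nat_lit 76) (nat_lit 0) (XT.lf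 (nat_lit 0) (nat_lit 141130089801) (nat_lit 76) (nat_lit 421581455112) (nat_lit 152) (nat_lit 631673720474) (nat_lit 25) (nat_lit 5) (nat_lit 26) (nat_lit 5) (nat_lit 27) (nat_lit 4) (nat_lit 387) (nat_lit 372) (nat_lit 261)) (XT.nd (nat_lit 78) (nat_lit 76) (nat_lit 0) (XT.lf (nat_lit 0) (nat_lit 947460585235) (nat_lit 152) (nat_lit 341881186527) (nat_lit 0) (nat_lit 18156448472) (nat_lit 25) (nat_lit 5) (nat_lit 27) (nat_lit 4) (nat_lit 25) (nat_lit 4) (nat_lit 388) (nat_lit 372) (nat_lit 260)) (XT.lf (nat_lit 0) (nat_lit 500699266712) (nat_lit 76) (nat_lit 930030890647) (nat_lit 76) (nat_lit 726734591) (nat_lit 24) (nat_lit 4) (nat_lit 25) (nat_lit 5) (nat_lit 25) (nat_lit 4) (nat_lit 389) (nat_lit 372) (nat_lit 259)))) (XT.nd (nat_lit 78) (nat_lit 152) (nat_lit 0) (XT.lf (nat_lit 0) (nat_lit 394480952340) (nat_lit 152) (nat_lit 81170125300) (nat_lit 76) (nat_lit 1092987987527) (nat_lit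 23) (nat_lit 5) (nat_lit 25) (nat_lit 5) (nat_lit 24) (nat_lit 4) (nat_lit 390) (nat_lit 372) (nat_lit 258)) (XT.nd (nat_lit 78) (nat_lit 76) (nat_lit 0) (XT.lf (nat_lit 0) (nat_lit 893496591533) (nat_lit 152) (nat_lit 740800607648) (nat_lit 0) (nat_lit 85405993776) (nat_lit 22) (nat_lit 5) (nat_lit 24) (nat_lit 4) (nat_lit 22) (nat_lit 4) (nat_lit 391) (nat_lit 372) (nat_lit 257)) (XT.lf (nat_lit 0) (nat_lit 319950170320) (nat_lit 76) (nat_lit 1187757925269) (nat_lit 76) (nat_lit 379667316482) (nat_lit 21) (nat_lit 4) (nat_lit 22) (nat_lit 5) (nat_lit 22) (nat_lit 4) (nat_lit 392) (nat_lit 372) (nat_lit 256))))) (XT.nd (nat_lit 234) (nat_lit 304) (nat_lit 0) (XT.nd (nat_lit 78) (nat_lit 76) (nat_lit 0) (XT.lf (nat_lit 0) (nat_lit 162503989097) (nat_lit 152) (nat_lit 458707041819) (nat_lit 76) (nat_lit 1452070903626) (nat_lit 20) (nat_lit 5) (nat_lit 22) (nat_lit 5) (nat_lit 21) (nat_lit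 4) (nat_lit 393) (nat_lit 372) (nat_lit 255)) (XT.nd (nat_lit 78) (nat_lit 0) (nat_lit 0) (XT.lf (nat_lit 0) (nat_lit 787257999680) (nat_lit 152) (nat_lit 1406514871524) (nat_lit 0) (nat_lit 84570498184) (nat_lit 19) (nat_lit 5) (nat_lit 21) (nat_lit 4) (nat_lit 19) (nat_lit 4) (nat_lit 394) (nat_lit 372) (nat_lit 254)) (XT.lf (nat_lit 0) (nat_lit 1560426246176) (nat_lit 152) (nat_lit 87793864765) (nat_lit 0) (nat_lit 857738738373) (nat_lit 19) (nat_lit 5) (nat_lit 21) (nat_lit 4) (nat_lit 19) (nat_lit 4) (nat_lit 395) (nat_lit 372) (nat_lit 253)))) (XT.nd (nat_lit 156) (nat_lit 76) (nat_lit 0) (XT.nd (nat_lit 78) (nat_lit 152) (nat_lit 0) (XT.lf (nat_lit 0) (nat_lit 1568361668464) (nat_lit 76) (nat_lit 946150560572) (nat_lit 76) (nat_lit 243463047285) (nat_lit 18) (nat_lit 4) (nat_lit 19) (nat_lit 5) (nat_lit 19) (nat_lit 4) (nat_lit 396) (nat_lit 372) (nat_lit 252)) (XT.lf (nat_lit 0)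 (nat_lit 452409000654) (nat_lit 76) (nat_lit 84845194094) (nat_lit 152) (nat_lit 2503506227152) (nat_lit 16) (nat_lit 5) (nat_lit 17) (nat_lit 5) (nat_lit 18) (nat_lit 4) (nat_lit 397) (nat_lit 372) (nat_lit 251))) (XT.nd (nat_lit 78) (nat_lit 76) (nat_lit 0) (XT.lf (nat_lit 0) (nat_lit 1512799821672) (nat_lit 152) (nat_lit 934260285624) (nat_lit 0) (nat_lit 901767193670) (nat_lit 16) (nat_lit 5) (nat_lit 18) (nat_lit 4) (nat_lit 16) (nat_lit 4) (nat_lit 398) (nat_lit 372) (nat_lit 250)) (XT.lf (nat_lit 0) (nat_lit 1058103984088) (nat_lit 76) (nat_lit 1624427374522) (nat_lit 76) (nat_lit 1013394743384) (nat_lit 15) (nat_lit 4) (nat_lit 16) (nat_lit 5) (nat_lit 16) (nat_lit 4) (nat_lit 399) (nat_lit 372) (nat_lit 249)))))) (XT.nd (nat_lit 468) (nat_lit 304) (nat_lit 0) (XT.nd (nat_lit 234) (nat_lit 228) (nat_lit 0) (XT.nd (nat_lit 78) (nat_lit 152) (nat_lit 0) (XT.lf (nat_lit 0) (nat_lit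 3454320988982) (nat_lit 76) (nat_lit 622237959826) (nat_lit 76) (nat_lit 11205325962) (nat_lit 15) (nat_lit 4) (nat_lit 16) (nat_lit 5) (nat_lit 16) (nat_lit 4) (nat_lit 400) (nat_lit 372) (nat_lit 248)) (XT.nd (nat_lit 78) (nat_lit 0) (nat_lit 0) (XT.lf (nat_lit 0) (nat_lit 1141262357027) (nat_lit 152) (nat_lit 2764863681374) (nat_lit 0) (nat_lit 609929629865) (nat_lit 13) (nat_lit 5) (nat_lit 15) (nat_lit 4) (nat_lit 13) (nat_lit 4) (nat_lit 401) (nat_lit 372) (nat_lit 247)) (XT.lf (nat_lit 0) (nat_lit 2529771911039) (nat_lit 152) (nat_lit 470651800043) (nat_lit 0) (nat_lit 1998439182085) (nat_lit 13) (nat_lit 5) (nat_lit 15) (nat_lit 4) (nat_lit 13) (nat_lit 4) (nat_lit 402) (nat_lit 372) (nat_lit 246)))) (XT.nd (nat_lit 78) (nat_lit 152) (nat_lit 0) (XT.lf (nat_lit 0) (nat_lit 2379534458661) (nat_lit 76) (nat_lit 1845554878873) (nat_lit 76) (nat_lit 1314222148360) (nat_lit 12) (nat_lit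 4) (nat_lit 13) (nat_lit 5) (nat_lit 13) (nat_lit 4) (nat_lit 403) (nat_lit 372) (nat_lit 245)) (XT.nd (nat_lit 78) (nat_lit 76) (nat_lit 0) (XT.lf (nat_lit 0) (nat_lit 38415363927) (nat_lit 152) (nat_lit 448739699424) (nat_lit 76) (nat_lit 5669720044437) (nat_lit 11) (nat_lit 5) (nat_lit 13) (nat_lit 5) (nat_lit 12) (nat_lit 4) (nat_lit 404) (nat_lit 372) (nat_lit 244)) (XT.lf (nat_lit 0) (nat_lit 1631003843766) (nat_lit 152) (nat_lit 4031965749508) (nat_lit 0) (nat_lit 1168975380247) (nat_lit 10) (nat_lit 5) (nat_lit 12) (nat_lit 4) (nat_lit 10) (nat_lit 4) (nat_lit 405) (nat_lit 372) (nat_lit 243))))) (XT.nd (nat_lit 234) (nat_lit 228) (nat_lit 0) (XT.nd (nat_lit 78) (nat_lit 76) (nat_lit 0) (XT.lf (nat_lit 0) (nat_lit 3510252289356) (nat_lit 152) (nat_lit 1042633450747) (nat_lit 0) (nat_lit 3048223824945) (nat_lit 10) (nat_lit 5) (nat_lit 12) (nat_lit 4) (nat_lit 10) (nat_lit 4) (nat_lit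 406) (nat_lit 372) (nat_lit 242)) (XT.nd (nat_lit 78) (nat_lit 0) (nat_lit 0) (XT.lf (nat_lit 0) (nat_lit 2629165141762) (nat_lit 76) (nat_lit 3151090975689) (nat_lit 76) (nat_lit 2689062510503) (nat_lit 9) (nat_lit 4) (nat_lit 10) (nat_lit 5) (nat_lit 10) (nat_lit 4) (nat_lit 407) (nat_lit 372) (nat_lit 241)) (XT.lf (nat_lit 0) (nat_lit 6968911292909) (nat_lit 76) (nat_lit 1476350515012) (nat_lit 76) (nat_lit 1014322049152) (nat_lit 9) (nat_lit 4) (nat_lit 10) (nat_lit 5) (nat_lit 10) (nat_lit 4) (nat_lit 408) (nat_lit 372) (nat_lit 240)))) (XT.nd (nat_lit 156) (nat_lit 76) (nat_lit 0) (XT.nd (nat_lit 78) (nat_lit 0) (nat_lit 0) (XT.lf (nat_lit 0) (nat_lit 913907433889) (nat_lit 152) (nat_lit 9154159964788) (nat_lit 0) (nat_lit 512143550023) (nat_lit 7) (nat_lit 5) (nat_lit 9) (nat_lit 4) (nat_lit 7) (nat_lit 4) (nat_lit 409) (nat_lit 372) (nat_lit 239)) (XT.lf (nat_lit 0) (nat_lit 3234220455883)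 (nat_lit 152) (nat_lit 5764005463037) (nat_lit 0) (nat_lit 2832456571574) (nat_lit 7) (nat_lit 5) (nat_lit 9) (nat_lit 4) (nat_lit 7) (nat_lit 4) (nat_lit 410) (nat_lit 372) (nat_lit 238))) (XT.nd (nat_lit 78) (nat_lit 76) (nat_lit 0) (XT.lf (nat_lit 0) (nat_lit 5902580426549) (nat_lit 152) (nat_lit 1865327795846) (nat_lit 0) (nat_lit 5500816541855) (nat_lit 7) (nat_lit 5) (nat_lit 9) (nat_lit 4) (nat_lit 7) (nat_lit 4) (nat_lit 411) (nat_lit 372) (nat_lit 237)) (XT.lf (nat_lit 0) (nat_lit 2874016319823) (nat_lit 76) (nat_lit 6216184955918) (nat_lit 76) (nat_lit 5814421070889) (nat_lit 6) (nat_lit 4) (nat_lit 7) (nat_lit 5) (nat_lit 7) (nat_lit 4) (nat_lit 412) (nat_lit 372) (nat_lit 236))))))))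
noncomputable def xc98 : XT := (XT.nd (nat_lit 50934) (nat_lit 0) (nat_lit 304) (XT.nd (nat_lit 936) (nat_lit 0) (nat_lit 0) (XT.nd (nat_lit 468) (nat_lit 76) (nat_lit 0) (XT.nd (nat_lit 234) (nat_lit 0) (nat_lit 0) (XT.nd (nat_lit 78) (nat_lit 152) (nat_lit 0) (XT.lf (nat_lit 0) (nat_lit 8533899452654) (nat_lit 76) (nat_lit 4319571566969) (nat_lit 76) (nat_lit 3917807681648) (nat_lit 6) (nat_lit 4) (nat_lit 7) (nat_lit 5) (nat_lit 7) (nat_lit 4) (nat_lit 413) (nat_lit 372) (nat_lit 235)) (XT.nd (nat_lit 78) (nat_lit 152) (nat_lit 0) (XT.lf (nat_lit 0) (nat_lit 15042765048320) (nat_lit 76) (nat_lit 2138466173431) (nat_lit 76) (nat_lit 1736702287857) (nat_lit 6) (nat_lit 4) (nat_lit 7) (nat_lit 5) (nat_lit 7) (nat_lit 4) (nat_lit 414) (nat_lit 372) (nat_lit 234)) (XT.lf (nat_lit 0) (nat_lit 772542489056) (nat_lit 152) (nat_lit 20175619512112) (nat_lit 0) (nat_lit 423182588365) (nat_lit 4)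 (nat_lit 5) (nat_lit 6) (nat_lit 4) (nat_lit 4) (nat_lit 4) (nat_lit 415) (nat_lit 372) (nat_lit 233)))) (XT.nd (nat_lit 78) (nat_lit 0) (nat_lit 0) (XT.lf (nat_lit 0) (nat_lit 3794412073999) (nat_lit 152) (nat_lit 16893791569107) (nat_lit 0) (nat_lit 3445052173141) (nat_lit 4) (nat_lit 5) (nat_lit 6) (nat_lit 4) (nat_lit 4) (nat_lit 4) (nat_lit 416) (nat_lit 372) (nat_lit 232)) (XT.nd (nat_lit 78) (nat_lit 0) (nat_lit 0) (XT.lf (nat_lit 0) (nat_lit 7269562094045) (nat_lit 152) (nat_lit 13119689440275) (nat_lit 0) (nat_lit 6920202193043) (nat_lit 4) (nat_lit 5) (nat_lit 6) (nat_lit 4) (nat_lit 4) (nat_lit 4) (nat_lit 417) (nat_lit 372) (nat_lit 231)) (XT.lf (nat_lit 0) (nat_lit 11265984614805) (nat_lit 152) (nat_lit 8779471997009) (nat_lit 0) (nat_lit 10916624713677) (nat_lit 4) (nat_lit 5) (nat_lit 6) (nat_lit 4) (nat_lit 4) (nat_lit 4) (nat_lit 418) (nat_lit 372) (nat_lit 230))))) (XT.nd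 (nat_lit 234) (nat_lit 0) (nat_lit 0) (XT.nd (nat_lit 78) (nat_lit 76) (nat_lit 0) (XT.lf (nat_lit 0) (nat_lit 15861870511685) (nat_lit 152) (nat_lit 3788221941506) (nat_lit 0) (nat_lit 15512510610447) (nat_lit 4) (nat_lit 5) (nat_lit 6) (nat_lit 4) (nat_lit 4) (nat_lit 4) (nat_lit 419) (nat_lit 372) (nat_lit 229)) (XT.nd (nat_lit 78) (nat_lit 0) (nat_lit 0) (XT.lf (nat_lit 0) (nat_lit 2142451463172) (nat_lit 76) (nat_lit 19093402174492) (nat_lit 76) (nat_lit 18744042273158) (nat_lit 3) (nat_lit 4) (nat_lit 4) (nat_lit 5) (nat_lit 4) (nat_lit 4) (nat_lit 420) (nat_lit 372) (nat_lit 228)) (XT.lf (nat_lit 0) (nat_lit 9388470363676) (nat_lit 76) (nat_lit 18225484559606) (nat_lit 76) (nat_lit 17876124658190) (nat_lit 3) (nat_lit 4) (nat_lit 4) (nat_lit 5) (nat_lit 4) (nat_lit 4) (nat_lit 421) (nat_lit 372) (nat_lit 227)))) (XT.nd (nat_lit 78) (nat_lit 0) (nat_lit 0) (XT.lf (nat_lit 0) (nat_lit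 17721392096186) (nat_lit 76) (nat_lit 17227379304118) (nat_lit 76) (nat_lit 16878019402630) (nat_lit 3) (nat_lit 4) (nat_lit 4) (nat_lit 5) (nat_lit 4) (nat_lit 4) (nat_lit 422) (nat_lit 372) (nat_lit 226)) (XT.nd (nat_lit 78) (nat_lit 0) (nat_lit 0) (XT.lf (nat_lit 0) (nat_lit 27304252085904) (nat_lit 76) (nat_lit 16079558261725) (nat_lit 76) (nat_lit 15730198360174) (nat_lit 3) (nat_lit 4) (nat_lit 4) (nat_lit 5) (nat_lit 4) (nat_lit 4) (nat_lit 423) (nat_lit 372) (nat_lit 225)) (XT.lf (nat_lit 0) (nat_lit 38324541071759) (nat_lit 76) (nat_lit 14759564064207) (nat_lit 76) (nat_lit 14410204162602) (nat_lit 3) (nat_lit 4) (nat_lit 4) (nat_lit 5) (nat_lit 4) (nat_lit 4) (nat_lit 424) (nat_lit 372) (nat_lit 224)))))) (XT.nd (nat_lit 49452) (nat_lit 0) (nat_lit 1976) (XT.nd (nat_lit 49218) (nat_lit 0) (nat_lit 2660) (XT.nd (nat_lit 49062) (nat_lit 0) (nat_lit 2584) (XT.lf (nat_lit 0) (nat_lit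 50997873403474) (nat_lit 76) (nat_lit 13241570738133) (nat_lit 76) (nat_lit 12892210836480) (nat_lit 3) (nat_lit 4) (nat_lit 4) (nat_lit 5) (nat_lit 4) (nat_lit 4) (nat_lit 425) (nat_lit 372) (nat_lit 223)) (XT.nd (nat_lit 78) (nat_lit 0) (nat_lit 0) (XT.lf (nat_lit 0) (nat_lit 58824654314) (nat_lit 380) (nat_lit 72604064117) (nat_lit 380) (nat_lit 72604064117) (nat_lit 37) (nat_lit 3) (nat_lit 42) (nat_lit 3) (nat_lit 42) (nat_lit 5) (nat_lit 373) (nat_lit 373) (nat_lit 274)) (XT.lf (nat_lit 76) (nat_lit 62689777936) (nat_lit 0) (nat_lit 66379442655) (nat_lit 380) (nat_lit 309211829644) (nat_lit 38) (nat_lit 5) (nat_lit 37) (nat_lit 3) (nat_lit 42) (nat_lit 5) (nat_lit 374) (nat_lit 373) (nat_lit 273)))) (XT.nd (nat_lit 78) (nat_lit 0) (nat_lit 0) (XT.lf (nat_lit 0) (nat_lit 156761391424) (nat_lit 304) (nat_lit 160767475439) (nat_lit 380) (nat_lit 153316100501) (nat_lit 38) (nat_lit 5)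 (nat_lit 42) (nat_lit 5) (nat_lit 43) (nat_lit 5) (nat_lit 375) (nat_lit 373) (nat_lit 272)) (XT.nd (nat_lit 78) (nat_lit 0) (nat_lit 76) (XT.lf (nat_lit 76) (nat_lit 91241905282) (nat_lit 0) (nat_lit 104304484285) (nat_lit 380) (nat_lit 311706232268) (nat_lit 39) (nat_lit 5) (nat_lit 38) (nat_lit 5) (nat_lit 43) (nat_lit 5) (nat_lit 376) (nat_lit 373) (nat_lit 271)) (XT.lf (nat_lit 0) (nat_lit 254787535465) (nat_lit 304) (nat_lit 154974841972) (nat_lit 76) (nat_lit 137163287359) (nat_lit 39) (nat_lit 5) (nat_lit 43) (nat_lit 5) (nat_lit 40) (nat_lit 5) (nat_lit 377) (nat_lit 373) (nat_lit 270))))) (XT.nd (nat_lit 234) (nat_lit 304) (nat_lit 0) (XT.nd (nat_lit 78) (nat_lit 152) (nat_lit 0) (XT.lf (nat_lit 0) (nat_lit 153955689161) (nat_lit 304) (nat_lit 180300976797) (nat_lit 380) (nat_lit 256591726356) (nat_lit 35) (nat_lit 5) (nat_lit 39) (nat_lit 5) (nat_lit 40) (nat_lit 5) (nat_lit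 378) (nat_lit 373) (nat_lit 269)) (XT.nd (nat_lit 78) (nat_lit 152) (nat_lit 0) (XT.lf (nat_lit 0) (nat_lit 437593697623) (nat_lit 380) (nat_lit 117348189140) (nat_lit 76) (nat_lit 84625512473) (nat_lit 35) (nat_lit 5) (nat_lit 40) (nat_lit 5) (nat_lit 36) (nat_lit 5) (nat_lit 379) (nat_lit 373) (nat_lit 268)) (XT.lf (nat_lit 0) (nat_lit 265147459411) (nat_lit 152) (nat_lit 310848741208) (nat_lit 228) (nat_lit 116663319107) (nat_lit 33) (nat_lit 5) (nat_lit 35) (nat_lit 5) (nat_lit 36) (nat_lit 5) (nat_lit 380) (nat_lit 373) (nat_lit 267)))) (XT.nd (nat_lit 156) (nat_lit 152) (nat_lit 0) (XT.nd (nat_lit 78) (nat_lit 152) (nat_lit 0) (XT.lf (nat_lit 0) (nat_lit 718205751294) (nat_lit 152) (nat_lit 23087405486) (nat_lit 228) (nat_lit 11502189865) (nat_lit 33) (nat_lit 5) (nat_lit 35) (nat_lit 5) (nat_lit 36) (nat_lit 5) (nat_lit 381) (nat_lit 373) (nat_lit 266)) (XT.lf (nat_lit 0) (nat_lit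 132307564742) (nat_lit 152) (nat_lit 379238039317) (nat_lit 76) (nat_lit 304833692592) (nat_lit 31) (nat_lit 5) (nat_lit 33) (nat_lit 5) (nat_lit 32) (nat_lit 5) (nat_lit 382) (nat_lit 373) (nat_lit 265))) (XT.nd (nat_lit 78) (nat_lit 0) (nat_lit 0) (XT.lf (nat_lit 0) (nat_lit 101601518184) (nat_lit 152) (nat_lit 202110326426) (nat_lit 228) (nat_lit 584626735976) (nat_lit 29) (nat_lit 5) (nat_lit 31) (nat_lit 5) (nat_lit 32) (nat_lit 5) (nat_lit 383) (nat_lit 373) (nat_lit 264)) (XT.lf (nat_lit 0) (nat_lit 527960593562) (nat_lit 228) (nat_lit 278240080294) (nat_lit 76) (nat_lit 160821009198) (nat_lit 29) (nat_lit 5) (nat_lit 32) (nat_lit 5) (nat_lit 30) (nat_lit 4) (nat_lit 384) (nat_lit 373) (nat_lit 263))))))) (XT.nd (nat_lit 1014) (nat_lit 836) (nat_lit 0) (XT.nd (nat_lit 468) (nat_lit 456) (nat_lit 0) (XT.nd (nat_lit 234) (nat_lit 152) (nat_lit 0) (XT.nd (nat_lit 78) (nat_lit 152) (nat_lit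 0) (XT.lf (nat_lit 0) (nat_lit 325923034283) (nat_lit 76) (nat_lit 483043677130) (nat_lit 152) (nat_lit 245072531000) (nat_lit 28) (nat_lit 5) (nat_lit 29) (nat_lit 5) (nat_lit 30) (nat_lit 4) (nat_lit 385) (nat_lit 373) (nat_lit 262)) (XT.nd (nat_lit 78) (nat_lit 152) (nat_lit 0) (XT.lf (nat_lit 0) (nat_lit 1051980972625) (nat_lit 76) (nat_lit 94687121153) (nat_lit 152) (nat_lit 5259689879) (nat_lit 28) (nat_lit 5) (nat_lit 29) (nat_lit 5) (nat_lit 30) (nat_lit 4) (nat_lit 386) (nat_lit 373) (nat_lit 261)) (XT.lf (nat_lit 0) (nat_lit 290653801456) (nat_lit 152) (nat_lit 604099073253) (nat_lit 76) (nat_lit 361434540828) (nat_lit 26) (nat_lit 5) (nat_lit 28) (nat_lit 5) (nat_lit 27) (nat_lit 4) (nat_lit 387) (nat_lit 373) (nat_lit 260)))) (XT.nd (nat_lit 78) (nat_lit 76) (nat_lit 0) (XT.lf (nat_lit 0) (nat_lit 162299986301) (nat_lit 76) (nat_lit 484818504336) (nat_lit 152) (nat_lit 726424532419)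 (nat_lit 25) (nat_lit 5) (nat_lit 26) (nat_lit 5) (nat_lit 27) (nat_lit 4) (nat_lit 388) (nat_lit 373) (nat_lit 259)) (XT.nd (nat_lit 78) (nat_lit 76) (nat_lit 0) (XT.lf (nat_lit 0) (nat_lit 1089579865184) (nat_lit 152) (nat_lit 393163009576) (nat_lit 0) (nat_lit 20880049650) (nat_lit 25) (nat_lit 5) (nat_lit 27) (nat_lit 4) (nat_lit 25) (nat_lit 4) (nat_lit 389) (nat_lit 373) (nat_lit 258)) (XT.lf (nat_lit 0) (nat_lit 575804495516) (nat_lit 76) (nat_lit 1069535366574) (nat_lit 76) (nat_lit 835536453) (nat_lit 24) (nat_lit 4) (nat_lit 25) (nat_lit 5) (nat_lit 25) (nat_lit 4) (nat_lit 390) (nat_lit 373) (nat_lit 257))))) (XT.nd (nat_lit 234) (nat_lit 228) (nat_lit 0) (XT.nd (nat_lit 78) (nat_lit 152) (nat_lit 0) (XT.lf (nat_lit 0) (nat_lit 453653260217) (nat_lit 152) (nat_lit 93345333339) (nat_lit 76) (nat_lit 1256936306609) (nat_lit 23) (nat_lit 5) (nat_lit 25) (nat_lit 5) (nat_lit 24)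 (nat_lit 4) (nat_lit 391) (nat_lit 373) (nat_lit 256)) (XT.nd (nat_lit 78) (nat_lit 76) (nat_lit 0) (XT.lf (nat_lit 0) (nat_lit 1027521241880) (nat_lit 152) (nat_lit 851920384608) (nat_lit 0) (nat_lit 98217021151) (nat_lit 22) (nat_lit 5) (nat_lit 24) (nat_lit 4) (nat_lit 22) (nat_lit 4) (nat_lit 392) (nat_lit 373) (nat_lit 255)) (XT.lf (nat_lit 0) (nat_lit 367942995774) (nat_lit 76) (nat_lit 1365921467109) (nat_lit 76) (nat_lit 436617238039) (nat_lit 21) (nat_lit 4) (nat_lit 22) (nat_lit 5) (nat_lit 22) (nat_lit 4) (nat_lit 393) (nat_lit 373) (nat_lit 254)))) (XT.nd (nat_lit 156) (nat_lit 76) (nat_lit 0) (XT.nd (nat_lit 78) (nat_lit 76) (nat_lit 0) (XT.lf (nat_lit 0) (nat_lit 186879726813) (nat_lit 152) (nat_lit 527512823672) (nat_lit 76) (nat_lit 1669881653322) (nat_lit 20) (nat_lit 5) (nat_lit 22) (nat_lit 5) (nat_lit 21) (nat_lit 4) (nat_lit 394) (nat_lit 373) (nat_lit 253)) (XT.lf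 (nat_lit 0) (nat_lit 905346837033) (nat_lit 152) (nat_lit 1617491825872) (nat_lit 0) (nat_lit 97256191269) (nat_lit 19) (nat_lit 5) (nat_lit 21) (nat_lit 4) (nat_lit 19) (nat_lit 4) (nat_lit 395) (nat_lit 373) (nat_lit 252))) (XT.nd (nat_lit 78) (nat_lit 76) (nat_lit 0) (XT.lf (nat_lit 0) (nat_lit 1794490302582) (nat_lit 152) (nat_lit 100962704150) (nat_lit 0) (nat_lit 986399652049) (nat_lit 19) (nat_lit 5) (nat_lit 21) (nat_lit 4) (nat_lit 19) (nat_lit 4) (nat_lit 396) (nat_lit 373) (nat_lit 251)) (XT.lf (nat_lit 0) (nat_lit 1803616148140) (nat_lit 76) (nat_lit 1088073028646) (nat_lit 76) (nat_lit 279982373966) (nat_lit 18) (nat_lit 4) (nat_lit 19) (nat_lit 5) (nat_lit 19) (nat_lit 4) (nat_lit 397) (nat_lit 373) (nat_lit 250)))))) (XT.nd (nat_lit 468) (nat_lit 456) (nat_lit 0) (XT.nd (nat_lit 234) (nat_lit 152) (nat_lit 0) (XT.nd (nat_lit 78) (nat_lit 76) (nat_lit 0) (XT.lf (nat_lit 0)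 (nat_lit 520270580821) (nat_lit 76) (nat_lit 97571855972) (nat_lit 152) (nat_lit 2879032031461) (nat_lit 16) (nat_lit 5) (nat_lit 17) (nat_lit 5) (nat_lit 18) (nat_lit 4) (nat_lit 398) (nat_lit 373) (nat_lit 249)) (XT.nd (nat_lit 78) (nat_lit 76) (nat_lit 0) (XT.lf (nat_lit 0) (nat_lit 1739719897259) (nat_lit 152) (nat_lit 1074399117906) (nat_lit 0) (nat_lit 1037032365589) (nat_lit 16) (nat_lit 5) (nat_lit 18) (nat_lit 4) (nat_lit 16) (nat_lit 4) (nat_lit 399) (nat_lit 373) (nat_lit 248)) (XT.lf (nat_lit 0) (nat_lit 1216819782692) (nat_lit 76) (nat_lit 1868091377021) (nat_lit 76) (nat_lit 1165403842979) (nat_lit 15) (nat_lit 4) (nat_lit 16) (nat_lit 5) (nat_lit 16) (nat_lit 4) (nat_lit 400) (nat_lit 373) (nat_lit 247)))) (XT.nd (nat_lit 78) (nat_lit 152) (nat_lit 0) (XT.lf (nat_lit 0) (nat_lit 3972469312104) (nat_lit 76) (nat_lit 715573563644) (nat_lit 76) (nat_lit 12886027541) (nat_lit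 15) (nat_lit 4) (nat_lit 16) (nat_lit 5) (nat_lit 16) (nat_lit 4) (nat_lit 401) (nat_lit 373) (nat_lit 246)) (XT.nd (nat_lit 78) (nat_lit 0) (nat_lit 0) (XT.lf (nat_lit 0) (nat_lit 1312451798678) (nat_lit 152) (nat_lit 3179593049581) (nat_lit 0) (nat_lit 701419157029) (nat_lit 13) (nat_lit 5) (nat_lit 15) (nat_lit 4) (nat_lit 13) (nat_lit 4) (nat_lit 402) (nat_lit 373) (nat_lit 245)) (XT.lf (nat_lit 0) (nat_lit 2909237774301) (nat_lit 152) (nat_lit 541249410050) (nat_lit 0) (nat_lit 2298205131297) (nat_lit 13) (nat_lit 5) (nat_lit 15) (nat_lit 4) (nat_lit 13) (nat_lit 4) (nat_lit 403) (nat_lit 373) (nat_lit 244))))) (XT.nd (nat_lit 234) (nat_lit 228) (nat_lit 0) (XT.nd (nat_lit 78) (nat_lit 152) (nat_lit 0) (XT.lf (nat_lit 0) (nat_lit 2736464780187) (nat_lit 76) (nat_lit 2122388030916) (nat_lit 76) (nat_lit 1511355386733) (nat_lit 12) (nat_lit 4) (nat_lit 13) (nat_lit 5) (nat_lit 13) (nat_lit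 4) (nat_lit 404) (nat_lit 373) (nat_lit 243)) (XT.nd (nat_lit 78) (nat_lit 76) (nat_lit 0) (XT.lf (nat_lit 0) (nat_lit 44177734963) (nat_lit 152) (nat_lit 516050515036) (nat_lit 76) (nat_lit 6520178113988) (nat_lit 11) (nat_lit 5) (nat_lit 13) (nat_lit 5) (nat_lit 12) (nat_lit 4) (nat_lit 405) (nat_lit 373) (nat_lit 242)) (XT.lf (nat_lit 0) (nat_lit 1875654486502) (nat_lit 152) (nat_lit 4636760472356) (nat_lit 0) (nat_lit 1344321750763) (nat_lit 10) (nat_lit 5) (nat_lit 12) (nat_lit 4) (nat_lit 10) (nat_lit 4) (nat_lit 406) (nat_lit 373) (nat_lit 241)))) (XT.nd (nat_lit 156) (nat_lit 152) (nat_lit 0) (XT.nd (nat_lit 78) (nat_lit 76) (nat_lit 0) (XT.lf (nat_lit 0) (nat_lit 4036790190300) (nat_lit 152) (nat_lit 1199028346986) (nat_lit 0) (nat_lit 3505457453887) (nat_lit 10) (nat_lit 5) (nat_lit 12) (nat_lit 4) (nat_lit 10) (nat_lit 4) (nat_lit 407) (nat_lit 373) (nat_lit 240)) (XT.lf (nat_lit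 0) (nat_lit 3023540028882) (nat_lit 76) (nat_lit 3623754561019) (nat_lit 76) (nat_lit 3092421824020) (nat_lit 9) (nat_lit 4) (nat_lit 10) (nat_lit 5) (nat_lit 10) (nat_lit 4) (nat_lit 408) (nat_lit 373) (nat_lit 239))) (XT.nd (nat_lit 78) (nat_lit 152) (nat_lit 0) (XT.lf (nat_lit 0) (nat_lit 8014248087589) (nat_lit 76) (nat_lit 1697803039200) (nat_lit 76) (nat_lit 1166470301691) (nat_lit 9) (nat_lit 4) (nat_lit 10) (nat_lit 5) (nat_lit 10) (nat_lit 4) (nat_lit 409) (nat_lit 373) (nat_lit 238)) (XT.lf (nat_lit 0) (nat_lit 1050993598788) (nat_lit 152) (nat_lit 10527283853741) (nat_lit 0) (nat_lit 588965131004) (nat_lit 7) (nat_lit 5) (nat_lit 9) (nat_lit 4) (nat_lit 7) (nat_lit 4) (nat_lit 410) (nat_lit 373) (nat_lit 237))))))))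
noncomputable def xc99 : XT := (XT.nd (nat_lit 51090) (nat_lit 0) (nat_lit 456) (XT.nd (nat_lit 1014) (nat_lit 0) (nat_lit 0) (XT.nd (nat_lit 468) (nat_lit 76) (nat_lit 0) (XT.nd (nat_lit 234) (nat_lit 152) (nat_lit 0) (XT.nd (nat_lit 78) (nat_lit 76) (nat_lit 0) (XT.lf (nat_lit 0) (nat_lit 3719353567583) (nat_lit 152) (nat_lit 6628606190523) (nat_lit 0) (nat_lit 3257325099464) (nat_lit 7) (nat_lit 5) (nat_lit 9) (nat_lit 4) (nat_lit 7) (nat_lit 4) (nat_lit 411) (nat_lit 373) (nat_lit 236)) (XT.nd (nat_lit 78) (nat_lit 76) (nat_lit 0) (XT.lf (nat_lit 0) (nat_lit 6787967528199) (nat_lit 152) (nat_lit 2145126885249) (nat_lit 0) (nat_lit 6325939059788) (nat_lit 7) (nat_lit 5) (nat_lit 9) (nat_lit 4) (nat_lit 7) (nat_lit 4) (nat_lit 412) (nat_lit 373) (nat_lit 235)) (XT.lf (nat_lit 0) (nat_lit 3305118844134) (nat_lit 76) (nat_lit 7148612658883) (nat_lit 76) (nat_lit 6686584190219) (nat_lit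 6) (nat_lit 4) (nat_lit 7) (nat_lit 5) (nat_lit 7) (nat_lit 4) (nat_lit 413) (nat_lit 373) (nat_lit 234)))) (XT.nd (nat_lit 78) (nat_lit 152) (nat_lit 0) (XT.lf (nat_lit 0) (nat_lit 9813984436933) (nat_lit 76) (nat_lit 4967507266864) (nat_lit 76) (nat_lit 4505478797980) (nat_lit 6) (nat_lit 4) (nat_lit 7) (nat_lit 5) (nat_lit 7) (nat_lit 4) (nat_lit 414) (nat_lit 373) (nat_lit 233)) (XT.nd (nat_lit 78) (nat_lit 152) (nat_lit 0) (XT.lf (nat_lit 0) (nat_lit 17299179863291) (nat_lit 76) (nat_lit 2459236068880) (nat_lit 76) (nat_lit 1997207599804) (nat_lit 6) (nat_lit 4) (nat_lit 7) (nat_lit 5) (nat_lit 7) (nat_lit 4) (nat_lit 415) (nat_lit 373) (nat_lit 232)) (XT.lf (nat_lit 0) (nat_lit 888423890814) (nat_lit 152) (nat_lit 23201962378374) (nat_lit 0) (nat_lit 486660004516) (nat_lit 4) (nat_lit 5) (nat_lit 6) (nat_lit 4) (nat_lit 4) (nat_lit 4) (nat_lit 416) (nat_lit 373) (nat_lit 231)))))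 (XT.nd (nat_lit 234) (nat_lit 76) (nat_lit 0) (XT.nd (nat_lit 78) (nat_lit 0) (nat_lit 0) (XT.lf (nat_lit 0) (nat_lit 4363573909794) (nat_lit 152) (nat_lit 19427860251817) (nat_lit 0) (nat_lit 3961810023370) (nat_lit 4) (nat_lit 5) (nat_lit 6) (nat_lit 4) (nat_lit 4) (nat_lit 4) (nat_lit 417) (nat_lit 373) (nat_lit 230)) (XT.nd (nat_lit 78) (nat_lit 0) (nat_lit 0) (XT.lf (nat_lit 0) (nat_lit 8359996429626) (nat_lit 152) (nat_lit 15087642810529) (nat_lit 0) (nat_lit 7958232543093) (nat_lit 4) (nat_lit 5) (nat_lit 6) (nat_lit 4) (nat_lit 4) (nat_lit 4) (nat_lit 418) (nat_lit 373) (nat_lit 229)) (XT.lf (nat_lit 0) (nat_lit 12955882325699) (nat_lit 152) (nat_lit 10096392756745) (nat_lit 0) (nat_lit 12554118439071) (nat_lit 4) (nat_lit 5) (nat_lit 6) (nat_lit 4) (nat_lit 4) (nat_lit 4) (nat_lit 419) (nat_lit 373) (nat_lit 228)))) (XT.nd (nat_lit 156) (nat_lit 0) (nat_lit 0) (XT.nd (nat_lit 78)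 (nat_lit 76) (nat_lit 0) (XT.lf (nat_lit 0) (nat_lit 18241151104675) (nat_lit 152) (nat_lit 4356455198109) (nat_lit 0) (nat_lit 17839387217964) (nat_lit 4) (nat_lit 5) (nat_lit 6) (nat_lit 4) (nat_lit 4) (nat_lit 4) (nat_lit 420) (nat_lit 373) (nat_lit 227)) (XT.lf (nat_lit 0) (nat_lit 2463819215696) (nat_lit 76) (nat_lit 21957412483104) (nat_lit 76) (nat_lit 21555648596321) (nat_lit 3) (nat_lit 4) (nat_lit 4) (nat_lit 5) (nat_lit 4) (nat_lit 4) (nat_lit 421) (nat_lit 373) (nat_lit 226))) (XT.nd (nat_lit 78) (nat_lit 0) (nat_lit 0) (XT.lf (nat_lit 0) (nat_lit 10796740946965) (nat_lit 76) (nat_lit 20959307228276) (nat_lit 76) (nat_lit 20557543341430) (nat_lit 3) (nat_lit 4) (nat_lit 4) (nat_lit 5) (nat_lit 4) (nat_lit 4) (nat_lit 422) (nat_lit 373) (nat_lit 225)) (XT.lf (nat_lit 0) (nat_lit 20379600935604) (nat_lit 76) (nat_lit 19811486186457) (nat_lit 76) (nat_lit 19409722299557) (nat_lit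 3) (nat_lit 4) (nat_lit 4) (nat_lit 5) (nat_lit 4) (nat_lit 4) (nat_lit 423) (nat_lit 373) (nat_lit 224)))))) (XT.nd (nat_lit 49530) (nat_lit 0) (nat_lit 1976) (XT.nd (nat_lit 49296) (nat_lit 0) (nat_lit 2584) (XT.nd (nat_lit 78) (nat_lit 0) (nat_lit 0) (XT.lf (nat_lit 0) (nat_lit 31399889920520) (nat_lit 76) (nat_lit 18491491989437) (nat_lit 76) (nat_lit 18089728102490) (nat_lit 3) (nat_lit 4) (nat_lit 4) (nat_lit 5) (nat_lit 4) (nat_lit 4) (nat_lit 424) (nat_lit 373) (nat_lit 223)) (XT.nd (nat_lit 49140) (nat_lit 0) (nat_lit 2584) (XT.lf (nat_lit 0) (nat_lit 44073222251418) (nat_lit 76) (nat_lit 16973498663797) (nat_lit 76) (nat_lit 16571734776808) (nat_lit 3) (nat_lit 4) (nat_lit 4) (nat_lit 5) (nat_lit 4) (nat_lit 4) (nat_lit 425) (nat_lit 373) (nat_lit 222)) (XT.lf (nat_lit 0) (nat_lit 67648701195) (nat_lit 380) (nat_lit 83494473130) (nat_lit 380) (nat_lit 83494473130) (nat_lit 37)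 (nat_lit 3) (nat_lit 42) (nat_lit 3) (nat_lit 42) (nat_lit 5) (nat_lit 374) (nat_lit 374) (nat_lit 272)))) (XT.nd (nat_lit 78) (nat_lit 0) (nat_lit 76) (XT.lf (nat_lit 76) (nat_lit 72093627599) (nat_lit 0) (nat_lit 76336598433) (nat_lit 380) (nat_lit 355592888100) (nat_lit 38) (nat_lit 5) (nat_lit 37) (nat_lit 3) (nat_lit 42) (nat_lit 5) (nat_lit 375) (nat_lit 374) (nat_lit 271)) (XT.nd (nat_lit 78) (nat_lit 0) (nat_lit 0) (XT.lf (nat_lit 0) (nat_lit 180276132694) (nat_lit 304) (nat_lit 184882173691) (nat_lit 380) (nat_lit 176313325951) (nat_lit 38) (nat_lit 5) (nat_lit 42) (nat_lit 5) (nat_lit 43) (nat_lit 5) (nat_lit 376) (nat_lit 374) (nat_lit 270)) (XT.lf (nat_lit 76) (nat_lit 104928594908) (nat_lit 0) (nat_lit 119950232909) (nat_lit 380) (nat_lit 358461615105) (nat_lit 39) (nat_lit 5) (nat_lit 38) (nat_lit 5) (nat_lit 43) (nat_lit 5) (nat_lit 377) (nat_lit 374) (nat_lit 269))))) (XT.nd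 (nat_lit 234) (nat_lit 456) (nat_lit 0) (XT.nd (nat_lit 78) (nat_lit 304) (nat_lit 0) (XT.lf (nat_lit 0) (nat_lit 293006080279) (nat_lit 304) (nat_lit 178220651600) (nat_lit 76) (nat_lit 157737720274) (nat_lit 39) (nat_lit 5) (nat_lit 43) (nat_lit 5) (nat_lit 40) (nat_lit 5) (nat_lit 378) (nat_lit 374) (nat_lit 268)) (XT.nd (nat_lit 78) (nat_lit 0) (nat_lit 0) (XT.lf (nat_lit 0) (nat_lit 177049440264) (nat_lit 304) (nat_lit 207346102486) (nat_lit 380) (nat_lit 295080051712) (nat_lit 35) (nat_lit 5) (nat_lit 39) (nat_lit 5) (nat_lit 40) (nat_lit 5) (nat_lit 379) (nat_lit 374) (nat_lit 267)) (XT.lf (nat_lit 0) (nat_lit 503233080755) (nat_lit 380) (nat_lit 134950023108) (nat_lit 76) (nat_lit 97319355844) (nat_lit 35) (nat_lit 5) (nat_lit 40) (nat_lit 5) (nat_lit 36) (nat_lit 5) (nat_lit 380) (nat_lit 374) (nat_lit 266)))) (XT.nd (nat_lit 156) (nat_lit 304) (nat_lit 0) (XT.nd (nat_lit 78) (nat_lit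 0) (nat_lit 0) (XT.lf (nat_lit 0) (nat_lit 304919954799) (nat_lit 152) (nat_lit 357475977144) (nat_lit 228) (nat_lit 134162470433) (nat_lit 33) (nat_lit 5) (nat_lit 35) (nat_lit 5) (nat_lit 36) (nat_lit 5) (nat_lit 381) (nat_lit 374) (nat_lit 265)) (XT.lf (nat_lit 0) (nat_lit 825936941359) (nat_lit 152) (nat_lit 26550450878) (nat_lit 228) (nat_lit 13227217006) (nat_lit 33) (nat_lit 5) (nat_lit 35) (nat_lit 5) (nat_lit 36) (nat_lit 5) (nat_lit 382) (nat_lit 374) (nat_lit 264))) (XT.nd (nat_lit 78) (nat_lit 152) (nat_lit 0) (XT.lf (nat_lit 0) (nat_lit 152153955702) (nat_lit 152) (nat_lit 436123372579) (nat_lit 76) (nat_lit 350558824350) (nat_lit 31) (nat_lit 5) (nat_lit 33) (nat_lit 5) (nat_lit 32) (nat_lit 5) (nat_lit 383) (nat_lit 374) (nat_lit 263)) (XT.lf (nat_lit 0) (nat_lit 116842101610) (nat_lit 152) (nat_lit 232426757246) (nat_lit 228) (nat_lit 672320473115) (nat_lit 29) (nat_lit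 5) (nat_lit 31) (nat_lit 5) (nat_lit 32) (nat_lit 5) (nat_lit 384) (nat_lit 374) (nat_lit 262))))))) (XT.nd (nat_lit 1014) (nat_lit 760) (nat_lit 0) (XT.nd (nat_lit 468) (nat_lit 456) (nat_lit 0) (XT.nd (nat_lit 234) (nat_lit 228) (nat_lit 0) (XT.nd (nat_lit 78) (nat_lit 76) (nat_lit 0) (XT.lf (nat_lit 0) (nat_lit 607154893418) (nat_lit 228) (nat_lit 319975756243) (nat_lit 76) (nat_lit 184944254166) (nat_lit 29) (nat_lit 5) (nat_lit 32) (nat_lit 5) (nat_lit 30) (nat_lit 4) (nat_lit 385) (nat_lit 374) (nat_lit 261)) (XT.nd (nat_lit 78) (nat_lit 0) (nat_lit 0) (XT.lf (nat_lit 0) (nat_lit 374811810244) (nat_lit 76) (nat_lit 555500104490) (nat_lit 152) (nat_lit 281833184497) (nat_lit 28) (nat_lit 5) (nat_lit 29) (nat_lit 5) (nat_lit 30) (nat_lit 4) (nat_lit 386) (nat_lit 374) (nat_lit 260)) (XT.lf (nat_lit 0) (nat_lit 1209778397491) (nat_lit 76) (nat_lit 108890081318) (nat_lit 152) (nat_lit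 6048446706) (nat_lit 28) (nat_lit 5) (nat_lit 29) (nat_lit 5) (nat_lit 30) (nat_lit 4) (nat_lit 387) (nat_lit 374) (nat_lit 259)))) (XT.nd (nat_lit 78) (nat_lit 76) (nat_lit 0) (XT.lf (nat_lit 0) (nat_lit 334252043959) (nat_lit 152) (nat_lit 694713630823) (nat_lit 76) (nat_lit 415649827208) (nat_lit 26) (nat_lit 5) (nat_lit 28) (nat_lit 5) (nat_lit 27) (nat_lit 4) (nat_lit 388) (nat_lit 374) (nat_lit 258)) (XT.nd (nat_lit 78) (nat_lit 0) (nat_lit 0) (XT.lf (nat_lit 0) (nat_lit 186645273873) (nat_lit 76) (nat_lit 557541152166) (nat_lit 152) (nat_lit 835388026175) (nat_lit 25) (nat_lit 5) (nat_lit 26) (nat_lit 5) (nat_lit 27) (nat_lit 4) (nat_lit 389) (nat_lit 374) (nat_lit 257)) (XT.lf (nat_lit 0) (nat_lit 1253016990264) (nat_lit 152) (nat_lit 452137192634) (nat_lit 0) (nat_lit 24012158351) (nat_lit 25) (nat_lit 5) (nat_lit 27) (nat_lit 4) (nat_lit 25) (nat_lit 4) (nat_lit 390) (nat_lit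 374) (nat_lit 256))))) (XT.nd (nat_lit 234) (nat_lit 228) (nat_lit 0) (XT.nd (nat_lit 78) (nat_lit 152) (nat_lit 0) (XT.lf (nat_lit 0) (nat_lit 662175426022) (nat_lit 76) (nat_lit 1229965552339) (nat_lit 76) (nat_lit 960709396) (nat_lit 24) (nat_lit 4) (nat_lit 25) (nat_lit 5) (nat_lit 25) (nat_lit 4) (nat_lit 391) (nat_lit 374) (nat_lit 255)) (XT.nd (nat_lit 78) (nat_lit 76) (nat_lit 0) (XT.lf (nat_lit 0) (nat_lit 521701374033) (nat_lit 152) (nat_lit 107346898363) (nat_lit 76) (nat_lit 1445476844059) (nat_lit 23) (nat_lit 5) (nat_lit 25) (nat_lit 5) (nat_lit 24) (nat_lit 4) (nat_lit 392) (nat_lit 374) (nat_lit 254)) (XT.lf (nat_lit 0) (nat_lit 1181649550367) (nat_lit 152) (nat_lit 979708204729) (nat_lit 0) (nat_lit 112949671344) (nat_lit 22) (nat_lit 5) (nat_lit 24) (nat_lit 4) (nat_lit 22) (nat_lit 4) (nat_lit 393) (nat_lit 374) (nat_lit 253)))) (XT.nd (nat_lit 156) (nat_lit 76) (nat_lit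 0) (XT.nd (nat_lit 78) (nat_lit 76) (nat_lit 0) (XT.lf (nat_lit 0) (nat_lit 423134671912) (nat_lit 76) (nat_lit 1570809576058) (nat_lit 76) (nat_lit 502109690729) (nat_lit 21) (nat_lit 4) (nat_lit 22) (nat_lit 5) (nat_lit 22) (nat_lit 4) (nat_lit 394) (nat_lit 374) (nat_lit 252)) (XT.lf (nat_lit 0) (nat_lit 214911791204) (nat_lit 152) (nat_lit 606639539723) (nat_lit 76) (nat_lit 1920363987636) (nat_lit 20) (nat_lit 5) (nat_lit 22) (nat_lit 5) (nat_lit 21) (nat_lit 4) (nat_lit 395) (nat_lit 374) (nat_lit 251))) (XT.nd (nat_lit 78) (nat_lit 0) (nat_lit 0) (XT.lf (nat_lit 0) (nat_lit 1041148966484) (nat_lit 152) (nat_lit 1860115390770) (nat_lit 0) (nat_lit 111844709455) (nat_lit 19) (nat_lit 5) (nat_lit 21) (nat_lit 4) (nat_lit 19) (nat_lit 4) (nat_lit 396) (nat_lit 374) (nat_lit 250)) (XT.lf (nat_lit 0) (nat_lit 2063663938312) (nat_lit 152) (nat_lit 116106928048) (nat_lit 0) (nat_lit 1134359677678)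 (nat_lit 19) (nat_lit 5) (nat_lit 21) (nat_lit 4) (nat_lit 19) (nat_lit 4) (nat_lit 397) (nat_lit 374) (nat_lit 249)))))) (XT.nd (nat_lit 468) (nat_lit 304) (nat_lit 0) (XT.nd (nat_lit 234) (nat_lit 228) (nat_lit 0) (XT.nd (nat_lit 78) (nat_lit 152) (nat_lit 0) (XT.lf (nat_lit 0) (nat_lit 2074158743826) (nat_lit 76) (nat_lit 1251283895221) (nat_lit 76) (nat_lit 321979631451) (nat_lit 18) (nat_lit 4) (nat_lit 19) (nat_lit 5) (nat_lit 19) (nat_lit 4) (nat_lit 398) (nat_lit 374) (nat_lit 248)) (XT.nd (nat_lit 78) (nat_lit 0) (nat_lit 0) (XT.lf (nat_lit 0) (nat_lit 598311341909) (nat_lit 76) (nat_lit 112207545721) (nat_lit 152) (nat_lit 3310886738060) (nat_lit 16) (nat_lit 5) (nat_lit 17) (nat_lit 5) (nat_lit 18) (nat_lit 4) (nat_lit 399) (nat_lit 374) (nat_lit 247)) (XT.lf (nat_lit 0) (nat_lit 2000677959230) (nat_lit 152) (nat_lit 1235558826377) (nat_lit 0) (nat_lit 1192587290649) (nat_lit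 16) (nat_lit 5) (nat_lit 18) (nat_lit 4) (nat_lit 16) (nat_lit 4) (nat_lit 400) (nat_lit 374) (nat_lit 246)))) (XT.nd (nat_lit 78) (nat_lit 152) (nat_lit 0) (XT.lf (nat_lit 0) (nat_lit 1399342902073) (nat_lit 76) (nat_lit 2148305005178) (nat_lit 76) (nat_lit 1340214334804) (nat_lit 15) (nat_lit 4) (nat_lit 16) (nat_lit 5) (nat_lit 16) (nat_lit 4) (nat_lit 401) (nat_lit 374) (nat_lit 245)) (XT.nd (nat_lit 78) (nat_lit 152) (nat_lit 0) (XT.lf (nat_lit 0) (nat_lit 4568339841074) (nat_lit 76) (nat_lit 822909530020) (nat_lit 76) (nat_lit 14818858087) (nat_lit 15) (nat_lit 4) (nat_lit 16) (nat_lit 5) (nat_lit 16) (nat_lit 4) (nat_lit 402) (nat_lit 374) (nat_lit 244)) (XT.lf (nat_lit 0) (nat_lit 1509319635094) (nat_lit 152) (nat_lit 3656531867889) (nat_lit 0) (nat_lit 806632093105) (nat_lit 13) (nat_lit 5) (nat_lit 15) (nat_lit 4) (nat_lit 13) (nat_lit 4) (nat_lit 403) (nat_lit 374) (nat_lit 243)))))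 (XT.nd (nat_lit 234) (nat_lit 152) (nat_lit 0) (XT.nd (nat_lit 78) (nat_lit 152) (nat_lit 0) (XT.lf (nat_lit 0) (nat_lit 3345623498372) (nat_lit 152) (nat_lit 622436700575) (nat_lit 0) (nat_lit 2642935955358) (nat_lit 13) (nat_lit 5) (nat_lit 15) (nat_lit 4) (nat_lit 13) (nat_lit 4) (nat_lit 404) (nat_lit 374) (nat_lit 242)) (XT.nd (nat_lit 78) (nat_lit 76) (nat_lit 0) (XT.lf (nat_lit 0) (nat_lit 3146934612699) (nat_lit 76) (nat_lit 2440746175222) (nat_lit 76) (nat_lit 1738058631316) (nat_lit 12) (nat_lit 4) (nat_lit 13) (nat_lit 5) (nat_lit 13) (nat_lit 4) (nat_lit 405) (nat_lit 374) (nat_lit 241)) (XT.lf (nat_lit 0) (nat_lit 50804445451) (nat_lit 152) (nat_lit 593457986960) (nat_lit 76) (nat_lit 7498204878637) (nat_lit 11) (nat_lit 5) (nat_lit 13) (nat_lit 5) (nat_lit 12) (nat_lit 4) (nat_lit 406) (nat_lit 374) (nat_lit 240)))) (XT.nd (nat_lit 156) (nat_lit 76) (nat_lit 0) (XT.nd (nat_lit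 78) (nat_lit 0) (nat_lit 0) (XT.lf (nat_lit 0) (nat_lit 2157002709513) (nat_lit 152) (nat_lit 5332274437668) (nat_lit 0) (nat_lit 1545970061378) (nat_lit 10) (nat_lit 5) (nat_lit 12) (nat_lit 4) (nat_lit 10) (nat_lit 4) (nat_lit 407) (nat_lit 374) (nat_lit 239)) (XT.lf (nat_lit 0) (nat_lit 4642308762354) (nat_lit 152) (nat_lit 1378882507259) (nat_lit 0) (nat_lit 4031276113709) (nat_lit 10) (nat_lit 5) (nat_lit 12) (nat_lit 4) (nat_lit 10) (nat_lit 4) (nat_lit 408) (nat_lit 374) (nat_lit 238))) (XT.nd (nat_lit 78) (nat_lit 0) (nat_lit 0) (XT.lf (nat_lit 0) (nat_lit 3477071120818) (nat_lit 76) (nat_lit 4167317699030) (nat_lit 76) (nat_lit 3556285049942) (nat_lit 9) (nat_lit 4) (nat_lit 10) (nat_lit 5) (nat_lit 10) (nat_lit 4) (nat_lit 409) (nat_lit 374) (nat_lit 237)) (XT.lf (nat_lit 0) (nat_lit 9216385376904) (nat_lit 76) (nat_lit 1952473454956) (nat_lit 76) (nat_lit 1341440805483) (nat_lit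 9) (nat_lit 4) (nat_lit 10) (nat_lit 5) (nat_lit 10) (nat_lit 4) (nat_lit 410) (nat_lit 374) (nat_lit 236))))))))
noncomputable def xc100 : XT := (XT.nd (nat_lit 51090) (nat_lit 0) (nat_lit 456) (XT.nd (nat_lit 936) (nat_lit 0) (nat_lit 0) (XT.nd (nat_lit 468) (nat_lit 228) (nat_lit 0) (XT.nd (nat_lit 234) (nat_lit 76) (nat_lit 0) (XT.nd (nat_lit 78) (nat_lit 0) (nat_lit 0) (XT.lf (nat_lit 0) (nat_lit 1208642676273) (nat_lit 152) (nat_lit 12106376351830) (nat_lit 0) (nat_lit 677309937310) (nat_lit 7) (nat_lit 5) (nat_lit 9) (nat_lit 4) (nat_lit 7) (nat_lit 4) (nat_lit 411) (nat_lit 374) (nat_lit 235)) (XT.nd (nat_lit 78) (nat_lit 0) (nat_lit 0) (XT.lf (nat_lit 0) (nat_lit 4277256635474) (nat_lit 152) (nat_lit 7622897049560) (nat_lit 0) (nat_lit 3745923896257) (nat_lit 7) (nat_lit 5) (nat_lit 9) (nat_lit 4) (nat_lit 7) (nat_lit 4) (nat_lit 412) (nat_lit 374) (nat_lit 234)) (XT.lf (nat_lit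 0) (nat_lit 7806162685910) (nat_lit 152) (nat_lit 2466895857566) (nat_lit 0) (nat_lit 7274829946473) (nat_lit 7) (nat_lit 5) (nat_lit 9) (nat_lit 4) (nat_lit 7) (nat_lit 4) (nat_lit 413) (nat_lit 374) (nat_lit 233)))) (XT.nd (nat_lit 78) (nat_lit 0) (nat_lit 0) (XT.lf (nat_lit 0) (nat_lit 3800886728477) (nat_lit 76) (nat_lit 8220904527150) (nat_lit 76) (nat_lit 7689571787521) (nat_lit 6) (nat_lit 4) (nat_lit 7) (nat_lit 5) (nat_lit 7) (nat_lit 4) (nat_lit 414) (nat_lit 374) (nat_lit 232)) (XT.nd (nat_lit 78) (nat_lit 0) (nat_lit 0) (XT.lf (nat_lit 0) (nat_lit 11286082152666) (nat_lit 76) (nat_lit 5712633330315) (nat_lit 76) (nat_lit 5181300590519) (nat_lit 6) (nat_lit 4) (nat_lit 7) (nat_lit 5) (nat_lit 7) (nat_lit 4) (nat_lit 415) (nat_lit 374) (nat_lit 231)) (XT.lf (nat_lit 0) (nat_lit 19894056886431) (nat_lit 76) (nat_lit 2828121456100) (nat_lit 76) (nat_lit 2296788716160) (nat_lit 6)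 (nat_lit 4) (nat_lit 7) (nat_lit 5) (nat_lit 7) (nat_lit 4) (nat_lit 416) (nat_lit 374) (nat_lit 230))))) (XT.nd (nat_lit 234) (nat_lit 76) (nat_lit 0) (XT.nd (nat_lit 78) (nat_lit 0) (nat_lit 0) (XT.lf (nat_lit 0) (nat_lit 1021687495910) (nat_lit 152) (nat_lit 26682256689342) (nat_lit 0) (nat_lit 559659026287) (nat_lit 4) (nat_lit 5) (nat_lit 6) (nat_lit 4) (nat_lit 4) (nat_lit 4) (nat_lit 417) (nat_lit 374) (nat_lit 229)) (XT.nd (nat_lit 78) (nat_lit 0) (nat_lit 0) (XT.lf (nat_lit 0) (nat_lit 5018110014935) (nat_lit 152) (nat_lit 22342039249773) (nat_lit 0) (nat_lit 4556081545217) (nat_lit 4) (nat_lit 5) (nat_lit 6) (nat_lit 4) (nat_lit 4) (nat_lit 4) (nat_lit 418) (nat_lit 374) (nat_lit 228)) (XT.lf (nat_lit 0) (nat_lit 9613995910307) (nat_lit 152) (nat_lit 17350789197485) (nat_lit 0) (nat_lit 9151967440506) (nat_lit 4) (nat_lit 5) (nat_lit 6) (nat_lit 4) (nat_lit 4) (nat_lit 4) (nat_lit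 419) (nat_lit 374) (nat_lit 227)))) (XT.nd (nat_lit 78) (nat_lit 76) (nat_lit 0) (XT.lf (nat_lit 0) (nat_lit 14899264688673) (nat_lit 152) (nat_lit 11610851640150) (nat_lit 0) (nat_lit 14437236218800) (nat_lit 4) (nat_lit 5) (nat_lit 6) (nat_lit 4) (nat_lit 4) (nat_lit 4) (nat_lit 420) (nat_lit 374) (nat_lit 226)) (XT.nd (nat_lit 78) (nat_lit 76) (nat_lit 0) (XT.lf (nat_lit 0) (nat_lit 20977323782654) (nat_lit 152) (nat_lit 5009923451646) (nat_lit 0) (nat_lit 20515295312719) (nat_lit 4) (nat_lit 5) (nat_lit 6) (nat_lit 4) (nat_lit 4) (nat_lit 4) (nat_lit 421) (nat_lit 374) (nat_lit 225)) (XT.lf (nat_lit 0) (nat_lit 2833392123041) (nat_lit 76) (nat_lit 25251024342291) (nat_lit 76) (nat_lit 24788995872301) (nat_lit 3) (nat_lit 4) (nat_lit 4) (nat_lit 5) (nat_lit 4) (nat_lit 4) (nat_lit 422) (nat_lit 374) (nat_lit 224)))))) (XT.nd (nat_lit 49608) (nat_lit 0) (nat_lit 2128) (XT.nd (nat_lit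 49374) (nat_lit 0) (nat_lit 2584) (XT.nd (nat_lit 78) (nat_lit 0) (nat_lit 0) (XT.lf (nat_lit 0) (nat_lit 12416252110740) (nat_lit 76) (nat_lit 24103203300971) (nat_lit 76) (nat_lit 23641174830934) (nat_lit 3) (nat_lit 4) (nat_lit 4) (nat_lit 5) (nat_lit 4) (nat_lit 4) (nat_lit 423) (nat_lit 374) (nat_lit 223)) (XT.nd (nat_lit 78) (nat_lit 0) (nat_lit 0) (XT.lf (nat_lit 0) (nat_lit 23436541094840) (nat_lit 76) (nat_lit 22783209104385) (nat_lit 76) (nat_lit 22321180634307) (nat_lit 3) (nat_lit 4) (nat_lit 4) (nat_lit 5) (nat_lit 4) (nat_lit 4) (nat_lit 424) (nat_lit 374) (nat_lit 222)) (XT.lf (nat_lit 0) (nat_lit 36109873425029) (nat_lit 76) (nat_lit 21265215779122) (nat_lit 76) (nat_lit 20803187309008) (nat_lit 3) (nat_lit 4) (nat_lit 4) (nat_lit 5) (nat_lit 4) (nat_lit 4) (nat_lit 425) (nat_lit 374) (nat_lit 221)))) (XT.nd (nat_lit 78) (nat_lit 0) (nat_lit 0) (XT.lf (nat_lit 0) (nat_lit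 77796270067) (nat_lit 380) (nat_lit 96018492414) (nat_lit 380) (nat_lit 96018492414) (nat_lit 37) (nat_lit 3) (nat_lit 42) (nat_lit 3) (nat_lit 42) (nat_lit 5) (nat_lit 375) (nat_lit 375) (nat_lit 270)) (XT.nd (nat_lit 78) (nat_lit 0) (nat_lit 76) (XT.lf (nat_lit 76) (nat_lit 82907961320) (nat_lit 0) (nat_lit 87787269204) (nat_lit 380) (nat_lit 408931279923) (nat_lit 38) (nat_lit 5) (nat_lit 37) (nat_lit 3) (nat_lit 42) (nat_lit 5) (nat_lit 376) (nat_lit 375) (nat_lit 269)) (XT.lf (nat_lit 0) (nat_lit 207317955288) (nat_lit 304) (nat_lit 212614179847) (nat_lit 380) (nat_lit 202760181460) (nat_lit 38) (nat_lit 5) (nat_lit 42) (nat_lit 5) (nat_lit 43) (nat_lit 5) (nat_lit 377) (nat_lit 375) (nat_lit 268))))) (XT.nd (nat_lit 234) (nat_lit 304) (nat_lit 0) (XT.nd (nat_lit 78) (nat_lit 228) (nat_lit 0) (XT.lf (nat_lit 76) (nat_lit 120668189500) (nat_lit 0) (nat_lit 137942825298) (nat_lit 380)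 (nat_lit 412230439977) (nat_lit 39) (nat_lit 5) (nat_lit 38) (nat_lit 5) (nat_lit 43) (nat_lit 5) (nat_lit 378) (nat_lit 375) (nat_lit 267)) (XT.nd (nat_lit 78) (nat_lit 304) (nat_lit 0) (XT.lf (nat_lit 0) (nat_lit 336957305738) (nat_lit 304) (nat_lit 204953434279) (nat_lit 76) (nat_lit 181398332804) (nat_lit 39) (nat_lit 5) (nat_lit 43) (nat_lit 5) (nat_lit 40) (nat_lit 5) (nat_lit 379) (nat_lit 375) (nat_lit 266)) (XT.lf (nat_lit 0) (nat_lit 203607157043) (nat_lit 304) (nat_lit 238448002109) (nat_lit 380) (nat_lit 339341731607) (nat_lit 35) (nat_lit 5) (nat_lit 39) (nat_lit 5) (nat_lit 40) (nat_lit 5) (nat_lit 380) (nat_lit 375) (nat_lit 265)))) (XT.nd (nat_lit 156) (nat_lit 152) (nat_lit 0) (XT.nd (nat_lit 78) (nat_lit 152) (nat_lit 0) (XT.lf (nat_lit 0) (nat_lit 578718291252) (nat_lit 380) (nat_lit 155192228348) (nat_lit 76) (nat_lit 111917271698) (nat_lit 35) (nat_lit 5) (nat_lit 40)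 (nat_lit 5) (nat_lit 36) (nat_lit 5) (nat_lit 381) (nat_lit 375) (nat_lit 264)) (XT.lf (nat_lit 0) (nat_lit 350658232689) (nat_lit 152) (nat_lit 411097316819) (nat_lit 228) (nat_lit 154286578965) (nat_lit 33) (nat_lit 5) (nat_lit 35) (nat_lit 5) (nat_lit 36) (nat_lit 5) (nat_lit 382) (nat_lit 375) (nat_lit 263))) (XT.nd (nat_lit 78) (nat_lit 152) (nat_lit 0) (XT.lf (nat_lit 0) (nat_lit 949827730102) (nat_lit 152) (nat_lit 30532969035) (nat_lit 228) (nat_lit 15211071702) (nat_lit 33) (nat_lit 5) (nat_lit 35) (nat_lit 5) (nat_lit 36) (nat_lit 5) (nat_lit 383) (nat_lit 375) (nat_lit 262)) (XT.lf (nat_lit 0) (nat_lit 174977242819) (nat_lit 152) (nat_lit 501541596700) (nat_lit 76) (nat_lit 403142706882) (nat_lit 31) (nat_lit 5) (nat_lit 33) (nat_lit 5) (nat_lit 32) (nat_lit 5) (nat_lit 384) (nat_lit 375) (nat_lit 261))))))) (XT.nd (nat_lit 1014) (nat_lit 760) (nat_lit 0) (XT.nd (nat_lit 468)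 (nat_lit 456) (nat_lit 0) (XT.nd (nat_lit 234) (nat_lit 228) (nat_lit 0) (XT.nd (nat_lit 78) (nat_lit 76) (nat_lit 0) (XT.lf (nat_lit 0) (nat_lit 134368685810) (nat_lit 152) (nat_lit 267290681499) (nat_lit 228) (nat_lit 773168337461) (nat_lit 29) (nat_lit 5) (nat_lit 31) (nat_lit 5) (nat_lit 32) (nat_lit 5) (nat_lit 385) (nat_lit 375) (nat_lit 260)) (XT.nd (nat_lit 78) (nat_lit 76) (nat_lit 0) (XT.lf (nat_lit 0) (nat_lit 698228286843) (nat_lit 228) (nat_lit 367971865543) (nat_lit 76) (nat_lit 212685963057) (nat_lit 29) (nat_lit 5) (nat_lit 32) (nat_lit 5) (nat_lit 30) (nat_lit 4) (nat_lit 386) (nat_lit 375) (nat_lit 259)) (XT.lf (nat_lit 0) (nat_lit 431033824365) (nat_lit 76) (nat_lit 638825026243) (nat_lit 152) (nat_lit 324107991168) (nat_lit 28) (nat_lit 5) (nat_lit 29) (nat_lit 5) (nat_lit 30) (nat_lit 4) (nat_lit 387) (nat_lit 375) (nat_lit 258)))) (XT.nd (nat_lit 78) (nat_lit 228)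 (nat_lit 0) (XT.lf (nat_lit 0) (nat_lit 1391245368058) (nat_lit 76) (nat_lit 125223511845) (nat_lit 152) (nat_lit 6955565013) (nat_lit 28) (nat_lit 5) (nat_lit 29) (nat_lit 5) (nat_lit 30) (nat_lit 4) (nat_lit 388) (nat_lit 375) (nat_lit 257)) (XT.nd (nat_lit 78) (nat_lit 76) (nat_lit 0) (XT.lf (nat_lit 0) (nat_lit 384389980825) (nat_lit 152) (nat_lit 798920446018) (nat_lit 76) (nat_lit 477997380877) (nat_lit 26) (nat_lit 5) (nat_lit 28) (nat_lit 5) (nat_lit 27) (nat_lit 4) (nat_lit 389) (nat_lit 375) (nat_lit 256)) (XT.lf (nat_lit 0) (nat_lit 214642283953) (nat_lit 76) (nat_lit 641172228340) (nat_lit 152) (nat_lit 960696089378) (nat_lit 25) (nat_lit 5) (nat_lit 26) (nat_lit 5) (nat_lit 27) (nat_lit 4) (nat_lit 390) (nat_lit 375) (nat_lit 255))))) (XT.nd (nat_lit 234) (nat_lit 304) (nat_lit 0) (XT.nd (nat_lit 78) (nat_lit 152) (nat_lit 0) (XT.lf (nat_lit 0) (nat_lit 1440969648674) (nat_lit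 152) (nat_lit 519957568597) (nat_lit 0) (nat_lit 27614058666) (nat_lit 25) (nat_lit 5) (nat_lit 27) (nat_lit 4) (nat_lit 25) (nat_lit 4) (nat_lit 391) (nat_lit 375) (nat_lit 254)) (XT.nd (nat_lit 78) (nat_lit 76) (nat_lit 0) (XT.lf (nat_lit 0) (nat_lit 761501933634) (nat_lit 76) (nat_lit 1414460295042) (nat_lit 76) (nat_lit 1104696693) (nat_lit 24) (nat_lit 4) (nat_lit 25) (nat_lit 5) (nat_lit 25) (nat_lit 4) (nat_lit 392) (nat_lit 375) (nat_lit 253)) (XT.lf (nat_lit 0) (nat_lit 599956674492) (nat_lit 152) (nat_lit 123448755442) (nat_lit 76) (nat_lit 1662298439823) (nat_lit 23) (nat_lit 5) (nat_lit 25) (nat_lit 5) (nat_lit 24) (nat_lit 4) (nat_lit 393) (nat_lit 375) (nat_lit 252)))) (XT.nd (nat_lit 156) (nat_lit 152) (nat_lit 0) (XT.nd (nat_lit 78) (nat_lit 76) (nat_lit 0) (XT.lf (nat_lit 0) (nat_lit 1358897075326) (nat_lit 152) (nat_lit 1126664255801) (nat_lit 0) (nat_lit 129892195406)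 (nat_lit 22) (nat_lit 5) (nat_lit 24) (nat_lit 4) (nat_lit 22) (nat_lit 4) (nat_lit 394) (nat_lit 375) (nat_lit 251)) (XT.lf (nat_lit 0) (nat_lit 486605044171) (nat_lit 76) (nat_lit 1806430928447) (nat_lit 76) (nat_lit 577426043758) (nat_lit 21) (nat_lit 4) (nat_lit 22) (nat_lit 5) (nat_lit 22) (nat_lit 4) (nat_lit 395) (nat_lit 375) (nat_lit 250))) (XT.nd (nat_lit 78) (nat_lit 76) (nat_lit 0) (XT.lf (nat_lit 0) (nat_lit 247148639560) (nat_lit 152) (nat_lit 697635313782) (nat_lit 76) (nat_lit 2208418651048) (nat_lit 20) (nat_lit 5) (nat_lit 22) (nat_lit 5) (nat_lit 21) (nat_lit 4) (nat_lit 396) (nat_lit 375) (nat_lit 249)) (XT.lf (nat_lit 0) (nat_lit 1197321390016) (nat_lit 152) (nat_lit 2139132541364) (nat_lit 0) (nat_lit 128621483545) (nat_lit 19) (nat_lit 5) (nat_lit 21) (nat_lit 4) (nat_lit 19) (nat_lit 4) (nat_lit 397) (nat_lit 375) (nat_lit 248)))))) (XT.nd (nat_lit 468) (nat_lit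 456) (nat_lit 0) (XT.nd (nat_lit 234) (nat_lit 76) (nat_lit 0) (XT.nd (nat_lit 78) (nat_lit 228) (nat_lit 0) (XT.lf (nat_lit 0) (nat_lit 2373213597372) (nat_lit 152) (nat_lit 133522829845) (nat_lit 0) (nat_lit 1304513688174) (nat_lit 19) (nat_lit 5) (nat_lit 21) (nat_lit 4) (nat_lit 19) (nat_lit 4) (nat_lit 398) (nat_lit 375) (nat_lit 247)) (XT.nd (nat_lit 78) (nat_lit 152) (nat_lit 0) (XT.lf (nat_lit 0) (nat_lit 2385282686564) (nat_lit 76) (nat_lit 1438976413174) (nat_lit 76) (nat_lit 370276501605) (nat_lit 18) (nat_lit 4) (nat_lit 19) (nat_lit 5) (nat_lit 19) (nat_lit 4) (nat_lit 399) (nat_lit 375) (nat_lit 246)) (XT.lf (nat_lit 0) (nat_lit 688058174738) (nat_lit 76) (nat_lit 129038610549) (nat_lit 152) (nat_lit 3807519674576) (nat_lit 16) (nat_lit 5) (nat_lit 17) (nat_lit 5) (nat_lit 18) (nat_lit 4) (nat_lit 400) (nat_lit 375) (nat_lit 245)))) (XT.nd (nat_lit 78) (nat_lit 76) (nat_lit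 0) (XT.lf (nat_lit 0) (nat_lit 2300779711626) (nat_lit 152) (nat_lit 1420892529945) (nat_lit 0) (nat_lit 1371475437344) (nat_lit 16) (nat_lit 5) (nat_lit 18) (nat_lit 4) (nat_lit 16) (nat_lit 4) (nat_lit 401) (nat_lit 375) (nat_lit 244)) (XT.nd (nat_lit 78) (nat_lit 0) (nat_lit 0) (XT.lf (nat_lit 0) (nat_lit 1609244452301) (nat_lit 76) (nat_lit 2470550696675) (nat_lit 76) (nat_lit 1541246421039) (nat_lit 15) (nat_lit 4) (nat_lit 16) (nat_lit 5) (nat_lit 16) (nat_lit 4) (nat_lit 402) (nat_lit 375) (nat_lit 243)) (XT.lf (nat_lit 0) (nat_lit 5253590917163) (nat_lit 76) (nat_lit 946345907976) (nat_lit 76) (nat_lit 17041631160) (nat_lit 15) (nat_lit 4) (nat_lit 16) (nat_lit 5) (nat_lit 16) (nat_lit 4) (nat_lit 403) (nat_lit 375) (nat_lit 242))))) (XT.nd (nat_lit 234) (nat_lit 228) (nat_lit 0) (XT.nd (nat_lit 78) (nat_lit 76) (nat_lit 0) (XT.lf (nat_lit 0) (nat_lit 1735717630728) (nat_lit 152)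 (nat_lit 4205011542870) (nat_lit 0) (nat_lit 927626954345) (nat_lit 13) (nat_lit 5) (nat_lit 15) (nat_lit 4) (nat_lit 13) (nat_lit 4) (nat_lit 404) (nat_lit 375) (nat_lit 241)) (XT.nd (nat_lit 78) (nat_lit 76) (nat_lit 0) (XT.lf (nat_lit 0) (nat_lit 3847467066928) (nat_lit 152) (nat_lit 715802114181) (nat_lit 0) (nat_lit 3039376389770) (nat_lit 13) (nat_lit 5) (nat_lit 15) (nat_lit 4) (nat_lit 13) (nat_lit 4) (nat_lit 405) (nat_lit 375) (nat_lit 240)) (XT.lf (nat_lit 0) (nat_lit 3618974891926) (nat_lit 76) (nat_lit 2806858055886) (nat_lit 76) (nat_lit 1998767378054) (nat_lit 12) (nat_lit 4) (nat_lit 13) (nat_lit 5) (nat_lit 13) (nat_lit 4) (nat_lit 406) (nat_lit 375) (nat_lit 239)))) (XT.nd (nat_lit 156) (nat_lit 76) (nat_lit 0) (XT.nd (nat_lit 78) (nat_lit 76) (nat_lit 0) (XT.lf (nat_lit 0) (nat_lit 58425150260) (nat_lit 152) (nat_lit 682476605358) (nat_lit 76) (nat_lit 8622935646388)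 (nat_lit 11) (nat_lit 5) (nat_lit 13) (nat_lit 5) (nat_lit 12) (nat_lit 4) (nat_lit 407) (nat_lit 375) (nat_lit 238)) (XT.lf (nat_lit 0) (nat_lit 2480553153773) (nat_lit 152) (nat_lit 6132115523514) (nat_lit 0) (nat_lit 1777865606880) (nat_lit 10) (nat_lit 5) (nat_lit 12) (nat_lit 4) (nat_lit 10) (nat_lit 4) (nat_lit 408) (nat_lit 375) (nat_lit 237))) (XT.nd (nat_lit 78) (nat_lit 76) (nat_lit 0) (XT.lf (nat_lit 0) (nat_lit 5338655109606) (nat_lit 152) (nat_lit 1585714813953) (nat_lit 0) (nat_lit 4635967562326) (nat_lit 10) (nat_lit 5) (nat_lit 12) (nat_lit 4) (nat_lit 10) (nat_lit 4) (nat_lit 409) (nat_lit 375) (nat_lit 236)) (XT.lf (nat_lit 0) (nat_lit 3998631855181) (nat_lit 76) (nat_lit 4792415318994) (nat_lit 76) (nat_lit 4089727771380) (nat_lit 9) (nat_lit 4) (nat_lit 10) (nat_lit 5) (nat_lit 10) (nat_lit 4) (nat_lit 410) (nat_lit 375) (nat_lit 235))))))))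
noncomputable def xc101 : XT := (XT.nd (nat_lit 51168) (nat_lit 0) (nat_lit 456) (XT.nd (nat_lit 936) (nat_lit 76) (nat_lit 0) (XT.nd (nat_lit 468) (nat_lit 152) (nat_lit 0) (XT.nd (nat_lit 234) (nat_lit 76) (nat_lit 0) (XT.nd (nat_lit 78) (nat_lit 152) (nat_lit 0) (XT.lf (nat_lit 0) (nat_lit 10598843241041) (nat_lit 76) (nat_lit 2245344442860) (nat_lit 76) (nat_lit 1542656894954) (nat_lit 9) (nat_lit 4) (nat_lit 10) (nat_lit 5) (nat_lit 10) (nat_lit 4) (nat_lit 411) (nat_lit 375) (nat_lit 234)) (XT.nd (nat_lit 78) (nat_lit 0) (nat_lit 0) (XT.lf (nat_lit 0) (nat_lit 1389939106196) (nat_lit 152) (nat_lit 13922332744133) (nat_lit 0) (nat_lit 778906455623) (nat_lit 7) (nat_lit 5) (nat_lit 9) (nat_lit 4) (nat_lit 7) (nat_lit 4) (nat_lit 412) (nat_lit 375) (nat_lit 233)) (XT.lf (nat_lit 0) (nat_lit 4918845155562) (nat_lit 152) (nat_lit 8766331554410) (nat_lit 0) (nat_lit 4307812504798) (nat_lit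 7) (nat_lit 5) (nat_lit 9) (nat_lit 4) (nat_lit 7) (nat_lit 4) (nat_lit 413) (nat_lit 375) (nat_lit 232)))) (XT.nd (nat_lit 78) (nat_lit 76) (nat_lit 0) (XT.lf (nat_lit 0) (nat_lit 8977087110333) (nat_lit 152) (nat_lit 2836930190476) (nat_lit 0) (nat_lit 8366054459402) (nat_lit 7) (nat_lit 5) (nat_lit 9) (nat_lit 4) (nat_lit 7) (nat_lit 4) (nat_lit 414) (nat_lit 375) (nat_lit 231)) (XT.nd (nat_lit 78) (nat_lit 0) (nat_lit 0) (XT.lf (nat_lit 0) (nat_lit 4371019781395) (nat_lit 76) (nat_lit 9454040183111) (nat_lit 76) (nat_lit 8843007532035) (nat_lit 6) (nat_lit 4) (nat_lit 7) (nat_lit 5) (nat_lit 7) (nat_lit 4) (nat_lit 415) (nat_lit 375) (nat_lit 230)) (XT.lf (nat_lit 0) (nat_lit 12978994513520) (nat_lit 76) (nat_lit 6569528309765) (nat_lit 76) (nat_lit 5958495658562) (nat_lit 6) (nat_lit 4) (nat_lit 7) (nat_lit 5) (nat_lit 7) (nat_lit 4) (nat_lit 416) (nat_lit 375) (nat_lit 229))))) (XT.nd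 (nat_lit 234) (nat_lit 0) (nat_lit 0) (XT.nd (nat_lit 78) (nat_lit 152) (nat_lit 0) (XT.lf (nat_lit 0) (nat_lit 22878165452399) (nat_lit 76) (nat_lit 3252339657039) (nat_lit 76) (nat_lit 2641307005728) (nat_lit 6) (nat_lit 4) (nat_lit 7) (nat_lit 5) (nat_lit 7) (nat_lit 4) (nat_lit 417) (nat_lit 375) (nat_lit 228)) (XT.nd (nat_lit 78) (nat_lit 0) (nat_lit 0) (XT.lf (nat_lit 0) (nat_lit 1174940636533) (nat_lit 152) (nat_lit 30684595158120) (nat_lit 0) (nat_lit 643607896179) (nat_lit 4) (nat_lit 5) (nat_lit 6) (nat_lit 4) (nat_lit 4) (nat_lit 4) (nat_lit 418) (nat_lit 375) (nat_lit 227)) (XT.lf (nat_lit 0) (nat_lit 5770826531295) (nat_lit 152) (nat_lit 25693345107133) (nat_lit 0) (nat_lit 5239493790869) (nat_lit 4) (nat_lit 5) (nat_lit 6) (nat_lit 4) (nat_lit 4) (nat_lit 4) (nat_lit 419) (nat_lit 375) (nat_lit 226)))) (XT.nd (nat_lit 78) (nat_lit 0) (nat_lit 0) (XT.lf (nat_lit 0) (nat_lit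 11056095309131) (nat_lit 152) (nat_lit 19953407550929) (nat_lit 0) (nat_lit 10524762568642) (nat_lit 4) (nat_lit 5) (nat_lit 6) (nat_lit 4) (nat_lit 4) (nat_lit 4) (nat_lit 420) (nat_lit 375) (nat_lit 225)) (XT.nd (nat_lit 78) (nat_lit 0) (nat_lit 0) (XT.lf (nat_lit 0) (nat_lit 17134154402651) (nat_lit 152) (nat_lit 13352479363408) (nat_lit 0) (nat_lit 16602821662108) (nat_lit 4) (nat_lit 5) (nat_lit 6) (nat_lit 4) (nat_lit 4) (nat_lit 4) (nat_lit 421) (nat_lit 375) (nat_lit 224)) (XT.lf (nat_lit 0) (nat_lit 24123922359336) (nat_lit 152) (nat_lit 5761411949598) (nat_lit 0) (nat_lit 23592589618746) (nat_lit 4) (nat_lit 5) (nat_lit 6) (nat_lit 4) (nat_lit 4) (nat_lit 4) (nat_lit 422) (nat_lit 375) (nat_lit 223)))))) (XT.nd (nat_lit 49686) (nat_lit 0) (nat_lit 2128) (XT.nd (nat_lit 49452) (nat_lit 0) (nat_lit 2584) (XT.nd (nat_lit 78) (nat_lit 0) (nat_lit 0) (XT.lf (nat_lit 0) (nat_lit 3258400960392)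 (nat_lit 76) (nat_lit 29038677983595) (nat_lit 76) (nat_lit 28507345242963) (nat_lit 3) (nat_lit 4) (nat_lit 4) (nat_lit 5) (nat_lit 4) (nat_lit 4) (nat_lit 423) (nat_lit 375) (nat_lit 222)) (XT.nd (nat_lit 78) (nat_lit 0) (nat_lit 0) (XT.lf (nat_lit 0) (nat_lit 14278689943782) (nat_lit 76) (nat_lit 27718683787386) (nat_lit 76) (nat_lit 27187351046719) (nat_lit 3) (nat_lit 4) (nat_lit 4) (nat_lit 5) (nat_lit 4) (nat_lit 4) (nat_lit 424) (nat_lit 375) (nat_lit 221)) (XT.lf (nat_lit 0) (nat_lit 26952022273354) (nat_lit 76) (nat_lit 26200690462451) (nat_lit 76) (nat_lit 25669357721752) (nat_lit 3) (nat_lit 4) (nat_lit 4) (nat_lit 5) (nat_lit 4) (nat_lit 4) (nat_lit 425) (nat_lit 375) (nat_lit 220)))) (XT.nd (nat_lit 78) (nat_lit 0) (nat_lit 0) (XT.lf (nat_lit 0) (nat_lit 89465909968) (nat_lit 380) (nat_lit 110421151580) (nat_lit 380) (nat_lit 110421151580) (nat_lit 37) (nat_lit 3) (nat_lit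 42) (nat_lit 3) (nat_lit 42) (nat_lit 5) (nat_lit 376) (nat_lit 376) (nat_lit 268)) (XT.nd (nat_lit 78) (nat_lit 0) (nat_lit 76) (XT.lf (nat_lit 76) (nat_lit 95344374484) (nat_lit 0) (nat_lit 100955496451) (nat_lit 380) (nat_lit 470270562541) (nat_lit 38) (nat_lit 5) (nat_lit 37) (nat_lit 3) (nat_lit 42) (nat_lit 5) (nat_lit 377) (nat_lit 376) (nat_lit 267)) (XT.lf (nat_lit 0) (nat_lit 238415953072) (nat_lit 304) (nat_lit 244506064936) (nat_lit 380) (nat_lit 233174100260) (nat_lit 38) (nat_lit 5) (nat_lit 42) (nat_lit 5) (nat_lit 43) (nat_lit 5) (nat_lit 378) (nat_lit 376) (nat_lit 266))))) (XT.nd (nat_lit 234) (nat_lit 304) (nat_lit 0) (XT.nd (nat_lit 78) (nat_lit 228) (nat_lit 0) (XT.lf (nat_lit 76) (nat_lit 138768648818) (nat_lit 0) (nat_lit 158634292536) (nat_lit 380) (nat_lit 474064690364) (nat_lit 39) (nat_lit 5) (nat_lit 38) (nat_lit 5) (nat_lit 43) (nat_lit 5) (nat_lit 379) (nat_lit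 376) (nat_lit 265)) (XT.nd (nat_lit 78) (nat_lit 304) (nat_lit 0) (XT.lf (nat_lit 0) (nat_lit 387501138587) (nat_lit 304) (nat_lit 235696211189) (nat_lit 76) (nat_lit 208608048312) (nat_lit 39) (nat_lit 5) (nat_lit 43) (nat_lit 5) (nat_lit 40) (nat_lit 5) (nat_lit 380) (nat_lit 376) (nat_lit 264)) (XT.lf (nat_lit 0) (nat_lit 234148458003) (nat_lit 304) (nat_lit 274215190516) (nat_lit 380) (nat_lit 390242743437) (nat_lit 35) (nat_lit 5) (nat_lit 39) (nat_lit 5) (nat_lit 40) (nat_lit 5) (nat_lit 381) (nat_lit 376) (nat_lit 263)))) (XT.nd (nat_lit 156) (nat_lit 152) (nat_lit 0) (XT.nd (nat_lit 78) (nat_lit 152) (nat_lit 0) (XT.lf (nat_lit 0) (nat_lit 665526222754) (nat_lit 380) (nat_lit 178470837098) (nat_lit 76) (nat_lit 128704871886) (nat_lit 35) (nat_lit 5) (nat_lit 40) (nat_lit 5) (nat_lit 36) (nat_lit 5) (nat_lit 382) (nat_lit 376) (nat_lit 262)) (XT.lf (nat_lit 0) (nat_lit 403257182844)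 (nat_lit 152) (nat_lit 472761871320) (nat_lit 228) (nat_lit 177429367675) (nat_lit 33) (nat_lit 5) (nat_lit 35) (nat_lit 5) (nat_lit 36) (nat_lit 5) (nat_lit 383) (nat_lit 376) (nat_lit 261))) (XT.nd (nat_lit 78) (nat_lit 152) (nat_lit 0) (XT.lf (nat_lit 0) (nat_lit 1092302076793) (nat_lit 152) (nat_lit 35112876980) (nat_lit 228) (nat_lit 17492560166) (nat_lit 33) (nat_lit 5) (nat_lit 35) (nat_lit 5) (nat_lit 36) (nat_lit 5) (nat_lit 384) (nat_lit 376) (nat_lit 260)) (XT.lf (nat_lit 0) (nat_lit 201223975752) (nat_lit 152) (nat_lit 576772623149) (nat_lit 76) (nat_lit 463614157436) (nat_lit 31) (nat_lit 5) (nat_lit 33) (nat_lit 5) (nat_lit 32) (nat_lit 5) (nat_lit 385) (nat_lit 376) (nat_lit 259))))))) (XT.nd (nat_lit 1014) (nat_lit 760) (nat_lit 0) (XT.nd (nat_lit 468) (nat_lit 456) (nat_lit 0) (XT.nd (nat_lit 234) (nat_lit 228) (nat_lit 0) (XT.nd (nat_lit 78) (nat_lit 76) (nat_lit 0) (XT.lf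 (nat_lit 0) (nat_lit 154524192053) (nat_lit 152) (nat_lit 307384216175) (nat_lit 228) (nat_lit 889143431844) (nat_lit 29) (nat_lit 5) (nat_lit 31) (nat_lit 5) (nat_lit 32) (nat_lit 5) (nat_lit 386) (nat_lit 376) (nat_lit 258)) (XT.nd (nat_lit 78) (nat_lit 76) (nat_lit 0) (XT.lf (nat_lit 0) (nat_lit 802962650408) (nat_lit 228) (nat_lit 423167453211) (nat_lit 76) (nat_lit 244588911025) (nat_lit 29) (nat_lit 5) (nat_lit 32) (nat_lit 5) (nat_lit 30) (nat_lit 4) (nat_lit 387) (nat_lit 376) (nat_lit 257)) (XT.lf (nat_lit 0) (nat_lit 495689081448) (nat_lit 76) (nat_lit 734648709162) (nat_lit 152) (nat_lit 372724060540) (nat_lit 28) (nat_lit 5) (nat_lit 29) (nat_lit 5) (nat_lit 30) (nat_lit 4) (nat_lit 388) (nat_lit 376) (nat_lit 256)))) (XT.nd (nat_lit 78) (nat_lit 228) (nat_lit 0) (XT.lf (nat_lit 0) (nat_lit 1599932332770) (nat_lit 76) (nat_lit 144006976868) (nat_lit 152) (nat_lit 7998787327)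 (nat_lit 28) (nat_lit 5) (nat_lit 29) (nat_lit 5) (nat_lit 30) (nat_lit 4) (nat_lit 389) (nat_lit 376) (nat_lit 255)) (XT.nd (nat_lit 78) (nat_lit 76) (nat_lit 0) (XT.lf (nat_lit 0) (nat_lit 442048576453) (nat_lit 152) (nat_lit 918758339441) (nat_lit 76) (nat_lit 549697048189) (nat_lit 26) (nat_lit 5) (nat_lit 28) (nat_lit 5) (nat_lit 27) (nat_lit 4) (nat_lit 390) (nat_lit 376) (nat_lit 254)) (XT.lf (nat_lit 0) (nat_lit 246838792141) (nat_lit 76) (nat_lit 737347989509) (nat_lit 152) (nat_lit 1104800396377) (nat_lit 25) (nat_lit 5) (nat_lit 26) (nat_lit 5) (nat_lit 27) (nat_lit 4) (nat_lit 391) (nat_lit 376) (nat_lit 253))))) (XT.nd (nat_lit 234) (nat_lit 304) (nat_lit 0) (XT.nd (nat_lit 78) (nat_lit 152) (nat_lit 0) (XT.lf (nat_lit 0) (nat_lit 1657115179052) (nat_lit 152) (nat_lit 597951050441) (nat_lit 0) (nat_lit 31756225358) (nat_lit 25) (nat_lit 5) (nat_lit 27) (nat_lit 4) (nat_lit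 25) (nat_lit 4) (nat_lit 392) (nat_lit 376) (nat_lit 252)) (XT.nd (nat_lit 78) (nat_lit 76) (nat_lit 0) (XT.lf (nat_lit 0) (nat_lit 875727370151) (nat_lit 76) (nat_lit 1626629271134) (nat_lit 76) (nat_lit 1270311132) (nat_lit 24) (nat_lit 4) (nat_lit 25) (nat_lit 5) (nat_lit 25) (nat_lit 4) (nat_lit 393) (nat_lit 376) (nat_lit 251)) (XT.lf (nat_lit 0) (nat_lit 689950247012) (nat_lit 152) (nat_lit 141965934409) (nat_lit 76) (nat_lit 1911643258088) (nat_lit 23) (nat_lit 5) (nat_lit 25) (nat_lit 5) (nat_lit 24) (nat_lit 4) (nat_lit 394) (nat_lit 376) (nat_lit 250)))) (XT.nd (nat_lit 156) (nat_lit 152) (nat_lit 0) (XT.nd (nat_lit 78) (nat_lit 76) (nat_lit 0) (XT.lf (nat_lit 0) (nat_lit 1562731706496) (nat_lit 152) (nat_lit 1295663758340) (nat_lit 0) (nat_lit 149376080188) (nat_lit 22) (nat_lit 5) (nat_lit 24) (nat_lit 4) (nat_lit 22) (nat_lit 4) (nat_lit 395) (nat_lit 376) (nat_lit 249)) (XT.lf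 (nat_lit 0) (nat_lit 559595930454) (nat_lit 76) (nat_lit 2077395504183) (nat_lit 76) (nat_lit 664039874269) (nat_lit 21) (nat_lit 4) (nat_lit 22) (nat_lit 5) (nat_lit 22) (nat_lit 4) (nat_lit 396) (nat_lit 376) (nat_lit 248))) (XT.nd (nat_lit 78) (nat_lit 76) (nat_lit 0) (XT.lf (nat_lit 0) (nat_lit 284220995739) (nat_lit 152) (nat_lit 802280492210) (nat_lit 76) (nat_lit 2539681498057) (nat_lit 20) (nat_lit 5) (nat_lit 22) (nat_lit 5) (nat_lit 21) (nat_lit 4) (nat_lit 397) (nat_lit 376) (nat_lit 247)) (XT.lf (nat_lit 0) (nat_lit 1376919657921) (nat_lit 152) (nat_lit 2460002303082) (nat_lit 0) (nat_lit 147914757245) (nat_lit 19) (nat_lit 5) (nat_lit 21) (nat_lit 4) (nat_lit 19) (nat_lit 4) (nat_lit 398) (nat_lit 376) (nat_lit 246)))))) (XT.nd (nat_lit 468) (nat_lit 456) (nat_lit 0) (XT.nd (nat_lit 234) (nat_lit 76) (nat_lit 0) (XT.nd (nat_lit 78) (nat_lit 228) (nat_lit 0) (XT.lf (nat_lit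 0) (nat_lit 2729195688632) (nat_lit 152) (nat_lit 153551150420) (nat_lit 0) (nat_lit 1500190785895) (nat_lit 19) (nat_lit 5) (nat_lit 21) (nat_lit 4) (nat_lit 19) (nat_lit 4) (nat_lit 399) (nat_lit 376) (nat_lit 245)) (XT.nd (nat_lit 78) (nat_lit 152) (nat_lit 0) (XT.lf (nat_lit 0) (nat_lit 2743075188727) (nat_lit 76) (nat_lit 1654822824995) (nat_lit 76) (nat_lit 425817920465) (nat_lit 18) (nat_lit 4) (nat_lit 19) (nat_lit 5) (nat_lit 19) (nat_lit 4) (nat_lit 400) (nat_lit 376) (nat_lit 244)) (XT.lf (nat_lit 0) (nat_lit 791267000414) (nat_lit 76) (nat_lit 148394351447) (nat_lit 152) (nat_lit 4378647569662) (nat_lit 16) (nat_lit 5) (nat_lit 17) (nat_lit 5) (nat_lit 18) (nat_lit 4) (nat_lit 401) (nat_lit 376) (nat_lit 243)))) (XT.nd (nat_lit 78) (nat_lit 76) (nat_lit 0) (XT.lf (nat_lit 0) (nat_lit 2645896712613) (nat_lit 152) (nat_lit 1634026318405) (nat_lit 0) (nat_lit 1577196793096) (nat_lit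 16) (nat_lit 5) (nat_lit 18) (nat_lit 4) (nat_lit 16) (nat_lit 4) (nat_lit 402) (nat_lit 376) (nat_lit 242)) (XT.nd (nat_lit 78) (nat_lit 0) (nat_lit 0) (XT.lf (nat_lit 0) (nat_lit 1850631207040) (nat_lit 76) (nat_lit 2841133256353) (nat_lit 76) (nat_lit 1772433335811) (nat_lit 15) (nat_lit 4) (nat_lit 16) (nat_lit 5) (nat_lit 16) (nat_lit 4) (nat_lit 403) (nat_lit 376) (nat_lit 241)) (XT.lf (nat_lit 0) (nat_lit 6041629630298) (nat_lit 76) (nat_lit 1088297755195) (nat_lit 76) (nat_lit 19597833762) (nat_lit 15) (nat_lit 4) (nat_lit 16) (nat_lit 5) (nat_lit 16) (nat_lit 4) (nat_lit 404) (nat_lit 376) (nat_lit 240))))) (XT.nd (nat_lit 234) (nat_lit 228) (nat_lit 0) (XT.nd (nat_lit 78) (nat_lit 76) (nat_lit 0) (XT.lf (nat_lit 0) (nat_lit 1996075313425) (nat_lit 152) (nat_lit 4835763194752) (nat_lit 0) (nat_lit 1066771033244) (nat_lit 13) (nat_lit 5) (nat_lit 15) (nat_lit 4) (nat_lit 13) (nat_lit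 4) (nat_lit 405) (nat_lit 376) (nat_lit 239)) (XT.nd (nat_lit 78) (nat_lit 76) (nat_lit 0) (XT.lf (nat_lit 0) (nat_lit 4424587160087) (nat_lit 152) (nat_lit 823172362136) (nat_lit 0) (nat_lit 3495282879319) (nat_lit 13) (nat_lit 5) (nat_lit 15) (nat_lit 4) (nat_lit 13) (nat_lit 4) (nat_lit 406) (nat_lit 376) (nat_lit 238)) (XT.lf (nat_lit 0) (nat_lit 4161821191743) (nat_lit 76) (nat_lit 3227886729775) (nat_lit 76) (nat_lit 2298582448498) (nat_lit 12) (nat_lit 4) (nat_lit 13) (nat_lit 5) (nat_lit 13) (nat_lit 4) (nat_lit 407) (nat_lit 376) (nat_lit 237)))) (XT.nd (nat_lit 156) (nat_lit 76) (nat_lit 0) (XT.nd (nat_lit 78) (nat_lit 76) (nat_lit 0) (XT.lf (nat_lit 0) (nat_lit 67188951526) (nat_lit 152) (nat_lit 784848035938) (nat_lit 76) (nat_lit 9916376020533) (nat_lit 11) (nat_lit 5) (nat_lit 13) (nat_lit 5) (nat_lit 12) (nat_lit 4) (nat_lit 408) (nat_lit 376) (nat_lit 236)) (XT.lf (nat_lit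 0) (nat_lit 2852636155447) (nat_lit 152) (nat_lit 7051932791698) (nat_lit 0) (nat_lit 2044545475356) (nat_lit 10) (nat_lit 5) (nat_lit 12) (nat_lit 4) (nat_lit 10) (nat_lit 4) (nat_lit 409) (nat_lit 376) (nat_lit 235))) (XT.nd (nat_lit 78) (nat_lit 76) (nat_lit 0) (XT.lf (nat_lit 0) (nat_lit 6139453400923) (nat_lit 152) (nat_lit 1823571983573) (nat_lit 0) (nat_lit 5331362720540) (nat_lit 10) (nat_lit 5) (nat_lit 12) (nat_lit 4) (nat_lit 10) (nat_lit 4) (nat_lit 410) (nat_lit 376) (nat_lit 234)) (XT.lf (nat_lit 0) (nat_lit 4598426683546) (nat_lit 76) (nat_lit 5511277590461) (nat_lit 76) (nat_lit 4703186909825) (nat_lit 9) (nat_lit 4) (nat_lit 10) (nat_lit 5) (nat_lit 10) (nat_lit 4) (nat_lit 411) (nat_lit 376) (nat_lit 233))))))))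
noncomputable def xc102 : XT := (XT.nd (nat_lit 51246) (nat_lit 0) (nat_lit 456) (XT.nd (nat_lit 936) (nat_lit 76) (nat_lit 0) (XT.nd (nat_lit 468) (nat_lit 152) (nat_lit 0) (XT.nd (nat_lit 234) (nat_lit 76) (nat_lit 0) (XT.nd (nat_lit 78) (nat_lit 152) (nat_lit 0) (XT.lf (nat_lit 0) (nat_lit 12188669770752) (nat_lit 76) (nat_lit 2582146086348) (nat_lit 76) (nat_lit 1774055405491) (nat_lit 9) (nat_lit 4) (nat_lit 10) (nat_lit 5) (nat_lit 10) (nat_lit 4) (nat_lit 412) (nat_lit 376) (nat_lit 232)) (XT.nd (nat_lit 78) (nat_lit 0) (nat_lit 0) (XT.lf (nat_lit 0) (nat_lit 1598429993662) (nat_lit 152) (nat_lit 16010682610028) (nat_lit 0) (nat_lit 895742444924) (nat_lit 7) (nat_lit 5) (nat_lit 9) (nat_lit 4) (nat_lit 7) (nat_lit 4) (nat_lit 413) (nat_lit 376) (nat_lit 231)) (XT.lf (nat_lit 0) (nat_lit 5656671947624) (nat_lit 152) (nat_lit 10081281247811) (nat_lit 0) (nat_lit 4953984398741) (nat_lit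 7) (nat_lit 5) (nat_lit 9) (nat_lit 4) (nat_lit 7) (nat_lit 4) (nat_lit 414) (nat_lit 376) (nat_lit 230)))) (XT.nd (nat_lit 78) (nat_lit 76) (nat_lit 0) (XT.lf (nat_lit 0) (nat_lit 10323650193168) (nat_lit 152) (nat_lit 3262469684472) (nat_lit 0) (nat_lit 9620962644159) (nat_lit 7) (nat_lit 5) (nat_lit 9) (nat_lit 4) (nat_lit 7) (nat_lit 4) (nat_lit 415) (nat_lit 376) (nat_lit 229)) (XT.nd (nat_lit 78) (nat_lit 0) (nat_lit 0) (XT.lf (nat_lit 0) (nat_lit 5026672781607) (nat_lit 76) (nat_lit 10872146193101) (nat_lit 76) (nat_lit 10169458643984) (nat_lit 6) (nat_lit 4) (nat_lit 7) (nat_lit 5) (nat_lit 7) (nat_lit 4) (nat_lit 416) (nat_lit 376) (nat_lit 228)) (XT.lf (nat_lit 0) (nat_lit 14925843719246) (nat_lit 76) (nat_lit 7554957541033) (nat_lit 76) (nat_lit 6852269991820) (nat_lit 6) (nat_lit 4) (nat_lit 7) (nat_lit 5) (nat_lit 7) (nat_lit 4) (nat_lit 417) (nat_lit 376) (nat_lit 227)))))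 (XT.nd (nat_lit 234) (nat_lit 0) (nat_lit 0) (XT.nd (nat_lit 78) (nat_lit 152) (nat_lit 0) (XT.lf (nat_lit 0) (nat_lit 26309890295214) (nat_lit 76) (nat_lit 3740190592381) (nat_lit 76) (nat_lit 3037503043085) (nat_lit 6) (nat_lit 4) (nat_lit 7) (nat_lit 5) (nat_lit 7) (nat_lit 4) (nat_lit 418) (nat_lit 376) (nat_lit 226)) (XT.nd (nat_lit 78) (nat_lit 0) (nat_lit 0) (XT.lf (nat_lit 0) (nat_lit 1351181744291) (nat_lit 152) (nat_lit 35287284405659) (nat_lit 0) (nat_lit 740149092667) (nat_lit 4) (nat_lit 5) (nat_lit 6) (nat_lit 4) (nat_lit 4) (nat_lit 4) (nat_lit 419) (nat_lit 376) (nat_lit 225)) (XT.lf (nat_lit 0) (nat_lit 6636450521666) (nat_lit 152) (nat_lit 29547346850438) (nat_lit 0) (nat_lit 6025417869987) (nat_lit 4) (nat_lit 5) (nat_lit 6) (nat_lit 4) (nat_lit 4) (nat_lit 4) (nat_lit 420) (nat_lit 376) (nat_lit 224)))) (XT.nd (nat_lit 78) (nat_lit 0) (nat_lit 0) (XT.lf (nat_lit 0) (nat_lit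 12714509614784) (nat_lit 152) (nat_lit 22946418663772) (nat_lit 0) (nat_lit 12103476963058) (nat_lit 4) (nat_lit 5) (nat_lit 6) (nat_lit 4) (nat_lit 4) (nat_lit 4) (nat_lit 421) (nat_lit 376) (nat_lit 223)) (XT.nd (nat_lit 78) (nat_lit 0) (nat_lit 0) (XT.lf (nat_lit 0) (nat_lit 19704277571121) (nat_lit 152) (nat_lit 15355351250706) (nat_lit 0) (nat_lit 19093244919354) (nat_lit 4) (nat_lit 5) (nat_lit 6) (nat_lit 4) (nat_lit 4) (nat_lit 4) (nat_lit 422) (nat_lit 376) (nat_lit 222)) (XT.lf (nat_lit 0) (nat_lit 27742510720256) (nat_lit 152) (nat_lit 6625623727069) (nat_lit 0) (nat_lit 27131478068453) (nat_lit 4) (nat_lit 5) (nat_lit 6) (nat_lit 4) (nat_lit 4) (nat_lit 4) (nat_lit 423) (nat_lit 376) (nat_lit 221)))))) (XT.nd (nat_lit 49764) (nat_lit 0) (nat_lit 1976) (XT.nd (nat_lit 49530) (nat_lit 0) (nat_lit 2584) (XT.nd (nat_lit 78) (nat_lit 0) (nat_lit 0) (XT.lf (nat_lit 0) (nat_lit 3747161118739)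 (nat_lit 76) (nat_lit 33394479673542) (nat_lit 76) (nat_lit 32783447021708) (nat_lit 3) (nat_lit 4) (nat_lit 4) (nat_lit 5) (nat_lit 4) (nat_lit 4) (nat_lit 424) (nat_lit 376) (nat_lit 220)) (XT.nd (nat_lit 49374) (nat_lit 0) (nat_lit 2584) (XT.lf (nat_lit 0) (nat_lit 16420493447774) (nat_lit 76) (nat_lit 31876486348892) (nat_lit 76) (nat_lit 31265453697031) (nat_lit 3) (nat_lit 4) (nat_lit 4) (nat_lit 5) (nat_lit 4) (nat_lit 4) (nat_lit 425) (nat_lit 376) (nat_lit 219)) (XT.lf (nat_lit 0) (nat_lit 102885947230) (nat_lit 380) (nat_lit 126984237590) (nat_lit 380) (nat_lit 126984237590) (nat_lit 37) (nat_lit 3) (nat_lit 42) (nat_lit 3) (nat_lit 42) (nat_lit 5) (nat_lit 377) (nat_lit 377) (nat_lit 266)))) (XT.nd (nat_lit 78) (nat_lit 0) (nat_lit 76) (XT.lf (nat_lit 76) (nat_lit 109646196226) (nat_lit 0) (nat_lit 116098924410) (nat_lit 380) (nat_lit 540810837379) (nat_lit 38) (nat_lit 5) (nat_lit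 37) (nat_lit 3) (nat_lit 42) (nat_lit 5) (nat_lit 378) (nat_lit 377) (nat_lit 265)) (XT.nd (nat_lit 78) (nat_lit 0) (nat_lit 0) (XT.lf (nat_lit 0) (nat_lit 274178576272) (nat_lit 304) (nat_lit 281181791775) (nat_lit 380) (nat_lit 268150133319) (nat_lit 38) (nat_lit 5) (nat_lit 42) (nat_lit 5) (nat_lit 43) (nat_lit 5) (nat_lit 379) (nat_lit 377) (nat_lit 264)) (XT.lf (nat_lit 76) (nat_lit 159584120729) (nat_lit 0) (nat_lit 182429469265) (nat_lit 380) (nat_lit 545174155272) (nat_lit 39) (nat_lit 5) (nat_lit 38) (nat_lit 5) (nat_lit 43) (nat_lit 5) (nat_lit 380) (nat_lit 377) (nat_lit 263))))) (XT.nd (nat_lit 234) (nat_lit 456) (nat_lit 0) (XT.nd (nat_lit 78) (nat_lit 304) (nat_lit 0) (XT.lf (nat_lit 0) (nat_lit 445626488572) (nat_lit 304) (nat_lit 271050462731) (nat_lit 76) (nat_lit 239899229538) (nat_lit 39) (nat_lit 5) (nat_lit 43) (nat_lit 5) (nat_lit 40) (nat_lit 5) (nat_lit 381) (nat_lit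 377) (nat_lit 262)) (XT.nd (nat_lit 78) (nat_lit 0) (nat_lit 0) (XT.lf (nat_lit 0) (nat_lit 269270898652) (nat_lit 304) (nat_lit 315347460088) (nat_lit 380) (nat_lit 448778967497) (nat_lit 35) (nat_lit 5) (nat_lit 39) (nat_lit 5) (nat_lit 40) (nat_lit 5) (nat_lit 382) (nat_lit 377) (nat_lit 261)) (XT.lf (nat_lit 0) (nat_lit 765355298182) (nat_lit 380) (nat_lit 205241292151) (nat_lit 76) (nat_lit 148010609803) (nat_lit 35) (nat_lit 5) (nat_lit 40) (nat_lit 5) (nat_lit 36) (nat_lit 5) (nat_lit 383) (nat_lit 377) (nat_lit 260)))) (XT.nd (nat_lit 156) (nat_lit 304) (nat_lit 0) (XT.nd (nat_lit 78) (nat_lit 0) (nat_lit 0) (XT.lf (nat_lit 0) (nat_lit 463745923032) (nat_lit 152) (nat_lit 543676119488) (nat_lit 228) (nat_lit 204043623008) (nat_lit 33) (nat_lit 5) (nat_lit 35) (nat_lit 5) (nat_lit 36) (nat_lit 5) (nat_lit 384) (nat_lit 377) (nat_lit 259)) (XT.lf (nat_lit 0) (nat_lit 1256147529843)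 (nat_lit 152) (nat_lit 40379780239) (nat_lit 228) (nat_lit 20116313914) (nat_lit 33) (nat_lit 5) (nat_lit 35) (nat_lit 5) (nat_lit 36) (nat_lit 5) (nat_lit 385) (nat_lit 377) (nat_lit 258))) (XT.nd (nat_lit 78) (nat_lit 152) (nat_lit 0) (XT.lf (nat_lit 0) (nat_lit 231407682899) (nat_lit 152) (nat_lit 663288355521) (nat_lit 76) (nat_lit 533156314716) (nat_lit 31) (nat_lit 5) (nat_lit 33) (nat_lit 5) (nat_lit 32) (nat_lit 5) (nat_lit 386) (nat_lit 377) (nat_lit 257)) (XT.lf (nat_lit 0) (nat_lit 177702974639) (nat_lit 152) (nat_lit 353491797524) (nat_lit 228) (nat_lit 1022514828484) (nat_lit 29) (nat_lit 5) (nat_lit 31) (nat_lit 5) (nat_lit 32) (nat_lit 5) (nat_lit 387) (nat_lit 377) (nat_lit 256))))))) (XT.nd (nat_lit 1014) (nat_lit 760) (nat_lit 0) (XT.nd (nat_lit 468) (nat_lit 456) (nat_lit 0) (XT.nd (nat_lit 234) (nat_lit 228) (nat_lit 0) (XT.nd (nat_lit 78) (nat_lit 76) (nat_lit 0) (XT.lf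 (nat_lit 0) (nat_lit 923407139113) (nat_lit 228) (nat_lit 486642425889) (nat_lit 76) (nat_lit 281277288139) (nat_lit 29) (nat_lit 5) (nat_lit 32) (nat_lit 5) (nat_lit 30) (nat_lit 4) (nat_lit 388) (nat_lit 377) (nat_lit 255)) (XT.nd (nat_lit 78) (nat_lit 0) (nat_lit 0) (XT.lf (nat_lit 0) (nat_lit 570042582364) (nat_lit 76) (nat_lit 844845961837) (nat_lit 152) (nat_lit 428632571848) (nat_lit 28) (nat_lit 5) (nat_lit 29) (nat_lit 5) (nat_lit 30) (nat_lit 4) (nat_lit 389) (nat_lit 377) (nat_lit 254)) (XT.lf (nat_lit 0) (nat_lit 1839922303293) (nat_lit 76) (nat_lit 165607976703) (nat_lit 152) (nat_lit 9198520407) (nat_lit 28) (nat_lit 5) (nat_lit 29) (nat_lit 5) (nat_lit 30) (nat_lit 4) (nat_lit 390) (nat_lit 377) (nat_lit 253)))) (XT.nd (nat_lit 78) (nat_lit 76) (nat_lit 0) (XT.lf (nat_lit 0) (nat_lit 508355937404) (nat_lit 152) (nat_lit 1056571959181) (nat_lit 76) (nat_lit 632151650922) (nat_lit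 26) (nat_lit 5) (nat_lit 28) (nat_lit 5) (nat_lit 27) (nat_lit 4) (nat_lit 391) (nat_lit 377) (nat_lit 252)) (XT.nd (nat_lit 78) (nat_lit 0) (nat_lit 0) (XT.lf (nat_lit 0) (nat_lit 283864736175) (nat_lit 76) (nat_lit 847950132675) (nat_lit 152) (nat_lit 1270520375375) (nat_lit 25) (nat_lit 5) (nat_lit 26) (nat_lit 5) (nat_lit 27) (nat_lit 4) (nat_lit 392) (nat_lit 377) (nat_lit 251)) (XT.lf (nat_lit 0) (nat_lit 1905682518729) (nat_lit 152) (nat_lit 687643591980) (nat_lit 0) (nat_lit 36519702936) (nat_lit 25) (nat_lit 5) (nat_lit 27) (nat_lit 4) (nat_lit 25) (nat_lit 4) (nat_lit 393) (nat_lit 377) (nat_lit 250))))) (XT.nd (nat_lit 234) (nat_lit 228) (nat_lit 0) (XT.nd (nat_lit 78) (nat_lit 152) (nat_lit 0) (XT.lf (nat_lit 0) (nat_lit 1007086586427) (nat_lit 76) (nat_lit 1870623610261) (nat_lit 76) (nat_lit 1460789700) (nat_lit 24) (nat_lit 4) (nat_lit 25) (nat_lit 5) (nat_lit 25) (nat_lit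 4) (nat_lit 394) (nat_lit 377) (nat_lit 249)) (XT.nd (nat_lit 78) (nat_lit 76) (nat_lit 0) (XT.lf (nat_lit 0) (nat_lit 793442838011) (nat_lit 152) (nat_lit 163260722984) (nat_lit 76) (nat_lit 2198389786342) (nat_lit 23) (nat_lit 5) (nat_lit 25) (nat_lit 5) (nat_lit 24) (nat_lit 4) (nat_lit 395) (nat_lit 377) (nat_lit 248)) (XT.lf (nat_lit 0) (nat_lit 1797141515303) (nat_lit 152) (nat_lit 1490013219382) (nat_lit 0) (nat_lit 171782534160) (nat_lit 22) (nat_lit 5) (nat_lit 24) (nat_lit 4) (nat_lit 22) (nat_lit 4) (nat_lit 396) (nat_lit 377) (nat_lit 247)))) (XT.nd (nat_lit 156) (nat_lit 76) (nat_lit 0) (XT.nd (nat_lit 78) (nat_lit 76) (nat_lit 0) (XT.lf (nat_lit 0) (nat_lit 643535418062) (nat_lit 76) (nat_lit 2389004781772) (nat_lit 76) (nat_lit 763645797903) (nat_lit 21) (nat_lit 4) (nat_lit 22) (nat_lit 5) (nat_lit 22) (nat_lit 4) (nat_lit 397) (nat_lit 377) (nat_lit 246)) (XT.lf (nat_lit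 0) (nat_lit 326854190654) (nat_lit 152) (nat_lit 922622476333) (nat_lit 76) (nat_lit 2920633760082) (nat_lit 20) (nat_lit 5) (nat_lit 22) (nat_lit 5) (nat_lit 21) (nat_lit 4) (nat_lit 398) (nat_lit 377) (nat_lit 245))) (XT.nd (nat_lit 78) (nat_lit 0) (nat_lit 0) (XT.lf (nat_lit 0) (nat_lit 1583457651526) (nat_lit 152) (nat_lit 2829002558195) (nat_lit 0) (nat_lit 170102009524) (nat_lit 19) (nat_lit 5) (nat_lit 21) (nat_lit 4) (nat_lit 19) (nat_lit 4) (nat_lit 399) (nat_lit 377) (nat_lit 244)) (XT.lf (nat_lit 0) (nat_lit 3138575080985) (nat_lit 152) (nat_lit 176583744419) (nat_lit 0) (nat_lit 1725219437424) (nat_lit 19) (nat_lit 5) (nat_lit 21) (nat_lit 4) (nat_lit 19) (nat_lit 4) (nat_lit 400) (nat_lit 377) (nat_lit 243)))))) (XT.nd (nat_lit 468) (nat_lit 304) (nat_lit 0) (XT.nd (nat_lit 234) (nat_lit 228) (nat_lit 0) (XT.nd (nat_lit 78) (nat_lit 152) (nat_lit 0) (XT.lf (nat_lit 0) (nat_lit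 3154536542030) (nat_lit 76) (nat_lit 1903046210819) (nat_lit 76) (nat_lit 489690565903) (nat_lit 18) (nat_lit 4) (nat_lit 19) (nat_lit 5) (nat_lit 19) (nat_lit 4) (nat_lit 401) (nat_lit 377) (nat_lit 242)) (XT.nd (nat_lit 78) (nat_lit 0) (nat_lit 0) (XT.lf (nat_lit 0) (nat_lit 909957125686) (nat_lit 76) (nat_lit 170653465839) (nat_lit 152) (nat_lit 5035444662691) (nat_lit 16) (nat_lit 5) (nat_lit 17) (nat_lit 5) (nat_lit 18) (nat_lit 4) (nat_lit 402) (nat_lit 377) (nat_lit 241)) (XT.lf (nat_lit 0) (nat_lit 3042781252959) (nat_lit 152) (nat_lit 1879130197333) (nat_lit 0) (nat_lit 1813776342419) (nat_lit 16) (nat_lit 5) (nat_lit 18) (nat_lit 4) (nat_lit 16) (nat_lit 4) (nat_lit 403) (nat_lit 377) (nat_lit 240)))) (XT.nd (nat_lit 78) (nat_lit 152) (nat_lit 0) (XT.lf (nat_lit 0) (nat_lit 2128225953800) (nat_lit 76) (nat_lit 3267303210913) (nat_lit 76) (nat_lit 2038298299599) (nat_lit 15) (nat_lit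 4) (nat_lit 16) (nat_lit 5) (nat_lit 16) (nat_lit 4) (nat_lit 404) (nat_lit 377) (nat_lit 239)) (XT.nd (nat_lit 78) (nat_lit 152) (nat_lit 0) (XT.lf (nat_lit 0) (nat_lit 6947874131976) (nat_lit 76) (nat_lit 1251542389003) (nat_lit 76) (nat_lit 22537477014) (nat_lit 15) (nat_lit 4) (nat_lit 16) (nat_lit 5) (nat_lit 16) (nat_lit 4) (nat_lit 405) (nat_lit 377) (nat_lit 238)) (XT.lf (nat_lit 0) (nat_lit 2295486639238) (nat_lit 152) (nat_lit 5561127613816) (nat_lit 0) (nat_lit 1226786715260) (nat_lit 13) (nat_lit 5) (nat_lit 15) (nat_lit 4) (nat_lit 13) (nat_lit 4) (nat_lit 406) (nat_lit 377) (nat_lit 237))))) (XT.nd (nat_lit 234) (nat_lit 152) (nat_lit 0) (XT.nd (nat_lit 78) (nat_lit 152) (nat_lit 0) (XT.lf (nat_lit 0) (nat_lit 5088275259142) (nat_lit 152) (nat_lit 946648164152) (nat_lit 0) (nat_lit 4019575334721) (nat_lit 13) (nat_lit 5) (nat_lit 15) (nat_lit 4) (nat_lit 13) (nat_lit 4) (nat_lit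 407) (nat_lit 377) (nat_lit 236)) (XT.nd (nat_lit 78) (nat_lit 76) (nat_lit 0) (XT.lf (nat_lit 0) (nat_lit 4786094420431) (nat_lit 76) (nat_lit 3712069713158) (nat_lit 76) (nat_lit 2643369788352) (nat_lit 12) (nat_lit 4) (nat_lit 13) (nat_lit 5) (nat_lit 13) (nat_lit 4) (nat_lit 408) (nat_lit 377) (nat_lit 235)) (XT.lf (nat_lit 0) (nat_lit 77267315976) (nat_lit 152) (nat_lit 902575195791) (nat_lit 76) (nat_lit 11403832444171) (nat_lit 11) (nat_lit 5) (nat_lit 13) (nat_lit 5) (nat_lit 12) (nat_lit 4) (nat_lit 409) (nat_lit 377) (nat_lit 234)))) (XT.nd (nat_lit 156) (nat_lit 76) (nat_lit 0) (XT.nd (nat_lit 78) (nat_lit 0) (nat_lit 0) (XT.lf (nat_lit 0) (nat_lit 3280531600396) (nat_lit 152) (nat_lit 8109722664824) (nat_lit 0) (nat_lit 2351227317411) (nat_lit 10) (nat_lit 5) (nat_lit 12) (nat_lit 4) (nat_lit 10) (nat_lit 4) (nat_lit 410) (nat_lit 377) (nat_lit 233)) (XT.lf (nat_lit 0) (nat_lit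 7060371429871) (nat_lit 152) (nat_lit 2097107741432) (nat_lit 0) (nat_lit 6131067146666) (nat_lit 10) (nat_lit 5) (nat_lit 12) (nat_lit 4) (nat_lit 10) (nat_lit 4) (nat_lit 411) (nat_lit 377) (nat_lit 232))) (XT.nd (nat_lit 78) (nat_lit 0) (nat_lit 0) (XT.lf (nat_lit 0) (nat_lit 5288190723951) (nat_lit 76) (nat_lit 6337969209082) (nat_lit 76) (nat_lit 5408664925685) (nat_lit 9) (nat_lit 4) (nat_lit 10) (nat_lit 5) (nat_lit 10) (nat_lit 4) (nat_lit 412) (nat_lit 377) (nat_lit 231)) (XT.lf (nat_lit 0) (nat_lit 14016970269298) (nat_lit 76) (nat_lit 2969467981954) (nat_lit 76) (nat_lit 2040163698390) (nat_lit 9) (nat_lit 4) (nat_lit 10) (nat_lit 5) (nat_lit 10) (nat_lit 4) (nat_lit 413) (nat_lit 377) (nat_lit 230))))))))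
noncomputable def xc103 : XT := (XT.nd (nat_lit 51324) (nat_lit 0) (nat_lit 304) (XT.nd (nat_lit 50310) (nat_lit 0) (nat_lit 1900) (XT.nd (nat_lit 468) (nat_lit 228) (nat_lit 0) (XT.nd (nat_lit 234) (nat_lit 76) (nat_lit 0) (XT.nd (nat_lit 78) (nat_lit 0) (nat_lit 0) (XT.lf (nat_lit 0) (nat_lit 1838194508996) (nat_lit 152) (nat_lit 18412284966958) (nat_lit 0) (nat_lit 1030103827510) (nat_lit 7) (nat_lit 5) (nat_lit 9) (nat_lit 4) (nat_lit 7) (nat_lit 4) (nat_lit 414) (nat_lit 377) (nat_lit 229)) (XT.nd (nat_lit 78) (nat_lit 0) (nat_lit 0) (XT.lf (nat_lit 0) (nat_lit 6505172753928) (nat_lit 152) (nat_lit 11593473404918) (nat_lit 0) (nat_lit 5697082072333) (nat_lit 7) (nat_lit 5) (nat_lit 9) (nat_lit 4) (nat_lit 7) (nat_lit 4) (nat_lit 415) (nat_lit 377) (nat_lit 228)) (XT.lf (nat_lit 0) (nat_lit 11872197734457) (nat_lit 152) (nat_lit 3751840111000) (nat_lit 0) (nat_lit 11064107052766) (nat_lit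 7) (nat_lit 5) (nat_lit 9) (nat_lit 4) (nat_lit 7) (nat_lit 4) (nat_lit 416) (nat_lit 377) (nat_lit 227)))) (XT.nd (nat_lit 78) (nat_lit 0) (nat_lit 0) (XT.lf (nat_lit 0) (nat_lit 5780673723803) (nat_lit 76) (nat_lit 12502968108852) (nat_lit 76) (nat_lit 11694877427079) (nat_lit 6) (nat_lit 4) (nat_lit 7) (nat_lit 5) (nat_lit 7) (nat_lit 4) (nat_lit 417) (nat_lit 377) (nat_lit 226)) (XT.nd (nat_lit 78) (nat_lit 0) (nat_lit 0) (XT.lf (nat_lit 0) (nat_lit 17164720298833) (nat_lit 76) (nat_lit 8688201160697) (nat_lit 76) (nat_lit 7880110478852) (nat_lit 6) (nat_lit 4) (nat_lit 7) (nat_lit 5) (nat_lit 7) (nat_lit 4) (nat_lit 418) (nat_lit 377) (nat_lit 225)) (XT.lf (nat_lit 0) (nat_lit 30256373858365) (nat_lit 76) (nat_lit 4301219171246) (nat_lit 76) (nat_lit 3493128489338) (nat_lit 6) (nat_lit 4) (nat_lit 7) (nat_lit 5) (nat_lit 7) (nat_lit 4) (nat_lit 419) (nat_lit 377) (nat_lit 224)))))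 (XT.nd (nat_lit 234) (nat_lit 76) (nat_lit 0) (XT.nd (nat_lit 78) (nat_lit 0) (nat_lit 0) (XT.lf (nat_lit 0) (nat_lit 1553859015218) (nat_lit 152) (nat_lit 40580377046712) (nat_lit 0) (nat_lit 851171465686) (nat_lit 4) (nat_lit 5) (nat_lit 6) (nat_lit 4) (nat_lit 4) (nat_lit 4) (nat_lit 420) (nat_lit 377) (nat_lit 223)) (XT.nd (nat_lit 78) (nat_lit 0) (nat_lit 0) (XT.lf (nat_lit 0) (nat_lit 7631918107988) (nat_lit 152) (nat_lit 33979448860790) (nat_lit 0) (nat_lit 6929230558415) (nat_lit 4) (nat_lit 5) (nat_lit 6) (nat_lit 4) (nat_lit 4) (nat_lit 4) (nat_lit 421) (nat_lit 377) (nat_lit 222)) (XT.lf (nat_lit 0) (nat_lit 14621686064022) (nat_lit 152) (nat_lit 26388381448370) (nat_lit 0) (nat_lit 13918998514412) (nat_lit 4) (nat_lit 5) (nat_lit 6) (nat_lit 4) (nat_lit 4) (nat_lit 4) (nat_lit 422) (nat_lit 377) (nat_lit 221)))) (XT.nd (nat_lit 156) (nat_lit 76) (nat_lit 0) (XT.nd (nat_lit 78)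 (nat_lit 0) (nat_lit 0) (XT.lf (nat_lit 0) (nat_lit 22659919212893) (nat_lit 152) (nat_lit 17658653925296) (nat_lit 0) (nat_lit 21957231663253) (nat_lit 4) (nat_lit 5) (nat_lit 6) (nat_lit 4) (nat_lit 4) (nat_lit 4) (nat_lit 423) (nat_lit 377) (nat_lit 220)) (XT.lf (nat_lit 0) (nat_lit 31903887333603) (nat_lit 152) (nat_lit 7619467274811) (nat_lit 0) (nat_lit 31201199783935) (nat_lit 4) (nat_lit 5) (nat_lit 6) (nat_lit 4) (nat_lit 4) (nat_lit 4) (nat_lit 424) (nat_lit 377) (nat_lit 219))) (XT.nd (nat_lit 78) (nat_lit 0) (nat_lit 0) (XT.lf (nat_lit 0) (nat_lit 4309235297354) (nat_lit 76) (nat_lit 38403651618833) (nat_lit 76) (nat_lit 37700964069141) (nat_lit 3) (nat_lit 4) (nat_lit 4) (nat_lit 5) (nat_lit 4) (nat_lit 4) (nat_lit 425) (nat_lit 377) (nat_lit 218)) (XT.lf (nat_lit 0) (nat_lit 18883567474335) (nat_lit 76) (nat_lit 36657959296234) (nat_lit 76) (nat_lit 35955271746522) (nat_lit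 3) (nat_lit 4) (nat_lit 4) (nat_lit 5) (nat_lit 4) (nat_lit 4) (nat_lit 426) (nat_lit 377) (nat_lit 217)))))) (XT.nd (nat_lit 468) (nat_lit 532) (nat_lit 0) (XT.nd (nat_lit 234) (nat_lit 152) (nat_lit 0) (XT.nd (nat_lit 78) (nat_lit 0) (nat_lit 0) (XT.lf (nat_lit 0) (nat_lit 118318953317) (nat_lit 380) (nat_lit 146031807651) (nat_lit 380) (nat_lit 146031807651) (nat_lit 37) (nat_lit 3) (nat_lit 42) (nat_lit 3) (nat_lit 42) (nat_lit 5) (nat_lit 378) (nat_lit 378) (nat_lit 264)) (XT.nd (nat_lit 78) (nat_lit 0) (nat_lit 76) (XT.lf (nat_lit 76) (nat_lit 126093250855) (nat_lit 0) (nat_lit 133513841325) (nat_lit 380) (nat_lit 621932228927) (nat_lit 38) (nat_lit 5) (nat_lit 37) (nat_lit 3) (nat_lit 42) (nat_lit 5) (nat_lit 379) (nat_lit 378) (nat_lit 263)) (XT.lf (nat_lit 0) (nat_lit 315305536807) (nat_lit 304) (nat_lit 323358922241) (nat_lit 380) (nat_lit 308372591328) (nat_lit 38) (nat_lit 5)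 (nat_lit 42) (nat_lit 5) (nat_lit 43) (nat_lit 5) (nat_lit 380) (nat_lit 378) (nat_lit 262)))) (XT.nd (nat_lit 78) (nat_lit 228) (nat_lit 0) (XT.lf (nat_lit 76) (nat_lit 183521870853) (nat_lit 0) (nat_lit 209793914493) (nat_lit 380) (nat_lit 626950098113) (nat_lit 39) (nat_lit 5) (nat_lit 38) (nat_lit 5) (nat_lit 43) (nat_lit 5) (nat_lit 381) (nat_lit 378) (nat_lit 261)) (XT.nd (nat_lit 78) (nat_lit 304) (nat_lit 0) (XT.lf (nat_lit 0) (nat_lit 512470597357) (nat_lit 304) (nat_lit 311707895931) (nat_lit 76) (nat_lit 275884094293) (nat_lit 39) (nat_lit 5) (nat_lit 43) (nat_lit 5) (nat_lit 40) (nat_lit 5) (nat_lit 382) (nat_lit 378) (nat_lit 260)) (XT.lf (nat_lit 0) (nat_lit 309661663468) (nat_lit 304) (nat_lit 362649572292) (nat_lit 380) (nat_lit 516095670877) (nat_lit 35) (nat_lit 5) (nat_lit 39) (nat_lit 5) (nat_lit 40) (nat_lit 5) (nat_lit 383) (nat_lit 378) (nat_lit 259))))) (XT.nd (nat_lit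 234) (nat_lit 380) (nat_lit 0) (XT.nd (nat_lit 78) (nat_lit 152) (nat_lit 0) (XT.lf (nat_lit 0) (nat_lit 880158700293) (nat_lit 380) (nat_lit 236027357043) (nat_lit 76) (nat_lit 170212206668) (nat_lit 35) (nat_lit 5) (nat_lit 40) (nat_lit 5) (nat_lit 36) (nat_lit 5) (nat_lit 384) (nat_lit 378) (nat_lit 258)) (XT.nd (nat_lit 78) (nat_lit 0) (nat_lit 0) (XT.lf (nat_lit 0) (nat_lit 533307934558) (nat_lit 152) (nat_lit 625227512813) (nat_lit 228) (nat_lit 234650053174) (nat_lit 33) (nat_lit 5) (nat_lit 35) (nat_lit 5) (nat_lit 36) (nat_lit 5) (nat_lit 385) (nat_lit 378) (nat_lit 257)) (XT.lf (nat_lit 0) (nat_lit 1444569766338) (nat_lit 152) (nat_lit 46436725886) (nat_lit 228) (nat_lit 23133662493) (nat_lit 33) (nat_lit 5) (nat_lit 35) (nat_lit 5) (nat_lit 36) (nat_lit 5) (nat_lit 386) (nat_lit 378) (nat_lit 256)))) (XT.nd (nat_lit 156) (nat_lit 76) (nat_lit 0) (XT.nd (nat_lit 78) (nat_lit 152)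 (nat_lit 0) (XT.lf (nat_lit 0) (nat_lit 266118919102) (nat_lit 152) (nat_lit 762781487034) (nat_lit 76) (nat_lit 613129787379) (nat_lit 31) (nat_lit 5) (nat_lit 33) (nat_lit 5) (nat_lit 32) (nat_lit 5) (nat_lit 387) (nat_lit 378) (nat_lit 255)) (XT.lf (nat_lit 0) (nat_lit 204358537113) (nat_lit 152) (nat_lit 406515528531) (nat_lit 228) (nat_lit 1175891963429) (nat_lit 29) (nat_lit 5) (nat_lit 31) (nat_lit 5) (nat_lit 32) (nat_lit 5) (nat_lit 388) (nat_lit 378) (nat_lit 254))) (XT.nd (nat_lit 78) (nat_lit 76) (nat_lit 0) (XT.lf (nat_lit 0) (nat_lit 1061918278899) (nat_lit 228) (nat_lit 559638679903) (nat_lit 76) (nat_lit 323468911954) (nat_lit 29) (nat_lit 5) (nat_lit 32) (nat_lit 5) (nat_lit 30) (nat_lit 4) (nat_lit 389) (nat_lit 378) (nat_lit 253)) (XT.lf (nat_lit 0) (nat_lit 655549074595) (nat_lit 76) (nat_lit 971572815508) (nat_lit 152) (nat_lit 492927383696) (nat_lit 28) (nat_lit 5)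 (nat_lit 29) (nat_lit 5) (nat_lit 30) (nat_lit 4) (nat_lit 390) (nat_lit 378) (nat_lit 252))))))) (XT.nd (nat_lit 1014) (nat_lit 684) (nat_lit 0) (XT.nd (nat_lit 468) (nat_lit 532) (nat_lit 0) (XT.nd (nat_lit 234) (nat_lit 152) (nat_lit 0) (XT.nd (nat_lit 78) (nat_lit 228) (nat_lit 0) (XT.lf (nat_lit 0) (nat_lit 2115910739984) (nat_lit 76) (nat_lit 190449137900) (nat_lit 152) (nat_lit 10578234182) (nat_lit 28) (nat_lit 5) (nat_lit 29) (nat_lit 5) (nat_lit 30) (nat_lit 4) (nat_lit 391) (nat_lit 378) (nat_lit 251)) (XT.nd (nat_lit 78) (nat_lit 76) (nat_lit 0) (XT.lf (nat_lit 0) (nat_lit 584609384335) (nat_lit 152) (nat_lit 1215057653871) (nat_lit 76) (nat_lit 726974432969) (nat_lit 26) (nat_lit 5) (nat_lit 28) (nat_lit 5) (nat_lit 27) (nat_lit 4) (nat_lit 392) (nat_lit 378) (nat_lit 250)) (XT.lf (nat_lit 0) (nat_lit 326444541281) (nat_lit 76) (nat_lit 975142610792) (nat_lit 152) (nat_lit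 1461098370842) (nat_lit 25) (nat_lit 5) (nat_lit 26) (nat_lit 5) (nat_lit 27) (nat_lit 4) (nat_lit 393) (nat_lit 378) (nat_lit 249)))) (XT.nd (nat_lit 78) (nat_lit 152) (nat_lit 0) (XT.lf (nat_lit 0) (nat_lit 2191534944038) (nat_lit 152) (nat_lit 790790043043) (nat_lit 0) (nat_lit 41997691476) (nat_lit 25) (nat_lit 5) (nat_lit 27) (nat_lit 4) (nat_lit 25) (nat_lit 4) (nat_lit 394) (nat_lit 378) (nat_lit 248)) (XT.nd (nat_lit 78) (nat_lit 76) (nat_lit 0) (XT.lf (nat_lit 0) (nat_lit 1158149658136) (nat_lit 76) (nat_lit 2151217112827) (nat_lit 76) (nat_lit 1679856659) (nat_lit 24) (nat_lit 4) (nat_lit 25) (nat_lit 5) (nat_lit 25) (nat_lit 4) (nat_lit 395) (nat_lit 378) (nat_lit 247)) (XT.lf (nat_lit 0) (nat_lit 912459304504) (nat_lit 152) (nat_lit 187749754617) (nat_lit 76) (nat_lit 2528148284191) (nat_lit 23) (nat_lit 5) (nat_lit 25) (nat_lit 5) (nat_lit 24) (nat_lit 4) (nat_lit 396) (nat_lit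 378) (nat_lit 246))))) (XT.nd (nat_lit 234) (nat_lit 304) (nat_lit 0) (XT.nd (nat_lit 78) (nat_lit 152) (nat_lit 0) (XT.lf (nat_lit 0) (nat_lit 2066712782548) (nat_lit 152) (nat_lit 1713515124628) (nat_lit 0) (nat_lit 197549946000) (nat_lit 22) (nat_lit 5) (nat_lit 24) (nat_lit 4) (nat_lit 22) (nat_lit 4) (nat_lit 397) (nat_lit 378) (nat_lit 245)) (XT.nd (nat_lit 78) (nat_lit 76) (nat_lit 0) (XT.lf (nat_lit 0) (nat_lit 740065804903) (nat_lit 76) (nat_lit 2747355462714) (nat_lit 76) (nat_lit 878192624105) (nat_lit 21) (nat_lit 4) (nat_lit 22) (nat_lit 5) (nat_lit 22) (nat_lit 4) (nat_lit 398) (nat_lit 378) (nat_lit 244)) (XT.lf (nat_lit 0) (nat_lit 375882353697) (nat_lit 152) (nat_lit 1061015779951) (nat_lit 76) (nat_lit 3358728852311) (nat_lit 20) (nat_lit 5) (nat_lit 22) (nat_lit 5) (nat_lit 21) (nat_lit 4) (nat_lit 399) (nat_lit 378) (nat_lit 243)))) (XT.nd (nat_lit 156) (nat_lit 228)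 (nat_lit 0) (XT.nd (nat_lit 78) (nat_lit 0) (nat_lit 0) (XT.lf (nat_lit 0) (nat_lit 1820976333218) (nat_lit 152) (nat_lit 3253352873608) (nat_lit 0) (nat_lit 195617340208) (nat_lit 19) (nat_lit 5) (nat_lit 21) (nat_lit 4) (nat_lit 19) (nat_lit 4) (nat_lit 400) (nat_lit 378) (nat_lit 242)) (XT.lf (nat_lit 0) (nat_lit 3609361372666) (nat_lit 152) (nat_lit 203071246675) (nat_lit 0) (nat_lit 1984002378478) (nat_lit 19) (nat_lit 5) (nat_lit 21) (nat_lit 4) (nat_lit 19) (nat_lit 4) (nat_lit 401) (nat_lit 378) (nat_lit 241))) (XT.nd (nat_lit 78) (nat_lit 152) (nat_lit 0) (XT.lf (nat_lit 0) (nat_lit 3627717080040) (nat_lit 76) (nat_lit 2188503113766) (nat_lit 76) (nat_lit 563144118552) (nat_lit 18) (nat_lit 4) (nat_lit 19) (nat_lit 5) (nat_lit 19) (nat_lit 4) (nat_lit 402) (nat_lit 378) (nat_lit 240)) (XT.lf (nat_lit 0) (nat_lit 1046450751409) (nat_lit 76) (nat_lit 196251456736) (nat_lit 152) (nat_lit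 5790761330019) (nat_lit 16) (nat_lit 5) (nat_lit 17) (nat_lit 5) (nat_lit 18) (nat_lit 4) (nat_lit 403) (nat_lit 378) (nat_lit 239)))))) (XT.nd (nat_lit 468) (nat_lit 380) (nat_lit 0) (XT.nd (nat_lit 234) (nat_lit 228) (nat_lit 0) (XT.nd (nat_lit 78) (nat_lit 76) (nat_lit 0) (XT.lf (nat_lit 0) (nat_lit 3499198466198) (nat_lit 152) (nat_lit 2160999674885) (nat_lit 0) (nat_lit 2085842816738) (nat_lit 16) (nat_lit 5) (nat_lit 18) (nat_lit 4) (nat_lit 16) (nat_lit 4) (nat_lit 404) (nat_lit 378) (nat_lit 238)) (XT.nd (nat_lit 78) (nat_lit 0) (nat_lit 0) (XT.lf (nat_lit 0) (nat_lit 2447459896552) (nat_lit 76) (nat_lit 3757398666922) (nat_lit 76) (nat_lit 2344043016876) (nat_lit 15) (nat_lit 4) (nat_lit 16) (nat_lit 5) (nat_lit 16) (nat_lit 4) (nat_lit 405) (nat_lit 378) (nat_lit 237)) (XT.lf (nat_lit 0) (nat_lit 7990055294974) (nat_lit 76) (nat_lit 1439273725068) (nat_lit 76) (nat_lit 25918074511)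 (nat_lit 15) (nat_lit 4) (nat_lit 16) (nat_lit 5) (nat_lit 16) (nat_lit 4) (nat_lit 406) (nat_lit 378) (nat_lit 236)))) (XT.nd (nat_lit 78) (nat_lit 76) (nat_lit 0) (XT.lf (nat_lit 0) (nat_lit 2639809656900) (nat_lit 152) (nat_lit 6395296710406) (nat_lit 0) (nat_lit 1410804742987) (nat_lit 13) (nat_lit 5) (nat_lit 15) (nat_lit 4) (nat_lit 13) (nat_lit 4) (nat_lit 407) (nat_lit 378) (nat_lit 235)) (XT.nd (nat_lit 78) (nat_lit 76) (nat_lit 0) (XT.lf (nat_lit 0) (nat_lit 5851516566950) (nat_lit 152) (nat_lit 1088645349226) (nat_lit 0) (nat_lit 4622511652702) (nat_lit 13) (nat_lit 5) (nat_lit 15) (nat_lit 4) (nat_lit 13) (nat_lit 4) (nat_lit 408) (nat_lit 378) (nat_lit 234)) (XT.lf (nat_lit 0) (nat_lit 5504008621247) (nat_lit 76) (nat_lit 4268880150409) (nat_lit 76) (nat_lit 3039875235870) (nat_lit 12) (nat_lit 4) (nat_lit 13) (nat_lit 5) (nat_lit 13) (nat_lit 4) (nat_lit 409) (nat_lit 378)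 (nat_lit 233))))) (XT.nd (nat_lit 234) (nat_lit 228) (nat_lit 0) (XT.nd (nat_lit 78) (nat_lit 76) (nat_lit 0) (XT.lf (nat_lit 0) (nat_lit 88857429797) (nat_lit 152) (nat_lit 1037961440727) (nat_lit 76) (nat_lit 13114407326341) (nat_lit 11) (nat_lit 5) (nat_lit 13) (nat_lit 5) (nat_lit 12) (nat_lit 4) (nat_lit 410) (nat_lit 378) (nat_lit 232)) (XT.nd (nat_lit 78) (nat_lit 0) (nat_lit 0) (XT.lf (nat_lit 0) (nat_lit 3772611356812) (nat_lit 152) (nat_lit 9326181030046) (nat_lit 0) (nat_lit 2703911430714) (nat_lit 10) (nat_lit 5) (nat_lit 12) (nat_lit 4) (nat_lit 10) (nat_lit 4) (nat_lit 411) (nat_lit 378) (nat_lit 231)) (XT.lf (nat_lit 0) (nat_lit 8119427158575) (nat_lit 152) (nat_lit 2411673872645) (nat_lit 0) (nat_lit 7050727232310) (nat_lit 10) (nat_lit 5) (nat_lit 12) (nat_lit 4) (nat_lit 10) (nat_lit 4) (nat_lit 412) (nat_lit 378) (nat_lit 230)))) (XT.nd (nat_lit 156) (nat_lit 152) (nat_lit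 0) (XT.nd (nat_lit 78) (nat_lit 0) (nat_lit 0) (XT.lf (nat_lit 0) (nat_lit 6081419361182) (nat_lit 76) (nat_lit 7288664575360) (nat_lit 76) (nat_lit 6219964648950) (nat_lit 9) (nat_lit 4) (nat_lit 10) (nat_lit 5) (nat_lit 10) (nat_lit 4) (nat_lit 413) (nat_lit 378) (nat_lit 229)) (XT.lf (nat_lit 0) (nat_lit 16119515834595) (nat_lit 76) (nat_lit 3414888166130) (nat_lit 76) (nat_lit 2346188239595) (nat_lit 9) (nat_lit 4) (nat_lit 10) (nat_lit 5) (nat_lit 10) (nat_lit 4) (nat_lit 414) (nat_lit 378) (nat_lit 228))) (XT.nd (nat_lit 78) (nat_lit 0) (nat_lit 0) (XT.lf (nat_lit 0) (nat_lit 2113923697658) (nat_lit 152) (nat_lit 21174127685858) (nat_lit 0) (nat_lit 1184619413619) (nat_lit 7) (nat_lit 5) (nat_lit 9) (nat_lit 4) (nat_lit 7) (nat_lit 4) (nat_lit 415) (nat_lit 378) (nat_lit 227)) (XT.lf (nat_lit 0) (nat_lit 7480948677725) (nat_lit 152) (nat_lit 13332494392922) (nat_lit 0) (nat_lit 6551644393602)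 (nat_lit 7) (nat_lit 5) (nat_lit 9) (nat_lit 4) (nat_lit 7) (nat_lit 4) (nat_lit 416) (nat_lit 378) (nat_lit 226))))))))
noncomputable def xc104 : XT := (XT.nd (nat_lit 51324) (nat_lit 0) (nat_lit 228) (XT.nd (nat_lit 50310) (nat_lit 0) (nat_lit 1748) (XT.nd (nat_lit 468) (nat_lit 76) (nat_lit 0) (XT.nd (nat_lit 234) (nat_lit 152) (nat_lit 0) (XT.nd (nat_lit 78) (nat_lit 76) (nat_lit 0) (XT.lf (nat_lit 0) (nat_lit 13653027403936) (nat_lit 152) (nat_lit 4314616107882) (nat_lit 0) (nat_lit 12723723119742) (nat_lit 7) (nat_lit 5) (nat_lit 9) (nat_lit 4) (nat_lit 7) (nat_lit 4) (nat_lit 417) (nat_lit 378) (nat_lit 225)) (XT.nd (nat_lit 78) (nat_lit 0) (nat_lit 0) (XT.lf (nat_lit 0) (nat_lit 6647774801243) (nat_lit 76) (nat_lit 14378413315188) (nat_lit 76) (nat_lit 13449109030932) (nat_lit 6) (nat_lit 4) (nat_lit 7) (nat_lit 5) (nat_lit 7) (nat_lit 4) (nat_lit 418) (nat_lit 378) (nat_lit 224))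 (XT.lf (nat_lit 0) (nat_lit 19739428360067) (nat_lit 76) (nat_lit 9991431326113) (nat_lit 76) (nat_lit 9062127041802) (nat_lit 6) (nat_lit 4) (nat_lit 7) (nat_lit 5) (nat_lit 7) (nat_lit 4) (nat_lit 419) (nat_lit 378) (nat_lit 223)))) (XT.nd (nat_lit 78) (nat_lit 152) (nat_lit 0) (XT.lf (nat_lit 0) (nat_lit 34794829951388) (nat_lit 76) (nat_lit 4946402039378) (nat_lit 76) (nat_lit 4017097755020) (nat_lit 6) (nat_lit 4) (nat_lit 7) (nat_lit 5) (nat_lit 7) (nat_lit 4) (nat_lit 420) (nat_lit 378) (nat_lit 222)) (XT.nd (nat_lit 78) (nat_lit 0) (nat_lit 0) (XT.lf (nat_lit 0) (nat_lit 1786937874521) (nat_lit 152) (nat_lit 46667433588751) (nat_lit 0) (nat_lit 978847192434) (nat_lit 4) (nat_lit 5) (nat_lit 6) (nat_lit 4) (nat_lit 4) (nat_lit 4) (nat_lit 421) (nat_lit 378) (nat_lit 221)) (XT.lf (nat_lit 0) (nat_lit 8776705830291) (nat_lit 152) (nat_lit 39076366176893) (nat_lit 0) (nat_lit 7968615148173)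 (nat_lit 4) (nat_lit 5) (nat_lit 6) (nat_lit 4) (nat_lit 4) (nat_lit 4) (nat_lit 422) (nat_lit 378) (nat_lit 220))))) (XT.nd (nat_lit 234) (nat_lit 76) (nat_lit 0) (XT.nd (nat_lit 78) (nat_lit 0) (nat_lit 0) (XT.lf (nat_lit 0) (nat_lit 16814938978933) (nat_lit 152) (nat_lit 30346638654308) (nat_lit 0) (nat_lit 16006848296788) (nat_lit 4) (nat_lit 5) (nat_lit 6) (nat_lit 4) (nat_lit 4) (nat_lit 4) (nat_lit 423) (nat_lit 378) (nat_lit 219)) (XT.nd (nat_lit 78) (nat_lit 0) (nat_lit 0) (XT.lf (nat_lit 0) (nat_lit 26058907099443) (nat_lit 152) (nat_lit 20307452004248) (nat_lit 0) (nat_lit 25250816417275) (nat_lit 4) (nat_lit 5) (nat_lit 6) (nat_lit 4) (nat_lit 4) (nat_lit 4) (nat_lit 424) (nat_lit 378) (nat_lit 218)) (XT.lf (nat_lit 0) (nat_lit 36689470437657) (nat_lit 152) (nat_lit 8762387357475) (nat_lit 0) (nat_lit 35881379755468) (nat_lit 4) (nat_lit 5) (nat_lit 6) (nat_lit 4) (nat_lit 4)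 (nat_lit 4) (nat_lit 425) (nat_lit 378) (nat_lit 217)))) (XT.nd (nat_lit 49452) (nat_lit 0) (nat_lit 2584) (XT.lf (nat_lit 0) (nat_lit 4955620600126) (nat_lit 76) (nat_lit 44164199357317) (nat_lit 76) (nat_lit 43356108675110) (nat_lit 3) (nat_lit 4) (nat_lit 4) (nat_lit 5) (nat_lit 4) (nat_lit 4) (nat_lit 426) (nat_lit 378) (nat_lit 216)) (XT.nd (nat_lit 78) (nat_lit 0) (nat_lit 0) (XT.lf (nat_lit 0) (nat_lit 136066882516) (nat_lit 380) (nat_lit 167936529212) (nat_lit 380) (nat_lit 167936529212) (nat_lit 37) (nat_lit 3) (nat_lit 42) (nat_lit 3) (nat_lit 42) (nat_lit 5) (nat_lit 379) (nat_lit 379) (nat_lit 262)) (XT.lf (nat_lit 76) (nat_lit 145007333148) (nat_lit 0) (nat_lit 153540976695) (nat_lit 380) (nat_lit 715221886284) (nat_lit 38) (nat_lit 5) (nat_lit 37) (nat_lit 3) (nat_lit 42) (nat_lit 5) (nat_lit 380) (nat_lit 379) (nat_lit 261)))))) (XT.nd (nat_lit 468) (nat_lit 532) (nat_lit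 0) (XT.nd (nat_lit 234) (nat_lit 380) (nat_lit 0) (XT.nd (nat_lit 78) (nat_lit 0) (nat_lit 0) (XT.lf (nat_lit 0) (nat_lit 362601498968) (nat_lit 304) (nat_lit 371862656002) (nat_lit 380) (nat_lit 354628433155) (nat_lit 38) (nat_lit 5) (nat_lit 42) (nat_lit 5) (nat_lit 43) (nat_lit 5) (nat_lit 381) (nat_lit 379) (nat_lit 260)) (XT.nd (nat_lit 78) (nat_lit 0) (nat_lit 76) (XT.lf (nat_lit 76) (nat_lit 211050251302) (nat_lit 0) (nat_lit 241263020448) (nat_lit 380) (nat_lit 720992476383) (nat_lit 39) (nat_lit 5) (nat_lit 38) (nat_lit 5) (nat_lit 43) (nat_lit 5) (nat_lit 382) (nat_lit 379) (nat_lit 259)) (XT.lf (nat_lit 0) (nat_lit 589341289418) (nat_lit 304) (nat_lit 358463977326) (nat_lit 76) (nat_lit 317266693559) (nat_lit 39) (nat_lit 5) (nat_lit 43) (nat_lit 5) (nat_lit 40) (nat_lit 5) (nat_lit 383) (nat_lit 379) (nat_lit 258)))) (XT.nd (nat_lit 78) (nat_lit 152) (nat_lit 0) (XT.lf (nat_lit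 0) (nat_lit 356111011301) (nat_lit 304) (nat_lit 417047002987) (nat_lit 380) (nat_lit 593509914330) (nat_lit 35) (nat_lit 5) (nat_lit 39) (nat_lit 5) (nat_lit 40) (nat_lit 5) (nat_lit 384) (nat_lit 379) (nat_lit 257)) (XT.nd (nat_lit 78) (nat_lit 152) (nat_lit 0) (XT.lf (nat_lit 0) (nat_lit 1012182586534) (nat_lit 380) (nat_lit 271431363108) (nat_lit 76) (nat_lit 195744041746) (nat_lit 35) (nat_lit 5) (nat_lit 40) (nat_lit 5) (nat_lit 36) (nat_lit 5) (nat_lit 385) (nat_lit 379) (nat_lit 256)) (XT.lf (nat_lit 0) (nat_lit 613304217801) (nat_lit 152) (nat_lit 719011621136) (nat_lit 228) (nat_lit 269847475491) (nat_lit 33) (nat_lit 5) (nat_lit 35) (nat_lit 5) (nat_lit 36) (nat_lit 5) (nat_lit 386) (nat_lit 379) (nat_lit 255))))) (XT.nd (nat_lit 234) (nat_lit 228) (nat_lit 0) (XT.nd (nat_lit 78) (nat_lit 304) (nat_lit 0) (XT.lf (nat_lit 0) (nat_lit 1661255312210) (nat_lit 152) (nat_lit 53402218595)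 (nat_lit 228) (nat_lit 26603637381) (nat_lit 33) (nat_lit 5) (nat_lit 35) (nat_lit 5) (nat_lit 36) (nat_lit 5) (nat_lit 387) (nat_lit 379) (nat_lit 254)) (XT.nd (nat_lit 78) (nat_lit 152) (nat_lit 0) (XT.lf (nat_lit 0) (nat_lit 306036820308) (nat_lit 152) (nat_lit 877198617979) (nat_lit 76) (nat_lit 705099274734) (nat_lit 31) (nat_lit 5) (nat_lit 33) (nat_lit 5) (nat_lit 32) (nat_lit 5) (nat_lit 388) (nat_lit 379) (nat_lit 253)) (XT.lf (nat_lit 0) (nat_lit 235012405603) (nat_lit 152) (nat_lit 467492828607) (nat_lit 228) (nat_lit 1352275690398) (nat_lit 29) (nat_lit 5) (nat_lit 31) (nat_lit 5) (nat_lit 32) (nat_lit 5) (nat_lit 389) (nat_lit 379) (nat_lit 252)))) (XT.nd (nat_lit 156) (nat_lit 152) (nat_lit 0) (XT.nd (nat_lit 78) (nat_lit 76) (nat_lit 0) (XT.lf (nat_lit 0) (nat_lit 1221206072845) (nat_lit 228) (nat_lit 643584398811) (nat_lit 76) (nat_lit 371989271881) (nat_lit 29) (nat_lit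 5) (nat_lit 32) (nat_lit 5) (nat_lit 30) (nat_lit 4) (nat_lit 390) (nat_lit 379) (nat_lit 251)) (XT.lf (nat_lit 0) (nat_lit 753881515086) (nat_lit 76) (nat_lit 1117308707131) (nat_lit 152) (nat_lit 566866435349) (nat_lit 28) (nat_lit 5) (nat_lit 29) (nat_lit 5) (nat_lit 30) (nat_lit 4) (nat_lit 391) (nat_lit 379) (nat_lit 250))) (XT.nd (nat_lit 78) (nat_lit 152) (nat_lit 0) (XT.lf (nat_lit 0) (nat_lit 2433297419939) (nat_lit 76) (nat_lit 219016481888) (nat_lit 152) (nat_lit 12164920699) (nat_lit 28) (nat_lit 5) (nat_lit 29) (nat_lit 5) (nat_lit 30) (nat_lit 4) (nat_lit 392) (nat_lit 379) (nat_lit 249)) (XT.lf (nat_lit 0) (nat_lit 672300834572) (nat_lit 152) (nat_lit 1397316226951) (nat_lit 76) (nat_lit 836020623932) (nat_lit 26) (nat_lit 5) (nat_lit 28) (nat_lit 5) (nat_lit 27) (nat_lit 4) (nat_lit 393) (nat_lit 379) (nat_lit 248))))))) (XT.nd (nat_lit 1014) (nat_lit 684) (nat_lit 0) (XT.nd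 (nat_lit 468) (nat_lit 456) (nat_lit 0) (XT.nd (nat_lit 234) (nat_lit 228) (nat_lit 0) (XT.nd (nat_lit 78) (nat_lit 76) (nat_lit 0) (XT.lf (nat_lit 0) (nat_lit 375411294064) (nat_lit 76) (nat_lit 1121413970815) (nat_lit 152) (nat_lit 1680263080466) (nat_lit 25) (nat_lit 5) (nat_lit 26) (nat_lit 5) (nat_lit 27) (nat_lit 4) (nat_lit 394) (nat_lit 379) (nat_lit 247)) (XT.nd (nat_lit 78) (nat_lit 76) (nat_lit 0) (XT.lf (nat_lit 0) (nat_lit 2520265221560) (nat_lit 152) (nat_lit 909408483161) (nat_lit 0) (nat_lit 48297370226) (nat_lit 25) (nat_lit 5) (nat_lit 27) (nat_lit 4) (nat_lit 25) (nat_lit 4) (nat_lit 395) (nat_lit 379) (nat_lit 246)) (XT.lf (nat_lit 0) (nat_lit 1331872170180) (nat_lit 76) (nat_lit 2473899650282) (nat_lit 76) (nat_lit 1931796221) (nat_lit 24) (nat_lit 4) (nat_lit 25) (nat_lit 5) (nat_lit 25) (nat_lit 4) (nat_lit 396) (nat_lit 379) (nat_lit 245)))) (XT.nd (nat_lit 78) (nat_lit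 152) (nat_lit 0) (XT.lf (nat_lit 0) (nat_lit 1049328231025) (nat_lit 152) (nat_lit 215912159727) (nat_lit 76) (nat_lit 2907370549427) (nat_lit 23) (nat_lit 5) (nat_lit 25) (nat_lit 5) (nat_lit 24) (nat_lit 4) (nat_lit 397) (nat_lit 379) (nat_lit 244)) (XT.nd (nat_lit 78) (nat_lit 76) (nat_lit 0) (XT.lf (nat_lit 0) (nat_lit 2376719730137) (nat_lit 152) (nat_lit 1970542334598) (nat_lit 0) (nat_lit 227182461882) (nat_lit 22) (nat_lit 5) (nat_lit 24) (nat_lit 4) (nat_lit 22) (nat_lit 4) (nat_lit 398) (nat_lit 379) (nat_lit 243)) (XT.lf (nat_lit 0) (nat_lit 851075731693) (nat_lit 76) (nat_lit 3159458754655) (nat_lit 76) (nat_lit 1009921484841) (nat_lit 21) (nat_lit 4) (nat_lit 22) (nat_lit 5) (nat_lit 22) (nat_lit 4) (nat_lit 399) (nat_lit 379) (nat_lit 242))))) (XT.nd (nat_lit 234) (nat_lit 304) (nat_lit 0) (XT.nd (nat_lit 78) (nat_lit 76) (nat_lit 0) (XT.lf (nat_lit 0) (nat_lit 432264732798)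 (nat_lit 152) (nat_lit 1220168095653) (nat_lit 76) (nat_lit 3862538201493) (nat_lit 20) (nat_lit 5) (nat_lit 22) (nat_lit 5) (nat_lit 21) (nat_lit 4) (nat_lit 400) (nat_lit 379) (nat_lit 241)) (XT.nd (nat_lit 78) (nat_lit 0) (nat_lit 0) (XT.lf (nat_lit 0) (nat_lit 2094122808882) (nat_lit 152) (nat_lit 3741355752991) (nat_lit 0) (nat_lit 224959963361) (nat_lit 19) (nat_lit 5) (nat_lit 21) (nat_lit 4) (nat_lit 19) (nat_lit 4) (nat_lit 401) (nat_lit 379) (nat_lit 240)) (XT.lf (nat_lit 0) (nat_lit 4150765600898) (nat_lit 152) (nat_lit 233531888757) (nat_lit 0) (nat_lit 2281602754486) (nat_lit 19) (nat_lit 5) (nat_lit 21) (nat_lit 4) (nat_lit 19) (nat_lit 4) (nat_lit 402) (nat_lit 379) (nat_lit 239)))) (XT.nd (nat_lit 156) (nat_lit 76) (nat_lit 0) (XT.nd (nat_lit 78) (nat_lit 152) (nat_lit 0) (XT.lf (nat_lit 0) (nat_lit 4171874684924) (nat_lit 76) (nat_lit 2516778559147) (nat_lit 76) (nat_lit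 647615711960) (nat_lit 18) (nat_lit 4) (nat_lit 19) (nat_lit 5) (nat_lit 19) (nat_lit 4) (nat_lit 403) (nat_lit 379) (nat_lit 238)) (XT.lf (nat_lit 0) (nat_lit 1203418407122) (nat_lit 76) (nat_lit 225689153335) (nat_lit 152) (nat_lit 6659375505268) (nat_lit 16) (nat_lit 5) (nat_lit 17) (nat_lit 5) (nat_lit 18) (nat_lit 4) (nat_lit 404) (nat_lit 379) (nat_lit 237))) (XT.nd (nat_lit 78) (nat_lit 76) (nat_lit 0) (XT.lf (nat_lit 0) (nat_lit 4024078255256) (nat_lit 152) (nat_lit 2485149586763) (nat_lit 0) (nat_lit 2398719256606) (nat_lit 16) (nat_lit 5) (nat_lit 18) (nat_lit 4) (nat_lit 16) (nat_lit 4) (nat_lit 405) (nat_lit 379) (nat_lit 236)) (XT.lf (nat_lit 0) (nat_lit 2814578918602) (nat_lit 76) (nat_lit 4321008447582) (nat_lit 76) (nat_lit 2695649448490) (nat_lit 15) (nat_lit 4) (nat_lit 16) (nat_lit 5) (nat_lit 16) (nat_lit 4) (nat_lit 406) (nat_lit 379) (nat_lit 235)))))) (XT.nd (nat_lit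 468) (nat_lit 304) (nat_lit 0) (XT.nd (nat_lit 234) (nat_lit 228) (nat_lit 0) (XT.nd (nat_lit 78) (nat_lit 152) (nat_lit 0) (XT.lf (nat_lit 0) (nat_lit 9188563621887) (nat_lit 76) (nat_lit 1655164766977) (nat_lit 76) (nat_lit 29805767499) (nat_lit 15) (nat_lit 4) (nat_lit 16) (nat_lit 5) (nat_lit 16) (nat_lit 4) (nat_lit 407) (nat_lit 379) (nat_lit 234)) (XT.nd (nat_lit 78) (nat_lit 0) (nat_lit 0) (XT.lf (nat_lit 0) (nat_lit 3035781121901) (nat_lit 152) (nat_lit 7354591182577) (nat_lit 0) (nat_lit 1622425469889) (nat_lit 13) (nat_lit 5) (nat_lit 15) (nat_lit 4) (nat_lit 13) (nat_lit 4) (nat_lit 408) (nat_lit 379) (nat_lit 233)) (XT.lf (nat_lit 0) (nat_lit 6729244066311) (nat_lit 152) (nat_lit 1251942121704) (nat_lit 0) (nat_lit 5315888414046) (nat_lit 13) (nat_lit 5) (nat_lit 15) (nat_lit 4) (nat_lit 13) (nat_lit 4) (nat_lit 409) (nat_lit 379) (nat_lit 232)))) (XT.nd (nat_lit 78) (nat_lit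 152) (nat_lit 0) (XT.lf (nat_lit 0) (nat_lit 6329609942980) (nat_lit 76) (nat_lit 4909212158058) (nat_lit 76) (nat_lit 3495856505573) (nat_lit 12) (nat_lit 4) (nat_lit 13) (nat_lit 5) (nat_lit 13) (nat_lit 4) (nat_lit 410) (nat_lit 379) (nat_lit 231)) (XT.nd (nat_lit 78) (nat_lit 76) (nat_lit 0) (XT.lf (nat_lit 0) (nat_lit 102186056686) (nat_lit 152) (nat_lit 1193655630800) (nat_lit 76) (nat_lit 15081568437046) (nat_lit 11) (nat_lit 5) (nat_lit 13) (nat_lit 5) (nat_lit 12) (nat_lit 4) (nat_lit 411) (nat_lit 379) (nat_lit 230)) (XT.lf (nat_lit 0) (nat_lit 4338503072702) (nat_lit 152) (nat_lit 10725108158465) (nat_lit 0) (nat_lit 3109498157186) (nat_lit 10) (nat_lit 5) (nat_lit 12) (nat_lit 4) (nat_lit 10) (nat_lit 4) (nat_lit 412) (nat_lit 379) (nat_lit 229))))) (XT.nd (nat_lit 234) (nat_lit 228) (nat_lit 0) (XT.nd (nat_lit 78) (nat_lit 76) (nat_lit 0) (XT.lf (nat_lit 0) (nat_lit 9337341243116)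 (nat_lit 152) (nat_lit 2773424930857) (nat_lit 0) (nat_lit 8108336327474) (nat_lit 10) (nat_lit 5) (nat_lit 12) (nat_lit 4) (nat_lit 10) (nat_lit 4) (nat_lit 413) (nat_lit 379) (nat_lit 228)) (XT.nd (nat_lit 78) (nat_lit 0) (nat_lit 0) (XT.lf (nat_lit 0) (nat_lit 6993632287013) (nat_lit 76) (nat_lit 8381964250258) (nat_lit 76) (nat_lit 7152959334507) (nat_lit 9) (nat_lit 4) (nat_lit 10) (nat_lit 5) (nat_lit 10) (nat_lit 4) (nat_lit 414) (nat_lit 379) (nat_lit 227)) (XT.lf (nat_lit 0) (nat_lit 18537443228614) (nat_lit 76) (nat_lit 3927121381132) (nat_lit 76) (nat_lit 2698116465285) (nat_lit 9) (nat_lit 4) (nat_lit 10) (nat_lit 5) (nat_lit 10) (nat_lit 4) (nat_lit 415) (nat_lit 379) (nat_lit 226)))) (XT.nd (nat_lit 156) (nat_lit 76) (nat_lit 0) (XT.nd (nat_lit 78) (nat_lit 0) (nat_lit 0) (XT.lf (nat_lit 0) (nat_lit 2431012261618) (nat_lit 152) (nat_lit 24350246818969) (nat_lit 0) (nat_lit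 1362312334723) (nat_lit 7) (nat_lit 5) (nat_lit 9) (nat_lit 4) (nat_lit 7) (nat_lit 4) (nat_lit 416) (nat_lit 379) (nat_lit 225)) (XT.lf (nat_lit 0) (nat_lit 8603090987480) (nat_lit 152) (nat_lit 15332368534671) (nat_lit 0) (nat_lit 7534391060522) (nat_lit 7) (nat_lit 5) (nat_lit 9) (nat_lit 4) (nat_lit 7) (nat_lit 4) (nat_lit 417) (nat_lit 379) (nat_lit 224))) (XT.nd (nat_lit 78) (nat_lit 76) (nat_lit 0) (XT.lf (nat_lit 0) (nat_lit 15700981521567) (nat_lit 152) (nat_lit 4961808509117) (nat_lit 0) (nat_lit 14632281594554) (nat_lit 7) (nat_lit 5) (nat_lit 9) (nat_lit 4) (nat_lit 7) (nat_lit 4) (nat_lit 418) (nat_lit 379) (nat_lit 223)) (XT.lf (nat_lit 0) (nat_lit 7644941035698) (nat_lit 76) (nat_lit 16535175304911) (nat_lit 76) (nat_lit 15466475377852) (nat_lit 6) (nat_lit 4) (nat_lit 7) (nat_lit 5) (nat_lit 7) (nat_lit 4) (nat_lit 419) (nat_lit 379) (nat_lit 222))))))))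
noncomputable def xc105 : XT := (XT.nd (nat_lit 51168) (nat_lit 0) (nat_lit 380) (XT.nd (nat_lit 50154) (nat_lit 0) (nat_lit 1900) (XT.nd (nat_lit 468) (nat_lit 228) (nat_lit 0) (XT.nd (nat_lit 234) (nat_lit 0) (nat_lit 0) (XT.nd (nat_lit 78) (nat_lit 152) (nat_lit 0) (XT.lf (nat_lit 0) (nat_lit 22700342626484) (nat_lit 76) (nat_lit 11490146018460) (nat_lit 76) (nat_lit 10421446091359) (nat_lit 6) (nat_lit 4) (nat_lit 7) (nat_lit 5) (nat_lit 7) (nat_lit 4) (nat_lit 420) (nat_lit 379) (nat_lit 221)) (XT.nd (nat_lit 78) (nat_lit 152) (nat_lit 0) (XT.lf (nat_lit 0) (nat_lit 40014054454885) (nat_lit 76) (nat_lit 5688362339572) (nat_lit 76) (nat_lit 4619662412435) (nat_lit 6) (nat_lit 4) (nat_lit 7) (nat_lit 5) (nat_lit 7) (nat_lit 4) (nat_lit 421) (nat_lit 379) (nat_lit 220)) (XT.lf (nat_lit 0) (nat_lit 2054978561007) (nat_lit 152) (nat_lit 53667548615745) (nat_lit 0) (nat_lit 1125674276513)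 (nat_lit 4) (nat_lit 5) (nat_lit 6) (nat_lit 4) (nat_lit 4) (nat_lit 4) (nat_lit 422) (nat_lit 379) (nat_lit 219)))) (XT.nd (nat_lit 78) (nat_lit 0) (nat_lit 0) (XT.lf (nat_lit 0) (nat_lit 10093211709450) (nat_lit 152) (nat_lit 44937821093585) (nat_lit 0) (nat_lit 9163907424933) (nat_lit 4) (nat_lit 5) (nat_lit 6) (nat_lit 4) (nat_lit 4) (nat_lit 4) (nat_lit 423) (nat_lit 379) (nat_lit 218)) (XT.nd (nat_lit 78) (nat_lit 0) (nat_lit 0) (XT.lf (nat_lit 0) (nat_lit 19337179829787) (nat_lit 152) (nat_lit 34898634443895) (nat_lit 0) (nat_lit 18407875545249) (nat_lit 4) (nat_lit 5) (nat_lit 6) (nat_lit 4) (nat_lit 4) (nat_lit 4) (nat_lit 424) (nat_lit 379) (nat_lit 217)) (XT.lf (nat_lit 0) (nat_lit 29967743167850) (nat_lit 152) (nat_lit 23353569797444) (nat_lit 0) (nat_lit 29038438883294) (nat_lit 4) (nat_lit 5) (nat_lit 6) (nat_lit 4) (nat_lit 4) (nat_lit 4) (nat_lit 425) (nat_lit 379) (nat_lit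 216))))) (XT.nd (nat_lit 2574) (nat_lit 0) (nat_lit 0) (XT.nd (nat_lit 78) (nat_lit 228) (nat_lit 0) (XT.lf (nat_lit 0) (nat_lit 42192891006340) (nat_lit 152) (nat_lit 10076745454625) (nat_lit 0) (nat_lit 41263586721769) (nat_lit 4) (nat_lit 5) (nat_lit 6) (nat_lit 4) (nat_lit 4) (nat_lit 4) (nat_lit 426) (nat_lit 379) (nat_lit 215)) (XT.nd (nat_lit 2418) (nat_lit 152) (nat_lit 0) (XT.lf (nat_lit 0) (nat_lit 5698963696322) (nat_lit 76) (nat_lit 50788829257632) (nat_lit 76) (nat_lit 49859524973048) (nat_lit 3) (nat_lit 4) (nat_lit 4) (nat_lit 5) (nat_lit 4) (nat_lit 4) (nat_lit 427) (nat_lit 379) (nat_lit 214)) (XT.lf (nat_lit 0) (nat_lit 1159305469458998) (nat_lit 152) (nat_lit 5101624151454286) (nat_lit 0) (nat_lit 1158497378776663) (nat_lit 1) (nat_lit 5) (nat_lit 3) (nat_lit 4) (nat_lit 1) (nat_lit 4) (nat_lit 458) (nat_lit 379) (nat_lit 183)))) (XT.nd (nat_lit 46956) (nat_lit 0) (nat_lit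 2736) (XT.lf (nat_lit 0) (nat_lit 1343467383197833) (nat_lit 152) (nat_lit 5844656204724595) (nat_lit 0) (nat_lit 1342659292515501) (nat_lit 1) (nat_lit 5) (nat_lit 3) (nat_lit 4) (nat_lit 1) (nat_lit 4) (nat_lit 459) (nat_lit 379) (nat_lit 182)) (XT.nd (nat_lit 78) (nat_lit 0) (nat_lit 0) (XT.lf (nat_lit 0) (nat_lit 156476980074) (nat_lit 380) (nat_lit 193126971100) (nat_lit 380) (nat_lit 193126971100) (nat_lit 37) (nat_lit 3) (nat_lit 42) (nat_lit 3) (nat_lit 42) (nat_lit 5) (nat_lit 380) (nat_lit 380) (nat_lit 260)) (XT.lf (nat_lit 76) (nat_lit 166758504700) (nat_lit 0) (nat_lit 176572167941) (nat_lit 380) (nat_lit 822505035403) (nat_lit 38) (nat_lit 5) (nat_lit 37) (nat_lit 3) (nat_lit 42) (nat_lit 5) (nat_lit 381) (nat_lit 380) (nat_lit 259)))))) (XT.nd (nat_lit 468) (nat_lit 532) (nat_lit 0) (XT.nd (nat_lit 234) (nat_lit 380) (nat_lit 0) (XT.nd (nat_lit 78) (nat_lit 0) (nat_lit 0)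 (XT.lf (nat_lit 0) (nat_lit 416991823352) (nat_lit 304) (nat_lit 427641975329) (nat_lit 380) (nat_lit 407822662686) (nat_lit 38) (nat_lit 5) (nat_lit 42) (nat_lit 5) (nat_lit 43) (nat_lit 5) (nat_lit 382) (nat_lit 380) (nat_lit 258)) (XT.nd (nat_lit 78) (nat_lit 0) (nat_lit 76) (XT.lf (nat_lit 76) (nat_lit 242707864477) (nat_lit 0) (nat_lit 277452487717) (nat_lit 380) (nat_lit 829141244667) (nat_lit 39) (nat_lit 5) (nat_lit 38) (nat_lit 5) (nat_lit 43) (nat_lit 5) (nat_lit 383) (nat_lit 380) (nat_lit 257)) (XT.lf (nat_lit 0) (nat_lit 677742560302) (nat_lit 304) (nat_lit 412233496047) (nat_lit 76) (nat_lit 364856686343) (nat_lit 39) (nat_lit 5) (nat_lit 43) (nat_lit 5) (nat_lit 40) (nat_lit 5) (nat_lit 384) (nat_lit 380) (nat_lit 256)))) (XT.nd (nat_lit 78) (nat_lit 152) (nat_lit 0) (XT.lf (nat_lit 0) (nat_lit 409527737334) (nat_lit 304) (nat_lit 479604049542) (nat_lit 380) (nat_lit 682536320438)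 (nat_lit 35) (nat_lit 5) (nat_lit 39) (nat_lit 5) (nat_lit 40) (nat_lit 5) (nat_lit 385) (nat_lit 380) (nat_lit 255)) (XT.nd (nat_lit 78) (nat_lit 152) (nat_lit 0) (XT.lf (nat_lit 0) (nat_lit 1164010035911) (nat_lit 380) (nat_lit 312145993858) (nat_lit 76) (nat_lit 225105651092) (nat_lit 35) (nat_lit 5) (nat_lit 40) (nat_lit 5) (nat_lit 36) (nat_lit 5) (nat_lit 386) (nat_lit 380) (nat_lit 254)) (XT.lf (nat_lit 0) (nat_lit 705299920838) (nat_lit 152) (nat_lit 826863350242) (nat_lit 228) (nat_lit 310324532044) (nat_lit 33) (nat_lit 5) (nat_lit 35) (nat_lit 5) (nat_lit 36) (nat_lit 5) (nat_lit 387) (nat_lit 380) (nat_lit 253))))) (XT.nd (nat_lit 234) (nat_lit 228) (nat_lit 0) (XT.nd (nat_lit 78) (nat_lit 304) (nat_lit 0) (XT.lf (nat_lit 0) (nat_lit 1910443670229) (nat_lit 152) (nat_lit 61412539155) (nat_lit 228) (nat_lit 30594126666) (nat_lit 33) (nat_lit 5) (nat_lit 35) (nat_lit 5) (nat_lit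 36) (nat_lit 5) (nat_lit 388) (nat_lit 380) (nat_lit 252)) (XT.nd (nat_lit 78) (nat_lit 152) (nat_lit 0) (XT.lf (nat_lit 0) (nat_lit 351942391249) (nat_lit 152) (nat_lit 1008778341028) (nat_lit 76) (nat_lit 810864180498) (nat_lit 31) (nat_lit 5) (nat_lit 33) (nat_lit 5) (nat_lit 32) (nat_lit 5) (nat_lit 389) (nat_lit 380) (nat_lit 251)) (XT.lf (nat_lit 0) (nat_lit 270264332926) (nat_lit 152) (nat_lit 537616730816) (nat_lit 228) (nat_lit 1555116992884) (nat_lit 29) (nat_lit 5) (nat_lit 31) (nat_lit 5) (nat_lit 32) (nat_lit 5) (nat_lit 390) (nat_lit 380) (nat_lit 250)))) (XT.nd (nat_lit 156) (nat_lit 152) (nat_lit 0) (XT.nd (nat_lit 78) (nat_lit 76) (nat_lit 0) (XT.lf (nat_lit 0) (nat_lit 1404387023177) (nat_lit 228) (nat_lit 740121995814) (nat_lit 76) (nat_lit 427787680156) (nat_lit 29) (nat_lit 5) (nat_lit 32) (nat_lit 5) (nat_lit 30) (nat_lit 4) (nat_lit 391) (nat_lit 380) (nat_lit 249))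 (XT.lf (nat_lit 0) (nat_lit 866963802312) (nat_lit 76) (nat_lit 1284904989986) (nat_lit 152) (nat_lit 651896358382) (nat_lit 28) (nat_lit 5) (nat_lit 29) (nat_lit 5) (nat_lit 30) (nat_lit 4) (nat_lit 392) (nat_lit 380) (nat_lit 248))) (XT.nd (nat_lit 78) (nat_lit 152) (nat_lit 0) (XT.lf (nat_lit 0) (nat_lit 2798292085072) (nat_lit 76) (nat_lit 251868933983) (nat_lit 152) (nat_lit 13989622048) (nat_lit 28) (nat_lit 5) (nat_lit 29) (nat_lit 5) (nat_lit 30) (nat_lit 4) (nat_lit 393) (nat_lit 380) (nat_lit 247)) (XT.lf (nat_lit 0) (nat_lit 773145991959) (nat_lit 152) (nat_lit 1606913604283) (nat_lit 76) (nat_lit 961423737194) (nat_lit 26) (nat_lit 5) (nat_lit 28) (nat_lit 5) (nat_lit 27) (nat_lit 4) (nat_lit 394) (nat_lit 380) (nat_lit 246))))))) (XT.nd (nat_lit 1014) (nat_lit 684) (nat_lit 0) (XT.nd (nat_lit 468) (nat_lit 456) (nat_lit 0) (XT.nd (nat_lit 234) (nat_lit 228) (nat_lit 0) (XT.nd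 (nat_lit 78) (nat_lit 76) (nat_lit 0) (XT.lf (nat_lit 0) (nat_lit 431723042307) (nat_lit 76) (nat_lit 1289626042547) (nat_lit 152) (nat_lit 1932302507751) (nat_lit 25) (nat_lit 5) (nat_lit 26) (nat_lit 5) (nat_lit 27) (nat_lit 4) (nat_lit 395) (nat_lit 380) (nat_lit 245)) (XT.nd (nat_lit 78) (nat_lit 76) (nat_lit 0) (XT.lf (nat_lit 0) (nat_lit 2898305031953) (nat_lit 152) (nat_lit 1045819705473) (nat_lit 0) (nat_lit 55541994685) (nat_lit 25) (nat_lit 5) (nat_lit 27) (nat_lit 4) (nat_lit 25) (nat_lit 4) (nat_lit 396) (nat_lit 380) (nat_lit 244)) (XT.lf (nat_lit 0) (nat_lit 1531653043589) (nat_lit 76) (nat_lit 2844984575541) (nat_lit 76) (nat_lit 2221536211) (nat_lit 24) (nat_lit 4) (nat_lit 25) (nat_lit 5) (nat_lit 25) (nat_lit 4) (nat_lit 397) (nat_lit 380) (nat_lit 243)))) (XT.nd (nat_lit 78) (nat_lit 152) (nat_lit 0) (XT.lf (nat_lit 0) (nat_lit 1206727489001) (nat_lit 152) (nat_lit 248298939767)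 (nat_lit 76) (nat_lit 3343476148935) (nat_lit 23) (nat_lit 5) (nat_lit 25) (nat_lit 5) (nat_lit 24) (nat_lit 4) (nat_lit 398) (nat_lit 380) (nat_lit 242)) (XT.nd (nat_lit 78) (nat_lit 76) (nat_lit 0) (XT.lf (nat_lit 0) (nat_lit 2733227712499) (nat_lit 152) (nat_lit 2266123640384) (nat_lit 0) (nat_lit 261259849298) (nat_lit 22) (nat_lit 5) (nat_lit 24) (nat_lit 4) (nat_lit 22) (nat_lit 4) (nat_lit 399) (nat_lit 380) (nat_lit 241)) (XT.lf (nat_lit 0) (nat_lit 978737133832) (nat_lit 76) (nat_lit 3633377547085) (nat_lit 76) (nat_lit 1161409682705) (nat_lit 21) (nat_lit 4) (nat_lit 22) (nat_lit 5) (nat_lit 22) (nat_lit 4) (nat_lit 400) (nat_lit 380) (nat_lit 240))))) (XT.nd (nat_lit 234) (nat_lit 304) (nat_lit 0) (XT.nd (nat_lit 78) (nat_lit 76) (nat_lit 0) (XT.lf (nat_lit 0) (nat_lit 497104462412) (nat_lit 152) (nat_lit 1403193271218) (nat_lit 76) (nat_lit 4441918947851) (nat_lit 20) (nat_lit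 5) (nat_lit 22) (nat_lit 5) (nat_lit 21) (nat_lit 4) (nat_lit 401) (nat_lit 380) (nat_lit 239)) (XT.nd (nat_lit 78) (nat_lit 0) (nat_lit 0) (XT.lf (nat_lit 0) (nat_lit 2408241249633) (nat_lit 152) (nat_lit 4302559076880) (nat_lit 0) (nat_lit 258703974593) (nat_lit 19) (nat_lit 5) (nat_lit 21) (nat_lit 4) (nat_lit 19) (nat_lit 4) (nat_lit 402) (nat_lit 380) (nat_lit 238)) (XT.lf (nat_lit 0) (nat_lit 4773380457919) (nat_lit 152) (nat_lit 268561638105) (nat_lit 0) (nat_lit 2623843182205) (nat_lit 19) (nat_lit 5) (nat_lit 21) (nat_lit 4) (nat_lit 19) (nat_lit 4) (nat_lit 403) (nat_lit 380) (nat_lit 237)))) (XT.nd (nat_lit 156) (nat_lit 76) (nat_lit 0) (XT.nd (nat_lit 78) (nat_lit 152) (nat_lit 0) (XT.lf (nat_lit 0) (nat_lit 4797655920084) (nat_lit 76) (nat_lit 2894295326623) (nat_lit 76) (nat_lit 744758050323) (nat_lit 18) (nat_lit 4) (nat_lit 19) (nat_lit 5) (nat_lit 19) (nat_lit 4) (nat_lit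 404) (nat_lit 380) (nat_lit 236)) (XT.lf (nat_lit 0) (nat_lit 1383931200705) (nat_lit 76) (nat_lit 259542509766) (nat_lit 152) (nat_lit 7658281812719) (nat_lit 16) (nat_lit 5) (nat_lit 17) (nat_lit 5) (nat_lit 18) (nat_lit 4) (nat_lit 405) (nat_lit 380) (nat_lit 235))) (XT.nd (nat_lit 78) (nat_lit 76) (nat_lit 0) (XT.lf (nat_lit 0) (nat_lit 4627690008007) (nat_lit 152) (nat_lit 2857921995019) (nat_lit 0) (nat_lit 2758527158222) (nat_lit 16) (nat_lit 5) (nat_lit 18) (nat_lit 4) (nat_lit 16) (nat_lit 4) (nat_lit 406) (nat_lit 380) (nat_lit 234)) (XT.lf (nat_lit 0) (nat_lit 3236765784798) (nat_lit 76) (nat_lit 4969159700067) (nat_lit 76) (nat_lit 3099996849947) (nat_lit 15) (nat_lit 4) (nat_lit 16) (nat_lit 5) (nat_lit 16) (nat_lit 4) (nat_lit 407) (nat_lit 380) (nat_lit 233)))))) (XT.nd (nat_lit 468) (nat_lit 304) (nat_lit 0) (XT.nd (nat_lit 234) (nat_lit 228) (nat_lit 0) (XT.nd (nat_lit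 78) (nat_lit 152) (nat_lit 0) (XT.lf (nat_lit 0) (nat_lit 10566848189871) (nat_lit 76) (nat_lit 1903439469282) (nat_lit 76) (nat_lit 34276618871) (nat_lit 15) (nat_lit 4) (nat_lit 16) (nat_lit 5) (nat_lit 16) (nat_lit 4) (nat_lit 408) (nat_lit 380) (nat_lit 232)) (XT.nd (nat_lit 78) (nat_lit 0) (nat_lit 0) (XT.lf (nat_lit 0) (nat_lit 3491148302636) (nat_lit 152) (nat_lit 8457779833959) (nat_lit 0) (nat_lit 1865789302058) (nat_lit 13) (nat_lit 5) (nat_lit 15) (nat_lit 4) (nat_lit 13) (nat_lit 4) (nat_lit 409) (nat_lit 380) (nat_lit 231)) (XT.lf (nat_lit 0) (nat_lit 7738630687084) (nat_lit 152) (nat_lit 1439733417348) (nat_lit 0) (nat_lit 6113271686314) (nat_lit 13) (nat_lit 5) (nat_lit 15) (nat_lit 4) (nat_lit 13) (nat_lit 4) (nat_lit 410) (nat_lit 380) (nat_lit 230)))) (XT.nd (nat_lit 78) (nat_lit 152) (nat_lit 0) (XT.lf (nat_lit 0) (nat_lit 7279051456012) (nat_lit 76) (nat_lit 5645593970490)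 (nat_lit 76) (nat_lit 4020234969554) (nat_lit 12) (nat_lit 4) (nat_lit 13) (nat_lit 5) (nat_lit 13) (nat_lit 4) (nat_lit 411) (nat_lit 380) (nat_lit 229)) (XT.nd (nat_lit 78) (nat_lit 76) (nat_lit 0) (XT.lf (nat_lit 0) (nat_lit 117513974580) (nat_lit 152) (nat_lit 1372703955732) (nat_lit 76) (nat_lit 17343803711490) (nat_lit 11) (nat_lit 5) (nat_lit 13) (nat_lit 5) (nat_lit 12) (nat_lit 4) (nat_lit 412) (nat_lit 380) (nat_lit 228)) (XT.lf (nat_lit 0) (nat_lit 4989278542959) (nat_lit 152) (nat_lit 12333874362508) (nat_lit 0) (nat_lit 3575922889735) (nat_lit 10) (nat_lit 5) (nat_lit 12) (nat_lit 4) (nat_lit 10) (nat_lit 4) (nat_lit 413) (nat_lit 380) (nat_lit 227))))) (XT.nd (nat_lit 234) (nat_lit 228) (nat_lit 0) (XT.nd (nat_lit 78) (nat_lit 76) (nat_lit 0) (XT.lf (nat_lit 0) (nat_lit 10737942437716) (nat_lit 152) (nat_lit 3189438653332) (nat_lit 0) (nat_lit 9324586784397) (nat_lit 10) (nat_lit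 5) (nat_lit 12) (nat_lit 4) (nat_lit 10) (nat_lit 4) (nat_lit 414) (nat_lit 380) (nat_lit 226)) (XT.nd (nat_lit 78) (nat_lit 0) (nat_lit 0) (XT.lf (nat_lit 0) (nat_lit 8042677146439) (nat_lit 76) (nat_lit 9639258879173) (nat_lit 76) (nat_lit 8225903225771) (nat_lit 9) (nat_lit 4) (nat_lit 10) (nat_lit 5) (nat_lit 10) (nat_lit 4) (nat_lit 415) (nat_lit 380) (nat_lit 225)) (XT.lf (nat_lit 0) (nat_lit 21318059727144) (nat_lit 76) (nat_lit 4516189580802) (nat_lit 76) (nat_lit 3102833927329) (nat_lit 9) (nat_lit 4) (nat_lit 10) (nat_lit 5) (nat_lit 10) (nat_lit 4) (nat_lit 416) (nat_lit 380) (nat_lit 224)))) (XT.nd (nat_lit 156) (nat_lit 76) (nat_lit 0) (XT.nd (nat_lit 78) (nat_lit 0) (nat_lit 0) (XT.lf (nat_lit 0) (nat_lit 2795664107901) (nat_lit 152) (nat_lit 28002783826867) (nat_lit 0) (nat_lit 1566659191782) (nat_lit 7) (nat_lit 5) (nat_lit 9) (nat_lit 4) (nat_lit 7) (nat_lit 4) (nat_lit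 417) (nat_lit 380) (nat_lit 223)) (XT.lf (nat_lit 0) (nat_lit 9893554641724) (nat_lit 152) (nat_lit 17632223801874) (nat_lit 0) (nat_lit 8664549725558) (nat_lit 7) (nat_lit 5) (nat_lit 9) (nat_lit 4) (nat_lit 7) (nat_lit 4) (nat_lit 418) (nat_lit 380) (nat_lit 222))) (XT.nd (nat_lit 78) (nat_lit 76) (nat_lit 0) (XT.lf (nat_lit 0) (nat_lit 18056128755125) (nat_lit 152) (nat_lit 5706079774182) (nat_lit 0) (nat_lit 16827123838918) (nat_lit 7) (nat_lit 5) (nat_lit 9) (nat_lit 4) (nat_lit 7) (nat_lit 4) (nat_lit 419) (nat_lit 380) (nat_lit 221)) (XT.lf (nat_lit 0) (nat_lit 8791682201842) (nat_lit 76) (nat_lit 19015451594935) (nat_lit 76) (nat_lit 17786446678692) (nat_lit 6) (nat_lit 4) (nat_lit 7) (nat_lit 5) (nat_lit 7) (nat_lit 4) (nat_lit 420) (nat_lit 380) (nat_lit 220))))))))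
noncomputable def xc106 : XT := (XT.nd (nat_lit 51324) (nat_lit 0) (nat_lit 380) (XT.nd (nat_lit 50310) (nat_lit 0) (nat_lit 1824) (XT.nd (nat_lit 468) (nat_lit 228) (nat_lit 0) (XT.nd (nat_lit 234) (nat_lit 0) (nat_lit 0) (XT.nd (nat_lit 78) (nat_lit 152) (nat_lit 0) (XT.lf (nat_lit 0) (nat_lit 26105394029838) (nat_lit 76) (nat_lit 13213667916262) (nat_lit 76) (nat_lit 11984662999988) (nat_lit 6) (nat_lit 4) (nat_lit 7) (nat_lit 5) (nat_lit 7) (nat_lit 4) (nat_lit 421) (nat_lit 380) (nat_lit 219)) (XT.nd (nat_lit 78) (nat_lit 152) (nat_lit 0) (XT.lf (nat_lit 0) (nat_lit 46016162631276) (nat_lit 76) (nat_lit 6541616686188) (nat_lit 76) (nat_lit 5312611769887) (nat_lit 6) (nat_lit 4) (nat_lit 7) (nat_lit 5) (nat_lit 7) (nat_lit 4) (nat_lit 422) (nat_lit 380) (nat_lit 218)) (XT.lf (nat_lit 0) (nat_lit 2363225349172) (nat_lit 152) (nat_lit 61717680899549) (nat_lit 0) (nat_lit 1294525421933)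 (nat_lit 4) (nat_lit 5) (nat_lit 6) (nat_lit 4) (nat_lit 4) (nat_lit 4) (nat_lit 423) (nat_lit 380) (nat_lit 217)))) (XT.nd (nat_lit 78) (nat_lit 0) (nat_lit 0) (XT.lf (nat_lit 0) (nat_lit 11607193469358) (nat_lit 152) (nat_lit 51678494250181) (nat_lit 0) (nat_lit 10538493542101) (nat_lit 4) (nat_lit 5) (nat_lit 6) (nat_lit 4) (nat_lit 4) (nat_lit 4) (nat_lit 424) (nat_lit 380) (nat_lit 216)) (XT.nd (nat_lit 78) (nat_lit 0) (nat_lit 0) (XT.lf (nat_lit 0) (nat_lit 22237756807290) (nat_lit 152) (nat_lit 40133429604009) (nat_lit 0) (nat_lit 21169056880017) (nat_lit 4) (nat_lit 5) (nat_lit 6) (nat_lit 4) (nat_lit 4) (nat_lit 4) (nat_lit 425) (nat_lit 380) (nat_lit 215)) (XT.lf (nat_lit 0) (nat_lit 34462904645666) (nat_lit 152) (nat_lit 26856605261433) (nat_lit 0) (nat_lit 33394204718381) (nat_lit 4) (nat_lit 5) (nat_lit 6) (nat_lit 4) (nat_lit 4) (nat_lit 4) (nat_lit 426) (nat_lit 380) (nat_lit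 214))))) (XT.nd (nat_lit 49608) (nat_lit 0) (nat_lit 2736) (XT.nd (nat_lit 2418) (nat_lit 228) (nat_lit 0) (XT.lf (nat_lit 0) (nat_lit 48521824659586) (nat_lit 152) (nat_lit 11588257267926) (nat_lit 0) (nat_lit 47453124732289) (nat_lit 4) (nat_lit 5) (nat_lit 6) (nat_lit 4) (nat_lit 4) (nat_lit 4) (nat_lit 427) (nat_lit 380) (nat_lit 213)) (XT.nd (nat_lit 47112) (nat_lit 0) (nat_lit 2736) (XT.lf (nat_lit 0) (nat_lit 1149039376139045) (nat_lit 152) (nat_lit 5123835720902038) (nat_lit 0) (nat_lit 1148110071854372) (nat_lit 1) (nat_lit 5) (nat_lit 3) (nat_lit 4) (nat_lit 1) (nat_lit 4) (nat_lit 458) (nat_lit 380) (nat_lit 182)) (XT.lf (nat_lit 0) (nat_lit 179948576372) (nat_lit 380) (nat_lit 222095988414) (nat_lit 380) (nat_lit 222095988414) (nat_lit 37) (nat_lit 3) (nat_lit 42) (nat_lit 3) (nat_lit 42) (nat_lit 5) (nat_lit 381) (nat_lit 381) (nat_lit 258)))) (XT.nd (nat_lit 78) (nat_lit 0)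 (nat_lit 76) (XT.lf (nat_lit 76) (nat_lit 191772334530) (nat_lit 0) (nat_lit 203058026964) (nat_lit 380) (nat_lit 945880689523) (nat_lit 38) (nat_lit 5) (nat_lit 37) (nat_lit 3) (nat_lit 42) (nat_lit 5) (nat_lit 382) (nat_lit 381) (nat_lit 257)) (XT.nd (nat_lit 78) (nat_lit 0) (nat_lit 0) (XT.lf (nat_lit 0) (nat_lit 479540672120) (nat_lit 304) (nat_lit 491788211837) (nat_lit 380) (nat_lit 468996035289) (nat_lit 38) (nat_lit 5) (nat_lit 42) (nat_lit 5) (nat_lit 43) (nat_lit 5) (nat_lit 383) (nat_lit 381) (nat_lit 256)) (XT.lf (nat_lit 76) (nat_lit 279114101222) (nat_lit 0) (nat_lit 319070371613) (nat_lit 380) (nat_lit 953512353353) (nat_lit 39) (nat_lit 5) (nat_lit 38) (nat_lit 5) (nat_lit 43) (nat_lit 5) (nat_lit 384) (nat_lit 381) (nat_lit 255)))))) (XT.nd (nat_lit 468) (nat_lit 456) (nat_lit 0) (XT.nd (nat_lit 234) (nat_lit 304) (nat_lit 0) (XT.nd (nat_lit 78) (nat_lit 304) (nat_lit 0)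 (XT.lf (nat_lit 0) (nat_lit 779404002928) (nat_lit 304) (nat_lit 474068461567) (nat_lit 76) (nat_lit 419585180789) (nat_lit 39) (nat_lit 5) (nat_lit 43) (nat_lit 5) (nat_lit 40) (nat_lit 5) (nat_lit 385) (nat_lit 381) (nat_lit 254)) (XT.nd (nat_lit 78) (nat_lit 0) (nat_lit 0) (XT.lf (nat_lit 0) (nat_lit 470956954145) (nat_lit 304) (nat_lit 551544654030) (nat_lit 380) (nat_lit 784916707224) (nat_lit 35) (nat_lit 5) (nat_lit 39) (nat_lit 5) (nat_lit 40) (nat_lit 5) (nat_lit 386) (nat_lit 381) (nat_lit 253)) (XT.lf (nat_lit 0) (nat_lit 1338611587722) (nat_lit 380) (nat_lit 358967837196) (nat_lit 76) (nat_lit 258871501088) (nat_lit 35) (nat_lit 5) (nat_lit 40) (nat_lit 5) (nat_lit 36) (nat_lit 5) (nat_lit 387) (nat_lit 381) (nat_lit 252)))) (XT.nd (nat_lit 78) (nat_lit 152) (nat_lit 0) (XT.lf (nat_lit 0) (nat_lit 811094962170) (nat_lit 152) (nat_lit 950892842144) (nat_lit 228) (nat_lit 356873162875)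 (nat_lit 33) (nat_lit 5) (nat_lit 35) (nat_lit 5) (nat_lit 36) (nat_lit 5) (nat_lit 388) (nat_lit 381) (nat_lit 251)) (XT.nd (nat_lit 78) (nat_lit 152) (nat_lit 0) (XT.lf (nat_lit 0) (nat_lit 2197010267031) (nat_lit 152) (nat_lit 70624410781) (nat_lit 228) (nat_lit 35183203078) (nat_lit 33) (nat_lit 5) (nat_lit 35) (nat_lit 5) (nat_lit 36) (nat_lit 5) (nat_lit 389) (nat_lit 381) (nat_lit 250)) (XT.lf (nat_lit 0) (nat_lit 404733786151) (nat_lit 152) (nat_lit 1160095039518) (nat_lit 76) (nat_lit 932493818578) (nat_lit 31) (nat_lit 5) (nat_lit 33) (nat_lit 5) (nat_lit 32) (nat_lit 5) (nat_lit 390) (nat_lit 381) (nat_lit 249))))) (XT.nd (nat_lit 234) (nat_lit 228) (nat_lit 0) (XT.nd (nat_lit 78) (nat_lit 76) (nat_lit 0) (XT.lf (nat_lit 0) (nat_lit 310804033135) (nat_lit 152) (nat_lit 618259223742) (nat_lit 228) (nat_lit 1788384503198) (nat_lit 29) (nat_lit 5) (nat_lit 31) (nat_lit 5) (nat_lit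 32) (nat_lit 5) (nat_lit 391) (nat_lit 381) (nat_lit 248)) (XT.nd (nat_lit 78) (nat_lit 76) (nat_lit 0) (XT.lf (nat_lit 0) (nat_lit 1615045106448) (nat_lit 228) (nat_lit 851140247686) (nat_lit 76) (nat_lit 491955845406) (nat_lit 29) (nat_lit 5) (nat_lit 32) (nat_lit 5) (nat_lit 30) (nat_lit 4) (nat_lit 392) (nat_lit 381) (nat_lit 247)) (XT.lf (nat_lit 0) (nat_lit 997008417999) (nat_lit 76) (nat_lit 1477640720929) (nat_lit 152) (nat_lit 749680780177) (nat_lit 28) (nat_lit 5) (nat_lit 29) (nat_lit 5) (nat_lit 30) (nat_lit 4) (nat_lit 393) (nat_lit 381) (nat_lit 246)))) (XT.nd (nat_lit 156) (nat_lit 76) (nat_lit 0) (XT.nd (nat_lit 78) (nat_lit 152) (nat_lit 0) (XT.lf (nat_lit 0) (nat_lit 3218035937259) (nat_lit 76) (nat_lit 289649258816) (nat_lit 152) (nat_lit 16088037562) (nat_lit 28) (nat_lit 5) (nat_lit 29) (nat_lit 5) (nat_lit 30) (nat_lit 4) (nat_lit 394) (nat_lit 381) (nat_lit 245))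 (XT.lf (nat_lit 0) (nat_lit 889117915101) (nat_lit 152) (nat_lit 1847950602044) (nat_lit 76) (nat_lit 1105637312649) (nat_lit 26) (nat_lit 5) (nat_lit 28) (nat_lit 5) (nat_lit 27) (nat_lit 4) (nat_lit 395) (nat_lit 381) (nat_lit 244))) (XT.nd (nat_lit 78) (nat_lit 0) (nat_lit 0) (XT.lf (nat_lit 0) (nat_lit 496481539586) (nat_lit 76) (nat_lit 1483069930864) (nat_lit 152) (nat_lit 2222147857612) (nat_lit 25) (nat_lit 5) (nat_lit 26) (nat_lit 5) (nat_lit 27) (nat_lit 4) (nat_lit 396) (nat_lit 381) (nat_lit 243)) (XT.lf (nat_lit 0) (nat_lit 3333050807281) (nat_lit 152) (nat_lit 1202692623365) (nat_lit 0) (nat_lit 63873308198) (nat_lit 25) (nat_lit 5) (nat_lit 27) (nat_lit 4) (nat_lit 25) (nat_lit 4) (nat_lit 397) (nat_lit 381) (nat_lit 242))))))) (XT.nd (nat_lit 1014) (nat_lit 532) (nat_lit 0) (XT.nd (nat_lit 468) (nat_lit 456) (nat_lit 0) (XT.nd (nat_lit 234) (nat_lit 228) (nat_lit 0) (XT.nd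 (nat_lit 78) (nat_lit 152) (nat_lit 0) (XT.lf (nat_lit 0) (nat_lit 1761401036333) (nat_lit 76) (nat_lit 3271732245022) (nat_lit 76) (nat_lit 2554744380) (nat_lit 24) (nat_lit 4) (nat_lit 25) (nat_lit 5) (nat_lit 25) (nat_lit 4) (nat_lit 398) (nat_lit 381) (nat_lit 241)) (XT.nd (nat_lit 78) (nat_lit 76) (nat_lit 0) (XT.lf (nat_lit 0) (nat_lit 1387736629987) (nat_lit 152) (nat_lit 285543747524) (nat_lit 76) (nat_lit 3844997584201) (nat_lit 23) (nat_lit 5) (nat_lit 25) (nat_lit 5) (nat_lit 24) (nat_lit 4) (nat_lit 399) (nat_lit 381) (nat_lit 240)) (XT.lf (nat_lit 0) (nat_lit 3143211886645) (nat_lit 152) (nat_lit 2606042152867) (nat_lit 0) (nat_lit 300448840405) (nat_lit 22) (nat_lit 5) (nat_lit 24) (nat_lit 4) (nat_lit 22) (nat_lit 4) (nat_lit 400) (nat_lit 381) (nat_lit 239)))) (XT.nd (nat_lit 78) (nat_lit 152) (nat_lit 0) (XT.lf (nat_lit 0) (nat_lit 1125547735956) (nat_lit 76) (nat_lit 4178384163444)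 (nat_lit 76) (nat_lit 1335621116312) (nat_lit 21) (nat_lit 4) (nat_lit 22) (nat_lit 5) (nat_lit 22) (nat_lit 4) (nat_lit 401) (nat_lit 381) (nat_lit 238)) (XT.nd (nat_lit 78) (nat_lit 76) (nat_lit 0) (XT.lf (nat_lit 0) (nat_lit 571670146665) (nat_lit 152) (nat_lit 1613672232575) (nat_lit 76) (nat_lit 5108206802227) (nat_lit 20) (nat_lit 5) (nat_lit 22) (nat_lit 5) (nat_lit 21) (nat_lit 4) (nat_lit 402) (nat_lit 381) (nat_lit 237)) (XT.lf (nat_lit 0) (nat_lit 2769477451762) (nat_lit 152) (nat_lit 4947942908876) (nat_lit 0) (nat_lit 297509583430) (nat_lit 19) (nat_lit 5) (nat_lit 21) (nat_lit 4) (nat_lit 19) (nat_lit 4) (nat_lit 403) (nat_lit 381) (nat_lit 236))))) (XT.nd (nat_lit 234) (nat_lit 228) (nat_lit 0) (XT.nd (nat_lit 78) (nat_lit 228) (nat_lit 0) (XT.lf (nat_lit 0) (nat_lit 5489387539375) (nat_lit 152) (nat_lit 308845858138) (nat_lit 0) (nat_lit 3017419670534) (nat_lit 19) (nat_lit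 5) (nat_lit 21) (nat_lit 4) (nat_lit 19) (nat_lit 4) (nat_lit 404) (nat_lit 381) (nat_lit 235)) (XT.nd (nat_lit 78) (nat_lit 152) (nat_lit 0) (XT.lf (nat_lit 0) (nat_lit 5517304332612) (nat_lit 76) (nat_lit 3328439613219) (nat_lit 76) (nat_lit 856471743935) (nat_lit 18) (nat_lit 4) (nat_lit 19) (nat_lit 5) (nat_lit 19) (nat_lit 4) (nat_lit 405) (nat_lit 381) (nat_lit 234)) (XT.lf (nat_lit 0) (nat_lit 1591520905397) (nat_lit 76) (nat_lit 298473873703) (nat_lit 152) (nat_lit 8807024070759) (nat_lit 16) (nat_lit 5) (nat_lit 17) (nat_lit 5) (nat_lit 18) (nat_lit 4) (nat_lit 406) (nat_lit 381) (nat_lit 233)))) (XT.nd (nat_lit 156) (nat_lit 152) (nat_lit 0) (XT.nd (nat_lit 78) (nat_lit 76) (nat_lit 0) (XT.lf (nat_lit 0) (nat_lit 5321843520145) (nat_lit 152) (nat_lit 3286610271770) (nat_lit 0) (nat_lit 3172306241880) (nat_lit 16) (nat_lit 5) (nat_lit 18) (nat_lit 4) (nat_lit 16) (nat_lit 4) (nat_lit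 407) (nat_lit 381) (nat_lit 232)) (XT.lf (nat_lit 0) (nat_lit 3722280673996) (nat_lit 76) (nat_lit 5714533643997) (nat_lit 76) (nat_lit 3564996365479) (nat_lit 15) (nat_lit 4) (nat_lit 16) (nat_lit 5) (nat_lit 16) (nat_lit 4) (nat_lit 408) (nat_lit 381) (nat_lit 231))) (XT.nd (nat_lit 78) (nat_lit 152) (nat_lit 0) (XT.lf (nat_lit 0) (nat_lit 12151875437029) (nat_lit 76) (nat_lit 2188955380040) (nat_lit 76) (nat_lit 39418101302) (nat_lit 15) (nat_lit 4) (nat_lit 16) (nat_lit 5) (nat_lit 16) (nat_lit 4) (nat_lit 409) (nat_lit 381) (nat_lit 230)) (XT.lf (nat_lit 0) (nat_lit 4014820557447) (nat_lit 152) (nat_lit 9726446789390) (nat_lit 0) (nat_lit 2145657706203) (nat_lit 13) (nat_lit 5) (nat_lit 15) (nat_lit 4) (nat_lit 13) (nat_lit 4) (nat_lit 410) (nat_lit 381) (nat_lit 229)))))) (XT.nd (nat_lit 468) (nat_lit 228) (nat_lit 0) (XT.nd (nat_lit 234) (nat_lit 152) (nat_lit 0) (XT.nd (nat_lit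 78) (nat_lit 152) (nat_lit 0) (XT.lf (nat_lit 0) (nat_lit 8899425298333) (nat_lit 152) (nat_lit 1655693412852) (nat_lit 0) (nat_lit 7030262446945) (nat_lit 13) (nat_lit 5) (nat_lit 15) (nat_lit 4) (nat_lit 13) (nat_lit 4) (nat_lit 411) (nat_lit 381) (nat_lit 228)) (XT.nd (nat_lit 78) (nat_lit 76) (nat_lit 0) (XT.lf (nat_lit 0) (nat_lit 8370909190735) (nat_lit 76) (nat_lit 6492433057537) (nat_lit 76) (nat_lit 4623270206023) (nat_lit 12) (nat_lit 4) (nat_lit 13) (nat_lit 5) (nat_lit 13) (nat_lit 4) (nat_lit 412) (nat_lit 381) (nat_lit 227)) (XT.lf (nat_lit 0) (nat_lit 135141077868) (nat_lit 152) (nat_lit 1578609534206) (nat_lit 76) (nat_lit 19945374274934) (nat_lit 11) (nat_lit 5) (nat_lit 13) (nat_lit 5) (nat_lit 12) (nat_lit 4) (nat_lit 413) (nat_lit 381) (nat_lit 226)))) (XT.nd (nat_lit 78) (nat_lit 76) (nat_lit 0) (XT.lf (nat_lit 0) (nat_lit 5737670331474) (nat_lit 152) (nat_lit 14183955501969)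 (nat_lit 0) (nat_lit 4112311329979) (nat_lit 10) (nat_lit 5) (nat_lit 12) (nat_lit 4) (nat_lit 10) (nat_lit 4) (nat_lit 414) (nat_lit 381) (nat_lit 225)) (XT.nd (nat_lit 78) (nat_lit 76) (nat_lit 0) (XT.lf (nat_lit 0) (nat_lit 12348633809522) (nat_lit 152) (nat_lit 3667854438361) (nat_lit 0) (nat_lit 10723274807955) (nat_lit 10) (nat_lit 5) (nat_lit 12) (nat_lit 4) (nat_lit 10) (nat_lit 4) (nat_lit 415) (nat_lit 381) (nat_lit 224)) (XT.lf (nat_lit 0) (nat_lit 9249078730786) (nat_lit 76) (nat_lit 11085147704528) (nat_lit 76) (nat_lit 9459788702898) (nat_lit 9) (nat_lit 4) (nat_lit 10) (nat_lit 5) (nat_lit 10) (nat_lit 4) (nat_lit 416) (nat_lit 381) (nat_lit 223))))) (XT.nd (nat_lit 234) (nat_lit 76) (nat_lit 0) (XT.nd (nat_lit 78) (nat_lit 152) (nat_lit 0) (XT.lf (nat_lit 0) (nat_lit 24515768696982) (nat_lit 76) (nat_lit 5193618012252) (nat_lit 76) (nat_lit 3568259010568) (nat_lit 9) (nat_lit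 4) (nat_lit 10) (nat_lit 5) (nat_lit 10) (nat_lit 4) (nat_lit 417) (nat_lit 381) (nat_lit 222)) (XT.nd (nat_lit 78) (nat_lit 0) (nat_lit 0) (XT.lf (nat_lit 0) (nat_lit 3215013729410) (nat_lit 152) (nat_lit 32203201389594) (nat_lit 0) (nat_lit 1801658075730) (nat_lit 7) (nat_lit 5) (nat_lit 9) (nat_lit 4) (nat_lit 7) (nat_lit 4) (nat_lit 418) (nat_lit 381) (nat_lit 221)) (XT.lf (nat_lit 0) (nat_lit 11377587842611) (nat_lit 152) (nat_lit 20277057362327) (nat_lit 0) (nat_lit 9964232188896) (nat_lit 7) (nat_lit 5) (nat_lit 9) (nat_lit 4) (nat_lit 7) (nat_lit 4) (nat_lit 419) (nat_lit 381) (nat_lit 220)))) (XT.nd (nat_lit 156) (nat_lit 0) (nat_lit 0) (XT.nd (nat_lit 78) (nat_lit 76) (nat_lit 0) (XT.lf (nat_lit 0) (nat_lit 20764548072419) (nat_lit 152) (nat_lit 6561991731763) (nat_lit 0) (nat_lit 19351192418673) (nat_lit 7) (nat_lit 5) (nat_lit 9) (nat_lit 4) (nat_lit 7) (nat_lit 4) (nat_lit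 420) (nat_lit 381) (nat_lit 219)) (XT.lf (nat_lit 0) (nat_lit 10110434540276) (nat_lit 76) (nat_lit 21867769329856) (nat_lit 76) (nat_lit 20454413676082) (nat_lit 6) (nat_lit 4) (nat_lit 7) (nat_lit 5) (nat_lit 7) (nat_lit 4) (nat_lit 421) (nat_lit 381) (nat_lit 218))) (XT.nd (nat_lit 78) (nat_lit 0) (nat_lit 0) (XT.lf (nat_lit 0) (nat_lit 30021203141408) (nat_lit 76) (nat_lit 15195718099945) (nat_lit 76) (nat_lit 13782362446148) (nat_lit 6) (nat_lit 4) (nat_lit 7) (nat_lit 5) (nat_lit 7) (nat_lit 4) (nat_lit 422) (nat_lit 381) (nat_lit 217)) (XT.lf (nat_lit 0) (nat_lit 52918587032136) (nat_lit 76) (nat_lit 7522859185850) (nat_lit 76) (nat_lit 6109503532032) (nat_lit 6) (nat_lit 4) (nat_lit 7) (nat_lit 5) (nat_lit 7) (nat_lit 4) (nat_lit 423) (nat_lit 381) (nat_lit 216))))))))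
noncomputable def xc107 : XT := (XT.nd (nat_lit 51402) (nat_lit 0) (nat_lit 76) (XT.nd (nat_lit 50388) (nat_lit 0) (nat_lit 1444) (XT.nd (nat_lit 49842) (nat_lit 0) (nat_lit 2432) (XT.nd (nat_lit 234) (nat_lit 76) (nat_lit 0) (XT.nd (nat_lit 78) (nat_lit 0) (nat_lit 0) (XT.lf (nat_lit 0) (nat_lit 2717709154583) (nat_lit 152) (nat_lit 70975333028010) (nat_lit 0) (nat_lit 1488704238204) (nat_lit 4) (nat_lit 5) (nat_lit 6) (nat_lit 4) (nat_lit 4) (nat_lit 4) (nat_lit 424) (nat_lit 381) (nat_lit 215)) (XT.nd (nat_lit 78) (nat_lit 0) (nat_lit 0) (XT.lf (nat_lit 0) (nat_lit 13348272492400) (nat_lit 152) (nat_lit 59430268382081) (nat_lit 0) (nat_lit 12119267576009) (nat_lit 4) (nat_lit 5) (nat_lit 6) (nat_lit 4) (nat_lit 4) (nat_lit 4) (nat_lit 425) (nat_lit 381) (nat_lit 214)) (XT.lf (nat_lit 0) (nat_lit 25573420330678) (nat_lit 152) (nat_lit 46153444039717) (nat_lit 0) (nat_lit 24344415414274)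 (nat_lit 4) (nat_lit 5) (nat_lit 6) (nat_lit 4) (nat_lit 4) (nat_lit 4) (nat_lit 426) (nat_lit 381) (nat_lit 213)))) (XT.nd (nat_lit 78) (nat_lit 76) (nat_lit 0) (XT.lf (nat_lit 0) (nat_lit 39632340344512) (nat_lit 152) (nat_lit 30885096046393) (nat_lit 0) (nat_lit 38403335428098) (nat_lit 4) (nat_lit 5) (nat_lit 6) (nat_lit 4) (nat_lit 4) (nat_lit 4) (nat_lit 427) (nat_lit 381) (nat_lit 212)) (XT.nd (nat_lit 78) (nat_lit 76) (nat_lit 0) (XT.lf (nat_lit 0) (nat_lit 55800098360259) (nat_lit 152) (nat_lit 13326495854415) (nat_lit 0) (nat_lit 54571093443837) (nat_lit 4) (nat_lit 5) (nat_lit 6) (nat_lit 4) (nat_lit 4) (nat_lit 4) (nat_lit 428) (nat_lit 381) (nat_lit 211)) (XT.lf (nat_lit 0) (nat_lit 7536879497289) (nat_lit 76) (nat_lit 67168226688488) (nat_lit 76) (nat_lit 65939221772057) (nat_lit 3) (nat_lit 4) (nat_lit 4) (nat_lit 5) (nat_lit 4) (nat_lit 4) (nat_lit 429) (nat_lit 381) (nat_lit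 210))))) (XT.nd (nat_lit 234) (nat_lit 152) (nat_lit 0) (XT.nd (nat_lit 78) (nat_lit 0) (nat_lit 0) (XT.lf (nat_lit 0) (nat_lit 206940900095) (nat_lit 380) (nat_lit 255410365238) (nat_lit 380) (nat_lit 255410365238) (nat_lit 37) (nat_lit 3) (nat_lit 42) (nat_lit 3) (nat_lit 42) (nat_lit 5) (nat_lit 382) (nat_lit 382) (nat_lit 256)) (XT.nd (nat_lit 78) (nat_lit 0) (nat_lit 76) (XT.lf (nat_lit 76) (nat_lit 220538225636) (nat_lit 0) (nat_lit 233516756590) (nat_lit 380) (nat_lit 1087762716437) (nat_lit 38) (nat_lit 5) (nat_lit 37) (nat_lit 3) (nat_lit 42) (nat_lit 5) (nat_lit 383) (nat_lit 382) (nat_lit 255)) (XT.lf (nat_lit 0) (nat_lit 551471829849) (nat_lit 304) (nat_lit 565556398402) (nat_lit 380) (nat_lit 539345420318) (nat_lit 38) (nat_lit 5) (nat_lit 42) (nat_lit 5) (nat_lit 43) (nat_lit 5) (nat_lit 384) (nat_lit 382) (nat_lit 254)))) (XT.nd (nat_lit 156) (nat_lit 228) (nat_lit 0) (XT.nd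 (nat_lit 78) (nat_lit 0) (nat_lit 76) (XT.lf (nat_lit 76) (nat_lit 320981259561) (nat_lit 0) (nat_lit 366930935475) (nat_lit 380) (nat_lit 1096539147366) (nat_lit 39) (nat_lit 5) (nat_lit 38) (nat_lit 5) (nat_lit 43) (nat_lit 5) (nat_lit 385) (nat_lit 382) (nat_lit 253)) (XT.lf (nat_lit 0) (nat_lit 896314647662) (nat_lit 304) (nat_lit 545178686275) (nat_lit 76) (nat_lit 482522951475) (nat_lit 39) (nat_lit 5) (nat_lit 43) (nat_lit 5) (nat_lit 40) (nat_lit 5) (nat_lit 386) (nat_lit 382) (nat_lit 252))) (XT.nd (nat_lit 78) (nat_lit 0) (nat_lit 0) (XT.lf (nat_lit 0) (nat_lit 541600539770) (nat_lit 304) (nat_lit 634276349909) (nat_lit 380) (nat_lit 902654166971) (nat_lit 35) (nat_lit 5) (nat_lit 39) (nat_lit 5) (nat_lit 40) (nat_lit 5) (nat_lit 387) (nat_lit 382) (nat_lit 251)) (XT.lf (nat_lit 0) (nat_lit 1539403360984) (nat_lit 380) (nat_lit 412812970628) (nat_lit 76) (nat_lit 297702228015)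 (nat_lit 35) (nat_lit 5) (nat_lit 40) (nat_lit 5) (nat_lit 36) (nat_lit 5) (nat_lit 388) (nat_lit 382) (nat_lit 250)))))) (XT.nd (nat_lit 468) (nat_lit 456) (nat_lit 0) (XT.nd (nat_lit 234) (nat_lit 228) (nat_lit 0) (XT.nd (nat_lit 78) (nat_lit 152) (nat_lit 0) (XT.lf (nat_lit 0) (nat_lit 932759246728) (nat_lit 152) (nat_lit 1093526760425) (nat_lit 228) (nat_lit 410404100274) (nat_lit 33) (nat_lit 5) (nat_lit 35) (nat_lit 5) (nat_lit 36) (nat_lit 5) (nat_lit 389) (nat_lit 382) (nat_lit 249)) (XT.nd (nat_lit 78) (nat_lit 152) (nat_lit 0) (XT.lf (nat_lit 0) (nat_lit 2526561842070) (nat_lit 152) (nat_lit 81218065406) (nat_lit 228) (nat_lit 40460651337) (nat_lit 33) (nat_lit 5) (nat_lit 35) (nat_lit 5) (nat_lit 36) (nat_lit 5) (nat_lit 390) (nat_lit 382) (nat_lit 248)) (XT.lf (nat_lit 0) (nat_lit 465443881458) (nat_lit 152) (nat_lit 1334109255624) (nat_lit 76) (nat_lit 1072367899686) (nat_lit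 31) (nat_lit 5) (nat_lit 33) (nat_lit 5) (nat_lit 32) (nat_lit 5) (nat_lit 391) (nat_lit 382) (nat_lit 247)))) (XT.nd (nat_lit 78) (nat_lit 76) (nat_lit 0) (XT.lf (nat_lit 0) (nat_lit 357424676117) (nat_lit 152) (nat_lit 710998094677) (nat_lit 228) (nat_lit 2056642149476) (nat_lit 29) (nat_lit 5) (nat_lit 31) (nat_lit 5) (nat_lit 32) (nat_lit 5) (nat_lit 392) (nat_lit 382) (nat_lit 246)) (XT.nd (nat_lit 78) (nat_lit 76) (nat_lit 0) (XT.lf (nat_lit 0) (nat_lit 1857301894945) (nat_lit 228) (nat_lit 978811248922) (nat_lit 76) (nat_lit 565749232218) (nat_lit 29) (nat_lit 5) (nat_lit 32) (nat_lit 5) (nat_lit 30) (nat_lit 4) (nat_lit 393) (nat_lit 382) (nat_lit 245)) (XT.lf (nat_lit 0) (nat_lit 1146559714984) (nat_lit 76) (nat_lit 1699286815795) (nat_lit 152) (nat_lit 862132873036) (nat_lit 28) (nat_lit 5) (nat_lit 29) (nat_lit 5) (nat_lit 30) (nat_lit 4) (nat_lit 394) (nat_lit 382) (nat_lit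 244))))) (XT.nd (nat_lit 234) (nat_lit 228) (nat_lit 0) (XT.nd (nat_lit 78) (nat_lit 228) (nat_lit 0) (XT.lf (nat_lit 0) (nat_lit 3700741357661) (nat_lit 76) (nat_lit 333096636096) (nat_lit 152) (nat_lit 18501222181) (nat_lit 28) (nat_lit 5) (nat_lit 29) (nat_lit 5) (nat_lit 30) (nat_lit 4) (nat_lit 395) (nat_lit 382) (nat_lit 243)) (XT.nd (nat_lit 78) (nat_lit 76) (nat_lit 0) (XT.lf (nat_lit 0) (nat_lit 1022485620778) (nat_lit 152) (nat_lit 2125143159926) (nat_lit 76) (nat_lit 1271482920795) (nat_lit 26) (nat_lit 5) (nat_lit 28) (nat_lit 5) (nat_lit 27) (nat_lit 4) (nat_lit 396) (nat_lit 382) (nat_lit 242)) (XT.lf (nat_lit 0) (nat_lit 570953801475) (nat_lit 76) (nat_lit 1705530406835) (nat_lit 152) (nat_lit 2555470016366) (nat_lit 25) (nat_lit 5) (nat_lit 26) (nat_lit 5) (nat_lit 27) (nat_lit 4) (nat_lit 397) (nat_lit 382) (nat_lit 241)))) (XT.nd (nat_lit 156) (nat_lit 152) (nat_lit 0)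 (XT.nd (nat_lit 78) (nat_lit 76) (nat_lit 0) (XT.lf (nat_lit 0) (nat_lit 3833008443901) (nat_lit 152) (nat_lit 1383096488190) (nat_lit 0) (nat_lit 73454315248) (nat_lit 25) (nat_lit 5) (nat_lit 27) (nat_lit 4) (nat_lit 25) (nat_lit 4) (nat_lit 398) (nat_lit 382) (nat_lit 240)) (XT.lf (nat_lit 0) (nat_lit 2025611219159) (nat_lit 76) (nat_lit 3762492069035) (nat_lit 76) (nat_lit 2937939203) (nat_lit 24) (nat_lit 4) (nat_lit 25) (nat_lit 5) (nat_lit 25) (nat_lit 4) (nat_lit 399) (nat_lit 382) (nat_lit 239))) (XT.nd (nat_lit 78) (nat_lit 76) (nat_lit 0) (XT.lf (nat_lit 0) (nat_lit 1595897137820) (nat_lit 152) (nat_lit 328375284542) (nat_lit 76) (nat_lit 4421747231605) (nat_lit 23) (nat_lit 5) (nat_lit 25) (nat_lit 5) (nat_lit 24) (nat_lit 4) (nat_lit 400) (nat_lit 382) (nat_lit 238)) (XT.lf (nat_lit 0) (nat_lit 3614693682701) (nat_lit 152) (nat_lit 2996948450409) (nat_lit 0) (nat_lit 345516176833)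 (nat_lit 22) (nat_lit 5) (nat_lit 24) (nat_lit 4) (nat_lit 22) (nat_lit 4) (nat_lit 401) (nat_lit 382) (nat_lit 237))))))) (XT.nd (nat_lit 1014) (nat_lit 532) (nat_lit 0) (XT.nd (nat_lit 468) (nat_lit 380) (nat_lit 0) (XT.nd (nat_lit 234) (nat_lit 228) (nat_lit 0) (XT.nd (nat_lit 78) (nat_lit 152) (nat_lit 0) (XT.lf (nat_lit 0) (nat_lit 1294379920584) (nat_lit 76) (nat_lit 4805141776086) (nat_lit 76) (nat_lit 1535964269544) (nat_lit 21) (nat_lit 4) (nat_lit 22) (nat_lit 5) (nat_lit 22) (nat_lit 4) (nat_lit 402) (nat_lit 382) (nat_lit 236)) (XT.nd (nat_lit 78) (nat_lit 76) (nat_lit 0) (XT.lf (nat_lit 0) (nat_lit 657420679925) (nat_lit 152) (nat_lit 1855723045287) (nat_lit 76) (nat_lit 5874437831785) (nat_lit 20) (nat_lit 5) (nat_lit 22) (nat_lit 5) (nat_lit 21) (nat_lit 4) (nat_lit 403) (nat_lit 382) (nat_lit 235)) (XT.lf (nat_lit 0) (nat_lit 3184899080629) (nat_lit 152) (nat_lit 5690134322875)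 (nat_lit 0) (nat_lit 342136030509) (nat_lit 19) (nat_lit 5) (nat_lit 21) (nat_lit 4) (nat_lit 19) (nat_lit 4) (nat_lit 404) (nat_lit 382) (nat_lit 234)))) (XT.nd (nat_lit 78) (nat_lit 228) (nat_lit 0) (XT.lf (nat_lit 0) (nat_lit 6312795679935) (nat_lit 152) (nat_lit 355172717439) (nat_lit 0) (nat_lit 3470032629430) (nat_lit 19) (nat_lit 5) (nat_lit 21) (nat_lit 4) (nat_lit 19) (nat_lit 4) (nat_lit 405) (nat_lit 382) (nat_lit 233)) (XT.nd (nat_lit 78) (nat_lit 152) (nat_lit 0) (XT.lf (nat_lit 0) (nat_lit 6344900001041) (nat_lit 76) (nat_lit 3827705545828) (nat_lit 76) (nat_lit 984942494988) (nat_lit 18) (nat_lit 4) (nat_lit 19) (nat_lit 5) (nat_lit 19) (nat_lit 4) (nat_lit 406) (nat_lit 382) (nat_lit 232)) (XT.lf (nat_lit 0) (nat_lit 1830249059798) (nat_lit 76) (nat_lit 343244945285) (nat_lit 152) (nat_lit 10128077670888) (nat_lit 16) (nat_lit 5) (nat_lit 17) (nat_lit 5) (nat_lit 18) (nat_lit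 4) (nat_lit 407) (nat_lit 382) (nat_lit 231))))) (XT.nd (nat_lit 234) (nat_lit 304) (nat_lit 0) (XT.nd (nat_lit 78) (nat_lit 76) (nat_lit 0) (XT.lf (nat_lit 0) (nat_lit 6120120056436) (nat_lit 152) (nat_lit 3779601795521) (nat_lit 0) (nat_lit 3648152185666) (nat_lit 16) (nat_lit 5) (nat_lit 18) (nat_lit 4) (nat_lit 16) (nat_lit 4) (nat_lit 408) (nat_lit 382) (nat_lit 230)) (XT.nd (nat_lit 78) (nat_lit 0) (nat_lit 0) (XT.lf (nat_lit 0) (nat_lit 4280622791337) (nat_lit 76) (nat_lit 6571713682219) (nat_lit 76) (nat_lit 4099745811258) (nat_lit 15) (nat_lit 4) (nat_lit 16) (nat_lit 5) (nat_lit 16) (nat_lit 4) (nat_lit 409) (nat_lit 382) (nat_lit 229)) (XT.lf (nat_lit 0) (nat_lit 13974656766706) (nat_lit 76) (nat_lit 2517298679761) (nat_lit 76) (nat_lit 45330808634) (nat_lit 15) (nat_lit 4) (nat_lit 16) (nat_lit 5) (nat_lit 16) (nat_lit 4) (nat_lit 410) (nat_lit 382) (nat_lit 228)))) (XT.nd (nat_lit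 156) (nat_lit 152) (nat_lit 0) (XT.nd (nat_lit 78) (nat_lit 0) (nat_lit 0) (XT.lf (nat_lit 0) (nat_lit 4617043648182) (nat_lit 152) (nat_lit 11185413792930) (nat_lit 0) (nat_lit 2467506368815) (nat_lit 13) (nat_lit 5) (nat_lit 15) (nat_lit 4) (nat_lit 13) (nat_lit 4) (nat_lit 411) (nat_lit 382) (nat_lit 227)) (XT.lf (nat_lit 0) (nat_lit 10234339099273) (nat_lit 152) (nat_lit 1904047411851) (nat_lit 0) (nat_lit 8084801819796) (nat_lit 13) (nat_lit 5) (nat_lit 15) (nat_lit 4) (nat_lit 13) (nat_lit 4) (nat_lit 412) (nat_lit 382) (nat_lit 226))) (XT.nd (nat_lit 78) (nat_lit 76) (nat_lit 0) (XT.lf (nat_lit 0) (nat_lit 9626545581686) (nat_lit 76) (nat_lit 7466298009721) (nat_lit 76) (nat_lit 5316760730149) (nat_lit 12) (nat_lit 4) (nat_lit 13) (nat_lit 5) (nat_lit 13) (nat_lit 4) (nat_lit 413) (nat_lit 382) (nat_lit 225)) (XT.lf (nat_lit 0) (nat_lit 155412244918) (nat_lit 152) (nat_lit 1815400953080)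 (nat_lit 76) (nat_lit 22937180421255) (nat_lit 11) (nat_lit 5) (nat_lit 13) (nat_lit 5) (nat_lit 12) (nat_lit 4) (nat_lit 414) (nat_lit 382) (nat_lit 224)))))) (XT.nd (nat_lit 468) (nat_lit 228) (nat_lit 0) (XT.nd (nat_lit 234) (nat_lit 152) (nat_lit 0) (XT.nd (nat_lit 78) (nat_lit 76) (nat_lit 0) (XT.lf (nat_lit 0) (nat_lit 6598320886542) (nat_lit 152) (nat_lit 16311548815985) (nat_lit 0) (nat_lit 4729158034606) (nat_lit 10) (nat_lit 5) (nat_lit 12) (nat_lit 4) (nat_lit 10) (nat_lit 4) (nat_lit 415) (nat_lit 382) (nat_lit 223)) (XT.nd (nat_lit 78) (nat_lit 76) (nat_lit 0) (XT.lf (nat_lit 0) (nat_lit 14200928885600) (nat_lit 152) (nat_lit 4218032594308) (nat_lit 0) (nat_lit 12331766033609) (nat_lit 10) (nat_lit 5) (nat_lit 12) (nat_lit 4) (nat_lit 10) (nat_lit 4) (nat_lit 416) (nat_lit 382) (nat_lit 222)) (XT.lf (nat_lit 0) (nat_lit 10636440549766) (nat_lit 76) (nat_lit 12747919855276)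 (nat_lit 76) (nat_lit 10878757003237) (nat_lit 9) (nat_lit 4) (nat_lit 10) (nat_lit 5) (nat_lit 10) (nat_lit 4) (nat_lit 417) (nat_lit 382) (nat_lit 221)))) (XT.nd (nat_lit 78) (nat_lit 152) (nat_lit 0) (XT.lf (nat_lit 0) (nat_lit 28193134009670) (nat_lit 76) (nat_lit 5972660709802) (nat_lit 76) (nat_lit 4103497857723) (nat_lit 9) (nat_lit 4) (nat_lit 10) (nat_lit 5) (nat_lit 10) (nat_lit 4) (nat_lit 418) (nat_lit 382) (nat_lit 220)) (XT.nd (nat_lit 78) (nat_lit 0) (nat_lit 0) (XT.lf (nat_lit 0) (nat_lit 3697265792846) (nat_lit 152) (nat_lit 37033681589487) (nat_lit 0) (nat_lit 2071906791007) (nat_lit 7) (nat_lit 5) (nat_lit 9) (nat_lit 4) (nat_lit 7) (nat_lit 4) (nat_lit 419) (nat_lit 382) (nat_lit 219)) (XT.lf (nat_lit 0) (nat_lit 13084226022503) (nat_lit 152) (nat_lit 23318615959244) (nat_lit 0) (nat_lit 11458867020637) (nat_lit 7) (nat_lit 5) (nat_lit 9) (nat_lit 4) (nat_lit 7) (nat_lit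 4) (nat_lit 420) (nat_lit 382) (nat_lit 218))))) (XT.nd (nat_lit 234) (nat_lit 152) (nat_lit 0) (XT.nd (nat_lit 78) (nat_lit 76) (nat_lit 0) (XT.lf (nat_lit 0) (nat_lit 23879230286326) (nat_lit 152) (nat_lit 7546290485065) (nat_lit 0) (nat_lit 22253871284436) (nat_lit 7) (nat_lit 5) (nat_lit 9) (nat_lit 4) (nat_lit 7) (nat_lit 4) (nat_lit 421) (nat_lit 382) (nat_lit 217)) (XT.nd (nat_lit 78) (nat_lit 0) (nat_lit 0) (XT.lf (nat_lit 0) (nat_lit 11626999727486) (nat_lit 76) (nat_lit 25147934726068) (nat_lit 76) (nat_lit 23522575724157) (nat_lit 6) (nat_lit 4) (nat_lit 7) (nat_lit 5) (nat_lit 7) (nat_lit 4) (nat_lit 422) (nat_lit 382) (nat_lit 216)) (XT.lf (nat_lit 0) (nat_lit 34524383617983) (nat_lit 76) (nat_lit 17475075812096) (nat_lit 76) (nat_lit 15849716810168) (nat_lit 6) (nat_lit 4) (nat_lit 7) (nat_lit 5) (nat_lit 7) (nat_lit 4) (nat_lit 423) (nat_lit 382) (nat_lit 215)))) (XT.nd (nat_lit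 156) (nat_lit 0) (nat_lit 0) (XT.nd (nat_lit 78) (nat_lit 152) (nat_lit 0) (XT.lf (nat_lit 0) (nat_lit 60856375091621) (nat_lit 76) (nat_lit 8651288061258) (nat_lit 76) (nat_lit 7025929059314) (nat_lit 6) (nat_lit 4) (nat_lit 7) (nat_lit 5) (nat_lit 7) (nat_lit 4) (nat_lit 424) (nat_lit 382) (nat_lit 214)) (XT.lf (nat_lit 0) (nat_lit 3125365530065) (nat_lit 152) (nat_lit 81621632977319) (nat_lit 0) (nat_lit 1712009876189) (nat_lit 4) (nat_lit 5) (nat_lit 6) (nat_lit 4) (nat_lit 4) (nat_lit 4) (nat_lit 425) (nat_lit 382) (nat_lit 213))) (XT.nd (nat_lit 78) (nat_lit 0) (nat_lit 0) (XT.lf (nat_lit 0) (nat_lit 15350513368256) (nat_lit 152) (nat_lit 68344808635139) (nat_lit 0) (nat_lit 13937157714370) (nat_lit 4) (nat_lit 5) (nat_lit 6) (nat_lit 4) (nat_lit 4) (nat_lit 4) (nat_lit 426) (nat_lit 382) (nat_lit 212)) (XT.lf (nat_lit 0) (nat_lit 29409433382015) (nat_lit 152) (nat_lit 53076460641975)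 (nat_lit 0) (nat_lit 27996077728120) (nat_lit 4) (nat_lit 5) (nat_lit 6) (nat_lit 4) (nat_lit 4) (nat_lit 4) (nat_lit 427) (nat_lit 382) (nat_lit 211))))))))
noncomputable def xc108 : XT := (XT.nd (nat_lit 51324) (nat_lit 0) (nat_lit 76) (XT.nd (nat_lit 50310) (nat_lit 0) (nat_lit 1292) (XT.nd (nat_lit 49842) (nat_lit 0) (nat_lit 2280) (XT.nd (nat_lit 49608) (nat_lit 0) (nat_lit 2584) (XT.nd (nat_lit 78) (nat_lit 76) (nat_lit 0) (XT.lf (nat_lit 0) (nat_lit 45577191397697) (nat_lit 152) (nat_lit 35517860450135) (nat_lit 0) (nat_lit 44163835743795) (nat_lit 4) (nat_lit 5) (nat_lit 6) (nat_lit 4) (nat_lit 4) (nat_lit 4) (nat_lit 428) (nat_lit 382) (nat_lit 210)) (XT.nd (nat_lit 78) (nat_lit 76) (nat_lit 0) (XT.lf (nat_lit 0) (nat_lit 64170113115611) (nat_lit 152) (nat_lit 15325470229780) (nat_lit 0) (nat_lit 62756757461701) (nat_lit 4) (nat_lit 5) (nat_lit 6) (nat_lit 4) (nat_lit 4) (nat_lit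 4) (nat_lit 429) (nat_lit 382) (nat_lit 209)) (XT.lf (nat_lit 0) (nat_lit 8667411424554) (nat_lit 76) (nat_lit 77243460690342) (nat_lit 76) (nat_lit 75830105036427) (nat_lit 3) (nat_lit 4) (nat_lit 4) (nat_lit 5) (nat_lit 4) (nat_lit 4) (nat_lit 430) (nat_lit 382) (nat_lit 208)))) (XT.nd (nat_lit 78) (nat_lit 0) (nat_lit 0) (XT.lf (nat_lit 0) (nat_lit 237982063289) (nat_lit 380) (nat_lit 293721903814) (nat_lit 380) (nat_lit 293721903814) (nat_lit 37) (nat_lit 3) (nat_lit 42) (nat_lit 3) (nat_lit 42) (nat_lit 5) (nat_lit 383) (nat_lit 383) (nat_lit 254)) (XT.nd (nat_lit 78) (nat_lit 0) (nat_lit 76) (XT.lf (nat_lit 76) (nat_lit 253618990428) (nat_lit 0) (nat_lit 268544289421) (nat_lit 380) (nat_lit 1250927066047) (nat_lit 38) (nat_lit 5) (nat_lit 37) (nat_lit 3) (nat_lit 42) (nat_lit 5) (nat_lit 384) (nat_lit 383) (nat_lit 253)) (XT.lf (nat_lit 0) (nat_lit 634192647360) (nat_lit 304) (nat_lit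 650389823977) (nat_lit 380) (nat_lit 620247218043) (nat_lit 38) (nat_lit 5) (nat_lit 42) (nat_lit 5) (nat_lit 43) (nat_lit 5) (nat_lit 385) (nat_lit 383) (nat_lit 252))))) (XT.nd (nat_lit 234) (nat_lit 152) (nat_lit 0) (XT.nd (nat_lit 78) (nat_lit 228) (nat_lit 0) (XT.lf (nat_lit 76) (nat_lit 369128481127) (nat_lit 0) (nat_lit 421970581936) (nat_lit 380) (nat_lit 1261019974867) (nat_lit 39) (nat_lit 5) (nat_lit 38) (nat_lit 5) (nat_lit 43) (nat_lit 5) (nat_lit 386) (nat_lit 383) (nat_lit 251)) (XT.nd (nat_lit 78) (nat_lit 304) (nat_lit 0) (XT.lf (nat_lit 0) (nat_lit 1030761878304) (nat_lit 304) (nat_lit 626955455547) (nat_lit 76) (nat_lit 554901389333) (nat_lit 39) (nat_lit 5) (nat_lit 43) (nat_lit 5) (nat_lit 40) (nat_lit 5) (nat_lit 387) (nat_lit 383) (nat_lit 250)) (XT.lf (nat_lit 0) (nat_lit 622840652874) (nat_lit 304) (nat_lit 729417800712) (nat_lit 380) (nat_lit 1038052256980) (nat_lit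 35) (nat_lit 5) (nat_lit 39) (nat_lit 5) (nat_lit 40) (nat_lit 5) (nat_lit 388) (nat_lit 383) (nat_lit 249)))) (XT.nd (nat_lit 78) (nat_lit 152) (nat_lit 0) (XT.lf (nat_lit 0) (nat_lit 1770313891676) (nat_lit 380) (nat_lit 474734884352) (nat_lit 76) (nat_lit 342357563551) (nat_lit 35) (nat_lit 5) (nat_lit 40) (nat_lit 5) (nat_lit 36) (nat_lit 5) (nat_lit 389) (nat_lit 383) (nat_lit 248)) (XT.nd (nat_lit 78) (nat_lit 0) (nat_lit 0) (XT.lf (nat_lit 0) (nat_lit 1072673164159) (nat_lit 152) (nat_lit 1257555768408) (nat_lit 228) (nat_lit 471964687313) (nat_lit 33) (nat_lit 5) (nat_lit 35) (nat_lit 5) (nat_lit 36) (nat_lit 5) (nat_lit 390) (nat_lit 383) (nat_lit 247)) (XT.lf (nat_lit 0) (nat_lit 2905546144834) (nat_lit 152) (nat_lit 93400769930) (nat_lit 228) (nat_lit 46529724688) (nat_lit 33) (nat_lit 5) (nat_lit 35) (nat_lit 5) (nat_lit 36) (nat_lit 5) (nat_lit 391) (nat_lit 383) (nat_lit 246))))))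 (XT.nd (nat_lit 468) (nat_lit 456) (nat_lit 0) (XT.nd (nat_lit 234) (nat_lit 228) (nat_lit 0) (XT.nd (nat_lit 78) (nat_lit 152) (nat_lit 0) (XT.lf (nat_lit 0) (nat_lit 535260484383) (nat_lit 152) (nat_lit 1534225613857) (nat_lit 76) (nat_lit 1233223090931) (nat_lit 31) (nat_lit 5) (nat_lit 33) (nat_lit 5) (nat_lit 32) (nat_lit 5) (nat_lit 392) (nat_lit 383) (nat_lit 245)) (XT.nd (nat_lit 78) (nat_lit 0) (nat_lit 0) (XT.lf (nat_lit 0) (nat_lit 411038406277) (nat_lit 152) (nat_lit 817647799332) (nat_lit 228) (nat_lit 2365138449817) (nat_lit 29) (nat_lit 5) (nat_lit 31) (nat_lit 5) (nat_lit 32) (nat_lit 5) (nat_lit 393) (nat_lit 383) (nat_lit 244)) (XT.lf (nat_lit 0) (nat_lit 2135897196223) (nat_lit 228) (nat_lit 1125632909103) (nat_lit 76) (nat_lit 650611624613) (nat_lit 29) (nat_lit 5) (nat_lit 32) (nat_lit 5) (nat_lit 30) (nat_lit 4) (nat_lit 394) (nat_lit 383) (nat_lit 243)))) (XT.nd (nat_lit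 78) (nat_lit 152) (nat_lit 0) (XT.lf (nat_lit 0) (nat_lit 1318543698155) (nat_lit 76) (nat_lit 1954179828127) (nat_lit 152) (nat_lit 991452785717) (nat_lit 28) (nat_lit 5) (nat_lit 29) (nat_lit 5) (nat_lit 30) (nat_lit 4) (nat_lit 395) (nat_lit 383) (nat_lit 242)) (XT.nd (nat_lit 78) (nat_lit 152) (nat_lit 0) (XT.lf (nat_lit 0) (nat_lit 4255852583852) (nat_lit 76) (nat_lit 383061122783) (nat_lit 152) (nat_lit 21276389618) (nat_lit 28) (nat_lit 5) (nat_lit 29) (nat_lit 5) (nat_lit 30) (nat_lit 4) (nat_lit 396) (nat_lit 383) (nat_lit 241)) (XT.lf (nat_lit 0) (nat_lit 1175858477816) (nat_lit 152) (nat_lit 2443914609397) (nat_lit 76) (nat_lit 1462205367419) (nat_lit 26) (nat_lit 5) (nat_lit 28) (nat_lit 5) (nat_lit 27) (nat_lit 4) (nat_lit 397) (nat_lit 383) (nat_lit 240))))) (XT.nd (nat_lit 234) (nat_lit 304) (nat_lit 0) (XT.nd (nat_lit 78) (nat_lit 76) (nat_lit 0) (XT.lf (nat_lit 0) (nat_lit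 656596895099) (nat_lit 76) (nat_lit 1961359957531) (nat_lit 152) (nat_lit 2938790503782) (nat_lit 25) (nat_lit 5) (nat_lit 26) (nat_lit 5) (nat_lit 27) (nat_lit 4) (nat_lit 398) (nat_lit 383) (nat_lit 239)) (XT.nd (nat_lit 78) (nat_lit 76) (nat_lit 0) (XT.lf (nat_lit 0) (nat_lit 4407959722228) (nat_lit 152) (nat_lit 1590560939732) (nat_lit 0) (nat_lit 84472470717) (nat_lit 25) (nat_lit 5) (nat_lit 27) (nat_lit 4) (nat_lit 25) (nat_lit 4) (nat_lit 399) (nat_lit 383) (nat_lit 238)) (XT.lf (nat_lit 0) (nat_lit 2329452922734) (nat_lit 76) (nat_lit 4326865869757) (nat_lit 76) (nat_lit 3378617355) (nat_lit 24) (nat_lit 4) (nat_lit 25) (nat_lit 5) (nat_lit 25) (nat_lit 4) (nat_lit 400) (nat_lit 383) (nat_lit 237)))) (XT.nd (nat_lit 156) (nat_lit 152) (nat_lit 0) (XT.nd (nat_lit 78) (nat_lit 76) (nat_lit 0) (XT.lf (nat_lit 0) (nat_lit 1835281718577) (nat_lit 152) (nat_lit 377631558236) (nat_lit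 76) (nat_lit 5085009323736) (nat_lit 23) (nat_lit 5) (nat_lit 25) (nat_lit 5) (nat_lit 24) (nat_lit 4) (nat_lit 401) (nat_lit 383) (nat_lit 236)) (XT.lf (nat_lit 0) (nat_lit 4156897744981) (nat_lit 152) (nat_lit 3446490698773) (nat_lit 0) (nat_lit 397343611198) (nat_lit 22) (nat_lit 5) (nat_lit 24) (nat_lit 4) (nat_lit 22) (nat_lit 4) (nat_lit 402) (nat_lit 383) (nat_lit 235))) (XT.nd (nat_lit 78) (nat_lit 76) (nat_lit 0) (XT.lf (nat_lit 0) (nat_lit 1488536926996) (nat_lit 76) (nat_lit 5525913033520) (nat_lit 76) (nat_lit 1766358899227) (nat_lit 21) (nat_lit 4) (nat_lit 22) (nat_lit 5) (nat_lit 22) (nat_lit 4) (nat_lit 403) (nat_lit 383) (nat_lit 234)) (XT.lf (nat_lit 0) (nat_lit 756033790429) (nat_lit 152) (nat_lit 2134081485313) (nat_lit 76) (nat_lit 6755603513528) (nat_lit 20) (nat_lit 5) (nat_lit 22) (nat_lit 5) (nat_lit 21) (nat_lit 4) (nat_lit 404) (nat_lit 383) (nat_lit 233)))))))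 (XT.nd (nat_lit 1014) (nat_lit 456) (nat_lit 0) (XT.nd (nat_lit 468) (nat_lit 380) (nat_lit 0) (XT.nd (nat_lit 234) (nat_lit 228) (nat_lit 0) (XT.nd (nat_lit 78) (nat_lit 76) (nat_lit 0) (XT.lf (nat_lit 0) (nat_lit 3662633951118) (nat_lit 152) (nat_lit 6543654454419) (nat_lit 0) (nat_lit 393456442317) (nat_lit 19) (nat_lit 5) (nat_lit 21) (nat_lit 4) (nat_lit 19) (nat_lit 4) (nat_lit 405) (nat_lit 383) (nat_lit 232)) (XT.nd (nat_lit 78) (nat_lit 76) (nat_lit 0) (XT.lf (nat_lit 0) (nat_lit 7259715039226) (nat_lit 152) (nat_lit 408448610371) (nat_lit 0) (nat_lit 3990537530133) (nat_lit 19) (nat_lit 5) (nat_lit 21) (nat_lit 4) (nat_lit 19) (nat_lit 4) (nat_lit 406) (nat_lit 383) (nat_lit 231)) (XT.lf (nat_lit 0) (nat_lit 7296635015214) (nat_lit 76) (nat_lit 4401861370614) (nat_lit 76) (nat_lit 1132683861268) (nat_lit 18) (nat_lit 4) (nat_lit 19) (nat_lit 5) (nat_lit 19) (nat_lit 4) (nat_lit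 407) (nat_lit 383) (nat_lit 230)))) (XT.nd (nat_lit 78) (nat_lit 76) (nat_lit 0) (XT.lf (nat_lit 0) (nat_lit 2104786432825) (nat_lit 76) (nat_lit 394731679914) (nat_lit 152) (nat_lit 11647289313592) (nat_lit 16) (nat_lit 5) (nat_lit 17) (nat_lit 5) (nat_lit 18) (nat_lit 4) (nat_lit 408) (nat_lit 383) (nat_lit 229)) (XT.nd (nat_lit 78) (nat_lit 76) (nat_lit 0) (XT.lf (nat_lit 0) (nat_lit 7038138071154) (nat_lit 152) (nat_lit 4346542051984) (nat_lit 0) (nat_lit 4195375019191) (nat_lit 16) (nat_lit 5) (nat_lit 18) (nat_lit 4) (nat_lit 16) (nat_lit 4) (nat_lit 409) (nat_lit 383) (nat_lit 228)) (XT.lf (nat_lit 0) (nat_lit 4922716222318) (nat_lit 76) (nat_lit 7557470728217) (nat_lit 76) (nat_lit 4714707676109) (nat_lit 15) (nat_lit 4) (nat_lit 16) (nat_lit 5) (nat_lit 16) (nat_lit 4) (nat_lit 410) (nat_lit 383) (nat_lit 227))))) (XT.nd (nat_lit 234) (nat_lit 228) (nat_lit 0) (XT.nd (nat_lit 78)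 (nat_lit 152) (nat_lit 0) (XT.lf (nat_lit 0) (nat_lit 16070855292391) (nat_lit 76) (nat_lit 2894893476217) (nat_lit 76) (nat_lit 52130423983) (nat_lit 15) (nat_lit 4) (nat_lit 16) (nat_lit 5) (nat_lit 16) (nat_lit 4) (nat_lit 411) (nat_lit 383) (nat_lit 226)) (XT.nd (nat_lit 78) (nat_lit 0) (nat_lit 0) (XT.lf (nat_lit 0) (nat_lit 5309600200793) (nat_lit 152) (nat_lit 12863225850627) (nat_lit 0) (nat_lit 2837632329189) (nat_lit 13) (nat_lit 5) (nat_lit 15) (nat_lit 4) (nat_lit 13) (nat_lit 4) (nat_lit 412) (nat_lit 383) (nat_lit 225)) (XT.lf (nat_lit 0) (nat_lit 11769489968845) (nat_lit 152) (nat_lit 2189654513852) (nat_lit 0) (nat_lit 9297522097159) (nat_lit 13) (nat_lit 5) (nat_lit 15) (nat_lit 4) (nat_lit 13) (nat_lit 4) (nat_lit 413) (nat_lit 383) (nat_lit 224)))) (XT.nd (nat_lit 156) (nat_lit 76) (nat_lit 0) (XT.nd (nat_lit 78) (nat_lit 76) (nat_lit 0) (XT.lf (nat_lit 0) (nat_lit 11070527428271)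 (nat_lit 76) (nat_lit 8586242706304) (nat_lit 76) (nat_lit 6114274834546) (nat_lit 12) (nat_lit 4) (nat_lit 13) (nat_lit 5) (nat_lit 13) (nat_lit 4) (nat_lit 414) (nat_lit 383) (nat_lit 223)) (XT.lf (nat_lit 0) (nat_lit 178724085715) (nat_lit 152) (nat_lit 2087711087531) (nat_lit 76) (nat_lit 26377757488286) (nat_lit 11) (nat_lit 5) (nat_lit 13) (nat_lit 5) (nat_lit 12) (nat_lit 4) (nat_lit 415) (nat_lit 383) (nat_lit 222))) (XT.nd (nat_lit 78) (nat_lit 0) (nat_lit 0) (XT.lf (nat_lit 0) (nat_lit 7588069023567) (nat_lit 152) (nat_lit 18758281129855) (nat_lit 0) (nat_lit 5438531743675) (nat_lit 10) (nat_lit 5) (nat_lit 12) (nat_lit 4) (nat_lit 10) (nat_lit 4) (nat_lit 416) (nat_lit 383) (nat_lit 221)) (XT.lf (nat_lit 0) (nat_lit 16331068221956) (nat_lit 152) (nat_lit 4850737476038) (nat_lit 0) (nat_lit 14181530942023) (nat_lit 10) (nat_lit 5) (nat_lit 12) (nat_lit 4) (nat_lit 10) (nat_lit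 4) (nat_lit 417) (nat_lit 383) (nat_lit 220)))))) (XT.nd (nat_lit 468) (nat_lit 152) (nat_lit 0) (XT.nd (nat_lit 234) (nat_lit 76) (nat_lit 0) (XT.nd (nat_lit 78) (nat_lit 152) (nat_lit 0) (XT.lf (nat_lit 0) (nat_lit 12231906639310) (nat_lit 76) (nat_lit 14660107829839) (nat_lit 76) (nat_lit 12510570549870) (nat_lit 9) (nat_lit 4) (nat_lit 10) (nat_lit 5) (nat_lit 10) (nat_lit 4) (nat_lit 418) (nat_lit 383) (nat_lit 219)) (XT.nd (nat_lit 78) (nat_lit 152) (nat_lit 0) (XT.lf (nat_lit 0) (nat_lit 32422104117276) (nat_lit 76) (nat_lit 6868559813030) (nat_lit 76) (nat_lit 4719022533031) (nat_lit 9) (nat_lit 4) (nat_lit 10) (nat_lit 5) (nat_lit 10) (nat_lit 4) (nat_lit 419) (nat_lit 383) (nat_lit 218)) (XT.lf (nat_lit 0) (nat_lit 4251855664817) (nat_lit 152) (nat_lit 42588733821448) (nat_lit 0) (nat_lit 2382692812620) (nat_lit 7) (nat_lit 5) (nat_lit 9) (nat_lit 4) (nat_lit 7) (nat_lit 4) (nat_lit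 420) (nat_lit 383) (nat_lit 217)))) (XT.nd (nat_lit 78) (nat_lit 76) (nat_lit 0) (XT.lf (nat_lit 0) (nat_lit 15046859928526) (nat_lit 152) (nat_lit 26816408347512) (nat_lit 0) (nat_lit 13177697076308) (nat_lit 7) (nat_lit 5) (nat_lit 9) (nat_lit 4) (nat_lit 7) (nat_lit 4) (nat_lit 421) (nat_lit 383) (nat_lit 216)) (XT.nd (nat_lit 78) (nat_lit 76) (nat_lit 0) (XT.lf (nat_lit 0) (nat_lit 27461114831576) (nat_lit 152) (nat_lit 8678234052939) (nat_lit 0) (nat_lit 25591951979341) (nat_lit 7) (nat_lit 5) (nat_lit 9) (nat_lit 4) (nat_lit 7) (nat_lit 4) (nat_lit 422) (nat_lit 383) (nat_lit 215)) (XT.lf (nat_lit 0) (nat_lit 13371049691273) (nat_lit 76) (nat_lit 28920124932508) (nat_lit 76) (nat_lit 27050962080258) (nat_lit 6) (nat_lit 4) (nat_lit 7) (nat_lit 5) (nat_lit 7) (nat_lit 4) (nat_lit 423) (nat_lit 383) (nat_lit 214))))) (XT.nd (nat_lit 234) (nat_lit 0) (nat_lit 0) (XT.nd (nat_lit 78) (nat_lit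 152) (nat_lit 0) (XT.lf (nat_lit 0) (nat_lit 39703041164736) (nat_lit 76) (nat_lit 20096337181763) (nat_lit 76) (nat_lit 18227174329498) (nat_lit 6) (nat_lit 4) (nat_lit 7) (nat_lit 5) (nat_lit 7) (nat_lit 4) (nat_lit 424) (nat_lit 383) (nat_lit 213)) (XT.nd (nat_lit 78) (nat_lit 152) (nat_lit 0) (XT.lf (nat_lit 0) (nat_lit 69984831358891) (nat_lit 76) (nat_lit 9948981268579) (nat_lit 76) (nat_lit 8079818416303) (nat_lit 6) (nat_lit 4) (nat_lit 7) (nat_lit 5) (nat_lit 7) (nat_lit 4) (nat_lit 425) (nat_lit 383) (nat_lit 212)) (XT.lf (nat_lit 0) (nat_lit 3594170361310) (nat_lit 152) (nat_lit 93864877920217) (nat_lit 0) (nat_lit 1968811359322) (nat_lit 4) (nat_lit 5) (nat_lit 6) (nat_lit 4) (nat_lit 4) (nat_lit 4) (nat_lit 426) (nat_lit 383) (nat_lit 211)))) (XT.nd (nat_lit 156) (nat_lit 0) (nat_lit 0) (XT.nd (nat_lit 78) (nat_lit 0) (nat_lit 0) (XT.lf (nat_lit 0) (nat_lit 17653090375004)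 (nat_lit 152) (nat_lit 78596529927192) (nat_lit 0) (nat_lit 16027731373008) (nat_lit 4) (nat_lit 5) (nat_lit 6) (nat_lit 4) (nat_lit 4) (nat_lit 4) (nat_lit 427) (nat_lit 383) (nat_lit 210)) (XT.lf (nat_lit 0) (nat_lit 33820848390629) (nat_lit 152) (nat_lit 61037929735473) (nat_lit 0) (nat_lit 32195489388627) (nat_lit 4) (nat_lit 5) (nat_lit 6) (nat_lit 4) (nat_lit 4) (nat_lit 4) (nat_lit 428) (nat_lit 383) (nat_lit 209))) (XT.nd (nat_lit 78) (nat_lit 0) (nat_lit 0) (XT.lf (nat_lit 0) (nat_lit 52413770108493) (nat_lit 152) (nat_lit 40845539515223) (nat_lit 0) (nat_lit 50788411106485) (nat_lit 4) (nat_lit 5) (nat_lit 6) (nat_lit 4) (nat_lit 4) (nat_lit 4) (nat_lit 429) (nat_lit 383) (nat_lit 208)) (XT.lf (nat_lit 0) (nat_lit 73795630083944) (nat_lit 152) (nat_lit 17624290762131) (nat_lit 0) (nat_lit 72170271081931) (nat_lit 4) (nat_lit 5) (nat_lit 6) (nat_lit 4) (nat_lit 4) (nat_lit 4) (nat_lit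 430) (nat_lit 383) (nat_lit 207))))))))
noncomputable def xc109 : XT := (XT.nd (nat_lit 51324) (nat_lit 0) (nat_lit 0) (XT.nd (nat_lit 50310) (nat_lit 0) (nat_lit 1216) (XT.nd (nat_lit 49842) (nat_lit 0) (nat_lit 1976) (XT.nd (nat_lit 49608) (nat_lit 0) (nat_lit 2660) (XT.nd (nat_lit 49452) (nat_lit 0) (nat_lit 2584) (XT.lf (nat_lit 0) (nat_lit 9967523140256) (nat_lit 76) (nat_lit 88829979792820) (nat_lit 76) (nat_lit 87204620790802) (nat_lit 3) (nat_lit 4) (nat_lit 4) (nat_lit 5) (nat_lit 4) (nat_lit 4) (nat_lit 431) (nat_lit 383) (nat_lit 206)) (XT.nd (nat_lit 78) (nat_lit 0) (nat_lit 0) (XT.lf (nat_lit 0) (nat_lit 273679394090) (nat_lit 380) (nat_lit 337780177129) (nat_lit 380) (nat_lit 337780177129) (nat_lit 37) (nat_lit 3) (nat_lit 42) (nat_lit 3) (nat_lit 42) (nat_lit 5) (nat_lit 384) (nat_lit 384) (nat_lit 252)) (XT.lf (nat_lit 76) (nat_lit 291661862392) (nat_lit 0) (nat_lit 308825947461)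 (nat_lit 380) (nat_lit 1438566082207) (nat_lit 38) (nat_lit 5) (nat_lit 37) (nat_lit 3) (nat_lit 42) (nat_lit 5) (nat_lit 385) (nat_lit 384) (nat_lit 251)))) (XT.nd (nat_lit 78) (nat_lit 0) (nat_lit 0) (XT.lf (nat_lit 0) (nat_lit 729321577004) (nat_lit 304) (nat_lit 747948271724) (nat_lit 380) (nat_lit 713284289164) (nat_lit 38) (nat_lit 5) (nat_lit 42) (nat_lit 5) (nat_lit 43) (nat_lit 5) (nat_lit 386) (nat_lit 384) (nat_lit 250)) (XT.nd (nat_lit 78) (nat_lit 0) (nat_lit 76) (XT.lf (nat_lit 76) (nat_lit 424497777971) (nat_lit 0) (nat_lit 485266173869) (nat_lit 380) (nat_lit 1450172937369) (nat_lit 39) (nat_lit 5) (nat_lit 38) (nat_lit 5) (nat_lit 43) (nat_lit 5) (nat_lit 387) (nat_lit 384) (nat_lit 249)) (XT.lf (nat_lit 0) (nat_lit 1185376185376) (nat_lit 304) (nat_lit 720998748421) (nat_lit 76) (nat_lit 638136594055) (nat_lit 39) (nat_lit 5) (nat_lit 43) (nat_lit 5) (nat_lit 40) (nat_lit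 5) (nat_lit 388) (nat_lit 384) (nat_lit 248))))) (XT.nd (nat_lit 234) (nat_lit 304) (nat_lit 0) (XT.nd (nat_lit 78) (nat_lit 152) (nat_lit 0) (XT.lf (nat_lit 0) (nat_lit 716266775107) (nat_lit 304) (nat_lit 838830469546) (nat_lit 380) (nat_lit 1193760069034) (nat_lit 35) (nat_lit 5) (nat_lit 39) (nat_lit 5) (nat_lit 40) (nat_lit 5) (nat_lit 389) (nat_lit 384) (nat_lit 247)) (XT.nd (nat_lit 78) (nat_lit 152) (nat_lit 0) (XT.lf (nat_lit 0) (nat_lit 2035860995498) (nat_lit 380) (nat_lit 545945092907) (nat_lit 76) (nat_lit 393711199091) (nat_lit 35) (nat_lit 5) (nat_lit 40) (nat_lit 5) (nat_lit 36) (nat_lit 5) (nat_lit 390) (nat_lit 384) (nat_lit 246)) (XT.lf (nat_lit 0) (nat_lit 1233574161785) (nat_lit 152) (nat_lit 1446189129072) (nat_lit 228) (nat_lit 542759369236) (nat_lit 33) (nat_lit 5) (nat_lit 35) (nat_lit 5) (nat_lit 36) (nat_lit 5) (nat_lit 391) (nat_lit 384) (nat_lit 245)))) (XT.nd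 (nat_lit 78) (nat_lit 304) (nat_lit 0) (XT.lf (nat_lit 0) (nat_lit 3341378086561) (nat_lit 152) (nat_lit 107410881421) (nat_lit 228) (nat_lit 53509164980) (nat_lit 33) (nat_lit 5) (nat_lit 35) (nat_lit 5) (nat_lit 36) (nat_lit 5) (nat_lit 392) (nat_lit 384) (nat_lit 244)) (XT.nd (nat_lit 78) (nat_lit 152) (nat_lit 0) (XT.lf (nat_lit 0) (nat_lit 615549572698) (nat_lit 152) (nat_lit 1764359433168) (nat_lit 76) (nat_lit 1418206559329) (nat_lit 31) (nat_lit 5) (nat_lit 33) (nat_lit 5) (nat_lit 32) (nat_lit 5) (nat_lit 393) (nat_lit 384) (nat_lit 243)) (XT.lf (nat_lit 0) (nat_lit 472694188952) (nat_lit 152) (nat_lit 940294962014) (nat_lit 228) (nat_lit 2719909200593) (nat_lit 29) (nat_lit 5) (nat_lit 31) (nat_lit 5) (nat_lit 32) (nat_lit 5) (nat_lit 394) (nat_lit 384) (nat_lit 242)))))) (XT.nd (nat_lit 468) (nat_lit 456) (nat_lit 0) (XT.nd (nat_lit 234) (nat_lit 228) (nat_lit 0) (XT.nd (nat_lit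 78) (nat_lit 76) (nat_lit 0) (XT.lf (nat_lit 0) (nat_lit 2456281788537) (nat_lit 228) (nat_lit 1294477824932) (nat_lit 76) (nat_lit 748203374024) (nat_lit 29) (nat_lit 5) (nat_lit 32) (nat_lit 5) (nat_lit 30) (nat_lit 4) (nat_lit 395) (nat_lit 384) (nat_lit 241)) (XT.nd (nat_lit 78) (nat_lit 0) (nat_lit 0) (XT.lf (nat_lit 0) (nat_lit 1516325272480) (nat_lit 76) (nat_lit 2247306794757) (nat_lit 152) (nat_lit 1140170689757) (nat_lit 28) (nat_lit 5) (nat_lit 29) (nat_lit 5) (nat_lit 30) (nat_lit 4) (nat_lit 396) (nat_lit 384) (nat_lit 240)) (XT.lf (nat_lit 0) (nat_lit 4894230488475) (nat_lit 76) (nat_lit 440520284601) (nat_lit 152) (nat_lit 24467836045) (nat_lit 28) (nat_lit 5) (nat_lit 29) (nat_lit 5) (nat_lit 30) (nat_lit 4) (nat_lit 397) (nat_lit 384) (nat_lit 239)))) (XT.nd (nat_lit 78) (nat_lit 76) (nat_lit 0) (XT.lf (nat_lit 0) (nat_lit 1352237260015) (nat_lit 152) (nat_lit 2810501782268)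 (nat_lit 76) (nat_lit 1681536178964) (nat_lit 26) (nat_lit 5) (nat_lit 28) (nat_lit 5) (nat_lit 27) (nat_lit 4) (nat_lit 398) (nat_lit 384) (nat_lit 238)) (XT.nd (nat_lit 78) (nat_lit 0) (nat_lit 0) (XT.lf (nat_lit 0) (nat_lit 755086447060) (nat_lit 76) (nat_lit 2255563943351) (nat_lit 152) (nat_lit 3379609067978) (nat_lit 25) (nat_lit 5) (nat_lit 26) (nat_lit 5) (nat_lit 27) (nat_lit 4) (nat_lit 399) (nat_lit 384) (nat_lit 237)) (XT.lf (nat_lit 0) (nat_lit 5069153689440) (nat_lit 152) (nat_lit 1829145064294) (nat_lit 0) (nat_lit 97143347511) (nat_lit 25) (nat_lit 5) (nat_lit 27) (nat_lit 4) (nat_lit 25) (nat_lit 4) (nat_lit 400) (nat_lit 384) (nat_lit 236))))) (XT.nd (nat_lit 234) (nat_lit 228) (nat_lit 0) (XT.nd (nat_lit 78) (nat_lit 152) (nat_lit 0) (XT.lf (nat_lit 0) (nat_lit 2678870876796) (nat_lit 76) (nat_lit 4975895742936) (nat_lit 76) (nat_lit 3885400334) (nat_lit 24) (nat_lit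 4) (nat_lit 25) (nat_lit 5) (nat_lit 25) (nat_lit 4) (nat_lit 401) (nat_lit 384) (nat_lit 235)) (XT.nd (nat_lit 78) (nat_lit 76) (nat_lit 0) (XT.lf (nat_lit 0) (nat_lit 2110573983988) (nat_lit 152) (nat_lit 434276277614) (nat_lit 76) (nat_lit 5847760727884) (nat_lit 23) (nat_lit 5) (nat_lit 25) (nat_lit 5) (nat_lit 24) (nat_lit 4) (nat_lit 402) (nat_lit 384) (nat_lit 234)) (XT.lf (nat_lit 0) (nat_lit 4780432414196) (nat_lit 152) (nat_lit 3963464289074) (nat_lit 0) (nat_lit 456945158806) (nat_lit 22) (nat_lit 5) (nat_lit 24) (nat_lit 4) (nat_lit 22) (nat_lit 4) (nat_lit 403) (nat_lit 384) (nat_lit 233)))) (XT.nd (nat_lit 156) (nat_lit 76) (nat_lit 0) (XT.nd (nat_lit 78) (nat_lit 76) (nat_lit 0) (XT.lf (nat_lit 0) (nat_lit 1711817479901) (nat_lit 76) (nat_lit 6354799981759) (nat_lit 76) (nat_lit 2031312725984) (nat_lit 21) (nat_lit 4) (nat_lit 22) (nat_lit 5) (nat_lit 22) (nat_lit 4) (nat_lit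 404) (nat_lit 384) (nat_lit 232)) (XT.lf (nat_lit 0) (nat_lit 869438865431) (nat_lit 152) (nat_lit 2454193695431) (nat_lit 76) (nat_lit 7768944045831) (nat_lit 20) (nat_lit 5) (nat_lit 22) (nat_lit 5) (nat_lit 21) (nat_lit 4) (nat_lit 405) (nat_lit 384) (nat_lit 231))) (XT.nd (nat_lit 78) (nat_lit 0) (nat_lit 0) (XT.lf (nat_lit 0) (nat_lit 4212029050134) (nat_lit 152) (nat_lit 7525202609813) (nat_lit 0) (nat_lit 452474914133) (nat_lit 19) (nat_lit 5) (nat_lit 21) (nat_lit 4) (nat_lit 19) (nat_lit 4) (nat_lit 406) (nat_lit 384) (nat_lit 230)) (XT.lf (nat_lit 0) (nat_lit 8348672300630) (nat_lit 152) (nat_lit 469715890823) (nat_lit 0) (nat_lit 4589118164408) (nat_lit 19) (nat_lit 5) (nat_lit 21) (nat_lit 4) (nat_lit 19) (nat_lit 4) (nat_lit 407) (nat_lit 384) (nat_lit 229))))))) (XT.nd (nat_lit 1014) (nat_lit 456) (nat_lit 0) (XT.nd (nat_lit 468) (nat_lit 304) (nat_lit 0) (XT.nd (nat_lit 234)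 (nat_lit 228) (nat_lit 0) (XT.nd (nat_lit 78) (nat_lit 152) (nat_lit 0) (XT.lf (nat_lit 0) (nat_lit 8391130278095) (nat_lit 76) (nat_lit 5062140570846) (nat_lit 76) (nat_lit 1302586434433) (nat_lit 18) (nat_lit 4) (nat_lit 19) (nat_lit 5) (nat_lit 19) (nat_lit 4) (nat_lit 408) (nat_lit 384) (nat_lit 228)) (XT.nd (nat_lit 78) (nat_lit 0) (nat_lit 0) (XT.lf (nat_lit 0) (nat_lit 2420504408378) (nat_lit 76) (nat_lit 453941426485) (nat_lit 152) (nat_lit 13394382704636) (nat_lit 16) (nat_lit 5) (nat_lit 17) (nat_lit 5) (nat_lit 18) (nat_lit 4) (nat_lit 409) (nat_lit 384) (nat_lit 227)) (XT.lf (nat_lit 0) (nat_lit 8093858786555) (nat_lit 152) (nat_lit 4998523350054) (nat_lit 0) (nat_lit 4824681276360) (nat_lit 16) (nat_lit 5) (nat_lit 18) (nat_lit 4) (nat_lit 16) (nat_lit 4) (nat_lit 410) (nat_lit 384) (nat_lit 226)))) (XT.nd (nat_lit 78) (nat_lit 152) (nat_lit 0) (XT.lf (nat_lit 0) (nat_lit 5661123664952)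 (nat_lit 76) (nat_lit 8691091332660) (nat_lit 76) (nat_lit 5421913822355) (nat_lit 15) (nat_lit 4) (nat_lit 16) (nat_lit 5) (nat_lit 16) (nat_lit 4) (nat_lit 411) (nat_lit 384) (nat_lit 225)) (XT.nd (nat_lit 78) (nat_lit 152) (nat_lit 0) (XT.lf (nat_lit 0) (nat_lit 18481483594324) (nat_lit 76) (nat_lit 3329127493484) (nat_lit 76) (nat_lit 59949983084) (nat_lit 15) (nat_lit 4) (nat_lit 16) (nat_lit 5) (nat_lit 16) (nat_lit 4) (nat_lit 412) (nat_lit 384) (nat_lit 224)) (XT.lf (nat_lit 0) (nat_lit 6106040234982) (nat_lit 152) (nat_lit 14792709719720) (nat_lit 0) (nat_lit 3263277182388) (nat_lit 13) (nat_lit 5) (nat_lit 15) (nat_lit 4) (nat_lit 13) (nat_lit 4) (nat_lit 413) (nat_lit 384) (nat_lit 223))))) (XT.nd (nat_lit 234) (nat_lit 152) (nat_lit 0) (XT.nd (nat_lit 78) (nat_lit 152) (nat_lit 0) (XT.lf (nat_lit 0) (nat_lit 13534913467711) (nat_lit 152) (nat_lit 2518102683538) (nat_lit 0) (nat_lit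 10692150415055) (nat_lit 13) (nat_lit 5) (nat_lit 15) (nat_lit 4) (nat_lit 13) (nat_lit 4) (nat_lit 414) (nat_lit 384) (nat_lit 222)) (XT.nd (nat_lit 78) (nat_lit 76) (nat_lit 0) (XT.lf (nat_lit 0) (nat_lit 12731106549568) (nat_lit 76) (nat_lit 9874179108563) (nat_lit 76) (nat_lit 7031416055852) (nat_lit 12) (nat_lit 4) (nat_lit 13) (nat_lit 5) (nat_lit 13) (nat_lit 4) (nat_lit 415) (nat_lit 384) (nat_lit 221)) (XT.lf (nat_lit 0) (nat_lit 205532701643) (nat_lit 152) (nat_lit 2400867744225) (nat_lit 76) (nat_lit 30334421114435) (nat_lit 11) (nat_lit 5) (nat_lit 13) (nat_lit 5) (nat_lit 12) (nat_lit 4) (nat_lit 416) (nat_lit 384) (nat_lit 220)))) (XT.nd (nat_lit 156) (nat_lit 76) (nat_lit 0) (XT.nd (nat_lit 78) (nat_lit 0) (nat_lit 0) (XT.lf (nat_lit 0) (nat_lit 8726279380159) (nat_lit 152) (nat_lit 21572023292884) (nat_lit 0) (nat_lit 6254311508160) (nat_lit 10) (nat_lit 5) (nat_lit 12)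 (nat_lit 4) (nat_lit 10) (nat_lit 4) (nat_lit 417) (nat_lit 384) (nat_lit 219)) (XT.lf (nat_lit 0) (nat_lit 18780728457908) (nat_lit 152) (nat_lit 5578348091836) (nat_lit 0) (nat_lit 16308760585877) (nat_lit 10) (nat_lit 5) (nat_lit 12) (nat_lit 4) (nat_lit 10) (nat_lit 4) (nat_lit 418) (nat_lit 384) (nat_lit 218))) (XT.nd (nat_lit 78) (nat_lit 0) (nat_lit 0) (XT.lf (nat_lit 0) (nat_lit 14066692640559) (nat_lit 76) (nat_lit 16859124001495) (nat_lit 76) (nat_lit 14387156129437) (nat_lit 9) (nat_lit 4) (nat_lit 10) (nat_lit 5) (nat_lit 10) (nat_lit 4) (nat_lit 419) (nat_lit 384) (nat_lit 217)) (XT.lf (nat_lit 0) (nat_lit 37285419739522) (nat_lit 76) (nat_lit 7898843782533) (nat_lit 76) (nat_lit 5426875910452) (nat_lit 9) (nat_lit 4) (nat_lit 10) (nat_lit 5) (nat_lit 10) (nat_lit 4) (nat_lit 420) (nat_lit 384) (nat_lit 216)))))) (XT.nd (nat_lit 468) (nat_lit 228) (nat_lit 0) (XT.nd (nat_lit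 234) (nat_lit 76) (nat_lit 0) (XT.nd (nat_lit 78) (nat_lit 0) (nat_lit 0) (XT.lf (nat_lit 0) (nat_lit 4889634016841) (nat_lit 152) (nat_lit 48977043889779) (nat_lit 0) (nat_lit 2740096736753) (nat_lit 7) (nat_lit 5) (nat_lit 9) (nat_lit 4) (nat_lit 7) (nat_lit 4) (nat_lit 421) (nat_lit 384) (nat_lit 215)) (XT.nd (nat_lit 78) (nat_lit 0) (nat_lit 0) (XT.lf (nat_lit 0) (nat_lit 17303888919806) (nat_lit 152) (nat_lit 30838869595389) (nat_lit 0) (nat_lit 15154351639702) (nat_lit 7) (nat_lit 5) (nat_lit 9) (nat_lit 4) (nat_lit 7) (nat_lit 4) (nat_lit 422) (nat_lit 384) (nat_lit 214)) (XT.lf (nat_lit 0) (nat_lit 31580282058053) (nat_lit 152) (nat_lit 9979969157185) (nat_lit 0) (nat_lit 29430744777936) (nat_lit 7) (nat_lit 5) (nat_lit 9) (nat_lit 4) (nat_lit 7) (nat_lit 4) (nat_lit 423) (nat_lit 384) (nat_lit 213)))) (XT.nd (nat_lit 78) (nat_lit 0) (nat_lit 0) (XT.lf (nat_lit 0) (nat_lit 15376707148491)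 (nat_lit 76) (nat_lit 33258143670517) (nat_lit 76) (nat_lit 31108606390388) (nat_lit 6) (nat_lit 4) (nat_lit 7) (nat_lit 5) (nat_lit 7) (nat_lit 4) (nat_lit 424) (nat_lit 384) (nat_lit 212)) (XT.nd (nat_lit 78) (nat_lit 0) (nat_lit 0) (XT.lf (nat_lit 0) (nat_lit 45658497342513) (nat_lit 76) (nat_lit 23110787757403) (nat_lit 76) (nat_lit 20961250477264) (nat_lit 6) (nat_lit 4) (nat_lit 7) (nat_lit 5) (nat_lit 7) (nat_lit 4) (nat_lit 425) (nat_lit 384) (nat_lit 211)) (XT.lf (nat_lit 0) (nat_lit 80482556065391) (nat_lit 76) (nat_lit 11441328457453) (nat_lit 76) (nat_lit 9291791177305) (nat_lit 6) (nat_lit 4) (nat_lit 7) (nat_lit 5) (nat_lit 7) (nat_lit 4) (nat_lit 426) (nat_lit 384) (nat_lit 210))))) (XT.nd (nat_lit 234) (nat_lit 76) (nat_lit 0) (XT.nd (nat_lit 78) (nat_lit 0) (nat_lit 0) (XT.lf (nat_lit 0) (nat_lit 4133295916818) (nat_lit 152) (nat_lit 107944609605452) (nat_lit 0) (nat_lit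 2264133064509) (nat_lit 4) (nat_lit 5) (nat_lit 6) (nat_lit 4) (nat_lit 4) (nat_lit 4) (nat_lit 427) (nat_lit 384) (nat_lit 209)) (XT.nd (nat_lit 78) (nat_lit 0) (nat_lit 0) (XT.lf (nat_lit 0) (nat_lit 20301053932395) (nat_lit 152) (nat_lit 90386009413838) (nat_lit 0) (nat_lit 18431891080080) (nat_lit 4) (nat_lit 5) (nat_lit 6) (nat_lit 4) (nat_lit 4) (nat_lit 4) (nat_lit 428) (nat_lit 384) (nat_lit 208)) (XT.lf (nat_lit 0) (nat_lit 38893975650216) (nat_lit 152) (nat_lit 70193619193679) (nat_lit 0) (nat_lit 37024812797896) (nat_lit 4) (nat_lit 5) (nat_lit 6) (nat_lit 4) (nat_lit 4) (nat_lit 4) (nat_lit 429) (nat_lit 384) (nat_lit 207)))) (XT.nd (nat_lit 156) (nat_lit 76) (nat_lit 0) (XT.nd (nat_lit 78) (nat_lit 0) (nat_lit 0) (XT.lf (nat_lit 0) (nat_lit 60275835625630) (nat_lit 152) (nat_lit 46972370440667) (nat_lit 0) (nat_lit 58406672773305) (nat_lit 4) (nat_lit 5) (nat_lit 6) (nat_lit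 4) (nat_lit 4) (nat_lit 4) (nat_lit 430) (nat_lit 384) (nat_lit 206)) (XT.lf (nat_lit 0) (nat_lit 84864974597286) (nat_lit 152) (nat_lit 20267934374851) (nat_lit 0) (nat_lit 82995811744958) (nat_lit 4) (nat_lit 5) (nat_lit 6) (nat_lit 4) (nat_lit 4) (nat_lit 4) (nat_lit 431) (nat_lit 384) (nat_lit 205))) (XT.nd (nat_lit 49452) (nat_lit 0) (nat_lit 2584) (XT.lf (nat_lit 0) (nat_lit 11462651612821) (nat_lit 76) (nat_lit 102154476760932) (nat_lit 76) (nat_lit 100285313908600) (nat_lit 3) (nat_lit 4) (nat_lit 4) (nat_lit 5) (nat_lit 4) (nat_lit 4) (nat_lit 432) (nat_lit 384) (nat_lit 204)) (XT.lf (nat_lit 0) (nat_lit 314731319315) (nat_lit 380) (nat_lit 388447194431) (nat_lit 380) (nat_lit 388447194431) (nat_lit 37) (nat_lit 3) (nat_lit 42) (nat_lit 3) (nat_lit 42) (nat_lit 5) (nat_lit 385) (nat_lit 385) (nat_lit 250))))))))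
noncomputable def xc110 : XT := (XT.nd (nat_lit 1950) (nat_lit 912) (nat_lit 0) (XT.nd (nat_lit 936) (nat_lit 912) (nat_lit 0) (XT.nd (nat_lit 468) (nat_lit 532) (nat_lit 0) (XT.nd (nat_lit 234) (nat_lit 152) (nat_lit 0) (XT.nd (nat_lit 78) (nat_lit 0) (nat_lit 76) (XT.lf (nat_lit 76) (nat_lit 335411159444) (nat_lit 0) (nat_lit 355149850640) (nat_lit 380) (nat_lit 1654350961459) (nat_lit 38) (nat_lit 5) (nat_lit 37) (nat_lit 3) (nat_lit 42) (nat_lit 5) (nat_lit 386) (nat_lit 385) (nat_lit 249)) (XT.nd (nat_lit 78) (nat_lit 0) (nat_lit 0) (XT.lf (nat_lit 0) (nat_lit 838719838159) (nat_lit 304) (nat_lit 860140492937) (nat_lit 380) (nat_lit 820276923778) (nat_lit 38) (nat_lit 5) (nat_lit 42) (nat_lit 5) (nat_lit 43) (nat_lit 5) (nat_lit 387) (nat_lit 385) (nat_lit 248)) (XT.lf (nat_lit 76) (nat_lit 488172463324) (nat_lit 0) (nat_lit 558056103459) (nat_lit 380) (nat_lit 1667698852472) (nat_lit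 39) (nat_lit 5) (nat_lit 38) (nat_lit 5) (nat_lit 43) (nat_lit 5) (nat_lit 388) (nat_lit 385) (nat_lit 247)))) (XT.nd (nat_lit 78) (nat_lit 304) (nat_lit 0) (XT.lf (nat_lit 0) (nat_lit 1363182632332) (nat_lit 304) (nat_lit 829148541434) (nat_lit 76) (nat_lit 733857080383) (nat_lit 39) (nat_lit 5) (nat_lit 43) (nat_lit 5) (nat_lit 40) (nat_lit 5) (nat_lit 389) (nat_lit 385) (nat_lit 246)) (XT.nd (nat_lit 78) (nat_lit 0) (nat_lit 0) (XT.lf (nat_lit 0) (nat_lit 823706809748) (nat_lit 304) (nat_lit 964655039015) (nat_lit 380) (nat_lit 1372824059357) (nat_lit 35) (nat_lit 5) (nat_lit 39) (nat_lit 5) (nat_lit 40) (nat_lit 5) (nat_lit 390) (nat_lit 385) (nat_lit 245)) (XT.lf (nat_lit 0) (nat_lit 2341240159999) (nat_lit 380) (nat_lit 627836838621) (nat_lit 76) (nat_lit 452767879717) (nat_lit 35) (nat_lit 5) (nat_lit 40) (nat_lit 5) (nat_lit 36) (nat_lit 5) (nat_lit 391) (nat_lit 385) (nat_lit 244)))))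 (XT.nd (nat_lit 234) (nat_lit 228) (nat_lit 0) (XT.nd (nat_lit 78) (nat_lit 152) (nat_lit 0) (XT.lf (nat_lit 0) (nat_lit 1418610303447) (nat_lit 152) (nat_lit 1663117494957) (nat_lit 228) (nat_lit 624173258611) (nat_lit 33) (nat_lit 5) (nat_lit 35) (nat_lit 5) (nat_lit 36) (nat_lit 5) (nat_lit 392) (nat_lit 385) (nat_lit 243)) (XT.nd (nat_lit 78) (nat_lit 152) (nat_lit 0) (XT.lf (nat_lit 0) (nat_lit 3842584814670) (nat_lit 152) (nat_lit 123522510612) (nat_lit 228) (nat_lit 61535525805) (nat_lit 33) (nat_lit 5) (nat_lit 35) (nat_lit 5) (nat_lit 36) (nat_lit 5) (nat_lit 393) (nat_lit 385) (nat_lit 242)) (XT.lf (nat_lit 0) (nat_lit 707882020441) (nat_lit 152) (nat_lit 2029013330927) (nat_lit 76) (nat_lit 1630937546826) (nat_lit 31) (nat_lit 5) (nat_lit 33) (nat_lit 5) (nat_lit 32) (nat_lit 5) (nat_lit 394) (nat_lit 385) (nat_lit 241)))) (XT.nd (nat_lit 78) (nat_lit 76) (nat_lit 0) (XT.lf (nat_lit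 0) (nat_lit 543598333728) (nat_lit 152) (nat_lit 1081339200858) (nat_lit 228) (nat_lit 3127895568058) (nat_lit 29) (nat_lit 5) (nat_lit 31) (nat_lit 5) (nat_lit 32) (nat_lit 5) (nat_lit 395) (nat_lit 385) (nat_lit 240)) (XT.nd (nat_lit 78) (nat_lit 76) (nat_lit 0) (XT.lf (nat_lit 0) (nat_lit 2824724066558) (nat_lit 228) (nat_lit 1488649483145) (nat_lit 76) (nat_lit 860433884451) (nat_lit 29) (nat_lit 5) (nat_lit 32) (nat_lit 5) (nat_lit 30) (nat_lit 4) (nat_lit 396) (nat_lit 385) (nat_lit 239)) (XT.lf (nat_lit 0) (nat_lit 1743774078174) (nat_lit 76) (nat_lit 2584402808232) (nat_lit 152) (nat_lit 1311196282772) (nat_lit 28) (nat_lit 5) (nat_lit 29) (nat_lit 5) (nat_lit 30) (nat_lit 4) (nat_lit 397) (nat_lit 385) (nat_lit 238)))))) (XT.nd (nat_lit 468) (nat_lit 532) (nat_lit 0) (XT.nd (nat_lit 234) (nat_lit 152) (nat_lit 0) (XT.nd (nat_lit 78) (nat_lit 228) (nat_lit 0) (XT.lf (nat_lit 0)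 (nat_lit 5628365074635) (nat_lit 76) (nat_lit 506598322301) (nat_lit 152) (nat_lit 28138002366) (nat_lit 28) (nat_lit 5) (nat_lit 29) (nat_lit 5) (nat_lit 30) (nat_lit 4) (nat_lit 398) (nat_lit 385) (nat_lit 237)) (XT.nd (nat_lit 78) (nat_lit 76) (nat_lit 0) (XT.lf (nat_lit 0) (nat_lit 1555072856977) (nat_lit 152) (nat_lit 3232077035590) (nat_lit 76) (nat_lit 1933766610671) (nat_lit 26) (nat_lit 5) (nat_lit 28) (nat_lit 5) (nat_lit 27) (nat_lit 4) (nat_lit 399) (nat_lit 385) (nat_lit 236)) (XT.lf (nat_lit 0) (nat_lit 868349427500) (nat_lit 76) (nat_lit 2593898528949) (nat_lit 152) (nat_lit 3886550419577) (nat_lit 25) (nat_lit 5) (nat_lit 26) (nat_lit 5) (nat_lit 27) (nat_lit 4) (nat_lit 400) (nat_lit 385) (nat_lit 235)))) (XT.nd (nat_lit 78) (nat_lit 152) (nat_lit 0) (XT.lf (nat_lit 0) (nat_lit 5829526749569) (nat_lit 152) (nat_lit 2103516811539) (nat_lit 0) (nat_lit 111714854316) (nat_lit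 25) (nat_lit 5) (nat_lit 27) (nat_lit 4) (nat_lit 25) (nat_lit 4) (nat_lit 401) (nat_lit 385) (nat_lit 234)) (XT.nd (nat_lit 78) (nat_lit 76) (nat_lit 0) (XT.lf (nat_lit 0) (nat_lit 3080701520151) (nat_lit 76) (nat_lit 5722280098869) (nat_lit 76) (nat_lit 4468203106) (nat_lit 24) (nat_lit 4) (nat_lit 25) (nat_lit 5) (nat_lit 25) (nat_lit 4) (nat_lit 402) (nat_lit 385) (nat_lit 233)) (XT.lf (nat_lit 0) (nat_lit 2427160087351) (nat_lit 152) (nat_lit 499417708400) (nat_lit 76) (nat_lit 6724924841293) (nat_lit 23) (nat_lit 5) (nat_lit 25) (nat_lit 5) (nat_lit 24) (nat_lit 4) (nat_lit 403) (nat_lit 385) (nat_lit 232))))) (XT.nd (nat_lit 234) (nat_lit 304) (nat_lit 0) (XT.nd (nat_lit 78) (nat_lit 152) (nat_lit 0) (XT.lf (nat_lit 0) (nat_lit 5497497281971) (nat_lit 152) (nat_lit 4557983921459) (nat_lit 0) (nat_lit 525486937109) (nat_lit 22) (nat_lit 5) (nat_lit 24) (nat_lit 4) (nat_lit 22) (nat_lit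 4) (nat_lit 404) (nat_lit 385) (nat_lit 231)) (XT.nd (nat_lit 78) (nat_lit 76) (nat_lit 0) (XT.lf (nat_lit 0) (nat_lit 1968590112363) (nat_lit 76) (nat_lit 7308019973889) (nat_lit 76) (nat_lit 2336009628736) (nat_lit 21) (nat_lit 4) (nat_lit 22) (nat_lit 5) (nat_lit 22) (nat_lit 4) (nat_lit 405) (nat_lit 385) (nat_lit 230)) (XT.lf (nat_lit 0) (nat_lit 999854700114) (nat_lit 152) (nat_lit 2822322740159) (nat_lit 76) (nat_lit 8934285656694) (nat_lit 20) (nat_lit 5) (nat_lit 22) (nat_lit 5) (nat_lit 21) (nat_lit 4) (nat_lit 406) (nat_lit 385) (nat_lit 229)))) (XT.nd (nat_lit 156) (nat_lit 228) (nat_lit 0) (XT.nd (nat_lit 78) (nat_lit 0) (nat_lit 0) (XT.lf (nat_lit 0) (nat_lit 4843833412454) (nat_lit 152) (nat_lit 8653982991630) (nat_lit 0) (nat_lit 520346155387) (nat_lit 19) (nat_lit 5) (nat_lit 21) (nat_lit 4) (nat_lit 19) (nat_lit 4) (nat_lit 407) (nat_lit 385) (nat_lit 228)) (XT.lf (nat_lit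 0) (nat_lit 9600973149899) (nat_lit 152) (nat_lit 540173266051) (nat_lit 0) (nat_lit 5277485892665) (nat_lit 19) (nat_lit 5) (nat_lit 21) (nat_lit 4) (nat_lit 19) (nat_lit 4) (nat_lit 408) (nat_lit 385) (nat_lit 227))) (XT.nd (nat_lit 78) (nat_lit 152) (nat_lit 0) (XT.lf (nat_lit 0) (nat_lit 9649799827824) (nat_lit 76) (nat_lit 5821461652420) (nat_lit 76) (nat_lit 1497974395042) (nat_lit 18) (nat_lit 4) (nat_lit 19) (nat_lit 5) (nat_lit 19) (nat_lit 4) (nat_lit 409) (nat_lit 385) (nat_lit 226)) (XT.lf (nat_lit 0) (nat_lit 2783580077672) (nat_lit 76) (nat_lit 522032636363) (nat_lit 152) (nat_lit 15403540105798) (nat_lit 16) (nat_lit 5) (nat_lit 17) (nat_lit 5) (nat_lit 18) (nat_lit 4) (nat_lit 410) (nat_lit 385) (nat_lit 225))))))) (XT.nd (nat_lit 1014) (nat_lit 228) (nat_lit 0) (XT.nd (nat_lit 468) (nat_lit 380) (nat_lit 0) (XT.nd (nat_lit 234) (nat_lit 228) (nat_lit 0) (XT.nd (nat_lit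 78) (nat_lit 76) (nat_lit 0) (XT.lf (nat_lit 0) (nat_lit 9307937608113) (nat_lit 152) (nat_lit 5748301845207) (nat_lit 0) (nat_lit 5548383471058) (nat_lit 16) (nat_lit 5) (nat_lit 18) (nat_lit 4) (nat_lit 16) (nat_lit 4) (nat_lit 411) (nat_lit 385) (nat_lit 224)) (XT.nd (nat_lit 78) (nat_lit 0) (nat_lit 0) (XT.lf (nat_lit 0) (nat_lit 6510292221716) (nat_lit 76) (nat_lit 9994755028937) (nat_lit 76) (nat_lit 6235200891799) (nat_lit 15) (nat_lit 4) (nat_lit 16) (nat_lit 5) (nat_lit 16) (nat_lit 4) (nat_lit 412) (nat_lit 385) (nat_lit 223)) (XT.lf (nat_lit 0) (nat_lit 21253706139579) (nat_lit 76) (nat_lit 3828496614358) (nat_lit 76) (nat_lit 68942477147) (nat_lit 15) (nat_lit 4) (nat_lit 16) (nat_lit 5) (nat_lit 16) (nat_lit 4) (nat_lit 413) (nat_lit 385) (nat_lit 222)))) (XT.nd (nat_lit 78) (nat_lit 76) (nat_lit 0) (XT.lf (nat_lit 0) (nat_lit 7021946273307) (nat_lit 152) (nat_lit 17011616171251)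 (nat_lit 0) (nat_lit 3752768762634) (nat_lit 13) (nat_lit 5) (nat_lit 15) (nat_lit 4) (nat_lit 13) (nat_lit 4) (nat_lit 414) (nat_lit 385) (nat_lit 221)) (XT.nd (nat_lit 78) (nat_lit 76) (nat_lit 0) (XT.lf (nat_lit 0) (nat_lit 15565150490544) (nat_lit 152) (nat_lit 2895818080480) (nat_lit 0) (nat_lit 12295972979825) (nat_lit 13) (nat_lit 5) (nat_lit 15) (nat_lit 4) (nat_lit 13) (nat_lit 4) (nat_lit 415) (nat_lit 385) (nat_lit 220)) (XT.lf (nat_lit 0) (nat_lit 14640772537338) (nat_lit 76) (nat_lit 11355305972060) (nat_lit 76) (nat_lit 8086128461300) (nat_lit 12) (nat_lit 4) (nat_lit 13) (nat_lit 5) (nat_lit 13) (nat_lit 4) (nat_lit 416) (nat_lit 385) (nat_lit 219))))) (XT.nd (nat_lit 234) (nat_lit 228) (nat_lit 0) (XT.nd (nat_lit 78) (nat_lit 76) (nat_lit 0) (XT.lf (nat_lit 0) (nat_lit 236362609210) (nat_lit 152) (nat_lit 2760997900993) (nat_lit 76) (nat_lit 34884584283797) (nat_lit 11)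 (nat_lit 5) (nat_lit 13) (nat_lit 5) (nat_lit 12) (nat_lit 4) (nat_lit 417) (nat_lit 385) (nat_lit 218)) (XT.nd (nat_lit 78) (nat_lit 0) (nat_lit 0) (XT.lf (nat_lit 0) (nat_lit 10035221289495) (nat_lit 152) (nat_lit 24807826781941) (nat_lit 0) (nat_lit 7192458236601) (nat_lit 10) (nat_lit 5) (nat_lit 12) (nat_lit 4) (nat_lit 10) (nat_lit 4) (nat_lit 418) (nat_lit 385) (nat_lit 217)) (XT.lf (nat_lit 0) (nat_lit 21597837728604) (nat_lit 152) (nat_lit 6415100301372) (nat_lit 0) (nat_lit 18755074675687) (nat_lit 10) (nat_lit 5) (nat_lit 12) (nat_lit 4) (nat_lit 10) (nat_lit 4) (nat_lit 419) (nat_lit 385) (nat_lit 216)))) (XT.nd (nat_lit 156) (nat_lit 152) (nat_lit 0) (XT.nd (nat_lit 78) (nat_lit 0) (nat_lit 0) (XT.lf (nat_lit 0) (nat_lit 16176696540690) (nat_lit 76) (nat_lit 19387992599588) (nat_lit 76) (nat_lit 16545229546650) (nat_lit 9) (nat_lit 4) (nat_lit 10) (nat_lit 5) (nat_lit 10) (nat_lit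 4) (nat_lit 420) (nat_lit 385) (nat_lit 215)) (XT.lf (nat_lit 0) (nat_lit 42878232703970) (nat_lit 76) (nat_lit 9083670348060) (nat_lit 76) (nat_lit 6240907295104) (nat_lit 9) (nat_lit 4) (nat_lit 10) (nat_lit 5) (nat_lit 10) (nat_lit 4) (nat_lit 421) (nat_lit 385) (nat_lit 214))) (XT.nd (nat_lit 78) (nat_lit 0) (nat_lit 0) (XT.lf (nat_lit 0) (nat_lit 5623079121108) (nat_lit 152) (nat_lit 56323600469551) (nat_lit 0) (nat_lit 3151111248959) (nat_lit 7) (nat_lit 5) (nat_lit 9) (nat_lit 4) (nat_lit 7) (nat_lit 4) (nat_lit 422) (nat_lit 385) (nat_lit 213)) (XT.lf (nat_lit 0) (nat_lit 19899472259290) (nat_lit 152) (nat_lit 35464700031485) (nat_lit 0) (nat_lit 17427504387130) (nat_lit 7) (nat_lit 5) (nat_lit 9) (nat_lit 4) (nat_lit 7) (nat_lit 4) (nat_lit 423) (nat_lit 385) (nat_lit 212)))))) (XT.nd (nat_lit 468) (nat_lit 0) (nat_lit 0) (XT.nd (nat_lit 234) (nat_lit 152) (nat_lit 0) (XT.nd (nat_lit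 78) (nat_lit 76) (nat_lit 0) (XT.lf (nat_lit 0) (nat_lit 36317324368077) (nat_lit 152) (nat_lit 11476964527969) (nat_lit 0) (nat_lit 33845356495907) (nat_lit 7) (nat_lit 5) (nat_lit 9) (nat_lit 4) (nat_lit 7) (nat_lit 4) (nat_lit 424) (nat_lit 385) (nat_lit 211)) (XT.nd (nat_lit 78) (nat_lit 0) (nat_lit 0) (XT.lf (nat_lit 0) (nat_lit 17683213223431) (nat_lit 76) (nat_lit 38246865219683) (nat_lit 76) (nat_lit 35774897347503) (nat_lit 6) (nat_lit 4) (nat_lit 7) (nat_lit 5) (nat_lit 7) (nat_lit 4) (nat_lit 425) (nat_lit 385) (nat_lit 210)) (XT.lf (nat_lit 0) (nat_lit 52507271946209) (nat_lit 76) (nat_lit 26577405919786) (nat_lit 76) (nat_lit 24105438047599) (nat_lit 6) (nat_lit 4) (nat_lit 7) (nat_lit 5) (nat_lit 7) (nat_lit 4) (nat_lit 426) (nat_lit 385) (nat_lit 209)))) (XT.nd (nat_lit 78) (nat_lit 152) (nat_lit 0) (XT.lf (nat_lit 0) (nat_lit 92554939477217) (nat_lit 76) (nat_lit 13157527725004)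 (nat_lit 76) (nat_lit 10685559852810) (nat_lit 6) (nat_lit 4) (nat_lit 7) (nat_lit 5) (nat_lit 7) (nat_lit 4) (nat_lit 427) (nat_lit 385) (nat_lit 208)) (XT.nd (nat_lit 78) (nat_lit 0) (nat_lit 0) (XT.lf (nat_lit 0) (nat_lit 4753290305333) (nat_lit 152) (nat_lit 124136301044154) (nat_lit 0) (nat_lit 2603753025160) (nat_lit 4) (nat_lit 5) (nat_lit 6) (nat_lit 4) (nat_lit 4) (nat_lit 4) (nat_lit 428) (nat_lit 385) (nat_lit 207)) (XT.lf (nat_lit 0) (nat_lit 23346212023117) (nat_lit 152) (nat_lit 103943910824074) (nat_lit 0) (nat_lit 21196674742939) (nat_lit 4) (nat_lit 5) (nat_lit 6) (nat_lit 4) (nat_lit 4) (nat_lit 4) (nat_lit 429) (nat_lit 385) (nat_lit 206))))) (XT.nd (nat_lit 49686) (nat_lit 0) (nat_lit 2508) (XT.nd (nat_lit 78) (nat_lit 0) (nat_lit 0) (XT.lf (nat_lit 0) (nat_lit 44728071998499) (nat_lit 152) (nat_lit 80722662071131) (nat_lit 0) (nat_lit 42578534718317) (nat_lit 4) (nat_lit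 5) (nat_lit 6) (nat_lit 4) (nat_lit 4) (nat_lit 4) (nat_lit 430) (nat_lit 385) (nat_lit 205)) (XT.nd (nat_lit 78) (nat_lit 0) (nat_lit 0) (XT.lf (nat_lit 0) (nat_lit 69317210970127) (nat_lit 152) (nat_lit 54018226005376) (nat_lit 0) (nat_lit 67167673689942) (nat_lit 4) (nat_lit 5) (nat_lit 6) (nat_lit 4) (nat_lit 4) (nat_lit 4) (nat_lit 431) (nat_lit 385) (nat_lit 204)) (XT.lf (nat_lit 0) (nat_lit 97594720787446) (nat_lit 152) (nat_lit 23308124529869) (nat_lit 0) (nat_lit 95445183507259) (nat_lit 4) (nat_lit 5) (nat_lit 6) (nat_lit 4) (nat_lit 4) (nat_lit 4) (nat_lit 432) (nat_lit 385) (nat_lit 203)))) (XT.nd (nat_lit 156) (nat_lit 0) (nat_lit 76) (XT.nd (nat_lit 78) (nat_lit 0) (nat_lit 0) (XT.lf (nat_lit 0) (nat_lit 361941029395) (nat_lit 380) (nat_lit 446714266588) (nat_lit 380) (nat_lit 446714266588) (nat_lit 37) (nat_lit 3) (nat_lit 42) (nat_lit 3) (nat_lit 42) (nat_lit 5) (nat_lit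 386) (nat_lit 386) (nat_lit 248)) (XT.lf (nat_lit 76) (nat_lit 385722846739) (nat_lit 0) (nat_lit 408422336598) (nat_lit 380) (nat_lit 1902503580666) (nat_lit 38) (nat_lit 5) (nat_lit 37) (nat_lit 3) (nat_lit 42) (nat_lit 5) (nat_lit 387) (nat_lit 386) (nat_lit 247))) (XT.nd (nat_lit 78) (nat_lit 0) (nat_lit 0) (XT.lf (nat_lit 0) (nat_lit 964527832487) (nat_lit 304) (nat_lit 989161552098) (nat_lit 380) (nat_lit 943318455720) (nat_lit 38) (nat_lit 5) (nat_lit 42) (nat_lit 5) (nat_lit 43) (nat_lit 5) (nat_lit 388) (nat_lit 386) (nat_lit 246)) (XT.lf (nat_lit 76) (nat_lit 561398346930) (nat_lit 0) (nat_lit 641764521633) (nat_lit 380) (nat_lit 1917853661059) (nat_lit 39) (nat_lit 5) (nat_lit 38) (nat_lit 5) (nat_lit 43) (nat_lit 5) (nat_lit 389) (nat_lit 386) (nat_lit 245))))))))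
noncomputable def xc111 : XT := (XT.nd (nat_lit 2028) (nat_lit 684) (nat_lit 0) (XT.nd (nat_lit 1014) (nat_lit 912) (nat_lit 0) (XT.nd (nat_lit 468) (nat_lit 456) (nat_lit 0) (XT.nd (nat_lit 234) (nat_lit 304) (nat_lit 0) (XT.nd (nat_lit 78) (nat_lit 304) (nat_lit 0) (XT.lf (nat_lit 0) (nat_lit 1567660041662) (nat_lit 304) (nat_lit 953520808093) (nat_lit 76) (nat_lit 843935640338) (nat_lit 39) (nat_lit 5) (nat_lit 43) (nat_lit 5) (nat_lit 40) (nat_lit 5) (nat_lit 390) (nat_lit 386) (nat_lit 244)) (XT.nd (nat_lit 78) (nat_lit 0) (nat_lit 0) (XT.lf (nat_lit 0) (nat_lit 947262845105) (nat_lit 304) (nat_lit 1109353294140) (nat_lit 380) (nat_lit 1578747653113) (nat_lit 35) (nat_lit 5) (nat_lit 39) (nat_lit 5) (nat_lit 40) (nat_lit 5) (nat_lit 391) (nat_lit 386) (nat_lit 243)) (XT.lf (nat_lit 0) (nat_lit 2692426195474) (nat_lit 380) (nat_lit 722012350636) (nat_lit 76) (nat_lit 520683062252) (nat_lit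 35) (nat_lit 5) (nat_lit 40) (nat_lit 5) (nat_lit 36) (nat_lit 5) (nat_lit 392) (nat_lit 386) (nat_lit 242)))) (XT.nd (nat_lit 78) (nat_lit 152) (nat_lit 0) (XT.lf (nat_lit 0) (nat_lit 1631401862116) (nat_lit 152) (nat_lit 1912585116572) (nat_lit 228) (nat_lit 717799235297) (nat_lit 33) (nat_lit 5) (nat_lit 35) (nat_lit 5) (nat_lit 36) (nat_lit 5) (nat_lit 393) (nat_lit 386) (nat_lit 241)) (XT.nd (nat_lit 78) (nat_lit 152) (nat_lit 0) (XT.lf (nat_lit 0) (nat_lit 4418972548307) (nat_lit 152) (nat_lit 142050884918) (nat_lit 228) (nat_lit 70765844149) (nat_lit 33) (nat_lit 5) (nat_lit 35) (nat_lit 5) (nat_lit 36) (nat_lit 5) (nat_lit 394) (nat_lit 386) (nat_lit 240)) (XT.lf (nat_lit 0) (nat_lit 814064332459) (nat_lit 152) (nat_lit 2333365317548) (nat_lit 76) (nat_lit 1875578181570) (nat_lit 31) (nat_lit 5) (nat_lit 33) (nat_lit 5) (nat_lit 32) (nat_lit 5) (nat_lit 395) (nat_lit 386) (nat_lit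 239))))) (XT.nd (nat_lit 234) (nat_lit 228) (nat_lit 0) (XT.nd (nat_lit 78) (nat_lit 76) (nat_lit 0) (XT.lf (nat_lit 0) (nat_lit 625138096213) (nat_lit 152) (nat_lit 1243540076859) (nat_lit 228) (nat_lit 3597079893720) (nat_lit 29) (nat_lit 5) (nat_lit 31) (nat_lit 5) (nat_lit 32) (nat_lit 5) (nat_lit 396) (nat_lit 386) (nat_lit 238)) (XT.nd (nat_lit 78) (nat_lit 76) (nat_lit 0) (XT.lf (nat_lit 0) (nat_lit 3248432683907) (nat_lit 228) (nat_lit 1711946893875) (nat_lit 76) (nat_lit 989498970388) (nat_lit 29) (nat_lit 5) (nat_lit 32) (nat_lit 5) (nat_lit 30) (nat_lit 4) (nat_lit 397) (nat_lit 386) (nat_lit 237)) (XT.lf (nat_lit 0) (nat_lit 2005340201108) (nat_lit 76) (nat_lit 2972063225128) (nat_lit 152) (nat_lit 1507875717288) (nat_lit 28) (nat_lit 5) (nat_lit 29) (nat_lit 5) (nat_lit 30) (nat_lit 4) (nat_lit 398) (nat_lit 386) (nat_lit 236)))) (XT.nd (nat_lit 156) (nat_lit 76) (nat_lit 0)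 (XT.nd (nat_lit 78) (nat_lit 152) (nat_lit 0) (XT.lf (nat_lit 0) (nat_lit 6472619845577) (nat_lit 76) (nat_lit 582588066873) (nat_lit 152) (nat_lit 32358695851) (nat_lit 28) (nat_lit 5) (nat_lit 29) (nat_lit 5) (nat_lit 30) (nat_lit 4) (nat_lit 399) (nat_lit 386) (nat_lit 235)) (XT.lf (nat_lit 0) (nat_lit 1788333791542) (nat_lit 152) (nat_lit 3716888580329) (nat_lit 76) (nat_lit 2223831605949) (nat_lit 26) (nat_lit 5) (nat_lit 28) (nat_lit 5) (nat_lit 27) (nat_lit 4) (nat_lit 400) (nat_lit 386) (nat_lit 234))) (XT.nd (nat_lit 78) (nat_lit 0) (nat_lit 0) (XT.lf (nat_lit 0) (nat_lit 998601851743) (nat_lit 76) (nat_lit 2982983303826) (nat_lit 152) (nat_lit 4469532976012) (nat_lit 25) (nat_lit 5) (nat_lit 26) (nat_lit 5) (nat_lit 27) (nat_lit 4) (nat_lit 401) (nat_lit 386) (nat_lit 233)) (XT.lf (nat_lit 0) (nat_lit 6703955767080) (nat_lit 152) (nat_lit 2419044323894) (nat_lit 0) (nat_lit 128472086001)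 (nat_lit 25) (nat_lit 5) (nat_lit 27) (nat_lit 4) (nat_lit 25) (nat_lit 4) (nat_lit 402) (nat_lit 386) (nat_lit 232)))))) (XT.nd (nat_lit 468) (nat_lit 456) (nat_lit 0) (XT.nd (nat_lit 234) (nat_lit 228) (nat_lit 0) (XT.nd (nat_lit 78) (nat_lit 152) (nat_lit 0) (XT.lf (nat_lit 0) (nat_lit 3542806757124) (nat_lit 76) (nat_lit 6580622109534) (nat_lit 76) (nat_lit 5138428069) (nat_lit 24) (nat_lit 4) (nat_lit 25) (nat_lit 5) (nat_lit 25) (nat_lit 4) (nat_lit 403) (nat_lit 386) (nat_lit 231)) (XT.nd (nat_lit 78) (nat_lit 76) (nat_lit 0) (XT.lf (nat_lit 0) (nat_lit 2791234104813) (nat_lit 152) (nat_lit 574330356451) (nat_lit 76) (nat_lit 7733663570682) (nat_lit 23) (nat_lit 5) (nat_lit 25) (nat_lit 5) (nat_lit 24) (nat_lit 4) (nat_lit 404) (nat_lit 386) (nat_lit 230)) (XT.lf (nat_lit 0) (nat_lit 6322121878536) (nat_lit 152) (nat_lit 5241681501378) (nat_lit 0) (nat_lit 604309981065) (nat_lit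 22) (nat_lit 5) (nat_lit 24) (nat_lit 4) (nat_lit 22) (nat_lit 4) (nat_lit 405) (nat_lit 386) (nat_lit 229)))) (XT.nd (nat_lit 78) (nat_lit 152) (nat_lit 0) (XT.lf (nat_lit 0) (nat_lit 2263878637140) (nat_lit 76) (nat_lit 8404222966091) (nat_lit 76) (nat_lit 2686411068400) (nat_lit 21) (nat_lit 4) (nat_lit 22) (nat_lit 5) (nat_lit 22) (nat_lit 4) (nat_lit 406) (nat_lit 386) (nat_lit 228)) (XT.nd (nat_lit 78) (nat_lit 76) (nat_lit 0) (XT.lf (nat_lit 0) (nat_lit 1149832908812) (nat_lit 152) (nat_lit 3245671143935) (nat_lit 76) (nat_lit 10274428508213) (nat_lit 20) (nat_lit 5) (nat_lit 22) (nat_lit 5) (nat_lit 21) (nat_lit 4) (nat_lit 407) (nat_lit 386) (nat_lit 227)) (XT.lf (nat_lit 0) (nat_lit 5570408427952) (nat_lit 152) (nat_lit 9952080433074) (nat_lit 0) (nat_lit 598398081822) (nat_lit 19) (nat_lit 5) (nat_lit 21) (nat_lit 4) (nat_lit 19) (nat_lit 4) (nat_lit 408) (nat_lit 386) (nat_lit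 226))))) (XT.nd (nat_lit 234) (nat_lit 228) (nat_lit 0) (XT.nd (nat_lit 78) (nat_lit 228) (nat_lit 0) (XT.lf (nat_lit 0) (nat_lit 11041119125539) (nat_lit 152) (nat_lit 621199249610) (nat_lit 0) (nat_lit 6069108779284) (nat_lit 19) (nat_lit 5) (nat_lit 21) (nat_lit 4) (nat_lit 19) (nat_lit 4) (nat_lit 409) (nat_lit 386) (nat_lit 225)) (XT.nd (nat_lit 78) (nat_lit 152) (nat_lit 0) (XT.lf (nat_lit 0) (nat_lit 11097269808057) (nat_lit 76) (nat_lit 6694680897219) (nat_lit 76) (nat_lit 1722670550854) (nat_lit 18) (nat_lit 4) (nat_lit 19) (nat_lit 5) (nat_lit 19) (nat_lit 4) (nat_lit 410) (nat_lit 386) (nat_lit 224)) (XT.lf (nat_lit 0) (nat_lit 3201117095400) (nat_lit 76) (nat_lit 600337528720) (nat_lit 152) (nat_lit 17714071118241) (nat_lit 16) (nat_lit 5) (nat_lit 17) (nat_lit 5) (nat_lit 18) (nat_lit 4) (nat_lit 411) (nat_lit 386) (nat_lit 223)))) (XT.nd (nat_lit 156) (nat_lit 152) (nat_lit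 0) (XT.nd (nat_lit 78) (nat_lit 76) (nat_lit 0) (XT.lf (nat_lit 0) (nat_lit 10704128252034) (nat_lit 152) (nat_lit 6610547116426) (nat_lit 0) (nat_lit 6380640994170) (nat_lit 16) (nat_lit 5) (nat_lit 18) (nat_lit 4) (nat_lit 16) (nat_lit 4) (nat_lit 412) (nat_lit 386) (nat_lit 222)) (XT.lf (nat_lit 0) (nat_lit 7486836060283) (nat_lit 76) (nat_lit 11493968280539) (nat_lit 76) (nat_lit 7170481022613) (nat_lit 15) (nat_lit 4) (nat_lit 16) (nat_lit 5) (nat_lit 16) (nat_lit 4) (nat_lit 413) (nat_lit 386) (nat_lit 221))) (XT.nd (nat_lit 78) (nat_lit 152) (nat_lit 0) (XT.lf (nat_lit 0) (nat_lit 24441762065132) (nat_lit 76) (nat_lit 4402771104130) (nat_lit 76) (nat_lit 79283846149) (nat_lit 15) (nat_lit 4) (nat_lit 16) (nat_lit 5) (nat_lit 16) (nat_lit 4) (nat_lit 414) (nat_lit 386) (nat_lit 220)) (XT.lf (nat_lit 0) (nat_lit 8075238216630) (nat_lit 152) (nat_lit 19563358592078) (nat_lit 0) (nat_lit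 4315684079214) (nat_lit 13) (nat_lit 5) (nat_lit 15) (nat_lit 4) (nat_lit 13) (nat_lit 4) (nat_lit 415) (nat_lit 386) (nat_lit 219))))))) (XT.nd (nat_lit 1014) (nat_lit 152) (nat_lit 0) (XT.nd (nat_lit 468) (nat_lit 228) (nat_lit 0) (XT.nd (nat_lit 234) (nat_lit 152) (nat_lit 0) (XT.nd (nat_lit 78) (nat_lit 152) (nat_lit 0) (XT.lf (nat_lit 0) (nat_lit 17899923066149) (nat_lit 152) (nat_lit 3330190788325) (nat_lit 0) (nat_lit 14140368928698) (nat_lit 13) (nat_lit 5) (nat_lit 15) (nat_lit 4) (nat_lit 13) (nat_lit 4) (nat_lit 416) (nat_lit 386) (nat_lit 218)) (XT.nd (nat_lit 78) (nat_lit 76) (nat_lit 0) (XT.lf (nat_lit 0) (nat_lit 16836888421973) (nat_lit 76) (nat_lit 13058601865762) (nat_lit 76) (nat_lit 9299047728279) (nat_lit 12) (nat_lit 4) (nat_lit 13) (nat_lit 5) (nat_lit 13) (nat_lit 4) (nat_lit 417) (nat_lit 386) (nat_lit 217)) (XT.lf (nat_lit 0) (nat_lit 271817002347) (nat_lit 152)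 (nat_lit 3175147582462) (nat_lit 76) (nat_lit 40117271928027) (nat_lit 11) (nat_lit 5) (nat_lit 13) (nat_lit 5) (nat_lit 12) (nat_lit 4) (nat_lit 418) (nat_lit 386) (nat_lit 216)))) (XT.nd (nat_lit 78) (nat_lit 76) (nat_lit 0) (XT.lf (nat_lit 0) (nat_lit 11540504484667) (nat_lit 152) (nat_lit 28529000795545) (nat_lit 0) (nat_lit 8271326973768) (nat_lit 10) (nat_lit 5) (nat_lit 12) (nat_lit 4) (nat_lit 10) (nat_lit 4) (nat_lit 419) (nat_lit 386) (nat_lit 215)) (XT.nd (nat_lit 78) (nat_lit 76) (nat_lit 0) (XT.lf (nat_lit 0) (nat_lit 24837513389415) (nat_lit 152) (nat_lit 7377365343372) (nat_lit 0) (nat_lit 21568335878498) (nat_lit 10) (nat_lit 5) (nat_lit 12) (nat_lit 4) (nat_lit 10) (nat_lit 4) (nat_lit 420) (nat_lit 386) (nat_lit 214)) (XT.lf (nat_lit 0) (nat_lit 18603201024854) (nat_lit 76) (nat_lit 22296191487914) (nat_lit 76) (nat_lit 19027013976982) (nat_lit 9) (nat_lit 4) (nat_lit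 10) (nat_lit 5) (nat_lit 10) (nat_lit 4) (nat_lit 421) (nat_lit 386) (nat_lit 213))))) (XT.nd (nat_lit 234) (nat_lit 76) (nat_lit 0) (XT.nd (nat_lit 78) (nat_lit 152) (nat_lit 0) (XT.lf (nat_lit 0) (nat_lit 49309967612226) (nat_lit 76) (nat_lit 10446220898867) (nat_lit 76) (nat_lit 7177043387922) (nat_lit 9) (nat_lit 4) (nat_lit 10) (nat_lit 5) (nat_lit 10) (nat_lit 4) (nat_lit 422) (nat_lit 386) (nat_lit 212)) (XT.nd (nat_lit 78) (nat_lit 0) (nat_lit 0) (XT.lf (nat_lit 0) (nat_lit 6466540990590) (nat_lit 152) (nat_lit 64772140537190) (nat_lit 0) (nat_lit 3623777937584) (nat_lit 7) (nat_lit 5) (nat_lit 9) (nat_lit 4) (nat_lit 7) (nat_lit 4) (nat_lit 423) (nat_lit 386) (nat_lit 211)) (XT.lf (nat_lit 0) (nat_lit 22884393099328) (nat_lit 152) (nat_lit 40784405033778) (nat_lit 0) (nat_lit 20041630046313) (nat_lit 7) (nat_lit 5) (nat_lit 9) (nat_lit 4) (nat_lit 7) (nat_lit 4) (nat_lit 424) (nat_lit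 386) (nat_lit 210)))) (XT.nd (nat_lit 156) (nat_lit 0) (nat_lit 0) (XT.nd (nat_lit 78) (nat_lit 76) (nat_lit 0) (XT.lf (nat_lit 0) (nat_lit 41764923024284) (nat_lit 152) (nat_lit 13198509205052) (nat_lit 0) (nat_lit 38922159971261) (nat_lit 7) (nat_lit 5) (nat_lit 9) (nat_lit 4) (nat_lit 7) (nat_lit 4) (nat_lit 425) (nat_lit 386) (nat_lit 209)) (XT.lf (nat_lit 0) (nat_lit 20335695208963) (nat_lit 76) (nat_lit 43983895001567) (nat_lit 76) (nat_lit 41141131948538) (nat_lit 6) (nat_lit 4) (nat_lit 7) (nat_lit 5) (nat_lit 7) (nat_lit 4) (nat_lit 426) (nat_lit 386) (nat_lit 208))) (XT.nd (nat_lit 78) (nat_lit 0) (nat_lit 0) (XT.lf (nat_lit 0) (nat_lit 60383362739894) (nat_lit 76) (nat_lit 30564016806825) (nat_lit 76) (nat_lit 27721253753790) (nat_lit 6) (nat_lit 4) (nat_lit 7) (nat_lit 5) (nat_lit 7) (nat_lit 4) (nat_lit 427) (nat_lit 386) (nat_lit 207)) (XT.lf (nat_lit 0) (nat_lit 106438180400324)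 (nat_lit 76) (nat_lit 15131156882947) (nat_lit 76) (nat_lit 12288393829907) (nat_lit 6) (nat_lit 4) (nat_lit 7) (nat_lit 5) (nat_lit 7) (nat_lit 4) (nat_lit 428) (nat_lit 386) (nat_lit 206)))))) (XT.nd (nat_lit 49920) (nat_lit 0) (nat_lit 2204) (XT.nd (nat_lit 234) (nat_lit 0) (nat_lit 0) (XT.nd (nat_lit 78) (nat_lit 0) (nat_lit 0) (XT.lf (nat_lit 0) (nat_lit 5466283851884) (nat_lit 152) (nat_lit 142756746199177) (nat_lit 0) (nat_lit 2994315979671) (nat_lit 4) (nat_lit 5) (nat_lit 6) (nat_lit 4) (nat_lit 4) (nat_lit 4) (nat_lit 429) (nat_lit 386) (nat_lit 205)) (XT.nd (nat_lit 78) (nat_lit 0) (nat_lit 0) (XT.lf (nat_lit 0) (nat_lit 26848143827237) (nat_lit 152) (nat_lit 119535497446294) (nat_lit 0) (nat_lit 24376175955021) (nat_lit 4) (nat_lit 5) (nat_lit 6) (nat_lit 4) (nat_lit 4) (nat_lit 4) (nat_lit 430) (nat_lit 386) (nat_lit 204)) (XT.lf (nat_lit 0) (nat_lit 51437282798840) (nat_lit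 152) (nat_lit 92831061380592) (nat_lit 0) (nat_lit 48965314926622) (nat_lit 4) (nat_lit 5) (nat_lit 6) (nat_lit 4) (nat_lit 4) (nat_lit 4) (nat_lit 431) (nat_lit 386) (nat_lit 203)))) (XT.nd (nat_lit 78) (nat_lit 0) (nat_lit 0) (XT.lf (nat_lit 0) (nat_lit 79714792616139) (nat_lit 152) (nat_lit 62120959905131) (nat_lit 0) (nat_lit 77242824743918) (nat_lit 4) (nat_lit 5) (nat_lit 6) (nat_lit 4) (nat_lit 4) (nat_lit 4) (nat_lit 432) (nat_lit 386) (nat_lit 202)) (XT.nd (nat_lit 49530) (nat_lit 0) (nat_lit 2508) (XT.lf (nat_lit 0) (nat_lit 112233928905993) (nat_lit 152) (nat_lit 26804343208435) (nat_lit 0) (nat_lit 109761961033769) (nat_lit 4) (nat_lit 5) (nat_lit 6) (nat_lit 4) (nat_lit 4) (nat_lit 4) (nat_lit 433) (nat_lit 386) (nat_lit 201)) (XT.lf (nat_lit 0) (nat_lit 416232193017) (nat_lit 380) (nat_lit 513721401277) (nat_lit 380) (nat_lit 513721401277) (nat_lit 37) (nat_lit 3) (nat_lit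 42) (nat_lit 3) (nat_lit 42) (nat_lit 5) (nat_lit 387) (nat_lit 387) (nat_lit 246))))) (XT.nd (nat_lit 234) (nat_lit 304) (nat_lit 0) (XT.nd (nat_lit 78) (nat_lit 0) (nat_lit 76) (XT.lf (nat_lit 76) (nat_lit 443581283867) (nat_lit 0) (nat_lit 469685693411) (nat_lit 380) (nat_lit 2187879098852) (nat_lit 38) (nat_lit 5) (nat_lit 37) (nat_lit 3) (nat_lit 42) (nat_lit 5) (nat_lit 388) (nat_lit 387) (nat_lit 245)) (XT.nd (nat_lit 78) (nat_lit 0) (nat_lit 0) (XT.lf (nat_lit 0) (nat_lit 1109207021428) (nat_lit 304) (nat_lit 1137535773738) (nat_lit 380) (nat_lit 1084816219069) (nat_lit 38) (nat_lit 5) (nat_lit 42) (nat_lit 5) (nat_lit 43) (nat_lit 5) (nat_lit 389) (nat_lit 387) (nat_lit 244)) (XT.lf (nat_lit 76) (nat_lit 645608109637) (nat_lit 0) (nat_lit 738029201885) (nat_lit 380) (nat_lit 2205531695637) (nat_lit 39) (nat_lit 5) (nat_lit 38) (nat_lit 5) (nat_lit 43) (nat_lit 5) (nat_lit 390)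 (nat_lit 387) (nat_lit 243)))) (XT.nd (nat_lit 156) (nat_lit 152) (nat_lit 0) (XT.nd (nat_lit 78) (nat_lit 304) (nat_lit 0) (XT.lf (nat_lit 0) (nat_lit 1802809058860) (nat_lit 304) (nat_lit 1096548918301) (nat_lit 76) (nat_lit 970525984798) (nat_lit 39) (nat_lit 5) (nat_lit 43) (nat_lit 5) (nat_lit 40) (nat_lit 5) (nat_lit 391) (nat_lit 387) (nat_lit 242)) (XT.lf (nat_lit 0) (nat_lit 1089352282377) (nat_lit 304) (nat_lit 1275756287711) (nat_lit 380) (nat_lit 1815559789626) (nat_lit 35) (nat_lit 5) (nat_lit 39) (nat_lit 5) (nat_lit 40) (nat_lit 5) (nat_lit 392) (nat_lit 387) (nat_lit 241))) (XT.nd (nat_lit 78) (nat_lit 152) (nat_lit 0) (XT.lf (nat_lit 0) (nat_lit 3096290133473) (nat_lit 380) (nat_lit 830314192813) (nat_lit 76) (nat_lit 598785522025) (nat_lit 35) (nat_lit 5) (nat_lit 40) (nat_lit 5) (nat_lit 36) (nat_lit 5) (nat_lit 393) (nat_lit 387) (nat_lit 240)) (XT.lf (nat_lit 0) (nat_lit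 1876112151378) (nat_lit 152) (nat_lit 2199472882070) (nat_lit 228) (nat_lit 825469111438) (nat_lit 33) (nat_lit 5) (nat_lit 35) (nat_lit 5) (nat_lit 36) (nat_lit 5) (nat_lit 394) (nat_lit 387) (nat_lit 239))))))))
noncomputable def xc112 : XT := (XT.nd (nat_lit 1950) (nat_lit 532) (nat_lit 0) (XT.nd (nat_lit 936) (nat_lit 836) (nat_lit 0) (XT.nd (nat_lit 468) (nat_lit 456) (nat_lit 0) (XT.nd (nat_lit 234) (nat_lit 76) (nat_lit 0) (XT.nd (nat_lit 78) (nat_lit 304) (nat_lit 0) (XT.lf (nat_lit 0) (nat_lit 5081818439201) (nat_lit 152) (nat_lit 163358515927) (nat_lit 228) (nat_lit 81380712811) (nat_lit 33) (nat_lit 5) (nat_lit 35) (nat_lit 5) (nat_lit 36) (nat_lit 5) (nat_lit 395) (nat_lit 387) (nat_lit 238)) (XT.nd (nat_lit 78) (nat_lit 152) (nat_lit 0) (XT.lf (nat_lit 0) (nat_lit 936173989097) (nat_lit 152) (nat_lit 2683370105337) (nat_lit 76) (nat_lit 2156914910863) (nat_lit 31) (nat_lit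 5) (nat_lit 33) (nat_lit 5) (nat_lit 32) (nat_lit 5) (nat_lit 396) (nat_lit 387) (nat_lit 237)) (XT.lf (nat_lit 0) (nat_lit 718908820041) (nat_lit 152) (nat_lit 1430071085267) (nat_lit 228) (nat_lit 4136641870560) (nat_lit 29) (nat_lit 5) (nat_lit 31) (nat_lit 5) (nat_lit 32) (nat_lit 5) (nat_lit 397) (nat_lit 387) (nat_lit 236)))) (XT.nd (nat_lit 78) (nat_lit 76) (nat_lit 0) (XT.lf (nat_lit 0) (nat_lit 3735697592062) (nat_lit 228) (nat_lit 1968738919078) (nat_lit 76) (nat_lit 1137923818419) (nat_lit 29) (nat_lit 5) (nat_lit 32) (nat_lit 5) (nat_lit 30) (nat_lit 4) (nat_lit 398) (nat_lit 387) (nat_lit 235)) (XT.nd (nat_lit 78) (nat_lit 0) (nat_lit 0) (XT.lf (nat_lit 0) (nat_lit 2306141239749) (nat_lit 76) (nat_lit 3417872705616) (nat_lit 152) (nat_lit 1734057068907) (nat_lit 28) (nat_lit 5) (nat_lit 29) (nat_lit 5) (nat_lit 30) (nat_lit 4) (nat_lit 399) (nat_lit 387) (nat_lit 234)) (XT.lf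 (nat_lit 0) (nat_lit 7443512829782) (nat_lit 76) (nat_lit 669976274051) (nat_lit 152) (nat_lit 37212495034) (nat_lit 28) (nat_lit 5) (nat_lit 29) (nat_lit 5) (nat_lit 30) (nat_lit 4) (nat_lit 400) (nat_lit 387) (nat_lit 233))))) (XT.nd (nat_lit 234) (nat_lit 228) (nat_lit 0) (XT.nd (nat_lit 78) (nat_lit 76) (nat_lit 0) (XT.lf (nat_lit 0) (nat_lit 2056583864824) (nat_lit 152) (nat_lit 4274421859364) (nat_lit 76) (nat_lit 2557406349622) (nat_lit 26) (nat_lit 5) (nat_lit 28) (nat_lit 5) (nat_lit 27) (nat_lit 4) (nat_lit 401) (nat_lit 387) (nat_lit 232)) (XT.nd (nat_lit 78) (nat_lit 0) (nat_lit 0) (XT.lf (nat_lit 0) (nat_lit 1148392137156) (nat_lit 76) (nat_lit 3430430796023) (nat_lit 152) (nat_lit 5139962917498) (nat_lit 25) (nat_lit 5) (nat_lit 26) (nat_lit 5) (nat_lit 27) (nat_lit 4) (nat_lit 402) (nat_lit 387) (nat_lit 231)) (XT.lf (nat_lit 0) (nat_lit 7709549135981) (nat_lit 152) (nat_lit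 2781900965389) (nat_lit 0) (nat_lit 147742901576) (nat_lit 25) (nat_lit 5) (nat_lit 27) (nat_lit 4) (nat_lit 25) (nat_lit 4) (nat_lit 403) (nat_lit 387) (nat_lit 230)))) (XT.nd (nat_lit 78) (nat_lit 152) (nat_lit 0) (XT.lf (nat_lit 0) (nat_lit 4074227777459) (nat_lit 76) (nat_lit 7567715422815) (nat_lit 76) (nat_lit 5909188119) (nat_lit 24) (nat_lit 4) (nat_lit 25) (nat_lit 5) (nat_lit 25) (nat_lit 4) (nat_lit 404) (nat_lit 387) (nat_lit 229)) (XT.nd (nat_lit 78) (nat_lit 76) (nat_lit 0) (XT.lf (nat_lit 0) (nat_lit 3209919223831) (nat_lit 152) (nat_lit 660479903712) (nat_lit 76) (nat_lit 8893713108700) (nat_lit 23) (nat_lit 5) (nat_lit 25) (nat_lit 5) (nat_lit 24) (nat_lit 4) (nat_lit 405) (nat_lit 387) (nat_lit 228)) (XT.lf (nat_lit 0) (nat_lit 7270440163544) (nat_lit 152) (nat_lit 6027933720310) (nat_lit 0) (nat_lit 694956480788) (nat_lit 22) (nat_lit 5) (nat_lit 24) (nat_lit 4) (nat_lit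 22) (nat_lit 4) (nat_lit 406) (nat_lit 387) (nat_lit 227)))))) (XT.nd (nat_lit 468) (nat_lit 380) (nat_lit 0) (XT.nd (nat_lit 234) (nat_lit 228) (nat_lit 0) (XT.nd (nat_lit 78) (nat_lit 152) (nat_lit 0) (XT.lf (nat_lit 0) (nat_lit 2603460438702) (nat_lit 76) (nat_lit 9664856408069) (nat_lit 76) (nat_lit 3089372725146) (nat_lit 21) (nat_lit 4) (nat_lit 22) (nat_lit 5) (nat_lit 22) (nat_lit 4) (nat_lit 407) (nat_lit 387) (nat_lit 226)) (XT.nd (nat_lit 78) (nat_lit 76) (nat_lit 0) (XT.lf (nat_lit 0) (nat_lit 1322307847918) (nat_lit 152) (nat_lit 3732521810043) (nat_lit 76) (nat_lit 11815592786725) (nat_lit 20) (nat_lit 5) (nat_lit 22) (nat_lit 5) (nat_lit 21) (nat_lit 4) (nat_lit 408) (nat_lit 387) (nat_lit 225)) (XT.lf (nat_lit 0) (nat_lit 6405969694889) (nat_lit 152) (nat_lit 11444892492515) (nat_lit 0) (nat_lit 688157796460) (nat_lit 19) (nat_lit 5) (nat_lit 21) (nat_lit 4) (nat_lit 19)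 (nat_lit 4) (nat_lit 409) (nat_lit 387) (nat_lit 224)))) (XT.nd (nat_lit 78) (nat_lit 228) (nat_lit 0) (XT.lf (nat_lit 0) (nat_lit 12697286996757) (nat_lit 152) (nat_lit 714379132252) (nat_lit 0) (nat_lit 6979475098232) (nat_lit 19) (nat_lit 5) (nat_lit 21) (nat_lit 4) (nat_lit 19) (nat_lit 4) (nat_lit 410) (nat_lit 387) (nat_lit 223)) (XT.nd (nat_lit 78) (nat_lit 152) (nat_lit 0) (XT.lf (nat_lit 0) (nat_lit 12761860283848) (nat_lit 76) (nat_lit 7698883029485) (nat_lit 76) (nat_lit 1981071130877) (nat_lit 18) (nat_lit 4) (nat_lit 19) (nat_lit 5) (nat_lit 19) (nat_lit 4) (nat_lit 411) (nat_lit 387) (nat_lit 222)) (XT.lf (nat_lit 0) (nat_lit 3681284664306) (nat_lit 76) (nat_lit 690388155687) (nat_lit 152) (nat_lit 20371181783385) (nat_lit 16) (nat_lit 5) (nat_lit 17) (nat_lit 5) (nat_lit 18) (nat_lit 4) (nat_lit 412) (nat_lit 387) (nat_lit 221))))) (XT.nd (nat_lit 234) (nat_lit 304) (nat_lit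 0) (XT.nd (nat_lit 78) (nat_lit 76) (nat_lit 0) (XT.lf (nat_lit 0) (nat_lit 12309747491883) (nat_lit 152) (nat_lit 7602129179684) (nat_lit 0) (nat_lit 7337737145151) (nat_lit 16) (nat_lit 5) (nat_lit 18) (nat_lit 4) (nat_lit 16) (nat_lit 4) (nat_lit 413) (nat_lit 387) (nat_lit 220)) (XT.nd (nat_lit 78) (nat_lit 0) (nat_lit 0) (XT.lf (nat_lit 0) (nat_lit 8609861473340) (nat_lit 76) (nat_lit 13218063520549) (nat_lit 76) (nat_lit 8246053173769) (nat_lit 15) (nat_lit 4) (nat_lit 16) (nat_lit 5) (nat_lit 16) (nat_lit 4) (nat_lit 414) (nat_lit 387) (nat_lit 219)) (XT.lf (nat_lit 0) (nat_lit 28108026378393) (nat_lit 76) (nat_lit 5063186767949) (nat_lit 76) (nat_lit 91176421127) (nat_lit 15) (nat_lit 4) (nat_lit 16) (nat_lit 5) (nat_lit 16) (nat_lit 4) (nat_lit 415) (nat_lit 387) (nat_lit 218)))) (XT.nd (nat_lit 156) (nat_lit 152) (nat_lit 0) (XT.nd (nat_lit 78) (nat_lit 0) (nat_lit 0) (XT.lf (nat_lit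 0) (nat_lit 9286523950884) (nat_lit 152) (nat_lit 22497862377215) (nat_lit 0) (nat_lit 4963036692748) (nat_lit 13) (nat_lit 5) (nat_lit 15) (nat_lit 4) (nat_lit 13) (nat_lit 4) (nat_lit 416) (nat_lit 387) (nat_lit 217)) (XT.lf (nat_lit 0) (nat_lit 20584911527602) (nat_lit 152) (nat_lit 3829719403378) (nat_lit 0) (nat_lit 16261424269438) (nat_lit 13) (nat_lit 5) (nat_lit 15) (nat_lit 4) (nat_lit 13) (nat_lit 4) (nat_lit 417) (nat_lit 387) (nat_lit 216))) (XT.nd (nat_lit 78) (nat_lit 76) (nat_lit 0) (XT.lf (nat_lit 0) (nat_lit 19362421688320) (nat_lit 76) (nat_lit 15017392144033) (nat_lit 76) (nat_lit 10693904885846) (nat_lit 12) (nat_lit 4) (nat_lit 13) (nat_lit 5) (nat_lit 13) (nat_lit 4) (nat_lit 418) (nat_lit 387) (nat_lit 215)) (XT.lf (nat_lit 0) (nat_lit 312589554027) (nat_lit 152) (nat_lit 3651419717049) (nat_lit 76) (nat_lit 46134862718488) (nat_lit 11) (nat_lit 5) (nat_lit 13) (nat_lit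 5) (nat_lit 12) (nat_lit 4) (nat_lit 419) (nat_lit 387) (nat_lit 214))))))) (XT.nd (nat_lit 1014) (nat_lit 0) (nat_lit 0) (XT.nd (nat_lit 468) (nat_lit 228) (nat_lit 0) (XT.nd (nat_lit 234) (nat_lit 152) (nat_lit 0) (XT.nd (nat_lit 78) (nat_lit 76) (nat_lit 0) (XT.lf (nat_lit 0) (nat_lit 13271580158689) (nat_lit 152) (nat_lit 32808350912089) (nat_lit 0) (nat_lit 9512026021102) (nat_lit 10) (nat_lit 5) (nat_lit 12) (nat_lit 4) (nat_lit 10) (nat_lit 4) (nat_lit 420) (nat_lit 387) (nat_lit 213)) (XT.nd (nat_lit 78) (nat_lit 76) (nat_lit 0) (XT.lf (nat_lit 0) (nat_lit 28563140398976) (nat_lit 152) (nat_lit 8483970142453) (nat_lit 0) (nat_lit 24803586261376) (nat_lit 10) (nat_lit 5) (nat_lit 12) (nat_lit 4) (nat_lit 10) (nat_lit 4) (nat_lit 421) (nat_lit 387) (nat_lit 212)) (XT.lf (nat_lit 0) (nat_lit 21393681180897) (nat_lit 76) (nat_lit 25640620209882) (nat_lit 76) (nat_lit 21881066072270)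 (nat_lit 9) (nat_lit 4) (nat_lit 10) (nat_lit 5) (nat_lit 10) (nat_lit 4) (nat_lit 422) (nat_lit 387) (nat_lit 211)))) (XT.nd (nat_lit 78) (nat_lit 152) (nat_lit 0) (XT.lf (nat_lit 0) (nat_lit 56706462756073) (nat_lit 76) (nat_lit 12013154032637) (nat_lit 76) (nat_lit 8253599895015) (nat_lit 9) (nat_lit 4) (nat_lit 10) (nat_lit 5) (nat_lit 10) (nat_lit 4) (nat_lit 423) (nat_lit 387) (nat_lit 210)) (XT.nd (nat_lit 78) (nat_lit 0) (nat_lit 0) (XT.lf (nat_lit 0) (nat_lit 7436522140174) (nat_lit 152) (nat_lit 74487961615656) (nat_lit 0) (nat_lit 4167344629190) (nat_lit 7) (nat_lit 5) (nat_lit 9) (nat_lit 4) (nat_lit 7) (nat_lit 4) (nat_lit 424) (nat_lit 387) (nat_lit 209)) (XT.lf (nat_lit 0) (nat_lit 26317052065092) (nat_lit 152) (nat_lit 46902065787008) (nat_lit 0) (nat_lit 23047874554102) (nat_lit 7) (nat_lit 5) (nat_lit 9) (nat_lit 4) (nat_lit 7) (nat_lit 4) (nat_lit 425) (nat_lit 387) (nat_lit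 208))))) (XT.nd (nat_lit 234) (nat_lit 152) (nat_lit 0) (XT.nd (nat_lit 78) (nat_lit 76) (nat_lit 0) (XT.lf (nat_lit 0) (nat_lit 48029661478679) (nat_lit 152) (nat_lit 15178285584212) (nat_lit 0) (nat_lit 44760483967682) (nat_lit 7) (nat_lit 5) (nat_lit 9) (nat_lit 4) (nat_lit 7) (nat_lit 4) (nat_lit 426) (nat_lit 387) (nat_lit 207)) (XT.nd (nat_lit 78) (nat_lit 0) (nat_lit 0) (XT.lf (nat_lit 0) (nat_lit 23386049491832) (nat_lit 76) (nat_lit 50581479250995) (nat_lit 76) (nat_lit 47312301739994) (nat_lit 6) (nat_lit 4) (nat_lit 7) (nat_lit 5) (nat_lit 7) (nat_lit 4) (nat_lit 427) (nat_lit 387) (nat_lit 206)) (XT.lf (nat_lit 0) (nat_lit 69440867152204) (nat_lit 76) (nat_lit 35148619327147) (nat_lit 76) (nat_lit 31879441816141) (nat_lit 6) (nat_lit 4) (nat_lit 7) (nat_lit 5) (nat_lit 7) (nat_lit 4) (nat_lit 428) (nat_lit 387) (nat_lit 205)))) (XT.nd (nat_lit 156) (nat_lit 0) (nat_lit 0) (XT.nd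 (nat_lit 78) (nat_lit 152) (nat_lit 0) (XT.lf (nat_lit 0) (nat_lit 122403907461526) (nat_lit 76) (nat_lit 17400830414779) (nat_lit 76) (nat_lit 14131652903769) (nat_lit 6) (nat_lit 4) (nat_lit 7) (nat_lit 5) (nat_lit 7) (nat_lit 4) (nat_lit 429) (nat_lit 387) (nat_lit 204)) (XT.lf (nat_lit 0) (nat_lit 6286226430233) (nat_lit 152) (nat_lit 164170258127845) (nat_lit 0) (nat_lit 3443463377179) (nat_lit 4) (nat_lit 5) (nat_lit 6) (nat_lit 4) (nat_lit 4) (nat_lit 4) (nat_lit 430) (nat_lit 387) (nat_lit 203))) (XT.nd (nat_lit 78) (nat_lit 0) (nat_lit 0) (XT.lf (nat_lit 0) (nat_lit 30875365401816) (nat_lit 152) (nat_lit 137465822062187) (nat_lit 0) (nat_lit 28032602348759) (nat_lit 4) (nat_lit 5) (nat_lit 6) (nat_lit 4) (nat_lit 4) (nat_lit 4) (nat_lit 431) (nat_lit 387) (nat_lit 202)) (XT.lf (nat_lit 0) (nat_lit 59152875219096) (nat_lit 152) (nat_lit 106755720586766) (nat_lit 0) (nat_lit 56310112166036)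 (nat_lit 4) (nat_lit 5) (nat_lit 6) (nat_lit 4) (nat_lit 4) (nat_lit 4) (nat_lit 432) (nat_lit 387) (nat_lit 201)))))) (XT.nd (nat_lit 49998) (nat_lit 0) (nat_lit 1900) (XT.nd (nat_lit 49764) (nat_lit 0) (nat_lit 2584) (XT.nd (nat_lit 49608) (nat_lit 0) (nat_lit 2508) (XT.lf (nat_lit 0) (nat_lit 91672011508933) (nat_lit 152) (nat_lit 71439103890105) (nat_lit 0) (nat_lit 88829248455872) (nat_lit 4) (nat_lit 5) (nat_lit 6) (nat_lit 4) (nat_lit 4) (nat_lit 4) (nat_lit 433) (nat_lit 387) (nat_lit 200)) (XT.nd (nat_lit 78) (nat_lit 0) (nat_lit 0) (XT.lf (nat_lit 0) (nat_lit 478667028935) (nat_lit 380) (nat_lit 590779607461) (nat_lit 380) (nat_lit 590779607461) (nat_lit 37) (nat_lit 3) (nat_lit 42) (nat_lit 3) (nat_lit 42) (nat_lit 5) (nat_lit 388) (nat_lit 388) (nat_lit 244)) (XT.lf (nat_lit 76) (nat_lit 510118484096) (nat_lit 0) (nat_lit 540138552204) (nat_lit 380) (nat_lit 2516060949379) (nat_lit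 38) (nat_lit 5) (nat_lit 37) (nat_lit 3) (nat_lit 42) (nat_lit 5) (nat_lit 389) (nat_lit 388) (nat_lit 243)))) (XT.nd (nat_lit 78) (nat_lit 0) (nat_lit 0) (XT.lf (nat_lit 0) (nat_lit 1275588085280) (nat_lit 304) (nat_lit 1308166131349) (nat_lit 380) (nat_lit 1247538648142) (nat_lit 38) (nat_lit 5) (nat_lit 42) (nat_lit 5) (nat_lit 43) (nat_lit 5) (nat_lit 390) (nat_lit 388) (nat_lit 242)) (XT.nd (nat_lit 78) (nat_lit 0) (nat_lit 76) (XT.lf (nat_lit 76) (nat_lit 742449334148) (nat_lit 0) (nat_lit 848733583685) (nat_lit 380) (nat_lit 2536361438956) (nat_lit 39) (nat_lit 5) (nat_lit 38) (nat_lit 5) (nat_lit 43) (nat_lit 5) (nat_lit 391) (nat_lit 388) (nat_lit 241)) (XT.lf (nat_lit 0) (nat_lit 2073230425969) (nat_lit 304) (nat_lit 1261031247724) (nat_lit 76) (nat_lit 1116104881316) (nat_lit 39) (nat_lit 5) (nat_lit 43) (nat_lit 5) (nat_lit 40) (nat_lit 5) (nat_lit 392) (nat_lit 388) (nat_lit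 240))))) (XT.nd (nat_lit 234) (nat_lit 304) (nat_lit 0) (XT.nd (nat_lit 78) (nat_lit 152) (nat_lit 0) (XT.lf (nat_lit 0) (nat_lit 1252755132678) (nat_lit 304) (nat_lit 1467119730452) (nat_lit 380) (nat_lit 2087893749409) (nat_lit 35) (nat_lit 5) (nat_lit 39) (nat_lit 5) (nat_lit 40) (nat_lit 5) (nat_lit 393) (nat_lit 388) (nat_lit 239)) (XT.nd (nat_lit 78) (nat_lit 152) (nat_lit 0) (XT.lf (nat_lit 0) (nat_lit 3560733660055) (nat_lit 380) (nat_lit 954861313857) (nat_lit 76) (nat_lit 688603350659) (nat_lit 35) (nat_lit 5) (nat_lit 40) (nat_lit 5) (nat_lit 36) (nat_lit 5) (nat_lit 394) (nat_lit 388) (nat_lit 238)) (XT.lf (nat_lit 0) (nat_lit 2157528981604) (nat_lit 152) (nat_lit 2529393812877) (nat_lit 228) (nat_lit 949289471232) (nat_lit 33) (nat_lit 5) (nat_lit 35) (nat_lit 5) (nat_lit 36) (nat_lit 5) (nat_lit 395) (nat_lit 388) (nat_lit 237)))) (XT.nd (nat_lit 156) (nat_lit 152) (nat_lit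 0) (XT.nd (nat_lit 78) (nat_lit 152) (nat_lit 0) (XT.lf (nat_lit 0) (nat_lit 5844091211620) (nat_lit 152) (nat_lit 187862292009) (nat_lit 228) (nat_lit 93587813714) (nat_lit 33) (nat_lit 5) (nat_lit 35) (nat_lit 5) (nat_lit 36) (nat_lit 5) (nat_lit 396) (nat_lit 388) (nat_lit 236)) (XT.lf (nat_lit 0) (nat_lit 1076600092580) (nat_lit 152) (nat_lit 3085875613695) (nat_lit 76) (nat_lit 2480452149048) (nat_lit 31) (nat_lit 5) (nat_lit 33) (nat_lit 5) (nat_lit 32) (nat_lit 5) (nat_lit 397) (nat_lit 388) (nat_lit 235))) (XT.nd (nat_lit 78) (nat_lit 0) (nat_lit 0) (XT.lf (nat_lit 0) (nat_lit 826745150152) (nat_lit 152) (nat_lit 1644581745698) (nat_lit 228) (nat_lit 4757138145686) (nat_lit 29) (nat_lit 5) (nat_lit 31) (nat_lit 5) (nat_lit 32) (nat_lit 5) (nat_lit 398) (nat_lit 388) (nat_lit 234)) (XT.lf (nat_lit 0) (nat_lit 4296052235082) (nat_lit 228) (nat_lit 2264049750227) (nat_lit 76) (nat_lit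 1308612393051) (nat_lit 29) (nat_lit 5) (nat_lit 32) (nat_lit 5) (nat_lit 30) (nat_lit 4) (nat_lit 399) (nat_lit 388) (nat_lit 233))))))))
noncomputable def xc113 : XT := (XT.nd (nat_lit 1950) (nat_lit 380) (nat_lit 0) (XT.nd (nat_lit 936) (nat_lit 760) (nat_lit 0) (XT.nd (nat_lit 468) (nat_lit 380) (nat_lit 0) (XT.nd (nat_lit 234) (nat_lit 152) (nat_lit 0) (XT.nd (nat_lit 78) (nat_lit 152) (nat_lit 0) (XT.lf (nat_lit 0) (nat_lit 2652062432120) (nat_lit 76) (nat_lit 3930553608978) (nat_lit 152) (nat_lit 1994165624726) (nat_lit 28) (nat_lit 5) (nat_lit 29) (nat_lit 5) (nat_lit 30) (nat_lit 4) (nat_lit 400) (nat_lit 388) (nat_lit 232)) (XT.nd (nat_lit 78) (nat_lit 152) (nat_lit 0) (XT.lf (nat_lit 0) (nat_lit 8560039759822) (nat_lit 76) (nat_lit 770472713002) (nat_lit 152) (nat_lit 42794365361) (nat_lit 28) (nat_lit 5) (nat_lit 29) (nat_lit 5) (nat_lit 30) (nat_lit 4) (nat_lit 401) (nat_lit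 388) (nat_lit 231)) (XT.lf (nat_lit 0) (nat_lit 2365071447989) (nat_lit 152) (nat_lit 4915585132208) (nat_lit 76) (nat_lit 2941017304167) (nat_lit 26) (nat_lit 5) (nat_lit 28) (nat_lit 5) (nat_lit 27) (nat_lit 4) (nat_lit 402) (nat_lit 388) (nat_lit 230)))) (XT.nd (nat_lit 78) (nat_lit 76) (nat_lit 0) (XT.lf (nat_lit 0) (nat_lit 1320650963514) (nat_lit 76) (nat_lit 3944995412874) (nat_lit 152) (nat_lit 5910957351405) (nat_lit 25) (nat_lit 5) (nat_lit 26) (nat_lit 5) (nat_lit 27) (nat_lit 4) (nat_lit 403) (nat_lit 388) (nat_lit 229)) (XT.nd (nat_lit 78) (nat_lit 76) (nat_lit 0) (XT.lf (nat_lit 0) (nat_lit 8865981509280) (nat_lit 152) (nat_lit 3199186104837) (nat_lit 0) (nat_lit 169904338834) (nat_lit 25) (nat_lit 5) (nat_lit 27) (nat_lit 4) (nat_lit 25) (nat_lit 4) (nat_lit 404) (nat_lit 388) (nat_lit 228)) (XT.lf (nat_lit 0) (nat_lit 4685361949195) (nat_lit 76) (nat_lit 8702872733856) (nat_lit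 76) (nat_lit 6795563190) (nat_lit 24) (nat_lit 4) (nat_lit 25) (nat_lit 5) (nat_lit 25) (nat_lit 4) (nat_lit 405) (nat_lit 388) (nat_lit 227))))) (XT.nd (nat_lit 234) (nat_lit 152) (nat_lit 0) (XT.nd (nat_lit 78) (nat_lit 152) (nat_lit 0) (XT.lf (nat_lit 0) (nat_lit 3691407109898) (nat_lit 152) (nat_lit 759551884575) (nat_lit 76) (nat_lit 10227770076831) (nat_lit 23) (nat_lit 5) (nat_lit 25) (nat_lit 5) (nat_lit 24) (nat_lit 4) (nat_lit 406) (nat_lit 388) (nat_lit 226)) (XT.nd (nat_lit 78) (nat_lit 76) (nat_lit 0) (XT.lf (nat_lit 0) (nat_lit 8361006190517) (nat_lit 152) (nat_lit 6932123773611) (nat_lit 0) (nat_lit 799199954844) (nat_lit 22) (nat_lit 5) (nat_lit 24) (nat_lit 4) (nat_lit 22) (nat_lit 4) (nat_lit 407) (nat_lit 388) (nat_lit 225)) (XT.lf (nat_lit 0) (nat_lit 2993979509036) (nat_lit 76) (nat_lit 11114584867060) (nat_lit 76) (nat_lit 3552778631261) (nat_lit 21) (nat_lit 4) (nat_lit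 22) (nat_lit 5) (nat_lit 22) (nat_lit 4) (nat_lit 408) (nat_lit 388) (nat_lit 224)))) (XT.nd (nat_lit 78) (nat_lit 76) (nat_lit 0) (XT.lf (nat_lit 0) (nat_lit 1520654027210) (nat_lit 152) (nat_lit 4292400077406) (nat_lit 76) (nat_lit 13587931706458) (nat_lit 20) (nat_lit 5) (nat_lit 22) (nat_lit 5) (nat_lit 21) (nat_lit 4) (nat_lit 409) (nat_lit 388) (nat_lit 223)) (XT.nd (nat_lit 78) (nat_lit 0) (nat_lit 0) (XT.lf (nat_lit 0) (nat_lit 7366865151198) (nat_lit 152) (nat_lit 13161626362218) (nat_lit 0) (nat_lit 791381467716) (nat_lit 19) (nat_lit 5) (nat_lit 21) (nat_lit 4) (nat_lit 19) (nat_lit 4) (nat_lit 410) (nat_lit 388) (nat_lit 222)) (XT.lf (nat_lit 0) (nat_lit 14601880048075) (nat_lit 152) (nat_lit 821535998460) (nat_lit 0) (nat_lit 8026396364521) (nat_lit 19) (nat_lit 5) (nat_lit 21) (nat_lit 4) (nat_lit 19) (nat_lit 4) (nat_lit 411) (nat_lit 388) (nat_lit 221)))))) (XT.nd (nat_lit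 468) (nat_lit 304) (nat_lit 0) (XT.nd (nat_lit 234) (nat_lit 228) (nat_lit 0) (XT.nd (nat_lit 78) (nat_lit 152) (nat_lit 0) (XT.lf (nat_lit 0) (nat_lit 14676139329890) (nat_lit 76) (nat_lit 8853715482155) (nat_lit 76) (nat_lit 2278231798539) (nat_lit 18) (nat_lit 4) (nat_lit 19) (nat_lit 5) (nat_lit 19) (nat_lit 4) (nat_lit 412) (nat_lit 388) (nat_lit 220)) (XT.nd (nat_lit 78) (nat_lit 0) (nat_lit 0) (XT.lf (nat_lit 0) (nat_lit 4233477367427) (nat_lit 76) (nat_lit 793946377269) (nat_lit 152) (nat_lit 23426859048933) (nat_lit 16) (nat_lit 5) (nat_lit 17) (nat_lit 5) (nat_lit 18) (nat_lit 4) (nat_lit 413) (nat_lit 388) (nat_lit 219)) (XT.lf (nat_lit 0) (nat_lit 14156209617211) (nat_lit 152) (nat_lit 8742448553456) (nat_lit 0) (nat_lit 8438397718326) (nat_lit 16) (nat_lit 5) (nat_lit 18) (nat_lit 4) (nat_lit 16) (nat_lit 4) (nat_lit 414) (nat_lit 388) (nat_lit 218)))) (XT.nd (nat_lit 78) (nat_lit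 152) (nat_lit 0) (XT.lf (nat_lit 0) (nat_lit 9901340697377) (nat_lit 76) (nat_lit 15200773047066) (nat_lit 76) (nat_lit 9482961148145) (nat_lit 15) (nat_lit 4) (nat_lit 16) (nat_lit 5) (nat_lit 16) (nat_lit 4) (nat_lit 415) (nat_lit 388) (nat_lit 217)) (XT.nd (nat_lit 78) (nat_lit 152) (nat_lit 0) (XT.lf (nat_lit 0) (nat_lit 32324230337792) (nat_lit 76) (nat_lit 5822664781779) (nat_lit 76) (nat_lit 104852882827) (nat_lit 15) (nat_lit 4) (nat_lit 16) (nat_lit 5) (nat_lit 16) (nat_lit 4) (nat_lit 416) (nat_lit 388) (nat_lit 216)) (XT.lf (nat_lit 0) (nat_lit 10679502544847) (nat_lit 152) (nat_lit 25872541731018) (nat_lit 0) (nat_lit 5707492197908) (nat_lit 13) (nat_lit 5) (nat_lit 15) (nat_lit 4) (nat_lit 13) (nat_lit 4) (nat_lit 417) (nat_lit 388) (nat_lit 215))))) (XT.nd (nat_lit 234) (nat_lit 152) (nat_lit 0) (XT.nd (nat_lit 78) (nat_lit 152) (nat_lit 0) (XT.lf (nat_lit 0) (nat_lit 23672648257899)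 (nat_lit 152) (nat_lit 4404177311469) (nat_lit 0) (nat_lit 18700637910940) (nat_lit 13) (nat_lit 5) (nat_lit 15) (nat_lit 4) (nat_lit 13) (nat_lit 4) (nat_lit 418) (nat_lit 388) (nat_lit 214)) (XT.nd (nat_lit 78) (nat_lit 76) (nat_lit 0) (XT.lf (nat_lit 0) (nat_lit 22266784943875) (nat_lit 76) (nat_lit 17270000964433) (nat_lit 76) (nat_lit 12297990617456) (nat_lit 12) (nat_lit 4) (nat_lit 13) (nat_lit 5) (nat_lit 13) (nat_lit 4) (nat_lit 419) (nat_lit 388) (nat_lit 213)) (XT.lf (nat_lit 0) (nat_lit 359477988134) (nat_lit 152) (nat_lit 4199132672503) (nat_lit 76) (nat_lit 53055092127210) (nat_lit 11) (nat_lit 5) (nat_lit 13) (nat_lit 5) (nat_lit 12) (nat_lit 4) (nat_lit 420) (nat_lit 388) (nat_lit 212)))) (XT.nd (nat_lit 156) (nat_lit 76) (nat_lit 0) (XT.nd (nat_lit 78) (nat_lit 0) (nat_lit 0) (XT.lf (nat_lit 0) (nat_lit 15262317183492) (nat_lit 152) (nat_lit 37729603546795) (nat_lit 0)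 (nat_lit 10938829925226) (nat_lit 10) (nat_lit 5) (nat_lit 12) (nat_lit 4) (nat_lit 10) (nat_lit 4) (nat_lit 421) (nat_lit 388) (nat_lit 211)) (XT.lf (nat_lit 0) (nat_lit 32847611459692) (nat_lit 152) (nat_lit 9756565661988) (nat_lit 0) (nat_lit 28524124201416) (nat_lit 10) (nat_lit 5) (nat_lit 12) (nat_lit 4) (nat_lit 10) (nat_lit 4) (nat_lit 422) (nat_lit 388) (nat_lit 210))) (XT.nd (nat_lit 78) (nat_lit 0) (nat_lit 0) (XT.lf (nat_lit 0) (nat_lit 24602733359780) (nat_lit 76) (nat_lit 29486713240443) (nat_lit 76) (nat_lit 25163225982158) (nat_lit 9) (nat_lit 4) (nat_lit 10) (nat_lit 5) (nat_lit 10) (nat_lit 4) (nat_lit 423) (nat_lit 388) (nat_lit 209)) (XT.lf (nat_lit 0) (nat_lit 65212432171005) (nat_lit 76) (nat_lit 13815127136732) (nat_lit 76) (nat_lit 9491639878439) (nat_lit 9) (nat_lit 4) (nat_lit 10) (nat_lit 5) (nat_lit 10) (nat_lit 4) (nat_lit 424) (nat_lit 388) (nat_lit 208)))))))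 (XT.nd (nat_lit 50622) (nat_lit 0) (nat_lit 1596) (XT.nd (nat_lit 468) (nat_lit 152) (nat_lit 0) (XT.nd (nat_lit 234) (nat_lit 76) (nat_lit 0) (XT.nd (nat_lit 78) (nat_lit 0) (nat_lit 0) (XT.lf (nat_lit 0) (nat_lit 8552000461952) (nat_lit 152) (nat_lit 85661155856407) (nat_lit 0) (nat_lit 4792446324300) (nat_lit 7) (nat_lit 5) (nat_lit 9) (nat_lit 4) (nat_lit 7) (nat_lit 4) (nat_lit 425) (nat_lit 388) (nat_lit 207)) (XT.nd (nat_lit 78) (nat_lit 0) (nat_lit 0) (XT.lf (nat_lit 0) (nat_lit 30264609875510) (nat_lit 152) (nat_lit 53937375653671) (nat_lit 0) (nat_lit 26505055737853) (nat_lit 7) (nat_lit 5) (nat_lit 9) (nat_lit 4) (nat_lit 7) (nat_lit 4) (nat_lit 426) (nat_lit 388) (nat_lit 206)) (XT.lf (nat_lit 0) (nat_lit 55234110701049) (nat_lit 152) (nat_lit 17455028420636) (nat_lit 0) (nat_lit 51474556563388) (nat_lit 7) (nat_lit 5) (nat_lit 9) (nat_lit 4) (nat_lit 7) (nat_lit 4) (nat_lit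 427) (nat_lit 388) (nat_lit 205)))) (XT.nd (nat_lit 78) (nat_lit 0) (nat_lit 0) (XT.lf (nat_lit 0) (nat_lit 26893956916759) (nat_lit 76) (nat_lit 58168701138034) (nat_lit 76) (nat_lit 54409147000369) (nat_lit 6) (nat_lit 4) (nat_lit 7) (nat_lit 5) (nat_lit 7) (nat_lit 4) (nat_lit 428) (nat_lit 388) (nat_lit 204)) (XT.nd (nat_lit 78) (nat_lit 0) (nat_lit 0) (XT.lf (nat_lit 0) (nat_lit 79856997226037) (nat_lit 76) (nat_lit 40420912225688) (nat_lit 76) (nat_lit 36661358088020) (nat_lit 6) (nat_lit 4) (nat_lit 7) (nat_lit 5) (nat_lit 7) (nat_lit 4) (nat_lit 429) (nat_lit 388) (nat_lit 203)) (XT.lf (nat_lit 0) (nat_lit 140764493581626) (nat_lit 76) (nat_lit 20010954976534) (nat_lit 76) (nat_lit 16251400838863) (nat_lit 6) (nat_lit 4) (nat_lit 7) (nat_lit 5) (nat_lit 7) (nat_lit 4) (nat_lit 430) (nat_lit 388) (nat_lit 202))))) (XT.nd (nat_lit 49842) (nat_lit 0) (nat_lit 2508) (XT.nd (nat_lit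 78) (nat_lit 0) (nat_lit 0) (XT.lf (nat_lit 0) (nat_lit 7229160395197) (nat_lit 152) (nat_lit 188795796846107) (nat_lit 0) (nat_lit 3959982884177) (nat_lit 4) (nat_lit 5) (nat_lit 6) (nat_lit 4) (nat_lit 4) (nat_lit 4) (nat_lit 431) (nat_lit 388) (nat_lit 201)) (XT.nd (nat_lit 78) (nat_lit 0) (nat_lit 0) (XT.lf (nat_lit 0) (nat_lit 35506670212461) (nat_lit 152) (nat_lit 158085695370720) (nat_lit 0) (nat_lit 32237492701439) (nat_lit 4) (nat_lit 5) (nat_lit 6) (nat_lit 4) (nat_lit 4) (nat_lit 4) (nat_lit 432) (nat_lit 388) (nat_lit 200)) (XT.lf (nat_lit 0) (nat_lit 68025806502285) (nat_lit 152) (nat_lit 122769078674089) (nat_lit 0) (nat_lit 64756628991261) (nat_lit 4) (nat_lit 5) (nat_lit 6) (nat_lit 4) (nat_lit 4) (nat_lit 4) (nat_lit 433) (nat_lit 388) (nat_lit 199)))) (XT.nd (nat_lit 156) (nat_lit 0) (nat_lit 76) (XT.nd (nat_lit 78) (nat_lit 0) (nat_lit 0) (XT.lf (nat_lit 0) (nat_lit 550467088542)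 (nat_lit 380) (nat_lit 679396545551) (nat_lit 380) (nat_lit 679396545551) (nat_lit 37) (nat_lit 3) (nat_lit 42) (nat_lit 3) (nat_lit 42) (nat_lit 5) (nat_lit 389) (nat_lit 389) (nat_lit 242)) (XT.lf (nat_lit 76) (nat_lit 586636262495) (nat_lit 0) (nat_lit 621159338651) (nat_lit 380) (nat_lit 2893470080972) (nat_lit 38) (nat_lit 5) (nat_lit 37) (nat_lit 3) (nat_lit 42) (nat_lit 5) (nat_lit 390) (nat_lit 389) (nat_lit 241))) (XT.nd (nat_lit 78) (nat_lit 0) (nat_lit 0) (XT.lf (nat_lit 0) (nat_lit 1466926306115) (nat_lit 304) (nat_lit 1504391044661) (nat_lit 380) (nat_lit 1434669442500) (nat_lit 38) (nat_lit 5) (nat_lit 42) (nat_lit 5) (nat_lit 43) (nat_lit 5) (nat_lit 391) (nat_lit 389) (nat_lit 240)) (XT.lf (nat_lit 76) (nat_lit 853816740370) (nat_lit 0) (nat_lit 976043622385) (nat_lit 380) (nat_lit 2916815646463) (nat_lit 39) (nat_lit 5) (nat_lit 38) (nat_lit 5) (nat_lit 43) (nat_lit 5)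 (nat_lit 392) (nat_lit 389) (nat_lit 239)))))) (XT.nd (nat_lit 468) (nat_lit 456) (nat_lit 0) (XT.nd (nat_lit 234) (nat_lit 304) (nat_lit 0) (XT.nd (nat_lit 78) (nat_lit 304) (nat_lit 0) (XT.lf (nat_lit 0) (nat_lit 2384214996124) (nat_lit 304) (nat_lit 1450185928589) (nat_lit 76) (nat_lit 1283520612605) (nat_lit 39) (nat_lit 5) (nat_lit 43) (nat_lit 5) (nat_lit 40) (nat_lit 5) (nat_lit 393) (nat_lit 389) (nat_lit 238)) (XT.nd (nat_lit 78) (nat_lit 0) (nat_lit 0) (XT.lf (nat_lit 0) (nat_lit 1440668408586) (nat_lit 304) (nat_lit 1687187689705) (nat_lit 380) (nat_lit 2401077805272) (nat_lit 35) (nat_lit 5) (nat_lit 39) (nat_lit 5) (nat_lit 40) (nat_lit 5) (nat_lit 394) (nat_lit 389) (nat_lit 237)) (XT.lf (nat_lit 0) (nat_lit 4094843714024) (nat_lit 380) (nat_lit 1098090504979) (nat_lit 76) (nat_lit 791893853507) (nat_lit 35) (nat_lit 5) (nat_lit 40) (nat_lit 5) (nat_lit 36) (nat_lit 5) (nat_lit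 395) (nat_lit 389) (nat_lit 236)))) (XT.nd (nat_lit 78) (nat_lit 152) (nat_lit 0) (XT.lf (nat_lit 0) (nat_lit 2481158334531) (nat_lit 152) (nat_lit 2908802883673) (nat_lit 228) (nat_lit 1091682886683) (nat_lit 33) (nat_lit 5) (nat_lit 35) (nat_lit 5) (nat_lit 36) (nat_lit 5) (nat_lit 396) (nat_lit 389) (nat_lit 235)) (XT.nd (nat_lit 78) (nat_lit 152) (nat_lit 0) (XT.lf (nat_lit 0) (nat_lit 6720704898308) (nat_lit 152) (nat_lit 216041634823) (nat_lit 228) (nat_lit 107625981220) (nat_lit 33) (nat_lit 5) (nat_lit 35) (nat_lit 5) (nat_lit 36) (nat_lit 5) (nat_lit 397) (nat_lit 389) (nat_lit 234)) (XT.lf (nat_lit 0) (nat_lit 1238090110337) (nat_lit 152) (nat_lit 3548756950122) (nat_lit 76) (nat_lit 2852519972581) (nat_lit 31) (nat_lit 5) (nat_lit 33) (nat_lit 5) (nat_lit 32) (nat_lit 5) (nat_lit 398) (nat_lit 389) (nat_lit 233))))) (XT.nd (nat_lit 234) (nat_lit 228) (nat_lit 0) (XT.nd (nat_lit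 78) (nat_lit 76) (nat_lit 0) (XT.lf (nat_lit 0) (nat_lit 950756928047) (nat_lit 152) (nat_lit 1891269005768) (nat_lit 228) (nat_lit 5470708863412) (nat_lit 29) (nat_lit 5) (nat_lit 31) (nat_lit 5) (nat_lit 32) (nat_lit 5) (nat_lit 399) (nat_lit 389) (nat_lit 232)) (XT.nd (nat_lit 78) (nat_lit 76) (nat_lit 0) (XT.lf (nat_lit 0) (nat_lit 4940460073528) (nat_lit 228) (nat_lit 2603657207685) (nat_lit 76) (nat_lit 1504904253422) (nat_lit 29) (nat_lit 5) (nat_lit 32) (nat_lit 5) (nat_lit 30) (nat_lit 4) (nat_lit 400) (nat_lit 389) (nat_lit 231)) (XT.lf (nat_lit 0) (nat_lit 3049871801783) (nat_lit 76) (nat_lit 4520136648449) (nat_lit 152) (nat_lit 2293290465019) (nat_lit 28) (nat_lit 5) (nat_lit 29) (nat_lit 5) (nat_lit 30) (nat_lit 4) (nat_lit 401) (nat_lit 389) (nat_lit 230)))) (XT.nd (nat_lit 156) (nat_lit 76) (nat_lit 0) (XT.nd (nat_lit 78) (nat_lit 152) (nat_lit 0) (XT.lf (nat_lit 0) (nat_lit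 9844045728009) (nat_lit 76) (nat_lit 886043618321) (nat_lit 152) (nat_lit 49213517195) (nat_lit 28) (nat_lit 5) (nat_lit 29) (nat_lit 5) (nat_lit 30) (nat_lit 4) (nat_lit 402) (nat_lit 389) (nat_lit 229)) (XT.lf (nat_lit 0) (nat_lit 2719832167790) (nat_lit 152) (nat_lit 5652922897456) (nat_lit 76) (nat_lit 3382169901382) (nat_lit 26) (nat_lit 5) (nat_lit 28) (nat_lit 5) (nat_lit 27) (nat_lit 4) (nat_lit 403) (nat_lit 389) (nat_lit 228))) (XT.nd (nat_lit 78) (nat_lit 0) (nat_lit 0) (XT.lf (nat_lit 0) (nat_lit 1518748612415) (nat_lit 76) (nat_lit 4536744722874) (nat_lit 152) (nat_lit 6797600951305) (nat_lit 25) (nat_lit 5) (nat_lit 26) (nat_lit 5) (nat_lit 27) (nat_lit 4) (nat_lit 404) (nat_lit 389) (nat_lit 227)) (XT.lf (nat_lit 0) (nat_lit 10195878737867) (nat_lit 152) (nat_lit 3679064016509) (nat_lit 0) (nat_lit 195389991189) (nat_lit 25) (nat_lit 5) (nat_lit 27) (nat_lit 4) (nat_lit 25)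 (nat_lit 4) (nat_lit 405) (nat_lit 389) (nat_lit 226))))))))
noncomputable def xc114 : XT := (XT.nd (nat_lit 1950) (nat_lit 152) (nat_lit 0) (XT.nd (nat_lit 936) (nat_lit 684) (nat_lit 0) (XT.nd (nat_lit 468) (nat_lit 304) (nat_lit 0) (XT.nd (nat_lit 234) (nat_lit 228) (nat_lit 0) (XT.nd (nat_lit 78) (nat_lit 152) (nat_lit 0) (XT.lf (nat_lit 0) (nat_lit 5388166245444) (nat_lit 76) (nat_lit 10008303642134) (nat_lit 76) (nat_lit 7814895289) (nat_lit 24) (nat_lit 4) (nat_lit 25) (nat_lit 5) (nat_lit 25) (nat_lit 4) (nat_lit 406) (nat_lit 389) (nat_lit 225)) (XT.nd (nat_lit 78) (nat_lit 76) (nat_lit 0) (XT.lf (nat_lit 0) (nat_lit 4245118178267) (nat_lit 152) (nat_lit 873484663713) (nat_lit 76) (nat_lit 11761935589738) (nat_lit 23) (nat_lit 5) (nat_lit 25) (nat_lit 5) (nat_lit 24) (nat_lit 4) (nat_lit 407) (nat_lit 389) (nat_lit 224)) (XT.lf (nat_lit 0) (nat_lit 9615157120940) (nat_lit 152)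 (nat_lit 7971942336065) (nat_lit 0) (nat_lit 919079949536) (nat_lit 22) (nat_lit 5) (nat_lit 24) (nat_lit 4) (nat_lit 22) (nat_lit 4) (nat_lit 408) (nat_lit 389) (nat_lit 223)))) (XT.nd (nat_lit 78) (nat_lit 152) (nat_lit 0) (XT.lf (nat_lit 0) (nat_lit 3443076438817) (nat_lit 76) (nat_lit 12781772595441) (nat_lit 76) (nat_lit 4085695423941) (nat_lit 21) (nat_lit 4) (nat_lit 22) (nat_lit 5) (nat_lit 22) (nat_lit 4) (nat_lit 409) (nat_lit 389) (nat_lit 222)) (XT.nd (nat_lit 78) (nat_lit 76) (nat_lit 0) (XT.lf (nat_lit 0) (nat_lit 1748752132883) (nat_lit 152) (nat_lit 4936260085883) (nat_lit 76) (nat_lit 15626121463731) (nat_lit 20) (nat_lit 5) (nat_lit 22) (nat_lit 5) (nat_lit 21) (nat_lit 4) (nat_lit 410) (nat_lit 389) (nat_lit 221)) (XT.lf (nat_lit 0) (nat_lit 8471894925447) (nat_lit 152) (nat_lit 15135870313395) (nat_lit 0) (nat_lit 910088689225) (nat_lit 19) (nat_lit 5) (nat_lit 21) (nat_lit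 4) (nat_lit 19) (nat_lit 4) (nat_lit 411) (nat_lit 389) (nat_lit 220))))) (XT.nd (nat_lit 234) (nat_lit 76) (nat_lit 0) (XT.nd (nat_lit 78) (nat_lit 228) (nat_lit 0) (XT.lf (nat_lit 0) (nat_lit 16792162056651) (nat_lit 152) (nat_lit 944766395484) (nat_lit 0) (nat_lit 9230355820375) (nat_lit 19) (nat_lit 5) (nat_lit 21) (nat_lit 4) (nat_lit 19) (nat_lit 4) (nat_lit 412) (nat_lit 389) (nat_lit 219)) (XT.nd (nat_lit 78) (nat_lit 152) (nat_lit 0) (XT.lf (nat_lit 0) (nat_lit 16877560231993) (nat_lit 76) (nat_lit 10181772803154) (nat_lit 76) (nat_lit 2619966566830) (nat_lit 18) (nat_lit 4) (nat_lit 19) (nat_lit 5) (nat_lit 19) (nat_lit 4) (nat_lit 413) (nat_lit 389) (nat_lit 218)) (XT.lf (nat_lit 0) (nat_lit 4868498975168) (nat_lit 76) (nat_lit 913038332521) (nat_lit 152) (nat_lit 26940887904791) (nat_lit 16) (nat_lit 5) (nat_lit 17) (nat_lit 5) (nat_lit 18) (nat_lit 4) (nat_lit 414) (nat_lit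 389) (nat_lit 217)))) (XT.nd (nat_lit 78) (nat_lit 76) (nat_lit 0) (XT.lf (nat_lit 0) (nat_lit 16279641060962) (nat_lit 152) (nat_lit 10053815834070) (nat_lit 0) (nat_lit 9704157377135) (nat_lit 16) (nat_lit 5) (nat_lit 18) (nat_lit 4) (nat_lit 16) (nat_lit 4) (nat_lit 415) (nat_lit 389) (nat_lit 216)) (XT.nd (nat_lit 78) (nat_lit 0) (nat_lit 0) (XT.lf (nat_lit 0) (nat_lit 11386541804279) (nat_lit 76) (nat_lit 17480889002942) (nat_lit 76) (nat_lit 10905405319088) (nat_lit 15) (nat_lit 4) (nat_lit 16) (nat_lit 5) (nat_lit 16) (nat_lit 4) (nat_lit 416) (nat_lit 389) (nat_lit 215)) (XT.lf (nat_lit 0) (nat_lit 37172864890456) (nat_lit 76) (nat_lit 6696064498017) (nat_lit 76) (nat_lit 120580814140) (nat_lit 15) (nat_lit 4) (nat_lit 16) (nat_lit 5) (nat_lit 16) (nat_lit 4) (nat_lit 417) (nat_lit 389) (nat_lit 214)))))) (XT.nd (nat_lit 468) (nat_lit 304) (nat_lit 0) (XT.nd (nat_lit 234) (nat_lit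 152) (nat_lit 0) (XT.nd (nat_lit 78) (nat_lit 76) (nat_lit 0) (XT.lf (nat_lit 0) (nat_lit 12281427927580) (nat_lit 152) (nat_lit 29753422988569) (nat_lit 0) (nat_lit 6563616028539) (nat_lit 13) (nat_lit 5) (nat_lit 15) (nat_lit 4) (nat_lit 13) (nat_lit 4) (nat_lit 418) (nat_lit 389) (nat_lit 213)) (XT.nd (nat_lit 78) (nat_lit 76) (nat_lit 0) (XT.lf (nat_lit 0) (nat_lit 27223545497459) (nat_lit 152) (nat_lit 5064803906362) (nat_lit 0) (nat_lit 21505733598403) (nat_lit 13) (nat_lit 5) (nat_lit 15) (nat_lit 4) (nat_lit 13) (nat_lit 4) (nat_lit 419) (nat_lit 389) (nat_lit 212)) (XT.lf (nat_lit 0) (nat_lit 25606802687200) (nat_lit 76) (nat_lit 19860501108186) (nat_lit 76) (nat_lit 14142689209116) (nat_lit 12) (nat_lit 4) (nat_lit 13) (nat_lit 5) (nat_lit 13) (nat_lit 4) (nat_lit 420) (nat_lit 389) (nat_lit 211)))) (XT.nd (nat_lit 78) (nat_lit 76) (nat_lit 0) (XT.lf (nat_lit 0) (nat_lit 413399687113)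 (nat_lit 152) (nat_lit 4829002571787) (nat_lit 76) (nat_lit 61013355947010) (nat_lit 11) (nat_lit 5) (nat_lit 13) (nat_lit 5) (nat_lit 12) (nat_lit 4) (nat_lit 421) (nat_lit 389) (nat_lit 210)) (XT.nd (nat_lit 78) (nat_lit 0) (nat_lit 0) (XT.lf (nat_lit 0) (nat_lit 17551664761771) (nat_lit 152) (nat_lit 43389044077220) (nat_lit 0) (nat_lit 12579654414735) (nat_lit 10) (nat_lit 5) (nat_lit 12) (nat_lit 4) (nat_lit 10) (nat_lit 4) (nat_lit 422) (nat_lit 389) (nat_lit 209)) (XT.lf (nat_lit 0) (nat_lit 37774753179303) (nat_lit 152) (nat_lit 11220050509901) (nat_lit 0) (nat_lit 32802742832258) (nat_lit 10) (nat_lit 5) (nat_lit 12) (nat_lit 4) (nat_lit 10) (nat_lit 4) (nat_lit 423) (nat_lit 389) (nat_lit 208))))) (XT.nd (nat_lit 234) (nat_lit 76) (nat_lit 0) (XT.nd (nat_lit 78) (nat_lit 152) (nat_lit 0) (XT.lf (nat_lit 0) (nat_lit 28293143365071) (nat_lit 76) (nat_lit 33909720225813) (nat_lit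 76) (nat_lit 28937709878762) (nat_lit 9) (nat_lit 4) (nat_lit 10) (nat_lit 5) (nat_lit 10) (nat_lit 4) (nat_lit 424) (nat_lit 389) (nat_lit 207)) (XT.nd (nat_lit 78) (nat_lit 152) (nat_lit 0) (XT.lf (nat_lit 0) (nat_lit 74994296997806) (nat_lit 76) (nat_lit 15887396206636) (nat_lit 76) (nat_lit 10915385859579) (nat_lit 9) (nat_lit 4) (nat_lit 10) (nat_lit 5) (nat_lit 10) (nat_lit 4) (nat_lit 425) (nat_lit 389) (nat_lit 206)) (XT.lf (nat_lit 0) (nat_lit 9834800531814) (nat_lit 152) (nat_lit 98510329233660) (nat_lit 0) (nat_lit 5511313273499) (nat_lit 7) (nat_lit 5) (nat_lit 9) (nat_lit 4) (nat_lit 7) (nat_lit 4) (nat_lit 426) (nat_lit 389) (nat_lit 205)))) (XT.nd (nat_lit 156) (nat_lit 76) (nat_lit 0) (XT.nd (nat_lit 78) (nat_lit 0) (nat_lit 0) (XT.lf (nat_lit 0) (nat_lit 34804301357332) (nat_lit 152) (nat_lit 62027982000671) (nat_lit 0) (nat_lit 30480814099013) (nat_lit 7) (nat_lit 5) (nat_lit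 9) (nat_lit 4) (nat_lit 7) (nat_lit 4) (nat_lit 427) (nat_lit 389) (nat_lit 204)) (XT.lf (nat_lit 0) (nat_lit 63519227306637) (nat_lit 152) (nat_lit 20073282682818) (nat_lit 0) (nat_lit 59195740048315) (nat_lit 7) (nat_lit 5) (nat_lit 9) (nat_lit 4) (nat_lit 7) (nat_lit 4) (nat_lit 428) (nat_lit 389) (nat_lit 203))) (XT.nd (nat_lit 78) (nat_lit 0) (nat_lit 0) (XT.lf (nat_lit 0) (nat_lit 30928050455145) (nat_lit 76) (nat_lit 66894006308278) (nat_lit 76) (nat_lit 62570519049953) (nat_lit 6) (nat_lit 4) (nat_lit 7) (nat_lit 5) (nat_lit 7) (nat_lit 4) (nat_lit 429) (nat_lit 389) (nat_lit 202)) (XT.lf (nat_lit 0) (nat_lit 91835546810702) (nat_lit 76) (nat_lit 46484049059140) (nat_lit 76) (nat_lit 42160561800813) (nat_lit 6) (nat_lit 4) (nat_lit 7) (nat_lit 5) (nat_lit 7) (nat_lit 4) (nat_lit 430) (nat_lit 389) (nat_lit 201))))))) (XT.nd (nat_lit 50700) (nat_lit 0) (nat_lit 1140) (XT.nd (nat_lit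 50154) (nat_lit 0) (nat_lit 2052) (XT.nd (nat_lit 49920) (nat_lit 0) (nat_lit 2508) (XT.nd (nat_lit 78) (nat_lit 152) (nat_lit 0) (XT.lf (nat_lit 0) (nat_lit 161879167619529) (nat_lit 76) (nat_lit 23012598222665) (nat_lit 76) (nat_lit 18689110964336) (nat_lit 6) (nat_lit 4) (nat_lit 7) (nat_lit 5) (nat_lit 7) (nat_lit 4) (nat_lit 431) (nat_lit 389) (nat_lit 200)) (XT.nd (nat_lit 78) (nat_lit 0) (nat_lit 0) (XT.lf (nat_lit 0) (nat_lit 8313534454801) (nat_lit 152) (nat_lit 217115166372332) (nat_lit 0) (nat_lit 4553980317122) (nat_lit 4) (nat_lit 5) (nat_lit 6) (nat_lit 4) (nat_lit 4) (nat_lit 4) (nat_lit 432) (nat_lit 389) (nat_lit 199)) (XT.lf (nat_lit 0) (nat_lit 40832670744612) (nat_lit 152) (nat_lit 181798549675727) (nat_lit 0) (nat_lit 37073116606932) (nat_lit 4) (nat_lit 5) (nat_lit 6) (nat_lit 4) (nat_lit 4) (nat_lit 4) (nat_lit 433) (nat_lit 389) (nat_lit 198)))) (XT.nd (nat_lit 78)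 (nat_lit 0) (nat_lit 0) (XT.lf (nat_lit 0) (nat_lit 633037155806) (nat_lit 380) (nat_lit 781306025093) (nat_lit 380) (nat_lit 781306025093) (nat_lit 37) (nat_lit 3) (nat_lit 42) (nat_lit 3) (nat_lit 42) (nat_lit 5) (nat_lit 390) (nat_lit 390) (nat_lit 240)) (XT.nd (nat_lit 78) (nat_lit 0) (nat_lit 76) (XT.lf (nat_lit 76) (nat_lit 674631706243) (nat_lit 0) (nat_lit 714333242182) (nat_lit 380) (nat_lit 3327490584942) (nat_lit 38) (nat_lit 5) (nat_lit 37) (nat_lit 3) (nat_lit 42) (nat_lit 5) (nat_lit 391) (nat_lit 390) (nat_lit 239)) (XT.lf (nat_lit 0) (nat_lit 1686965258114) (nat_lit 304) (nat_lit 1730049696529) (nat_lit 380) (nat_lit 1649869856709) (nat_lit 38) (nat_lit 5) (nat_lit 42) (nat_lit 5) (nat_lit 43) (nat_lit 5) (nat_lit 392) (nat_lit 390) (nat_lit 238))))) (XT.nd (nat_lit 234) (nat_lit 304) (nat_lit 0) (XT.nd (nat_lit 78) (nat_lit 228) (nat_lit 0) (XT.lf (nat_lit 76) (nat_lit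 981889256037) (nat_lit 0) (nat_lit 1122450166611) (nat_lit 380) (nat_lit 3354337987129) (nat_lit 39) (nat_lit 5) (nat_lit 38) (nat_lit 5) (nat_lit 43) (nat_lit 5) (nat_lit 393) (nat_lit 390) (nat_lit 237)) (XT.nd (nat_lit 78) (nat_lit 304) (nat_lit 0) (XT.lf (nat_lit 0) (nat_lit 2741847250276) (nat_lit 304) (nat_lit 1667713813119) (nat_lit 76) (nat_lit 1476048703808) (nat_lit 39) (nat_lit 5) (nat_lit 43) (nat_lit 5) (nat_lit 40) (nat_lit 5) (nat_lit 394) (nat_lit 390) (nat_lit 236)) (XT.lf (nat_lit 0) (nat_lit 1656768674416) (nat_lit 304) (nat_lit 1940265842923) (nat_lit 380) (nat_lit 2761239471111) (nat_lit 35) (nat_lit 5) (nat_lit 39) (nat_lit 5) (nat_lit 40) (nat_lit 5) (nat_lit 395) (nat_lit 390) (nat_lit 235)))) (XT.nd (nat_lit 156) (nat_lit 152) (nat_lit 0) (XT.nd (nat_lit 78) (nat_lit 152) (nat_lit 0) (XT.lf (nat_lit 0) (nat_lit 4709070274879) (nat_lit 380) (nat_lit 1262804076222)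 (nat_lit 76) (nat_lit 910677931721) (nat_lit 35) (nat_lit 5) (nat_lit 40) (nat_lit 5) (nat_lit 36) (nat_lit 5) (nat_lit 396) (nat_lit 390) (nat_lit 234)) (XT.lf (nat_lit 0) (nat_lit 2853332089010) (nat_lit 152) (nat_lit 3345123315364) (nat_lit 228) (nat_lit 1255435315728) (nat_lit 33) (nat_lit 5) (nat_lit 35) (nat_lit 5) (nat_lit 36) (nat_lit 5) (nat_lit 397) (nat_lit 390) (nat_lit 233))) (XT.nd (nat_lit 78) (nat_lit 152) (nat_lit 0) (XT.lf (nat_lit 0) (nat_lit 7728810636793) (nat_lit 152) (nat_lit 248447879299) (nat_lit 228) (nat_lit 123769874962) (nat_lit 33) (nat_lit 5) (nat_lit 35) (nat_lit 5) (nat_lit 36) (nat_lit 5) (nat_lit 398) (nat_lit 390) (nat_lit 232)) (XT.lf (nat_lit 0) (nat_lit 1423803629814) (nat_lit 152) (nat_lit 4081070488384) (nat_lit 76) (nat_lit 3280397969357) (nat_lit 31) (nat_lit 5) (nat_lit 33) (nat_lit 5) (nat_lit 32) (nat_lit 5) (nat_lit 399) (nat_lit 390) (nat_lit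 231)))))) (XT.nd (nat_lit 468) (nat_lit 456) (nat_lit 0) (XT.nd (nat_lit 234) (nat_lit 228) (nat_lit 0) (XT.nd (nat_lit 78) (nat_lit 76) (nat_lit 0) (XT.lf (nat_lit 0) (nat_lit 1093370471316) (nat_lit 152) (nat_lit 2174959355284) (nat_lit 228) (nat_lit 6291315189804) (nat_lit 29) (nat_lit 5) (nat_lit 31) (nat_lit 5) (nat_lit 32) (nat_lit 5) (nat_lit 400) (nat_lit 390) (nat_lit 230)) (XT.nd (nat_lit 78) (nat_lit 76) (nat_lit 0) (XT.lf (nat_lit 0) (nat_lit 5681529086965) (nat_lit 228) (nat_lit 2994205785000) (nat_lit 76) (nat_lit 1730639892504) (nat_lit 29) (nat_lit 5) (nat_lit 32) (nat_lit 5) (nat_lit 30) (nat_lit 4) (nat_lit 401) (nat_lit 390) (nat_lit 229)) (XT.lf (nat_lit 0) (nat_lit 3507352575714) (nat_lit 76) (nat_lit 5198157144297) (nat_lit 152) (nat_lit 2637284032190) (nat_lit 28) (nat_lit 5) (nat_lit 29) (nat_lit 5) (nat_lit 30) (nat_lit 4) (nat_lit 402) (nat_lit 390) (nat_lit 228))))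 (XT.nd (nat_lit 78) (nat_lit 228) (nat_lit 0) (XT.lf (nat_lit 0) (nat_lit 11320652590396) (nat_lit 76) (nat_lit 1018950159836) (nat_lit 152) (nat_lit 56595542529) (nat_lit 28) (nat_lit 5) (nat_lit 29) (nat_lit 5) (nat_lit 30) (nat_lit 4) (nat_lit 403) (nat_lit 390) (nat_lit 227)) (XT.nd (nat_lit 78) (nat_lit 76) (nat_lit 0) (XT.lf (nat_lit 0) (nat_lit 3127806994926) (nat_lit 152) (nat_lit 6500861328610) (nat_lit 76) (nat_lit 3889495387791) (nat_lit 26) (nat_lit 5) (nat_lit 28) (nat_lit 5) (nat_lit 27) (nat_lit 4) (nat_lit 404) (nat_lit 390) (nat_lit 226)) (XT.lf (nat_lit 0) (nat_lit 1746560907585) (nat_lit 76) (nat_lit 5217256429846) (nat_lit 152) (nat_lit 7817241091876) (nat_lit 25) (nat_lit 5) (nat_lit 26) (nat_lit 5) (nat_lit 27) (nat_lit 4) (nat_lit 405) (nat_lit 390) (nat_lit 225))))) (XT.nd (nat_lit 234) (nat_lit 304) (nat_lit 0) (XT.nd (nat_lit 78) (nat_lit 152) (nat_lit 0) (XT.lf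 (nat_lit 0) (nat_lit 11725260550206) (nat_lit 152) (nat_lit 4230923615920) (nat_lit 0) (nat_lit 224698491024) (nat_lit 25) (nat_lit 5) (nat_lit 27) (nat_lit 4) (nat_lit 25) (nat_lit 4) (nat_lit 406) (nat_lit 390) (nat_lit 224)) (XT.nd (nat_lit 78) (nat_lit 76) (nat_lit 0) (XT.lf (nat_lit 0) (nat_lit 6196391185186) (nat_lit 76) (nat_lit 11509549187093) (nat_lit 76) (nat_lit 8987127784) (nat_lit 24) (nat_lit 4) (nat_lit 25) (nat_lit 5) (nat_lit 25) (nat_lit 4) (nat_lit 407) (nat_lit 390) (nat_lit 223)) (XT.lf (nat_lit 0) (nat_lit 4881885906433) (nat_lit 152) (nat_lit 1004507360586) (nat_lit 76) (nat_lit 13526225929243) (nat_lit 23) (nat_lit 5) (nat_lit 25) (nat_lit 5) (nat_lit 24) (nat_lit 4) (nat_lit 408) (nat_lit 390) (nat_lit 222)))) (XT.nd (nat_lit 156) (nat_lit 152) (nat_lit 0) (XT.nd (nat_lit 78) (nat_lit 76) (nat_lit 0) (XT.lf (nat_lit 0) (nat_lit 11057430690477) (nat_lit 152) (nat_lit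 9167733683761) (nat_lit 0) (nat_lit 1056941943074) (nat_lit 22) (nat_lit 5) (nat_lit 24) (nat_lit 4) (nat_lit 22) (nat_lit 4) (nat_lit 409) (nat_lit 390) (nat_lit 221)) (XT.lf (nat_lit 0) (nat_lit 3959537907229) (nat_lit 76) (nat_lit 14699038483488) (nat_lit 76) (nat_lit 4698549736014) (nat_lit 21) (nat_lit 4) (nat_lit 22) (nat_lit 5) (nat_lit 22) (nat_lit 4) (nat_lit 410) (nat_lit 390) (nat_lit 220))) (XT.nd (nat_lit 78) (nat_lit 76) (nat_lit 0) (XT.lf (nat_lit 0) (nat_lit 2011064954019) (nat_lit 152) (nat_lit 5676699096395) (nat_lit 76) (nat_lit 17970039684276) (nat_lit 20) (nat_lit 5) (nat_lit 22) (nat_lit 5) (nat_lit 21) (nat_lit 4) (nat_lit 411) (nat_lit 390) (nat_lit 219)) (XT.lf (nat_lit 0) (nat_lit 9742679165450) (nat_lit 152) (nat_lit 17406250858018) (nat_lit 0) (nat_lit 1046601993631) (nat_lit 19) (nat_lit 5) (nat_lit 21) (nat_lit 4) (nat_lit 19) (nat_lit 4) (nat_lit 412) (nat_lit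 390) (nat_lit 218))))))))
noncomputable def xc115 : XT := (XT.nd (nat_lit 51792) (nat_lit 0) (nat_lit 684) (XT.nd (nat_lit 1014) (nat_lit 380) (nat_lit 0) (XT.nd (nat_lit 468) (nat_lit 456) (nat_lit 0) (XT.nd (nat_lit 234) (nat_lit 76) (nat_lit 0) (XT.nd (nat_lit 78) (nat_lit 228) (nat_lit 0) (XT.lf (nat_lit 0) (nat_lit 19310986366180) (nat_lit 152) (nat_lit 1086481352732) (nat_lit 0) (nat_lit 10614909194320) (nat_lit 19) (nat_lit 5) (nat_lit 21) (nat_lit 4) (nat_lit 19) (nat_lit 4) (nat_lit 413) (nat_lit 390) (nat_lit 217)) (XT.nd (nat_lit 78) (nat_lit 152) (nat_lit 0) (XT.lf (nat_lit 0) (nat_lit 19409194268773) (nat_lit 76) (nat_lit 11709038722625) (nat_lit 76) (nat_lit 3012961550729) (nat_lit 18) (nat_lit 4) (nat_lit 19) (nat_lit 5) (nat_lit 19) (nat_lit 4) (nat_lit 414) (nat_lit 390) (nat_lit 216)) (XT.lf (nat_lit 0) (nat_lit 5598773823430) (nat_lit 76) (nat_lit 1049994081387) (nat_lit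 152) (nat_lit 30982021089389) (nat_lit 16) (nat_lit 5) (nat_lit 17) (nat_lit 5) (nat_lit 18) (nat_lit 4) (nat_lit 415) (nat_lit 390) (nat_lit 215)))) (XT.nd (nat_lit 78) (nat_lit 76) (nat_lit 0) (XT.lf (nat_lit 0) (nat_lit 18721587220990) (nat_lit 152) (nat_lit 11561888207362) (nat_lit 0) (nat_lit 11159780984508) (nat_lit 16) (nat_lit 5) (nat_lit 18) (nat_lit 4) (nat_lit 16) (nat_lit 4) (nat_lit 416) (nat_lit 390) (nat_lit 214)) (XT.nd (nat_lit 78) (nat_lit 0) (nat_lit 0) (XT.lf (nat_lit 0) (nat_lit 13094523076656) (nat_lit 76) (nat_lit 20103022352488) (nat_lit 76) (nat_lit 12541216115985) (nat_lit 15) (nat_lit 4) (nat_lit 16) (nat_lit 5) (nat_lit 16) (nat_lit 4) (nat_lit 417) (nat_lit 390) (nat_lit 213)) (XT.lf (nat_lit 0) (nat_lit 42748794625534) (nat_lit 76) (nat_lit 7700474171941) (nat_lit 76) (nat_lit 138667935420) (nat_lit 15) (nat_lit 4) (nat_lit 16) (nat_lit 5) (nat_lit 16) (nat_lit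 4) (nat_lit 418) (nat_lit 390) (nat_lit 212))))) (XT.nd (nat_lit 234) (nat_lit 228) (nat_lit 0) (XT.nd (nat_lit 78) (nat_lit 76) (nat_lit 0) (XT.lf (nat_lit 0) (nat_lit 14123642117478) (nat_lit 152) (nat_lit 34216436435266) (nat_lit 0) (nat_lit 7548158433534) (nat_lit 13) (nat_lit 5) (nat_lit 15) (nat_lit 4) (nat_lit 13) (nat_lit 4) (nat_lit 419) (nat_lit 390) (nat_lit 211)) (XT.nd (nat_lit 78) (nat_lit 76) (nat_lit 0) (XT.lf (nat_lit 0) (nat_lit 31307077322740) (nat_lit 152) (nat_lit 5824524490934) (nat_lit 0) (nat_lit 24731593638784) (nat_lit 13) (nat_lit 5) (nat_lit 15) (nat_lit 4) (nat_lit 13) (nat_lit 4) (nat_lit 420) (nat_lit 390) (nat_lit 210)) (XT.lf (nat_lit 0) (nat_lit 29447823091599) (nat_lit 76) (nat_lit 22839576273725) (nat_lit 76) (nat_lit 16264092589759) (nat_lit 12) (nat_lit 4) (nat_lit 13) (nat_lit 5) (nat_lit 13) (nat_lit 4) (nat_lit 421) (nat_lit 390) (nat_lit 209))))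 (XT.nd (nat_lit 156) (nat_lit 76) (nat_lit 0) (XT.nd (nat_lit 78) (nat_lit 76) (nat_lit 0) (XT.lf (nat_lit 0) (nat_lit 475409640754) (nat_lit 152) (nat_lit 5553352956352) (nat_lit 76) (nat_lit 70165359339605) (nat_lit 11) (nat_lit 5) (nat_lit 13) (nat_lit 5) (nat_lit 12) (nat_lit 4) (nat_lit 422) (nat_lit 390) (nat_lit 208)) (XT.lf (nat_lit 0) (nat_lit 20184414476608) (nat_lit 152) (nat_lit 49897400687598) (nat_lit 0) (nat_lit 14466602577493) (nat_lit 10) (nat_lit 5) (nat_lit 12) (nat_lit 4) (nat_lit 10) (nat_lit 4) (nat_lit 423) (nat_lit 390) (nat_lit 207))) (XT.nd (nat_lit 78) (nat_lit 76) (nat_lit 0) (XT.lf (nat_lit 0) (nat_lit 43440966156695) (nat_lit 152) (nat_lit 12903058085337) (nat_lit 0) (nat_lit 37723154257574) (nat_lit 10) (nat_lit 5) (nat_lit 12) (nat_lit 4) (nat_lit 10) (nat_lit 4) (nat_lit 424) (nat_lit 390) (nat_lit 206)) (XT.lf (nat_lit 0) (nat_lit 32537114870832) (nat_lit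 76) (nat_lit 38996178259158) (nat_lit 76) (nat_lit 33278366360032) (nat_lit 9) (nat_lit 4) (nat_lit 10) (nat_lit 5) (nat_lit 10) (nat_lit 4) (nat_lit 425) (nat_lit 390) (nat_lit 205)))))) (XT.nd (nat_lit 468) (nat_lit 152) (nat_lit 0) (XT.nd (nat_lit 234) (nat_lit 76) (nat_lit 0) (XT.nd (nat_lit 78) (nat_lit 152) (nat_lit 0) (XT.lf (nat_lit 0) (nat_lit 86243441548347) (nat_lit 76) (nat_lit 18270505637173) (nat_lit 76) (nat_lit 12552693738042) (nat_lit 9) (nat_lit 4) (nat_lit 10) (nat_lit 5) (nat_lit 10) (nat_lit 4) (nat_lit 426) (nat_lit 390) (nat_lit 204)) (XT.nd (nat_lit 78) (nat_lit 0) (nat_lit 0) (XT.lf (nat_lit 0) (nat_lit 11310020612016) (nat_lit 152) (nat_lit 113286878617796) (nat_lit 0) (nat_lit 6338010264943) (nat_lit 7) (nat_lit 5) (nat_lit 9) (nat_lit 4) (nat_lit 7) (nat_lit 4) (nat_lit 427) (nat_lit 390) (nat_lit 203)) (XT.lf (nat_lit 0) (nat_lit 40024946561305) (nat_lit 152)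 (nat_lit 71332179299978) (nat_lit 0) (nat_lit 35052936214229) (nat_lit 7) (nat_lit 5) (nat_lit 9) (nat_lit 4) (nat_lit 7) (nat_lit 4) (nat_lit 428) (nat_lit 390) (nat_lit 202)))) (XT.nd (nat_lit 78) (nat_lit 76) (nat_lit 0) (XT.lf (nat_lit 0) (nat_lit 73047111402958) (nat_lit 152) (nat_lit 23084275084550) (nat_lit 0) (nat_lit 68075101055879) (nat_lit 7) (nat_lit 5) (nat_lit 9) (nat_lit 4) (nat_lit 7) (nat_lit 4) (nat_lit 429) (nat_lit 390) (nat_lit 201)) (XT.nd (nat_lit 78) (nat_lit 0) (nat_lit 0) (XT.lf (nat_lit 0) (nat_lit 35567258024077) (nat_lit 76) (nat_lit 76928107254170) (nat_lit 76) (nat_lit 71956096907089) (nat_lit 6) (nat_lit 4) (nat_lit 7) (nat_lit 5) (nat_lit 7) (nat_lit 4) (nat_lit 430) (nat_lit 390) (nat_lit 200)) (XT.lf (nat_lit 0) (nat_lit 105610878832880) (nat_lit 76) (nat_lit 53456656417708) (nat_lit 76) (nat_lit 48484646070625) (nat_lit 6) (nat_lit 4) (nat_lit 7) (nat_lit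 5) (nat_lit 7) (nat_lit 4) (nat_lit 431) (nat_lit 390) (nat_lit 199))))) (XT.nd (nat_lit 49998) (nat_lit 0) (nat_lit 2508) (XT.nd (nat_lit 78) (nat_lit 152) (nat_lit 0) (XT.lf (nat_lit 0) (nat_lit 186161042762958) (nat_lit 76) (nat_lit 26464487955801) (nat_lit 76) (nat_lit 21492477608717) (nat_lit 6) (nat_lit 4) (nat_lit 7) (nat_lit 5) (nat_lit 7) (nat_lit 4) (nat_lit 432) (nat_lit 390) (nat_lit 198)) (XT.nd (nat_lit 49842) (nat_lit 0) (nat_lit 2508) (XT.lf (nat_lit 0) (nat_lit 9560564623267) (nat_lit 152) (nat_lit 249682441327658) (nat_lit 0) (nat_lit 5237077364932) (nat_lit 4) (nat_lit 5) (nat_lit 6) (nat_lit 4) (nat_lit 4) (nat_lit 4) (nat_lit 433) (nat_lit 390) (nat_lit 197)) (XT.lf (nat_lit 0) (nat_lit 727992732189) (nat_lit 380) (nat_lit 898501927125) (nat_lit 380) (nat_lit 898501927125) (nat_lit 37) (nat_lit 3) (nat_lit 42) (nat_lit 3) (nat_lit 42) (nat_lit 5) (nat_lit 391) (nat_lit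 391) (nat_lit 238)))) (XT.nd (nat_lit 156) (nat_lit 0) (nat_lit 76) (XT.nd (nat_lit 78) (nat_lit 0) (nat_lit 76) (XT.lf (nat_lit 76) (nat_lit 775826465486) (nat_lit 0) (nat_lit 821483230576) (nat_lit 380) (nat_lit 3826614166500) (nat_lit 38) (nat_lit 5) (nat_lit 37) (nat_lit 3) (nat_lit 42) (nat_lit 5) (nat_lit 392) (nat_lit 391) (nat_lit 237)) (XT.lf (nat_lit 0) (nat_lit 1940010051430) (nat_lit 304) (nat_lit 1989557147355) (nat_lit 380) (nat_lit 1897350333578) (nat_lit 38) (nat_lit 5) (nat_lit 42) (nat_lit 5) (nat_lit 43) (nat_lit 5) (nat_lit 393) (nat_lit 391) (nat_lit 236))) (XT.nd (nat_lit 78) (nat_lit 0) (nat_lit 76) (XT.lf (nat_lit 76) (nat_lit 1129172647930) (nat_lit 0) (nat_lit 1290817692259) (nat_lit 380) (nat_lit 3857488680431) (nat_lit 39) (nat_lit 5) (nat_lit 38) (nat_lit 5) (nat_lit 43) (nat_lit 5) (nat_lit 394) (nat_lit 391) (nat_lit 235)) (XT.lf (nat_lit 0) (nat_lit 3153124341397)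 (nat_lit 304) (nat_lit 1917870881489) (nat_lit 76) (nat_lit 1697456008859) (nat_lit 39) (nat_lit 5) (nat_lit 43) (nat_lit 5) (nat_lit 40) (nat_lit 5) (nat_lit 395) (nat_lit 391) (nat_lit 234))))))) (XT.nd (nat_lit 1014) (nat_lit 836) (nat_lit 0) (XT.nd (nat_lit 468) (nat_lit 380) (nat_lit 0) (XT.nd (nat_lit 234) (nat_lit 304) (nat_lit 0) (XT.nd (nat_lit 78) (nat_lit 152) (nat_lit 0) (XT.lf (nat_lit 0) (nat_lit 1905283979013) (nat_lit 304) (nat_lit 2231305719182) (nat_lit 380) (nat_lit 3175425388034) (nat_lit 35) (nat_lit 5) (nat_lit 39) (nat_lit 5) (nat_lit 40) (nat_lit 5) (nat_lit 396) (nat_lit 391) (nat_lit 233)) (XT.nd (nat_lit 78) (nat_lit 152) (nat_lit 0) (XT.lf (nat_lit 0) (nat_lit 5415430818948) (nat_lit 380) (nat_lit 1452224684250) (nat_lit 76) (nat_lit 1047279621622) (nat_lit 35) (nat_lit 5) (nat_lit 40) (nat_lit 5) (nat_lit 36) (nat_lit 5) (nat_lit 397) (nat_lit 391) (nat_lit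 232)) (XT.lf (nat_lit 0) (nat_lit 3281331905612) (nat_lit 152) (nat_lit 3846891812019) (nat_lit 228) (nat_lit 1443750610094) (nat_lit 33) (nat_lit 5) (nat_lit 35) (nat_lit 5) (nat_lit 36) (nat_lit 5) (nat_lit 398) (nat_lit 391) (nat_lit 231)))) (XT.nd (nat_lit 78) (nat_lit 304) (nat_lit 0) (XT.lf (nat_lit 0) (nat_lit 8888132235138) (nat_lit 152) (nat_lit 285715060629) (nat_lit 228) (nat_lit 142335353604) (nat_lit 33) (nat_lit 5) (nat_lit 35) (nat_lit 5) (nat_lit 36) (nat_lit 5) (nat_lit 399) (nat_lit 391) (nat_lit 230)) (XT.nd (nat_lit 78) (nat_lit 152) (nat_lit 0) (XT.lf (nat_lit 0) (nat_lit 1637374176499) (nat_lit 152) (nat_lit 4693231058424) (nat_lit 76) (nat_lit 3772457665434) (nat_lit 31) (nat_lit 5) (nat_lit 33) (nat_lit 5) (nat_lit 32) (nat_lit 5) (nat_lit 400) (nat_lit 391) (nat_lit 229)) (XT.lf (nat_lit 0) (nat_lit 1257376045085) (nat_lit 152) (nat_lit 2501203257556) (nat_lit 228)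 (nat_lit 7235012465915) (nat_lit 29) (nat_lit 5) (nat_lit 31) (nat_lit 5) (nat_lit 32) (nat_lit 5) (nat_lit 401) (nat_lit 391) (nat_lit 228))))) (XT.nd (nat_lit 234) (nat_lit 304) (nat_lit 0) (XT.nd (nat_lit 78) (nat_lit 76) (nat_lit 0) (XT.lf (nat_lit 0) (nat_lit 6533758451831) (nat_lit 228) (nat_lit 3443336649848) (nat_lit 76) (nat_lit 1990235877188) (nat_lit 29) (nat_lit 5) (nat_lit 32) (nat_lit 5) (nat_lit 30) (nat_lit 4) (nat_lit 402) (nat_lit 391) (nat_lit 227)) (XT.nd (nat_lit 78) (nat_lit 0) (nat_lit 0) (XT.lf (nat_lit 0) (nat_lit 4033455464842) (nat_lit 76) (nat_lit 5977880714869) (nat_lit 152) (nat_lit 3032876635065) (nat_lit 28) (nat_lit 5) (nat_lit 29) (nat_lit 5) (nat_lit 30) (nat_lit 4) (nat_lit 403) (nat_lit 391) (nat_lit 226)) (XT.lf (nat_lit 0) (nat_lit 13018750481364) (nat_lit 76) (nat_lit 1171792682878) (nat_lit 152) (nat_lit 65084872210) (nat_lit 28) (nat_lit 5) (nat_lit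 29) (nat_lit 5) (nat_lit 30) (nat_lit 4) (nat_lit 404) (nat_lit 391) (nat_lit 225)))) (XT.nd (nat_lit 156) (nat_lit 76) (nat_lit 0) (XT.nd (nat_lit 78) (nat_lit 76) (nat_lit 0) (XT.lf (nat_lit 0) (nat_lit 3596978045652) (nat_lit 152) (nat_lit 7475990525281) (nat_lit 76) (nat_lit 4472919696869) (nat_lit 26) (nat_lit 5) (nat_lit 28) (nat_lit 5) (nat_lit 27) (nat_lit 4) (nat_lit 405) (nat_lit 391) (nat_lit 224)) (XT.lf (nat_lit 0) (nat_lit 2008545046224) (nat_lit 76) (nat_lit 5999844893219) (nat_lit 152) (nat_lit 8989827254050) (nat_lit 25) (nat_lit 5) (nat_lit 26) (nat_lit 5) (nat_lit 27) (nat_lit 4) (nat_lit 406) (nat_lit 391) (nat_lit 223))) (XT.nd (nat_lit 78) (nat_lit 76) (nat_lit 0) (XT.lf (nat_lit 0) (nat_lit 13484049633992) (nat_lit 152) (nat_lit 4865562155991) (nat_lit 0) (nat_lit 258403265552) (nat_lit 25) (nat_lit 5) (nat_lit 27) (nat_lit 4) (nat_lit 25) (nat_lit 4) (nat_lit 407)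 (nat_lit 391) (nat_lit 222)) (XT.lf (nat_lit 0) (nat_lit 7125849865176) (nat_lit 76) (nat_lit 13235981564127) (nat_lit 76) (nat_lit 10335195591) (nat_lit 24) (nat_lit 4) (nat_lit 25) (nat_lit 5) (nat_lit 25) (nat_lit 4) (nat_lit 408) (nat_lit 391) (nat_lit 221)))))) (XT.nd (nat_lit 468) (nat_lit 456) (nat_lit 0) (XT.nd (nat_lit 234) (nat_lit 152) (nat_lit 0) (XT.nd (nat_lit 78) (nat_lit 152) (nat_lit 0) (XT.lf (nat_lit 0) (nat_lit 5614168793475) (nat_lit 152) (nat_lit 1155183462645) (nat_lit 76) (nat_lit 15555159819419) (nat_lit 23) (nat_lit 5) (nat_lit 25) (nat_lit 5) (nat_lit 24) (nat_lit 4) (nat_lit 409) (nat_lit 391) (nat_lit 220)) (XT.nd (nat_lit 78) (nat_lit 76) (nat_lit 0) (XT.lf (nat_lit 0) (nat_lit 12716045295104) (nat_lit 152) (nat_lit 10542893734274) (nat_lit 0) (nat_lit 1215483235373) (nat_lit 22) (nat_lit 5) (nat_lit 24) (nat_lit 4) (nat_lit 22) (nat_lit 4) (nat_lit 410) (nat_lit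 391) (nat_lit 219)) (XT.lf (nat_lit 0) (nat_lit 4553468595272) (nat_lit 76) (nat_lit 16903894255052) (nat_lit 76) (nat_lit 5403332195267) (nat_lit 21) (nat_lit 4) (nat_lit 22) (nat_lit 5) (nat_lit 22) (nat_lit 4) (nat_lit 411) (nat_lit 391) (nat_lit 218)))) (XT.nd (nat_lit 78) (nat_lit 76) (nat_lit 0) (XT.lf (nat_lit 0) (nat_lit 2312724698032) (nat_lit 152) (nat_lit 6528203959063) (nat_lit 76) (nat_lit 20665545637663) (nat_lit 20) (nat_lit 5) (nat_lit 22) (nat_lit 5) (nat_lit 21) (nat_lit 4) (nat_lit 412) (nat_lit 391) (nat_lit 217)) (XT.nd (nat_lit 78) (nat_lit 0) (nat_lit 0) (XT.lf (nat_lit 0) (nat_lit 11204081041165) (nat_lit 152) (nat_lit 20017188484916) (nat_lit 0) (nat_lit 1203592293449) (nat_lit 19) (nat_lit 5) (nat_lit 21) (nat_lit 4) (nat_lit 19) (nat_lit 4) (nat_lit 413) (nat_lit 391) (nat_lit 216)) (XT.lf (nat_lit 0) (nat_lit 22207634321887) (nat_lit 152) (nat_lit 1249453554072)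 (nat_lit 0) (nat_lit 12207145574140) (nat_lit 19) (nat_lit 5) (nat_lit 21) (nat_lit 4) (nat_lit 19) (nat_lit 4) (nat_lit 414) (nat_lit 391) (nat_lit 215))))) (XT.nd (nat_lit 234) (nat_lit 228) (nat_lit 0) (XT.nd (nat_lit 78) (nat_lit 152) (nat_lit 0) (XT.lf (nat_lit 0) (nat_lit 22320573410587) (nat_lit 76) (nat_lit 13465394530261) (nat_lit 76) (nat_lit 3464905782487) (nat_lit 18) (nat_lit 4) (nat_lit 19) (nat_lit 5) (nat_lit 19) (nat_lit 4) (nat_lit 415) (nat_lit 391) (nat_lit 214)) (XT.nd (nat_lit 78) (nat_lit 0) (nat_lit 0) (XT.lf (nat_lit 0) (nat_lit 6438589898447) (nat_lit 76) (nat_lit 1207493192829) (nat_lit 152) (nat_lit 35629324251950) (nat_lit 16) (nat_lit 5) (nat_lit 17) (nat_lit 5) (nat_lit 18) (nat_lit 4) (nat_lit 416) (nat_lit 391) (nat_lit 213)) (XT.lf (nat_lit 0) (nat_lit 21529825304806) (nat_lit 152) (nat_lit 13296171437092) (nat_lit 0) (nat_lit 12833748132790) (nat_lit 16)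 (nat_lit 5) (nat_lit 18) (nat_lit 4) (nat_lit 16) (nat_lit 4) (nat_lit 417) (nat_lit 391) (nat_lit 212)))) (XT.nd (nat_lit 156) (nat_lit 152) (nat_lit 0) (XT.nd (nat_lit 78) (nat_lit 0) (nat_lit 0) (XT.lf (nat_lit 0) (nat_lit 15058701539467) (nat_lit 76) (nat_lit 23118475704684) (nat_lit 76) (nat_lit 14422398532652) (nat_lit 15) (nat_lit 4) (nat_lit 16) (nat_lit 5) (nat_lit 16) (nat_lit 4) (nat_lit 418) (nat_lit 391) (nat_lit 211)) (XT.lf (nat_lit 0) (nat_lit 49161113820506) (nat_lit 76) (nat_lit 8855545297143) (nat_lit 76) (nat_lit 159468125098) (nat_lit 15) (nat_lit 4) (nat_lit 16) (nat_lit 5) (nat_lit 16) (nat_lit 4) (nat_lit 419) (nat_lit 391) (nat_lit 210))) (XT.nd (nat_lit 78) (nat_lit 0) (nat_lit 0) (XT.lf (nat_lit 0) (nat_lit 16242188435675) (nat_lit 152) (nat_lit 39348901899355) (nat_lit 0) (nat_lit 8680382199104) (nat_lit 13) (nat_lit 5) (nat_lit 15) (nat_lit 4) (nat_lit 13) (nat_lit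 4) (nat_lit 420) (nat_lit 391) (nat_lit 209)) (XT.lf (nat_lit 0) (nat_lit 36003138921651) (nat_lit 152) (nat_lit 6698203163530) (nat_lit 0) (nat_lit 28441332685071) (nat_lit 13) (nat_lit 5) (nat_lit 15) (nat_lit 4) (nat_lit 13) (nat_lit 4) (nat_lit 421) (nat_lit 391) (nat_lit 208))))))))
noncomputable def xc116 : XT := (XT.nd (nat_lit 51558) (nat_lit 0) (nat_lit 380) (XT.nd (nat_lit 936) (nat_lit 152) (nat_lit 0) (XT.nd (nat_lit 468) (nat_lit 228) (nat_lit 0) (XT.nd (nat_lit 234) (nat_lit 76) (nat_lit 0) (XT.nd (nat_lit 78) (nat_lit 152) (nat_lit 0) (XT.lf (nat_lit 0) (nat_lit 33864996556336) (nat_lit 76) (nat_lit 26265512714263) (nat_lit 76) (nat_lit 18703706477676) (nat_lit 12) (nat_lit 4) (nat_lit 13) (nat_lit 5) (nat_lit 13) (nat_lit 4) (nat_lit 422) (nat_lit 391) (nat_lit 207)) (XT.nd (nat_lit 78) (nat_lit 76) (nat_lit 0) (XT.lf (nat_lit 0) (nat_lit 546721087301) (nat_lit 152) (nat_lit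 6386355898896) (nat_lit 76) (nat_lit 80690163240956) (nat_lit 11) (nat_lit 5) (nat_lit 13) (nat_lit 5) (nat_lit 12) (nat_lit 4) (nat_lit 423) (nat_lit 391) (nat_lit 206)) (XT.lf (nat_lit 0) (nat_lit 23212076648532) (nat_lit 152) (nat_lit 57382010789826) (nat_lit 0) (nat_lit 16636592964532) (nat_lit 10) (nat_lit 5) (nat_lit 12) (nat_lit 4) (nat_lit 10) (nat_lit 4) (nat_lit 424) (nat_lit 391) (nat_lit 205)))) (XT.nd (nat_lit 78) (nat_lit 76) (nat_lit 0) (XT.lf (nat_lit 0) (nat_lit 49957111080575) (nat_lit 152) (nat_lit 14838516797346) (nat_lit 0) (nat_lit 43381627396571) (nat_lit 10) (nat_lit 5) (nat_lit 12) (nat_lit 4) (nat_lit 10) (nat_lit 4) (nat_lit 425) (nat_lit 391) (nat_lit 204)) (XT.nd (nat_lit 78) (nat_lit 0) (nat_lit 0) (XT.lf (nat_lit 0) (nat_lit 37417682102213) (nat_lit 76) (nat_lit 44845604997633) (nat_lit 76) (nat_lit 38270121313625) (nat_lit 9) (nat_lit 4) (nat_lit 10) (nat_lit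 5) (nat_lit 10) (nat_lit 4) (nat_lit 426) (nat_lit 391) (nat_lit 203)) (XT.lf (nat_lit 0) (nat_lit 99179957781258) (nat_lit 76) (nat_lit 21011081482402) (nat_lit 76) (nat_lit 14435597798390) (nat_lit 9) (nat_lit 4) (nat_lit 10) (nat_lit 5) (nat_lit 10) (nat_lit 4) (nat_lit 427) (nat_lit 391) (nat_lit 202))))) (XT.nd (nat_lit 234) (nat_lit 76) (nat_lit 0) (XT.nd (nat_lit 78) (nat_lit 0) (nat_lit 0) (XT.lf (nat_lit 0) (nat_lit 13006523704144) (nat_lit 152) (nat_lit 130279910409775) (nat_lit 0) (nat_lit 7288711805001) (nat_lit 7) (nat_lit 5) (nat_lit 9) (nat_lit 4) (nat_lit 7) (nat_lit 4) (nat_lit 428) (nat_lit 391) (nat_lit 201)) (XT.nd (nat_lit 78) (nat_lit 0) (nat_lit 0) (XT.lf (nat_lit 0) (nat_lit 46028688545784) (nat_lit 152) (nat_lit 82032006194374) (nat_lit 0) (nat_lit 40310876646639) (nat_lit 7) (nat_lit 5) (nat_lit 9) (nat_lit 4) (nat_lit 7) (nat_lit 4) (nat_lit 429) (nat_lit 391)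 (nat_lit 200)) (XT.lf (nat_lit 0) (nat_lit 84004178113648) (nat_lit 152) (nat_lit 26546916346711) (nat_lit 0) (nat_lit 78286366214500) (nat_lit 7) (nat_lit 5) (nat_lit 9) (nat_lit 4) (nat_lit 7) (nat_lit 4) (nat_lit 430) (nat_lit 391) (nat_lit 199)))) (XT.nd (nat_lit 78) (nat_lit 0) (nat_lit 0) (XT.lf (nat_lit 0) (nat_lit 40902346728187) (nat_lit 76) (nat_lit 88467323342032) (nat_lit 76) (nat_lit 82749511442883) (nat_lit 6) (nat_lit 4) (nat_lit 7) (nat_lit 5) (nat_lit 7) (nat_lit 4) (nat_lit 431) (nat_lit 391) (nat_lit 198)) (XT.nd (nat_lit 78) (nat_lit 0) (nat_lit 0) (XT.lf (nat_lit 0) (nat_lit 121452510658246) (nat_lit 76) (nat_lit 61475154880135) (nat_lit 76) (nat_lit 55757342980984) (nat_lit 6) (nat_lit 4) (nat_lit 7) (nat_lit 5) (nat_lit 7) (nat_lit 4) (nat_lit 432) (nat_lit 391) (nat_lit 197)) (XT.lf (nat_lit 0) (nat_lit 214085199177779) (nat_lit 76) (nat_lit 30434161148971) (nat_lit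 76) (nat_lit 24716349249820) (nat_lit 6) (nat_lit 4) (nat_lit 7) (nat_lit 5) (nat_lit 7) (nat_lit 4) (nat_lit 433) (nat_lit 391) (nat_lit 196)))))) (XT.nd (nat_lit 50076) (nat_lit 0) (nat_lit 2052) (XT.nd (nat_lit 49842) (nat_lit 0) (nat_lit 2508) (XT.nd (nat_lit 78) (nat_lit 0) (nat_lit 0) (XT.lf (nat_lit 0) (nat_lit 10994649316943) (nat_lit 152) (nat_lit 287134807526412) (nat_lit 0) (nat_lit 6022638969853) (nat_lit 4) (nat_lit 5) (nat_lit 6) (nat_lit 4) (nat_lit 4) (nat_lit 4) (nat_lit 434) (nat_lit 391) (nat_lit 195)) (XT.nd (nat_lit 78) (nat_lit 0) (nat_lit 0) (XT.lf (nat_lit 0) (nat_lit 54001207060157) (nat_lit 152) (nat_lit 240428581945282) (nat_lit 0) (nat_lit 49029196713067) (nat_lit 4) (nat_lit 5) (nat_lit 6) (nat_lit 4) (nat_lit 4) (nat_lit 4) (nat_lit 435) (nat_lit 391) (nat_lit 194)) (XT.lf (nat_lit 0) (nat_lit 103458748464841) (nat_lit 152) (nat_lit 186716422527009) (nat_lit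 0) (nat_lit 98486738117749) (nat_lit 4) (nat_lit 5) (nat_lit 6) (nat_lit 4) (nat_lit 4) (nat_lit 4) (nat_lit 436) (nat_lit 391) (nat_lit 193)))) (XT.nd (nat_lit 78) (nat_lit 0) (nat_lit 0) (XT.lf (nat_lit 0) (nat_lit 837191644294) (nat_lit 380) (nat_lit 1033277214883) (nat_lit 380) (nat_lit 1033277214883) (nat_lit 37) (nat_lit 3) (nat_lit 42) (nat_lit 3) (nat_lit 42) (nat_lit 5) (nat_lit 392) (nat_lit 392) (nat_lit 236)) (XT.nd (nat_lit 78) (nat_lit 0) (nat_lit 76) (XT.lf (nat_lit 76) (nat_lit 892200437810) (nat_lit 0) (nat_lit 944705716726) (nat_lit 380) (nat_lit 4400606286800) (nat_lit 38) (nat_lit 5) (nat_lit 37) (nat_lit 3) (nat_lit 42) (nat_lit 5) (nat_lit 393) (nat_lit 392) (nat_lit 235)) (XT.lf (nat_lit 0) (nat_lit 2231011562622) (nat_lit 304) (nat_lit 2287990716696) (nat_lit 380) (nat_lit 2181952882377) (nat_lit 38) (nat_lit 5) (nat_lit 42) (nat_lit 5) (nat_lit 43) (nat_lit 5) (nat_lit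 394) (nat_lit 392) (nat_lit 234))))) (XT.nd (nat_lit 234) (nat_lit 304) (nat_lit 0) (XT.nd (nat_lit 78) (nat_lit 228) (nat_lit 0) (XT.lf (nat_lit 76) (nat_lit 1298548547756) (nat_lit 0) (nat_lit 1484440346594) (nat_lit 380) (nat_lit 4436111978892) (nat_lit 39) (nat_lit 5) (nat_lit 38) (nat_lit 5) (nat_lit 43) (nat_lit 5) (nat_lit 395) (nat_lit 392) (nat_lit 233)) (XT.nd (nat_lit 78) (nat_lit 304) (nat_lit 0) (XT.lf (nat_lit 0) (nat_lit 3626092995313) (nat_lit 304) (nat_lit 2205551510992) (nat_lit 76) (nat_lit 1952074409795) (nat_lit 39) (nat_lit 5) (nat_lit 43) (nat_lit 5) (nat_lit 40) (nat_lit 5) (nat_lit 396) (nat_lit 392) (nat_lit 232)) (XT.lf (nat_lit 0) (nat_lit 2191076578462) (nat_lit 304) (nat_lit 2566001576923) (nat_lit 380) (nat_lit 3651739193408) (nat_lit 35) (nat_lit 5) (nat_lit 39) (nat_lit 5) (nat_lit 40) (nat_lit 5) (nat_lit 397) (nat_lit 392) (nat_lit 231)))) (XT.nd (nat_lit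 156) (nat_lit 152) (nat_lit 0) (XT.nd (nat_lit 78) (nat_lit 152) (nat_lit 0) (XT.lf (nat_lit 0) (nat_lit 6227745443935) (nat_lit 380) (nat_lit 1670058384312) (nat_lit 76) (nat_lit 1204371564973) (nat_lit 35) (nat_lit 5) (nat_lit 40) (nat_lit 5) (nat_lit 36) (nat_lit 5) (nat_lit 398) (nat_lit 392) (nat_lit 230)) (XT.lf (nat_lit 0) (nat_lit 3773531693912) (nat_lit 152) (nat_lit 4423925583331) (nat_lit 228) (nat_lit 1660313199346) (nat_lit 33) (nat_lit 5) (nat_lit 35) (nat_lit 5) (nat_lit 36) (nat_lit 5) (nat_lit 399) (nat_lit 392) (nat_lit 229))) (XT.nd (nat_lit 78) (nat_lit 152) (nat_lit 0) (XT.lf (nat_lit 0) (nat_lit 10221352072547) (nat_lit 152) (nat_lit 328572319296) (nat_lit 228) (nat_lit 163685654677) (nat_lit 33) (nat_lit 5) (nat_lit 35) (nat_lit 5) (nat_lit 36) (nat_lit 5) (nat_lit 400) (nat_lit 392) (nat_lit 228)) (XT.lf (nat_lit 0) (nat_lit 1882980304647) (nat_lit 152) (nat_lit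 5397215714755) (nat_lit 76) (nat_lit 4338326315757) (nat_lit 31) (nat_lit 5) (nat_lit 33) (nat_lit 5) (nat_lit 32) (nat_lit 5) (nat_lit 401) (nat_lit 392) (nat_lit 227))))))) (XT.nd (nat_lit 1014) (nat_lit 760) (nat_lit 0) (XT.nd (nat_lit 468) (nat_lit 456) (nat_lit 0) (XT.nd (nat_lit 234) (nat_lit 228) (nat_lit 0) (XT.nd (nat_lit 78) (nat_lit 76) (nat_lit 0) (XT.lf (nat_lit 0) (nat_lit 1445982454171) (nat_lit 152) (nat_lit 2876383745418) (nat_lit 228) (nat_lit 8320264334018) (nat_lit 29) (nat_lit 5) (nat_lit 31) (nat_lit 5) (nat_lit 32) (nat_lit 5) (nat_lit 402) (nat_lit 392) (nat_lit 226)) (XT.nd (nat_lit 78) (nat_lit 76) (nat_lit 0) (XT.lf (nat_lit 0) (nat_lit 7513822220982) (nat_lit 228) (nat_lit 3959837145131) (nat_lit 76) (nat_lit 2288771259377) (nat_lit 29) (nat_lit 5) (nat_lit 32) (nat_lit 5) (nat_lit 30) (nat_lit 4) (nat_lit 403) (nat_lit 392) (nat_lit 225)) (XT.lf (nat_lit 0)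 (nat_lit 4638473786663) (nat_lit 76) (nat_lit 6874562821289) (nat_lit 152) (nat_lit 3487808128849) (nat_lit 28) (nat_lit 5) (nat_lit 29) (nat_lit 5) (nat_lit 30) (nat_lit 4) (nat_lit 404) (nat_lit 392) (nat_lit 224)))) (XT.nd (nat_lit 78) (nat_lit 228) (nat_lit 0) (XT.lf (nat_lit 0) (nat_lit 14971563055391) (nat_lit 76) (nat_lit 1347561584605) (nat_lit 152) (nat_lit 74847601758) (nat_lit 28) (nat_lit 5) (nat_lit 29) (nat_lit 5) (nat_lit 30) (nat_lit 4) (nat_lit 405) (nat_lit 392) (nat_lit 223)) (XT.nd (nat_lit 78) (nat_lit 76) (nat_lit 0) (XT.lf (nat_lit 0) (nat_lit 4136524753625) (nat_lit 152) (nat_lit 8597389102093) (nat_lit 76) (nat_lit 5143857652087) (nat_lit 26) (nat_lit 5) (nat_lit 28) (nat_lit 5) (nat_lit 27) (nat_lit 4) (nat_lit 406) (nat_lit 392) (nat_lit 222)) (XT.lf (nat_lit 0) (nat_lit 2309826805049) (nat_lit 76) (nat_lit 6899821626368) (nat_lit 152) (nat_lit 10338301340943)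 (nat_lit 25) (nat_lit 5) (nat_lit 26) (nat_lit 5) (nat_lit 27) (nat_lit 4) (nat_lit 407) (nat_lit 392) (nat_lit 221))))) (XT.nd (nat_lit 234) (nat_lit 304) (nat_lit 0) (XT.nd (nat_lit 78) (nat_lit 152) (nat_lit 0) (XT.lf (nat_lit 0) (nat_lit 15506657080040) (nat_lit 152) (nat_lit 5595396477637) (nat_lit 0) (nat_lit 297163756046) (nat_lit 25) (nat_lit 5) (nat_lit 27) (nat_lit 4) (nat_lit 25) (nat_lit 4) (nat_lit 408) (nat_lit 392) (nat_lit 220)) (XT.nd (nat_lit 78) (nat_lit 76) (nat_lit 0) (XT.lf (nat_lit 0) (nat_lit 8194727346625) (nat_lit 76) (nat_lit 15221378797968) (nat_lit 76) (nat_lit 11885473902) (nat_lit 24) (nat_lit 4) (nat_lit 25) (nat_lit 5) (nat_lit 25) (nat_lit 4) (nat_lit 409) (nat_lit 392) (nat_lit 219)) (XT.lf (nat_lit 0) (nat_lit 6456294113311) (nat_lit 152) (nat_lit 1328460980508) (nat_lit 76) (nat_lit 17888433792929) (nat_lit 23) (nat_lit 5) (nat_lit 25) (nat_lit 5) (nat_lit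 24) (nat_lit 4) (nat_lit 410) (nat_lit 392) (nat_lit 218)))) (XT.nd (nat_lit 156) (nat_lit 152) (nat_lit 0) (XT.nd (nat_lit 78) (nat_lit 76) (nat_lit 0) (XT.lf (nat_lit 0) (nat_lit 14623452090167) (nat_lit 152) (nat_lit 12124327792864) (nat_lit 0) (nat_lit 1397805721312) (nat_lit 22) (nat_lit 5) (nat_lit 24) (nat_lit 4) (nat_lit 22) (nat_lit 4) (nat_lit 411) (nat_lit 392) (nat_lit 217)) (XT.lf (nat_lit 0) (nat_lit 5236488886043) (nat_lit 76) (nat_lit 19439478392585) (nat_lit 76) (nat_lit 6213832023689) (nat_lit 21) (nat_lit 4) (nat_lit 22) (nat_lit 5) (nat_lit 22) (nat_lit 4) (nat_lit 412) (nat_lit 392) (nat_lit 216))) (XT.nd (nat_lit 78) (nat_lit 76) (nat_lit 0) (XT.lf (nat_lit 0) (nat_lit 2659633403424) (nat_lit 152) (nat_lit 7507434551568) (nat_lit 76) (nat_lit 23765377483876) (nat_lit 20) (nat_lit 5) (nat_lit 22) (nat_lit 5) (nat_lit 21) (nat_lit 4) (nat_lit 413) (nat_lit 392) (nat_lit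 215)) (XT.lf (nat_lit 0) (nat_lit 12884693198018) (nat_lit 152) (nat_lit 23019766756289) (nat_lit 0) (nat_lit 1384131138050) (nat_lit 19) (nat_lit 5) (nat_lit 21) (nat_lit 4) (nat_lit 19) (nat_lit 4) (nat_lit 414) (nat_lit 392) (nat_lit 214)))))) (XT.nd (nat_lit 468) (nat_lit 456) (nat_lit 0) (XT.nd (nat_lit 234) (nat_lit 76) (nat_lit 0) (XT.nd (nat_lit 78) (nat_lit 228) (nat_lit 0) (XT.lf (nat_lit 0) (nat_lit 25538779470761) (nat_lit 152) (nat_lit 1436871585997) (nat_lit 0) (nat_lit 14038217410769) (nat_lit 19) (nat_lit 5) (nat_lit 21) (nat_lit 4) (nat_lit 19) (nat_lit 4) (nat_lit 415) (nat_lit 392) (nat_lit 213)) (XT.nd (nat_lit 78) (nat_lit 152) (nat_lit 0) (XT.lf (nat_lit 0) (nat_lit 25668659423308) (nat_lit 76) (nat_lit 15485203709228) (nat_lit 76) (nat_lit 3984641649216) (nat_lit 18) (nat_lit 4) (nat_lit 19) (nat_lit 5) (nat_lit 19) (nat_lit 4) (nat_lit 416) (nat_lit 392) (nat_lit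 212)) (XT.lf (nat_lit 0) (nat_lit 7404378384350) (nat_lit 76) (nat_lit 1388617171175) (nat_lit 152) (nat_lit 40973722889102) (nat_lit 16) (nat_lit 5) (nat_lit 17) (nat_lit 5) (nat_lit 18) (nat_lit 4) (nat_lit 417) (nat_lit 392) (nat_lit 211)))) (XT.nd (nat_lit 78) (nat_lit 76) (nat_lit 0) (XT.lf (nat_lit 0) (nat_lit 24759299101033) (nat_lit 152) (nat_lit 15290597151616) (nat_lit 0) (nat_lit 14758810353167) (nat_lit 16) (nat_lit 5) (nat_lit 18) (nat_lit 4) (nat_lit 16) (nat_lit 4) (nat_lit 418) (nat_lit 392) (nat_lit 210)) (XT.nd (nat_lit 78) (nat_lit 0) (nat_lit 0) (XT.lf (nat_lit 0) (nat_lit 17317506771380) (nat_lit 76) (nat_lit 26586247059875) (nat_lit 76) (nat_lit 16585758311998) (nat_lit 15) (nat_lit 4) (nat_lit 16) (nat_lit 5) (nat_lit 16) (nat_lit 4) (nat_lit 419) (nat_lit 392) (nat_lit 209)) (XT.lf (nat_lit 0) (nat_lit 56535280894444) (nat_lit 76) (nat_lit 10183877091270) (nat_lit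 76) (nat_lit 183388343383) (nat_lit 15) (nat_lit 4) (nat_lit 16) (nat_lit 5) (nat_lit 16) (nat_lit 4) (nat_lit 420) (nat_lit 392) (nat_lit 208))))) (XT.nd (nat_lit 234) (nat_lit 228) (nat_lit 0) (XT.nd (nat_lit 78) (nat_lit 76) (nat_lit 0) (XT.lf (nat_lit 0) (nat_lit 18678516701462) (nat_lit 152) (nat_lit 45251237183349) (nat_lit 0) (nat_lit 9982439529378) (nat_lit 13) (nat_lit 5) (nat_lit 15) (nat_lit 4) (nat_lit 13) (nat_lit 4) (nat_lit 421) (nat_lit 392) (nat_lit 207)) (XT.nd (nat_lit 78) (nat_lit 76) (nat_lit 0) (XT.lf (nat_lit 0) (nat_lit 41403609760277) (nat_lit 152) (nat_lit 7702933637269) (nat_lit 0) (nat_lit 32707532588187) (nat_lit 13) (nat_lit 5) (nat_lit 15) (nat_lit 4) (nat_lit 13) (nat_lit 4) (nat_lit 422) (nat_lit 392) (nat_lit 206)) (XT.lf (nat_lit 0) (nat_lit 38944746040540) (nat_lit 76) (nat_lit 30205339621009) (nat_lit 76) (nat_lit 21509262448913) (nat_lit 12) (nat_lit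 4) (nat_lit 13) (nat_lit 5) (nat_lit 13) (nat_lit 4) (nat_lit 423) (nat_lit 392) (nat_lit 205)))) (XT.nd (nat_lit 156) (nat_lit 76) (nat_lit 0) (XT.nd (nat_lit 78) (nat_lit 76) (nat_lit 0) (XT.lf (nat_lit 0) (nat_lit 628729250724) (nat_lit 152) (nat_lit 7344309283042) (nat_lit 76) (nat_lit 92793687727411) (nat_lit 11) (nat_lit 5) (nat_lit 13) (nat_lit 5) (nat_lit 12) (nat_lit 4) (nat_lit 424) (nat_lit 392) (nat_lit 204)) (XT.lf (nat_lit 0) (nat_lit 26693888146138) (nat_lit 152) (nat_lit 65989312407611) (nat_lit 0) (nat_lit 19132081909524) (nat_lit 10) (nat_lit 5) (nat_lit 12) (nat_lit 4) (nat_lit 10) (nat_lit 4) (nat_lit 425) (nat_lit 392) (nat_lit 203))) (XT.nd (nat_lit 78) (nat_lit 76) (nat_lit 0) (XT.lf (nat_lit 0) (nat_lit 57450677742946) (nat_lit 152) (nat_lit 17064294316348) (nat_lit 0) (nat_lit 49888871506329) (nat_lit 10) (nat_lit 5) (nat_lit 12) (nat_lit 4) (nat_lit 10) (nat_lit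 4) (nat_lit 426) (nat_lit 392) (nat_lit 202)) (XT.lf (nat_lit 0) (nat_lit 43030334418118) (nat_lit 76) (nat_lit 51572445746977) (nat_lit 76) (nat_lit 44010639510357) (nat_lit 9) (nat_lit 4) (nat_lit 10) (nat_lit 5) (nat_lit 10) (nat_lit 4) (nat_lit 427) (nat_lit 392) (nat_lit 201))))))))
noncomputable def xc117 : XT := (XT.nd (nat_lit 51636) (nat_lit 0) (nat_lit 152) (XT.nd (nat_lit 50622) (nat_lit 0) (nat_lit 1596) (XT.nd (nat_lit 468) (nat_lit 152) (nat_lit 0) (XT.nd (nat_lit 234) (nat_lit 76) (nat_lit 0) (XT.nd (nat_lit 78) (nat_lit 152) (nat_lit 0) (XT.lf (nat_lit 0) (nat_lit 114056951448943) (nat_lit 76) (nat_lit 24162743704501) (nat_lit 76) (nat_lit 16600937467879) (nat_lit 9) (nat_lit 4) (nat_lit 10) (nat_lit 5) (nat_lit 10) (nat_lit 4) (nat_lit 428) (nat_lit 392) (nat_lit 200)) (XT.nd (nat_lit 78) (nat_lit 0) (nat_lit 0) (XT.lf (nat_lit 0) (nat_lit 14957502260011) (nat_lit 152)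 (nat_lit 149821896970719) (nat_lit 0) (nat_lit 8382018575990) (nat_lit 7) (nat_lit 5) (nat_lit 9) (nat_lit 4) (nat_lit 7) (nat_lit 4) (nat_lit 429) (nat_lit 392) (nat_lit 199)) (XT.lf (nat_lit 0) (nat_lit 52932991827866) (nat_lit 152) (nat_lit 94336807123076) (nat_lit 0) (nat_lit 46357508143843) (nat_lit 7) (nat_lit 5) (nat_lit 9) (nat_lit 4) (nat_lit 7) (nat_lit 4) (nat_lit 430) (nat_lit 392) (nat_lit 198)))) (XT.nd (nat_lit 78) (nat_lit 76) (nat_lit 0) (XT.lf (nat_lit 0) (nat_lit 96604804830881) (nat_lit 152) (nat_lit 30528953798323) (nat_lit 0) (nat_lit 90029321146856) (nat_lit 7) (nat_lit 5) (nat_lit 9) (nat_lit 4) (nat_lit 7) (nat_lit 4) (nat_lit 431) (nat_lit 392) (nat_lit 197)) (XT.nd (nat_lit 78) (nat_lit 0) (nat_lit 0) (XT.lf (nat_lit 0) (nat_lit 47037698737792) (nat_lit 76) (nat_lit 101737421843137) (nat_lit 76) (nat_lit 95161938159112) (nat_lit 6) (nat_lit 4) (nat_lit 7) (nat_lit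 5) (nat_lit 7) (nat_lit 4) (nat_lit 432) (nat_lit 392) (nat_lit 196)) (XT.lf (nat_lit 0) (nat_lit 139670387257311) (nat_lit 76) (nat_lit 70696428111981) (nat_lit 76) (nat_lit 64120944427955) (nat_lit 6) (nat_lit 4) (nat_lit 7) (nat_lit 5) (nat_lit 7) (nat_lit 4) (nat_lit 433) (nat_lit 392) (nat_lit 195))))) (XT.nd (nat_lit 49920) (nat_lit 0) (nat_lit 2508) (XT.nd (nat_lit 78) (nat_lit 152) (nat_lit 0) (XT.lf (nat_lit 0) (nat_lit 246197979054729) (nat_lit 76) (nat_lit 34999285321166) (nat_lit 76) (nat_lit 28423801637139) (nat_lit 6) (nat_lit 4) (nat_lit 7) (nat_lit 5) (nat_lit 7) (nat_lit 4) (nat_lit 434) (nat_lit 392) (nat_lit 194)) (XT.nd (nat_lit 78) (nat_lit 0) (nat_lit 0) (XT.lf (nat_lit 0) (nat_lit 12643846714624) (nat_lit 152) (nat_lit 330205028655075) (nat_lit 0) (nat_lit 6926034815469) (nat_lit 4) (nat_lit 5) (nat_lit 6) (nat_lit 4) (nat_lit 4) (nat_lit 4) (nat_lit 435) (nat_lit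 392) (nat_lit 193)) (XT.lf (nat_lit 0) (nat_lit 62101388119302) (nat_lit 152) (nat_lit 276492869236814) (nat_lit 0) (nat_lit 56383576220147) (nat_lit 4) (nat_lit 5) (nat_lit 6) (nat_lit 4) (nat_lit 4) (nat_lit 4) (nat_lit 436) (nat_lit 392) (nat_lit 192)))) (XT.nd (nat_lit 78) (nat_lit 0) (nat_lit 0) (XT.lf (nat_lit 0) (nat_lit 962770392660) (nat_lit 380) (nat_lit 1188268796126) (nat_lit 380) (nat_lit 1188268796126) (nat_lit 37) (nat_lit 3) (nat_lit 42) (nat_lit 3) (nat_lit 42) (nat_lit 5) (nat_lit 393) (nat_lit 393) (nat_lit 234)) (XT.nd (nat_lit 78) (nat_lit 0) (nat_lit 76) (XT.lf (nat_lit 76) (nat_lit 1026030505372) (nat_lit 0) (nat_lit 1086411575417) (nat_lit 380) (nat_lit 5060697226286) (nat_lit 38) (nat_lit 5) (nat_lit 37) (nat_lit 3) (nat_lit 42) (nat_lit 5) (nat_lit 394) (nat_lit 393) (nat_lit 233)) (XT.lf (nat_lit 0) (nat_lit 2565663299644) (nat_lit 304) (nat_lit 2631189322112)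 (nat_lit 380) (nat_lit 2509245813797) (nat_lit 38) (nat_lit 5) (nat_lit 42) (nat_lit 5) (nat_lit 43) (nat_lit 5) (nat_lit 395) (nat_lit 393) (nat_lit 232)))))) (XT.nd (nat_lit 468) (nat_lit 608) (nat_lit 0) (XT.nd (nat_lit 234) (nat_lit 152) (nat_lit 0) (XT.nd (nat_lit 78) (nat_lit 228) (nat_lit 0) (XT.lf (nat_lit 76) (nat_lit 1493330831914) (nat_lit 0) (nat_lit 1707106398958) (nat_lit 380) (nat_lit 5101528773000) (nat_lit 39) (nat_lit 5) (nat_lit 38) (nat_lit 5) (nat_lit 43) (nat_lit 5) (nat_lit 396) (nat_lit 393) (nat_lit 231)) (XT.nd (nat_lit 78) (nat_lit 304) (nat_lit 0) (XT.lf (nat_lit 0) (nat_lit 4170006946657) (nat_lit 304) (nat_lit 2536384235584) (nat_lit 76) (nat_lit 2244885570968) (nat_lit 39) (nat_lit 5) (nat_lit 43) (nat_lit 5) (nat_lit 40) (nat_lit 5) (nat_lit 397) (nat_lit 393) (nat_lit 230)) (XT.lf (nat_lit 0) (nat_lit 2519738067195) (nat_lit 304) (nat_lit 2950901813359)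 (nat_lit 380) (nat_lit 4199500070279) (nat_lit 35) (nat_lit 5) (nat_lit 39) (nat_lit 5) (nat_lit 40) (nat_lit 5) (nat_lit 398) (nat_lit 393) (nat_lit 229)))) (XT.nd (nat_lit 78) (nat_lit 152) (nat_lit 0) (XT.lf (nat_lit 0) (nat_lit 7161907262147) (nat_lit 380) (nat_lit 1920567140012) (nat_lit 76) (nat_lit 1385027299801) (nat_lit 35) (nat_lit 5) (nat_lit 40) (nat_lit 5) (nat_lit 36) (nat_lit 5) (nat_lit 399) (nat_lit 393) (nat_lit 228)) (XT.nd (nat_lit 78) (nat_lit 0) (nat_lit 0) (XT.lf (nat_lit 0) (nat_lit 4339561449858) (nat_lit 152) (nat_lit 5087514420459) (nat_lit 228) (nat_lit 1909360177537) (nat_lit 33) (nat_lit 5) (nat_lit 35) (nat_lit 5) (nat_lit 36) (nat_lit 5) (nat_lit 400) (nat_lit 393) (nat_lit 227)) (XT.lf (nat_lit 0) (nat_lit 11754554885045) (nat_lit 152) (nat_lit 377858166868) (nat_lit 228) (nat_lit 188238501391) (nat_lit 33) (nat_lit 5) (nat_lit 35) (nat_lit 5) (nat_lit 36)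 (nat_lit 5) (nat_lit 401) (nat_lit 393) (nat_lit 226))))) (XT.nd (nat_lit 234) (nat_lit 304) (nat_lit 0) (XT.nd (nat_lit 78) (nat_lit 152) (nat_lit 0) (XT.lf (nat_lit 0) (nat_lit 2165427351610) (nat_lit 152) (nat_lit 6206798070128) (nat_lit 76) (nat_lit 4989075263505) (nat_lit 31) (nat_lit 5) (nat_lit 33) (nat_lit 5) (nat_lit 32) (nat_lit 5) (nat_lit 402) (nat_lit 393) (nat_lit 225)) (XT.nd (nat_lit 78) (nat_lit 0) (nat_lit 0) (XT.lf (nat_lit 0) (nat_lit 1662879824053) (nat_lit 152) (nat_lit 3307841306648) (nat_lit 228) (nat_lit 9568303982771) (nat_lit 29) (nat_lit 5) (nat_lit 31) (nat_lit 5) (nat_lit 32) (nat_lit 5) (nat_lit 403) (nat_lit 393) (nat_lit 224)) (XT.lf (nat_lit 0) (nat_lit 8640895555170) (nat_lit 228) (nat_lit 4553812715241) (nat_lit 76) (nat_lit 2632086948746) (nat_lit 29) (nat_lit 5) (nat_lit 32) (nat_lit 5) (nat_lit 30) (nat_lit 4) (nat_lit 404) (nat_lit 393) (nat_lit 223))))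 (XT.nd (nat_lit 156) (nat_lit 228) (nat_lit 0) (XT.nd (nat_lit 78) (nat_lit 0) (nat_lit 0) (XT.lf (nat_lit 0) (nat_lit 5334244856246) (nat_lit 76) (nat_lit 7905747243869) (nat_lit 152) (nat_lit 4010979347059) (nat_lit 28) (nat_lit 5) (nat_lit 29) (nat_lit 5) (nat_lit 30) (nat_lit 4) (nat_lit 405) (nat_lit 393) (nat_lit 222)) (XT.lf (nat_lit 0) (nat_lit 17217297515076) (nat_lit 76) (nat_lit 1549695821763) (nat_lit 152) (nat_lit 86074741050) (nat_lit 28) (nat_lit 5) (nat_lit 29) (nat_lit 5) (nat_lit 30) (nat_lit 4) (nat_lit 406) (nat_lit 393) (nat_lit 221))) (XT.nd (nat_lit 78) (nat_lit 76) (nat_lit 0) (XT.lf (nat_lit 0) (nat_lit 4757003467520) (nat_lit 152) (nat_lit 9886997465908) (nat_lit 76) (nat_lit 5915436300420) (nat_lit 26) (nat_lit 5) (nat_lit 28) (nat_lit 5) (nat_lit 27) (nat_lit 4) (nat_lit 407) (nat_lit 393) (nat_lit 220)) (XT.lf (nat_lit 0) (nat_lit 2656300827236) (nat_lit 76)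 (nat_lit 7934794869692) (nat_lit 152) (nat_lit 11889046541165) (nat_lit 25) (nat_lit 5) (nat_lit 26) (nat_lit 5) (nat_lit 27) (nat_lit 4) (nat_lit 408) (nat_lit 393) (nat_lit 219))))))) (XT.nd (nat_lit 1014) (nat_lit 684) (nat_lit 0) (XT.nd (nat_lit 468) (nat_lit 380) (nat_lit 0) (XT.nd (nat_lit 234) (nat_lit 228) (nat_lit 0) (XT.nd (nat_lit 78) (nat_lit 152) (nat_lit 0) (XT.lf (nat_lit 0) (nat_lit 17832655642763) (nat_lit 152) (nat_lit 6434705947958) (nat_lit 0) (nat_lit 341738319952) (nat_lit 25) (nat_lit 5) (nat_lit 27) (nat_lit 4) (nat_lit 25) (nat_lit 4) (nat_lit 409) (nat_lit 393) (nat_lit 218)) (XT.nd (nat_lit 78) (nat_lit 76) (nat_lit 0) (XT.lf (nat_lit 0) (nat_lit 9423936449884) (nat_lit 76) (nat_lit 17504585617074) (nat_lit 76) (nat_lit 13668294209) (nat_lit 24) (nat_lit 4) (nat_lit 25) (nat_lit 5) (nat_lit 25) (nat_lit 4) (nat_lit 410) (nat_lit 393) (nat_lit 217)) (XT.lf (nat_lit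 0) (nat_lit 7424738230924) (nat_lit 152) (nat_lit 1527730126424) (nat_lit 76) (nat_lit 20571698862320) (nat_lit 23) (nat_lit 5) (nat_lit 25) (nat_lit 5) (nat_lit 24) (nat_lit 4) (nat_lit 411) (nat_lit 393) (nat_lit 216)))) (XT.nd (nat_lit 78) (nat_lit 152) (nat_lit 0) (XT.lf (nat_lit 0) (nat_lit 16816969904296) (nat_lit 152) (nat_lit 13942976960621) (nat_lit 0) (nat_lit 1607476579988) (nat_lit 22) (nat_lit 5) (nat_lit 24) (nat_lit 4) (nat_lit 22) (nat_lit 4) (nat_lit 412) (nat_lit 393) (nat_lit 215)) (XT.nd (nat_lit 78) (nat_lit 76) (nat_lit 0) (XT.lf (nat_lit 0) (nat_lit 6021962220070) (nat_lit 76) (nat_lit 22355400150924) (nat_lit 76) (nat_lit 7145906826585) (nat_lit 21) (nat_lit 4) (nat_lit 22) (nat_lit 5) (nat_lit 22) (nat_lit 4) (nat_lit 413) (nat_lit 393) (nat_lit 214)) (XT.lf (nat_lit 0) (nat_lit 3058578414458) (nat_lit 152) (nat_lit 8633549733279) (nat_lit 76) (nat_lit 27330184106883)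 (nat_lit 20) (nat_lit 5) (nat_lit 22) (nat_lit 5) (nat_lit 21) (nat_lit 4) (nat_lit 414) (nat_lit 393) (nat_lit 213))))) (XT.nd (nat_lit 234) (nat_lit 228) (nat_lit 0) (XT.nd (nat_lit 78) (nat_lit 76) (nat_lit 0) (XT.lf (nat_lit 0) (nat_lit 14817397178234) (nat_lit 152) (nat_lit 26472731768700) (nat_lit 0) (nat_lit 1591750809200) (nat_lit 19) (nat_lit 5) (nat_lit 21) (nat_lit 4) (nat_lit 19) (nat_lit 4) (nat_lit 415) (nat_lit 393) (nat_lit 212)) (XT.nd (nat_lit 78) (nat_lit 76) (nat_lit 0) (XT.lf (nat_lit 0) (nat_lit 29369596391821) (nat_lit 152) (nat_lit 1652402322999) (nat_lit 0) (nat_lit 16143950022769) (nat_lit 19) (nat_lit 5) (nat_lit 21) (nat_lit 4) (nat_lit 19) (nat_lit 4) (nat_lit 416) (nat_lit 393) (nat_lit 211)) (XT.lf (nat_lit 0) (nat_lit 29518958337661) (nat_lit 76) (nat_lit 17807984265179) (nat_lit 76) (nat_lit 4582337896112) (nat_lit 18) (nat_lit 4) (nat_lit 19) (nat_lit 5)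 (nat_lit 19) (nat_lit 4) (nat_lit 417) (nat_lit 393) (nat_lit 210)))) (XT.nd (nat_lit 156) (nat_lit 76) (nat_lit 0) (XT.nd (nat_lit 78) (nat_lit 0) (nat_lit 0) (XT.lf (nat_lit 0) (nat_lit 8515035142861) (nat_lit 76) (nat_lit 1596909746413) (nat_lit 152) (nat_lit 47119781321983) (nat_lit 16) (nat_lit 5) (nat_lit 17) (nat_lit 5) (nat_lit 18) (nat_lit 4) (nat_lit 418) (nat_lit 393) (nat_lit 209)) (XT.lf (nat_lit 0) (nat_lit 28473193966570) (nat_lit 152) (nat_lit 17584186723573) (nat_lit 0) (nat_lit 16972631906489) (nat_lit 16) (nat_lit 5) (nat_lit 18) (nat_lit 4) (nat_lit 16) (nat_lit 4) (nat_lit 419) (nat_lit 393) (nat_lit 208))) (XT.nd (nat_lit 78) (nat_lit 0) (nat_lit 0) (XT.lf (nat_lit 0) (nat_lit 19915132787837) (nat_lit 76) (nat_lit 30574184118469) (nat_lit 76) (nat_lit 19073622058380) (nat_lit 15) (nat_lit 4) (nat_lit 16) (nat_lit 5) (nat_lit 16) (nat_lit 4) (nat_lit 420) (nat_lit 393)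 (nat_lit 207)) (XT.lf (nat_lit 0) (nat_lit 65015573029264) (nat_lit 76) (nat_lit 11711458654624) (nat_lit 76) (nat_lit 210896594527) (nat_lit 15) (nat_lit 4) (nat_lit 16) (nat_lit 5) (nat_lit 16) (nat_lit 4) (nat_lit 421) (nat_lit 393) (nat_lit 206)))))) (XT.nd (nat_lit 468) (nat_lit 304) (nat_lit 0) (XT.nd (nat_lit 234) (nat_lit 152) (nat_lit 0) (XT.nd (nat_lit 78) (nat_lit 76) (nat_lit 0) (XT.lf (nat_lit 0) (nat_lit 21480294207010) (nat_lit 152) (nat_lit 52038922760165) (nat_lit 0) (nat_lit 11479805459094) (nat_lit 13) (nat_lit 5) (nat_lit 15) (nat_lit 4) (nat_lit 13) (nat_lit 4) (nat_lit 422) (nat_lit 393) (nat_lit 205)) (XT.nd (nat_lit 78) (nat_lit 76) (nat_lit 0) (XT.lf (nat_lit 0) (nat_lit 47614151224604) (nat_lit 152) (nat_lit 8858373682263) (nat_lit 0) (nat_lit 37613662476683) (nat_lit 13) (nat_lit 5) (nat_lit 15) (nat_lit 4) (nat_lit 13) (nat_lit 4) (nat_lit 423) (nat_lit 393)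 (nat_lit 204)) (XT.lf (nat_lit 0) (nat_lit 44786457947192) (nat_lit 76) (nat_lit 34736140563863) (nat_lit 76) (nat_lit 24735651815937) (nat_lit 12) (nat_lit 4) (nat_lit 13) (nat_lit 5) (nat_lit 13) (nat_lit 4) (nat_lit 424) (nat_lit 393) (nat_lit 203)))) (XT.nd (nat_lit 78) (nat_lit 76) (nat_lit 0) (XT.lf (nat_lit 0) (nat_lit 723038638581) (nat_lit 152) (nat_lit 8445955674979) (nat_lit 76) (nat_lit 106712740886757) (nat_lit 11) (nat_lit 5) (nat_lit 13) (nat_lit 5) (nat_lit 12) (nat_lit 4) (nat_lit 425) (nat_lit 393) (nat_lit 202)) (XT.nd (nat_lit 78) (nat_lit 0) (nat_lit 0) (XT.lf (nat_lit 0) (nat_lit 30697971368306) (nat_lit 152) (nat_lit 75887709268232) (nat_lit 0) (nat_lit 22001894196191) (nat_lit 10) (nat_lit 5) (nat_lit 12) (nat_lit 4) (nat_lit 10) (nat_lit 4) (nat_lit 426) (nat_lit 393) (nat_lit 201)) (XT.lf (nat_lit 0) (nat_lit 66068279404602) (nat_lit 152) (nat_lit 19623938463347)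 (nat_lit 0) (nat_lit 57372202232485) (nat_lit 10) (nat_lit 5) (nat_lit 12) (nat_lit 4) (nat_lit 10) (nat_lit 4) (nat_lit 427) (nat_lit 393) (nat_lit 200))))) (XT.nd (nat_lit 234) (nat_lit 76) (nat_lit 0) (XT.nd (nat_lit 78) (nat_lit 152) (nat_lit 0) (XT.lf (nat_lit 0) (nat_lit 49484884581267) (nat_lit 76) (nat_lit 59308312608796) (nat_lit 76) (nat_lit 50612235436676) (nat_lit 9) (nat_lit 4) (nat_lit 10) (nat_lit 5) (nat_lit 10) (nat_lit 4) (nat_lit 428) (nat_lit 393) (nat_lit 199)) (XT.nd (nat_lit 78) (nat_lit 152) (nat_lit 0) (XT.lf (nat_lit 0) (nat_lit 131165494166661) (nat_lit 76) (nat_lit 27787155259978) (nat_lit 76) (nat_lit 19091078087856) (nat_lit 9) (nat_lit 4) (nat_lit 10) (nat_lit 5) (nat_lit 10) (nat_lit 4) (nat_lit 429) (nat_lit 393) (nat_lit 198)) (XT.lf (nat_lit 0) (nat_lit 17201127599199) (nat_lit 152) (nat_lit 172295181515932) (nat_lit 0) (nat_lit 9639321362570) (nat_lit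 7) (nat_lit 5) (nat_lit 9) (nat_lit 4) (nat_lit 7) (nat_lit 4) (nat_lit 430) (nat_lit 393) (nat_lit 197)))) (XT.nd (nat_lit 156) (nat_lit 76) (nat_lit 0) (XT.nd (nat_lit 78) (nat_lit 0) (nat_lit 0) (XT.lf (nat_lit 0) (nat_lit 60872940602207) (nat_lit 152) (nat_lit 108487328191194) (nat_lit 0) (nat_lit 53311134365577) (nat_lit 7) (nat_lit 5) (nat_lit 9) (nat_lit 4) (nat_lit 7) (nat_lit 4) (nat_lit 431) (nat_lit 393) (nat_lit 196)) (XT.lf (nat_lit 0) (nat_lit 111095525555653) (nat_lit 152) (nat_lit 35108296867773) (nat_lit 0) (nat_lit 103533719319022) (nat_lit 7) (nat_lit 5) (nat_lit 9) (nat_lit 4) (nat_lit 7) (nat_lit 4) (nat_lit 432) (nat_lit 393) (nat_lit 195))) (XT.nd (nat_lit 78) (nat_lit 0) (nat_lit 0) (XT.lf (nat_lit 0) (nat_lit 54093353548746) (nat_lit 76) (nat_lit 116998035119456) (nat_lit 76) (nat_lit 109436228882824) (nat_lit 6) (nat_lit 4) (nat_lit 7) (nat_lit 5) (nat_lit 7) (nat_lit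 4) (nat_lit 433) (nat_lit 393) (nat_lit 194)) (XT.lf (nat_lit 0) (nat_lit 160620945346154) (nat_lit 76) (nat_lit 81300892328648) (nat_lit 76) (nat_lit 73739086092014) (nat_lit 6) (nat_lit 4) (nat_lit 7) (nat_lit 5) (nat_lit 7) (nat_lit 4) (nat_lit 434) (nat_lit 393) (nat_lit 193))))))))
noncomputable def xc118 : XT := (XT.nd (nat_lit 51792) (nat_lit 0) (nat_lit 0) (XT.nd (nat_lit 50778) (nat_lit 0) (nat_lit 988) (XT.nd (nat_lit 50310) (nat_lit 0) (nat_lit 1748) (XT.nd (nat_lit 50076) (nat_lit 0) (nat_lit 2432) (XT.nd (nat_lit 49920) (nat_lit 0) (nat_lit 2356) (XT.lf (nat_lit 0) (nat_lit 283127675913155) (nat_lit 76) (nat_lit 40249178119228) (nat_lit 76) (nat_lit 32687371882593) (nat_lit 6) (nat_lit 4) (nat_lit 7) (nat_lit 5) (nat_lit 7) (nat_lit 4) (nat_lit 435) (nat_lit 393) (nat_lit 192)) (XT.nd (nat_lit 78) (nat_lit 0) (nat_lit 0) (XT.lf (nat_lit 0) (nat_lit 1107185952861) (nat_lit 380)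 (nat_lit 1366509114796) (nat_lit 380) (nat_lit 1366509114796) (nat_lit 37) (nat_lit 3) (nat_lit 42) (nat_lit 3) (nat_lit 42) (nat_lit 5) (nat_lit 394) (nat_lit 394) (nat_lit 232)) (XT.lf (nat_lit 76) (nat_lit 1179935082608) (nat_lit 0) (nat_lit 1249373312623) (nat_lit 380) (nat_lit 5819801807556) (nat_lit 38) (nat_lit 5) (nat_lit 37) (nat_lit 3) (nat_lit 42) (nat_lit 5) (nat_lit 395) (nat_lit 394) (nat_lit 231)))) (XT.nd (nat_lit 78) (nat_lit 0) (nat_lit 0) (XT.lf (nat_lit 0) (nat_lit 2950512796579) (nat_lit 304) (nat_lit 3025867718850) (nat_lit 380) (nat_lit 2885632685159) (nat_lit 38) (nat_lit 5) (nat_lit 42) (nat_lit 5) (nat_lit 43) (nat_lit 5) (nat_lit 396) (nat_lit 394) (nat_lit 230)) (XT.nd (nat_lit 78) (nat_lit 0) (nat_lit 76) (XT.lf (nat_lit 76) (nat_lit 1717330458208) (nat_lit 0) (nat_lit 1963172359086) (nat_lit 380) (nat_lit 5866758086890) (nat_lit 39) (nat_lit 5) (nat_lit 38)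 (nat_lit 5) (nat_lit 43) (nat_lit 5) (nat_lit 397) (nat_lit 394) (nat_lit 229)) (XT.lf (nat_lit 0) (nat_lit 4795507990203) (nat_lit 304) (nat_lit 2916841869366) (nat_lit 76) (nat_lit 2581618406388) (nat_lit 39) (nat_lit 5) (nat_lit 43) (nat_lit 5) (nat_lit 40) (nat_lit 5) (nat_lit 398) (nat_lit 394) (nat_lit 228))))) (XT.nd (nat_lit 234) (nat_lit 304) (nat_lit 0) (XT.nd (nat_lit 78) (nat_lit 152) (nat_lit 0) (XT.lf (nat_lit 0) (nat_lit 2897698778760) (nat_lit 304) (nat_lit 3393537085285) (nat_lit 380) (nat_lit 4829425079202) (nat_lit 35) (nat_lit 5) (nat_lit 39) (nat_lit 5) (nat_lit 40) (nat_lit 5) (nat_lit 399) (nat_lit 394) (nat_lit 227)) (XT.nd (nat_lit 78) (nat_lit 152) (nat_lit 0) (XT.lf (nat_lit 0) (nat_lit 8236193352695) (nat_lit 380) (nat_lit 2208652209541) (nat_lit 76) (nat_lit 1592781394833) (nat_lit 35) (nat_lit 5) (nat_lit 40) (nat_lit 5) (nat_lit 36) (nat_lit 5) (nat_lit 400)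 (nat_lit 394) (nat_lit 226)) (XT.lf (nat_lit 0) (nat_lit 4990495668742) (nat_lit 152) (nat_lit 5850641583247) (nat_lit 228) (nat_lit 2195764202874) (nat_lit 33) (nat_lit 5) (nat_lit 35) (nat_lit 5) (nat_lit 36) (nat_lit 5) (nat_lit 401) (nat_lit 394) (nat_lit 225)))) (XT.nd (nat_lit 78) (nat_lit 304) (nat_lit 0) (XT.lf (nat_lit 0) (nat_lit 13517738119024) (nat_lit 152) (nat_lit 434536891654) (nat_lit 228) (nat_lit 216474275475) (nat_lit 33) (nat_lit 5) (nat_lit 35) (nat_lit 5) (nat_lit 36) (nat_lit 5) (nat_lit 402) (nat_lit 394) (nat_lit 224)) (XT.nd (nat_lit 78) (nat_lit 152) (nat_lit 0) (XT.lf (nat_lit 0) (nat_lit 2490241455308) (nat_lit 152) (nat_lit 7137817779257) (nat_lit 76) (nat_lit 5737436553322) (nat_lit 31) (nat_lit 5) (nat_lit 33) (nat_lit 5) (nat_lit 32) (nat_lit 5) (nat_lit 403) (nat_lit 394) (nat_lit 223)) (XT.lf (nat_lit 0) (nat_lit 1912311798988) (nat_lit 152) (nat_lit 3804017502204)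 (nat_lit 228) (nat_lit 11003549579167) (nat_lit 29) (nat_lit 5) (nat_lit 31) (nat_lit 5) (nat_lit 32) (nat_lit 5) (nat_lit 404) (nat_lit 394) (nat_lit 222)))))) (XT.nd (nat_lit 468) (nat_lit 456) (nat_lit 0) (XT.nd (nat_lit 234) (nat_lit 228) (nat_lit 0) (XT.nd (nat_lit 78) (nat_lit 76) (nat_lit 0) (XT.lf (nat_lit 0) (nat_lit 9937029889233) (nat_lit 228) (nat_lit 5236884621272) (nat_lit 76) (nat_lit 3026899991408) (nat_lit 29) (nat_lit 5) (nat_lit 32) (nat_lit 5) (nat_lit 30) (nat_lit 4) (nat_lit 405) (nat_lit 394) (nat_lit 221)) (XT.nd (nat_lit 78) (nat_lit 0) (nat_lit 0) (XT.lf (nat_lit 0) (nat_lit 6134381585881) (nat_lit 76) (nat_lit 9091609329986) (nat_lit 152) (nat_lit 4612626248274) (nat_lit 28) (nat_lit 5) (nat_lit 29) (nat_lit 5) (nat_lit 30) (nat_lit 4) (nat_lit 406) (nat_lit 394) (nat_lit 220)) (XT.lf (nat_lit 0) (nat_lit 19799892143380) (nat_lit 76) (nat_lit 1782150194624) (nat_lit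 152) (nat_lit 98985951474) (nat_lit 28) (nat_lit 5) (nat_lit 29) (nat_lit 5) (nat_lit 30) (nat_lit 4) (nat_lit 407) (nat_lit 394) (nat_lit 219)))) (XT.nd (nat_lit 78) (nat_lit 76) (nat_lit 0) (XT.lf (nat_lit 0) (nat_lit 5470553988291) (nat_lit 152) (nat_lit 11370047084662) (nat_lit 76) (nat_lit 6802751745876) (nat_lit 26) (nat_lit 5) (nat_lit 28) (nat_lit 5) (nat_lit 27) (nat_lit 4) (nat_lit 408) (nat_lit 394) (nat_lit 218)) (XT.nd (nat_lit 78) (nat_lit 0) (nat_lit 0) (XT.lf (nat_lit 0) (nat_lit 3054745952403) (nat_lit 76) (nat_lit 9125014099668) (nat_lit 152) (nat_lit 13672403521646) (nat_lit 25) (nat_lit 5) (nat_lit 26) (nat_lit 5) (nat_lit 27) (nat_lit 4) (nat_lit 409) (nat_lit 394) (nat_lit 217)) (XT.lf (nat_lit 0) (nat_lit 20507553989720) (nat_lit 152) (nat_lit 7399911839150) (nat_lit 0) (nat_lit 392999068323) (nat_lit 25) (nat_lit 5) (nat_lit 27) (nat_lit 4) (nat_lit 25) (nat_lit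 4) (nat_lit 410) (nat_lit 394) (nat_lit 216))))) (XT.nd (nat_lit 234) (nat_lit 228) (nat_lit 0) (XT.nd (nat_lit 78) (nat_lit 152) (nat_lit 0) (XT.lf (nat_lit 0) (nat_lit 10837526918323) (nat_lit 76) (nat_lit 20130273459190) (nat_lit 76) (nat_lit 15718537753) (nat_lit 24) (nat_lit 4) (nat_lit 25) (nat_lit 5) (nat_lit 25) (nat_lit 4) (nat_lit 411) (nat_lit 394) (nat_lit 215)) (XT.nd (nat_lit 78) (nat_lit 76) (nat_lit 0) (XT.lf (nat_lit 0) (nat_lit 8538448966028) (nat_lit 152) (nat_lit 1756889644511) (nat_lit 76) (nat_lit 23657453692010) (nat_lit 23) (nat_lit 5) (nat_lit 25) (nat_lit 5) (nat_lit 24) (nat_lit 4) (nat_lit 412) (nat_lit 394) (nat_lit 214)) (XT.lf (nat_lit 0) (nat_lit 19339515390396) (nat_lit 152) (nat_lit 16034423503827) (nat_lit 0) (nat_lit 1848598067349) (nat_lit 22) (nat_lit 5) (nat_lit 24) (nat_lit 4) (nat_lit 22) (nat_lit 4) (nat_lit 413) (nat_lit 394) (nat_lit 213)))) (XT.nd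 (nat_lit 156) (nat_lit 76) (nat_lit 0) (XT.nd (nat_lit 78) (nat_lit 76) (nat_lit 0) (XT.lf (nat_lit 0) (nat_lit 6925256553926) (nat_lit 76) (nat_lit 25708710173148) (nat_lit 76) (nat_lit 8217792850077) (nat_lit 21) (nat_lit 4) (nat_lit 22) (nat_lit 5) (nat_lit 22) (nat_lit 4) (nat_lit 414) (nat_lit 394) (nat_lit 212)) (XT.lf (nat_lit 0) (nat_lit 3517365177021) (nat_lit 152) (nat_lit 9928582192496) (nat_lit 76) (nat_lit 31429711723238) (nat_lit 20) (nat_lit 5) (nat_lit 22) (nat_lit 5) (nat_lit 21) (nat_lit 4) (nat_lit 415) (nat_lit 394) (nat_lit 211))) (XT.nd (nat_lit 78) (nat_lit 0) (nat_lit 0) (XT.lf (nat_lit 0) (nat_lit 17040006755357) (nat_lit 152) (nat_lit 30443641533225) (nat_lit 0) (nat_lit 1830513430914) (nat_lit 19) (nat_lit 5) (nat_lit 21) (nat_lit 4) (nat_lit 19) (nat_lit 4) (nat_lit 416) (nat_lit 394) (nat_lit 210)) (XT.lf (nat_lit 0) (nat_lit 33775035850931) (nat_lit 152) (nat_lit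 1900262670771) (nat_lit 0) (nat_lit 18565542526475) (nat_lit 19) (nat_lit 5) (nat_lit 21) (nat_lit 4) (nat_lit 19) (nat_lit 4) (nat_lit 417) (nat_lit 394) (nat_lit 209))))))) (XT.nd (nat_lit 1014) (nat_lit 228) (nat_lit 0) (XT.nd (nat_lit 468) (nat_lit 304) (nat_lit 0) (XT.nd (nat_lit 234) (nat_lit 228) (nat_lit 0) (XT.nd (nat_lit 78) (nat_lit 152) (nat_lit 0) (XT.lf (nat_lit 0) (nat_lit 33946802088958) (nat_lit 76) (nat_lit 20479181904628) (nat_lit 76) (nat_lit 5269688580160) (nat_lit 18) (nat_lit 4) (nat_lit 19) (nat_lit 5) (nat_lit 19) (nat_lit 4) (nat_lit 418) (nat_lit 394) (nat_lit 208)) (XT.nd (nat_lit 78) (nat_lit 0) (nat_lit 0) (XT.lf (nat_lit 0) (nat_lit 9792290414940) (nat_lit 76) (nat_lit 1836446208044) (nat_lit 152) (nat_lit 54187748519914) (nat_lit 16) (nat_lit 5) (nat_lit 17) (nat_lit 5) (nat_lit 18) (nat_lit 4) (nat_lit 419) (nat_lit 394) (nat_lit 207)) (XT.lf (nat_lit 0)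 (nat_lit 32744173061844) (nat_lit 152) (nat_lit 20221814731515) (nat_lit 0) (nat_lit 19518526692725) (nat_lit 16) (nat_lit 5) (nat_lit 18) (nat_lit 4) (nat_lit 16) (nat_lit 4) (nat_lit 420) (nat_lit 394) (nat_lit 206)))) (XT.nd (nat_lit 78) (nat_lit 152) (nat_lit 0) (XT.lf (nat_lit 0) (nat_lit 22902402706580) (nat_lit 76) (nat_lit 35160311735947) (nat_lit 76) (nat_lit 21934665366821) (nat_lit 15) (nat_lit 4) (nat_lit 16) (nat_lit 5) (nat_lit 16) (nat_lit 4) (nat_lit 421) (nat_lit 394) (nat_lit 205)) (XT.nd (nat_lit 78) (nat_lit 152) (nat_lit 0) (XT.lf (nat_lit 0) (nat_lit 74767908984147) (nat_lit 76) (nat_lit 13468177452563) (nat_lit 76) (nat_lit 242531083431) (nat_lit 15) (nat_lit 4) (nat_lit 16) (nat_lit 5) (nat_lit 16) (nat_lit 4) (nat_lit 422) (nat_lit 394) (nat_lit 204)) (XT.lf (nat_lit 0) (nat_lit 24702338338310) (nat_lit 152) (nat_lit 59844761173670) (nat_lit 0) (nat_lit 13201776278191)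 (nat_lit 13) (nat_lit 5) (nat_lit 15) (nat_lit 4) (nat_lit 13) (nat_lit 4) (nat_lit 423) (nat_lit 394) (nat_lit 203))))) (XT.nd (nat_lit 234) (nat_lit 152) (nat_lit 0) (XT.nd (nat_lit 78) (nat_lit 152) (nat_lit 0) (XT.lf (nat_lit 0) (nat_lit 54756273908511) (nat_lit 152) (nat_lit 10187129734150) (nat_lit 0) (nat_lit 43255711848389) (nat_lit 13) (nat_lit 5) (nat_lit 15) (nat_lit 4) (nat_lit 13) (nat_lit 4) (nat_lit 424) (nat_lit 394) (nat_lit 202)) (XT.nd (nat_lit 78) (nat_lit 76) (nat_lit 0) (XT.lf (nat_lit 0) (nat_lit 51504426639701) (nat_lit 76) (nat_lit 39946561648217) (nat_lit 76) (nat_lit 28445999588091) (nat_lit 12) (nat_lit 4) (nat_lit 13) (nat_lit 5) (nat_lit 13) (nat_lit 4) (nat_lit 425) (nat_lit 394) (nat_lit 201)) (XT.lf (nat_lit 0) (nat_lit 831494434556) (nat_lit 152) (nat_lit 9712849025832) (nat_lit 76) (nat_lit 122719652019948) (nat_lit 11) (nat_lit 5) (nat_lit 13) (nat_lit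 5) (nat_lit 12) (nat_lit 4) (nat_lit 426) (nat_lit 394) (nat_lit 200)))) (XT.nd (nat_lit 156) (nat_lit 76) (nat_lit 0) (XT.nd (nat_lit 78) (nat_lit 0) (nat_lit 0) (XT.lf (nat_lit 0) (nat_lit 35302667073739) (nat_lit 152) (nat_lit 87270865658072) (nat_lit 0) (nat_lit 25302178325798) (nat_lit 10) (nat_lit 5) (nat_lit 12) (nat_lit 4) (nat_lit 10) (nat_lit 4) (nat_lit 427) (nat_lit 394) (nat_lit 199)) (XT.lf (nat_lit 0) (nat_lit 75978521315455) (nat_lit 152) (nat_lit 22567529232507) (nat_lit 0) (nat_lit 65978032567513) (nat_lit 10) (nat_lit 5) (nat_lit 12) (nat_lit 4) (nat_lit 10) (nat_lit 4) (nat_lit 428) (nat_lit 394) (nat_lit 198))) (XT.nd (nat_lit 78) (nat_lit 0) (nat_lit 0) (XT.lf (nat_lit 0) (nat_lit 56907617268785) (nat_lit 76) (nat_lit 68204559499943) (nat_lit 76) (nat_lit 58204070751998) (nat_lit 9) (nat_lit 4) (nat_lit 10) (nat_lit 5) (nat_lit 10) (nat_lit 4) (nat_lit 429) (nat_lit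 394) (nat_lit 197)) (XT.lf (nat_lit 0) (nat_lit 150840318291945) (nat_lit 76) (nat_lit 31955228548824) (nat_lit 76) (nat_lit 21954739800879) (nat_lit 9) (nat_lit 4) (nat_lit 10) (nat_lit 5) (nat_lit 10) (nat_lit 4) (nat_lit 430) (nat_lit 394) (nat_lit 196)))))) (XT.nd (nat_lit 50466) (nat_lit 0) (nat_lit 2052) (XT.nd (nat_lit 234) (nat_lit 76) (nat_lit 0) (XT.nd (nat_lit 78) (nat_lit 0) (nat_lit 0) (XT.lf (nat_lit 0) (nat_lit 19781296739220) (nat_lit 152) (nat_lit 198139458743024) (nat_lit 0) (nat_lit 11085219567092) (nat_lit 7) (nat_lit 5) (nat_lit 9) (nat_lit 4) (nat_lit 7) (nat_lit 4) (nat_lit 431) (nat_lit 394) (nat_lit 195)) (XT.nd (nat_lit 78) (nat_lit 0) (nat_lit 0) (XT.lf (nat_lit 0) (nat_lit 70003881692661) (nat_lit 152) (nat_lit 124760427419613) (nat_lit 0) (nat_lit 61307804520532) (nat_lit 7) (nat_lit 5) (nat_lit 9) (nat_lit 4) (nat_lit 7) (nat_lit 4) (nat_lit 432) (nat_lit 394)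 (nat_lit 194)) (XT.lf (nat_lit 0) (nat_lit 127759854389108) (nat_lit 152) (nat_lit 40374541397712) (nat_lit 0) (nat_lit 119063777216979) (nat_lit 7) (nat_lit 5) (nat_lit 9) (nat_lit 4) (nat_lit 7) (nat_lit 4) (nat_lit 433) (nat_lit 394) (nat_lit 193)))) (XT.nd (nat_lit 50076) (nat_lit 0) (nat_lit 2356) (XT.lf (nat_lit 0) (nat_lit 62207356581273) (nat_lit 76) (nat_lit 134547740387261) (nat_lit 76) (nat_lit 125851663215131) (nat_lit 6) (nat_lit 4) (nat_lit 7) (nat_lit 5) (nat_lit 7) (nat_lit 4) (nat_lit 434) (nat_lit 394) (nat_lit 192)) (XT.nd (nat_lit 78) (nat_lit 0) (nat_lit 0) (XT.lf (nat_lit 0) (nat_lit 1273263846775) (nat_lit 380) (nat_lit 1571485481449) (nat_lit 380) (nat_lit 1571485481449) (nat_lit 37) (nat_lit 3) (nat_lit 42) (nat_lit 3) (nat_lit 42) (nat_lit 5) (nat_lit 395) (nat_lit 395) (nat_lit 230)) (XT.lf (nat_lit 76) (nat_lit 1356925346080) (nat_lit 0) (nat_lit 1436779310193)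 (nat_lit 380) (nat_lit 6692772076668) (nat_lit 38) (nat_lit 5) (nat_lit 37) (nat_lit 3) (nat_lit 42) (nat_lit 5) (nat_lit 396) (nat_lit 395) (nat_lit 229))))) (XT.nd (nat_lit 234) (nat_lit 380) (nat_lit 0) (XT.nd (nat_lit 78) (nat_lit 0) (nat_lit 0) (XT.lf (nat_lit 0) (nat_lit 3393089717569) (nat_lit 304) (nat_lit 3479747875483) (nat_lit 380) (nat_lit 3318477587397) (nat_lit 38) (nat_lit 5) (nat_lit 42) (nat_lit 5) (nat_lit 43) (nat_lit 5) (nat_lit 397) (nat_lit 395) (nat_lit 228)) (XT.nd (nat_lit 78) (nat_lit 0) (nat_lit 76) (XT.lf (nat_lit 76) (nat_lit 1974930028080) (nat_lit 0) (nat_lit 2257648213163) (nat_lit 380) (nat_lit 6746771798365) (nat_lit 39) (nat_lit 5) (nat_lit 38) (nat_lit 5) (nat_lit 43) (nat_lit 5) (nat_lit 398) (nat_lit 395) (nat_lit 227)) (XT.lf (nat_lit 0) (nat_lit 5514834189903) (nat_lit 304) (nat_lit 3354368148595) (nat_lit 76) (nat_lit 2968861167177) (nat_lit 39)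 (nat_lit 5) (nat_lit 43) (nat_lit 5) (nat_lit 40) (nat_lit 5) (nat_lit 399) (nat_lit 395) (nat_lit 226)))) (XT.nd (nat_lit 156) (nat_lit 152) (nat_lit 0) (XT.nd (nat_lit 78) (nat_lit 0) (nat_lit 0) (XT.lf (nat_lit 0) (nat_lit 3332353596696) (nat_lit 304) (nat_lit 3902567648019) (nat_lit 380) (nat_lit 5553838839858) (nat_lit 35) (nat_lit 5) (nat_lit 39) (nat_lit 5) (nat_lit 40) (nat_lit 5) (nat_lit 400) (nat_lit 395) (nat_lit 225)) (XT.lf (nat_lit 0) (nat_lit 9471622356527) (nat_lit 380) (nat_lit 2539950039859) (nat_lit 76) (nat_lit 1831698604104) (nat_lit 35) (nat_lit 5) (nat_lit 40) (nat_lit 5) (nat_lit 36) (nat_lit 5) (nat_lit 401) (nat_lit 395) (nat_lit 224))) (XT.nd (nat_lit 78) (nat_lit 0) (nat_lit 0) (XT.lf (nat_lit 0) (nat_lit 5739070020117) (nat_lit 152) (nat_lit 6728237820522) (nat_lit 228) (nat_lit 2525128832327) (nat_lit 33) (nat_lit 5) (nat_lit 35) (nat_lit 5) (nat_lit 36) (nat_lit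 5) (nat_lit 402) (nat_lit 395) (nat_lit 223)) (XT.lf (nat_lit 0) (nat_lit 15545398837802) (nat_lit 152) (nat_lit 499717425217) (nat_lit 228) (nat_lit 248945415945) (nat_lit 33) (nat_lit 5) (nat_lit 35) (nat_lit 5) (nat_lit 36) (nat_lit 5) (nat_lit 403) (nat_lit 395) (nat_lit 222))))))))
noncomputable def xc119 : XT := (XT.nd (nat_lit 2028) (nat_lit 228) (nat_lit 0) (XT.nd (nat_lit 1014) (nat_lit 760) (nat_lit 0) (XT.nd (nat_lit 468) (nat_lit 456) (nat_lit 0) (XT.nd (nat_lit 234) (nat_lit 228) (nat_lit 0) (XT.nd (nat_lit 78) (nat_lit 152) (nat_lit 0) (XT.lf (nat_lit 0) (nat_lit 2863777674328) (nat_lit 152) (nat_lit 8208490445093) (nat_lit 76) (nat_lit 6598052036540) (nat_lit 31) (nat_lit 5) (nat_lit 33) (nat_lit 5) (nat_lit 32) (nat_lit 5) (nat_lit 404) (nat_lit 395) (nat_lit 221)) (XT.nd (nat_lit 78) (nat_lit 0) (nat_lit 0) (XT.lf (nat_lit 0) (nat_lit 2199158569841) (nat_lit 152) (nat_lit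 4374620127201) (nat_lit 228) (nat_lit 12654082015270) (nat_lit 29) (nat_lit 5) (nat_lit 31) (nat_lit 5) (nat_lit 32) (nat_lit 5) (nat_lit 405) (nat_lit 395) (nat_lit 220)) (XT.lf (nat_lit 0) (nat_lit 11427584373213) (nat_lit 228) (nat_lit 6022417313514) (nat_lit 76) (nat_lit 3480934990383) (nat_lit 29) (nat_lit 5) (nat_lit 32) (nat_lit 5) (nat_lit 30) (nat_lit 4) (nat_lit 406) (nat_lit 395) (nat_lit 219)))) (XT.nd (nat_lit 78) (nat_lit 152) (nat_lit 0) (XT.lf (nat_lit 0) (nat_lit 7054538824669) (nat_lit 76) (nat_lit 10455350729133) (nat_lit 152) (nat_lit 5304520184877) (nat_lit 28) (nat_lit 5) (nat_lit 29) (nat_lit 5) (nat_lit 30) (nat_lit 4) (nat_lit 407) (nat_lit 395) (nat_lit 218)) (XT.nd (nat_lit 78) (nat_lit 152) (nat_lit 0) (XT.lf (nat_lit 0) (nat_lit 22769875965674) (nat_lit 76) (nat_lit 2049472723513) (nat_lit 152) (nat_lit 113833843640) (nat_lit 28) (nat_lit 5) (nat_lit 29) (nat_lit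 5) (nat_lit 30) (nat_lit 4) (nat_lit 408) (nat_lit 395) (nat_lit 217)) (XT.lf (nat_lit 0) (nat_lit 6291137087021) (nat_lit 152) (nat_lit 13075554146505) (nat_lit 76) (nat_lit 7823164508054) (nat_lit 26) (nat_lit 5) (nat_lit 28) (nat_lit 5) (nat_lit 27) (nat_lit 4) (nat_lit 409) (nat_lit 395) (nat_lit 216))))) (XT.nd (nat_lit 234) (nat_lit 304) (nat_lit 0) (XT.nd (nat_lit 78) (nat_lit 76) (nat_lit 0) (XT.lf (nat_lit 0) (nat_lit 3512957846081) (nat_lit 76) (nat_lit 10493766214258) (nat_lit 152) (nat_lit 15723264049367) (nat_lit 25) (nat_lit 5) (nat_lit 26) (nat_lit 5) (nat_lit 27) (nat_lit 4) (nat_lit 410) (nat_lit 395) (nat_lit 215)) (XT.nd (nat_lit 78) (nat_lit 76) (nat_lit 0) (XT.lf (nat_lit 0) (nat_lit 23583687088588) (nat_lit 152) (nat_lit 8509898614265) (nat_lit 0) (nat_lit 451948928858) (nat_lit 25) (nat_lit 5) (nat_lit 27) (nat_lit 4) (nat_lit 25) (nat_lit 4) (nat_lit 411) (nat_lit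 395) (nat_lit 214)) (XT.lf (nat_lit 0) (nat_lit 12463155956795) (nat_lit 76) (nat_lit 23149814477732) (nat_lit 76) (nat_lit 18076317971) (nat_lit 24) (nat_lit 4) (nat_lit 25) (nat_lit 5) (nat_lit 25) (nat_lit 4) (nat_lit 412) (nat_lit 395) (nat_lit 213)))) (XT.nd (nat_lit 156) (nat_lit 152) (nat_lit 0) (XT.nd (nat_lit 78) (nat_lit 76) (nat_lit 0) (XT.lf (nat_lit 0) (nat_lit 9819216311285) (nat_lit 152) (nat_lit 2020423090524) (nat_lit 76) (nat_lit 27206071746069) (nat_lit 23) (nat_lit 5) (nat_lit 25) (nat_lit 5) (nat_lit 24) (nat_lit 4) (nat_lit 413) (nat_lit 395) (nat_lit 212)) (XT.lf (nat_lit 0) (nat_lit 22240442699301) (nat_lit 152) (nat_lit 18439587028731) (nat_lit 0) (nat_lit 2125887777725) (nat_lit 22) (nat_lit 5) (nat_lit 24) (nat_lit 4) (nat_lit 22) (nat_lit 4) (nat_lit 414) (nat_lit 395) (nat_lit 211))) (XT.nd (nat_lit 78) (nat_lit 76) (nat_lit 0) (XT.lf (nat_lit 0) (nat_lit 7964045037656)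 (nat_lit 76) (nat_lit 29565016698806) (nat_lit 76) (nat_lit 9450461777213) (nat_lit 21) (nat_lit 4) (nat_lit 22) (nat_lit 5) (nat_lit 22) (nat_lit 4) (nat_lit 415) (nat_lit 395) (nat_lit 210)) (XT.lf (nat_lit 0) (nat_lit 4044969953871) (nat_lit 152) (nat_lit 11417869520784) (nat_lit 76) (nat_lit 36144168481968) (nat_lit 20) (nat_lit 5) (nat_lit 22) (nat_lit 5) (nat_lit 21) (nat_lit 4) (nat_lit 416) (nat_lit 395) (nat_lit 209)))))) (XT.nd (nat_lit 468) (nat_lit 380) (nat_lit 0) (XT.nd (nat_lit 234) (nat_lit 228) (nat_lit 0) (XT.nd (nat_lit 78) (nat_lit 76) (nat_lit 0) (XT.lf (nat_lit 0) (nat_lit 19596007768954) (nat_lit 152) (nat_lit 35010187762619) (nat_lit 0) (nat_lit 2105090445804) (nat_lit 19) (nat_lit 5) (nat_lit 21) (nat_lit 4) (nat_lit 19) (nat_lit 4) (nat_lit 417) (nat_lit 395) (nat_lit 208)) (XT.nd (nat_lit 78) (nat_lit 76) (nat_lit 0) (XT.lf (nat_lit 0) (nat_lit 38841291228826)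 (nat_lit 152) (nat_lit 2185302070873) (nat_lit 0) (nat_lit 21350373905666) (nat_lit 19) (nat_lit 5) (nat_lit 21) (nat_lit 4) (nat_lit 19) (nat_lit 4) (nat_lit 418) (nat_lit 395) (nat_lit 207)) (XT.lf (nat_lit 0) (nat_lit 39038822402791) (nat_lit 76) (nat_lit 23551059190075) (nat_lit 76) (nat_lit 6060141866906) (nat_lit 18) (nat_lit 4) (nat_lit 19) (nat_lit 5) (nat_lit 19) (nat_lit 4) (nat_lit 419) (nat_lit 395) (nat_lit 206)))) (XT.nd (nat_lit 78) (nat_lit 76) (nat_lit 0) (XT.lf (nat_lit 0) (nat_lit 11261133977672) (nat_lit 76) (nat_lit 2111913139001) (nat_lit 152) (nat_lit 62315910797624) (nat_lit 16) (nat_lit 5) (nat_lit 17) (nat_lit 5) (nat_lit 18) (nat_lit 4) (nat_lit 420) (nat_lit 395) (nat_lit 205)) (XT.nd (nat_lit 78) (nat_lit 76) (nat_lit 0) (XT.lf (nat_lit 0) (nat_lit 37655799021339) (nat_lit 152) (nat_lit 23255086940792) (nat_lit 0) (nat_lit 22446305696832) (nat_lit 16) (nat_lit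 5) (nat_lit 18) (nat_lit 4) (nat_lit 16) (nat_lit 4) (nat_lit 421) (nat_lit 395) (nat_lit 204)) (XT.lf (nat_lit 0) (nat_lit 26337763112996) (nat_lit 76) (nat_lit 40434358496117) (nat_lit 76) (nat_lit 25224865171605) (nat_lit 15) (nat_lit 4) (nat_lit 16) (nat_lit 5) (nat_lit 16) (nat_lit 4) (nat_lit 422) (nat_lit 395) (nat_lit 203))))) (XT.nd (nat_lit 234) (nat_lit 228) (nat_lit 0) (XT.nd (nat_lit 78) (nat_lit 152) (nat_lit 0) (XT.lf (nat_lit 0) (nat_lit 85983095332142) (nat_lit 76) (nat_lit 15488404070255) (nat_lit 76) (nat_lit 278910745738) (nat_lit 15) (nat_lit 4) (nat_lit 16) (nat_lit 5) (nat_lit 16) (nat_lit 4) (nat_lit 423) (nat_lit 395) (nat_lit 202)) (XT.nd (nat_lit 78) (nat_lit 0) (nat_lit 0) (XT.lf (nat_lit 0) (nat_lit 28407689089245) (nat_lit 152) (nat_lit 68821475349328) (nat_lit 0) (nat_lit 15182042720096) (nat_lit 13) (nat_lit 5) (nat_lit 15) (nat_lit 4) (nat_lit 13) (nat_lit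 4) (nat_lit 424) (nat_lit 395) (nat_lit 201)) (XT.lf (nat_lit 0) (nat_lit 62969714994951) (nat_lit 152) (nat_lit 11715199193932) (nat_lit 0) (nat_lit 49744068625800) (nat_lit 13) (nat_lit 5) (nat_lit 15) (nat_lit 4) (nat_lit 13) (nat_lit 4) (nat_lit 425) (nat_lit 395) (nat_lit 200)))) (XT.nd (nat_lit 156) (nat_lit 76) (nat_lit 0) (XT.nd (nat_lit 78) (nat_lit 76) (nat_lit 0) (XT.lf (nat_lit 0) (nat_lit 59230090635983) (nat_lit 76) (nat_lit 45938545895279) (nat_lit 76) (nat_lit 32712899526125) (nat_lit 12) (nat_lit 4) (nat_lit 13) (nat_lit 5) (nat_lit 13) (nat_lit 4) (nat_lit 426) (nat_lit 395) (nat_lit 199)) (XT.lf (nat_lit 0) (nat_lit 956218599881) (nat_lit 152) (nat_lit 11169776379409) (nat_lit 76) (nat_lit 141127599823075) (nat_lit 11) (nat_lit 5) (nat_lit 13) (nat_lit 5) (nat_lit 12) (nat_lit 4) (nat_lit 427) (nat_lit 395) (nat_lit 198))) (XT.nd (nat_lit 78) (nat_lit 0) (nat_lit 0) (XT.lf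 (nat_lit 0) (nat_lit 40598067134941) (nat_lit 152) (nat_lit 100361495506485) (nat_lit 0) (nat_lit 29097505074804) (nat_lit 10) (nat_lit 5) (nat_lit 12) (nat_lit 4) (nat_lit 10) (nat_lit 4) (nat_lit 428) (nat_lit 395) (nat_lit 197)) (XT.lf (nat_lit 0) (nat_lit 87375299512897) (nat_lit 152) (nat_lit 25952658617124) (nat_lit 0) (nat_lit 75874737452758) (nat_lit 10) (nat_lit 5) (nat_lit 12) (nat_lit 4) (nat_lit 10) (nat_lit 4) (nat_lit 429) (nat_lit 395) (nat_lit 196))))))) (XT.nd (nat_lit 51168) (nat_lit 0) (nat_lit 988) (XT.nd (nat_lit 50622) (nat_lit 0) (nat_lit 1976) (XT.nd (nat_lit 234) (nat_lit 0) (nat_lit 0) (XT.nd (nat_lit 78) (nat_lit 152) (nat_lit 0) (XT.lf (nat_lit 0) (nat_lit 65443759859351) (nat_lit 76) (nat_lit 78435243424804) (nat_lit 76) (nat_lit 66934681364664) (nat_lit 9) (nat_lit 4) (nat_lit 10) (nat_lit 5) (nat_lit 10) (nat_lit 4) (nat_lit 430) (nat_lit 395) (nat_lit 195))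 (XT.nd (nat_lit 78) (nat_lit 152) (nat_lit 0) (XT.lf (nat_lit 0) (nat_lit 173466366035951) (nat_lit 76) (nat_lit 36748512831035) (nat_lit 76) (nat_lit 25247950770894) (nat_lit 9) (nat_lit 4) (nat_lit 10) (nat_lit 5) (nat_lit 10) (nat_lit 4) (nat_lit 431) (nat_lit 395) (nat_lit 194)) (XT.lf (nat_lit 0) (nat_lit 22748491250209) (nat_lit 152) (nat_lit 227860377554251) (nat_lit 0) (nat_lit 12748002502260) (nat_lit 7) (nat_lit 5) (nat_lit 9) (nat_lit 4) (nat_lit 7) (nat_lit 4) (nat_lit 432) (nat_lit 395) (nat_lit 193)))) (XT.nd (nat_lit 50232) (nat_lit 0) (nat_lit 2280) (XT.lf (nat_lit 0) (nat_lit 80504463946653) (nat_lit 152) (nat_lit 143474491532358) (nat_lit 0) (nat_lit 70503975198703) (nat_lit 7) (nat_lit 5) (nat_lit 9) (nat_lit 4) (nat_lit 7) (nat_lit 4) (nat_lit 433) (nat_lit 395) (nat_lit 192)) (XT.nd (nat_lit 78) (nat_lit 0) (nat_lit 0) (XT.lf (nat_lit 0) (nat_lit 1464253424535) (nat_lit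 380) (nat_lit 1807208303238) (nat_lit 380) (nat_lit 1807208303238) (nat_lit 37) (nat_lit 3) (nat_lit 42) (nat_lit 3) (nat_lit 42) (nat_lit 5) (nat_lit 396) (nat_lit 396) (nat_lit 228)) (XT.lf (nat_lit 76) (nat_lit 1560464148810) (nat_lit 0) (nat_lit 1652296207232) (nat_lit 380) (nat_lit 7696687886640) (nat_lit 38) (nat_lit 5) (nat_lit 37) (nat_lit 3) (nat_lit 42) (nat_lit 5) (nat_lit 397) (nat_lit 396) (nat_lit 227))))) (XT.nd (nat_lit 234) (nat_lit 380) (nat_lit 0) (XT.nd (nat_lit 78) (nat_lit 0) (nat_lit 0) (XT.lf (nat_lit 0) (nat_lit 3902053176342) (nat_lit 304) (nat_lit 4001710055902) (nat_lit 380) (nat_lit 3816249225102) (nat_lit 38) (nat_lit 5) (nat_lit 42) (nat_lit 5) (nat_lit 43) (nat_lit 5) (nat_lit 398) (nat_lit 396) (nat_lit 226)) (XT.nd (nat_lit 78) (nat_lit 0) (nat_lit 76) (XT.lf (nat_lit 76) (nat_lit 2271169533154) (nat_lit 0) (nat_lit 2596295445300) (nat_lit 380) (nat_lit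 7758787566942) (nat_lit 39) (nat_lit 5) (nat_lit 38) (nat_lit 5) (nat_lit 43) (nat_lit 5) (nat_lit 399) (nat_lit 396) (nat_lit 225)) (XT.lf (nat_lit 0) (nat_lit 6342059319274) (nat_lit 304) (nat_lit 3857523369994) (nat_lit 76) (nat_lit 3414190342125) (nat_lit 39) (nat_lit 5) (nat_lit 43) (nat_lit 5) (nat_lit 40) (nat_lit 5) (nat_lit 400) (nat_lit 396) (nat_lit 224)))) (XT.nd (nat_lit 156) (nat_lit 152) (nat_lit 0) (XT.nd (nat_lit 78) (nat_lit 0) (nat_lit 0) (XT.lf (nat_lit 0) (nat_lit 3832206637050) (nat_lit 304) (nat_lit 4487952795177) (nat_lit 380) (nat_lit 6386914664911) (nat_lit 35) (nat_lit 5) (nat_lit 39) (nat_lit 5) (nat_lit 40) (nat_lit 5) (nat_lit 401) (nat_lit 396) (nat_lit 223)) (XT.lf (nat_lit 0) (nat_lit 10892365710707) (nat_lit 380) (nat_lit 2920942544996) (nat_lit 76) (nat_lit 2106453394755) (nat_lit 35) (nat_lit 5) (nat_lit 40) (nat_lit 5) (nat_lit 36) (nat_lit 5) (nat_lit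 402) (nat_lit 396) (nat_lit 222))) (XT.nd (nat_lit 78) (nat_lit 0) (nat_lit 0) (XT.lf (nat_lit 0) (nat_lit 6599930523938) (nat_lit 152) (nat_lit 7737473493440) (nat_lit 228) (nat_lit 2903898156436) (nat_lit 33) (nat_lit 5) (nat_lit 35) (nat_lit 5) (nat_lit 36) (nat_lit 5) (nat_lit 403) (nat_lit 396) (nat_lit 221)) (XT.lf (nat_lit 0) (nat_lit 17877208664171) (nat_lit 152) (nat_lit 574675038860) (nat_lit 228) (nat_lit 286287227694) (nat_lit 33) (nat_lit 5) (nat_lit 35) (nat_lit 5) (nat_lit 36) (nat_lit 5) (nat_lit 404) (nat_lit 396) (nat_lit 220)))))) (XT.nd (nat_lit 468) (nat_lit 456) (nat_lit 0) (XT.nd (nat_lit 234) (nat_lit 228) (nat_lit 0) (XT.nd (nat_lit 78) (nat_lit 152) (nat_lit 0) (XT.lf (nat_lit 0) (nat_lit 3293344326024) (nat_lit 152) (nat_lit 9439764011062) (nat_lit 76) (nat_lit 7587759842187) (nat_lit 31) (nat_lit 5) (nat_lit 33) (nat_lit 5) (nat_lit 32) (nat_lit 5) (nat_lit 405)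 (nat_lit 396) (nat_lit 219)) (XT.nd (nat_lit 78) (nat_lit 0) (nat_lit 0) (XT.lf (nat_lit 0) (nat_lit 2529032356076) (nat_lit 152) (nat_lit 5030813146030) (nat_lit 228) (nat_lit 14552194316978) (nat_lit 29) (nat_lit 5) (nat_lit 31) (nat_lit 5) (nat_lit 32) (nat_lit 5) (nat_lit 406) (nat_lit 396) (nat_lit 218)) (XT.lf (nat_lit 0) (nat_lit 13141722029645) (nat_lit 228) (nat_lit 6925779909824) (nat_lit 76) (nat_lit 4003075239140) (nat_lit 29) (nat_lit 5) (nat_lit 32) (nat_lit 5) (nat_lit 30) (nat_lit 4) (nat_lit 407) (nat_lit 396) (nat_lit 217)))) (XT.nd (nat_lit 78) (nat_lit 152) (nat_lit 0) (XT.lf (nat_lit 0) (nat_lit 8112719649054) (nat_lit 76) (nat_lit 12023653338238) (nat_lit 152) (nat_lit 6100198212126) (nat_lit 28) (nat_lit 5) (nat_lit 29) (nat_lit 5) (nat_lit 30) (nat_lit 4) (nat_lit 408) (nat_lit 396) (nat_lit 216)) (XT.nd (nat_lit 78) (nat_lit 152) (nat_lit 0) (XT.lf (nat_lit 0) (nat_lit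 26185357361121) (nat_lit 76) (nat_lit 2356893631809) (nat_lit 152) (nat_lit 130908919766) (nat_lit 28) (nat_lit 5) (nat_lit 29) (nat_lit 5) (nat_lit 30) (nat_lit 4) (nat_lit 409) (nat_lit 396) (nat_lit 215)) (XT.lf (nat_lit 0) (nat_lit 7234807650442) (nat_lit 152) (nat_lit 15036887267833) (nat_lit 76) (nat_lit 8996639184487) (nat_lit 26) (nat_lit 5) (nat_lit 28) (nat_lit 5) (nat_lit 27) (nat_lit 4) (nat_lit 410) (nat_lit 396) (nat_lit 214))))) (XT.nd (nat_lit 234) (nat_lit 304) (nat_lit 0) (XT.nd (nat_lit 78) (nat_lit 76) (nat_lit 0) (XT.lf (nat_lit 0) (nat_lit 4039901523611) (nat_lit 76) (nat_lit 12067831146124) (nat_lit 152) (nat_lit 18081753656375) (nat_lit 25) (nat_lit 5) (nat_lit 26) (nat_lit 5) (nat_lit 27) (nat_lit 4) (nat_lit 411) (nat_lit 396) (nat_lit 213)) (XT.nd (nat_lit 78) (nat_lit 76) (nat_lit 0) (XT.lf (nat_lit 0) (nat_lit 27121240152187) (nat_lit 152) (nat_lit 9786383405832)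 (nat_lit 0) (nat_lit 519741268402) (nat_lit 25) (nat_lit 5) (nat_lit 27) (nat_lit 4) (nat_lit 25) (nat_lit 4) (nat_lit 412) (nat_lit 396) (nat_lit 212)) (XT.lf (nat_lit 0) (nat_lit 14332629350861) (nat_lit 76) (nat_lit 26622286649138) (nat_lit 76) (nat_lit 20787765330) (nat_lit 24) (nat_lit 4) (nat_lit 25) (nat_lit 5) (nat_lit 25) (nat_lit 4) (nat_lit 413) (nat_lit 396) (nat_lit 211)))) (XT.nd (nat_lit 156) (nat_lit 152) (nat_lit 0) (XT.nd (nat_lit 78) (nat_lit 76) (nat_lit 0) (XT.lf (nat_lit 0) (nat_lit 11292098758244) (nat_lit 152) (nat_lit 2323486553601) (nat_lit 76) (nat_lit 31286982508175) (nat_lit 23) (nat_lit 5) (nat_lit 25) (nat_lit 5) (nat_lit 24) (nat_lit 4) (nat_lit 414) (nat_lit 396) (nat_lit 210)) (XT.lf (nat_lit 0) (nat_lit 25576509104457) (nat_lit 152) (nat_lit 21205525082533) (nat_lit 0) (nat_lit 2444770944591) (nat_lit 22) (nat_lit 5) (nat_lit 24) (nat_lit 4) (nat_lit 22)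 (nat_lit 4) (nat_lit 415) (nat_lit 396) (nat_lit 209))) (XT.nd (nat_lit 78) (nat_lit 76) (nat_lit 0) (XT.lf (nat_lit 0) (nat_lit 9158651793788) (nat_lit 76) (nat_lit 33999769203390) (nat_lit 76) (nat_lit 10868031043511) (nat_lit 21) (nat_lit 4) (nat_lit 22) (nat_lit 5) (nat_lit 22) (nat_lit 4) (nat_lit 416) (nat_lit 396) (nat_lit 208)) (XT.lf (nat_lit 0) (nat_lit 4651715447177) (nat_lit 152) (nat_lit 13130549948459) (nat_lit 76) (nat_lit 41565793754447) (nat_lit 20) (nat_lit 5) (nat_lit 22) (nat_lit 5) (nat_lit 21) (nat_lit 4) (nat_lit 417) (nat_lit 396) (nat_lit 207))))))))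
noncomputable def xc120 : XT := (XT.nd (nat_lit 52338) (nat_lit 0) (nat_lit 304) (XT.nd (nat_lit 1014) (nat_lit 76) (nat_lit 0) (XT.nd (nat_lit 468) (nat_lit 380) (nat_lit 0) (XT.nd (nat_lit 234) (nat_lit 228) (nat_lit 0) (XT.nd (nat_lit 78) (nat_lit 76) (nat_lit 0) (XT.lf (nat_lit 0) (nat_lit 22535408934519) (nat_lit 152) (nat_lit 40261715926566) (nat_lit 0) (nat_lit 2420854012866) (nat_lit 19) (nat_lit 5) (nat_lit 21) (nat_lit 4) (nat_lit 19) (nat_lit 4) (nat_lit 418) (nat_lit 396) (nat_lit 206)) (XT.nd (nat_lit 78) (nat_lit 76) (nat_lit 0) (XT.lf (nat_lit 0) (nat_lit 44667484913343) (nat_lit 152) (nat_lit 2513097381116) (nat_lit 0) (nat_lit 24552929991682) (nat_lit 19) (nat_lit 5) (nat_lit 21) (nat_lit 4) (nat_lit 19) (nat_lit 4) (nat_lit 419) (nat_lit 396) (nat_lit 205)) (XT.lf (nat_lit 0) (nat_lit 44894645763580) (nat_lit 76) (nat_lit 27083718068400) (nat_lit 76) (nat_lit 6969163146732)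 (nat_lit 18) (nat_lit 4) (nat_lit 19) (nat_lit 5) (nat_lit 19) (nat_lit 4) (nat_lit 420) (nat_lit 396) (nat_lit 204)))) (XT.nd (nat_lit 78) (nat_lit 76) (nat_lit 0) (XT.lf (nat_lit 0) (nat_lit 12950304074694) (nat_lit 76) (nat_lit 2428700109662) (nat_lit 152) (nat_lit 71663297417059) (nat_lit 16) (nat_lit 5) (nat_lit 17) (nat_lit 5) (nat_lit 18) (nat_lit 4) (nat_lit 421) (nat_lit 396) (nat_lit 203)) (XT.nd (nat_lit 78) (nat_lit 76) (nat_lit 0) (XT.lf (nat_lit 0) (nat_lit 43304168874706) (nat_lit 152) (nat_lit 26743349981571) (nat_lit 0) (nat_lit 25813251551507) (nat_lit 16) (nat_lit 5) (nat_lit 18) (nat_lit 4) (nat_lit 16) (nat_lit 4) (nat_lit 422) (nat_lit 396) (nat_lit 202)) (XT.lf (nat_lit 0) (nat_lit 30288427580269) (nat_lit 76) (nat_lit 46499512270368) (nat_lit 76) (nat_lit 29008594947165) (nat_lit 15) (nat_lit 4) (nat_lit 16) (nat_lit 5) (nat_lit 16) (nat_lit 4) (nat_lit 423) (nat_lit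 396) (nat_lit 201))))) (XT.nd (nat_lit 234) (nat_lit 228) (nat_lit 0) (XT.nd (nat_lit 78) (nat_lit 152) (nat_lit 0) (XT.lf (nat_lit 0) (nat_lit 98880559632245) (nat_lit 76) (nat_lit 17811664680648) (nat_lit 76) (nat_lit 320747357442) (nat_lit 15) (nat_lit 4) (nat_lit 16) (nat_lit 5) (nat_lit 16) (nat_lit 4) (nat_lit 424) (nat_lit 396) (nat_lit 200)) (XT.nd (nat_lit 78) (nat_lit 0) (nat_lit 0) (XT.lf (nat_lit 0) (nat_lit 32668842452773) (nat_lit 152) (nat_lit 79144696651431) (nat_lit 0) (nat_lit 17459349128244) (nat_lit 13) (nat_lit 5) (nat_lit 15) (nat_lit 4) (nat_lit 13) (nat_lit 4) (nat_lit 425) (nat_lit 396) (nat_lit 199)) (XT.lf (nat_lit 0) (nat_lit 72415172244318) (nat_lit 152) (nat_lit 13472479072763) (nat_lit 0) (nat_lit 57205678919786) (nat_lit 13) (nat_lit 5) (nat_lit 15) (nat_lit 4) (nat_lit 13) (nat_lit 4) (nat_lit 426) (nat_lit 396) (nat_lit 198)))) (XT.nd (nat_lit 78) (nat_lit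 152) (nat_lit 0) (XT.lf (nat_lit 0) (nat_lit 68114604231627) (nat_lit 76) (nat_lit 52829327779442) (nat_lit 76) (nat_lit 37619834454909) (nat_lit 12) (nat_lit 4) (nat_lit 13) (nat_lit 5) (nat_lit 13) (nat_lit 4) (nat_lit 427) (nat_lit 396) (nat_lit 197)) (XT.nd (nat_lit 78) (nat_lit 76) (nat_lit 0) (XT.lf (nat_lit 0) (nat_lit 1099651389971) (nat_lit 152) (nat_lit 12845242836097) (nat_lit 76) (nat_lit 162296739796637) (nat_lit 11) (nat_lit 5) (nat_lit 13) (nat_lit 5) (nat_lit 12) (nat_lit 4) (nat_lit 428) (nat_lit 396) (nat_lit 196)) (XT.lf (nat_lit 0) (nat_lit 46687777205289) (nat_lit 152) (nat_lit 115415719832233) (nat_lit 0) (nat_lit 33462130836127) (nat_lit 10) (nat_lit 5) (nat_lit 12) (nat_lit 4) (nat_lit 10) (nat_lit 4) (nat_lit 429) (nat_lit 396) (nat_lit 195)))))) (XT.nd (nat_lit 50778) (nat_lit 0) (nat_lit 1520) (XT.nd (nat_lit 50544) (nat_lit 0) (nat_lit 2128) (XT.nd (nat_lit 78)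 (nat_lit 0) (nat_lit 0) (XT.lf (nat_lit 0) (nat_lit 75260323838439) (nat_lit 76) (nat_lit 90200529938426) (nat_lit 76) (nat_lit 76974883569262) (nat_lit 9) (nat_lit 4) (nat_lit 10) (nat_lit 5) (nat_lit 10) (nat_lit 4) (nat_lit 431) (nat_lit 396) (nat_lit 193)) (XT.nd (nat_lit 50388) (nat_lit 0) (nat_lit 2128) (XT.lf (nat_lit 0) (nat_lit 199486320941507) (nat_lit 76) (nat_lit 42260789755605) (nat_lit 76) (nat_lit 29035143386440) (nat_lit 9) (nat_lit 4) (nat_lit 10) (nat_lit 5) (nat_lit 10) (nat_lit 4) (nat_lit 432) (nat_lit 396) (nat_lit 192)) (XT.lf (nat_lit 0) (nat_lit 1683891438778) (nat_lit 380) (nat_lit 2078289548400) (nat_lit 380) (nat_lit 2078289548400) (nat_lit 37) (nat_lit 3) (nat_lit 42) (nat_lit 3) (nat_lit 42) (nat_lit 5) (nat_lit 397) (nat_lit 397) (nat_lit 226)))) (XT.nd (nat_lit 78) (nat_lit 0) (nat_lit 76) (XT.lf (nat_lit 76) (nat_lit 1794533771749) (nat_lit 0) (nat_lit 1900140638704)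 (nat_lit 380) (nat_lit 8851191068480) (nat_lit 38) (nat_lit 5) (nat_lit 37) (nat_lit 3) (nat_lit 42) (nat_lit 5) (nat_lit 398) (nat_lit 397) (nat_lit 225)) (XT.nd (nat_lit 78) (nat_lit 0) (nat_lit 0) (XT.lf (nat_lit 0) (nat_lit 4487361153653) (nat_lit 304) (nat_lit 4601966563605) (nat_lit 380) (nat_lit 4388686608562) (nat_lit 38) (nat_lit 5) (nat_lit 42) (nat_lit 5) (nat_lit 43) (nat_lit 5) (nat_lit 399) (nat_lit 397) (nat_lit 224)) (XT.lf (nat_lit 76) (nat_lit 2611844963779) (nat_lit 0) (nat_lit 2985739762217) (nat_lit 380) (nat_lit 8922605701092) (nat_lit 39) (nat_lit 5) (nat_lit 38) (nat_lit 5) (nat_lit 43) (nat_lit 5) (nat_lit 400) (nat_lit 397) (nat_lit 223))))) (XT.nd (nat_lit 234) (nat_lit 456) (nat_lit 0) (XT.nd (nat_lit 78) (nat_lit 304) (nat_lit 0) (XT.lf (nat_lit 0) (nat_lit 7293368217834) (nat_lit 304) (nat_lit 4436151874821) (nat_lit 76) (nat_lit 3926318893346) (nat_lit 39)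 (nat_lit 5) (nat_lit 43) (nat_lit 5) (nat_lit 40) (nat_lit 5) (nat_lit 401) (nat_lit 397) (nat_lit 222)) (XT.nd (nat_lit 78) (nat_lit 0) (nat_lit 0) (XT.lf (nat_lit 0) (nat_lit 4407037633249) (nat_lit 304) (nat_lit 5161145714420) (nat_lit 380) (nat_lit 7344951863948) (nat_lit 35) (nat_lit 5) (nat_lit 39) (nat_lit 5) (nat_lit 40) (nat_lit 5) (nat_lit 402) (nat_lit 397) (nat_lit 221)) (XT.lf (nat_lit 0) (nat_lit 12526220567844) (nat_lit 380) (nat_lit 3359083926109) (nat_lit 76) (nat_lit 2422421403995) (nat_lit 35) (nat_lit 5) (nat_lit 40) (nat_lit 5) (nat_lit 36) (nat_lit 5) (nat_lit 403) (nat_lit 397) (nat_lit 220)))) (XT.nd (nat_lit 156) (nat_lit 304) (nat_lit 0) (XT.nd (nat_lit 78) (nat_lit 0) (nat_lit 0) (XT.lf (nat_lit 0) (nat_lit 7589920103136) (nat_lit 152) (nat_lit 8898094517334) (nat_lit 228) (nat_lit 3339482879342) (nat_lit 33) (nat_lit 5) (nat_lit 35) (nat_lit 5) (nat_lit 36) (nat_lit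 5) (nat_lit 404) (nat_lit 397) (nat_lit 219)) (XT.lf (nat_lit 0) (nat_lit 20558789964325) (nat_lit 152) (nat_lit 660876294583) (nat_lit 228) (nat_lit 329230311362) (nat_lit 33) (nat_lit 5) (nat_lit 35) (nat_lit 5) (nat_lit 36) (nat_lit 5) (nat_lit 405) (nat_lit 397) (nat_lit 218))) (XT.nd (nat_lit 78) (nat_lit 152) (nat_lit 0) (XT.lf (nat_lit 0) (nat_lit 3787345975341) (nat_lit 152) (nat_lit 10855728612120) (nat_lit 76) (nat_lit 8725923818641) (nat_lit 31) (nat_lit 5) (nat_lit 33) (nat_lit 5) (nat_lit 32) (nat_lit 5) (nat_lit 406) (nat_lit 397) (nat_lit 217)) (XT.lf (nat_lit 0) (nat_lit 2908387210062) (nat_lit 152) (nat_lit 5785435117743) (nat_lit 228) (nat_lit 16735023464084) (nat_lit 29) (nat_lit 5) (nat_lit 31) (nat_lit 5) (nat_lit 32) (nat_lit 5) (nat_lit 407) (nat_lit 397) (nat_lit 216))))))) (XT.nd (nat_lit 1014) (nat_lit 456) (nat_lit 0) (XT.nd (nat_lit 468) (nat_lit 456) (nat_lit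 0) (XT.nd (nat_lit 234) (nat_lit 228) (nat_lit 0) (XT.nd (nat_lit 78) (nat_lit 76) (nat_lit 0) (XT.lf (nat_lit 0) (nat_lit 15112980334432) (nat_lit 228) (nat_lit 7964646895755) (nat_lit 76) (nat_lit 4603536525163) (nat_lit 29) (nat_lit 5) (nat_lit 32) (nat_lit 5) (nat_lit 30) (nat_lit 4) (nat_lit 408) (nat_lit 397) (nat_lit 215)) (XT.nd (nat_lit 78) (nat_lit 0) (nat_lit 0) (XT.lf (nat_lit 0) (nat_lit 9329627596930) (nat_lit 76) (nat_lit 13827201338773) (nat_lit 152) (nat_lit 7015227943580) (nat_lit 28) (nat_lit 5) (nat_lit 29) (nat_lit 5) (nat_lit 30) (nat_lit 4) (nat_lit 409) (nat_lit 397) (nat_lit 214)) (XT.lf (nat_lit 0) (nat_lit 30113160965739) (nat_lit 76) (nat_lit 2710427676406) (nat_lit 152) (nat_lit 150545257414) (nat_lit 28) (nat_lit 5) (nat_lit 29) (nat_lit 5) (nat_lit 30) (nat_lit 4) (nat_lit 410) (nat_lit 397) (nat_lit 213)))) (XT.nd (nat_lit 78) (nat_lit 76) (nat_lit 0) (XT.lf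 (nat_lit 0) (nat_lit 8320028798286) (nat_lit 152) (nat_lit 17292420357519) (nat_lit 76) (nat_lit 10346135062330) (nat_lit 26) (nat_lit 5) (nat_lit 28) (nat_lit 5) (nat_lit 27) (nat_lit 4) (nat_lit 411) (nat_lit 397) (nat_lit 212)) (XT.nd (nat_lit 78) (nat_lit 0) (nat_lit 0) (XT.lf (nat_lit 0) (nat_lit 4645886752620) (nat_lit 76) (nat_lit 13878005817836) (nat_lit 152) (nat_lit 20794016704531) (nat_lit 25) (nat_lit 5) (nat_lit 26) (nat_lit 5) (nat_lit 27) (nat_lit 4) (nat_lit 412) (nat_lit 397) (nat_lit 211)) (XT.lf (nat_lit 0) (nat_lit 31189426175249) (nat_lit 152) (nat_lit 11254340916273) (nat_lit 0) (nat_lit 597702458826) (nat_lit 25) (nat_lit 5) (nat_lit 27) (nat_lit 4) (nat_lit 25) (nat_lit 4) (nat_lit 413) (nat_lit 397) (nat_lit 210))))) (XT.nd (nat_lit 234) (nat_lit 228) (nat_lit 0) (XT.nd (nat_lit 78) (nat_lit 152) (nat_lit 0) (XT.lf (nat_lit 0) (nat_lit 16482523753903) (nat_lit 76)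 (nat_lit 30615629646316) (nat_lit 76) (nat_lit 23905929876) (nat_lit 24) (nat_lit 4) (nat_lit 25) (nat_lit 5) (nat_lit 25) (nat_lit 4) (nat_lit 414) (nat_lit 397) (nat_lit 209)) (XT.nd (nat_lit 78) (nat_lit 76) (nat_lit 0) (XT.lf (nat_lit 0) (nat_lit 12985913572182) (nat_lit 152) (nat_lit 2672009536262) (nat_lit 76) (nat_lit 35980029884549) (nat_lit 23) (nat_lit 5) (nat_lit 25) (nat_lit 5) (nat_lit 24) (nat_lit 4) (nat_lit 415) (nat_lit 397) (nat_lit 208)) (XT.lf (nat_lit 0) (nat_lit 29412985470323) (nat_lit 152) (nat_lit 24386353844530) (nat_lit 0) (nat_lit 2811486586436) (nat_lit 22) (nat_lit 5) (nat_lit 24) (nat_lit 4) (nat_lit 22) (nat_lit 4) (nat_lit 416) (nat_lit 397) (nat_lit 207)))) (XT.nd (nat_lit 156) (nat_lit 76) (nat_lit 0) (XT.nd (nat_lit 78) (nat_lit 76) (nat_lit 0) (XT.lf (nat_lit 0) (nat_lit 10532449563222) (nat_lit 76) (nat_lit 39099734583719) (nat_lit 76) (nat_lit 12498235699823)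 (nat_lit 21) (nat_lit 4) (nat_lit 22) (nat_lit 5) (nat_lit 22) (nat_lit 4) (nat_lit 417) (nat_lit 397) (nat_lit 206)) (XT.lf (nat_lit 0) (nat_lit 5349472764424) (nat_lit 152) (nat_lit 15100132440393) (nat_lit 76) (nat_lit 47800662817754) (nat_lit 20) (nat_lit 5) (nat_lit 22) (nat_lit 5) (nat_lit 21) (nat_lit 4) (nat_lit 418) (nat_lit 397) (nat_lit 205))) (XT.nd (nat_lit 78) (nat_lit 0) (nat_lit 0) (XT.lf (nat_lit 0) (nat_lit 25915720274865) (nat_lit 152) (nat_lit 46300973315213) (nat_lit 0) (nat_lit 2783982114940) (nat_lit 19) (nat_lit 5) (nat_lit 21) (nat_lit 4) (nat_lit 19) (nat_lit 4) (nat_lit 419) (nat_lit 397) (nat_lit 204)) (XT.lf (nat_lit 0) (nat_lit 51367607650490) (nat_lit 152) (nat_lit 2890061987991) (nat_lit 0) (nat_lit 28235869490560) (nat_lit 19) (nat_lit 5) (nat_lit 21) (nat_lit 4) (nat_lit 19) (nat_lit 4) (nat_lit 420) (nat_lit 397) (nat_lit 203)))))) (XT.nd (nat_lit 468)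 (nat_lit 0) (nat_lit 0) (XT.nd (nat_lit 234) (nat_lit 228) (nat_lit 0) (XT.nd (nat_lit 78) (nat_lit 152) (nat_lit 0) (XT.lf (nat_lit 0) (nat_lit 51628842628397) (nat_lit 76) (nat_lit 31146275778518) (nat_lit 76) (nat_lit 8014537618582) (nat_lit 18) (nat_lit 4) (nat_lit 19) (nat_lit 5) (nat_lit 19) (nat_lit 4) (nat_lit 421) (nat_lit 397) (nat_lit 202)) (XT.nd (nat_lit 78) (nat_lit 0) (nat_lit 0) (XT.lf (nat_lit 0) (nat_lit 14892849686180) (nat_lit 76) (nat_lit 2793005125968) (nat_lit 152) (nat_lit 82412792029459) (nat_lit 16) (nat_lit 5) (nat_lit 17) (nat_lit 5) (nat_lit 18) (nat_lit 4) (nat_lit 422) (nat_lit 397) (nat_lit 201)) (XT.lf (nat_lit 0) (nat_lit 49799794206036) (nat_lit 152) (nat_lit 30754852478550) (nat_lit 0) (nat_lit 29685239284346) (nat_lit 16) (nat_lit 5) (nat_lit 18) (nat_lit 4) (nat_lit 16) (nat_lit 4) (nat_lit 423) (nat_lit 397) (nat_lit 200)))) (XT.nd (nat_lit 78) (nat_lit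 152) (nat_lit 0) (XT.lf (nat_lit 0) (nat_lit 34831691717556) (nat_lit 76) (nat_lit 53474439110796) (nat_lit 76) (nat_lit 33359884189103) (nat_lit 15) (nat_lit 4) (nat_lit 16) (nat_lit 5) (nat_lit 16) (nat_lit 4) (nat_lit 424) (nat_lit 397) (nat_lit 199)) (XT.nd (nat_lit 78) (nat_lit 152) (nat_lit 0) (XT.lf (nat_lit 0) (nat_lit 113712643577295) (nat_lit 76) (nat_lit 20483414382635) (nat_lit 76) (nat_lit 368859460939) (nat_lit 15) (nat_lit 4) (nat_lit 16) (nat_lit 5) (nat_lit 16) (nat_lit 4) (nat_lit 425) (nat_lit 397) (nat_lit 198)) (XT.lf (nat_lit 0) (nat_lit 37569168820797) (nat_lit 152) (nat_lit 91016401148921) (nat_lit 0) (nat_lit 20078251497582) (nat_lit 13) (nat_lit 5) (nat_lit 15) (nat_lit 4) (nat_lit 13) (nat_lit 4) (nat_lit 426) (nat_lit 397) (nat_lit 197))))) (XT.nd (nat_lit 51012) (nat_lit 0) (nat_lit 1672) (XT.nd (nat_lit 50856) (nat_lit 0) (nat_lit 1824) (XT.lf (nat_lit 0) (nat_lit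 83277448081059) (nat_lit 152) (nat_lit 15493350933482) (nat_lit 0) (nat_lit 65786530757842) (nat_lit 13) (nat_lit 5) (nat_lit 15) (nat_lit 4) (nat_lit 13) (nat_lit 4) (nat_lit 427) (nat_lit 397) (nat_lit 196)) (XT.nd (nat_lit 78) (nat_lit 0) (nat_lit 0) (XT.lf (nat_lit 0) (nat_lit 1936475155021) (nat_lit 380) (nat_lit 2390032980415) (nat_lit 380) (nat_lit 2390032980415) (nat_lit 37) (nat_lit 3) (nat_lit 42) (nat_lit 3) (nat_lit 42) (nat_lit 5) (nat_lit 398) (nat_lit 398) (nat_lit 224)) (XT.lf (nat_lit 76) (nat_lit 2063713837979) (nat_lit 0) (nat_lit 2185161734801) (nat_lit 380) (nat_lit 10178869727878) (nat_lit 38) (nat_lit 5) (nat_lit 37) (nat_lit 3) (nat_lit 42) (nat_lit 5) (nat_lit 399) (nat_lit 398) (nat_lit 223)))) (XT.nd (nat_lit 156) (nat_lit 228) (nat_lit 0) (XT.nd (nat_lit 78) (nat_lit 0) (nat_lit 0) (XT.lf (nat_lit 0) (nat_lit 5160465327350) (nat_lit 304) (nat_lit 5292261547630)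 (nat_lit 380) (nat_lit 5046989599614) (nat_lit 38) (nat_lit 5) (nat_lit 42) (nat_lit 5) (nat_lit 43) (nat_lit 5) (nat_lit 400) (nat_lit 398) (nat_lit 222)) (XT.lf (nat_lit 76) (nat_lit 3003621708838) (nat_lit 0) (nat_lit 3433600726643) (nat_lit 380) (nat_lit 10260996555582) (nat_lit 39) (nat_lit 5) (nat_lit 38) (nat_lit 5) (nat_lit 43) (nat_lit 5) (nat_lit 401) (nat_lit 398) (nat_lit 221))) (XT.nd (nat_lit 78) (nat_lit 304) (nat_lit 0) (XT.lf (nat_lit 0) (nat_lit 8387373451015) (nat_lit 304) (nat_lit 5101574655536) (nat_lit 76) (nat_lit 4515266727275) (nat_lit 39) (nat_lit 5) (nat_lit 43) (nat_lit 5) (nat_lit 40) (nat_lit 5) (nat_lit 402) (nat_lit 398) (nat_lit 220)) (XT.lf (nat_lit 0) (nat_lit 5068093278722) (nat_lit 304) (nat_lit 5935317571558) (nat_lit 380) (nat_lit 8446694643012) (nat_lit 35) (nat_lit 5) (nat_lit 39) (nat_lit 5) (nat_lit 40) (nat_lit 5) (nat_lit 403) (nat_lit 398) (nat_lit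 219))))))))
noncomputable def xc121 : XT := (XT.nd (nat_lit 53430) (nat_lit 0) (nat_lit 456) (XT.nd (nat_lit 936) (nat_lit 608) (nat_lit 0) (XT.nd (nat_lit 468) (nat_lit 380) (nat_lit 0) (XT.nd (nat_lit 234) (nat_lit 304) (nat_lit 0) (XT.nd (nat_lit 78) (nat_lit 152) (nat_lit 0) (XT.lf (nat_lit 0) (nat_lit 14405153653421) (nat_lit 380) (nat_lit 3862946514544) (nat_lit 76) (nat_lit 2785784614614) (nat_lit 35) (nat_lit 5) (nat_lit 40) (nat_lit 5) (nat_lit 36) (nat_lit 5) (nat_lit 404) (nat_lit 398) (nat_lit 218)) (XT.nd (nat_lit 78) (nat_lit 0) (nat_lit 0) (XT.lf (nat_lit 0) (nat_lit 8728408119066) (nat_lit 152) (nat_lit 10232808694843) (nat_lit 228) (nat_lit 3840405310821) (nat_lit 33) (nat_lit 5) (nat_lit 35) (nat_lit 5) (nat_lit 36) (nat_lit 5) (nat_lit 405) (nat_lit 398) (nat_lit 217)) (XT.lf (nat_lit 0) (nat_lit 23642608459374) (nat_lit 152) (nat_lit 760007738691) (nat_lit 228) (nat_lit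 378614857698) (nat_lit 33) (nat_lit 5) (nat_lit 35) (nat_lit 5) (nat_lit 36) (nat_lit 5) (nat_lit 406) (nat_lit 398) (nat_lit 216)))) (XT.nd (nat_lit 78) (nat_lit 152) (nat_lit 0) (XT.lf (nat_lit 0) (nat_lit 4355447871955) (nat_lit 152) (nat_lit 12484087903483) (nat_lit 76) (nat_lit 10034812391532) (nat_lit 31) (nat_lit 5) (nat_lit 33) (nat_lit 5) (nat_lit 32) (nat_lit 5) (nat_lit 407) (nat_lit 398) (nat_lit 215)) (XT.nd (nat_lit 78) (nat_lit 0) (nat_lit 0) (XT.lf (nat_lit 0) (nat_lit 3344645292006) (nat_lit 152) (nat_lit 6653250385261) (nat_lit 228) (nat_lit 19245276983363) (nat_lit 29) (nat_lit 5) (nat_lit 31) (nat_lit 5) (nat_lit 32) (nat_lit 5) (nat_lit 408) (nat_lit 398) (nat_lit 214)) (XT.lf (nat_lit 0) (nat_lit 17379927384855) (nat_lit 228) (nat_lit 9159343929709) (nat_lit 76) (nat_lit 5294067004051) (nat_lit 29) (nat_lit 5) (nat_lit 32) (nat_lit 5) (nat_lit 30) (nat_lit 4) (nat_lit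 409) (nat_lit 398) (nat_lit 213))))) (XT.nd (nat_lit 234) (nat_lit 152) (nat_lit 0) (XT.nd (nat_lit 78) (nat_lit 152) (nat_lit 0) (XT.lf (nat_lit 0) (nat_lit 10729071736861) (nat_lit 76) (nat_lit 15901281539438) (nat_lit 152) (nat_lit 8067512134841) (nat_lit 28) (nat_lit 5) (nat_lit 29) (nat_lit 5) (nat_lit 30) (nat_lit 4) (nat_lit 410) (nat_lit 398) (nat_lit 212)) (XT.nd (nat_lit 78) (nat_lit 152) (nat_lit 0) (XT.lf (nat_lit 0) (nat_lit 34630135110940) (nat_lit 76) (nat_lit 3116991827736) (nat_lit 152) (nat_lit 173127045786) (nat_lit 28) (nat_lit 5) (nat_lit 29) (nat_lit 5) (nat_lit 30) (nat_lit 4) (nat_lit 411) (nat_lit 398) (nat_lit 211)) (XT.lf (nat_lit 0) (nat_lit 9568033118240) (nat_lit 152) (nat_lit 19886283410776) (nat_lit 76) (nat_lit 11898055321808) (nat_lit 26) (nat_lit 5) (nat_lit 28) (nat_lit 5) (nat_lit 27) (nat_lit 4) (nat_lit 412) (nat_lit 398) (nat_lit 210)))) (XT.nd (nat_lit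 78) (nat_lit 76) (nat_lit 0) (XT.lf (nat_lit 0) (nat_lit 5342769765867) (nat_lit 76) (nat_lit 15959706690355) (nat_lit 152) (nat_lit 23913119209983) (nat_lit 25) (nat_lit 5) (nat_lit 26) (nat_lit 5) (nat_lit 27) (nat_lit 4) (nat_lit 413) (nat_lit 398) (nat_lit 209)) (XT.nd (nat_lit 78) (nat_lit 76) (nat_lit 0) (XT.lf (nat_lit 0) (nat_lit 35867840101714) (nat_lit 152) (nat_lit 12942492053387) (nat_lit 0) (nat_lit 687357827774) (nat_lit 25) (nat_lit 5) (nat_lit 27) (nat_lit 4) (nat_lit 25) (nat_lit 4) (nat_lit 414) (nat_lit 398) (nat_lit 208)) (XT.lf (nat_lit 0) (nat_lit 18954902317302) (nat_lit 76) (nat_lit 35207974093118) (nat_lit 76) (nat_lit 27491819165) (nat_lit 24) (nat_lit 4) (nat_lit 25) (nat_lit 5) (nat_lit 25) (nat_lit 4) (nat_lit 415) (nat_lit 398) (nat_lit 207)))))) (XT.nd (nat_lit 51948) (nat_lit 0) (nat_lit 1292) (XT.nd (nat_lit 624) (nat_lit 380) (nat_lit 0) (XT.nd (nat_lit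 78) (nat_lit 152) (nat_lit 0) (XT.lf (nat_lit 0) (nat_lit 14933800608162) (nat_lit 152) (nat_lit 3072810966415) (nat_lit 76) (nat_lit 41377034367343) (nat_lit 23) (nat_lit 5) (nat_lit 25) (nat_lit 5) (nat_lit 24) (nat_lit 4) (nat_lit 416) (nat_lit 398) (nat_lit 206)) (XT.nd (nat_lit 78) (nat_lit 76) (nat_lit 0) (XT.lf (nat_lit 0) (nat_lit 33824933291020) (nat_lit 152) (nat_lit 28044306920919) (nat_lit 0) (nat_lit 3233209574520) (nat_lit 22) (nat_lit 5) (nat_lit 24) (nat_lit 4) (nat_lit 22) (nat_lit 4) (nat_lit 417) (nat_lit 398) (nat_lit 205)) (XT.lf (nat_lit 0) (nat_lit 12112316997983) (nat_lit 76) (nat_lit 44964694771142) (nat_lit 76) (nat_lit 14372971054634) (nat_lit 21) (nat_lit 4) (nat_lit 22) (nat_lit 5) (nat_lit 22) (nat_lit 4) (nat_lit 418) (nat_lit 398) (nat_lit 204)))) (XT.nd (nat_lit 51168) (nat_lit 0) (nat_lit 1596) (XT.lf (nat_lit 0) (nat_lit 57269763337036) (nat_lit 152) (nat_lit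 35368080350138) (nat_lit 0) (nat_lit 34138025177084) (nat_lit 16) (nat_lit 5) (nat_lit 18) (nat_lit 4) (nat_lit 16) (nat_lit 4) (nat_lit 424) (nat_lit 398) (nat_lit 198)) (XT.nd (nat_lit 78) (nat_lit 0) (nat_lit 0) (XT.lf (nat_lit 0) (nat_lit 2226946428596) (nat_lit 380) (nat_lit 2748537927293) (nat_lit 380) (nat_lit 2748537927293) (nat_lit 37) (nat_lit 3) (nat_lit 42) (nat_lit 3) (nat_lit 42) (nat_lit 5) (nat_lit 399) (nat_lit 399) (nat_lit 222)) (XT.lf (nat_lit 76) (nat_lit 2373270914030) (nat_lit 0) (nat_lit 2512935995243) (nat_lit 380) (nat_lit 11705700186400) (nat_lit 38) (nat_lit 5) (nat_lit 37) (nat_lit 3) (nat_lit 42) (nat_lit 5) (nat_lit 400) (nat_lit 399) (nat_lit 221))))) (XT.nd (nat_lit 234) (nat_lit 380) (nat_lit 0) (XT.nd (nat_lit 78) (nat_lit 0) (nat_lit 0) (XT.lf (nat_lit 0) (nat_lit 5934535126945) (nat_lit 304) (nat_lit 6086100779384) (nat_lit 380) (nat_lit 5804038039382)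 (nat_lit 38) (nat_lit 5) (nat_lit 42) (nat_lit 5) (nat_lit 43) (nat_lit 5) (nat_lit 401) (nat_lit 399) (nat_lit 220)) (XT.nd (nat_lit 78) (nat_lit 0) (nat_lit 76) (XT.lf (nat_lit 76) (nat_lit 3454164965537) (nat_lit 0) (nat_lit 3948640835709) (nat_lit 380) (nat_lit 11800146038410) (nat_lit 39) (nat_lit 5) (nat_lit 38) (nat_lit 5) (nat_lit 43) (nat_lit 5) (nat_lit 402) (nat_lit 399) (nat_lit 219)) (XT.lf (nat_lit 0) (nat_lit 9645479469050) (nat_lit 304) (nat_lit 5866810853482) (nat_lit 76) (nat_lit 5192556736311) (nat_lit 39) (nat_lit 5) (nat_lit 43) (nat_lit 5) (nat_lit 40) (nat_lit 5) (nat_lit 403) (nat_lit 399) (nat_lit 218)))) (XT.nd (nat_lit 156) (nat_lit 152) (nat_lit 0) (XT.nd (nat_lit 78) (nat_lit 0) (nat_lit 0) (XT.lf (nat_lit 0) (nat_lit 5828307270898) (nat_lit 304) (nat_lit 6825615207272) (nat_lit 380) (nat_lit 9713698839063) (nat_lit 35) (nat_lit 5) (nat_lit 39) (nat_lit 5) (nat_lit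 40) (nat_lit 5) (nat_lit 404) (nat_lit 399) (nat_lit 217)) (XT.lf (nat_lit 0) (nat_lit 16565926701737) (nat_lit 380) (nat_lit 4442388491362) (nat_lit 76) (nat_lit 3203652306822) (nat_lit 35) (nat_lit 5) (nat_lit 40) (nat_lit 5) (nat_lit 36) (nat_lit 5) (nat_lit 405) (nat_lit 399) (nat_lit 216))) (XT.nd (nat_lit 78) (nat_lit 0) (nat_lit 0) (XT.lf (nat_lit 0) (nat_lit 10037669337273) (nat_lit 152) (nat_lit 11767729999000) (nat_lit 228) (nat_lit 4416466107124) (nat_lit 33) (nat_lit 5) (nat_lit 35) (nat_lit 5) (nat_lit 36) (nat_lit 5) (nat_lit 406) (nat_lit 399) (nat_lit 215)) (XT.lf (nat_lit 0) (nat_lit 27188999728582) (nat_lit 152) (nat_lit 874008899434) (nat_lit 228) (nat_lit 435407086075) (nat_lit 33) (nat_lit 5) (nat_lit 35) (nat_lit 5) (nat_lit 36) (nat_lit 5) (nat_lit 407) (nat_lit 399) (nat_lit 214))))))) (XT.nd (nat_lit 52650) (nat_lit 0) (nat_lit 304) (XT.nd (nat_lit 468) (nat_lit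 304) (nat_lit 0) (XT.nd (nat_lit 234) (nat_lit 228) (nat_lit 0) (XT.nd (nat_lit 78) (nat_lit 152) (nat_lit 0) (XT.lf (nat_lit 0) (nat_lit 5008765052985) (nat_lit 152) (nat_lit 14356701088662) (nat_lit 76) (nat_lit 11540034250334) (nat_lit 31) (nat_lit 5) (nat_lit 33) (nat_lit 5) (nat_lit 32) (nat_lit 5) (nat_lit 408) (nat_lit 399) (nat_lit 213)) (XT.nd (nat_lit 78) (nat_lit 0) (nat_lit 0) (XT.lf (nat_lit 0) (nat_lit 3846342086134) (nat_lit 152) (nat_lit 7651237942941) (nat_lit 228) (nat_lit 22132068530615) (nat_lit 29) (nat_lit 5) (nat_lit 31) (nat_lit 5) (nat_lit 32) (nat_lit 5) (nat_lit 409) (nat_lit 399) (nat_lit 212)) (XT.lf (nat_lit 0) (nat_lit 19986916492777) (nat_lit 228) (nat_lit 10533245518855) (nat_lit 76) (nat_lit 6088177054745) (nat_lit 29) (nat_lit 5) (nat_lit 32) (nat_lit 5) (nat_lit 30) (nat_lit 4) (nat_lit 410) (nat_lit 399) (nat_lit 211)))) (XT.nd (nat_lit 78) (nat_lit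 152) (nat_lit 0) (XT.lf (nat_lit 0) (nat_lit 12338432497686) (nat_lit 76) (nat_lit 18286473770239) (nat_lit 152) (nat_lit 9277638954858) (nat_lit 28) (nat_lit 5) (nat_lit 29) (nat_lit 5) (nat_lit 30) (nat_lit 4) (nat_lit 411) (nat_lit 399) (nat_lit 210)) (XT.nd (nat_lit 78) (nat_lit 152) (nat_lit 0) (XT.lf (nat_lit 0) (nat_lit 39824655377839) (nat_lit 76) (nat_lit 3584540601796) (nat_lit 152) (nat_lit 199096102472) (nat_lit 28) (nat_lit 5) (nat_lit 29) (nat_lit 5) (nat_lit 30) (nat_lit 4) (nat_lit 412) (nat_lit 399) (nat_lit 209)) (XT.lf (nat_lit 0) (nat_lit 11003238086134) (nat_lit 152) (nat_lit 22869225922113) (nat_lit 76) (nat_lit 13682763620176) (nat_lit 26) (nat_lit 5) (nat_lit 28) (nat_lit 5) (nat_lit 27) (nat_lit 4) (nat_lit 413) (nat_lit 399) (nat_lit 208))))) (XT.nd (nat_lit 234) (nat_lit 152) (nat_lit 0) (XT.nd (nat_lit 78) (nat_lit 76) (nat_lit 0) (XT.lf (nat_lit 0) (nat_lit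 6144185231014) (nat_lit 76) (nat_lit 18353662693791) (nat_lit 152) (nat_lit 27500087091309) (nat_lit 25) (nat_lit 5) (nat_lit 26) (nat_lit 5) (nat_lit 27) (nat_lit 4) (nat_lit 414) (nat_lit 399) (nat_lit 207)) (XT.nd (nat_lit 78) (nat_lit 76) (nat_lit 0) (XT.lf (nat_lit 0) (nat_lit 41248016117105) (nat_lit 152) (nat_lit 14883865861147) (nat_lit 0) (nat_lit 790461502034) (nat_lit 25) (nat_lit 5) (nat_lit 27) (nat_lit 4) (nat_lit 25) (nat_lit 4) (nat_lit 415) (nat_lit 399) (nat_lit 206)) (XT.lf (nat_lit 0) (nat_lit 21798137665133) (nat_lit 76) (nat_lit 40489170206976) (nat_lit 76) (nat_lit 31615591894) (nat_lit 24) (nat_lit 4) (nat_lit 25) (nat_lit 5) (nat_lit 25) (nat_lit 4) (nat_lit 416) (nat_lit 399) (nat_lit 205)))) (XT.nd (nat_lit 51792) (nat_lit 0) (nat_lit 1140) (XT.nd (nat_lit 78) (nat_lit 76) (nat_lit 0) (XT.lf (nat_lit 0) (nat_lit 17173870699502) (nat_lit 152) (nat_lit 3533732611161)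 (nat_lit 76) (nat_lit 47583589522529) (nat_lit 23) (nat_lit 5) (nat_lit 25) (nat_lit 5) (nat_lit 24) (nat_lit 4) (nat_lit 417) (nat_lit 399) (nat_lit 204)) (XT.lf (nat_lit 0) (nat_lit 38898673284786) (nat_lit 152) (nat_lit 32250952958838) (nat_lit 0) (nat_lit 3718191010788) (nat_lit 22) (nat_lit 5) (nat_lit 24) (nat_lit 4) (nat_lit 22) (nat_lit 4) (nat_lit 418) (nat_lit 399) (nat_lit 203))) (XT.nd (nat_lit 78) (nat_lit 0) (nat_lit 0) (XT.lf (nat_lit 0) (nat_lit 2560988393129) (nat_lit 380) (nat_lit 3160818616247) (nat_lit 380) (nat_lit 3160818616247) (nat_lit 37) (nat_lit 3) (nat_lit 42) (nat_lit 3) (nat_lit 42) (nat_lit 5) (nat_lit 400) (nat_lit 400) (nat_lit 220)) (XT.lf (nat_lit 76) (nat_lit 2729261551401) (nat_lit 0) (nat_lit 2889876394696) (nat_lit 380) (nat_lit 13461555213860) (nat_lit 38) (nat_lit 5) (nat_lit 37) (nat_lit 3) (nat_lit 42) (nat_lit 5) (nat_lit 401) (nat_lit 400) (nat_lit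 219)))))) (XT.nd (nat_lit 468) (nat_lit 532) (nat_lit 0) (XT.nd (nat_lit 234) (nat_lit 380) (nat_lit 0) (XT.nd (nat_lit 78) (nat_lit 0) (nat_lit 0) (XT.lf (nat_lit 0) (nat_lit 6824715396358) (nat_lit 304) (nat_lit 6999015895996) (nat_lit 380) (nat_lit 6674643745157) (nat_lit 38) (nat_lit 5) (nat_lit 42) (nat_lit 5) (nat_lit 43) (nat_lit 5) (nat_lit 402) (nat_lit 400) (nat_lit 218)) (XT.nd (nat_lit 78) (nat_lit 0) (nat_lit 76) (XT.lf (nat_lit 76) (nat_lit 3972289710649) (nat_lit 0) (nat_lit 4540936961119) (nat_lit 380) (nat_lit 13570167943787) (nat_lit 39) (nat_lit 5) (nat_lit 38) (nat_lit 5) (nat_lit 43) (nat_lit 5) (nat_lit 403) (nat_lit 400) (nat_lit 217)) (XT.lf (nat_lit 0) (nat_lit 11092301389696) (nat_lit 304) (nat_lit 6746832481213) (nat_lit 76) (nat_lit 5971440246715) (nat_lit 39) (nat_lit 5) (nat_lit 43) (nat_lit 5) (nat_lit 40) (nat_lit 5) (nat_lit 404) (nat_lit 400) (nat_lit 216))))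 (XT.nd (nat_lit 78) (nat_lit 152) (nat_lit 0) (XT.lf (nat_lit 0) (nat_lit 6702553361810) (nat_lit 304) (nat_lit 7849457488349) (nat_lit 380) (nat_lit 11170753664620) (nat_lit 35) (nat_lit 5) (nat_lit 39) (nat_lit 5) (nat_lit 40) (nat_lit 5) (nat_lit 405) (nat_lit 400) (nat_lit 215)) (XT.nd (nat_lit 78) (nat_lit 152) (nat_lit 0) (XT.lf (nat_lit 0) (nat_lit 19050815707227) (nat_lit 380) (nat_lit 5108746764791) (nat_lit 76) (nat_lit 3684200152857) (nat_lit 35) (nat_lit 5) (nat_lit 40) (nat_lit 5) (nat_lit 36) (nat_lit 5) (nat_lit 406) (nat_lit 400) (nat_lit 214)) (XT.lf (nat_lit 0) (nat_lit 11543319738127) (nat_lit 152) (nat_lit 13532889498797) (nat_lit 228) (nat_lit 5078936022951) (nat_lit 33) (nat_lit 5) (nat_lit 35) (nat_lit 5) (nat_lit 36) (nat_lit 5) (nat_lit 407) (nat_lit 400) (nat_lit 213))))) (XT.nd (nat_lit 234) (nat_lit 228) (nat_lit 0) (XT.nd (nat_lit 78) (nat_lit 304) (nat_lit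 0) (XT.lf (nat_lit 0) (nat_lit 31267349688098) (nat_lit 152) (nat_lit 1005110234304) (nat_lit 228) (nat_lit 500718148776) (nat_lit 33) (nat_lit 5) (nat_lit 35) (nat_lit 5) (nat_lit 36) (nat_lit 5) (nat_lit 408) (nat_lit 400) (nat_lit 212)) (XT.nd (nat_lit 78) (nat_lit 152) (nat_lit 0) (XT.lf (nat_lit 0) (nat_lit 5760079811111) (nat_lit 152) (nat_lit 16510206251701) (nat_lit 76) (nat_lit 13271039387939) (nat_lit 31) (nat_lit 5) (nat_lit 33) (nat_lit 5) (nat_lit 32) (nat_lit 5) (nat_lit 409) (nat_lit 400) (nat_lit 211)) (XT.lf (nat_lit 0) (nat_lit 4423293399303) (nat_lit 152) (nat_lit 8798923634300) (nat_lit 228) (nat_lit 25451878810017) (nat_lit 29) (nat_lit 5) (nat_lit 31) (nat_lit 5) (nat_lit 32) (nat_lit 5) (nat_lit 410) (nat_lit 400) (nat_lit 210)))) (XT.nd (nat_lit 156) (nat_lit 152) (nat_lit 0) (XT.nd (nat_lit 78) (nat_lit 76) (nat_lit 0) (XT.lf (nat_lit 0) (nat_lit 22984953966841)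 (nat_lit 228) (nat_lit 12113232346449) (nat_lit 76) (nat_lit 7001403613022) (nat_lit 29) (nat_lit 5) (nat_lit 32) (nat_lit 5) (nat_lit 30) (nat_lit 4) (nat_lit 411) (nat_lit 400) (nat_lit 209)) (XT.lf (nat_lit 0) (nat_lit 14189197372563) (nat_lit 76) (nat_lit 21029444835688) (nat_lit 152) (nat_lit 10669284797929) (nat_lit 28) (nat_lit 5) (nat_lit 29) (nat_lit 5) (nat_lit 30) (nat_lit 4) (nat_lit 412) (nat_lit 400) (nat_lit 208))) (XT.nd (nat_lit 78) (nat_lit 152) (nat_lit 0) (XT.lf (nat_lit 0) (nat_lit 45798353684710) (nat_lit 76) (nat_lit 4122221691990) (nat_lit 152) (nat_lit 228960517706) (nat_lit 28) (nat_lit 5) (nat_lit 29) (nat_lit 5) (nat_lit 30) (nat_lit 4) (nat_lit 413) (nat_lit 400) (nat_lit 207)) (XT.lf (nat_lit 0) (nat_lit 12653723799175) (nat_lit 152) (nat_lit 26299609810218) (nat_lit 76) (nat_lit 15735178163276) (nat_lit 26) (nat_lit 5) (nat_lit 28) (nat_lit 5) (nat_lit 27)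 (nat_lit 4) (nat_lit 414) (nat_lit 400) (nat_lit 206))))))))
noncomputable def xc122 : XT := (XT.nd (nat_lit 105456) (nat_lit 0) (nat_lit 152) (XT.nd (nat_lit 52650) (nat_lit 0) (nat_lit 76) (XT.nd (nat_lit 52182) (nat_lit 0) (nat_lit 760) (XT.nd (nat_lit 234) (nat_lit 76) (nat_lit 0) (XT.nd (nat_lit 78) (nat_lit 76) (nat_lit 0) (XT.lf (nat_lit 0) (nat_lit 7065813015869) (nat_lit 76) (nat_lit 21106712097770) (nat_lit 152) (nat_lit 31625100154876) (nat_lit 25) (nat_lit 5) (nat_lit 26) (nat_lit 5) (nat_lit 27) (nat_lit 4) (nat_lit 415) (nat_lit 400) (nat_lit 205)) (XT.nd (nat_lit 78) (nat_lit 76) (nat_lit 0) (XT.lf (nat_lit 0) (nat_lit 47435218534772) (nat_lit 152) (nat_lit 17116445740132) (nat_lit 0) (nat_lit 909030727410) (nat_lit 25) (nat_lit 5) (nat_lit 27) (nat_lit 4) (nat_lit 25) (nat_lit 4) (nat_lit 416) (nat_lit 400) (nat_lit 204)) (XT.lf (nat_lit 0) (nat_lit 25067858315082) (nat_lit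 76) (nat_lit 46562545737939) (nat_lit 76) (nat_lit 36357930569) (nat_lit 24) (nat_lit 4) (nat_lit 25) (nat_lit 5) (nat_lit 25) (nat_lit 4) (nat_lit 417) (nat_lit 400) (nat_lit 203)))) (XT.nd (nat_lit 51792) (nat_lit 0) (nat_lit 1064) (XT.lf (nat_lit 0) (nat_lit 19749951304514) (nat_lit 152) (nat_lit 4063792502670) (nat_lit 76) (nat_lit 54721127950973) (nat_lit 23) (nat_lit 5) (nat_lit 25) (nat_lit 5) (nat_lit 24) (nat_lit 4) (nat_lit 418) (nat_lit 400) (nat_lit 202)) (XT.nd (nat_lit 78) (nat_lit 0) (nat_lit 0) (XT.lf (nat_lit 0) (nat_lit 2945136652282) (nat_lit 380) (nat_lit 3634941408578) (nat_lit 380) (nat_lit 3634941408578) (nat_lit 37) (nat_lit 3) (nat_lit 42) (nat_lit 3) (nat_lit 42) (nat_lit 5) (nat_lit 401) (nat_lit 401) (nat_lit 218)) (XT.lf (nat_lit 76) (nat_lit 3138650784314) (nat_lit 0) (nat_lit 3323357854027) (nat_lit 380) (nat_lit 15480788495561) (nat_lit 38) (nat_lit 5) (nat_lit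 37) (nat_lit 3) (nat_lit 42) (nat_lit 5) (nat_lit 402) (nat_lit 401) (nat_lit 217))))) (XT.nd (nat_lit 234) (nat_lit 380) (nat_lit 0) (XT.nd (nat_lit 78) (nat_lit 0) (nat_lit 0) (XT.lf (nat_lit 0) (nat_lit 7848422706093) (nat_lit 304) (nat_lit 8048868280172) (nat_lit 380) (nat_lit 7675840306830) (nat_lit 38) (nat_lit 5) (nat_lit 42) (nat_lit 5) (nat_lit 43) (nat_lit 5) (nat_lit 403) (nat_lit 401) (nat_lit 216)) (XT.nd (nat_lit 78) (nat_lit 0) (nat_lit 76) (XT.lf (nat_lit 76) (nat_lit 4568133167460) (nat_lit 0) (nat_lit 5222077505327) (nat_lit 380) (nat_lit 15605693135064) (nat_lit 39) (nat_lit 5) (nat_lit 38) (nat_lit 5) (nat_lit 43) (nat_lit 5) (nat_lit 404) (nat_lit 401) (nat_lit 215)) (XT.lf (nat_lit 0) (nat_lit 12756146598370) (nat_lit 304) (nat_lit 7758857353176) (nat_lit 76) (nat_lit 6867156283691) (nat_lit 39) (nat_lit 5) (nat_lit 43) (nat_lit 5) (nat_lit 40) (nat_lit 5) (nat_lit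 405) (nat_lit 401) (nat_lit 214)))) (XT.nd (nat_lit 78) (nat_lit 152) (nat_lit 0) (XT.lf (nat_lit 0) (nat_lit 7707936366291) (nat_lit 304) (nat_lit 9026876111590) (nat_lit 380) (nat_lit 12846366714085) (nat_lit 35) (nat_lit 5) (nat_lit 39) (nat_lit 5) (nat_lit 40) (nat_lit 5) (nat_lit 406) (nat_lit 401) (nat_lit 213)) (XT.nd (nat_lit 78) (nat_lit 152) (nat_lit 0) (XT.lf (nat_lit 0) (nat_lit 21908438063485) (nat_lit 380) (nat_lit 5875058779302) (nat_lit 76) (nat_lit 4236830175794) (nat_lit 35) (nat_lit 5) (nat_lit 40) (nat_lit 5) (nat_lit 36) (nat_lit 5) (nat_lit 407) (nat_lit 401) (nat_lit 212)) (XT.lf (nat_lit 0) (nat_lit 13274817699045) (nat_lit 152) (nat_lit 15562822923577) (nat_lit 228) (nat_lit 5840776426211) (nat_lit 33) (nat_lit 5) (nat_lit 35) (nat_lit 5) (nat_lit 36) (nat_lit 5) (nat_lit 408) (nat_lit 401) (nat_lit 211)))))) (XT.nd (nat_lit 468) (nat_lit 304) (nat_lit 0) (XT.nd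 (nat_lit 234) (nat_lit 76) (nat_lit 0) (XT.nd (nat_lit 78) (nat_lit 304) (nat_lit 0) (XT.lf (nat_lit 0) (nat_lit 35957452141485) (nat_lit 152) (nat_lit 1155876769415) (nat_lit 228) (nat_lit 575825870934) (nat_lit 33) (nat_lit 5) (nat_lit 35) (nat_lit 5) (nat_lit 36) (nat_lit 5) (nat_lit 409) (nat_lit 401) (nat_lit 210)) (XT.nd (nat_lit 78) (nat_lit 152) (nat_lit 0) (XT.lf (nat_lit 0) (nat_lit 6624091782913) (nat_lit 152) (nat_lit 18986737189260) (nat_lit 76) (nat_lit 15261695296171) (nat_lit 31) (nat_lit 5) (nat_lit 33) (nat_lit 5) (nat_lit 32) (nat_lit 5) (nat_lit 410) (nat_lit 401) (nat_lit 209)) (XT.lf (nat_lit 0) (nat_lit 5086787409386) (nat_lit 152) (nat_lit 10118762179383) (nat_lit 228) (nat_lit 29269660631375) (nat_lit 29) (nat_lit 5) (nat_lit 31) (nat_lit 5) (nat_lit 32) (nat_lit 5) (nat_lit 411) (nat_lit 401) (nat_lit 208)))) (XT.nd (nat_lit 78) (nat_lit 76) (nat_lit 0) (XT.lf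 (nat_lit 0) (nat_lit 26432697061979) (nat_lit 228) (nat_lit 13930217198239) (nat_lit 76) (nat_lit 8051614155025) (nat_lit 29) (nat_lit 5) (nat_lit 32) (nat_lit 5) (nat_lit 30) (nat_lit 4) (nat_lit 412) (nat_lit 401) (nat_lit 207)) (XT.nd (nat_lit 78) (nat_lit 0) (nat_lit 0) (XT.lf (nat_lit 0) (nat_lit 16317576978617) (nat_lit 76) (nat_lit 24183861560976) (nat_lit 152) (nat_lit 12269677517500) (nat_lit 28) (nat_lit 5) (nat_lit 29) (nat_lit 5) (nat_lit 30) (nat_lit 4) (nat_lit 413) (nat_lit 401) (nat_lit 206)) (XT.lf (nat_lit 0) (nat_lit 52668106737563) (nat_lit 76) (nat_lit 4740554945732) (nat_lit 152) (nat_lit 263304595258) (nat_lit 28) (nat_lit 5) (nat_lit 29) (nat_lit 5) (nat_lit 30) (nat_lit 4) (nat_lit 414) (nat_lit 401) (nat_lit 205))))) (XT.nd (nat_lit 234) (nat_lit 76) (nat_lit 0) (XT.nd (nat_lit 78) (nat_lit 76) (nat_lit 0) (XT.lf (nat_lit 0) (nat_lit 14551782369142) (nat_lit 152)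 (nat_lit 30244551281590) (nat_lit 76) (nat_lit 18095454887823) (nat_lit 26) (nat_lit 5) (nat_lit 28) (nat_lit 5) (nat_lit 27) (nat_lit 4) (nat_lit 415) (nat_lit 401) (nat_lit 204)) (XT.nd (nat_lit 78) (nat_lit 0) (nat_lit 0) (XT.lf (nat_lit 0) (nat_lit 8125684968402) (nat_lit 76) (nat_lit 24272718912369) (nat_lit 152) (nat_lit 36368865178009) (nat_lit 25) (nat_lit 5) (nat_lit 26) (nat_lit 5) (nat_lit 27) (nat_lit 4) (nat_lit 416) (nat_lit 401) (nat_lit 203)) (XT.lf (nat_lit 0) (nat_lit 54550501315065) (nat_lit 152) (nat_lit 19683912601011) (nat_lit 0) (nat_lit 1045385336574) (nat_lit 25) (nat_lit 5) (nat_lit 27) (nat_lit 4) (nat_lit 25) (nat_lit 4) (nat_lit 417) (nat_lit 401) (nat_lit 202)))) (XT.nd (nat_lit 51948) (nat_lit 0) (nat_lit 988) (XT.nd (nat_lit 51870) (nat_lit 0) (nat_lit 988) (XT.lf (nat_lit 0) (nat_lit 28828037062480) (nat_lit 76) (nat_lit 53546927598568) (nat_lit 76) (nat_lit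 41811620071) (nat_lit 24) (nat_lit 4) (nat_lit 25) (nat_lit 5) (nat_lit 25) (nat_lit 4) (nat_lit 418) (nat_lit 401) (nat_lit 201)) (XT.lf (nat_lit 0) (nat_lit 3386907150263) (nat_lit 380) (nat_lit 4180182619784) (nat_lit 380) (nat_lit 4180182619784) (nat_lit 37) (nat_lit 3) (nat_lit 42) (nat_lit 3) (nat_lit 42) (nat_lit 5) (nat_lit 402) (nat_lit 402) (nat_lit 216))) (XT.nd (nat_lit 78) (nat_lit 0) (nat_lit 76) (XT.lf (nat_lit 76) (nat_lit 3609448402113) (nat_lit 0) (nat_lit 3821861532227) (nat_lit 380) (nat_lit 17802906769610) (nat_lit 38) (nat_lit 5) (nat_lit 37) (nat_lit 3) (nat_lit 42) (nat_lit 5) (nat_lit 403) (nat_lit 402) (nat_lit 215)) (XT.lf (nat_lit 0) (nat_lit 9025686112219) (nat_lit 304) (nat_lit 9256198522029) (nat_lit 380) (nat_lit 8827216352779) (nat_lit 38) (nat_lit 5) (nat_lit 42) (nat_lit 5) (nat_lit 43) (nat_lit 5) (nat_lit 404) (nat_lit 402) (nat_lit 214))))))) (XT.nd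 (nat_lit 1014) (nat_lit 0) (nat_lit 0) (XT.nd (nat_lit 468) (nat_lit 608) (nat_lit 0) (XT.nd (nat_lit 234) (nat_lit 152) (nat_lit 0) (XT.nd (nat_lit 78) (nat_lit 228) (nat_lit 0) (XT.lf (nat_lit 76) (nat_lit 5253353142740) (nat_lit 0) (nat_lit 6005389131156) (nat_lit 380) (nat_lit 17946547105103) (nat_lit 39) (nat_lit 5) (nat_lit 38) (nat_lit 5) (nat_lit 43) (nat_lit 5) (nat_lit 405) (nat_lit 402) (nat_lit 213)) (XT.nd (nat_lit 78) (nat_lit 304) (nat_lit 0) (XT.lf (nat_lit 0) (nat_lit 14669568588290) (nat_lit 304) (nat_lit 8922685955986) (nat_lit 76) (nat_lit 7897229726221) (nat_lit 39) (nat_lit 5) (nat_lit 43) (nat_lit 5) (nat_lit 40) (nat_lit 5) (nat_lit 406) (nat_lit 402) (nat_lit 212)) (XT.lf (nat_lit 0) (nat_lit 8864126821394) (nat_lit 304) (nat_lit 10380907528320) (nat_lit 380) (nat_lit 14773321721024) (nat_lit 35) (nat_lit 5) (nat_lit 39) (nat_lit 5) (nat_lit 40) (nat_lit 5) (nat_lit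 407) (nat_lit 402) (nat_lit 211)))) (XT.nd (nat_lit 78) (nat_lit 152) (nat_lit 0) (XT.lf (nat_lit 0) (nat_lit 25194703773139) (nat_lit 380) (nat_lit 6756317596040) (nat_lit 76) (nat_lit 4872354702170) (nat_lit 35) (nat_lit 5) (nat_lit 40) (nat_lit 5) (nat_lit 36) (nat_lit 5) (nat_lit 408) (nat_lit 402) (nat_lit 210)) (XT.nd (nat_lit 78) (nat_lit 0) (nat_lit 0) (XT.lf (nat_lit 0) (nat_lit 15266040354052) (nat_lit 152) (nat_lit 17897246362084) (nat_lit 228) (nat_lit 6716892890005) (nat_lit 33) (nat_lit 5) (nat_lit 35) (nat_lit 5) (nat_lit 36) (nat_lit 5) (nat_lit 409) (nat_lit 402) (nat_lit 209)) (XT.lf (nat_lit 0) (nat_lit 41351069962839) (nat_lit 152) (nat_lit 1329258284802) (nat_lit 228) (nat_lit 662199751454) (nat_lit 33) (nat_lit 5) (nat_lit 35) (nat_lit 5) (nat_lit 36) (nat_lit 5) (nat_lit 410) (nat_lit 402) (nat_lit 208))))) (XT.nd (nat_lit 234) (nat_lit 304) (nat_lit 0) (XT.nd (nat_lit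 78) (nat_lit 152) (nat_lit 0) (XT.lf (nat_lit 0) (nat_lit 7617705550452) (nat_lit 152) (nat_lit 21834747767501) (nat_lit 76) (nat_lit 17550949590627) (nat_lit 31) (nat_lit 5) (nat_lit 33) (nat_lit 5) (nat_lit 32) (nat_lit 5) (nat_lit 411) (nat_lit 402) (nat_lit 207)) (XT.nd (nat_lit 78) (nat_lit 0) (nat_lit 0) (XT.lf (nat_lit 0) (nat_lit 5849805520936) (nat_lit 152) (nat_lit 11636576506243) (nat_lit 228) (nat_lit 33660109725972) (nat_lit 29) (nat_lit 5) (nat_lit 31) (nat_lit 5) (nat_lit 32) (nat_lit 5) (nat_lit 412) (nat_lit 402) (nat_lit 206)) (XT.lf (nat_lit 0) (nat_lit 30397601621360) (nat_lit 228) (nat_lit 16019749777840) (nat_lit 76) (nat_lit 9259356278317) (nat_lit 29) (nat_lit 5) (nat_lit 32) (nat_lit 5) (nat_lit 30) (nat_lit 4) (nat_lit 413) (nat_lit 402) (nat_lit 205)))) (XT.nd (nat_lit 156) (nat_lit 228) (nat_lit 0) (XT.nd (nat_lit 78) (nat_lit 0) (nat_lit 0) (XT.lf (nat_lit 0)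 (nat_lit 18765213525537) (nat_lit 76) (nat_lit 27811440795073) (nat_lit 152) (nat_lit 14110129145034) (nat_lit 28) (nat_lit 5) (nat_lit 29) (nat_lit 5) (nat_lit 30) (nat_lit 4) (nat_lit 414) (nat_lit 402) (nat_lit 204)) (XT.lf (nat_lit 0) (nat_lit 60568322748309) (nat_lit 76) (nat_lit 5451638187549) (nat_lit 152) (nat_lit 302800284469) (nat_lit 28) (nat_lit 5) (nat_lit 29) (nat_lit 5) (nat_lit 30) (nat_lit 4) (nat_lit 415) (nat_lit 402) (nat_lit 203))) (XT.nd (nat_lit 78) (nat_lit 76) (nat_lit 0) (XT.lf (nat_lit 0) (nat_lit 16734549724582) (nat_lit 152) (nat_lit 34781233973708) (nat_lit 76) (nat_lit 20809773121039) (nat_lit 26) (nat_lit 5) (nat_lit 28) (nat_lit 5) (nat_lit 27) (nat_lit 4) (nat_lit 416) (nat_lit 402) (nat_lit 202)) (XT.lf (nat_lit 0) (nat_lit 9344537713777) (nat_lit 76) (nat_lit 27913626749173) (nat_lit 152) (nat_lit 41824194954637) (nat_lit 25) (nat_lit 5) (nat_lit 26)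 (nat_lit 5) (nat_lit 27) (nat_lit 4) (nat_lit 417) (nat_lit 402) (nat_lit 201)))))) (XT.nd (nat_lit 52338) (nat_lit 0) (nat_lit 304) (XT.nd (nat_lit 52104) (nat_lit 0) (nat_lit 988) (XT.nd (nat_lit 51948) (nat_lit 0) (nat_lit 912) (XT.lf (nat_lit 0) (nat_lit 62733076512383) (nat_lit 152) (nat_lit 22636499491055) (nat_lit 0) (nat_lit 1202193137101) (nat_lit 25) (nat_lit 5) (nat_lit 27) (nat_lit 4) (nat_lit 25) (nat_lit 4) (nat_lit 418) (nat_lit 402) (nat_lit 200)) (XT.nd (nat_lit 78) (nat_lit 0) (nat_lit 0) (XT.lf (nat_lit 0) (nat_lit 3894943222908) (nat_lit 380) (nat_lit 4807210012692) (nat_lit 380) (nat_lit 4807210012692) (nat_lit 37) (nat_lit 3) (nat_lit 42) (nat_lit 3) (nat_lit 42) (nat_lit 5) (nat_lit 403) (nat_lit 403) (nat_lit 214)) (XT.lf (nat_lit 76) (nat_lit 4150865662546) (nat_lit 0) (nat_lit 4395140762133) (nat_lit 380) (nat_lit 20473342784835) (nat_lit 38) (nat_lit 5) (nat_lit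 37) (nat_lit 3) (nat_lit 42) (nat_lit 5) (nat_lit 404) (nat_lit 403) (nat_lit 213)))) (XT.nd (nat_lit 78) (nat_lit 0) (nat_lit 0) (XT.lf (nat_lit 0) (nat_lit 10379539029213) (nat_lit 304) (nat_lit 10644628300206) (nat_lit 380) (nat_lit 10151298805639) (nat_lit 38) (nat_lit 5) (nat_lit 42) (nat_lit 5) (nat_lit 43) (nat_lit 5) (nat_lit 405) (nat_lit 403) (nat_lit 212)) (XT.nd (nat_lit 78) (nat_lit 0) (nat_lit 76) (XT.lf (nat_lit 76) (nat_lit 6041356114273) (nat_lit 0) (nat_lit 6906197500853) (nat_lit 380) (nat_lit 20638529170702) (nat_lit 39) (nat_lit 5) (nat_lit 38) (nat_lit 5) (nat_lit 43) (nat_lit 5) (nat_lit 406) (nat_lit 403) (nat_lit 211)) (XT.lf (nat_lit 0) (nat_lit 16870003876659) (nat_lit 304) (nat_lit 10261088849258) (nat_lit 76) (nat_lit 9081814185136) (nat_lit 39) (nat_lit 5) (nat_lit 43) (nat_lit 5) (nat_lit 40) (nat_lit 5) (nat_lit 407) (nat_lit 403) (nat_lit 210))))) (XT.nd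 (nat_lit 234) (nat_lit 304) (nat_lit 0) (XT.nd (nat_lit 78) (nat_lit 152) (nat_lit 0) (XT.lf (nat_lit 0) (nat_lit 10193745844723) (nat_lit 304) (nat_lit 11938043657562) (nat_lit 380) (nat_lit 16989319979047) (nat_lit 35) (nat_lit 5) (nat_lit 39) (nat_lit 5) (nat_lit 40) (nat_lit 5) (nat_lit 408) (nat_lit 403) (nat_lit 209)) (XT.nd (nat_lit 78) (nat_lit 152) (nat_lit 0) (XT.lf (nat_lit 0) (nat_lit 28973909339209) (nat_lit 380) (nat_lit 7769765235327) (nat_lit 76) (nat_lit 5603207907500) (nat_lit 35) (nat_lit 5) (nat_lit 40) (nat_lit 5) (nat_lit 36) (nat_lit 5) (nat_lit 409) (nat_lit 403) (nat_lit 208)) (XT.lf (nat_lit 0) (nat_lit 17555946407274) (nat_lit 152) (nat_lit 20581833316374) (nat_lit 228) (nat_lit 7724426823401) (nat_lit 33) (nat_lit 5) (nat_lit 35) (nat_lit 5) (nat_lit 36) (nat_lit 5) (nat_lit 410) (nat_lit 403) (nat_lit 207)))) (XT.nd (nat_lit 156) (nat_lit 152) (nat_lit 0) (XT.nd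 (nat_lit 78) (nat_lit 152) (nat_lit 0) (XT.lf (nat_lit 0) (nat_lit 47553730457363) (nat_lit 152) (nat_lit 1528647027502) (nat_lit 228) (nat_lit 761529714081) (nat_lit 33) (nat_lit 5) (nat_lit 35) (nat_lit 5) (nat_lit 36) (nat_lit 5) (nat_lit 411) (nat_lit 403) (nat_lit 206)) (XT.lf (nat_lit 0) (nat_lit 8760361383098) (nat_lit 152) (nat_lit 25109959932513) (nat_lit 76) (nat_lit 20183592029245) (nat_lit 31) (nat_lit 5) (nat_lit 33) (nat_lit 5) (nat_lit 32) (nat_lit 5) (nat_lit 412) (nat_lit 403) (nat_lit 205))) (XT.nd (nat_lit 78) (nat_lit 0) (nat_lit 0) (XT.lf (nat_lit 0) (nat_lit 6727276349184) (nat_lit 152) (nat_lit 13382062982143) (nat_lit 228) (nat_lit 38709126184786) (nat_lit 29) (nat_lit 5) (nat_lit 31) (nat_lit 5) (nat_lit 32) (nat_lit 5) (nat_lit 413) (nat_lit 403) (nat_lit 204)) (XT.lf (nat_lit 0) (nat_lit 34957241864627) (nat_lit 228) (nat_lit 18422712244415) (nat_lit 76) (nat_lit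 10648259720092) (nat_lit 29) (nat_lit 5) (nat_lit 32) (nat_lit 5) (nat_lit 30) (nat_lit 4) (nat_lit 414) (nat_lit 403) (nat_lit 203))))))))
noncomputable def xc123 : XT := (XT.nd (nat_lit 105612) (nat_lit 0) (nat_lit 0) (XT.nd (nat_lit 52884) (nat_lit 1596) (nat_lit 0) (XT.nd (nat_lit 52338) (nat_lit 0) (nat_lit 608) (XT.nd (nat_lit 234) (nat_lit 76) (nat_lit 0) (XT.nd (nat_lit 78) (nat_lit 152) (nat_lit 0) (XT.lf (nat_lit 0) (nat_lit 21579995554465) (nat_lit 76) (nat_lit 31983156914296) (nat_lit 152) (nat_lit 16226648516721) (nat_lit 28) (nat_lit 5) (nat_lit 29) (nat_lit 5) (nat_lit 30) (nat_lit 4) (nat_lit 415) (nat_lit 403) (nat_lit 202)) (XT.nd (nat_lit 78) (nat_lit 152) (nat_lit 0) (XT.lf (nat_lit 0) (nat_lit 69653571160640) (nat_lit 76) (nat_lit 6269383915648) (nat_lit 152) (nat_lit 348220327079) (nat_lit 28) (nat_lit 5) (nat_lit 29) (nat_lit 5) (nat_lit 30) (nat_lit 4) (nat_lit 416)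 (nat_lit 403) (nat_lit 201)) (XT.lf (nat_lit 0) (nat_lit 19244732183322) (nat_lit 152) (nat_lit 39998419069673) (nat_lit 76) (nat_lit 23931239089226) (nat_lit 26) (nat_lit 5) (nat_lit 28) (nat_lit 5) (nat_lit 27) (nat_lit 4) (nat_lit 417) (nat_lit 403) (nat_lit 200)))) (XT.nd (nat_lit 78) (nat_lit 0) (nat_lit 0) (XT.lf (nat_lit 0) (nat_lit 10746218370932) (nat_lit 76) (nat_lit 32100670761510) (nat_lit 152) (nat_lit 48097824197776) (nat_lit 25) (nat_lit 5) (nat_lit 26) (nat_lit 5) (nat_lit 27) (nat_lit 4) (nat_lit 418) (nat_lit 403) (nat_lit 199)) (XT.nd (nat_lit 51948) (nat_lit 0) (nat_lit 912) (XT.lf (nat_lit 0) (nat_lit 72143037989284) (nat_lit 152) (nat_lit 26031974414632) (nat_lit 0) (nat_lit 1382522107697) (nat_lit 25) (nat_lit 5) (nat_lit 27) (nat_lit 4) (nat_lit 25) (nat_lit 4) (nat_lit 419) (nat_lit 403) (nat_lit 198)) (XT.lf (nat_lit 0) (nat_lit 4479184706424) (nat_lit 380) (nat_lit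 5528291514550) (nat_lit 380) (nat_lit 5528291514550) (nat_lit 37) (nat_lit 3) (nat_lit 42) (nat_lit 3) (nat_lit 42) (nat_lit 5) (nat_lit 404) (nat_lit 404) (nat_lit 212))))) (XT.nd (nat_lit 234) (nat_lit 304) (nat_lit 0) (XT.nd (nat_lit 78) (nat_lit 0) (nat_lit 76) (XT.lf (nat_lit 76) (nat_lit 4773495512016) (nat_lit 0) (nat_lit 5054411876508) (nat_lit 380) (nat_lit 23544344202398) (nat_lit 38) (nat_lit 5) (nat_lit 37) (nat_lit 3) (nat_lit 42) (nat_lit 5) (nat_lit 405) (nat_lit 404) (nat_lit 211)) (XT.nd (nat_lit 78) (nat_lit 0) (nat_lit 0) (XT.lf (nat_lit 0) (nat_lit 11936469883716) (nat_lit 304) (nat_lit 12241322545141) (nat_lit 380) (nat_lit 11673993626441) (nat_lit 38) (nat_lit 5) (nat_lit 42) (nat_lit 5) (nat_lit 43) (nat_lit 5) (nat_lit 406) (nat_lit 404) (nat_lit 210)) (XT.lf (nat_lit 76) (nat_lit 6947559531506) (nat_lit 0) (nat_lit 7942127125998) (nat_lit 380) (nat_lit 23734308546182)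 (nat_lit 39) (nat_lit 5) (nat_lit 38) (nat_lit 5) (nat_lit 43) (nat_lit 5) (nat_lit 407) (nat_lit 404) (nat_lit 209)))) (XT.nd (nat_lit 156) (nat_lit 152) (nat_lit 0) (XT.nd (nat_lit 78) (nat_lit 304) (nat_lit 0) (XT.lf (nat_lit 0) (nat_lit 19400504458253) (nat_lit 304) (nat_lit 11800252176552) (nat_lit 76) (nat_lit 10444086312893) (nat_lit 39) (nat_lit 5) (nat_lit 43) (nat_lit 5) (nat_lit 40) (nat_lit 5) (nat_lit 408) (nat_lit 404) (nat_lit 208)) (XT.lf (nat_lit 0) (nat_lit 11722807721522) (nat_lit 304) (nat_lit 13728750206192) (nat_lit 380) (nat_lit 19537717975806) (nat_lit 35) (nat_lit 5) (nat_lit 39) (nat_lit 5) (nat_lit 40) (nat_lit 5) (nat_lit 409) (nat_lit 404) (nat_lit 207))) (XT.nd (nat_lit 78) (nat_lit 152) (nat_lit 0) (XT.lf (nat_lit 0) (nat_lit 33319995740165) (nat_lit 380) (nat_lit 8935230020536) (nat_lit 76) (nat_lit 6443689093629) (nat_lit 35) (nat_lit 5) (nat_lit 40) (nat_lit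 5) (nat_lit 36) (nat_lit 5) (nat_lit 410) (nat_lit 404) (nat_lit 206)) (XT.lf (nat_lit 0) (nat_lit 20189338368450) (nat_lit 152) (nat_lit 23669108313813) (nat_lit 228) (nat_lit 8883090846832) (nat_lit 33) (nat_lit 5) (nat_lit 35) (nat_lit 5) (nat_lit 36) (nat_lit 5) (nat_lit 411) (nat_lit 404) (nat_lit 205)))))) (XT.nd (nat_lit 468) (nat_lit 1824) (nat_lit 0) (XT.nd (nat_lit 234) (nat_lit 76) (nat_lit 0) (XT.nd (nat_lit 78) (nat_lit 304) (nat_lit 0) (XT.lf (nat_lit 0) (nat_lit 54686790026043) (nat_lit 152) (nat_lit 1757944081613) (nat_lit 228) (nat_lit 875759171124) (nat_lit 33) (nat_lit 5) (nat_lit 35) (nat_lit 5) (nat_lit 36) (nat_lit 5) (nat_lit 412) (nat_lit 404) (nat_lit 204)) (XT.nd (nat_lit 78) (nat_lit 152) (nat_lit 0) (XT.lf (nat_lit 0) (nat_lit 10074415590621) (nat_lit 152) (nat_lit 28876453922305) (nat_lit 76) (nat_lit 23211130833650) (nat_lit 31) (nat_lit 5) (nat_lit 33) (nat_lit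 5) (nat_lit 32) (nat_lit 5) (nat_lit 413) (nat_lit 404) (nat_lit 203)) (XT.lf (nat_lit 0) (nat_lit 7736367801642) (nat_lit 152) (nat_lit 15389372429438) (nat_lit 228) (nat_lit 44515495112442) (nat_lit 29) (nat_lit 5) (nat_lit 31) (nat_lit 5) (nat_lit 32) (nat_lit 5) (nat_lit 414) (nat_lit 404) (nat_lit 202)))) (XT.nd (nat_lit 78) (nat_lit 76) (nat_lit 0) (XT.lf (nat_lit 0) (nat_lit 40200828144369) (nat_lit 228) (nat_lit 21186119081001) (nat_lit 76) (nat_lit 12245498678128) (nat_lit 29) (nat_lit 5) (nat_lit 32) (nat_lit 5) (nat_lit 30) (nat_lit 4) (nat_lit 415) (nat_lit 404) (nat_lit 201)) (XT.nd (nat_lit 78) (nat_lit 0) (nat_lit 0) (XT.lf (nat_lit 0) (nat_lit 24816994887708) (nat_lit 76) (nat_lit 36780630451413) (nat_lit 152) (nat_lit 18660645794178) (nat_lit 28) (nat_lit 5) (nat_lit 29) (nat_lit 5) (nat_lit 30) (nat_lit 4) (nat_lit 416) (nat_lit 404) (nat_lit 200)) (XT.lf (nat_lit 0) (nat_lit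 80101606834799) (nat_lit 76) (nat_lit 7209791502971) (nat_lit 152) (nat_lit 400453376097) (nat_lit 28) (nat_lit 5) (nat_lit 29) (nat_lit 5) (nat_lit 30) (nat_lit 4) (nat_lit 417) (nat_lit 404) (nat_lit 199))))) (XT.nd (nat_lit 2184) (nat_lit 152) (nat_lit 0) (XT.nd (nat_lit 78) (nat_lit 1520) (nat_lit 0) (XT.lf (nat_lit 0) (nat_lit 22131442010859) (nat_lit 152) (nat_lit 45998181930054) (nat_lit 76) (nat_lit 27520924952634) (nat_lit 26) (nat_lit 5) (nat_lit 28) (nat_lit 5) (nat_lit 27) (nat_lit 4) (nat_lit 418) (nat_lit 404) (nat_lit 198)) (XT.nd (nat_lit 2028) (nat_lit 1444) (nat_lit 0) (XT.lf (nat_lit 0) (nat_lit 12358151126638) (nat_lit 76) (nat_lit 36915771375708) (nat_lit 152) (nat_lit 55312497827400) (nat_lit 25) (nat_lit 5) (nat_lit 26) (nat_lit 5) (nat_lit 27) (nat_lit 4) (nat_lit 419) (nat_lit 404) (nat_lit 197)) (XT.lf (nat_lit 0) (nat_lit 747271504158322) (nat_lit 76) (nat_lit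 378243571960975) (nat_lit 76) (nat_lit 343063089686932) (nat_lit 6) (nat_lit 4) (nat_lit 7) (nat_lit 5) (nat_lit 7) (nat_lit 4) (nat_lit 445) (nat_lit 404) (nat_lit 171)))) (XT.nd (nat_lit 49920) (nat_lit 0) (nat_lit 2508) (XT.nd (nat_lit 78) (nat_lit 152) (nat_lit 0) (XT.lf (nat_lit 0) (nat_lit 1317220763407894) (nat_lit 76) (nat_lit 187254929979536) (nat_lit 76) (nat_lit 152074447705494) (nat_lit 6) (nat_lit 4) (nat_lit 7) (nat_lit 5) (nat_lit 7) (nat_lit 4) (nat_lit 446) (nat_lit 404) (nat_lit 170)) (XT.lf (nat_lit 0) (nat_lit 67647742219946) (nat_lit 152) (nat_lit 1766679489386713) (nat_lit 0) (nat_lit 37056018503386) (nat_lit 4) (nat_lit 5) (nat_lit 6) (nat_lit 4) (nat_lit 4) (nat_lit 4) (nat_lit 447) (nat_lit 404) (nat_lit 169))) (XT.nd (nat_lit 78) (nat_lit 0) (nat_lit 0) (XT.lf (nat_lit 0) (nat_lit 5151062412448) (nat_lit 380) (nat_lit 6357535241698) (nat_lit 380) (nat_lit 6357535241698)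 (nat_lit 37) (nat_lit 3) (nat_lit 42) (nat_lit 3) (nat_lit 42) (nat_lit 5) (nat_lit 405) (nat_lit 405) (nat_lit 210)) (XT.lf (nat_lit 76) (nat_lit 5489519838884) (nat_lit 0) (nat_lit 5812573658025) (nat_lit 380) (nat_lit 27075995832634) (nat_lit 38) (nat_lit 5) (nat_lit 37) (nat_lit 3) (nat_lit 42) (nat_lit 5) (nat_lit 406) (nat_lit 405) (nat_lit 209))))))) (XT.nd (nat_lit 1014) (nat_lit 1672) (nat_lit 0) (XT.nd (nat_lit 468) (nat_lit 532) (nat_lit 0) (XT.nd (nat_lit 234) (nat_lit 380) (nat_lit 0) (XT.nd (nat_lit 78) (nat_lit 0) (nat_lit 0) (XT.lf (nat_lit 0) (nat_lit 13726940366366) (nat_lit 304) (nat_lit 14077520926839) (nat_lit 380) (nat_lit 13425092670375) (nat_lit 38) (nat_lit 5) (nat_lit 42) (nat_lit 5) (nat_lit 43) (nat_lit 5) (nat_lit 407) (nat_lit 405) (nat_lit 208)) (XT.nd (nat_lit 78) (nat_lit 0) (nat_lit 76) (XT.lf (nat_lit 76) (nat_lit 7989693461302) (nat_lit 0) (nat_lit 9133446194911)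 (nat_lit 380) (nat_lit 27294454828014) (nat_lit 39) (nat_lit 5) (nat_lit 38) (nat_lit 5) (nat_lit 43) (nat_lit 5) (nat_lit 408) (nat_lit 405) (nat_lit 207)) (XT.lf (nat_lit 0) (nat_lit 22310580127062) (nat_lit 304) (nat_lit 13570290002963) (nat_lit 76) (nat_lit 12010699259816) (nat_lit 39) (nat_lit 5) (nat_lit 43) (nat_lit 5) (nat_lit 40) (nat_lit 5) (nat_lit 409) (nat_lit 405) (nat_lit 206)))) (XT.nd (nat_lit 78) (nat_lit 152) (nat_lit 0) (XT.lf (nat_lit 0) (nat_lit 13481228879819) (nat_lit 304) (nat_lit 15788062737117) (nat_lit 380) (nat_lit 22468375672102) (nat_lit 35) (nat_lit 5) (nat_lit 39) (nat_lit 5) (nat_lit 40) (nat_lit 5) (nat_lit 410) (nat_lit 405) (nat_lit 205)) (XT.nd (nat_lit 78) (nat_lit 152) (nat_lit 0) (XT.lf (nat_lit 0) (nat_lit 38317995101246) (nat_lit 380) (nat_lit 10275514523549) (nat_lit 76) (nat_lit 7410242457676) (nat_lit 35) (nat_lit 5) (nat_lit 40) (nat_lit 5)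 (nat_lit 36) (nat_lit 5) (nat_lit 411) (nat_lit 405) (nat_lit 204)) (XT.lf (nat_lit 0) (nat_lit 23217739123783) (nat_lit 152) (nat_lit 27219474560872) (nat_lit 228) (nat_lit 10215554473797) (nat_lit 33) (nat_lit 5) (nat_lit 35) (nat_lit 5) (nat_lit 36) (nat_lit 5) (nat_lit 412) (nat_lit 405) (nat_lit 203))))) (XT.nd (nat_lit 234) (nat_lit 228) (nat_lit 0) (XT.nd (nat_lit 78) (nat_lit 304) (nat_lit 0) (XT.lf (nat_lit 0) (nat_lit 62889808530006) (nat_lit 152) (nat_lit 2021635693843) (nat_lit 228) (nat_lit 1007123046741) (nat_lit 33) (nat_lit 5) (nat_lit 35) (nat_lit 5) (nat_lit 36) (nat_lit 5) (nat_lit 413) (nat_lit 405) (nat_lit 202)) (XT.nd (nat_lit 78) (nat_lit 152) (nat_lit 0) (XT.lf (nat_lit 0) (nat_lit 11585577929258) (nat_lit 152) (nat_lit 33207922010587) (nat_lit 76) (nat_lit 26692800458710) (nat_lit 31) (nat_lit 5) (nat_lit 33) (nat_lit 5) (nat_lit 32) (nat_lit 5) (nat_lit 414) (nat_lit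 405) (nat_lit 201)) (XT.lf (nat_lit 0) (nat_lit 8896822971950) (nat_lit 152) (nat_lit 17697778293834) (nat_lit 228) (nat_lit 51192819379261) (nat_lit 29) (nat_lit 5) (nat_lit 31) (nat_lit 5) (nat_lit 32) (nat_lit 5) (nat_lit 415) (nat_lit 405) (nat_lit 200)))) (XT.nd (nat_lit 156) (nat_lit 152) (nat_lit 0) (XT.nd (nat_lit 78) (nat_lit 76) (nat_lit 0) (XT.lf (nat_lit 0) (nat_lit 46230952366061) (nat_lit 228) (nat_lit 24364036943093) (nat_lit 76) (nat_lit 14082323479863) (nat_lit 29) (nat_lit 5) (nat_lit 32) (nat_lit 5) (nat_lit 30) (nat_lit 4) (nat_lit 416) (nat_lit 405) (nat_lit 199)) (XT.lf (nat_lit 0) (nat_lit 28539544120919) (nat_lit 76) (nat_lit 42297725019104) (nat_lit 152) (nat_lit 21459742663266) (nat_lit 28) (nat_lit 5) (nat_lit 29) (nat_lit 5) (nat_lit 30) (nat_lit 4) (nat_lit 417) (nat_lit 405) (nat_lit 198))) (XT.nd (nat_lit 78) (nat_lit 152) (nat_lit 0) (XT.lf (nat_lit 0) (nat_lit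 92116847860067) (nat_lit 76) (nat_lit 8291260228399) (nat_lit 152) (nat_lit 460521382477) (nat_lit 28) (nat_lit 5) (nat_lit 29) (nat_lit 5) (nat_lit 30) (nat_lit 4) (nat_lit 418) (nat_lit 405) (nat_lit 197)) (XT.lf (nat_lit 0) (nat_lit 25451158312518) (nat_lit 152) (nat_lit 52897909219510) (nat_lit 76) (nat_lit 31649063695548) (nat_lit 26) (nat_lit 5) (nat_lit 28) (nat_lit 5) (nat_lit 27) (nat_lit 4) (nat_lit 419) (nat_lit 405) (nat_lit 196)))))) (XT.nd (nat_lit 52026) (nat_lit 0) (nat_lit 2356) (XT.nd (nat_lit 2028) (nat_lit 152) (nat_lit 0) (XT.nd (nat_lit 1872) (nat_lit 1444) (nat_lit 0) (XT.lf (nat_lit 0) (nat_lit 14211873795683) (nat_lit 76) (nat_lit 42453137082043) (nat_lit 152) (nat_lit 63609372501478) (nat_lit 25) (nat_lit 5) (nat_lit 26) (nat_lit 5) (nat_lit 27) (nat_lit 4) (nat_lit 420) (nat_lit 405) (nat_lit 195)) (XT.nd (nat_lit 78) (nat_lit 76) (nat_lit 0) (XT.lf (nat_lit 0)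 (nat_lit 594388847323231) (nat_lit 152) (nat_lit 187838169016758) (nat_lit 0) (nat_lit 553931292708081) (nat_lit 7) (nat_lit 5) (nat_lit 9) (nat_lit 4) (nat_lit 7) (nat_lit 4) (nat_lit 444) (nat_lit 405) (nat_lit 171)) (XT.lf (nat_lit 0) (nat_lit 289412970532509) (nat_lit 76) (nat_lit 625968749736553) (nat_lit 76) (nat_lit 585511195121406) (nat_lit 6) (nat_lit 4) (nat_lit 7) (nat_lit 5) (nat_lit 7) (nat_lit 4) (nat_lit 445) (nat_lit 405) (nat_lit 170)))) (XT.nd (nat_lit 78) (nat_lit 152) (nat_lit 0) (XT.lf (nat_lit 0) (nat_lit 859362229782079) (nat_lit 76) (nat_lit 434980107755117) (nat_lit 76) (nat_lit 394522553139968) (nat_lit 6) (nat_lit 4) (nat_lit 7) (nat_lit 5) (nat_lit 7) (nat_lit 4) (nat_lit 446) (nat_lit 405) (nat_lit 169)) (XT.nd (nat_lit 78) (nat_lit 152) (nat_lit 0) (XT.lf (nat_lit 0) (nat_lit 1514803877919085) (nat_lit 76) (nat_lit 215343169476463) (nat_lit 76) (nat_lit 174885614861315)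 (nat_lit 6) (nat_lit 4) (nat_lit 7) (nat_lit 5) (nat_lit 7) (nat_lit 4) (nat_lit 447) (nat_lit 405) (nat_lit 168)) (XT.lf (nat_lit 0) (nat_lit 77794903552938) (nat_lit 152) (nat_lit 2031681412794715) (nat_lit 0) (nat_lit 42614421278895) (nat_lit 4) (nat_lit 5) (nat_lit 6) (nat_lit 4) (nat_lit 4) (nat_lit 4) (nat_lit 448) (nat_lit 405) (nat_lit 167))))) (XT.nd (nat_lit 234) (nat_lit 152) (nat_lit 0) (XT.nd (nat_lit 78) (nat_lit 0) (nat_lit 0) (XT.lf (nat_lit 0) (nat_lit 5923721774361) (nat_lit 380) (nat_lit 7311165527926) (nat_lit 380) (nat_lit 7311165527926) (nat_lit 37) (nat_lit 3) (nat_lit 42) (nat_lit 3) (nat_lit 42) (nat_lit 5) (nat_lit 406) (nat_lit 406) (nat_lit 208)) (XT.nd (nat_lit 78) (nat_lit 0) (nat_lit 76) (XT.lf (nat_lit 76) (nat_lit 6312947814767) (nat_lit 0) (nat_lit 6684459706760) (nat_lit 380) (nat_lit 31137395207435) (nat_lit 38) (nat_lit 5) (nat_lit 37) (nat_lit 3) (nat_lit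 42) (nat_lit 5) (nat_lit 407) (nat_lit 406) (nat_lit 207)) (XT.lf (nat_lit 0) (nat_lit 15785981421390) (nat_lit 304) (nat_lit 16189149065810) (nat_lit 380) (nat_lit 15438856570907) (nat_lit 38) (nat_lit 5) (nat_lit 42) (nat_lit 5) (nat_lit 43) (nat_lit 5) (nat_lit 408) (nat_lit 406) (nat_lit 206)))) (XT.nd (nat_lit 156) (nat_lit 228) (nat_lit 0) (XT.nd (nat_lit 78) (nat_lit 0) (nat_lit 76) (XT.lf (nat_lit 76) (nat_lit 9188147480550) (nat_lit 0) (nat_lit 10503463124157) (nat_lit 380) (nat_lit 31388623052144) (nat_lit 39) (nat_lit 5) (nat_lit 38) (nat_lit 5) (nat_lit 43) (nat_lit 5) (nat_lit 409) (nat_lit 406) (nat_lit 205)) (XT.lf (nat_lit 0) (nat_lit 25657167146176) (nat_lit 304) (nat_lit 15605833503353) (nat_lit 76) (nat_lit 13812304148781) (nat_lit 39) (nat_lit 5) (nat_lit 43) (nat_lit 5) (nat_lit 40) (nat_lit 5) (nat_lit 410) (nat_lit 406) (nat_lit 204))) (XT.nd (nat_lit 78) (nat_lit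 0) (nat_lit 0) (XT.lf (nat_lit 0) (nat_lit 15503413211844) (nat_lit 304) (nat_lit 18156272147682) (nat_lit 380) (nat_lit 25838632022860) (nat_lit 35) (nat_lit 5) (nat_lit 39) (nat_lit 5) (nat_lit 40) (nat_lit 5) (nat_lit 411) (nat_lit 406) (nat_lit 203)) (XT.lf (nat_lit 0) (nat_lit 44065694366476) (nat_lit 380) (nat_lit 11816841702030) (nat_lit 76) (nat_lit 8521778826330) (nat_lit 35) (nat_lit 5) (nat_lit 40) (nat_lit 5) (nat_lit 36) (nat_lit 5) (nat_lit 412) (nat_lit 406) (nat_lit 202))))))))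
noncomputable def xc124 : XT := (XT.nd (nat_lit 53664) (nat_lit 0) (nat_lit 76) (XT.nd (nat_lit 52650) (nat_lit 0) (nat_lit 1672) (XT.nd (nat_lit 468) (nat_lit 1672) (nat_lit 0) (XT.nd (nat_lit 234) (nat_lit 228) (nat_lit 0) (XT.nd (nat_lit 78) (nat_lit 152) (nat_lit 0) (XT.lf (nat_lit 0) (nat_lit 26700399992400) (nat_lit 152) (nat_lit 31302395744993) (nat_lit 228) (nat_lit 11747887644822) (nat_lit 33) (nat_lit 5) (nat_lit 35) (nat_lit 5) (nat_lit 36) (nat_lit 5) (nat_lit 413) (nat_lit 406) (nat_lit 201)) (XT.nd (nat_lit 78) (nat_lit 152) (nat_lit 0) (XT.lf (nat_lit 0) (nat_lit 72323279809549) (nat_lit 152) (nat_lit 2324881047911) (nat_lit 228) (nat_lit 1158191503713) (nat_lit 33) (nat_lit 5) (nat_lit 35) (nat_lit 5) (nat_lit 36) (nat_lit 5) (nat_lit 414) (nat_lit 406) (nat_lit 200)) (XT.lf (nat_lit 0) (nat_lit 13323414618681) (nat_lit 152) (nat_lit 38189110312126) (nat_lit 76) (nat_lit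 30696720527528) (nat_lit 31) (nat_lit 5) (nat_lit 33) (nat_lit 5) (nat_lit 32) (nat_lit 5) (nat_lit 415) (nat_lit 406) (nat_lit 199)))) (XT.nd (nat_lit 78) (nat_lit 76) (nat_lit 0) (XT.lf (nat_lit 0) (nat_lit 10231346417790) (nat_lit 152) (nat_lit 20352445037893) (nat_lit 228) (nat_lit 58871742286114) (nat_lit 29) (nat_lit 5) (nat_lit 31) (nat_lit 5) (nat_lit 32) (nat_lit 5) (nat_lit 416) (nat_lit 406) (nat_lit 198)) (XT.nd (nat_lit 78) (nat_lit 76) (nat_lit 0) (XT.lf (nat_lit 0) (nat_lit 53165595220998) (nat_lit 228) (nat_lit 28018642484513) (nat_lit 76) (nat_lit 16194672001855) (nat_lit 29) (nat_lit 5) (nat_lit 32) (nat_lit 5) (nat_lit 30) (nat_lit 4) (nat_lit 417) (nat_lit 406) (nat_lit 197)) (XT.lf (nat_lit 0) (nat_lit 32820475739100) (nat_lit 76) (nat_lit 48642383771952) (nat_lit 152) (nat_lit 24678704062726) (nat_lit 28) (nat_lit 5) (nat_lit 29) (nat_lit 5) (nat_lit 30) (nat_lit 4)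 (nat_lit 418) (nat_lit 406) (nat_lit 196))))) (XT.nd (nat_lit 2028) (nat_lit 76) (nat_lit 0) (XT.nd (nat_lit 78) (nat_lit 1596) (nat_lit 0) (XT.lf (nat_lit 0) (nat_lit 105934375039115) (nat_lit 76) (nat_lit 9534949262644) (nat_lit 152) (nat_lit 529599589823) (nat_lit 28) (nat_lit 5) (nat_lit 29) (nat_lit 5) (nat_lit 30) (nat_lit 4) (nat_lit 419) (nat_lit 406) (nat_lit 195)) (XT.nd (nat_lit 1872) (nat_lit 1444) (nat_lit 0) (XT.lf (nat_lit 0) (nat_lit 29268832059418) (nat_lit 152) (nat_lit 60832595602397) (nat_lit 76) (nat_lit 36396423249894) (nat_lit 26) (nat_lit 5) (nat_lit 28) (nat_lit 5) (nat_lit 27) (nat_lit 4) (nat_lit 420) (nat_lit 406) (nat_lit 194)) (XT.lf (nat_lit 0) (nat_lit 374538275410978) (nat_lit 152) (nat_lit 667499489958081) (nat_lit 0) (nat_lit 328012087603558) (nat_lit 7) (nat_lit 5) (nat_lit 9) (nat_lit 4) (nat_lit 7) (nat_lit 4) (nat_lit 444) (nat_lit 406) (nat_lit 170))))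 (XT.nd (nat_lit 78) (nat_lit 76) (nat_lit 0) (XT.lf (nat_lit 0) (nat_lit 683547174421718) (nat_lit 152) (nat_lit 216013894369265) (nat_lit 0) (nat_lit 637020986614295) (nat_lit 7) (nat_lit 5) (nat_lit 9) (nat_lit 4) (nat_lit 7) (nat_lit 4) (nat_lit 445) (nat_lit 406) (nat_lit 169)) (XT.nd (nat_lit 78) (nat_lit 0) (nat_lit 0) (XT.lf (nat_lit 0) (nat_lit 332824916112401) (nat_lit 76) (nat_lit 719864062197029) (nat_lit 76) (nat_lit 673337874389608) (nat_lit 6) (nat_lit 4) (nat_lit 7) (nat_lit 5) (nat_lit 7) (nat_lit 4) (nat_lit 446) (nat_lit 406) (nat_lit 168)) (XT.lf (nat_lit 0) (nat_lit 988266564249404) (nat_lit 76) (nat_lit 500227123918379) (nat_lit 76) (nat_lit 453700936110956) (nat_lit 6) (nat_lit 4) (nat_lit 7) (nat_lit 5) (nat_lit 7) (nat_lit 4) (nat_lit 447) (nat_lit 406) (nat_lit 167)))))) (XT.nd (nat_lit 468) (nat_lit 532) (nat_lit 0) (XT.nd (nat_lit 234) (nat_lit 152) (nat_lit 0)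 (XT.nd (nat_lit 78) (nat_lit 0) (nat_lit 0) (XT.lf (nat_lit 0) (nat_lit 6812280040549) (nat_lit 380) (nat_lit 8407840357096) (nat_lit 380) (nat_lit 8407840357096) (nat_lit 37) (nat_lit 3) (nat_lit 42) (nat_lit 3) (nat_lit 42) (nat_lit 5) (nat_lit 407) (nat_lit 407) (nat_lit 206)) (XT.nd (nat_lit 78) (nat_lit 0) (nat_lit 76) (XT.lf (nat_lit 76) (nat_lit 7259889987020) (nat_lit 0) (nat_lit 7687128662798) (nat_lit 380) (nat_lit 35808004488480) (nat_lit 38) (nat_lit 5) (nat_lit 37) (nat_lit 3) (nat_lit 42) (nat_lit 5) (nat_lit 408) (nat_lit 407) (nat_lit 205)) (XT.lf (nat_lit 0) (nat_lit 18153878634651) (nat_lit 304) (nat_lit 18617521425640) (nat_lit 380) (nat_lit 17754685056524) (nat_lit 38) (nat_lit 5) (nat_lit 42) (nat_lit 5) (nat_lit 43) (nat_lit 5) (nat_lit 409) (nat_lit 407) (nat_lit 204)))) (XT.nd (nat_lit 78) (nat_lit 228) (nat_lit 0) (XT.lf (nat_lit 76) (nat_lit 10566369602672) (nat_lit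 0) (nat_lit 12078982592788) (nat_lit 380) (nat_lit 36096916509911) (nat_lit 39) (nat_lit 5) (nat_lit 38) (nat_lit 5) (nat_lit 43) (nat_lit 5) (nat_lit 410) (nat_lit 407) (nat_lit 203)) (XT.nd (nat_lit 78) (nat_lit 304) (nat_lit 0) (XT.lf (nat_lit 0) (nat_lit 29505742218143) (nat_lit 304) (nat_lit 17946708528815) (nat_lit 76) (nat_lit 15884149771092) (nat_lit 39) (nat_lit 5) (nat_lit 43) (nat_lit 5) (nat_lit 40) (nat_lit 5) (nat_lit 411) (nat_lit 407) (nat_lit 202)) (XT.lf (nat_lit 0) (nat_lit 17828925193660) (nat_lit 304) (nat_lit 20879712969833) (nat_lit 380) (nat_lit 29714426826247) (nat_lit 35) (nat_lit 5) (nat_lit 39) (nat_lit 5) (nat_lit 40) (nat_lit 5) (nat_lit 412) (nat_lit 407) (nat_lit 201))))) (XT.nd (nat_lit 234) (nat_lit 380) (nat_lit 0) (XT.nd (nat_lit 78) (nat_lit 152) (nat_lit 0) (XT.lf (nat_lit 0) (nat_lit 50675548521480) (nat_lit 380) (nat_lit 13589367957296) (nat_lit 76)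 (nat_lit 9800045650282) (nat_lit 35) (nat_lit 5) (nat_lit 40) (nat_lit 5) (nat_lit 36) (nat_lit 5) (nat_lit 413) (nat_lit 407) (nat_lit 200)) (XT.nd (nat_lit 78) (nat_lit 0) (nat_lit 0) (XT.lf (nat_lit 0) (nat_lit 30705459991297) (nat_lit 152) (nat_lit 35997755106735) (nat_lit 228) (nat_lit 13510070791511) (nat_lit 33) (nat_lit 5) (nat_lit 35) (nat_lit 5) (nat_lit 36) (nat_lit 5) (nat_lit 414) (nat_lit 407) (nat_lit 199)) (XT.lf (nat_lit 0) (nat_lit 83171771781014) (nat_lit 152) (nat_lit 2673613205092) (nat_lit 228) (nat_lit 1331920229240) (nat_lit 33) (nat_lit 5) (nat_lit 35) (nat_lit 5) (nat_lit 36) (nat_lit 5) (nat_lit 415) (nat_lit 407) (nat_lit 198)))) (XT.nd (nat_lit 156) (nat_lit 76) (nat_lit 0) (XT.nd (nat_lit 78) (nat_lit 152) (nat_lit 0) (XT.lf (nat_lit 0) (nat_lit 15321926811508) (nat_lit 152) (nat_lit 43917476858908) (nat_lit 76) (nat_lit 35301228606664) (nat_lit 31) (nat_lit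 5) (nat_lit 33) (nat_lit 5) (nat_lit 32) (nat_lit 5) (nat_lit 416) (nat_lit 407) (nat_lit 197)) (XT.lf (nat_lit 0) (nat_lit 11766048380493) (nat_lit 152) (nat_lit 23405311793566) (nat_lit 228) (nat_lit 67702503629005) (nat_lit 29) (nat_lit 5) (nat_lit 31) (nat_lit 5) (nat_lit 32) (nat_lit 5) (nat_lit 417) (nat_lit 407) (nat_lit 196))) (XT.nd (nat_lit 78) (nat_lit 76) (nat_lit 0) (XT.lf (nat_lit 0) (nat_lit 61140434504168) (nat_lit 228) (nat_lit 32221438857157) (nat_lit 76) (nat_lit 18623872802142) (nat_lit 29) (nat_lit 5) (nat_lit 32) (nat_lit 5) (nat_lit 30) (nat_lit 4) (nat_lit 418) (nat_lit 407) (nat_lit 195)) (XT.lf (nat_lit 0) (nat_lit 37743547099997) (nat_lit 76) (nat_lit 55938741337733) (nat_lit 152) (nat_lit 28380509672113) (nat_lit 28) (nat_lit 5) (nat_lit 29) (nat_lit 5) (nat_lit 30) (nat_lit 4) (nat_lit 419) (nat_lit 407) (nat_lit 194))))))) (XT.nd (nat_lit 52806) (nat_lit 0)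 (nat_lit 0) (XT.nd (nat_lit 52260) (nat_lit 0) (nat_lit 1976) (XT.nd (nat_lit 1950) (nat_lit 0) (nat_lit 0) (XT.nd (nat_lit 78) (nat_lit 1596) (nat_lit 0) (XT.lf (nat_lit 0) (nat_lit 121824531295008) (nat_lit 76) (nat_lit 10965191652030) (nat_lit 152) (nat_lit 609039528278) (nat_lit 28) (nat_lit 5) (nat_lit 29) (nat_lit 5) (nat_lit 30) (nat_lit 4) (nat_lit 420) (nat_lit 407) (nat_lit 193)) (XT.nd (nat_lit 1794) (nat_lit 1444) (nat_lit 0) (XT.lf (nat_lit 0) (nat_lit 33659156868348) (nat_lit 152) (nat_lit 69957484942727) (nat_lit 76) (nat_lit 41855886737388) (nat_lit 26) (nat_lit 5) (nat_lit 28) (nat_lit 5) (nat_lit 27) (nat_lit 4) (nat_lit 421) (nat_lit 407) (nat_lit 192)) (XT.lf (nat_lit 0) (nat_lit 121710117711887) (nat_lit 152) (nat_lit 1219110009040610) (nat_lit 0) (nat_lit 68205001733351) (nat_lit 7) (nat_lit 5) (nat_lit 9) (nat_lit 4) (nat_lit 7) (nat_lit 4) (nat_lit 444) (nat_lit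 407) (nat_lit 169)))) (XT.nd (nat_lit 78) (nat_lit 0) (nat_lit 0) (XT.lf (nat_lit 0) (nat_lit 430719016722623) (nat_lit 152) (nat_lit 767624413451794) (nat_lit 0) (nat_lit 377213900744091) (nat_lit 7) (nat_lit 5) (nat_lit 9) (nat_lit 4) (nat_lit 7) (nat_lit 4) (nat_lit 445) (nat_lit 407) (nat_lit 168)) (XT.nd (nat_lit 50154) (nat_lit 0) (nat_lit 2280) (XT.lf (nat_lit 0) (nat_lit 786079250584978) (nat_lit 152) (nat_lit 248415978524648) (nat_lit 0) (nat_lit 732574134606445) (nat_lit 7) (nat_lit 5) (nat_lit 9) (nat_lit 4) (nat_lit 7) (nat_lit 4) (nat_lit 446) (nat_lit 407) (nat_lit 167)) (XT.lf (nat_lit 0) (nat_lit 7834122046658) (nat_lit 380) (nat_lit 9669016410645) (nat_lit 380) (nat_lit 9669016410645) (nat_lit 37) (nat_lit 3) (nat_lit 42) (nat_lit 3) (nat_lit 42) (nat_lit 5) (nat_lit 408) (nat_lit 408) (nat_lit 204))))) (XT.nd (nat_lit 234) (nat_lit 304) (nat_lit 0) (XT.nd (nat_lit 78)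 (nat_lit 0) (nat_lit 76) (XT.lf (nat_lit 76) (nat_lit 8348873485101) (nat_lit 0) (nat_lit 8840197962236) (nat_lit 380) (nat_lit 41179205161699) (nat_lit 38) (nat_lit 5) (nat_lit 37) (nat_lit 3) (nat_lit 42) (nat_lit 5) (nat_lit 409) (nat_lit 408) (nat_lit 203)) (XT.nd (nat_lit 78) (nat_lit 0) (nat_lit 0) (XT.lf (nat_lit 0) (nat_lit 20876960429888) (nat_lit 304) (nat_lit 21410149639454) (nat_lit 380) (nat_lit 20417887814989) (nat_lit 38) (nat_lit 5) (nat_lit 42) (nat_lit 5) (nat_lit 43) (nat_lit 5) (nat_lit 410) (nat_lit 408) (nat_lit 202)) (XT.lf (nat_lit 76) (nat_lit 12151325043103) (nat_lit 0) (nat_lit 13890829981713) (nat_lit 380) (nat_lit 41511453986357) (nat_lit 39) (nat_lit 5) (nat_lit 38) (nat_lit 5) (nat_lit 43) (nat_lit 5) (nat_lit 411) (nat_lit 408) (nat_lit 201)))) (XT.nd (nat_lit 156) (nat_lit 152) (nat_lit 0) (XT.nd (nat_lit 78) (nat_lit 304) (nat_lit 0) (XT.lf (nat_lit 0)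 (nat_lit 33931603550895) (nat_lit 304) (nat_lit 20638714808107) (nat_lit 76) (nat_lit 18266772236751) (nat_lit 39) (nat_lit 5) (nat_lit 43) (nat_lit 5) (nat_lit 40) (nat_lit 5) (nat_lit 412) (nat_lit 408) (nat_lit 200)) (XT.lf (nat_lit 0) (nat_lit 20503263972739) (nat_lit 304) (nat_lit 24011669915306) (nat_lit 380) (nat_lit 34171590850152) (nat_lit 35) (nat_lit 5) (nat_lit 39) (nat_lit 5) (nat_lit 40) (nat_lit 5) (nat_lit 413) (nat_lit 408) (nat_lit 199))) (XT.nd (nat_lit 78) (nat_lit 152) (nat_lit 0) (XT.lf (nat_lit 0) (nat_lit 58276880799727) (nat_lit 380) (nat_lit 15627773150861) (nat_lit 76) (nat_lit 11270052497825) (nat_lit 35) (nat_lit 5) (nat_lit 40) (nat_lit 5) (nat_lit 36) (nat_lit 5) (nat_lit 414) (nat_lit 408) (nat_lit 198)) (XT.lf (nat_lit 0) (nat_lit 35311278990020) (nat_lit 152) (nat_lit 41397418372740) (nat_lit 228) (nat_lit 15536581410212) (nat_lit 33) (nat_lit 5) (nat_lit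 35) (nat_lit 5) (nat_lit 36) (nat_lit 5) (nat_lit 415) (nat_lit 408) (nat_lit 197)))))) (XT.nd (nat_lit 2184) (nat_lit 1596) (nat_lit 0) (XT.nd (nat_lit 234) (nat_lit 76) (nat_lit 0) (XT.nd (nat_lit 78) (nat_lit 304) (nat_lit 0) (XT.lf (nat_lit 0) (nat_lit 95647537548191) (nat_lit 152) (nat_lit 3074655185850) (nat_lit 228) (nat_lit 1531708263604) (nat_lit 33) (nat_lit 5) (nat_lit 35) (nat_lit 5) (nat_lit 36) (nat_lit 5) (nat_lit 416) (nat_lit 408) (nat_lit 196)) (XT.nd (nat_lit 78) (nat_lit 152) (nat_lit 0) (XT.lf (nat_lit 0) (nat_lit 17620215833253) (nat_lit 152) (nat_lit 50505098387717) (nat_lit 76) (nat_lit 40596412897669) (nat_lit 31) (nat_lit 5) (nat_lit 33) (nat_lit 5) (nat_lit 32) (nat_lit 5) (nat_lit 417) (nat_lit 408) (nat_lit 195)) (XT.lf (nat_lit 0) (nat_lit 13530955637593) (nat_lit 152) (nat_lit 26916108562592) (nat_lit 228) (nat_lit 77857879173335) (nat_lit 29) (nat_lit 5)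 (nat_lit 31) (nat_lit 5) (nat_lit 32) (nat_lit 5) (nat_lit 418) (nat_lit 408) (nat_lit 194)))) (XT.nd (nat_lit 78) (nat_lit 76) (nat_lit 0) (XT.lf (nat_lit 0) (nat_lit 70311499679810) (nat_lit 228) (nat_lit 37054654685706) (nat_lit 76) (nat_lit 21417453722470) (nat_lit 29) (nat_lit 5) (nat_lit 32) (nat_lit 5) (nat_lit 30) (nat_lit 4) (nat_lit 419) (nat_lit 408) (nat_lit 193)) (XT.nd (nat_lit 78) (nat_lit 0) (nat_lit 0) (XT.lf (nat_lit 0) (nat_lit 43405079165019) (nat_lit 76) (nat_lit 64329552538385) (nat_lit 152) (nat_lit 32637586122914) (nat_lit 28) (nat_lit 5) (nat_lit 29) (nat_lit 5) (nat_lit 30) (nat_lit 4) (nat_lit 420) (nat_lit 408) (nat_lit 192)) (XT.lf (nat_lit 0) (nat_lit 140098210989281) (nat_lit 76) (nat_lit 12609970399827) (nat_lit 152) (nat_lit 700395457505) (nat_lit 28) (nat_lit 5) (nat_lit 29) (nat_lit 5) (nat_lit 30) (nat_lit 4) (nat_lit 421) (nat_lit 408) (nat_lit 191)))))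 (XT.nd (nat_lit 50466) (nat_lit 0) (nat_lit 2280) (XT.nd (nat_lit 78) (nat_lit 152) (nat_lit 0) (XT.lf (nat_lit 0) (nat_lit 1067301709659520) (nat_lit 76) (nat_lit 226105794846454) (nat_lit 76) (nat_lit 155345278964844) (nat_lit 9) (nat_lit 4) (nat_lit 10) (nat_lit 5) (nat_lit 10) (nat_lit 4) (nat_lit 444) (nat_lit 408) (nat_lit 168)) (XT.nd (nat_lit 50310) (nat_lit 0) (nat_lit 2280) (XT.lf (nat_lit 0) (nat_lit 139966635368669) (nat_lit 152) (nat_lit 1401976510396700) (nat_lit 0) (nat_lit 78435751993354) (nat_lit 7) (nat_lit 5) (nat_lit 9) (nat_lit 4) (nat_lit 7) (nat_lit 4) (nat_lit 445) (nat_lit 408) (nat_lit 167)) (XT.lf (nat_lit 0) (nat_lit 9009240353676) (nat_lit 380) (nat_lit 11119368872230) (nat_lit 380) (nat_lit 11119368872230) (nat_lit 37) (nat_lit 3) (nat_lit 42) (nat_lit 3) (nat_lit 42) (nat_lit 5) (nat_lit 409) (nat_lit 409) (nat_lit 202)))) (XT.nd (nat_lit 156) (nat_lit 0)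 (nat_lit 76) (XT.nd (nat_lit 78) (nat_lit 0) (nat_lit 76) (XT.lf (nat_lit 76) (nat_lit 9601204507888) (nat_lit 0) (nat_lit 10166227656584) (nat_lit 380) (nat_lit 47356085935914) (nat_lit 38) (nat_lit 5) (nat_lit 37) (nat_lit 3) (nat_lit 42) (nat_lit 5) (nat_lit 410) (nat_lit 409) (nat_lit 201)) (XT.lf (nat_lit 0) (nat_lit 24008504494402) (nat_lit 304) (nat_lit 24621672085349) (nat_lit 380) (nat_lit 23480570987226) (nat_lit 38) (nat_lit 5) (nat_lit 42) (nat_lit 5) (nat_lit 43) (nat_lit 5) (nat_lit 411) (nat_lit 409) (nat_lit 200))) (XT.nd (nat_lit 78) (nat_lit 0) (nat_lit 76) (XT.lf (nat_lit 76) (nat_lit 13974023799592) (nat_lit 0) (nat_lit 15974454478974) (nat_lit 380) (nat_lit 47738172084279) (nat_lit 39) (nat_lit 5) (nat_lit 38) (nat_lit 5) (nat_lit 43) (nat_lit 5) (nat_lit 412) (nat_lit 409) (nat_lit 199)) (XT.lf (nat_lit 0) (nat_lit 39021344083553) (nat_lit 304) (nat_lit 23734522029299)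 (nat_lit 76) (nat_lit 21006788072261) (nat_lit 39) (nat_lit 5) (nat_lit 43) (nat_lit 5) (nat_lit 40) (nat_lit 5) (nat_lit 413) (nat_lit 409) (nat_lit 198))))))))
noncomputable def xc125 : XT := (XT.nd (nat_lit 106158) (nat_lit 0) (nat_lit 0) (XT.nd (nat_lit 53040) (nat_lit 0) (nat_lit 0) (XT.nd (nat_lit 468) (nat_lit 76) (nat_lit 0) (XT.nd (nat_lit 234) (nat_lit 304) (nat_lit 0) (XT.nd (nat_lit 78) (nat_lit 152) (nat_lit 0) (XT.lf (nat_lit 0) (nat_lit 23578753568672) (nat_lit 304) (nat_lit 27613420402601) (nat_lit 380) (nat_lit 39297329477650) (nat_lit 35) (nat_lit 5) (nat_lit 39) (nat_lit 5) (nat_lit 40) (nat_lit 5) (nat_lit 414) (nat_lit 409) (nat_lit 197)) (XT.nd (nat_lit 78) (nat_lit 152) (nat_lit 0) (XT.lf (nat_lit 0) (nat_lit 67018412919705) (nat_lit 380) (nat_lit 17971939123467) (nat_lit 76) (nat_lit 12960560372500) (nat_lit 35) (nat_lit 5) (nat_lit 40) (nat_lit 5) (nat_lit 36) (nat_lit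 5) (nat_lit 415) (nat_lit 409) (nat_lit 196)) (XT.lf (nat_lit 0) (nat_lit 40607970838545) (nat_lit 152) (nat_lit 47607031128646) (nat_lit 228) (nat_lit 17867068621724) (nat_lit 33) (nat_lit 5) (nat_lit 35) (nat_lit 5) (nat_lit 36) (nat_lit 5) (nat_lit 416) (nat_lit 409) (nat_lit 195)))) (XT.nd (nat_lit 78) (nat_lit 304) (nat_lit 0) (XT.lf (nat_lit 0) (nat_lit 109994668180438) (nat_lit 152) (nat_lit 3535853463724) (nat_lit 228) (nat_lit 1761464503128) (nat_lit 33) (nat_lit 5) (nat_lit 35) (nat_lit 5) (nat_lit 36) (nat_lit 5) (nat_lit 417) (nat_lit 409) (nat_lit 194)) (XT.nd (nat_lit 78) (nat_lit 152) (nat_lit 0) (XT.lf (nat_lit 0) (nat_lit 20263248208256) (nat_lit 152) (nat_lit 58080863145853) (nat_lit 76) (nat_lit 46685874832325) (nat_lit 31) (nat_lit 5) (nat_lit 33) (nat_lit 5) (nat_lit 32) (nat_lit 5) (nat_lit 418) (nat_lit 409) (nat_lit 193)) (XT.lf (nat_lit 0) (nat_lit 15560598983253)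 (nat_lit 152) (nat_lit 30953524846974) (nat_lit 228) (nat_lit 89536561049320) (nat_lit 29) (nat_lit 5) (nat_lit 31) (nat_lit 5) (nat_lit 32) (nat_lit 5) (nat_lit 419) (nat_lit 409) (nat_lit 192))))) (XT.nd (nat_lit 52338) (nat_lit 0) (nat_lit 684) (XT.nd (nat_lit 78) (nat_lit 76) (nat_lit 0) (XT.lf (nat_lit 0) (nat_lit 80858224631793) (nat_lit 228) (nat_lit 42612852888543) (nat_lit 76) (nat_lit 24630071780846) (nat_lit 29) (nat_lit 5) (nat_lit 32) (nat_lit 5) (nat_lit 30) (nat_lit 4) (nat_lit 420) (nat_lit 409) (nat_lit 191)) (XT.nd (nat_lit 78) (nat_lit 0) (nat_lit 0) (XT.lf (nat_lit 0) (nat_lit 49915841039791) (nat_lit 76) (nat_lit 73978985419135) (nat_lit 152) (nat_lit 37533224041337) (nat_lit 28) (nat_lit 5) (nat_lit 29) (nat_lit 5) (nat_lit 30) (nat_lit 4) (nat_lit 421) (nat_lit 409) (nat_lit 190)) (XT.lf (nat_lit 0) (nat_lit 161112942637690) (nat_lit 76) (nat_lit 14501465959794) (nat_lit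 152) (nat_lit 805454776119) (nat_lit 28) (nat_lit 5) (nat_lit 29) (nat_lit 5) (nat_lit 30) (nat_lit 4) (nat_lit 422) (nat_lit 409) (nat_lit 189)))) (XT.nd (nat_lit 78) (nat_lit 0) (nat_lit 0) (XT.lf (nat_lit 0) (nat_lit 10360626406742) (nat_lit 380) (nat_lit 12787274203057) (nat_lit 380) (nat_lit 12787274203057) (nat_lit 37) (nat_lit 3) (nat_lit 42) (nat_lit 3) (nat_lit 42) (nat_lit 5) (nat_lit 410) (nat_lit 410) (nat_lit 200)) (XT.nd (nat_lit 78) (nat_lit 0) (nat_lit 76) (XT.lf (nat_lit 76) (nat_lit 11041385184087) (nat_lit 0) (nat_lit 11691161805083) (nat_lit 380) (nat_lit 54459498826270) (nat_lit 38) (nat_lit 5) (nat_lit 37) (nat_lit 3) (nat_lit 42) (nat_lit 5) (nat_lit 411) (nat_lit 410) (nat_lit 199)) (XT.lf (nat_lit 0) (nat_lit 27609780168585) (nat_lit 304) (nat_lit 28314922898133) (nat_lit 380) (nat_lit 27002656635302) (nat_lit 38) (nat_lit 5) (nat_lit 42) (nat_lit 5) (nat_lit 43)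 (nat_lit 5) (nat_lit 412) (nat_lit 410) (nat_lit 198)))))) (XT.nd (nat_lit 468) (nat_lit 380) (nat_lit 0) (XT.nd (nat_lit 234) (nat_lit 152) (nat_lit 0) (XT.nd (nat_lit 78) (nat_lit 228) (nat_lit 0) (XT.lf (nat_lit 76) (nat_lit 16070127369548) (nat_lit 0) (nat_lit 18370622650823) (nat_lit 380) (nat_lit 54898897896897) (nat_lit 39) (nat_lit 5) (nat_lit 38) (nat_lit 5) (nat_lit 43) (nat_lit 5) (nat_lit 413) (nat_lit 410) (nat_lit 197)) (XT.nd (nat_lit 78) (nat_lit 304) (nat_lit 0) (XT.lf (nat_lit 0) (nat_lit 44874545696103) (nat_lit 304) (nat_lit 27294700333676) (nat_lit 76) (nat_lit 24157806283097) (nat_lit 39) (nat_lit 5) (nat_lit 43) (nat_lit 5) (nat_lit 40) (nat_lit 5) (nat_lit 414) (nat_lit 410) (nat_lit 196)) (XT.lf (nat_lit 0) (nat_lit 27115566603990) (nat_lit 304) (nat_lit 31755433462990) (nat_lit 380) (nat_lit 45191928899279) (nat_lit 35) (nat_lit 5) (nat_lit 39) (nat_lit 5) (nat_lit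 40) (nat_lit 5) (nat_lit 415) (nat_lit 410) (nat_lit 195)))) (XT.nd (nat_lit 78) (nat_lit 152) (nat_lit 0) (XT.lf (nat_lit 0) (nat_lit 77071174857674) (nat_lit 380) (nat_lit 20667729991971) (nat_lit 76) (nat_lit 14904644428376) (nat_lit 35) (nat_lit 5) (nat_lit 40) (nat_lit 5) (nat_lit 36) (nat_lit 5) (nat_lit 416) (nat_lit 410) (nat_lit 194)) (XT.nd (nat_lit 78) (nat_lit 0) (nat_lit 0) (XT.lf (nat_lit 0) (nat_lit 46699166464341) (nat_lit 152) (nat_lit 54748085797941) (nat_lit 228) (nat_lit 20547128914968) (nat_lit 33) (nat_lit 5) (nat_lit 35) (nat_lit 5) (nat_lit 36) (nat_lit 5) (nat_lit 417) (nat_lit 410) (nat_lit 193)) (XT.lf (nat_lit 0) (nat_lit 126493868407517) (nat_lit 152) (nat_lit 4066231483280) (nat_lit 228) (nat_lit 2025684178584) (nat_lit 33) (nat_lit 5) (nat_lit 35) (nat_lit 5) (nat_lit 36) (nat_lit 5) (nat_lit 418) (nat_lit 410) (nat_lit 192))))) (XT.nd (nat_lit 234) (nat_lit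 76) (nat_lit 0) (XT.nd (nat_lit 78) (nat_lit 152) (nat_lit 0) (XT.lf (nat_lit 0) (nat_lit 23302735439505) (nat_lit 152) (nat_lit 66792992617715) (nat_lit 76) (nat_lit 53688756057177) (nat_lit 31) (nat_lit 5) (nat_lit 33) (nat_lit 5) (nat_lit 32) (nat_lit 5) (nat_lit 419) (nat_lit 410) (nat_lit 191)) (XT.nd (nat_lit 78) (nat_lit 0) (nat_lit 0) (XT.lf (nat_lit 0) (nat_lit 17894688830755) (nat_lit 152) (nat_lit 35596553574016) (nat_lit 228) (nat_lit 102967045206706) (nat_lit 29) (nat_lit 5) (nat_lit 31) (nat_lit 5) (nat_lit 32) (nat_lit 5) (nat_lit 420) (nat_lit 410) (nat_lit 190)) (XT.lf (nat_lit 0) (nat_lit 92986958326571) (nat_lit 228) (nat_lit 49004780821810) (nat_lit 76) (nat_lit 28324582547978) (nat_lit 29) (nat_lit 5) (nat_lit 32) (nat_lit 5) (nat_lit 30) (nat_lit 4) (nat_lit 421) (nat_lit 410) (nat_lit 189)))) (XT.nd (nat_lit 52260) (nat_lit 0) (nat_lit 684) (XT.nd (nat_lit 78) (nat_lit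 0) (nat_lit 0) (XT.lf (nat_lit 0) (nat_lit 57403217195774) (nat_lit 76) (nat_lit 85075833231999) (nat_lit 152) (nat_lit 43163207647528) (nat_lit 28) (nat_lit 5) (nat_lit 29) (nat_lit 5) (nat_lit 30) (nat_lit 4) (nat_lit 422) (nat_lit 410) (nat_lit 188)) (XT.lf (nat_lit 0) (nat_lit 185279884033354) (nat_lit 76) (nat_lit 16676685853760) (nat_lit 152) (nat_lit 926272992529) (nat_lit 28) (nat_lit 5) (nat_lit 29) (nat_lit 5) (nat_lit 30) (nat_lit 4) (nat_lit 423) (nat_lit 410) (nat_lit 187))) (XT.nd (nat_lit 78) (nat_lit 0) (nat_lit 0) (XT.lf (nat_lit 0) (nat_lit 11914720367765) (nat_lit 380) (nat_lit 14705365333509) (nat_lit 380) (nat_lit 14705365333509) (nat_lit 37) (nat_lit 3) (nat_lit 42) (nat_lit 3) (nat_lit 42) (nat_lit 5) (nat_lit 411) (nat_lit 411) (nat_lit 198)) (XT.lf (nat_lit 76) (nat_lit 12697592961713) (nat_lit 0) (nat_lit 13444836075852) (nat_lit 380) (nat_lit 62628423650188) (nat_lit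 38) (nat_lit 5) (nat_lit 37) (nat_lit 3) (nat_lit 42) (nat_lit 5) (nat_lit 412) (nat_lit 411) (nat_lit 197))))))) (XT.nd (nat_lit 53196) (nat_lit 0) (nat_lit 76) (XT.nd (nat_lit 468) (nat_lit 380) (nat_lit 0) (XT.nd (nat_lit 234) (nat_lit 380) (nat_lit 0) (XT.nd (nat_lit 78) (nat_lit 0) (nat_lit 0) (XT.lf (nat_lit 0) (nat_lit 31751247193890) (nat_lit 304) (nat_lit 32562161332839) (nat_lit 380) (nat_lit 31053055130592) (nat_lit 38) (nat_lit 5) (nat_lit 42) (nat_lit 5) (nat_lit 43) (nat_lit 5) (nat_lit 413) (nat_lit 411) (nat_lit 196)) (XT.nd (nat_lit 78) (nat_lit 0) (nat_lit 76) (XT.lf (nat_lit 76) (nat_lit 18480646474993) (nat_lit 0) (nat_lit 21126216048449) (nat_lit 380) (nat_lit 63133732581414) (nat_lit 39) (nat_lit 5) (nat_lit 38) (nat_lit 5) (nat_lit 43) (nat_lit 5) (nat_lit 414) (nat_lit 411) (nat_lit 195)) (XT.lf (nat_lit 0) (nat_lit 51605727550532) (nat_lit 304) (nat_lit 31388905383714)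 (nat_lit 76) (nat_lit 27781477225560) (nat_lit 39) (nat_lit 5) (nat_lit 43) (nat_lit 5) (nat_lit 40) (nat_lit 5) (nat_lit 415) (nat_lit 411) (nat_lit 194)))) (XT.nd (nat_lit 78) (nat_lit 152) (nat_lit 0) (XT.lf (nat_lit 0) (nat_lit 31182901594602) (nat_lit 304) (nat_lit 36518748482437) (nat_lit 380) (nat_lit 51970718234157) (nat_lit 35) (nat_lit 5) (nat_lit 39) (nat_lit 5) (nat_lit 40) (nat_lit 5) (nat_lit 416) (nat_lit 411) (nat_lit 193)) (XT.nd (nat_lit 78) (nat_lit 152) (nat_lit 0) (XT.lf (nat_lit 0) (nat_lit 88631851086336) (nat_lit 380) (nat_lit 23767889490754) (nat_lit 76) (nat_lit 17140341092633) (nat_lit 35) (nat_lit 5) (nat_lit 40) (nat_lit 5) (nat_lit 36) (nat_lit 5) (nat_lit 417) (nat_lit 411) (nat_lit 192)) (XT.lf (nat_lit 0) (nat_lit 53704041434006) (nat_lit 152) (nat_lit 62960298667629) (nat_lit 228) (nat_lit 23629198252202) (nat_lit 33) (nat_lit 5) (nat_lit 35) (nat_lit 5)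 (nat_lit 36) (nat_lit 5) (nat_lit 418) (nat_lit 411) (nat_lit 191))))) (XT.nd (nat_lit 234) (nat_lit 76) (nat_lit 0) (XT.nd (nat_lit 78) (nat_lit 304) (nat_lit 0) (XT.lf (nat_lit 0) (nat_lit 145467948668657) (nat_lit 152) (nat_lit 4676166205769) (nat_lit 228) (nat_lit 2329536805362) (nat_lit 33) (nat_lit 5) (nat_lit 35) (nat_lit 5) (nat_lit 36) (nat_lit 5) (nat_lit 419) (nat_lit 411) (nat_lit 190)) (XT.nd (nat_lit 78) (nat_lit 152) (nat_lit 0) (XT.lf (nat_lit 0) (nat_lit 26798145755439) (nat_lit 152) (nat_lit 76811941510360) (nat_lit 76) (nat_lit 61742069465756) (nat_lit 31) (nat_lit 5) (nat_lit 33) (nat_lit 5) (nat_lit 32) (nat_lit 5) (nat_lit 420) (nat_lit 411) (nat_lit 189)) (XT.lf (nat_lit 0) (nat_lit 20578892155382) (nat_lit 152) (nat_lit 40936036610114) (nat_lit 228) (nat_lit 118412101987703) (nat_lit 29) (nat_lit 5) (nat_lit 31) (nat_lit 5) (nat_lit 32) (nat_lit 5) (nat_lit 421)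 (nat_lit 411) (nat_lit 188)))) (XT.nd (nat_lit 52338) (nat_lit 0) (nat_lit 684) (XT.nd (nat_lit 78) (nat_lit 76) (nat_lit 0) (XT.lf (nat_lit 0) (nat_lit 106935002075564) (nat_lit 228) (nat_lit 56355497945069) (nat_lit 76) (nat_lit 32573269930178) (nat_lit 29) (nat_lit 5) (nat_lit 32) (nat_lit 5) (nat_lit 30) (nat_lit 4) (nat_lit 422) (nat_lit 411) (nat_lit 187)) (XT.lf (nat_lit 0) (nat_lit 66013699775150) (nat_lit 76) (nat_lit 97837208216796) (nat_lit 152) (nat_lit 49637688794650) (nat_lit 28) (nat_lit 5) (nat_lit 29) (nat_lit 5) (nat_lit 30) (nat_lit 4) (nat_lit 423) (nat_lit 411) (nat_lit 186))) (XT.nd (nat_lit 78) (nat_lit 0) (nat_lit 0) (XT.lf (nat_lit 0) (nat_lit 13701928422938) (nat_lit 380) (nat_lit 16911170133530) (nat_lit 380) (nat_lit 16911170133530) (nat_lit 37) (nat_lit 3) (nat_lit 42) (nat_lit 3) (nat_lit 42) (nat_lit 5) (nat_lit 412) (nat_lit 412) (nat_lit 196)) (XT.lf (nat_lit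 76) (nat_lit 14602231905980) (nat_lit 0) (nat_lit 15461561487236) (nat_lit 380) (nat_lit 72022687197698) (nat_lit 38) (nat_lit 5) (nat_lit 37) (nat_lit 3) (nat_lit 42) (nat_lit 5) (nat_lit 413) (nat_lit 412) (nat_lit 195)))))) (XT.nd (nat_lit 468) (nat_lit 304) (nat_lit 0) (XT.nd (nat_lit 234) (nat_lit 380) (nat_lit 0) (XT.nd (nat_lit 78) (nat_lit 0) (nat_lit 0) (XT.lf (nat_lit 0) (nat_lit 36513934272986) (nat_lit 304) (nat_lit 37446485532755) (nat_lit 380) (nat_lit 35711013400176) (nat_lit 38) (nat_lit 5) (nat_lit 42) (nat_lit 5) (nat_lit 43) (nat_lit 5) (nat_lit 414) (nat_lit 412) (nat_lit 194)) (XT.nd (nat_lit 78) (nat_lit 0) (nat_lit 76) (XT.lf (nat_lit 76) (nat_lit 21252743446252) (nat_lit 0) (nat_lit 24295148455718) (nat_lit 380) (nat_lit 72603792468613) (nat_lit 39) (nat_lit 5) (nat_lit 38) (nat_lit 5) (nat_lit 43) (nat_lit 5) (nat_lit 415) (nat_lit 412) (nat_lit 193)) (XT.lf (nat_lit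 0) (nat_lit 59346586683123) (nat_lit 304) (nat_lit 36097241191261) (nat_lit 76) (nat_lit 31948698809393) (nat_lit 39) (nat_lit 5) (nat_lit 43) (nat_lit 5) (nat_lit 40) (nat_lit 5) (nat_lit 416) (nat_lit 412) (nat_lit 192)))) (XT.nd (nat_lit 78) (nat_lit 152) (nat_lit 0) (XT.lf (nat_lit 0) (nat_lit 35860336833801) (nat_lit 304) (nat_lit 41996560754803) (nat_lit 380) (nat_lit 59766325969270) (nat_lit 35) (nat_lit 5) (nat_lit 39) (nat_lit 5) (nat_lit 40) (nat_lit 5) (nat_lit 417) (nat_lit 412) (nat_lit 191)) (XT.nd (nat_lit 78) (nat_lit 152) (nat_lit 0) (XT.lf (nat_lit 0) (nat_lit 101926628749294) (nat_lit 380) (nat_lit 27333072914357) (nat_lit 76) (nat_lit 19711392256528) (nat_lit 35) (nat_lit 5) (nat_lit 40) (nat_lit 5) (nat_lit 36) (nat_lit 5) (nat_lit 418) (nat_lit 412) (nat_lit 190)) (XT.lf (nat_lit 0) (nat_lit 61759647649116) (nat_lit 152) (nat_lit 72404343467771) (nat_lit 228) (nat_lit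 27173577990024) (nat_lit 33) (nat_lit 5) (nat_lit 35) (nat_lit 5) (nat_lit 36) (nat_lit 5) (nat_lit 419) (nat_lit 412) (nat_lit 189))))) (XT.nd (nat_lit 234) (nat_lit 0) (nat_lit 0) (XT.nd (nat_lit 78) (nat_lit 304) (nat_lit 0) (XT.lf (nat_lit 0) (nat_lit 167288140968962) (nat_lit 152) (nat_lit 5377591136634) (nat_lit 228) (nat_lit 2678967326159) (nat_lit 33) (nat_lit 5) (nat_lit 35) (nat_lit 5) (nat_lit 36) (nat_lit 5) (nat_lit 420) (nat_lit 412) (nat_lit 188)) (XT.nd (nat_lit 78) (nat_lit 152) (nat_lit 0) (XT.lf (nat_lit 0) (nat_lit 30817867618762) (nat_lit 152) (nat_lit 88333732736905) (nat_lit 76) (nat_lit 71003379885622) (nat_lit 31) (nat_lit 5) (nat_lit 33) (nat_lit 5) (nat_lit 32) (nat_lit 5) (nat_lit 421) (nat_lit 412) (nat_lit 187)) (XT.lf (nat_lit 0) (nat_lit 23665725978698) (nat_lit 152) (nat_lit 47076442101628) (nat_lit 228) (nat_lit 136173917285852) (nat_lit 29) (nat_lit 5)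 (nat_lit 31) (nat_lit 5) (nat_lit 32) (nat_lit 5) (nat_lit 422) (nat_lit 412) (nat_lit 186)))) (XT.nd (nat_lit 52416) (nat_lit 0) (nat_lit 608) (XT.nd (nat_lit 52338) (nat_lit 0) (nat_lit 608) (XT.lf (nat_lit 0) (nat_lit 122975252386903) (nat_lit 228) (nat_lit 64808822636823) (nat_lit 76) (nat_lit 37459260419706) (nat_lit 29) (nat_lit 5) (nat_lit 32) (nat_lit 5) (nat_lit 30) (nat_lit 4) (nat_lit 423) (nat_lit 412) (nat_lit 185)) (XT.lf (nat_lit 0) (nat_lit 15757217686385) (nat_lit 380) (nat_lit 19447845653556) (nat_lit 380) (nat_lit 19447845653556) (nat_lit 37) (nat_lit 3) (nat_lit 42) (nat_lit 3) (nat_lit 42) (nat_lit 5) (nat_lit 413) (nat_lit 413) (nat_lit 194))) (XT.nd (nat_lit 78) (nat_lit 0) (nat_lit 76) (XT.lf (nat_lit 76) (nat_lit 16792566691883) (nat_lit 0) (nat_lit 17780795710326) (nat_lit 380) (nat_lit 82826090277340) (nat_lit 38) (nat_lit 5) (nat_lit 37) (nat_lit 3) (nat_lit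 42) (nat_lit 5) (nat_lit 414) (nat_lit 413) (nat_lit 193)) (XT.lf (nat_lit 0) (nat_lit 41991024413944) (nat_lit 304) (nat_lit 43063458362660) (nat_lit 380) (nat_lit 41067665410199) (nat_lit 38) (nat_lit 5) (nat_lit 42) (nat_lit 5) (nat_lit 43) (nat_lit 5) (nat_lit 415) (nat_lit 413) (nat_lit 192))))))))
noncomputable def xc126 : XT := (XT.nd (nat_lit 106704) (nat_lit 0) (nat_lit 304) (XT.nd (nat_lit 53274) (nat_lit 0) (nat_lit 152) (XT.nd (nat_lit 468) (nat_lit 304) (nat_lit 0) (XT.nd (nat_lit 234) (nat_lit 152) (nat_lit 0) (XT.nd (nat_lit 78) (nat_lit 228) (nat_lit 0) (XT.lf (nat_lit 76) (nat_lit 24440654963197) (nat_lit 0) (nat_lit 27939420724078) (nat_lit 380) (nat_lit 83494361338895) (nat_lit 39) (nat_lit 5) (nat_lit 38) (nat_lit 5) (nat_lit 43) (nat_lit 5) (nat_lit 416) (nat_lit 413) (nat_lit 191)) (XT.nd (nat_lit 78) (nat_lit 304) (nat_lit 0) (XT.lf (nat_lit 0) (nat_lit 68248574685599)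 (nat_lit 304) (nat_lit 41511827369943) (nat_lit 76) (nat_lit 36741003630800) (nat_lit 39) (nat_lit 5) (nat_lit 43) (nat_lit 5) (nat_lit 40) (nat_lit 5) (nat_lit 417) (nat_lit 413) (nat_lit 190)) (XT.lf (nat_lit 0) (nat_lit 41239387358879) (nat_lit 304) (nat_lit 48296044868023) (nat_lit 380) (nat_lit 68731274864653) (nat_lit 35) (nat_lit 5) (nat_lit 39) (nat_lit 5) (nat_lit 40) (nat_lit 5) (nat_lit 418) (nat_lit 413) (nat_lit 189)))) (XT.nd (nat_lit 78) (nat_lit 152) (nat_lit 0) (XT.lf (nat_lit 0) (nat_lit 117215623061695) (nat_lit 380) (nat_lit 31433033851504) (nat_lit 76) (nat_lit 22668101095008) (nat_lit 35) (nat_lit 5) (nat_lit 40) (nat_lit 5) (nat_lit 36) (nat_lit 5) (nat_lit 419) (nat_lit 413) (nat_lit 188)) (XT.nd (nat_lit 78) (nat_lit 0) (nat_lit 0) (XT.lf (nat_lit 0) (nat_lit 71023594796489) (nat_lit 152) (nat_lit 83264994987937) (nat_lit 228) (nat_lit 31249614688522) (nat_lit 33)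 (nat_lit 5) (nat_lit 35) (nat_lit 5) (nat_lit 36) (nat_lit 5) (nat_lit 420) (nat_lit 413) (nat_lit 187)) (XT.lf (nat_lit 0) (nat_lit 192381362114312) (nat_lit 152) (nat_lit 6184229807128) (nat_lit 228) (nat_lit 3080812425078) (nat_lit 33) (nat_lit 5) (nat_lit 35) (nat_lit 5) (nat_lit 36) (nat_lit 5) (nat_lit 421) (nat_lit 413) (nat_lit 186))))) (XT.nd (nat_lit 52572) (nat_lit 0) (nat_lit 608) (XT.nd (nat_lit 78) (nat_lit 152) (nat_lit 0) (XT.lf (nat_lit 0) (nat_lit 35440547761581) (nat_lit 152) (nat_lit 101583792647434) (nat_lit 76) (nat_lit 81653886868466) (nat_lit 31) (nat_lit 5) (nat_lit 33) (nat_lit 5) (nat_lit 32) (nat_lit 5) (nat_lit 422) (nat_lit 413) (nat_lit 185)) (XT.nd (nat_lit 52416) (nat_lit 0) (nat_lit 608) (XT.lf (nat_lit 0) (nat_lit 27215584875507) (nat_lit 152) (nat_lit 54137908416871) (nat_lit 228) (nat_lit 156600004878725) (nat_lit 29) (nat_lit 5) (nat_lit 31) (nat_lit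 5) (nat_lit 32) (nat_lit 5) (nat_lit 423) (nat_lit 413) (nat_lit 184)) (XT.lf (nat_lit 0) (nat_lit 18120800339348) (nat_lit 380) (nat_lit 22365022501587) (nat_lit 380) (nat_lit 22365022501587) (nat_lit 37) (nat_lit 3) (nat_lit 42) (nat_lit 3) (nat_lit 42) (nat_lit 5) (nat_lit 414) (nat_lit 414) (nat_lit 192)))) (XT.nd (nat_lit 78) (nat_lit 0) (nat_lit 76) (XT.lf (nat_lit 76) (nat_lit 19311451695672) (nat_lit 0) (nat_lit 20447915066878) (nat_lit 380) (nat_lit 95250003818931) (nat_lit 38) (nat_lit 5) (nat_lit 37) (nat_lit 3) (nat_lit 42) (nat_lit 5) (nat_lit 415) (nat_lit 414) (nat_lit 191)) (XT.nd (nat_lit 78) (nat_lit 0) (nat_lit 0) (XT.lf (nat_lit 0) (nat_lit 48289678076043) (nat_lit 304) (nat_lit 49522977117053) (nat_lit 380) (nat_lit 47227815221727) (nat_lit 38) (nat_lit 5) (nat_lit 42) (nat_lit 5) (nat_lit 43) (nat_lit 5) (nat_lit 416) (nat_lit 414) (nat_lit 190)) (XT.lf (nat_lit 76)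 (nat_lit 28106753207682) (nat_lit 0) (nat_lit 32130333832690) (nat_lit 380) (nat_lit 96018515539721) (nat_lit 39) (nat_lit 5) (nat_lit 38) (nat_lit 5) (nat_lit 43) (nat_lit 5) (nat_lit 417) (nat_lit 414) (nat_lit 189)))))) (XT.nd (nat_lit 52884) (nat_lit 0) (nat_lit 304) (XT.nd (nat_lit 234) (nat_lit 304) (nat_lit 0) (XT.nd (nat_lit 78) (nat_lit 304) (nat_lit 0) (XT.lf (nat_lit 0) (nat_lit 78485860888444) (nat_lit 304) (nat_lit 47738601475428) (nat_lit 76) (nat_lit 42252154175420) (nat_lit 39) (nat_lit 5) (nat_lit 43) (nat_lit 5) (nat_lit 40) (nat_lit 5) (nat_lit 418) (nat_lit 414) (nat_lit 188)) (XT.nd (nat_lit 78) (nat_lit 0) (nat_lit 0) (XT.lf (nat_lit 0) (nat_lit 47425295462717) (nat_lit 304) (nat_lit 55540451598226) (nat_lit 380) (nat_lit 79040966094344) (nat_lit 35) (nat_lit 5) (nat_lit 39) (nat_lit 5) (nat_lit 40) (nat_lit 5) (nat_lit 419) (nat_lit 414) (nat_lit 187)) (XT.lf (nat_lit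 0) (nat_lit 134797966520954) (nat_lit 380) (nat_lit 36147988929224) (nat_lit 76) (nat_lit 26068316259259) (nat_lit 35) (nat_lit 5) (nat_lit 40) (nat_lit 5) (nat_lit 36) (nat_lit 5) (nat_lit 420) (nat_lit 414) (nat_lit 186)))) (XT.nd (nat_lit 78) (nat_lit 152) (nat_lit 0) (XT.lf (nat_lit 0) (nat_lit 81677134015970) (nat_lit 152) (nat_lit 95754744236125) (nat_lit 228) (nat_lit 35937056891795) (nat_lit 33) (nat_lit 5) (nat_lit 35) (nat_lit 5) (nat_lit 36) (nat_lit 5) (nat_lit 421) (nat_lit 414) (nat_lit 185)) (XT.nd (nat_lit 78) (nat_lit 152) (nat_lit 0) (XT.lf (nat_lit 0) (nat_lit 221238566431466) (nat_lit 152) (nat_lit 7111864278196) (nat_lit 228) (nat_lit 3542934288835) (nat_lit 33) (nat_lit 5) (nat_lit 35) (nat_lit 5) (nat_lit 36) (nat_lit 5) (nat_lit 422) (nat_lit 414) (nat_lit 184)) (XT.lf (nat_lit 0) (nat_lit 40756629925821) (nat_lit 152) (nat_lit 116821361544544) (nat_lit 76) (nat_lit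 93901969898738) (nat_lit 31) (nat_lit 5) (nat_lit 33) (nat_lit 5) (nat_lit 32) (nat_lit 5) (nat_lit 423) (nat_lit 414) (nat_lit 183))))) (XT.nd (nat_lit 234) (nat_lit 152) (nat_lit 0) (XT.nd (nat_lit 78) (nat_lit 0) (nat_lit 0) (XT.lf (nat_lit 0) (nat_lit 20838920390254) (nat_lit 380) (nat_lit 25719775876823) (nat_lit 380) (nat_lit 25719775876823) (nat_lit 37) (nat_lit 3) (nat_lit 42) (nat_lit 3) (nat_lit 42) (nat_lit 5) (nat_lit 415) (nat_lit 415) (nat_lit 190)) (XT.nd (nat_lit 78) (nat_lit 0) (nat_lit 76) (XT.lf (nat_lit 76) (nat_lit 22208169450026) (nat_lit 0) (nat_lit 23515102326912) (nat_lit 380) (nat_lit 109537504391763) (nat_lit 38) (nat_lit 5) (nat_lit 37) (nat_lit 3) (nat_lit 42) (nat_lit 5) (nat_lit 416) (nat_lit 415) (nat_lit 189)) (XT.lf (nat_lit 0) (nat_lit 55533129787455) (nat_lit 304) (nat_lit 56951423684607) (nat_lit 380) (nat_lit 54311987504983) (nat_lit 38) (nat_lit 5)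 (nat_lit 42) (nat_lit 5) (nat_lit 43) (nat_lit 5) (nat_lit 417) (nat_lit 415) (nat_lit 188)))) (XT.nd (nat_lit 156) (nat_lit 228) (nat_lit 0) (XT.nd (nat_lit 78) (nat_lit 0) (nat_lit 76) (XT.lf (nat_lit 76) (nat_lit 32322766188839) (nat_lit 0) (nat_lit 36949883907595) (nat_lit 380) (nat_lit 110421292870674) (nat_lit 39) (nat_lit 5) (nat_lit 38) (nat_lit 5) (nat_lit 43) (nat_lit 5) (nat_lit 418) (nat_lit 415) (nat_lit 187)) (XT.lf (nat_lit 0) (nat_lit 90258740021715) (nat_lit 304) (nat_lit 54899391696738) (nat_lit 76) (nat_lit 48589977301732) (nat_lit 39) (nat_lit 5) (nat_lit 43) (nat_lit 5) (nat_lit 40) (nat_lit 5) (nat_lit 419) (nat_lit 415) (nat_lit 186))) (XT.nd (nat_lit 78) (nat_lit 0) (nat_lit 0) (XT.lf (nat_lit 0) (nat_lit 54539089782128) (nat_lit 304) (nat_lit 63871519337961) (nat_lit 380) (nat_lit 90897111008492) (nat_lit 35) (nat_lit 5) (nat_lit 39) (nat_lit 5) (nat_lit 40) (nat_lit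 5) (nat_lit 420) (nat_lit 415) (nat_lit 185)) (XT.lf (nat_lit 0) (nat_lit 155017661499100) (nat_lit 380) (nat_lit 41570187268603) (nat_lit 76) (nat_lit 29978563698148) (nat_lit 35) (nat_lit 5) (nat_lit 40) (nat_lit 5) (nat_lit 36) (nat_lit 5) (nat_lit 421) (nat_lit 415) (nat_lit 184))))))) (XT.nd (nat_lit 106236) (nat_lit 0) (nat_lit 152) (XT.nd (nat_lit 53040) (nat_lit 0) (nat_lit 152) (XT.nd (nat_lit 52806) (nat_lit 0) (nat_lit 380) (XT.nd (nat_lit 52650) (nat_lit 0) (nat_lit 304) (XT.lf (nat_lit 0) (nat_lit 93928704118369) (nat_lit 152) (nat_lit 110117955871543) (nat_lit 228) (nat_lit 41327615425561) (nat_lit 33) (nat_lit 5) (nat_lit 35) (nat_lit 5) (nat_lit 36) (nat_lit 5) (nat_lit 422) (nat_lit 415) (nat_lit 183)) (XT.nd (nat_lit 78) (nat_lit 0) (nat_lit 0) (XT.lf (nat_lit 0) (nat_lit 23964758448795) (nat_lit 380) (nat_lit 29577742258345) (nat_lit 380) (nat_lit 29577742258345) (nat_lit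 37) (nat_lit 3) (nat_lit 42) (nat_lit 3) (nat_lit 42) (nat_lit 5) (nat_lit 416) (nat_lit 416) (nat_lit 188)) (XT.lf (nat_lit 76) (nat_lit 25539394867532) (nat_lit 0) (nat_lit 27042367675952) (nat_lit 380) (nat_lit 125968130050522) (nat_lit 38) (nat_lit 5) (nat_lit 37) (nat_lit 3) (nat_lit 42) (nat_lit 5) (nat_lit 417) (nat_lit 416) (nat_lit 187)))) (XT.nd (nat_lit 78) (nat_lit 0) (nat_lit 0) (XT.lf (nat_lit 0) (nat_lit 63863099255578) (nat_lit 304) (nat_lit 65494137237295) (nat_lit 380) (nat_lit 62458785630729) (nat_lit 38) (nat_lit 5) (nat_lit 42) (nat_lit 5) (nat_lit 43) (nat_lit 5) (nat_lit 418) (nat_lit 416) (nat_lit 186)) (XT.nd (nat_lit 78) (nat_lit 0) (nat_lit 76) (XT.lf (nat_lit 76) (nat_lit 37171181117168) (nat_lit 0) (nat_lit 42492366493735) (nat_lit 380) (nat_lit 126984486801271) (nat_lit 39) (nat_lit 5) (nat_lit 38) (nat_lit 5) (nat_lit 43) (nat_lit 5) (nat_lit 419) (nat_lit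 416) (nat_lit 185)) (XT.lf (nat_lit 0) (nat_lit 103797551024976) (nat_lit 304) (nat_lit 63134300451247) (nat_lit 76) (nat_lit 55878473896991) (nat_lit 39) (nat_lit 5) (nat_lit 43) (nat_lit 5) (nat_lit 40) (nat_lit 5) (nat_lit 420) (nat_lit 416) (nat_lit 184))))) (XT.nd (nat_lit 52884) (nat_lit 0) (nat_lit 152) (XT.nd (nat_lit 78) (nat_lit 0) (nat_lit 0) (XT.lf (nat_lit 0) (nat_lit 62719953249450) (nat_lit 304) (nat_lit 73452247238655) (nat_lit 380) (nat_lit 104531677659762) (nat_lit 35) (nat_lit 5) (nat_lit 39) (nat_lit 5) (nat_lit 40) (nat_lit 5) (nat_lit 421) (nat_lit 416) (nat_lit 183)) (XT.nd (nat_lit 52728) (nat_lit 0) (nat_lit 152) (XT.lf (nat_lit 0) (nat_lit 178270310723968) (nat_lit 380) (nat_lit 47805715358891) (nat_lit 76) (nat_lit 34475348252871) (nat_lit 35) (nat_lit 5) (nat_lit 40) (nat_lit 5) (nat_lit 36) (nat_lit 5) (nat_lit 422) (nat_lit 416) (nat_lit 182)) (XT.lf (nat_lit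 0) (nat_lit 27559472216117) (nat_lit 380) (nat_lit 34014403597095) (nat_lit 380) (nat_lit 34014403597095) (nat_lit 37) (nat_lit 3) (nat_lit 42) (nat_lit 3) (nat_lit 42) (nat_lit 5) (nat_lit 417) (nat_lit 417) (nat_lit 186)))) (XT.nd (nat_lit 156) (nat_lit 0) (nat_lit 76) (XT.nd (nat_lit 78) (nat_lit 0) (nat_lit 76) (XT.lf (nat_lit 76) (nat_lit 29370304097666) (nat_lit 0) (nat_lit 31098722827345) (nat_lit 380) (nat_lit 144863349558096) (nat_lit 38) (nat_lit 5) (nat_lit 37) (nat_lit 3) (nat_lit 42) (nat_lit 5) (nat_lit 418) (nat_lit 417) (nat_lit 185)) (XT.lf (nat_lit 0) (nat_lit 73442564143918) (nat_lit 304) (nat_lit 75318257822885) (nat_lit 380) (nat_lit 71827603475338) (nat_lit 38) (nat_lit 5) (nat_lit 42) (nat_lit 5) (nat_lit 43) (nat_lit 5) (nat_lit 419) (nat_lit 417) (nat_lit 184))) (XT.nd (nat_lit 78) (nat_lit 0) (nat_lit 76) (XT.lf (nat_lit 76) (nat_lit 42746858284746) (nat_lit 0)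 (nat_lit 48866221467795) (nat_lit 380) (nat_lit 146032159821458) (nat_lit 39) (nat_lit 5) (nat_lit 38) (nat_lit 5) (nat_lit 43) (nat_lit 5) (nat_lit 420) (nat_lit 417) (nat_lit 183)) (XT.lf (nat_lit 0) (nat_lit 119367183678725) (nat_lit 304) (nat_lit 72604445518929) (nat_lit 76) (nat_lit 64260244981541) (nat_lit 39) (nat_lit 5) (nat_lit 43) (nat_lit 5) (nat_lit 40) (nat_lit 5) (nat_lit 421) (nat_lit 417) (nat_lit 182)))))) (XT.nd (nat_lit 53196) (nat_lit 0) (nat_lit 0) (XT.nd (nat_lit 52962) (nat_lit 0) (nat_lit 228) (XT.nd (nat_lit 52806) (nat_lit 0) (nat_lit 152) (XT.lf (nat_lit 0) (nat_lit 72127946236872) (nat_lit 304) (nat_lit 84470084324451) (nat_lit 380) (nat_lit 120211429308724) (nat_lit 35) (nat_lit 5) (nat_lit 39) (nat_lit 5) (nat_lit 40) (nat_lit 5) (nat_lit 422) (nat_lit 417) (nat_lit 181)) (XT.nd (nat_lit 78) (nat_lit 0) (nat_lit 0) (XT.lf (nat_lit 0) (nat_lit 31693393048536)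 (nat_lit 380) (nat_lit 39116564136659) (nat_lit 380) (nat_lit 39116564136659) (nat_lit 37) (nat_lit 3) (nat_lit 42) (nat_lit 3) (nat_lit 42) (nat_lit 5) (nat_lit 418) (nat_lit 418) (nat_lit 184)) (XT.lf (nat_lit 76) (nat_lit 33775849712318) (nat_lit 0) (nat_lit 35763531251448) (nat_lit 380) (nat_lit 166592851991808) (nat_lit 38) (nat_lit 5) (nat_lit 37) (nat_lit 3) (nat_lit 42) (nat_lit 5) (nat_lit 419) (nat_lit 418) (nat_lit 183)))) (XT.nd (nat_lit 78) (nat_lit 0) (nat_lit 0) (XT.lf (nat_lit 0) (nat_lit 84458948765508) (nat_lit 304) (nat_lit 86615996496318) (nat_lit 380) (nat_lit 82601743996637) (nat_lit 38) (nat_lit 5) (nat_lit 42) (nat_lit 5) (nat_lit 43) (nat_lit 5) (nat_lit 420) (nat_lit 418) (nat_lit 182)) (XT.nd (nat_lit 78) (nat_lit 0) (nat_lit 76) (XT.lf (nat_lit 76) (nat_lit 49158887027459) (nat_lit 0) (nat_lit 56196154687965) (nat_lit 380) (nat_lit 167936983794674) (nat_lit 39)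 (nat_lit 5) (nat_lit 38) (nat_lit 5) (nat_lit 43) (nat_lit 5) (nat_lit 421) (nat_lit 418) (nat_lit 181)) (XT.lf (nat_lit 0) (nat_lit 137272261230536) (nat_lit 304) (nat_lit 83495112346767) (nat_lit 76) (nat_lit 73899281728771) (nat_lit 39) (nat_lit 5) (nat_lit 43) (nat_lit 5) (nat_lit 40) (nat_lit 5) (nat_lit 422) (nat_lit 418) (nat_lit 180))))) (XT.nd (nat_lit 52962) (nat_lit 0) (nat_lit 152) (XT.nd (nat_lit 52806) (nat_lit 0) (nat_lit 152) (XT.lf (nat_lit 0) (nat_lit 82947138172403) (nat_lit 304) (nat_lit 97140596973121) (nat_lit 380) (nat_lit 138243143705031) (nat_lit 35) (nat_lit 5) (nat_lit 39) (nat_lit 5) (nat_lit 40) (nat_lit 5) (nat_lit 423) (nat_lit 418) (nat_lit 179)) (XT.nd (nat_lit 78) (nat_lit 0) (nat_lit 0) (XT.lf (nat_lit 0) (nat_lit 36447402005817) (nat_lit 380) (nat_lit 44984048757157) (nat_lit 380) (nat_lit 44984048757157) (nat_lit 37) (nat_lit 3) (nat_lit 42) (nat_lit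 3) (nat_lit 42) (nat_lit 5) (nat_lit 419) (nat_lit 419) (nat_lit 182)) (XT.lf (nat_lit 76) (nat_lit 38842227169165) (nat_lit 0) (nat_lit 41128060939168) (nat_lit 380) (nat_lit 191581779790576) (nat_lit 38) (nat_lit 5) (nat_lit 37) (nat_lit 3) (nat_lit 42) (nat_lit 5) (nat_lit 420) (nat_lit 419) (nat_lit 181)))) (XT.nd (nat_lit 53040) (nat_lit 76) (nat_lit 0) (XT.nd (nat_lit 78) (nat_lit 0) (nat_lit 0) (XT.lf (nat_lit 0) (nat_lit 97127791080336) (nat_lit 304) (nat_lit 99608395970764) (nat_lit 380) (nat_lit 94992005596132) (nat_lit 38) (nat_lit 5) (nat_lit 42) (nat_lit 5) (nat_lit 43) (nat_lit 5) (nat_lit 421) (nat_lit 419) (nat_lit 180)) (XT.lf (nat_lit 76) (nat_lit 56532720081580) (nat_lit 0) (nat_lit 64625577891160) (nat_lit 380) (nat_lit 193127531363874) (nat_lit 39) (nat_lit 5) (nat_lit 38) (nat_lit 5) (nat_lit 43) (nat_lit 5) (nat_lit 422) (nat_lit 419) (nat_lit 179))) (XT.nd (nat_lit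 78) (nat_lit 0) (nat_lit 0) (XT.lf (nat_lit 0) (nat_lit 41914512306691) (nat_lit 380) (nat_lit 51731656070730) (nat_lit 380) (nat_lit 51731656070730) (nat_lit 37) (nat_lit 3) (nat_lit 42) (nat_lit 3) (nat_lit 42) (nat_lit 5) (nat_lit 420) (nat_lit 420) (nat_lit 180)) (XT.lf (nat_lit 76) (nat_lit 44668561244543) (nat_lit 0) (nat_lit 47297270080042) (nat_lit 380) (nat_lit 220319046759161) (nat_lit 38) (nat_lit 5) (nat_lit 37) (nat_lit 3) (nat_lit 42) (nat_lit 5) (nat_lit 421) (nat_lit 420) (nat_lit 179))))))))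
noncomputable def xc127 : XT := (XT.nd (nat_lit 265824) (nat_lit 0) (nat_lit 152) (XT.nd (nat_lit 106548) (nat_lit 0) (nat_lit 0) (XT.nd (nat_lit 53274) (nat_lit 152) (nat_lit 0) (XT.nd (nat_lit 53040) (nat_lit 76) (nat_lit 0) (XT.nd (nat_lit 78) (nat_lit 0) (nat_lit 0) (XT.lf (nat_lit 0) (nat_lit 111696959742388) (nat_lit 304) (nat_lit 114549655366376) (nat_lit 380) (nat_lit 109240806435553) (nat_lit 38) (nat_lit 5) (nat_lit 42) (nat_lit 5) (nat_lit 43) (nat_lit 5) (nat_lit 422) (nat_lit 420) (nat_lit 178)) (XT.nd (nat_lit 78) (nat_lit 0) (nat_lit 76) (XT.lf (nat_lit 76) (nat_lit 65012628093818) (nat_lit 0) (nat_lit 74319414574834) (nat_lit 380) (nat_lit 222096661068453) (nat_lit 39) (nat_lit 5) (nat_lit 38) (nat_lit 5) (nat_lit 43) (nat_lit 5) (nat_lit 423) (nat_lit 420) (nat_lit 177)) (XT.lf (nat_lit 0) (nat_lit 181542565477386) (nat_lit 304) (nat_lit 110422286078597) (nat_lit 76) (nat_lit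 97731800086300) (nat_lit 39) (nat_lit 5) (nat_lit 43) (nat_lit 5) (nat_lit 40) (nat_lit 5) (nat_lit 424) (nat_lit 420) (nat_lit 176)))) (XT.nd (nat_lit 78) (nat_lit 0) (nat_lit 0) (XT.lf (nat_lit 0) (nat_lit 48201689152695) (nat_lit 380) (nat_lit 59491404481339) (nat_lit 380) (nat_lit 59491404481339) (nat_lit 37) (nat_lit 3) (nat_lit 42) (nat_lit 3) (nat_lit 42) (nat_lit 5) (nat_lit 421) (nat_lit 421) (nat_lit 178)) (XT.nd (nat_lit 78) (nat_lit 0) (nat_lit 76) (XT.lf (nat_lit 76) (nat_lit 51368845431225) (nat_lit 0) (nat_lit 54391860592049) (nat_lit 380) (nat_lit 253366903773034) (nat_lit 38) (nat_lit 5) (nat_lit 37) (nat_lit 3) (nat_lit 42) (nat_lit 5) (nat_lit 422) (nat_lit 421) (nat_lit 177)) (XT.lf (nat_lit 0) (nat_lit 128451503703748) (nat_lit 304) (nat_lit 131732103671334) (nat_lit 380) (nat_lit 125626927400883) (nat_lit 38) (nat_lit 5) (nat_lit 42) (nat_lit 5) (nat_lit 43) (nat_lit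 5) (nat_lit 423) (nat_lit 421) (nat_lit 176))))) (XT.nd (nat_lit 52962) (nat_lit 0) (nat_lit 152) (XT.nd (nat_lit 78) (nat_lit 228) (nat_lit 0) (XT.lf (nat_lit 76) (nat_lit 74764522307892) (nat_lit 0) (nat_lit 85467326761060) (nat_lit 380) (nat_lit 255411160228720) (nat_lit 39) (nat_lit 5) (nat_lit 38) (nat_lit 5) (nat_lit 43) (nat_lit 5) (nat_lit 424) (nat_lit 421) (nat_lit 175)) (XT.nd (nat_lit 78) (nat_lit 304) (nat_lit 0) (XT.lf (nat_lit 0) (nat_lit 208773950298994) (nat_lit 304) (nat_lit 126985628990389) (nat_lit 76) (nat_lit 112391570099242) (nat_lit 39) (nat_lit 5) (nat_lit 43) (nat_lit 5) (nat_lit 40) (nat_lit 5) (nat_lit 425) (nat_lit 421) (nat_lit 174)) (XT.lf (nat_lit 0) (nat_lit 126152228767957) (nat_lit 304) (nat_lit 147738705421494) (nat_lit 380) (nat_lit 210250541182385) (nat_lit 35) (nat_lit 5) (nat_lit 39) (nat_lit 5) (nat_lit 40) (nat_lit 5) (nat_lit 426) (nat_lit 421)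 (nat_lit 173)))) (XT.nd (nat_lit 156) (nat_lit 0) (nat_lit 76) (XT.nd (nat_lit 78) (nat_lit 0) (nat_lit 0) (XT.lf (nat_lit 0) (nat_lit 55431942525600) (nat_lit 380) (nat_lit 68415115153540) (nat_lit 380) (nat_lit 68415115153540) (nat_lit 37) (nat_lit 3) (nat_lit 42) (nat_lit 3) (nat_lit 42) (nat_lit 5) (nat_lit 422) (nat_lit 422) (nat_lit 176)) (XT.lf (nat_lit 76) (nat_lit 59074172245907) (nat_lit 0) (nat_lit 62550639680859) (nat_lit 380) (nat_lit 291371939338987) (nat_lit 38) (nat_lit 5) (nat_lit 37) (nat_lit 3) (nat_lit 42) (nat_lit 5) (nat_lit 423) (nat_lit 422) (nat_lit 175))) (XT.nd (nat_lit 78) (nat_lit 0) (nat_lit 0) (XT.lf (nat_lit 0) (nat_lit 147719229259311) (nat_lit 304) (nat_lit 151491919222033) (nat_lit 380) (nat_lit 144470966511016) (nat_lit 38) (nat_lit 5) (nat_lit 42) (nat_lit 5) (nat_lit 43) (nat_lit 5) (nat_lit 424) (nat_lit 422) (nat_lit 174)) (XT.lf (nat_lit 76) (nat_lit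 85979200654073) (nat_lit 0) (nat_lit 98287425775222) (nat_lit 380) (nat_lit 293722834263027) (nat_lit 39) (nat_lit 5) (nat_lit 38) (nat_lit 5) (nat_lit 43) (nat_lit 5) (nat_lit 425) (nat_lit 422) (nat_lit 173)))))) (XT.nd (nat_lit 53196) (nat_lit 0) (nat_lit 0) (XT.nd (nat_lit 52962) (nat_lit 0) (nat_lit 152) (XT.nd (nat_lit 78) (nat_lit 304) (nat_lit 0) (XT.lf (nat_lit 0) (nat_lit 240090042843845) (nat_lit 304) (nat_lit 146033473338947) (nat_lit 76) (nat_lit 129250305614128) (nat_lit 39) (nat_lit 5) (nat_lit 43) (nat_lit 5) (nat_lit 40) (nat_lit 5) (nat_lit 426) (nat_lit 422) (nat_lit 172)) (XT.nd (nat_lit 52806) (nat_lit 0) (nat_lit 152) (XT.lf (nat_lit 0) (nat_lit 145075063083151) (nat_lit 304) (nat_lit 169899511234720) (nat_lit 380) (nat_lit 241788122359742) (nat_lit 35) (nat_lit 5) (nat_lit 39) (nat_lit 5) (nat_lit 40) (nat_lit 5) (nat_lit 427) (nat_lit 422) (nat_lit 171)) (XT.lf (nat_lit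 0) (nat_lit 63746733904441) (nat_lit 380) (nat_lit 78677382426570) (nat_lit 380) (nat_lit 78677382426570) (nat_lit 37) (nat_lit 3) (nat_lit 42) (nat_lit 3) (nat_lit 42) (nat_lit 5) (nat_lit 423) (nat_lit 423) (nat_lit 174)))) (XT.nd (nat_lit 78) (nat_lit 0) (nat_lit 76) (XT.lf (nat_lit 76) (nat_lit 67935298082797) (nat_lit 0) (nat_lit 71933235632985) (nat_lit 380) (nat_lit 335077730239835) (nat_lit 38) (nat_lit 5) (nat_lit 37) (nat_lit 3) (nat_lit 42) (nat_lit 5) (nat_lit 424) (nat_lit 423) (nat_lit 173)) (XT.nd (nat_lit 78) (nat_lit 0) (nat_lit 0) (XT.lf (nat_lit 0) (nat_lit 169877113648208) (nat_lit 304) (nat_lit 174215707105338) (nat_lit 380) (nat_lit 166141611487668) (nat_lit 38) (nat_lit 5) (nat_lit 42) (nat_lit 5) (nat_lit 43) (nat_lit 5) (nat_lit 425) (nat_lit 423) (nat_lit 172)) (XT.lf (nat_lit 76) (nat_lit 98876080752189) (nat_lit 0) (nat_lit 113030539641502) (nat_lit 380) (nat_lit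 337781259402481) (nat_lit 39) (nat_lit 5) (nat_lit 38) (nat_lit 5) (nat_lit 43) (nat_lit 5) (nat_lit 426) (nat_lit 423) (nat_lit 171))))) (XT.nd (nat_lit 52962) (nat_lit 0) (nat_lit 152) (XT.nd (nat_lit 78) (nat_lit 304) (nat_lit 0) (XT.lf (nat_lit 0) (nat_lit 276103549270423) (nat_lit 304) (nat_lit 167938494339784) (nat_lit 76) (nat_lit 148637851456251) (nat_lit 39) (nat_lit 5) (nat_lit 43) (nat_lit 5) (nat_lit 40) (nat_lit 5) (nat_lit 427) (nat_lit 423) (nat_lit 170)) (XT.nd (nat_lit 52806) (nat_lit 0) (nat_lit 152) (XT.lf (nat_lit 0) (nat_lit 166836322545624) (nat_lit 304) (nat_lit 195384437919927) (nat_lit 380) (nat_lit 278056340713703) (nat_lit 35) (nat_lit 5) (nat_lit 39) (nat_lit 5) (nat_lit 40) (nat_lit 5) (nat_lit 428) (nat_lit 423) (nat_lit 169)) (XT.lf (nat_lit 0) (nat_lit 73308743990108) (nat_lit 380) (nat_lit 90478989790556) (nat_lit 380) (nat_lit 90478989790556) (nat_lit 37)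 (nat_lit 3) (nat_lit 42) (nat_lit 3) (nat_lit 42) (nat_lit 5) (nat_lit 424) (nat_lit 424) (nat_lit 172)))) (XT.nd (nat_lit 156) (nat_lit 0) (nat_lit 76) (XT.nd (nat_lit 78) (nat_lit 0) (nat_lit 76) (XT.lf (nat_lit 76) (nat_lit 78125592795213) (nat_lit 0) (nat_lit 82723220977937) (nat_lit 380) (nat_lit 385339389775810) (nat_lit 38) (nat_lit 5) (nat_lit 37) (nat_lit 3) (nat_lit 42) (nat_lit 5) (nat_lit 425) (nat_lit 424) (nat_lit 171)) (XT.lf (nat_lit 0) (nat_lit 195358680695439) (nat_lit 304) (nat_lit 200348063171138) (nat_lit 380) (nat_lit 191062853210819) (nat_lit 38) (nat_lit 5) (nat_lit 42) (nat_lit 5) (nat_lit 43) (nat_lit 5) (nat_lit 426) (nat_lit 424) (nat_lit 170))) (XT.nd (nat_lit 78) (nat_lit 0) (nat_lit 76) (XT.lf (nat_lit 76) (nat_lit 113707492865017) (nat_lit 0) (nat_lit 129985120587728) (nat_lit 380) (nat_lit 388448448312852) (nat_lit 39) (nat_lit 5) (nat_lit 38) (nat_lit 5)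 (nat_lit 43) (nat_lit 5) (nat_lit 427) (nat_lit 424) (nat_lit 169)) (XT.lf (nat_lit 0) (nat_lit 317519081660985) (nat_lit 304) (nat_lit 193129268490756) (nat_lit 76) (nat_lit 170933529174685) (nat_lit 39) (nat_lit 5) (nat_lit 43) (nat_lit 5) (nat_lit 40) (nat_lit 5) (nat_lit 428) (nat_lit 424) (nat_lit 168))))))) (XT.nd (nat_lit 159666) (nat_lit 0) (nat_lit 0) (XT.nd (nat_lit 53274) (nat_lit 0) (nat_lit 0) (XT.nd (nat_lit 234) (nat_lit 0) (nat_lit 0) (XT.nd (nat_lit 78) (nat_lit 0) (nat_lit 0) (XT.lf (nat_lit 0) (nat_lit 84305055588623) (nat_lit 380) (nat_lit 104050838259139) (nat_lit 380) (nat_lit 104050838259139) (nat_lit 37) (nat_lit 3) (nat_lit 42) (nat_lit 3) (nat_lit 42) (nat_lit 5) (nat_lit 425) (nat_lit 425) (nat_lit 170)) (XT.nd (nat_lit 78) (nat_lit 0) (nat_lit 76) (XT.lf (nat_lit 76) (nat_lit 89844431714500) (nat_lit 0) (nat_lit 95131704124624) (nat_lit 380) (nat_lit 443140298242180)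 (nat_lit 38) (nat_lit 5) (nat_lit 37) (nat_lit 3) (nat_lit 42) (nat_lit 5) (nat_lit 426) (nat_lit 425) (nat_lit 169)) (XT.lf (nat_lit 0) (nat_lit 224662482799757) (nat_lit 304) (nat_lit 230400272646804) (nat_lit 380) (nat_lit 219722281192445) (nat_lit 38) (nat_lit 5) (nat_lit 42) (nat_lit 5) (nat_lit 43) (nat_lit 5) (nat_lit 427) (nat_lit 425) (nat_lit 168)))) (XT.nd (nat_lit 78) (nat_lit 76) (nat_lit 0) (XT.lf (nat_lit 76) (nat_lit 130763616794770) (nat_lit 0) (nat_lit 149482888675885) (nat_lit 380) (nat_lit 446715715559780) (nat_lit 39) (nat_lit 5) (nat_lit 38) (nat_lit 5) (nat_lit 43) (nat_lit 5) (nat_lit 428) (nat_lit 425) (nat_lit 167)) (XT.nd (nat_lit 52884) (nat_lit 152) (nat_lit 0) (XT.lf (nat_lit 0) (nat_lit 365146943910135) (nat_lit 304) (nat_lit 222098658764363) (nat_lit 76) (nat_lit 196573558550892) (nat_lit 39) (nat_lit 5) (nat_lit 43) (nat_lit 5) (nat_lit 40) (nat_lit 5) (nat_lit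 429) (nat_lit 425) (nat_lit 166)) (XT.lf (nat_lit 0) (nat_lit 96950813926918) (nat_lit 380) (nat_lit 119658463998010) (nat_lit 380) (nat_lit 119658463998010) (nat_lit 37) (nat_lit 3) (nat_lit 42) (nat_lit 3) (nat_lit 42) (nat_lit 5) (nat_lit 426) (nat_lit 426) (nat_lit 168))))) (XT.nd (nat_lit 53118) (nat_lit 0) (nat_lit 0) (XT.nd (nat_lit 78) (nat_lit 0) (nat_lit 76) (XT.lf (nat_lit 76) (nat_lit 103321096471675) (nat_lit 0) (nat_lit 109401459743317) (nat_lit 380) (nat_lit 509611342978508) (nat_lit 38) (nat_lit 5) (nat_lit 37) (nat_lit 3) (nat_lit 42) (nat_lit 5) (nat_lit 427) (nat_lit 426) (nat_lit 167)) (XT.nd (nat_lit 78) (nat_lit 0) (nat_lit 0) (XT.lf (nat_lit 0) (nat_lit 258361855219719) (nat_lit 304) (nat_lit 264960313543830) (nat_lit 380) (nat_lit 252680623371307) (nat_lit 38) (nat_lit 5) (nat_lit 42) (nat_lit 5) (nat_lit 43) (nat_lit 5) (nat_lit 428) (nat_lit 426) (nat_lit 166))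 (XT.lf (nat_lit 76) (nat_lit 150378159313985) (nat_lit 0) (nat_lit 171905321977270) (nat_lit 380) (nat_lit 513723072893746) (nat_lit 39) (nat_lit 5) (nat_lit 38) (nat_lit 5) (nat_lit 43) (nat_lit 5) (nat_lit 429) (nat_lit 426) (nat_lit 165)))) (XT.nd (nat_lit 156) (nat_lit 0) (nat_lit 0) (XT.nd (nat_lit 78) (nat_lit 0) (nat_lit 0) (XT.lf (nat_lit 0) (nat_lit 111493436015956) (nat_lit 380) (nat_lit 137607233597711) (nat_lit 380) (nat_lit 137607233597711) (nat_lit 37) (nat_lit 3) (nat_lit 42) (nat_lit 3) (nat_lit 42) (nat_lit 5) (nat_lit 427) (nat_lit 427) (nat_lit 166)) (XT.lf (nat_lit 76) (nat_lit 118819260942420) (nat_lit 0) (nat_lit 125811678704821) (nat_lit 380) (nat_lit 586053044425284) (nat_lit 38) (nat_lit 5) (nat_lit 37) (nat_lit 3) (nat_lit 42) (nat_lit 5) (nat_lit 428) (nat_lit 427) (nat_lit 165))) (XT.nd (nat_lit 53040) (nat_lit 76) (nat_lit 0) (XT.lf (nat_lit 0) (nat_lit 297116133502678)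 (nat_lit 304) (nat_lit 304704360575405) (nat_lit 380) (nat_lit 290582716877003) (nat_lit 38) (nat_lit 5) (nat_lit 42) (nat_lit 5) (nat_lit 43) (nat_lit 5) (nat_lit 429) (nat_lit 427) (nat_lit 164)) (XT.lf (nat_lit 0) (nat_lit 128217451418349) (nat_lit 380) (nat_lit 158248318637368) (nat_lit 380) (nat_lit 158248318637368) (nat_lit 37) (nat_lit 3) (nat_lit 42) (nat_lit 3) (nat_lit 42) (nat_lit 5) (nat_lit 428) (nat_lit 428) (nat_lit 164)))))) (XT.nd (nat_lit 159822) (nat_lit 0) (nat_lit 0) (XT.nd (nat_lit 159588) (nat_lit 0) (nat_lit 0) (XT.nd (nat_lit 53118) (nat_lit 0) (nat_lit 0) (XT.lf (nat_lit 76) (nat_lit 136642150083789) (nat_lit 0) (nat_lit 144683430510538) (nat_lit 380) (nat_lit 673961001089075) (nat_lit 38) (nat_lit 5) (nat_lit 37) (nat_lit 3) (nat_lit 42) (nat_lit 5) (nat_lit 429) (nat_lit 428) (nat_lit 163)) (XT.nd (nat_lit 106392) (nat_lit 0) (nat_lit 0) (XT.lf (nat_lit 0) (nat_lit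 147450069131101) (nat_lit 380) (nat_lit 181985566432973) (nat_lit 380) (nat_lit 181985566432974) (nat_lit 37) (nat_lit 3) (nat_lit 42) (nat_lit 3) (nat_lit 42) (nat_lit 5) (nat_lit 429) (nat_lit 429) (nat_lit 162)) (XT.lf (nat_lit 0) (nat_lit 195002716425882) (nat_lit 380) (nat_lit 240675911607607) (nat_lit 380) (nat_lit 240675911607607) (nat_lit 37) (nat_lit 3) (nat_lit 42) (nat_lit 3) (nat_lit 42) (nat_lit 5) (nat_lit 431) (nat_lit 431) (nat_lit 158)))) (XT.nd (nat_lit 78) (nat_lit 0) (nat_lit 76) (XT.lf (nat_lit 76) (nat_lit 207815630008685) (nat_lit 0) (nat_lit 220045412377713) (nat_lit 380) (nat_lit 1025010437531347) (nat_lit 38) (nat_lit 5) (nat_lit 37) (nat_lit 3) (nat_lit 42) (nat_lit 5) (nat_lit 432) (nat_lit 431) (nat_lit 157)) (XT.nd (nat_lit 78) (nat_lit 0) (nat_lit 0) (XT.lf (nat_lit 0) (nat_lit 519657974472020) (nat_lit 304) (nat_lit 532929831048626) (nat_lit 380) (nat_lit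 508230987959867) (nat_lit 38) (nat_lit 5) (nat_lit 42) (nat_lit 5) (nat_lit 43) (nat_lit 5) (nat_lit 433) (nat_lit 431) (nat_lit 156)) (XT.lf (nat_lit 76) (nat_lit 302464191579205) (nat_lit 0) (nat_lit 345763004928484) (nat_lit 380) (nat_lit 1033280595049423) (nat_lit 39) (nat_lit 5) (nat_lit 38) (nat_lit 5) (nat_lit 43) (nat_lit 5) (nat_lit 434) (nat_lit 431) (nat_lit 155))))) (XT.nd (nat_lit 53040) (nat_lit 0) (nat_lit 0) (XT.nd (nat_lit 52884) (nat_lit 152) (nat_lit 0) (XT.lf (nat_lit 0) (nat_lit 844607069646407) (nat_lit 304) (nat_lit 513727693685785) (nat_lit 76) (nat_lit 454686585843356) (nat_lit 39) (nat_lit 5) (nat_lit 43) (nat_lit 5) (nat_lit 40) (nat_lit 5) (nat_lit 435) (nat_lit 431) (nat_lit 154)) (XT.nd (nat_lit 78) (nat_lit 0) (nat_lit 0) (XT.lf (nat_lit 0) (nat_lit 224253123889764) (nat_lit 380) (nat_lit 276777298348749) (nat_lit 380) (nat_lit 276777298348749) (nat_lit 37)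 (nat_lit 3) (nat_lit 42) (nat_lit 3) (nat_lit 42) (nat_lit 5) (nat_lit 432) (nat_lit 432) (nat_lit 156)) (XT.lf (nat_lit 76) (nat_lit 238987974509988) (nat_lit 0) (nat_lit 253052224234371) (nat_lit 380) (nat_lit 1178762003161050) (nat_lit 38) (nat_lit 5) (nat_lit 37) (nat_lit 3) (nat_lit 42) (nat_lit 5) (nat_lit 433) (nat_lit 432) (nat_lit 155)))) (XT.nd (nat_lit 53040) (nat_lit 76) (nat_lit 0) (XT.nd (nat_lit 78) (nat_lit 0) (nat_lit 0) (XT.lf (nat_lit 0) (nat_lit 597606670642822) (nat_lit 304) (nat_lit 612869305705931) (nat_lit 380) (nat_lit 584465636153837) (nat_lit 38) (nat_lit 5) (nat_lit 42) (nat_lit 5) (nat_lit 43) (nat_lit 5) (nat_lit 434) (nat_lit 432) (nat_lit 154)) (XT.lf (nat_lit 76) (nat_lit 347833820316086) (nat_lit 0) (nat_lit 397627455667757) (nat_lit 380) (nat_lit 1188272684306837) (nat_lit 39) (nat_lit 5) (nat_lit 38) (nat_lit 5) (nat_lit 43) (nat_lit 5) (nat_lit 435)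 (nat_lit 432) (nat_lit 153))) (XT.nd (nat_lit 78) (nat_lit 0) (nat_lit 0) (XT.lf (nat_lit 0) (nat_lit 257891092473229) (nat_lit 380) (nat_lit 318293893101061) (nat_lit 380) (nat_lit 318293893101061) (nat_lit 37) (nat_lit 3) (nat_lit 42) (nat_lit 3) (nat_lit 42) (nat_lit 5) (nat_lit 433) (nat_lit 433) (nat_lit 154)) (XT.lf (nat_lit 76) (nat_lit 274836170686471) (nat_lit 0) (nat_lit 291010057869540) (nat_lit 380) (nat_lit 1355576303635208) (nat_lit 38) (nat_lit 5) (nat_lit 37) (nat_lit 3) (nat_lit 42) (nat_lit 5) (nat_lit 434) (nat_lit 433) (nat_lit 153))))))))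

set_option maxRecDepth 10000000 in
noncomputable def Tp : PT := (PT.nd (nat_lit 9202284) (PT.nd (nat_lit 8830848) pc0 pc1) (PT.nd (nat_lit 264654) pc2 pc3))

set_option maxRecDepth 10000000 in
noncomputable def Tx : XT := (XT.nd (nat_lit 15226692) (nat_lit 0) (nat_lit 76) XT.nil (XT.nd (nat_lit 7807332) (nat_lit 0) (nat_lit 0) (XT.nd (nat_lit 3341676) (nat_lit 0) (nat_lit 0) (XT.nd (nat_lit 2336022) (nat_lit 0) (nat_lit 0) (XT.nd (nat_lit 1750866) (nat_lit 0) (nat_lit 0) (XT.nd (nat_lit 1273194) (nat_lit 0) (nat_lit 0) (XT.nd (nat_lit 901290) (nat_lit 0) (nat_lit 0) (XT.nd (nat_lit 636246) (nat_lit 0) (nat_lit 0) (XT.nd (nat_lit 424242) (nat_lit 0) (nat_lit 0) xc0 xc1) (XT.nd (nat_lit 158418) (nat_lit 0) (nat_lit 0) xc2 xc3)) (XT.nd (nat_lit 212394) (nat_lit 0) (nat_lit 0) (XT.nd (nat_lit 106470) (nat_lit 0) (nat_lit 0) xc4 xc5) (XT.nd (nat_lit 105144) (nat_lit 0) (nat_lit 0) xc6 xc7)))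 (XT.nd (nat_lit 264966) (nat_lit 0) (nat_lit 0) (XT.nd (nat_lit 157794) (nat_lit 0) (nat_lit 0) (XT.nd (nat_lit 104052) (nat_lit 0) (nat_lit 0) xc8 xc9) (XT.nd (nat_lit 53586) (nat_lit 0) (nat_lit 0) xc10 xc11)) (XT.nd (nat_lit 106548) (nat_lit 0) (nat_lit 0) (XT.nd (nat_lit 53352) (nat_lit 0) (nat_lit 0) xc12 xc13) (XT.nd (nat_lit 53118) (nat_lit 0) (nat_lit 0) xc14 xc15)))) (XT.nd (nat_lit 320190) (nat_lit 0) (nat_lit 0) (XT.nd (nat_lit 209508) (nat_lit 0) (nat_lit 0) (XT.nd (nat_lit 105612) (nat_lit 0) (nat_lit 0) (XT.nd (nat_lit 52884) (nat_lit 0) (nat_lit 0) xc16 xc17) (XT.nd (nat_lit 52026) (nat_lit 0) (nat_lit 0) xc18 xc19)) (XT.nd (nat_lit 55536) (nat_lit 0) (nat_lit 0) (XT.nd (nat_lit 3978) (nat_lit 0) (nat_lit 0) xc20 xc21) (XT.nd (nat_lit 51090) (nat_lit 0) (nat_lit 0) xc22 xc23))) (XT.nd (nat_lit 156078) (nat_lit 0) (nat_lit 0) (XT.nd (nat_lit 101478) (nat_lit 0) (nat_lit 0)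 (XT.nd (nat_lit 50778) (nat_lit 0) (nat_lit 0) xc24 xc25) (XT.nd (nat_lit 3978) (nat_lit 0) (nat_lit 0) xc26 xc27)) (XT.nd (nat_lit 54444) (nat_lit 0) (nat_lit 0) (XT.nd (nat_lit 50466) (nat_lit 0) (nat_lit 0) xc28 xc29) (XT.nd (nat_lit 50388) (nat_lit 0) (nat_lit 0) xc30 xc31))))) (XT.nd (nat_lit 526266) (nat_lit 0) (nat_lit 0) (XT.nd (nat_lit 263406) (nat_lit 0) (nat_lit 0) (XT.nd (nat_lit 155142) (nat_lit 0) (nat_lit 0) (XT.nd (nat_lit 100776) (nat_lit 0) (nat_lit 0) (XT.nd (nat_lit 50388) (nat_lit 0) (nat_lit 0) xc32 xc33) (XT.nd (nat_lit 3978) (nat_lit 0) (nat_lit 0) xc34 xc35)) (XT.nd (nat_lit 54132) (nat_lit 0) (nat_lit 0) (XT.nd (nat_lit 3978) (nat_lit 0) (nat_lit 0) xc36 xc37) (XT.nd (nat_lit 50076) (nat_lit 0) (nat_lit 0) xc38 xc39))) (XT.nd (nat_lit 154986) (nat_lit 0) (nat_lit 0) (XT.nd (nat_lit 54132) (nat_lit 0) (nat_lit 0) (XT.nd (nat_lit 50154) (nat_lit 0) (nat_lit 0) xc40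 xc41) (XT.nd (nat_lit 50388) (nat_lit 0) (nat_lit 0) xc42 xc43)) (XT.nd (nat_lit 54132) (nat_lit 0) (nat_lit 0) (XT.nd (nat_lit 3978) (nat_lit 0) (nat_lit 0) xc44 xc45) (XT.nd (nat_lit 3978) (nat_lit 0) (nat_lit 0) xc46 xc47)))) (XT.nd (nat_lit 216060) (nat_lit 0) (nat_lit 0) (XT.nd (nat_lit 107718) (nat_lit 0) (nat_lit 0) (XT.nd (nat_lit 53742) (nat_lit 0) (nat_lit 0) (XT.nd (nat_lit 3978) (nat_lit 0) (nat_lit 0) xc48 xc49) (XT.nd (nat_lit 3978) (nat_lit 0) (nat_lit 0) xc50 xc51)) (XT.nd (nat_lit 54054) (nat_lit 0) (nat_lit 0) (XT.nd (nat_lit 50076) (nat_lit 0) (nat_lit 152) xc52 xc53) (XT.nd (nat_lit 50232) (nat_lit 0) (nat_lit 0) xc54 xc55))) (XT.nd (nat_lit 154674) (nat_lit 0) (nat_lit 0) (XT.nd (nat_lit 54132) (nat_lit 0) (nat_lit 0) (XT.nd (nat_lit 50154) (nat_lit 0) (nat_lit 0) xc56 xc57) (XT.nd (nat_lit 50232) (nat_lit 0) (nat_lit 0) xc58 xc59)) (XT.nd (nat_lit 54288) (nat_lit 0)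 (nat_lit 0) (XT.nd (nat_lit 3978) (nat_lit 0) (nat_lit 0) xc60 xc61) (XT.nd (nat_lit 3978) (nat_lit 0) (nat_lit 0) xc62 xc63)))))) (XT.nd (nat_lit 1118052) (nat_lit 0) (nat_lit 0) (XT.nd (nat_lit 532038) (nat_lit 0) (nat_lit 0) (XT.nd (nat_lit 264576) (nat_lit 0) (nat_lit 0) (XT.nd (nat_lit 108888) (nat_lit 0) (nat_lit 0) (XT.nd (nat_lit 54366) (nat_lit 0) (nat_lit 0) (XT.nd (nat_lit 50388) (nat_lit 0) (nat_lit 152) xc64 xc65) (XT.nd (nat_lit 50466) (nat_lit 0) (nat_lit 0) xc66 xc67)) (XT.nd (nat_lit 101010) (nat_lit 0) (nat_lit 0) (XT.nd (nat_lit 50466) (nat_lit 0) (nat_lit 0) xc68 xc69) (XT.nd (nat_lit 3978) (nat_lit 152) (nat_lit 0) xc70 xc71))) (XT.nd (nat_lit 109746) (nat_lit 0) (nat_lit 0) (XT.nd (nat_lit 54756) (nat_lit 0) (nat_lit 0) (XT.nd (nat_lit 3978) (nat_lit 0) (nat_lit 0) xc72 xc73) (XT.nd (nat_lit 50934) (nat_lit 0) (nat_lit 0) xc74 xc75)) (XT.nd (nat_lit 102336) (nat_lit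 0) (nat_lit 0) (XT.nd (nat_lit 51090) (nat_lit 0) (nat_lit 0) xc76 xc77) (XT.nd (nat_lit 3978) (nat_lit 0) (nat_lit 0) xc78 xc79)))) (XT.nd (nat_lit 268632) (nat_lit 0) (nat_lit 0) (XT.nd (nat_lit 157560) (nat_lit 0) (nat_lit 0) (XT.nd (nat_lit 55224) (nat_lit 0) (nat_lit 0) (XT.nd (nat_lit 51246) (nat_lit 0) (nat_lit 0) xc80 xc81) (XT.nd (nat_lit 51168) (nat_lit 0) (nat_lit 0) xc82 xc83)) (XT.nd (nat_lit 55224) (nat_lit 0) (nat_lit 0) (XT.nd (nat_lit 3978) (nat_lit 0) (nat_lit 0) xc84 xc85) (XT.nd (nat_lit 51402) (nat_lit 0) (nat_lit 0) xc86 xc87))) (XT.nd (nat_lit 157638) (nat_lit 0) (nat_lit 0) (XT.nd (nat_lit 102102) (nat_lit 0) (nat_lit 0) (XT.nd (nat_lit 50856) (nat_lit 0) (nat_lit 0) xc88 xc89) (XT.nd (nat_lit 4758) (nat_lit 0) (nat_lit 0) xc90 xc91)) (XT.nd (nat_lit 103506) (nat_lit 0) (nat_lit 0) (XT.nd (nat_lit 51636) (nat_lit 0) (nat_lit 0) xc92 xc93) (XT.nd (nat_lit 5070) (nat_lit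 0) (nat_lit 0) xc94 xc95))))) (XT.nd (nat_lit 901056) (nat_lit 0) (nat_lit 228) (XT.nd (nat_lit 424710) (nat_lit 152) (nat_lit 0) (XT.nd (nat_lit 211770) (nat_lit 0) (nat_lit 0) (XT.nd (nat_lit 105690) (nat_lit 0) (nat_lit 0) (XT.nd (nat_lit 52806) (nat_lit 0) (nat_lit 0) xc96 xc97) (XT.nd (nat_lit 52962) (nat_lit 0) (nat_lit 0) xc98 xc99)) (XT.nd (nat_lit 106314) (nat_lit 0) (nat_lit 0) (XT.nd (nat_lit 53118) (nat_lit 0) (nat_lit 0) xc100 xc101) (XT.nd (nat_lit 53274) (nat_lit 0) (nat_lit 0) xc102 xc103))) (XT.nd (nat_lit 213330) (nat_lit 0) (nat_lit 152) (XT.nd (nat_lit 106548) (nat_lit 0) (nat_lit 0) (XT.nd (nat_lit 53352) (nat_lit 152) (nat_lit 0) xc104 xc105) (XT.nd (nat_lit 53352) (nat_lit 0) (nat_lit 152) xc106 xc107)) (XT.nd (nat_lit 156078) (nat_lit 0) (nat_lit 76) (XT.nd (nat_lit 53352) (nat_lit 0) (nat_lit 0) xc108 xc109) (XT.nd (nat_lit 53430) (nat_lit 0) (nat_lit 0) xc110 xc111))))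 (XT.nd (nat_lit 479856) (nat_lit 0) (nat_lit 0) (XT.nd (nat_lit 214578) (nat_lit 0) (nat_lit 0) (XT.nd (nat_lit 107094) (nat_lit 0) (nat_lit 0) (XT.nd (nat_lit 53508) (nat_lit 0) (nat_lit 0) xc112 xc113) (XT.nd (nat_lit 53664) (nat_lit 0) (nat_lit 0) xc114 xc115)) (XT.nd (nat_lit 107250) (nat_lit 0) (nat_lit 152) (XT.nd (nat_lit 53586) (nat_lit 0) (nat_lit 0) xc116 xc117) (XT.nd (nat_lit 103818) (nat_lit 0) (nat_lit 76) xc118 xc119))) (XT.nd (nat_lit 530790) (nat_lit 0) (nat_lit 152) (XT.nd (nat_lit 212238) (nat_lit 380) (nat_lit 0) (XT.nd (nat_lit 105144) (nat_lit 0) (nat_lit 532) xc120 xc121) (XT.nd (nat_lit 159354) (nat_lit 1444) (nat_lit 0) xc122 xc123)) (XT.nd (nat_lit 372060) (nat_lit 0) (nat_lit 1748) (XT.nd (nat_lit 159432) (nat_lit 0) (nat_lit 1672) xc124 xc125) (XT.nd (nat_lit 372294) (nat_lit 0) (nat_lit 456) xc126 xc127))))))) XT.nil))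

set_option maxRecDepth 10000000 in
noncomputable def Te : XT := XT.nil

set_option maxRecDepth 10000000 in
noncomputable def Tz : ZL := (ZL.cons (nat_lit 76) (nat_lit 6) (nat_lit 488892702120620666660) (ZL.cons (nat_lit 152) (nat_lit 6) (nat_lit 459411409520416718646) (ZL.cons (nat_lit 228) (nat_lit 3) (nat_lit 227485074135623109906) (ZL.cons (nat_lit 304) (nat_lit 6) (nat_lit 425507923030182178428) (ZL.cons (nat_lit 380) (nat_lit 6) (nat_lit 399929591555755550400) (ZL.cons (nat_lit 456) (nat_lit 3) (nat_lit 198033812626064514837) (ZL.cons (nat_lit 532) (nat_lit 6) (nat_lit 370514510360164928164) (ZL.cons (nat_lit 608) (nat_lit 6) (nat_lit 348348626106403619742) (ZL.cons (nat_lit 684) (nat_lit 3) (nat_lit 172495197269016366077) (ZL.cons (nat_lit 760) (nat_lit 6) (nat_lit 322857859214578115058) (ZL.cons (nat_lit 836) (nat_lit 6) (nat_lit 303683876524776964796) (ZL.cons (nat_lit 912) (nat_lit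 3) (nat_lit 150381837580488096491) (ZL.cons (nat_lit 988) (nat_lit 6) (nat_lit 281633796431505641996) (ZL.cons (nat_lit 1064) (nat_lit 6) (nat_lit 265093942790155081756) (ZL.cons (nat_lit 1140) (nat_lit 3) (nat_lit 131277318628207640089) (ZL.cons (nat_lit 1216) (nat_lit 6) (nat_lit 246073111102601937482) (ZL.cons (nat_lit 1292) (nat_lit 6) (nat_lit 231866753327925787634) (ZL.cons (nat_lit 1368) (nat_lit 3) (nat_lit 114829330779728197479) (ZL.cons (nat_lit 1444) (nat_lit 6) (nat_lit 215529441887048215310) (ZL.cons (nat_lit 1520) (nat_lit 6) (nat_lit 203409010830917238504) (ZL.cons (nat_lit 1596) (nat_lit 3) (nat_lit 100744465516124100696) (ZL.cons (nat_lit 1672) (nat_lit 6) (nat_lit 189470515116366615174) (ZL.cons (nat_lit 1748) (nat_lit 6) (nat_lit 179239051219310121276) (ZL.cons (nat_lit 1824) (nat_lit 3) (nat_lit 88784708305885914068) (ZL.cons (nat_lit 1900) (nat_lit 6) (nat_lit 167472867737695153290)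 (ZL.cons (nat_lit 1976) (nat_lit 6) (nat_lit 158983327320513351348) (ZL.cons (nat_lit 2052) (nat_lit 3) (nat_lit 78765735570022635179) (ZL.cons (nat_lit 2128) (nat_lit 6) (nat_lit 149220355840754279116) (ZL.cons (nat_lit 2204) (nat_lit 6) (nat_lit 142376913062227355818) (ZL.cons (nat_lit 2280) (nat_lit 3) (nat_lit 70557214713518860088) (ZL.cons (nat_lit 2356) (nat_lit 6) (nat_lit 136867249358797669366) (ZL.cons (nat_lit 2432) (nat_lit 6) (nat_lit 134506953866921394030) (ZL.cons (nat_lit 2508) (nat_lit 6) (nat_lit 129268652464663894298) (ZL.cons (nat_lit 2584) (nat_lit 3) (nat_lit 64085420303988627302) (ZL.cons (nat_lit 2660) (nat_lit 6) (nat_lit 125297036714568878594) (ZL.cons (nat_lit 2736) (nat_lit 6) (nat_lit 123244605852067769606) (ZL.cons (nat_lit 2812) (nat_lit 3) (nat_lit 60160248104228468906) (ZL.cons (nat_lit 2888) (nat_lit 6) (nat_lit 120866302723336155254) (ZL.cons (nat_lit 2964)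 (nat_lit 6) (nat_lit 122514401091091009652) (ZL.cons (nat_lit 3040) (nat_lit 6) (nat_lit 119631866745272970840) (ZL.cons (nat_lit 3116) (nat_lit 3) (nat_lit 59338623869729250773) (ZL.cons (nat_lit 3192) (nat_lit 6) (nat_lit 116088455254600033884) (ZL.cons (nat_lit 3268) (nat_lit 6) (nat_lit 117261939261590351380) (ZL.cons (nat_lit 3344) (nat_lit 6) (nat_lit 115477216772458952262) (ZL.cons (nat_lit 3420) (nat_lit 3) (nat_lit 56477113078714884825) (ZL.cons (nat_lit 3496) (nat_lit 6) (nat_lit 113581903649540869704) (ZL.cons (nat_lit 3572) (nat_lit 3) (nat_lit 56375900083111969940) (ZL.cons (nat_lit 3648) (nat_lit 6) (nat_lit 111402293558185074764) (ZL.cons (nat_lit 3724) (nat_lit 1) (nat_lit 18446744073709551617) ZL.nil)))))))))))))))))))))))))))))))))))))))))))))))))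

noncomputable def vl : XL := ⟨(nat_lit 0), (nat_lit 76), (nat_lit 42240923), (nat_lit 228), (nat_lit 170428072), (nat_lit 76), (nat_lit 42240923), (nat_lit 1), (nat_lit 5), (nat_lit 3), (nat_lit 4), (nat_lit 1), (nat_lit 4), (nat_lit 0), (nat_lit 0), (nat_lit 0)⟩

noncomputable def cp0 : Nat := (nat_lit 20207843862085375631784372562095701386389977480958137731975075252884821835047784805302272)

noncomputable def cp1 : Nat := (nat_lit 6716051811747372797591793089120764066888585932200851505496298119956694441769405185736542679285279961752921716824496229587084252221224240195555623335571726691104108415507812143716839565582741058512340343343651337739679136209252870436648881661904613535486651685191649281285172043657545658799107013191556950960805921346755538502740061088185415345129714238260804298367760641659997080344301037357731377264939489012465598069521783661654840993067707984407185986401254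72731585834681096991763245451522549714781827680090576078969049519992169888807910305350067717463992540465179706786638431852762084186005902136782959543224117042624491844106047508388009226983410301907591797531252018835535326343840803315019211965435437452674051990303478986414781946667559010938033910893956257760466738515163721128201355108854194308150159038311235795484901367470410679437912632326431048564951686148257706292849266881522018257809524514302262276246431732107177889408997797612800941336881280250024138550278630001518752833702800011508471471486210741017198996584581716068206247229703740446206957944829177490545131499838834095129261210821499217949775927831475590223292792832)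

noncomputable def rc0 : Nat := (nat_lit 634923502586300439725374206587950283172378941733671392801616218291302526343468448350186491839341949922658972004015279911460358395330739875868845801763477605383441184860354990180391297466979941085435350801807602123510281222243854590873847812352310093989448813060443799240000337564357967245907089554790009133964489290425879950842683574595760067585134970979633451138920393647960383800809120399817801024795555479043633363835063497876121295293143032045772787596416653280837564254378124960637516864016716778815391219202785491441098329865064428922084192874999268877752255603930067837050653234317266099732965075613029020224225060711945124106185061135129683175620962058920174593635987599126030616293192938955578074704107419687522774274018006981747975685236011645456633924607853147874258055289768627314751845417290168924180214078319500850123782296655611672384002622144359264054948771587903420588692750774817196188286264180530871404166973489698674068779114249441740783270670572530375578940006323515949025773599279525442320292407603999228316430815411495840858033115856260268926588173580063798845002896807555082377404446090725651895744047748286391517184)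

noncomputable def rc1 : Nat := (nat_lit 671605181174737279759179308912076406688858593220085150549629811995669444176940518573654267928527996175292171682449622958708425222122424019555562333557172669110410841550781214371683956558274105851234034334365133773967913620925287043664888166190461353548665168519164928128517204365754565879910701319155695096080592134675553850274006108818541534512971423826080429836776064165999708034430103735773137726493948901246559806952178366165484099306770798440718598640125472731585834681096991763245451522549714781827680090576078969049519992169888807910305350067717463992540465179706786638431852762084186005902136782959543224117042624491844106047508388009226983410301907591797531252018835535326343840803315019211965435437452674051990303478986414781946667559010938033910893956257760466738515163721128201355108854194308150159038311235795484901367470410679437912632326431048564951686148257706292849266881522018257809524514302262276246431732107177889408997797612800941336881280250024138550278630001518752833702800011508471471486210741017198996584581716068206247229703740446206957944829177490545131499838834095129261210821499217949775927831475590223292792832)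

end Vale.Agent.Lib.P154.PChain.BC.S0
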