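import Vale.Agent.Lib.P154.PChain.BC.R0_0

set_option linter.all false

namespace Vale.Agent.Lib.P154.PChain.BC.S1

open Vale.Agent.Lib.P154.Chain

noncomputable def pc0 : PT := (PT.nd (nat_lit 8247096) (PT.nd (nat_lit 7928622) (PT.nd (nat_lit 7769346) (PT.nd (nat_lit 7663266) (PT.nd (nat_lit 7610226) (PT.nd (nat_lit 7610148) PT.nil (PT.lf (nat_lit 76) (nat_lit 6) (nat_lit 1) (nat_lit 3) (nat_lit 183) (nat_lit 143) (nat_lit 184))) (PT.nd (nat_lit 52962) (PT.lf (nat_lit 76) (nat_lit 6) (nat_lit 1) (nat_lit 1) (nat_lit 184) (nat_lit 143) (nat_lit 183)) (PT.lf (nat_lit 152) (nat_lit 6) (nat_lit 2) (nat_lit 3) (nat_lit 182) (nat_lit 144) (nat_lit 184)))) (PT.nd (nat_lit 53040) (PT.nd (nat_lit 78) (PT.lf (nat_lit 228) (nat_lit 3) (nat_lit 3) (nat_lit 1) (nat_lit 183) (nat_lit 144) (nat_lit 183)) (PT.lf (nat_lit 152) (nat_lit 6) (nat_lit 2) (nat_lit 1) (nat_lit 184) (nat_lit 144) (nat_lit 182)))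 (PT.nd (nat_lit 78) (PT.lf (nat_lit 304) (nat_lit 6) (nat_lit 4) (nat_lit 3) (nat_lit 182) (nat_lit 145) (nat_lit 183)) (PT.lf (nat_lit 304) (nat_lit 6) (nat_lit 4) (nat_lit 1) (nat_lit 183) (nat_lit 145) (nat_lit 182))))) (PT.nd (nat_lit 53196) (PT.nd (nat_lit 156) (PT.nd (nat_lit 78) (PT.lf (nat_lit 380) (nat_lit 6) (nat_lit 5) (nat_lit 3) (nat_lit 181) (nat_lit 146) (nat_lit 183)) (PT.lf (nat_lit 456) (nat_lit 3) (nat_lit 6) (nat_lit 1) (nat_lit 182) (nat_lit 146) (nat_lit 182))) (PT.nd (nat_lit 52962) (PT.lf (nat_lit 380) (nat_lit 6) (nat_lit 5) (nat_lit 1) (nat_lit 183) (nat_lit 146) (nat_lit 181)) (PT.lf (nat_lit 532) (nat_lit 6) (nat_lit 7) (nat_lit 3) (nat_lit 181) (nat_lit 147) (nat_lit 182)))) (PT.nd (nat_lit 53040) (PT.nd (nat_lit 52962) (PT.lf (nat_lit 532) (nat_lit 6) (nat_lit 7) (nat_lit 1) (nat_lit 182) (nat_lit 147) (nat_lit 181)) (PT.lf (nat_lit 608) (nat_lit 6) (nat_lit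 8) (nat_lit 3) (nat_lit 180) (nat_lit 148) (nat_lit 182))) (PT.nd (nat_lit 78) (PT.lf (nat_lit 684) (nat_lit 3) (nat_lit 9) (nat_lit 1) (nat_lit 181) (nat_lit 148) (nat_lit 181)) (PT.lf (nat_lit 608) (nat_lit 6) (nat_lit 8) (nat_lit 1) (nat_lit 182) (nat_lit 148) (nat_lit 180)))))) (PT.nd (nat_lit 159198) (PT.nd (nat_lit 53118) (PT.nd (nat_lit 78) (PT.lf (nat_lit 760) (nat_lit 6) (nat_lit 10) (nat_lit 3) (nat_lit 180) (nat_lit 149) (nat_lit 181)) (PT.nd (nat_lit 52962) (PT.lf (nat_lit 760) (nat_lit 6) (nat_lit 10) (nat_lit 1) (nat_lit 181) (nat_lit 149) (nat_lit 180)) (PT.lf (nat_lit 836) (nat_lit 6) (nat_lit 11) (nat_lit 3) (nat_lit 179) (nat_lit 150) (nat_lit 181)))) (PT.nd (nat_lit 53040) (PT.nd (nat_lit 78) (PT.lf (nat_lit 912) (nat_lit 3) (nat_lit 12) (nat_lit 1) (nat_lit 180) (nat_lit 150) (nat_lit 180)) (PT.lf (nat_lit 836) (nat_lit 6) (nat_lit 11) (nat_lit 1) (nat_lit 181) (nat_lit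 150) (nat_lit 179))) (PT.nd (nat_lit 78) (PT.lf (nat_lit 988) (nat_lit 6) (nat_lit 13) (nat_lit 3) (nat_lit 179) (nat_lit 151) (nat_lit 180)) (PT.lf (nat_lit 988) (nat_lit 6) (nat_lit 13) (nat_lit 1) (nat_lit 180) (nat_lit 151) (nat_lit 179))))) (PT.nd (nat_lit 53196) (PT.nd (nat_lit 156) (PT.nd (nat_lit 78) (PT.lf (nat_lit 1064) (nat_lit 6) (nat_lit 14) (nat_lit 3) (nat_lit 178) (nat_lit 152) (nat_lit 180)) (PT.lf (nat_lit 1140) (nat_lit 3) (nat_lit 15) (nat_lit 1) (nat_lit 179) (nat_lit 152) (nat_lit 179))) (PT.nd (nat_lit 52962) (PT.lf (nat_lit 1064) (nat_lit 6) (nat_lit 14) (nat_lit 1) (nat_lit 180) (nat_lit 152) (nat_lit 178)) (PT.lf (nat_lit 1216) (nat_lit 6) (nat_lit 16) (nat_lit 3) (nat_lit 178) (nat_lit 153) (nat_lit 179)))) (PT.nd (nat_lit 53040) (PT.nd (nat_lit 52962) (PT.lf (nat_lit 1216) (nat_lit 6) (nat_lit 16) (nat_lit 1) (nat_lit 179) (nat_lit 153) (nat_lit 178)) (PT.lf (nat_lit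 1292) (nat_lit 6) (nat_lit 17) (nat_lit 3) (nat_lit 177) (nat_lit 154) (nat_lit 179))) (PT.nd (nat_lit 78) (PT.lf (nat_lit 1368) (nat_lit 3) (nat_lit 18) (nat_lit 1) (nat_lit 178) (nat_lit 154) (nat_lit 178)) (PT.lf (nat_lit 1292) (nat_lit 6) (nat_lit 17) (nat_lit 1) (nat_lit 179) (nat_lit 154) (nat_lit 177))))))) (PT.nd (nat_lit 318474) (PT.nd (nat_lit 159198) (PT.nd (nat_lit 53118) (PT.nd (nat_lit 78) (PT.lf (nat_lit 1444) (nat_lit 6) (nat_lit 19) (nat_lit 3) (nat_lit 177) (nat_lit 155) (nat_lit 178)) (PT.nd (nat_lit 52962) (PT.lf (nat_lit 1444) (nat_lit 6) (nat_lit 19) (nat_lit 1) (nat_lit 178) (nat_lit 155) (nat_lit 177)) (PT.lf (nat_lit 1520) (nat_lit 6) (nat_lit 20) (nat_lit 3) (nat_lit 176) (nat_lit 156) (nat_lit 178)))) (PT.nd (nat_lit 53040) (PT.nd (nat_lit 78) (PT.lf (nat_lit 1596) (nat_lit 3) (nat_lit 21) (nat_lit 1) (nat_lit 177) (nat_lit 156) (nat_lit 177)) (PT.lf (nat_lit 1520)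 (nat_lit 6) (nat_lit 20) (nat_lit 1) (nat_lit 178) (nat_lit 156) (nat_lit 176))) (PT.nd (nat_lit 78) (PT.lf (nat_lit 1672) (nat_lit 6) (nat_lit 22) (nat_lit 3) (nat_lit 176) (nat_lit 157) (nat_lit 177)) (PT.lf (nat_lit 1672) (nat_lit 6) (nat_lit 22) (nat_lit 1) (nat_lit 177) (nat_lit 157) (nat_lit 176))))) (PT.nd (nat_lit 53196) (PT.nd (nat_lit 156) (PT.nd (nat_lit 78) (PT.lf (nat_lit 1748) (nat_lit 6) (nat_lit 23) (nat_lit 3) (nat_lit 175) (nat_lit 158) (nat_lit 177)) (PT.lf (nat_lit 1824) (nat_lit 3) (nat_lit 24) (nat_lit 1) (nat_lit 176) (nat_lit 158) (nat_lit 176))) (PT.nd (nat_lit 52962) (PT.lf (nat_lit 1748) (nat_lit 6) (nat_lit 23) (nat_lit 1) (nat_lit 177) (nat_lit 158) (nat_lit 175)) (PT.lf (nat_lit 1900) (nat_lit 6) (nat_lit 25) (nat_lit 3) (nat_lit 175) (nat_lit 159) (nat_lit 176)))) (PT.nd (nat_lit 53040) (PT.nd (nat_lit 52962) (PT.lf (nat_lit 1900) (nat_lit 6) (nat_lit 25) (nat_lit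 1) (nat_lit 176) (nat_lit 159) (nat_lit 175)) (PT.lf (nat_lit 1976) (nat_lit 6) (nat_lit 26) (nat_lit 3) (nat_lit 174) (nat_lit 160) (nat_lit 176))) (PT.nd (nat_lit 78) (PT.lf (nat_lit 2052) (nat_lit 3) (nat_lit 27) (nat_lit 1) (nat_lit 175) (nat_lit 160) (nat_lit 175)) (PT.lf (nat_lit 1976) (nat_lit 6) (nat_lit 26) (nat_lit 1) (nat_lit 176) (nat_lit 160) (nat_lit 174)))))) (PT.nd (nat_lit 106314) (PT.nd (nat_lit 53196) (PT.nd (nat_lit 53040) (PT.nd (nat_lit 78) (PT.lf (nat_lit 2128) (nat_lit 6) (nat_lit 28) (nat_lit 3) (nat_lit 174) (nat_lit 161) (nat_lit 175)) (PT.lf (nat_lit 2128) (nat_lit 6) (nat_lit 28) (nat_lit 1) (nat_lit 175) (nat_lit 161) (nat_lit 174))) (PT.nd (nat_lit 78) (PT.lf (nat_lit 2204) (nat_lit 6) (nat_lit 29) (nat_lit 3) (nat_lit 173) (nat_lit 162) (nat_lit 175)) (PT.lf (nat_lit 2280) (nat_lit 3) (nat_lit 30) (nat_lit 1) (nat_lit 174) (nat_lit 162) (nat_lit 174)))) (PT.nd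 (nat_lit 52962) (PT.nd (nat_lit 52884) (PT.lf (nat_lit 2204) (nat_lit 6) (nat_lit 29) (nat_lit 1) (nat_lit 175) (nat_lit 162) (nat_lit 173)) (PT.lf (nat_lit 2356) (nat_lit 6) (nat_lit 31) (nat_lit 3) (nat_lit 172) (nat_lit 163) (nat_lit 175))) (PT.nd (nat_lit 78) (PT.lf (nat_lit 2432) (nat_lit 6) (nat_lit 32) (nat_lit 3) (nat_lit 173) (nat_lit 163) (nat_lit 174)) (PT.lf (nat_lit 2432) (nat_lit 6) (nat_lit 32) (nat_lit 1) (nat_lit 174) (nat_lit 163) (nat_lit 173))))) (PT.nd (nat_lit 105924) (PT.nd (nat_lit 52962) (PT.nd (nat_lit 52884) (PT.lf (nat_lit 2356) (nat_lit 6) (nat_lit 31) (nat_lit 1) (nat_lit 175) (nat_lit 163) (nat_lit 172)) (PT.lf (nat_lit 2508) (nat_lit 6) (nat_lit 33) (nat_lit 3) (nat_lit 172) (nat_lit 164) (nat_lit 174))) (PT.nd (nat_lit 78) (PT.lf (nat_lit 2584) (nat_lit 3) (nat_lit 34) (nat_lit 1) (nat_lit 173) (nat_lit 164) (nat_lit 173)) (PT.lf (nat_lit 2508) (nat_lit 6)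 (nat_lit 33) (nat_lit 1) (nat_lit 174) (nat_lit 164) (nat_lit 172)))) (PT.nd (nat_lit 156) (PT.nd (nat_lit 78) (PT.lf (nat_lit 2660) (nat_lit 6) (nat_lit 35) (nat_lit 3) (nat_lit 171) (nat_lit 165) (nat_lit 174)) (PT.lf (nat_lit 2736) (nat_lit 6) (nat_lit 36) (nat_lit 3) (nat_lit 172) (nat_lit 165) (nat_lit 173))) (PT.nd (nat_lit 78) (PT.lf (nat_lit 2736) (nat_lit 6) (nat_lit 36) (nat_lit 1) (nat_lit 173) (nat_lit 165) (nat_lit 172)) (PT.lf (nat_lit 2660) (nat_lit 6) (nat_lit 35) (nat_lit 1) (nat_lit 174) (nat_lit 165) (nat_lit 171))))))))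
noncomputable def pc1 : PT := (PT.nd (nat_lit 212472) (PT.nd (nat_lit 106392) (PT.nd (nat_lit 53196) (PT.nd (nat_lit 234) (PT.nd (nat_lit 78) (PT.lf (nat_lit 2964) (nat_lit 6) (nat_lit 39) (nat_lit 3) (nat_lit 170) (nat_lit 166) (nat_lit 174)) (PT.nd (nat_lit 78) (PT.lf (nat_lit 3040) (nat_lit 6) (nat_lit 40) (nat_lit 3) (nat_lit 171) (nat_lit 166) (nat_lit 173)) (PT.lf (nat_lit 3116) (nat_lit 3) (nat_lit 41) (nat_lit 1) (nat_lit 172) (nat_lit 166) (nat_lit 172)))) (PT.nd (nat_lit 52806) (PT.nd (nat_lit 78) (PT.lf (nat_lit 3040) (nat_lit 6) (nat_lit 40) (nat_lit 1) (nat_lit 173) (nat_lit 166) (nat_lit 171)) (PT.lf (nat_lit 2964) (nat_lit 6) (nat_lit 39) (nat_lit 1) (nat_lit 174) (nat_lit 166) (nat_lit 170))) (PT.nd (nat_lit 78) (PT.lf (nat_lit 2888) (nat_lit 6) (nat_lit 38) (nat_lit 3) (nat_lit 169) (nat_lit 167) (nat_lit 174)) (PT.lf (nat_lit 3268) (nat_lit 6) (nat_lit 43) (nat_lit 3) (nat_lit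 170) (nat_lit 167) (nat_lit 173))))) (PT.nd (nat_lit 52884) (PT.nd (nat_lit 156) (PT.nd (nat_lit 78) (PT.lf (nat_lit 3344) (nat_lit 6) (nat_lit 44) (nat_lit 3) (nat_lit 171) (nat_lit 167) (nat_lit 172)) (PT.lf (nat_lit 3344) (nat_lit 6) (nat_lit 44) (nat_lit 1) (nat_lit 172) (nat_lit 167) (nat_lit 171))) (PT.nd (nat_lit 78) (PT.lf (nat_lit 3268) (nat_lit 6) (nat_lit 43) (nat_lit 1) (nat_lit 173) (nat_lit 167) (nat_lit 170)) (PT.lf (nat_lit 2888) (nat_lit 6) (nat_lit 38) (nat_lit 1) (nat_lit 174) (nat_lit 167) (nat_lit 169)))) (PT.nd (nat_lit 156) (PT.nd (nat_lit 78) (PT.lf (nat_lit 2812) (nat_lit 3) (nat_lit 37) (nat_lit 3) (nat_lit 168) (nat_lit 168) (nat_lit 174)) (PT.lf (nat_lit 3192) (nat_lit 6) (nat_lit 42) (nat_lit 3) (nat_lit 169) (nat_lit 168) (nat_lit 173))) (PT.nd (nat_lit 78) (PT.lf (nat_lit 3496) (nat_lit 6) (nat_lit 46) (nat_lit 3) (nat_lit 170) (nat_lit 168) (nat_lit 172)) (PT.lf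 (nat_lit 3572) (nat_lit 3) (nat_lit 47) (nat_lit 1) (nat_lit 171) (nat_lit 168) (nat_lit 171)))))) (PT.nd (nat_lit 53040) (PT.nd (nat_lit 52728) (PT.nd (nat_lit 78) (PT.lf (nat_lit 3496) (nat_lit 6) (nat_lit 46) (nat_lit 1) (nat_lit 172) (nat_lit 168) (nat_lit 170)) (PT.nd (nat_lit 78) (PT.lf (nat_lit 3192) (nat_lit 6) (nat_lit 42) (nat_lit 1) (nat_lit 173) (nat_lit 168) (nat_lit 169)) (PT.lf (nat_lit 2812) (nat_lit 3) (nat_lit 37) (nat_lit 0) (nat_lit 174) (nat_lit 168) (nat_lit 168)))) (PT.nd (nat_lit 156) (PT.nd (nat_lit 78) (PT.lf (nat_lit 2888) (nat_lit 6) (nat_lit 38) (nat_lit 5) (nat_lit 167) (nat_lit 169) (nat_lit 174)) (PT.lf (nat_lit 3192) (nat_lit 6) (nat_lit 42) (nat_lit 5) (nat_lit 168) (nat_lit 169) (nat_lit 173))) (PT.nd (nat_lit 78) (PT.lf (nat_lit 3420) (nat_lit 3) (nat_lit 45) (nat_lit 3) (nat_lit 169) (nat_lit 169) (nat_lit 172)) (PT.lf (nat_lit 3648) (nat_lit 6) (nat_lit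 48) (nat_lit 3) (nat_lit 170) (nat_lit 169) (nat_lit 171))))) (PT.nd (nat_lit 52728) (PT.nd (nat_lit 156) (PT.nd (nat_lit 78) (PT.lf (nat_lit 3648) (nat_lit 6) (nat_lit 48) (nat_lit 1) (nat_lit 171) (nat_lit 169) (nat_lit 170)) (PT.lf (nat_lit 3420) (nat_lit 3) (nat_lit 45) (nat_lit 0) (nat_lit 172) (nat_lit 169) (nat_lit 169))) (PT.nd (nat_lit 78) (PT.lf (nat_lit 3192) (nat_lit 6) (nat_lit 42) (nat_lit 0) (nat_lit 173) (nat_lit 169) (nat_lit 168)) (PT.lf (nat_lit 2888) (nat_lit 6) (nat_lit 38) (nat_lit 0) (nat_lit 174) (nat_lit 169) (nat_lit 167)))) (PT.nd (nat_lit 156) (PT.nd (nat_lit 78) (PT.lf (nat_lit 2964) (nat_lit 6) (nat_lit 39) (nat_lit 5) (nat_lit 166) (nat_lit 170) (nat_lit 174)) (PT.lf (nat_lit 3268) (nat_lit 6) (nat_lit 43) (nat_lit 5) (nat_lit 167) (nat_lit 170) (nat_lit 173))) (PT.nd (nat_lit 78) (PT.lf (nat_lit 3496) (nat_lit 6) (nat_lit 46) (nat_lit 5) (nat_lit 168) (nat_lit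 170) (nat_lit 172)) (PT.lf (nat_lit 3648) (nat_lit 6) (nat_lit 48) (nat_lit 5) (nat_lit 169) (nat_lit 170) (nat_lit 171))))))) (PT.nd (nat_lit 105690) (PT.nd (nat_lit 52884) (PT.nd (nat_lit 234) (PT.nd (nat_lit 78) (PT.lf (nat_lit 3724) (nat_lit 1) (nat_lit 49) (nat_lit 0) (nat_lit 170) (nat_lit 170) (nat_lit 170)) (PT.nd (nat_lit 78) (PT.lf (nat_lit 3648) (nat_lit 6) (nat_lit 48) (nat_lit 0) (nat_lit 171) (nat_lit 170) (nat_lit 169)) (PT.lf (nat_lit 3496) (nat_lit 6) (nat_lit 46) (nat_lit 0) (nat_lit 172) (nat_lit 170) (nat_lit 168)))) (PT.nd (nat_lit 52494) (PT.nd (nat_lit 78) (PT.lf (nat_lit 3268) (nat_lit 6) (nat_lit 43) (nat_lit 0) (nat_lit 173) (nat_lit 170) (nat_lit 167)) (PT.lf (nat_lit 2964) (nat_lit 6) (nat_lit 39) (nat_lit 0) (nat_lit 174) (nat_lit 170) (nat_lit 166))) (PT.nd (nat_lit 78) (PT.lf (nat_lit 2660) (nat_lit 6) (nat_lit 35) (nat_lit 5) (nat_lit 165) (nat_lit 171) (nat_lit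 174)) (PT.lf (nat_lit 3040) (nat_lit 6) (nat_lit 40) (nat_lit 5) (nat_lit 166) (nat_lit 171) (nat_lit 173))))) (PT.nd (nat_lit 312) (PT.nd (nat_lit 156) (PT.nd (nat_lit 78) (PT.lf (nat_lit 3344) (nat_lit 6) (nat_lit 44) (nat_lit 5) (nat_lit 167) (nat_lit 171) (nat_lit 172)) (PT.lf (nat_lit 3572) (nat_lit 3) (nat_lit 47) (nat_lit 4) (nat_lit 168) (nat_lit 171) (nat_lit 171))) (PT.nd (nat_lit 78) (PT.lf (nat_lit 3648) (nat_lit 6) (nat_lit 48) (nat_lit 4) (nat_lit 169) (nat_lit 171) (nat_lit 170)) (PT.lf (nat_lit 3648) (nat_lit 6) (nat_lit 48) (nat_lit 2) (nat_lit 170) (nat_lit 171) (nat_lit 169)))) (PT.nd (nat_lit 156) (PT.nd (nat_lit 78) (PT.lf (nat_lit 3572) (nat_lit 3) (nat_lit 47) (nat_lit 0) (nat_lit 171) (nat_lit 171) (nat_lit 168)) (PT.lf (nat_lit 3344) (nat_lit 6) (nat_lit 44) (nat_lit 0) (nat_lit 172) (nat_lit 171) (nat_lit 167))) (PT.nd (nat_lit 78) (PT.lf (nat_lit 3040) (nat_lit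 6) (nat_lit 40) (nat_lit 0) (nat_lit 173) (nat_lit 171) (nat_lit 166)) (PT.lf (nat_lit 2660) (nat_lit 6) (nat_lit 35) (nat_lit 0) (nat_lit 174) (nat_lit 171) (nat_lit 165)))))) (PT.nd (nat_lit 624) (PT.nd (nat_lit 312) (PT.nd (nat_lit 156) (PT.nd (nat_lit 78) (PT.lf (nat_lit 2356) (nat_lit 6) (nat_lit 31) (nat_lit 5) (nat_lit 163) (nat_lit 172) (nat_lit 175)) (PT.lf (nat_lit 2508) (nat_lit 6) (nat_lit 33) (nat_lit 5) (nat_lit 164) (nat_lit 172) (nat_lit 174))) (PT.nd (nat_lit 78) (PT.lf (nat_lit 2736) (nat_lit 6) (nat_lit 36) (nat_lit 5) (nat_lit 165) (nat_lit 172) (nat_lit 173)) (PT.lf (nat_lit 3116) (nat_lit 3) (nat_lit 41) (nat_lit 4) (nat_lit 166) (nat_lit 172) (nat_lit 172)))) (PT.nd (nat_lit 156) (PT.nd (nat_lit 78) (PT.lf (nat_lit 3344) (nat_lit 6) (nat_lit 44) (nat_lit 4) (nat_lit 167) (nat_lit 172) (nat_lit 171)) (PT.lf (nat_lit 3496) (nat_lit 6) (nat_lit 46) (nat_lit 4) (nat_lit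 168) (nat_lit 172) (nat_lit 170))) (PT.nd (nat_lit 78) (PT.lf (nat_lit 3420) (nat_lit 3) (nat_lit 45) (nat_lit 2) (nat_lit 169) (nat_lit 172) (nat_lit 169)) (PT.lf (nat_lit 3496) (nat_lit 6) (nat_lit 46) (nat_lit 2) (nat_lit 170) (nat_lit 172) (nat_lit 168))))) (PT.nd (nat_lit 312) (PT.nd (nat_lit 156) (PT.nd (nat_lit 78) (PT.lf (nat_lit 3344) (nat_lit 6) (nat_lit 44) (nat_lit 2) (nat_lit 171) (nat_lit 172) (nat_lit 167)) (PT.lf (nat_lit 3116) (nat_lit 3) (nat_lit 41) (nat_lit 0) (nat_lit 172) (nat_lit 172) (nat_lit 166))) (PT.nd (nat_lit 78) (PT.lf (nat_lit 2736) (nat_lit 6) (nat_lit 36) (nat_lit 0) (nat_lit 173) (nat_lit 172) (nat_lit 165)) (PT.lf (nat_lit 2508) (nat_lit 6) (nat_lit 33) (nat_lit 0) (nat_lit 174) (nat_lit 172) (nat_lit 164)))) (PT.nd (nat_lit 52182) (PT.nd (nat_lit 52104) (PT.lf (nat_lit 2356) (nat_lit 6) (nat_lit 31) (nat_lit 0) (nat_lit 175) (nat_lit 172) (nat_lit 163))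 (PT.lf (nat_lit 2204) (nat_lit 6) (nat_lit 29) (nat_lit 5) (nat_lit 162) (nat_lit 173) (nat_lit 175))) (PT.nd (nat_lit 78) (PT.lf (nat_lit 2432) (nat_lit 6) (nat_lit 32) (nat_lit 5) (nat_lit 163) (nat_lit 173) (nat_lit 174)) (PT.lf (nat_lit 2584) (nat_lit 3) (nat_lit 34) (nat_lit 4) (nat_lit 164) (nat_lit 173) (nat_lit 173))))))))
noncomputable def pc2 : PT := (PT.nd (nat_lit 105846) (PT.nd (nat_lit 53040) (PT.nd (nat_lit 546) (PT.nd (nat_lit 234) (PT.nd (nat_lit 78) (PT.lf (nat_lit 2736) (nat_lit 6) (nat_lit 36) (nat_lit 4) (nat_lit 165) (nat_lit 173) (nat_lit 172)) (PT.nd (nat_lit 78) (PT.lf (nat_lit 3040) (nat_lit 6) (nat_lit 40) (nat_lit 4) (nat_lit 166) (nat_lit 173) (nat_lit 171)) (PT.lf (nat_lit 3268) (nat_lit 6) (nat_lit 43) (nat_lit 4) (nat_lit 167) (nat_lit 173) (nat_lit 170)))) (PT.nd (nat_lit 156) (PT.nd (nat_lit 78) (PT.lf (nat_lit 3192) (nat_lit 6) (nat_lit 42) (nat_lit 4) (nat_lit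 168) (nat_lit 173) (nat_lit 169)) (PT.lf (nat_lit 3192) (nat_lit 6) (nat_lit 42) (nat_lit 2) (nat_lit 169) (nat_lit 173) (nat_lit 168))) (PT.nd (nat_lit 78) (PT.lf (nat_lit 3268) (nat_lit 6) (nat_lit 43) (nat_lit 2) (nat_lit 170) (nat_lit 173) (nat_lit 167)) (PT.lf (nat_lit 3040) (nat_lit 6) (nat_lit 40) (nat_lit 2) (nat_lit 171) (nat_lit 173) (nat_lit 166))))) (PT.nd (nat_lit 52182) (PT.nd (nat_lit 156) (PT.nd (nat_lit 78) (PT.lf (nat_lit 2736) (nat_lit 6) (nat_lit 36) (nat_lit 2) (nat_lit 172) (nat_lit 173) (nat_lit 165)) (PT.lf (nat_lit 2584) (nat_lit 3) (nat_lit 34) (nat_lit 0) (nat_lit 173) (nat_lit 173) (nat_lit 164))) (PT.nd (nat_lit 78) (PT.lf (nat_lit 2432) (nat_lit 6) (nat_lit 32) (nat_lit 0) (nat_lit 174) (nat_lit 173) (nat_lit 163)) (PT.lf (nat_lit 2204) (nat_lit 6) (nat_lit 29) (nat_lit 0) (nat_lit 175) (nat_lit 173) (nat_lit 162)))) (PT.nd (nat_lit 156) (PT.nd (nat_lit 78) (PT.lf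 (nat_lit 1976) (nat_lit 6) (nat_lit 26) (nat_lit 5) (nat_lit 160) (nat_lit 174) (nat_lit 176)) (PT.lf (nat_lit 2128) (nat_lit 6) (nat_lit 28) (nat_lit 5) (nat_lit 161) (nat_lit 174) (nat_lit 175))) (PT.nd (nat_lit 78) (PT.lf (nat_lit 2280) (nat_lit 3) (nat_lit 30) (nat_lit 4) (nat_lit 162) (nat_lit 174) (nat_lit 174)) (PT.lf (nat_lit 2432) (nat_lit 6) (nat_lit 32) (nat_lit 4) (nat_lit 163) (nat_lit 174) (nat_lit 173)))))) (PT.nd (nat_lit 546) (PT.nd (nat_lit 234) (PT.nd (nat_lit 78) (PT.lf (nat_lit 2508) (nat_lit 6) (nat_lit 33) (nat_lit 4) (nat_lit 164) (nat_lit 174) (nat_lit 172)) (PT.nd (nat_lit 78) (PT.lf (nat_lit 2660) (nat_lit 6) (nat_lit 35) (nat_lit 4) (nat_lit 165) (nat_lit 174) (nat_lit 171)) (PT.lf (nat_lit 2964) (nat_lit 6) (nat_lit 39) (nat_lit 4) (nat_lit 166) (nat_lit 174) (nat_lit 170)))) (PT.nd (nat_lit 156) (PT.nd (nat_lit 78) (PT.lf (nat_lit 2888) (nat_lit 6) (nat_lit 38)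 (nat_lit 4) (nat_lit 167) (nat_lit 174) (nat_lit 169)) (PT.lf (nat_lit 2812) (nat_lit 3) (nat_lit 37) (nat_lit 2) (nat_lit 168) (nat_lit 174) (nat_lit 168))) (PT.nd (nat_lit 78) (PT.lf (nat_lit 2888) (nat_lit 6) (nat_lit 38) (nat_lit 2) (nat_lit 169) (nat_lit 174) (nat_lit 167)) (PT.lf (nat_lit 2964) (nat_lit 6) (nat_lit 39) (nat_lit 2) (nat_lit 170) (nat_lit 174) (nat_lit 166))))) (PT.nd (nat_lit 312) (PT.nd (nat_lit 156) (PT.nd (nat_lit 78) (PT.lf (nat_lit 2660) (nat_lit 6) (nat_lit 35) (nat_lit 2) (nat_lit 171) (nat_lit 174) (nat_lit 165)) (PT.lf (nat_lit 2508) (nat_lit 6) (nat_lit 33) (nat_lit 2) (nat_lit 172) (nat_lit 174) (nat_lit 164))) (PT.nd (nat_lit 78) (PT.lf (nat_lit 2432) (nat_lit 6) (nat_lit 32) (nat_lit 2) (nat_lit 173) (nat_lit 174) (nat_lit 163)) (PT.lf (nat_lit 2280) (nat_lit 3) (nat_lit 30) (nat_lit 0) (nat_lit 174) (nat_lit 174) (nat_lit 162)))) (PT.nd (nat_lit 51792)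 (PT.nd (nat_lit 78) (PT.lf (nat_lit 2128) (nat_lit 6) (nat_lit 28) (nat_lit 0) (nat_lit 175) (nat_lit 174) (nat_lit 161)) (PT.lf (nat_lit 1976) (nat_lit 6) (nat_lit 26) (nat_lit 0) (nat_lit 176) (nat_lit 174) (nat_lit 160))) (PT.nd (nat_lit 78) (PT.lf (nat_lit 1748) (nat_lit 6) (nat_lit 23) (nat_lit 5) (nat_lit 158) (nat_lit 175) (nat_lit 177)) (PT.lf (nat_lit 1900) (nat_lit 6) (nat_lit 25) (nat_lit 5) (nat_lit 159) (nat_lit 175) (nat_lit 176))))))) (PT.nd (nat_lit 54210) (PT.nd (nat_lit 1170) (PT.nd (nat_lit 234) (PT.nd (nat_lit 78) (PT.lf (nat_lit 2052) (nat_lit 3) (nat_lit 27) (nat_lit 4) (nat_lit 160) (nat_lit 175) (nat_lit 175)) (PT.nd (nat_lit 78) (PT.lf (nat_lit 2128) (nat_lit 6) (nat_lit 28) (nat_lit 4) (nat_lit 161) (nat_lit 175) (nat_lit 174)) (PT.lf (nat_lit 2204) (nat_lit 6) (nat_lit 29) (nat_lit 4) (nat_lit 162) (nat_lit 175) (nat_lit 173)))) (PT.nd (nat_lit 780) (PT.nd (nat_lit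 702) (PT.lf (nat_lit 2356) (nat_lit 6) (nat_lit 31) (nat_lit 4) (nat_lit 163) (nat_lit 175) (nat_lit 172)) (PT.lf (nat_lit 2356) (nat_lit 6) (nat_lit 31) (nat_lit 2) (nat_lit 172) (nat_lit 175) (nat_lit 163))) (PT.nd (nat_lit 78) (PT.lf (nat_lit 2204) (nat_lit 6) (nat_lit 29) (nat_lit 2) (nat_lit 173) (nat_lit 175) (nat_lit 162)) (PT.lf (nat_lit 2128) (nat_lit 6) (nat_lit 28) (nat_lit 2) (nat_lit 174) (nat_lit 175) (nat_lit 161))))) (PT.nd (nat_lit 51714) (PT.nd (nat_lit 156) (PT.nd (nat_lit 78) (PT.lf (nat_lit 2052) (nat_lit 3) (nat_lit 27) (nat_lit 0) (nat_lit 175) (nat_lit 175) (nat_lit 160)) (PT.lf (nat_lit 1900) (nat_lit 6) (nat_lit 25) (nat_lit 0) (nat_lit 176) (nat_lit 175) (nat_lit 159))) (PT.nd (nat_lit 51480) (PT.lf (nat_lit 1748) (nat_lit 6) (nat_lit 23) (nat_lit 0) (nat_lit 177) (nat_lit 175) (nat_lit 158)) (PT.lf (nat_lit 1520) (nat_lit 6) (nat_lit 20) (nat_lit 5) (nat_lit 156)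 (nat_lit 176) (nat_lit 178)))) (PT.nd (nat_lit 156) (PT.nd (nat_lit 78) (PT.lf (nat_lit 1672) (nat_lit 6) (nat_lit 22) (nat_lit 5) (nat_lit 157) (nat_lit 176) (nat_lit 177)) (PT.lf (nat_lit 1824) (nat_lit 3) (nat_lit 24) (nat_lit 4) (nat_lit 158) (nat_lit 176) (nat_lit 176))) (PT.nd (nat_lit 78) (PT.lf (nat_lit 1900) (nat_lit 6) (nat_lit 25) (nat_lit 4) (nat_lit 159) (nat_lit 176) (nat_lit 175)) (PT.lf (nat_lit 1976) (nat_lit 6) (nat_lit 26) (nat_lit 4) (nat_lit 160) (nat_lit 176) (nat_lit 174)))))) (PT.nd (nat_lit 51792) (PT.nd (nat_lit 312) (PT.nd (nat_lit 156) (PT.nd (nat_lit 78) (PT.lf (nat_lit 1976) (nat_lit 6) (nat_lit 26) (nat_lit 2) (nat_lit 174) (nat_lit 176) (nat_lit 160)) (PT.lf (nat_lit 1900) (nat_lit 6) (nat_lit 25) (nat_lit 2) (nat_lit 175) (nat_lit 176) (nat_lit 159))) (PT.nd (nat_lit 78) (PT.lf (nat_lit 1824) (nat_lit 3) (nat_lit 24) (nat_lit 0) (nat_lit 176) (nat_lit 176)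 (nat_lit 158)) (PT.lf (nat_lit 1672) (nat_lit 6) (nat_lit 22) (nat_lit 0) (nat_lit 177) (nat_lit 176) (nat_lit 157)))) (PT.nd (nat_lit 51324) (PT.nd (nat_lit 51246) (PT.lf (nat_lit 1520) (nat_lit 6) (nat_lit 20) (nat_lit 0) (nat_lit 178) (nat_lit 176) (nat_lit 156)) (PT.lf (nat_lit 1292) (nat_lit 6) (nat_lit 17) (nat_lit 5) (nat_lit 154) (nat_lit 177) (nat_lit 179))) (PT.nd (nat_lit 78) (PT.lf (nat_lit 1444) (nat_lit 6) (nat_lit 19) (nat_lit 5) (nat_lit 155) (nat_lit 177) (nat_lit 178)) (PT.lf (nat_lit 1596) (nat_lit 3) (nat_lit 21) (nat_lit 4) (nat_lit 156) (nat_lit 177) (nat_lit 177))))) (PT.nd (nat_lit 1560) (PT.nd (nat_lit 1404) (PT.nd (nat_lit 78) (PT.lf (nat_lit 1672) (nat_lit 6) (nat_lit 22) (nat_lit 4) (nat_lit 157) (nat_lit 177) (nat_lit 176)) (PT.lf (nat_lit 1748) (nat_lit 6) (nat_lit 23) (nat_lit 4) (nat_lit 158) (nat_lit 177) (nat_lit 175))) (PT.nd (nat_lit 78) (PT.lf (nat_lit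 1748) (nat_lit 6) (nat_lit 23) (nat_lit 2) (nat_lit 175) (nat_lit 177) (nat_lit 158)) (PT.lf (nat_lit 1672) (nat_lit 6) (nat_lit 22) (nat_lit 2) (nat_lit 176) (nat_lit 177) (nat_lit 157)))) (PT.nd (nat_lit 156) (PT.nd (nat_lit 78) (PT.lf (nat_lit 1596) (nat_lit 3) (nat_lit 21) (nat_lit 0) (nat_lit 177) (nat_lit 177) (nat_lit 156)) (PT.lf (nat_lit 1444) (nat_lit 6) (nat_lit 19) (nat_lit 0) (nat_lit 178) (nat_lit 177) (nat_lit 155))) (PT.nd (nat_lit 51012) (PT.lf (nat_lit 1292) (nat_lit 6) (nat_lit 17) (nat_lit 0) (nat_lit 179) (nat_lit 177) (nat_lit 154)) (PT.lf (nat_lit 1064) (nat_lit 6) (nat_lit 14) (nat_lit 5) (nat_lit 152) (nat_lit 178) (nat_lit 180))))))))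
noncomputable def pc3 : PT := (PT.nd (nat_lit 158886) (PT.nd (nat_lit 55068) (PT.nd (nat_lit 2028) (PT.nd (nat_lit 234) (PT.nd (nat_lit 78) (PT.lf (nat_lit 1216) (nat_lit 6) (nat_lit 16) (nat_lit 5) (nat_lit 153) (nat_lit 178) (nat_lit 179)) (PT.nd (nat_lit 78) (PT.lf (nat_lit 1368) (nat_lit 3) (nat_lit 18) (nat_lit 4) (nat_lit 154) (nat_lit 178) (nat_lit 178)) (PT.lf (nat_lit 1444) (nat_lit 6) (nat_lit 19) (nat_lit 4) (nat_lit 155) (nat_lit 178) (nat_lit 177)))) (PT.nd (nat_lit 1638) (PT.nd (nat_lit 1560) (PT.lf (nat_lit 1520) (nat_lit 6) (nat_lit 20) (nat_lit 4) (nat_lit 156) (nat_lit 178) (nat_lit 176)) (PT.lf (nat_lit 1520) (nat_lit 6) (nat_lit 20) (nat_lit 2) (nat_lit 176) (nat_lit 178) (nat_lit 156))) (PT.nd (nat_lit 78) (PT.lf (nat_lit 1444) (nat_lit 6) (nat_lit 19) (nat_lit 2) (nat_lit 177) (nat_lit 178) (nat_lit 155)) (PT.lf (nat_lit 1368) (nat_lit 3) (nat_lit 18) (nat_lit 0) (nat_lit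 178) (nat_lit 178) (nat_lit 154))))) (PT.nd (nat_lit 51012) (PT.nd (nat_lit 50856) (PT.nd (nat_lit 78) (PT.lf (nat_lit 1216) (nat_lit 6) (nat_lit 16) (nat_lit 0) (nat_lit 179) (nat_lit 178) (nat_lit 153)) (PT.lf (nat_lit 1064) (nat_lit 6) (nat_lit 14) (nat_lit 0) (nat_lit 180) (nat_lit 178) (nat_lit 152))) (PT.nd (nat_lit 78) (PT.lf (nat_lit 836) (nat_lit 6) (nat_lit 11) (nat_lit 5) (nat_lit 150) (nat_lit 179) (nat_lit 181)) (PT.lf (nat_lit 988) (nat_lit 6) (nat_lit 13) (nat_lit 5) (nat_lit 151) (nat_lit 179) (nat_lit 180)))) (PT.nd (nat_lit 156) (PT.nd (nat_lit 78) (PT.lf (nat_lit 1140) (nat_lit 3) (nat_lit 15) (nat_lit 4) (nat_lit 152) (nat_lit 179) (nat_lit 179)) (PT.lf (nat_lit 1216) (nat_lit 6) (nat_lit 16) (nat_lit 4) (nat_lit 153) (nat_lit 179) (nat_lit 178))) (PT.nd (nat_lit 1794) (PT.lf (nat_lit 1292) (nat_lit 6) (nat_lit 17) (nat_lit 4) (nat_lit 154) (nat_lit 179) (nat_lit 177))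 (PT.lf (nat_lit 1292) (nat_lit 6) (nat_lit 17) (nat_lit 2) (nat_lit 177) (nat_lit 179) (nat_lit 154)))))) (PT.nd (nat_lit 51012) (PT.nd (nat_lit 234) (PT.nd (nat_lit 78) (PT.lf (nat_lit 1216) (nat_lit 6) (nat_lit 16) (nat_lit 2) (nat_lit 178) (nat_lit 179) (nat_lit 153)) (PT.nd (nat_lit 78) (PT.lf (nat_lit 1140) (nat_lit 3) (nat_lit 15) (nat_lit 0) (nat_lit 179) (nat_lit 179) (nat_lit 152)) (PT.lf (nat_lit 988) (nat_lit 6) (nat_lit 13) (nat_lit 0) (nat_lit 180) (nat_lit 179) (nat_lit 151)))) (PT.nd (nat_lit 50622) (PT.nd (nat_lit 50544) (PT.lf (nat_lit 836) (nat_lit 6) (nat_lit 11) (nat_lit 0) (nat_lit 181) (nat_lit 179) (nat_lit 150)) (PT.lf (nat_lit 608) (nat_lit 6) (nat_lit 8) (nat_lit 5) (nat_lit 148) (nat_lit 180) (nat_lit 182))) (PT.nd (nat_lit 78) (PT.lf (nat_lit 760) (nat_lit 6) (nat_lit 10) (nat_lit 5) (nat_lit 149) (nat_lit 180) (nat_lit 181)) (PT.lf (nat_lit 912) (nat_lit 3) (nat_lit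 12) (nat_lit 4) (nat_lit 150) (nat_lit 180) (nat_lit 180))))) (PT.nd (nat_lit 2262) (PT.nd (nat_lit 2106) (PT.nd (nat_lit 78) (PT.lf (nat_lit 988) (nat_lit 6) (nat_lit 13) (nat_lit 4) (nat_lit 151) (nat_lit 180) (nat_lit 179)) (PT.lf (nat_lit 1064) (nat_lit 6) (nat_lit 14) (nat_lit 4) (nat_lit 152) (nat_lit 180) (nat_lit 178))) (PT.nd (nat_lit 78) (PT.lf (nat_lit 1064) (nat_lit 6) (nat_lit 14) (nat_lit 2) (nat_lit 178) (nat_lit 180) (nat_lit 152)) (PT.lf (nat_lit 988) (nat_lit 6) (nat_lit 13) (nat_lit 2) (nat_lit 179) (nat_lit 180) (nat_lit 151)))) (PT.nd (nat_lit 156) (PT.nd (nat_lit 78) (PT.lf (nat_lit 912) (nat_lit 3) (nat_lit 12) (nat_lit 0) (nat_lit 180) (nat_lit 180) (nat_lit 150)) (PT.lf (nat_lit 760) (nat_lit 6) (nat_lit 10) (nat_lit 0) (nat_lit 181) (nat_lit 180) (nat_lit 149))) (PT.nd (nat_lit 50310) (PT.lf (nat_lit 608) (nat_lit 6) (nat_lit 8) (nat_lit 0) (nat_lit 182) (nat_lit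 180) (nat_lit 148)) (PT.lf (nat_lit 380) (nat_lit 6) (nat_lit 5) (nat_lit 5) (nat_lit 146) (nat_lit 181) (nat_lit 183))))))) (PT.nd (nat_lit 55770) (PT.nd (nat_lit 2730) (PT.nd (nat_lit 234) (PT.nd (nat_lit 78) (PT.lf (nat_lit 532) (nat_lit 6) (nat_lit 7) (nat_lit 5) (nat_lit 147) (nat_lit 181) (nat_lit 182)) (PT.nd (nat_lit 78) (PT.lf (nat_lit 684) (nat_lit 3) (nat_lit 9) (nat_lit 4) (nat_lit 148) (nat_lit 181) (nat_lit 181)) (PT.lf (nat_lit 760) (nat_lit 6) (nat_lit 10) (nat_lit 4) (nat_lit 149) (nat_lit 181) (nat_lit 180)))) (PT.nd (nat_lit 2340) (PT.nd (nat_lit 2262) (PT.lf (nat_lit 836) (nat_lit 6) (nat_lit 11) (nat_lit 4) (nat_lit 150) (nat_lit 181) (nat_lit 179)) (PT.lf (nat_lit 836) (nat_lit 6) (nat_lit 11) (nat_lit 2) (nat_lit 179) (nat_lit 181) (nat_lit 150))) (PT.nd (nat_lit 78) (PT.lf (nat_lit 760) (nat_lit 6) (nat_lit 10) (nat_lit 2) (nat_lit 180) (nat_lit 181) (nat_lit 149))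 (PT.lf (nat_lit 684) (nat_lit 3) (nat_lit 9) (nat_lit 0) (nat_lit 181) (nat_lit 181) (nat_lit 148))))) (PT.nd (nat_lit 50310) (PT.nd (nat_lit 50154) (PT.nd (nat_lit 78) (PT.lf (nat_lit 532) (nat_lit 6) (nat_lit 7) (nat_lit 0) (nat_lit 182) (nat_lit 181) (nat_lit 147)) (PT.lf (nat_lit 380) (nat_lit 6) (nat_lit 5) (nat_lit 0) (nat_lit 183) (nat_lit 181) (nat_lit 146))) (PT.nd (nat_lit 78) (PT.lf (nat_lit 152) (nat_lit 6) (nat_lit 2) (nat_lit 5) (nat_lit 144) (nat_lit 182) (nat_lit 184)) (PT.lf (nat_lit 304) (nat_lit 6) (nat_lit 4) (nat_lit 5) (nat_lit 145) (nat_lit 182) (nat_lit 183)))) (PT.nd (nat_lit 156) (PT.nd (nat_lit 78) (PT.lf (nat_lit 456) (nat_lit 3) (nat_lit 6) (nat_lit 4) (nat_lit 146) (nat_lit 182) (nat_lit 182)) (PT.lf (nat_lit 532) (nat_lit 6) (nat_lit 7) (nat_lit 4) (nat_lit 147) (nat_lit 182) (nat_lit 181))) (PT.nd (nat_lit 2496) (PT.lf (nat_lit 608) (nat_lit 6) (nat_lit 8)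 (nat_lit 4) (nat_lit 148) (nat_lit 182) (nat_lit 180)) (PT.lf (nat_lit 608) (nat_lit 6) (nat_lit 8) (nat_lit 2) (nat_lit 180) (nat_lit 182) (nat_lit 148)))))) (PT.nd (nat_lit 53118) (PT.nd (nat_lit 50154) (PT.nd (nat_lit 156) (PT.nd (nat_lit 78) (PT.lf (nat_lit 532) (nat_lit 6) (nat_lit 7) (nat_lit 2) (nat_lit 181) (nat_lit 182) (nat_lit 147)) (PT.lf (nat_lit 456) (nat_lit 3) (nat_lit 6) (nat_lit 0) (nat_lit 182) (nat_lit 182) (nat_lit 146))) (PT.nd (nat_lit 78) (PT.lf (nat_lit 304) (nat_lit 6) (nat_lit 4) (nat_lit 0) (nat_lit 183) (nat_lit 182) (nat_lit 145)) (PT.lf (nat_lit 152) (nat_lit 6) (nat_lit 2) (nat_lit 0) (nat_lit 184) (nat_lit 182) (nat_lit 144)))) (PT.nd (nat_lit 156) (PT.nd (nat_lit 78) (PT.lf (nat_lit 76) (nat_lit 6) (nat_lit 1) (nat_lit 5) (nat_lit 143) (nat_lit 183) (nat_lit 184)) (PT.lf (nat_lit 228) (nat_lit 3) (nat_lit 3) (nat_lit 4) (nat_lit 144) (nat_lit 183) (nat_lit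 183))) (PT.nd (nat_lit 78) (PT.lf (nat_lit 304) (nat_lit 6) (nat_lit 4) (nat_lit 4) (nat_lit 145) (nat_lit 183) (nat_lit 182)) (PT.lf (nat_lit 380) (nat_lit 6) (nat_lit 5) (nat_lit 4) (nat_lit 146) (nat_lit 183) (nat_lit 181))))) (PT.nd (nat_lit 50154) (PT.nd (nat_lit 156) (PT.nd (nat_lit 78) (PT.lf (nat_lit 380) (nat_lit 6) (nat_lit 5) (nat_lit 2) (nat_lit 181) (nat_lit 183) (nat_lit 146)) (PT.lf (nat_lit 304) (nat_lit 6) (nat_lit 4) (nat_lit 2) (nat_lit 182) (nat_lit 183) (nat_lit 145))) (PT.nd (nat_lit 78) (PT.lf (nat_lit 228) (nat_lit 3) (nat_lit 3) (nat_lit 0) (nat_lit 183) (nat_lit 183) (nat_lit 144)) (PT.lf (nat_lit 76) (nat_lit 6) (nat_lit 1) (nat_lit 0) (nat_lit 184) (nat_lit 183) (nat_lit 143)))) (PT.nd (nat_lit 3042) (PT.nd (nat_lit 78) (PT.lf (nat_lit 76) (nat_lit 6) (nat_lit 1) (nat_lit 4) (nat_lit 143) (nat_lit 184) (nat_lit 183)) (PT.lf (nat_lit 152) (nat_lit 6) (nat_lit 2)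 (nat_lit 4) (nat_lit 144) (nat_lit 184) (nat_lit 182))) (PT.nd (nat_lit 78) (PT.lf (nat_lit 152) (nat_lit 6) (nat_lit 2) (nat_lit 2) (nat_lit 182) (nat_lit 184) (nat_lit 144)) (PT.lf (nat_lit 76) (nat_lit 6) (nat_lit 1) (nat_lit 2) (nat_lit 183) (nat_lit 184) (nat_lit 143))))))))
noncomputable def xc0 : XT := (XT.nd (nat_lit 212004) (nat_lit 0) (nat_lit 0) (XT.nd (nat_lit 158886) (nat_lit 0) (nat_lit 0) (XT.nd (nat_lit 105924) (nat_lit 0) (nat_lit 0) (XT.nd (nat_lit 53040) (nat_lit 0) (nat_lit 0) (XT.nd (nat_lit 52962) (nat_lit 0) (nat_lit 0) (XT.lf (nat_lit 0) (nat_lit 19701039585919) (nat_lit 76) (nat_lit 2259821613617) (nat_lit 76) (nat_lit 2259821613617) (nat_lit 1) (nat_lit 4) (nat_lit 2) (nat_lit 5) (nat_lit 2) (nat_lit 4) (nat_lit 422) (nat_lit 299) (nat_lit 299)) (XT.lf (nat_lit 0) (nat_lit 14895459432298) (nat_lit 76) (nat_lit 1709454510226) (nat_lit 76) (nat_lit 1709454510226) (nat_lit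 1) (nat_lit 4) (nat_lit 2) (nat_lit 5) (nat_lit 2) (nat_lit 4) (nat_lit 420) (nat_lit 300) (nat_lit 300))) (XT.nd (nat_lit 78) (nat_lit 0) (nat_lit 0) (XT.lf (nat_lit 0) (nat_lit 34261262038023) (nat_lit 76) (nat_lit 3930861353902) (nat_lit 76) (nat_lit 3930858034568) (nat_lit 1) (nat_lit 4) (nat_lit 2) (nat_lit 5) (nat_lit 2) (nat_lit 4) (nat_lit 421) (nat_lit 300) (nat_lit 299)) (XT.lf (nat_lit 0) (nat_lit 39402011766947) (nat_lit 76) (nat_lit 4519681337177) (nat_lit 76) (nat_lit 4519675131465) (nat_lit 1) (nat_lit 4) (nat_lit 2) (nat_lit 5) (nat_lit 2) (nat_lit 4) (nat_lit 422) (nat_lit 300) (nat_lit 298)))) (XT.nd (nat_lit 156) (nat_lit 0) (nat_lit 0) (XT.nd (nat_lit 78) (nat_lit 0) (nat_lit 0) (XT.lf (nat_lit 0) (nat_lit 11261546897987) (nat_lit 76) (nat_lit 1293403616489) (nat_lit 76) (nat_lit 1293403616489) (nat_lit 1) (nat_lit 4) (nat_lit 2) (nat_lit 5) (nat_lit 2) (nat_lit 4) (nat_lit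 418) (nat_lit 301) (nat_lit 301)) (XT.lf (nat_lit 0) (nat_lit 25903519010668) (nat_lit 76) (nat_lit 2973811695364) (nat_lit 76) (nat_lit 2973807878130) (nat_lit 1) (nat_lit 4) (nat_lit 2) (nat_lit 5) (nat_lit 2) (nat_lit 4) (nat_lit 419) (nat_lit 301) (nat_lit 300))) (XT.nd (nat_lit 78) (nat_lit 0) (nat_lit 0) (XT.lf (nat_lit 0) (nat_lit 29790841348973) (nat_lit 76) (nat_lit 3418952846886) (nat_lit 76) (nat_lit 3418945710318) (nat_lit 1) (nat_lit 4) (nat_lit 2) (nat_lit 5) (nat_lit 2) (nat_lit 4) (nat_lit 420) (nat_lit 301) (nat_lit 299)) (XT.nd (nat_lit 78) (nat_lit 0) (nat_lit 0) (XT.lf (nat_lit 0) (nat_lit 34261117117508) (nat_lit 76) (nat_lit 3930939970944) (nat_lit 76) (nat_lit 3930929947998) (nat_lit 1) (nat_lit 4) (nat_lit 2) (nat_lit 5) (nat_lit 2) (nat_lit 4) (nat_lit 421) (nat_lit 301) (nat_lit 298)) (XT.lf (nat_lit 0) (nat_lit 39401808233484) (nat_lit 76) (nat_lit 4519790206921)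 (nat_lit 76) (nat_lit 4519777674082) (nat_lit 1) (nat_lit 4) (nat_lit 2) (nat_lit 5) (nat_lit 2) (nat_lit 4) (nat_lit 422) (nat_lit 301) (nat_lit 297)))))) (XT.nd (nat_lit 312) (nat_lit 0) (nat_lit 0) (XT.nd (nat_lit 156) (nat_lit 0) (nat_lit 0) (XT.nd (nat_lit 78) (nat_lit 0) (nat_lit 0) (XT.lf (nat_lit 0) (nat_lit 8513552884175) (nat_lit 76) (nat_lit 978930930024) (nat_lit 76) (nat_lit 978930930024) (nat_lit 1) (nat_lit 4) (nat_lit 2) (nat_lit 5) (nat_lit 2) (nat_lit 4) (nat_lit 416) (nat_lit 302) (nat_lit 302)) (XT.lf (nat_lit 0) (nat_lit 19583426950693) (nat_lit 76) (nat_lit 2250372023110) (nat_lit 76) (nat_lit 2250367633291) (nat_lit 1) (nat_lit 4) (nat_lit 2) (nat_lit 5) (nat_lit 2) (nat_lit 4) (nat_lit 417) (nat_lit 302) (nat_lit 301))) (XT.nd (nat_lit 78) (nat_lit 0) (nat_lit 0) (XT.lf (nat_lit 0) (nat_lit 22523004653007) (nat_lit 76) (nat_lit 2586857633377) (nat_lit 76) (nat_lit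 2586849426323) (nat_lit 1) (nat_lit 4) (nat_lit 2) (nat_lit 5) (nat_lit 2) (nat_lit 4) (nat_lit 418) (nat_lit 302) (nat_lit 300)) (XT.lf (nat_lit 0) (nat_lit 25903352352076) (nat_lit 76) (nat_lit 2973902104962) (nat_lit 76) (nat_lit 2973890578574) (nat_lit 1) (nat_lit 4) (nat_lit 2) (nat_lit 5) (nat_lit 2) (nat_lit 4) (nat_lit 419) (nat_lit 302) (nat_lit 299)))) (XT.nd (nat_lit 156) (nat_lit 0) (nat_lit 0) (XT.nd (nat_lit 78) (nat_lit 0) (nat_lit 0) (XT.lf (nat_lit 0) (nat_lit 29790607285489) (nat_lit 76) (nat_lit 3419078047092) (nat_lit 76) (nat_lit 3419063634327) (nat_lit 1) (nat_lit 4) (nat_lit 2) (nat_lit 5) (nat_lit 2) (nat_lit 4) (nat_lit 420) (nat_lit 302) (nat_lit 298)) (XT.lf (nat_lit 0) (nat_lit 34260824441076) (nat_lit 76) (nat_lit 3931095423852) (nat_lit 76) (nat_lit 3931078501194) (nat_lit 1) (nat_lit 4) (nat_lit 2) (nat_lit 5) (nat_lit 2) (nat_lit 4) (nat_lit 421) (nat_lit 302)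 (nat_lit 297))) (XT.nd (nat_lit 52494) (nat_lit 0) (nat_lit 0) (XT.lf (nat_lit 0) (nat_lit 39401464589271) (nat_lit 76) (nat_lit 4519971966527) (nat_lit 76) (nat_lit 4519952861353) (nat_lit 1) (nat_lit 4) (nat_lit 2) (nat_lit 5) (nat_lit 2) (nat_lit 4) (nat_lit 422) (nat_lit 302) (nat_lit 296)) (XT.nd (nat_lit 78) (nat_lit 0) (nat_lit 0) (XT.lf (nat_lit 0) (nat_lit 6435405439855) (nat_lit 76) (nat_lit 741284196039) (nat_lit 76) (nat_lit 741284196039) (nat_lit 1) (nat_lit 4) (nat_lit 2) (nat_lit 5) (nat_lit 2) (nat_lit 4) (nat_lit 414) (nat_lit 303) (nat_lit 303)) (XT.lf (nat_lit 0) (nat_lit 14804026126322) (nat_lit 76) (nat_lit 1703609167553) (nat_lit 76) (nat_lit 1703604119261) (nat_lit 1) (nat_lit 4) (nat_lit 2) (nat_lit 5) (nat_lit 2) (nat_lit 4) (nat_lit 415) (nat_lit 303) (nat_lit 302))))))) (XT.nd (nat_lit 52962) (nat_lit 0) (nat_lit 0) (XT.nd (nat_lit 312) (nat_lit 0) (nat_lit 0) (XT.nd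 (nat_lit 156) (nat_lit 0) (nat_lit 0) (XT.nd (nat_lit 78) (nat_lit 0) (nat_lit 0) (XT.lf (nat_lit 0) (nat_lit 17027003253937) (nat_lit 76) (nat_lit 1957919820506) (nat_lit 76) (nat_lit 1957910382395) (nat_lit 1) (nat_lit 4) (nat_lit 2) (nat_lit 5) (nat_lit 2) (nat_lit 4) (nat_lit 416) (nat_lit 303) (nat_lit 301)) (XT.lf (nat_lit 0) (nat_lit 19583235293312) (nat_lit 76) (nat_lit 2250475994147) (nat_lit 76) (nat_lit 2250462738802) (nat_lit 1) (nat_lit 4) (nat_lit 2) (nat_lit 5) (nat_lit 2) (nat_lit 4) (nat_lit 417) (nat_lit 303) (nat_lit 300))) (XT.nd (nat_lit 78) (nat_lit 0) (nat_lit 0) (XT.lf (nat_lit 0) (nat_lit 22522735480002) (nat_lit 76) (nat_lit 2587001613613) (nat_lit 76) (nat_lit 2586985038934) (nat_lit 1) (nat_lit 4) (nat_lit 2) (nat_lit 5) (nat_lit 2) (nat_lit 4) (nat_lit 418) (nat_lit 303) (nat_lit 299)) (XT.lf (nat_lit 0) (nat_lit 25903015774179) (nat_lit 76) (nat_lit 2974080875806)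 (nat_lit 76) (nat_lit 2974061414750) (nat_lit 1) (nat_lit 4) (nat_lit 2) (nat_lit 5) (nat_lit 2) (nat_lit 4) (nat_lit 419) (nat_lit 303) (nat_lit 298)))) (XT.nd (nat_lit 156) (nat_lit 0) (nat_lit 0) (XT.nd (nat_lit 78) (nat_lit 0) (nat_lit 0) (XT.lf (nat_lit 0) (nat_lit 29790212094645) (nat_lit 76) (nat_lit 3419287070639) (nat_lit 76) (nat_lit 3419265099689) (nat_lit 1) (nat_lit 4) (nat_lit 2) (nat_lit 5) (nat_lit 2) (nat_lit 4) (nat_lit 420) (nat_lit 303) (nat_lit 297)) (XT.lf (nat_lit 0) (nat_lit 34260378282450) (nat_lit 76) (nat_lit 3931330754097) (nat_lit 76) (nat_lit 3931306600631) (nat_lit 1) (nat_lit 4) (nat_lit 2) (nat_lit 5) (nat_lit 2) (nat_lit 4) (nat_lit 421) (nat_lit 303) (nat_lit 296))) (XT.nd (nat_lit 52338) (nat_lit 0) (nat_lit 0) (XT.lf (nat_lit 0) (nat_lit 39400974110835) (nat_lit 76) (nat_lit 4520230172162) (nat_lit 76) (nat_lit 4520204120856) (nat_lit 1) (nat_lit 4) (nat_lit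 2) (nat_lit 5) (nat_lit 2) (nat_lit 4) (nat_lit 422) (nat_lit 303) (nat_lit 295)) (XT.nd (nat_lit 78) (nat_lit 0) (nat_lit 0) (XT.lf (nat_lit 0) (nat_lit 4863717861167) (nat_lit 76) (nat_lit 561749888970) (nat_lit 76) (nat_lit 561749888970) (nat_lit 1) (nat_lit 4) (nat_lit 2) (nat_lit 5) (nat_lit 2) (nat_lit 4) (nat_lit 412) (nat_lit 304) (nat_lit 304)) (XT.lf (nat_lit 0) (nat_lit 11189533737538) (nat_lit 76) (nat_lit 1290478588793) (nat_lit 76) (nat_lit 1290472783257) (nat_lit 1) (nat_lit 4) (nat_lit 2) (nat_lit 5) (nat_lit 2) (nat_lit 4) (nat_lit 413) (nat_lit 304) (nat_lit 303)))))) (XT.nd (nat_lit 312) (nat_lit 0) (nat_lit 0) (XT.nd (nat_lit 156) (nat_lit 0) (nat_lit 0) (XT.nd (nat_lit 78) (nat_lit 0) (nat_lit 0) (XT.lf (nat_lit 0) (nat_lit 12870692988135) (nat_lit 76) (nat_lit 1482635046605) (nat_lit 76) (nat_lit 1482624192777) (nat_lit 1) (nat_lit 4) (nat_lit 2) (nat_lit 5) (nat_lit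 2) (nat_lit 4) (nat_lit 414) (nat_lit 304) (nat_lit 302)) (XT.lf (nat_lit 0) (nat_lit 14803805720334) (nat_lit 76) (nat_lit 1703728734246) (nat_lit 76) (nat_lit 1703713490599) (nat_lit 1) (nat_lit 4) (nat_lit 2) (nat_lit 5) (nat_lit 2) (nat_lit 4) (nat_lit 415) (nat_lit 304) (nat_lit 301))) (XT.nd (nat_lit 78) (nat_lit 0) (nat_lit 0) (XT.lf (nat_lit 0) (nat_lit 17026693704980) (nat_lit 76) (nat_lit 1958085397778) (nat_lit 76) (nat_lit 1958066336897) (nat_lit 1) (nat_lit 4) (nat_lit 2) (nat_lit 5) (nat_lit 2) (nat_lit 4) (nat_lit 416) (nat_lit 304) (nat_lit 300)) (XT.lf (nat_lit 0) (nat_lit 19582848228731) (nat_lit 76) (nat_lit 2250681580619) (nat_lit 76) (nat_lit 2250659200403) (nat_lit 1) (nat_lit 4) (nat_lit 2) (nat_lit 5) (nat_lit 2) (nat_lit 4) (nat_lit 417) (nat_lit 304) (nat_lit 299)))) (XT.nd (nat_lit 156) (nat_lit 0) (nat_lit 0) (XT.nd (nat_lit 78) (nat_lit 0) (nat_lit 0) (XT.lf (nat_lit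 0) (nat_lit 22522281010530) (nat_lit 76) (nat_lit 2587241990692) (nat_lit 76) (nat_lit 2587216724100) (nat_lit 1) (nat_lit 4) (nat_lit 2) (nat_lit 5) (nat_lit 2) (nat_lit 4) (nat_lit 418) (nat_lit 304) (nat_lit 298)) (XT.lf (nat_lit 0) (nat_lit 25902502691759) (nat_lit 76) (nat_lit 2974351505588) (nat_lit 76) (nat_lit 2974323729102) (nat_lit 1) (nat_lit 4) (nat_lit 2) (nat_lit 5) (nat_lit 2) (nat_lit 4) (nat_lit 419) (nat_lit 304) (nat_lit 297))) (XT.nd (nat_lit 78) (nat_lit 0) (nat_lit 0) (XT.lf (nat_lit 0) (nat_lit 29789648044443) (nat_lit 76) (nat_lit 3419584007119) (nat_lit 76) (nat_lit 3419554048117) (nat_lit 1) (nat_lit 4) (nat_lit 2) (nat_lit 5) (nat_lit 2) (nat_lit 4) (nat_lit 420) (nat_lit 304) (nat_lit 296)) (XT.nd (nat_lit 78) (nat_lit 0) (nat_lit 0) (XT.lf (nat_lit 0) (nat_lit 34259769912439) (nat_lit 76) (nat_lit 3931650565967) (nat_lit 76) (nat_lit 3931618709125) (nat_lit 1)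 (nat_lit 4) (nat_lit 2) (nat_lit 5) (nat_lit 2) (nat_lit 4) (nat_lit 421) (nat_lit 304) (nat_lit 295)) (XT.lf (nat_lit 0) (nat_lit 39400327201859) (nat_lit 76) (nat_lit 4520569875675) (nat_lit 76) (nat_lit 4520536368537) (nat_lit 1) (nat_lit 4) (nat_lit 2) (nat_lit 5) (nat_lit 2) (nat_lit 4) (nat_lit 422) (nat_lit 304) (nat_lit 294))))))))
noncomputable def xc1 : XT := (XT.nd (nat_lit 53352) (nat_lit 0) (nat_lit 0) (XT.nd (nat_lit 702) (nat_lit 0) (nat_lit 0) (XT.nd (nat_lit 312) (nat_lit 0) (nat_lit 0) (XT.nd (nat_lit 156) (nat_lit 0) (nat_lit 0) (XT.nd (nat_lit 78) (nat_lit 0) (nat_lit 0) (XT.lf (nat_lit 0) (nat_lit 3674940270274) (nat_lit 76) (nat_lit 426181040387) (nat_lit 76) (nat_lit 426181040387) (nat_lit 1) (nat_lit 4) (nat_lit 2) (nat_lit 5) (nat_lit 2) (nat_lit 4) (nat_lit 410) (nat_lit 305) (nat_lit 305)) (XT.lf (nat_lit 0) (nat_lit 8455792677011) (nat_lit 76) (nat_lit 978438313677)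 (nat_lit 76) (nat_lit 978431637311) (nat_lit 1) (nat_lit 4) (nat_lit 2) (nat_lit 5) (nat_lit 2) (nat_lit 4) (nat_lit 411) (nat_lit 305) (nat_lit 304))) (XT.nd (nat_lit 78) (nat_lit 0) (nat_lit 0) (XT.lf (nat_lit 0) (nat_lit 9727300147024) (nat_lit 76) (nat_lit 1123576430645) (nat_lit 76) (nat_lit 1123563948743) (nat_lit 1) (nat_lit 4) (nat_lit 2) (nat_lit 5) (nat_lit 2) (nat_lit 4) (nat_lit 412) (nat_lit 305) (nat_lit 303)) (XT.lf (nat_lit 0) (nat_lit 11189280270652) (nat_lit 76) (nat_lit 1290616090490) (nat_lit 76) (nat_lit 1290598560296) (nat_lit 1) (nat_lit 4) (nat_lit 2) (nat_lit 5) (nat_lit 2) (nat_lit 4) (nat_lit 413) (nat_lit 305) (nat_lit 302)))) (XT.nd (nat_lit 156) (nat_lit 0) (nat_lit 0) (XT.nd (nat_lit 78) (nat_lit 0) (nat_lit 0) (XT.lf (nat_lit 0) (nat_lit 12870337006836) (nat_lit 76) (nat_lit 1482825460468) (nat_lit 76) (nat_lit 1482803540455) (nat_lit 1) (nat_lit 4) (nat_lit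 2) (nat_lit 5) (nat_lit 2) (nat_lit 4) (nat_lit 414) (nat_lit 305) (nat_lit 301)) (XT.lf (nat_lit 0) (nat_lit 14803360596066) (nat_lit 76) (nat_lit 1703965158688) (nat_lit 76) (nat_lit 1703939421441) (nat_lit 1) (nat_lit 4) (nat_lit 2) (nat_lit 5) (nat_lit 2) (nat_lit 4) (nat_lit 415) (nat_lit 305) (nat_lit 300))) (XT.nd (nat_lit 78) (nat_lit 0) (nat_lit 0) (XT.lf (nat_lit 0) (nat_lit 17026171065088) (nat_lit 76) (nat_lit 1958361831419) (nat_lit 76) (nat_lit 1958332774838) (nat_lit 1) (nat_lit 4) (nat_lit 2) (nat_lit 5) (nat_lit 2) (nat_lit 4) (nat_lit 416) (nat_lit 305) (nat_lit 299)) (XT.nd (nat_lit 78) (nat_lit 0) (nat_lit 0) (XT.lf (nat_lit 0) (nat_lit 19582258183948) (nat_lit 76) (nat_lit 2250992804868) (nat_lit 76) (nat_lit 2250960861909) (nat_lit 1) (nat_lit 4) (nat_lit 2) (nat_lit 5) (nat_lit 2) (nat_lit 4) (nat_lit 417) (nat_lit 305) (nat_lit 298)) (XT.lf (nat_lit 0) (nat_lit 22521632352798)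 (nat_lit 76) (nat_lit 2587583467645) (nat_lit 76) (nat_lit 2587549014793) (nat_lit 1) (nat_lit 4) (nat_lit 2) (nat_lit 5) (nat_lit 2) (nat_lit 4) (nat_lit 418) (nat_lit 305) (nat_lit 297)))))) (XT.nd (nat_lit 52260) (nat_lit 0) (nat_lit 0) (XT.nd (nat_lit 156) (nat_lit 0) (nat_lit 0) (XT.nd (nat_lit 78) (nat_lit 0) (nat_lit 0) (XT.lf (nat_lit 0) (nat_lit 25901803066246) (nat_lit 76) (nat_lit 2974719289238) (nat_lit 76) (nat_lit 2974682653870) (nat_lit 1) (nat_lit 4) (nat_lit 2) (nat_lit 5) (nat_lit 2) (nat_lit 4) (nat_lit 419) (nat_lit 305) (nat_lit 296)) (XT.lf (nat_lit 0) (nat_lit 29788904099121) (nat_lit 76) (nat_lit 3419974666159) (nat_lit 76) (nat_lit 3419936132951) (nat_lit 1) (nat_lit 4) (nat_lit 2) (nat_lit 5) (nat_lit 2) (nat_lit 4) (nat_lit 420) (nat_lit 305) (nat_lit 295))) (XT.nd (nat_lit 78) (nat_lit 0) (nat_lit 0) (XT.lf (nat_lit 0) (nat_lit 34258987428151) (nat_lit 76) (nat_lit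 3932061116650) (nat_lit 76) (nat_lit 3932020933146) (nat_lit 1) (nat_lit 4) (nat_lit 2) (nat_lit 5) (nat_lit 2) (nat_lit 4) (nat_lit 421) (nat_lit 305) (nat_lit 294)) (XT.lf (nat_lit 0) (nat_lit 39399511205427) (nat_lit 76) (nat_lit 4520997723438) (nat_lit 76) (nat_lit 4520956104895) (nat_lit 1) (nat_lit 4) (nat_lit 2) (nat_lit 5) (nat_lit 2) (nat_lit 4) (nat_lit 422) (nat_lit 305) (nat_lit 293)))) (XT.nd (nat_lit 156) (nat_lit 0) (nat_lit 0) (XT.nd (nat_lit 78) (nat_lit 0) (nat_lit 0) (XT.lf (nat_lit 0) (nat_lit 2775644244600) (nat_lit 76) (nat_lit 323884126934) (nat_lit 76) (nat_lit 323884126934) (nat_lit 1) (nat_lit 4) (nat_lit 2) (nat_lit 5) (nat_lit 2) (nat_lit 4) (nat_lit 408) (nat_lit 306) (nat_lit 306)) (XT.lf (nat_lit 0) (nat_lit 6387926326269) (nat_lit 76) (nat_lit 742888700853) (nat_lit 76) (nat_lit 742881023032) (nat_lit 1) (nat_lit 4) (nat_lit 2) (nat_lit 5) (nat_lit 2) (nat_lit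 4) (nat_lit 409) (nat_lit 306) (nat_lit 305))) (XT.nd (nat_lit 78) (nat_lit 0) (nat_lit 0) (XT.lf (nat_lit 0) (nat_lit 7349724628940) (nat_lit 76) (nat_lit 852450231386) (nat_lit 76) (nat_lit 852435877198) (nat_lit 1) (nat_lit 4) (nat_lit 2) (nat_lit 5) (nat_lit 2) (nat_lit 4) (nat_lit 410) (nat_lit 306) (nat_lit 304)) (XT.nd (nat_lit 78) (nat_lit 0) (nat_lit 0) (XT.lf (nat_lit 0) (nat_lit 8455501190091) (nat_lit 76) (nat_lit 978596440628) (nat_lit 76) (nat_lit 978576280905) (nat_lit 1) (nat_lit 4) (nat_lit 2) (nat_lit 5) (nat_lit 2) (nat_lit 4) (nat_lit 411) (nat_lit 306) (nat_lit 303)) (XT.lf (nat_lit 0) (nat_lit 9726890768529) (nat_lit 76) (nat_lit 1123795406588) (nat_lit 76) (nat_lit 1123770198572) (nat_lit 1) (nat_lit 4) (nat_lit 2) (nat_lit 5) (nat_lit 2) (nat_lit 4) (nat_lit 412) (nat_lit 306) (nat_lit 302))))))) (XT.nd (nat_lit 702) (nat_lit 0) (nat_lit 0) (XT.nd (nat_lit 312) (nat_lit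 0) (nat_lit 0) (XT.nd (nat_lit 156) (nat_lit 0) (nat_lit 0) (XT.nd (nat_lit 78) (nat_lit 0) (nat_lit 0) (XT.lf (nat_lit 0) (nat_lit 11188768377744) (nat_lit 76) (nat_lit 1290887978598) (nat_lit 76) (nat_lit 1290858380764) (nat_lit 1) (nat_lit 4) (nat_lit 2) (nat_lit 5) (nat_lit 2) (nat_lit 4) (nat_lit 413) (nat_lit 306) (nat_lit 301)) (XT.lf (nat_lit 0) (nat_lit 12869735970959) (nat_lit 76) (nat_lit 1483143359155) (nat_lit 76) (nat_lit 1483109944087) (nat_lit 1) (nat_lit 4) (nat_lit 2) (nat_lit 5) (nat_lit 2) (nat_lit 4) (nat_lit 414) (nat_lit 306) (nat_lit 300))) (XT.nd (nat_lit 78) (nat_lit 0) (nat_lit 0) (XT.lf (nat_lit 0) (nat_lit 14802682044565) (nat_lit 76) (nat_lit 1704323066575) (nat_lit 76) (nat_lit 1704286332172) (nat_lit 1) (nat_lit 4) (nat_lit 2) (nat_lit 5) (nat_lit 2) (nat_lit 4) (nat_lit 415) (nat_lit 306) (nat_lit 299)) (XT.lf (nat_lit 0) (nat_lit 17025425108697) (nat_lit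 76) (nat_lit 1958754529914) (nat_lit 76) (nat_lit 1958714909134) (nat_lit 1) (nat_lit 4) (nat_lit 2) (nat_lit 5) (nat_lit 2) (nat_lit 4) (nat_lit 416) (nat_lit 306) (nat_lit 298)))) (XT.nd (nat_lit 156) (nat_lit 0) (nat_lit 0) (XT.nd (nat_lit 78) (nat_lit 0) (nat_lit 0) (XT.lf (nat_lit 0) (nat_lit 19581453614608) (nat_lit 76) (nat_lit 2251415756065) (nat_lit 76) (nat_lit 2251373625392) (nat_lit 1) (nat_lit 4) (nat_lit 2) (nat_lit 5) (nat_lit 2) (nat_lit 4) (nat_lit 417) (nat_lit 306) (nat_lit 297)) (XT.lf (nat_lit 0) (nat_lit 22520776815677) (nat_lit 76) (nat_lit 2588032725540) (nat_lit 76) (nat_lit 2587988412351) (nat_lit 1) (nat_lit 4) (nat_lit 2) (nat_lit 5) (nat_lit 2) (nat_lit 4) (nat_lit 418) (nat_lit 306) (nat_lit 296))) (XT.nd (nat_lit 78) (nat_lit 0) (nat_lit 0) (XT.lf (nat_lit 0) (nat_lit 25900903209316) (nat_lit 76) (nat_lit 2975191422523) (nat_lit 76) (nat_lit 2975145211494) (nat_lit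 1) (nat_lit 4) (nat_lit 2) (nat_lit 5) (nat_lit 2) (nat_lit 4) (nat_lit 419) (nat_lit 306) (nat_lit 295)) (XT.nd (nat_lit 78) (nat_lit 0) (nat_lit 0) (XT.lf (nat_lit 0) (nat_lit 29787965703225) (nat_lit 76) (nat_lit 3420466691087) (nat_lit 76) (nat_lit 3420418829762) (nat_lit 1) (nat_lit 4) (nat_lit 2) (nat_lit 5) (nat_lit 2) (nat_lit 4) (nat_lit 420) (nat_lit 306) (nat_lit 294)) (XT.lf (nat_lit 0) (nat_lit 34258015520111) (nat_lit 76) (nat_lit 3932570438659) (nat_lit 76) (nat_lit 3932521142294) (nat_lit 1) (nat_lit 4) (nat_lit 2) (nat_lit 5) (nat_lit 2) (nat_lit 4) (nat_lit 421) (nat_lit 306) (nat_lit 293)))))) (XT.nd (nat_lit 52182) (nat_lit 0) (nat_lit 0) (XT.nd (nat_lit 51948) (nat_lit 0) (nat_lit 0) (XT.nd (nat_lit 51870) (nat_lit 0) (nat_lit 0) (XT.lf (nat_lit 0) (nat_lit 39398510156393) (nat_lit 76) (nat_lit 4521522086387) (nat_lit 76) (nat_lit 4521471542162) (nat_lit 1) (nat_lit 4)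 (nat_lit 2) (nat_lit 5) (nat_lit 2) (nat_lit 4) (nat_lit 422) (nat_lit 306) (nat_lit 292)) (XT.lf (nat_lit 0) (nat_lit 2095176464493) (nat_lit 76) (nat_lit 246777468461) (nat_lit 76) (nat_lit 246777468461) (nat_lit 1) (nat_lit 4) (nat_lit 2) (nat_lit 5) (nat_lit 2) (nat_lit 4) (nat_lit 406) (nat_lit 307) (nat_lit 307))) (XT.nd (nat_lit 78) (nat_lit 0) (nat_lit 0) (XT.lf (nat_lit 0) (nat_lit 4823442116575) (nat_lit 76) (nat_lit 565236667701) (nat_lit 76) (nat_lit 565227838207) (nat_lit 1) (nat_lit 4) (nat_lit 2) (nat_lit 5) (nat_lit 2) (nat_lit 4) (nat_lit 407) (nat_lit 307) (nat_lit 306)) (XT.nd (nat_lit 78) (nat_lit 0) (nat_lit 0) (XT.lf (nat_lit 0) (nat_lit 5551109190851) (nat_lit 76) (nat_lit 647869627072) (nat_lit 76) (nat_lit 647853119756) (nat_lit 1) (nat_lit 4) (nat_lit 2) (nat_lit 5) (nat_lit 2) (nat_lit 4) (nat_lit 408) (nat_lit 307) (nat_lit 305)) (XT.lf (nat_lit 0) (nat_lit 6387591116311)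 (nat_lit 76) (nat_lit 743070546847) (nat_lit 76) (nat_lit 743047363165) (nat_lit 1) (nat_lit 4) (nat_lit 2) (nat_lit 5) (nat_lit 2) (nat_lit 4) (nat_lit 409) (nat_lit 307) (nat_lit 304))))) (XT.nd (nat_lit 156) (nat_lit 0) (nat_lit 0) (XT.nd (nat_lit 78) (nat_lit 0) (nat_lit 0) (XT.lf (nat_lit 0) (nat_lit 7349253843670) (nat_lit 76) (nat_lit 852702053719) (nat_lit 76) (nat_lit 852673064502) (nat_lit 1) (nat_lit 4) (nat_lit 2) (nat_lit 5) (nat_lit 2) (nat_lit 4) (nat_lit 410) (nat_lit 307) (nat_lit 303)) (XT.lf (nat_lit 0) (nat_lit 8454912513247) (nat_lit 76) (nat_lit 978909111953) (nat_lit 76) (nat_lit 978875074443) (nat_lit 1) (nat_lit 4) (nat_lit 2) (nat_lit 5) (nat_lit 2) (nat_lit 4) (nat_lit 411) (nat_lit 307) (nat_lit 302))) (XT.nd (nat_lit 78) (nat_lit 0) (nat_lit 0) (XT.lf (nat_lit 0) (nat_lit 9726199577271) (nat_lit 76) (nat_lit 1124160990078) (nat_lit 76) (nat_lit 1124122562750)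 (nat_lit 1) (nat_lit 4) (nat_lit 2) (nat_lit 5) (nat_lit 2) (nat_lit 4) (nat_lit 412) (nat_lit 307) (nat_lit 301)) (XT.nd (nat_lit 78) (nat_lit 0) (nat_lit 0) (XT.lf (nat_lit 0) (nat_lit 11187988043518) (nat_lit 76) (nat_lit 1291299572668) (nat_lit 76) (nat_lit 1291257328105) (nat_lit 1) (nat_lit 4) (nat_lit 2) (nat_lit 5) (nat_lit 2) (nat_lit 4) (nat_lit 413) (nat_lit 307) (nat_lit 300)) (XT.lf (nat_lit 0) (nat_lit 12868878121109) (nat_lit 76) (nat_lit 1483594962425) (nat_lit 76) (nat_lit 1483549398528) (nat_lit 1) (nat_lit 4) (nat_lit 2) (nat_lit 5) (nat_lit 2) (nat_lit 4) (nat_lit 414) (nat_lit 307) (nat_lit 299))))))))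
noncomputable def xc2 : XT := (XT.nd (nat_lit 53040) (nat_lit 0) (nat_lit 0) (XT.nd (nat_lit 52338) (nat_lit 0) (nat_lit 0) (XT.nd (nat_lit 312) (nat_lit 0) (nat_lit 0) (XT.nd (nat_lit 156) (nat_lit 0) (nat_lit 0) (XT.nd (nat_lit 78) (nat_lit 0) (nat_lit 0) (XT.lf (nat_lit 0) (nat_lit 14801756789824) (nat_lit 76) (nat_lit 1704809460452) (nat_lit 76) (nat_lit 1704761010178) (nat_lit 1) (nat_lit 4) (nat_lit 2) (nat_lit 5) (nat_lit 2) (nat_lit 4) (nat_lit 415) (nat_lit 307) (nat_lit 298)) (XT.lf (nat_lit 0) (nat_lit 17024441241007) (nat_lit 76) (nat_lit 1959271176494) (nat_lit 76) (nat_lit 1959220216327) (nat_lit 1) (nat_lit 4) (nat_lit 2) (nat_lit 5) (nat_lit 2) (nat_lit 4) (nat_lit 416) (nat_lit 307) (nat_lit 297))) (XT.nd (nat_lit 78) (nat_lit 0) (nat_lit 0) (XT.lf (nat_lit 0) (nat_lit 19580418779138) (nat_lit 76) (nat_lit 2251958709343) (nat_lit 76) (nat_lit 2251905566660) (nat_lit 1) (nat_lit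 4) (nat_lit 2) (nat_lit 5) (nat_lit 2) (nat_lit 4) (nat_lit 417) (nat_lit 307) (nat_lit 296)) (XT.lf (nat_lit 0) (nat_lit 22519697660397) (nat_lit 76) (nat_lit 2588598554207) (nat_lit 76) (nat_lit 2588543513684) (nat_lit 1) (nat_lit 4) (nat_lit 2) (nat_lit 5) (nat_lit 2) (nat_lit 4) (nat_lit 418) (nat_lit 307) (nat_lit 295)))) (XT.nd (nat_lit 156) (nat_lit 0) (nat_lit 0) (XT.nd (nat_lit 78) (nat_lit 0) (nat_lit 0) (XT.lf (nat_lit 0) (nat_lit 25899785515070) (nat_lit 76) (nat_lit 2975777142834) (nat_lit 76) (nat_lit 2975720452015) (nat_lit 1) (nat_lit 4) (nat_lit 2) (nat_lit 5) (nat_lit 2) (nat_lit 4) (nat_lit 419) (nat_lit 307) (nat_lit 294)) (XT.lf (nat_lit 0) (nat_lit 29786814496836) (nat_lit 76) (nat_lit 3421069708478) (nat_lit 76) (nat_lit 3421011582619) (nat_lit 1) (nat_lit 4) (nat_lit 2) (nat_lit 5) (nat_lit 2) (nat_lit 4) (nat_lit 420) (nat_lit 307) (nat_lit 293))) (XT.nd (nat_lit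 78) (nat_lit 0) (nat_lit 0) (XT.lf (nat_lit 0) (nat_lit 34256835172728) (nat_lit 76) (nat_lit 3933188496990) (nat_lit 76) (nat_lit 3933129123271) (nat_lit 1) (nat_lit 4) (nat_lit 2) (nat_lit 5) (nat_lit 2) (nat_lit 4) (nat_lit 421) (nat_lit 307) (nat_lit 292)) (XT.nd (nat_lit 51714) (nat_lit 0) (nat_lit 0) (XT.lf (nat_lit 0) (nat_lit 39397304469015) (nat_lit 76) (nat_lit 4522153223797) (nat_lit 76) (nat_lit 4522092764981) (nat_lit 1) (nat_lit 4) (nat_lit 2) (nat_lit 5) (nat_lit 2) (nat_lit 4) (nat_lit 422) (nat_lit 307) (nat_lit 291)) (XT.lf (nat_lit 0) (nat_lit 1580103658706) (nat_lit 76) (nat_lit 188754937492) (nat_lit 76) (nat_lit 188754937492) (nat_lit 1) (nat_lit 4) (nat_lit 2) (nat_lit 5) (nat_lit 2) (nat_lit 4) (nat_lit 404) (nat_lit 308) (nat_lit 308)))))) (XT.nd (nat_lit 312) (nat_lit 0) (nat_lit 0) (XT.nd (nat_lit 156) (nat_lit 0) (nat_lit 0) (XT.nd (nat_lit 78) (nat_lit 0) (nat_lit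 0) (XT.lf (nat_lit 0) (nat_lit 3639455100501) (nat_lit 76) (nat_lit 431432120008) (nat_lit 76) (nat_lit 431421966089) (nat_lit 1) (nat_lit 4) (nat_lit 2) (nat_lit 5) (nat_lit 2) (nat_lit 4) (nat_lit 405) (nat_lit 308) (nat_lit 307)) (XT.lf (nat_lit 0) (nat_lit 4190146735884) (nat_lit 76) (nat_lit 493671516106) (nat_lit 76) (nat_lit 493652532693) (nat_lit 1) (nat_lit 4) (nat_lit 2) (nat_lit 5) (nat_lit 2) (nat_lit 4) (nat_lit 406) (nat_lit 308) (nat_lit 306))) (XT.nd (nat_lit 78) (nat_lit 0) (nat_lit 0) (XT.lf (nat_lit 0) (nat_lit 4823056625124) (nat_lit 76) (nat_lit 565445790594) (nat_lit 76) (nat_lit 565419129360) (nat_lit 1) (nat_lit 4) (nat_lit 2) (nat_lit 5) (nat_lit 2) (nat_lit 4) (nat_lit 407) (nat_lit 308) (nat_lit 305)) (XT.lf (nat_lit 0) (nat_lit 5550567787792) (nat_lit 76) (nat_lit 648159222755) (nat_lit 76) (nat_lit 648125885155) (nat_lit 1) (nat_lit 4) (nat_lit 2) (nat_lit 5)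 (nat_lit 2) (nat_lit 4) (nat_lit 408) (nat_lit 308) (nat_lit 304)))) (XT.nd (nat_lit 156) (nat_lit 0) (nat_lit 0) (XT.nd (nat_lit 78) (nat_lit 0) (nat_lit 0) (XT.lf (nat_lit 0) (nat_lit 6386914137940) (nat_lit 76) (nat_lit 743430118871) (nat_lit 76) (nat_lit 743390975734) (nat_lit 1) (nat_lit 4) (nat_lit 2) (nat_lit 5) (nat_lit 2) (nat_lit 4) (nat_lit 409) (nat_lit 308) (nat_lit 303)) (XT.lf (nat_lit 0) (nat_lit 7348458973724) (nat_lit 76) (nat_lit 853122474734) (nat_lit 76) (nat_lit 853078283305) (nat_lit 1) (nat_lit 4) (nat_lit 2) (nat_lit 5) (nat_lit 2) (nat_lit 4) (nat_lit 410) (nat_lit 308) (nat_lit 302))) (XT.nd (nat_lit 78) (nat_lit 0) (nat_lit 0) (XT.lf (nat_lit 0) (nat_lit 8454015128887) (nat_lit 76) (nat_lit 979382445133) (nat_lit 76) (nat_lit 979333863886) (nat_lit 1) (nat_lit 4) (nat_lit 2) (nat_lit 5) (nat_lit 2) (nat_lit 4) (nat_lit 411) (nat_lit 308) (nat_lit 301)) (XT.nd (nat_lit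 78) (nat_lit 0) (nat_lit 0) (XT.lf (nat_lit 0) (nat_lit 9725213049944) (nat_lit 76) (nat_lit 1124680333838) (nat_lit 76) (nat_lit 1124627935357) (nat_lit 1) (nat_lit 4) (nat_lit 2) (nat_lit 5) (nat_lit 2) (nat_lit 4) (nat_lit 412) (nat_lit 308) (nat_lit 300)) (XT.lf (nat_lit 0) (nat_lit 11186924000566) (nat_lit 76) (nat_lit 1291858925627) (nat_lit 76) (nat_lit 1291803207811) (nat_lit 1) (nat_lit 4) (nat_lit 2) (nat_lit 5) (nat_lit 2) (nat_lit 4) (nat_lit 413) (nat_lit 308) (nat_lit 299))))))) (XT.nd (nat_lit 52182) (nat_lit 0) (nat_lit 0) (XT.nd (nat_lit 312) (nat_lit 0) (nat_lit 0) (XT.nd (nat_lit 156) (nat_lit 0) (nat_lit 0) (XT.nd (nat_lit 78) (nat_lit 0) (nat_lit 0) (XT.lf (nat_lit 0) (nat_lit 12867746673267) (nat_lit 76) (nat_lit 1484189105991) (nat_lit 76) (nat_lit 1484130501799) (nat_lit 1) (nat_lit 4) (nat_lit 2) (nat_lit 5) (nat_lit 2) (nat_lit 4) (nat_lit 414) (nat_lit 308) (nat_lit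 298)) (XT.lf (nat_lit 0) (nat_lit 14800566729033) (nat_lit 76) (nat_lit 1705433856721) (nat_lit 76) (nat_lit 1705372742635) (nat_lit 1) (nat_lit 4) (nat_lit 2) (nat_lit 5) (nat_lit 2) (nat_lit 4) (nat_lit 415) (nat_lit 308) (nat_lit 297))) (XT.nd (nat_lit 78) (nat_lit 0) (nat_lit 0) (XT.lf (nat_lit 0) (nat_lit 17023200212435) (nat_lit 76) (nat_lit 1959921879462) (nat_lit 76) (nat_lit 1959858582860) (nat_lit 1) (nat_lit 4) (nat_lit 2) (nat_lit 5) (nat_lit 2) (nat_lit 4) (nat_lit 416) (nat_lit 308) (nat_lit 296)) (XT.lf (nat_lit 0) (nat_lit 19579133430756) (nat_lit 76) (nat_lit 2252632287700) (nat_lit 76) (nat_lit 2252567093258) (nat_lit 1) (nat_lit 4) (nat_lit 2) (nat_lit 5) (nat_lit 2) (nat_lit 4) (nat_lit 417) (nat_lit 308) (nat_lit 295)))) (XT.nd (nat_lit 156) (nat_lit 0) (nat_lit 0) (XT.nd (nat_lit 78) (nat_lit 0) (nat_lit 0) (XT.lf (nat_lit 0) (nat_lit 22518373773050) (nat_lit 76) (nat_lit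 2589292024208) (nat_lit 76) (nat_lit 2589225179470) (nat_lit 1) (nat_lit 4) (nat_lit 2) (nat_lit 5) (nat_lit 2) (nat_lit 4) (nat_lit 418) (nat_lit 308) (nat_lit 294)) (XT.lf (nat_lit 0) (nat_lit 25898428115579) (nat_lit 76) (nat_lit 2976487909915) (nat_lit 76) (nat_lit 2976419630138) (nat_lit 1) (nat_lit 4) (nat_lit 2) (nat_lit 5) (nat_lit 2) (nat_lit 4) (nat_lit 419) (nat_lit 308) (nat_lit 293))) (XT.nd (nat_lit 78) (nat_lit 0) (nat_lit 0) (XT.lf (nat_lit 0) (nat_lit 29785427956350) (nat_lit 76) (nat_lit 3421795516499) (nat_lit 76) (nat_lit 3421725988861) (nat_lit 1) (nat_lit 4) (nat_lit 2) (nat_lit 5) (nat_lit 2) (nat_lit 4) (nat_lit 420) (nat_lit 308) (nat_lit 292)) (XT.nd (nat_lit 78) (nat_lit 0) (nat_lit 0) (XT.lf (nat_lit 0) (nat_lit 34255423292248) (nat_lit 76) (nat_lit 3933927384089) (nat_lit 76) (nat_lit 3933856771355) (nat_lit 1) (nat_lit 4) (nat_lit 2) (nat_lit 5) (nat_lit 2) (nat_lit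 4) (nat_lit 421) (nat_lit 308) (nat_lit 291)) (XT.lf (nat_lit 0) (nat_lit 39395870553756) (nat_lit 76) (nat_lit 4522903484008) (nat_lit 76) (nat_lit 4522831927712) (nat_lit 1) (nat_lit 4) (nat_lit 2) (nat_lit 5) (nat_lit 2) (nat_lit 4) (nat_lit 422) (nat_lit 308) (nat_lit 290)))))) (XT.nd (nat_lit 390) (nat_lit 0) (nat_lit 0) (XT.nd (nat_lit 156) (nat_lit 0) (nat_lit 0) (XT.nd (nat_lit 78) (nat_lit 0) (nat_lit 0) (XT.lf (nat_lit 0) (nat_lit 1190012004894) (nat_lit 76) (nat_lit 145204925761) (nat_lit 76) (nat_lit 145204925761) (nat_lit 1) (nat_lit 4) (nat_lit 2) (nat_lit 5) (nat_lit 2) (nat_lit 4) (nat_lit 402) (nat_lit 309) (nat_lit 309)) (XT.lf (nat_lit 0) (nat_lit 2743026799556) (nat_lit 76) (nat_lit 330861457594) (nat_lit 76) (nat_lit 330849780588) (nat_lit 1) (nat_lit 4) (nat_lit 2) (nat_lit 5) (nat_lit 2) (nat_lit 4) (nat_lit 403) (nat_lit 309) (nat_lit 308))) (XT.nd (nat_lit 78) (nat_lit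 0) (nat_lit 0) (XT.lf (nat_lit 0) (nat_lit 3159970195345) (nat_lit 76) (nat_lit 377643941045) (nat_lit 76) (nat_lit 377622110120) (nat_lit 1) (nat_lit 4) (nat_lit 2) (nat_lit 5) (nat_lit 2) (nat_lit 4) (nat_lit 404) (nat_lit 309) (nat_lit 307)) (XT.nd (nat_lit 78) (nat_lit 0) (nat_lit 0) (XT.lf (nat_lit 0) (nat_lit 3639011785332) (nat_lit 76) (nat_lit 431672611335) (nat_lit 76) (nat_lit 431641950916) (nat_lit 1) (nat_lit 4) (nat_lit 2) (nat_lit 5) (nat_lit 2) (nat_lit 4) (nat_lit 405) (nat_lit 309) (nat_lit 306)) (XT.lf (nat_lit 0) (nat_lit 4189524122366) (nat_lit 76) (nat_lit 494004551143) (nat_lit 76) (nat_lit 493966212902) (nat_lit 1) (nat_lit 4) (nat_lit 2) (nat_lit 5) (nat_lit 2) (nat_lit 4) (nat_lit 406) (nat_lit 309) (nat_lit 305))))) (XT.nd (nat_lit 156) (nat_lit 0) (nat_lit 0) (XT.nd (nat_lit 78) (nat_lit 0) (nat_lit 0) (XT.lf (nat_lit 0) (nat_lit 4822278099997) (nat_lit 76) (nat_lit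 565859298421) (nat_lit 76) (nat_lit 565814283815) (nat_lit 1) (nat_lit 4) (nat_lit 2) (nat_lit 5) (nat_lit 2) (nat_lit 4) (nat_lit 407) (nat_lit 309) (nat_lit 304)) (XT.lf (nat_lit 0) (nat_lit 5549653687354) (nat_lit 76) (nat_lit 648642706922) (nat_lit 76) (nat_lit 648591886779) (nat_lit 1) (nat_lit 4) (nat_lit 2) (nat_lit 5) (nat_lit 2) (nat_lit 4) (nat_lit 408) (nat_lit 309) (nat_lit 303))) (XT.nd (nat_lit 78) (nat_lit 0) (nat_lit 0) (XT.lf (nat_lit 0) (nat_lit 6385882145927) (nat_lit 76) (nat_lit 743974452028) (nat_lit 76) (nat_lit 743918583593) (nat_lit 1) (nat_lit 4) (nat_lit 2) (nat_lit 5) (nat_lit 2) (nat_lit 4) (nat_lit 409) (nat_lit 309) (nat_lit 302)) (XT.nd (nat_lit 78) (nat_lit 0) (nat_lit 0) (XT.lf (nat_lit 0) (nat_lit 7347324467298) (nat_lit 76) (nat_lit 853719720057) (nat_lit 76) (nat_lit 853659461803) (nat_lit 1) (nat_lit 4) (nat_lit 2) (nat_lit 5) (nat_lit 2) (nat_lit 4)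 (nat_lit 410) (nat_lit 309) (nat_lit 301)) (XT.lf (nat_lit 0) (nat_lit 8452791479493) (nat_lit 76) (nat_lit 980025701036) (nat_lit 76) (nat_lit 979961625548) (nat_lit 1) (nat_lit 4) (nat_lit 2) (nat_lit 5) (nat_lit 2) (nat_lit 4) (nat_lit 411) (nat_lit 309) (nat_lit 300))))))))
noncomputable def xc3 : XT := (XT.nd (nat_lit 52728) (nat_lit 0) (nat_lit 0) (XT.nd (nat_lit 702) (nat_lit 0) (nat_lit 0) (XT.nd (nat_lit 312) (nat_lit 0) (nat_lit 0) (XT.nd (nat_lit 156) (nat_lit 0) (nat_lit 0) (XT.nd (nat_lit 78) (nat_lit 0) (nat_lit 0) (XT.lf (nat_lit 0) (nat_lit 9723911884925) (nat_lit 76) (nat_lit 1125363598940) (nat_lit 76) (nat_lit 1125296204118) (nat_lit 1) (nat_lit 4) (nat_lit 2) (nat_lit 5) (nat_lit 2) (nat_lit 4) (nat_lit 412) (nat_lit 309) (nat_lit 299)) (XT.lf (nat_lit 0) (nat_lit 11185555430656) (nat_lit 76) (nat_lit 1292576981337) (nat_lit 76) (nat_lit 1292506700138) (nat_lit 1) (nat_lit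 4) (nat_lit 2) (nat_lit 5) (nat_lit 2) (nat_lit 4) (nat_lit 413) (nat_lit 309) (nat_lit 298))) (XT.nd (nat_lit 78) (nat_lit 0) (nat_lit 0) (XT.lf (nat_lit 0) (nat_lit 12866319490408) (nat_lit 76) (nat_lit 1484937414404) (nat_lit 76) (nat_lit 1484864623312) (nat_lit 1) (nat_lit 4) (nat_lit 2) (nat_lit 5) (nat_lit 2) (nat_lit 4) (nat_lit 414) (nat_lit 309) (nat_lit 297)) (XT.lf (nat_lit 0) (nat_lit 14799088578394) (nat_lit 76) (nat_lit 1706208471832) (nat_lit 76) (nat_lit 1706133498224) (nat_lit 1) (nat_lit 4) (nat_lit 2) (nat_lit 5) (nat_lit 2) (nat_lit 4) (nat_lit 415) (nat_lit 309) (nat_lit 296)))) (XT.nd (nat_lit 156) (nat_lit 0) (nat_lit 0) (XT.nd (nat_lit 78) (nat_lit 0) (nat_lit 0) (XT.lf (nat_lit 0) (nat_lit 17021677741986) (nat_lit 76) (nat_lit 1960719369962) (nat_lit 76) (nat_lit 1960642498513) (nat_lit 1) (nat_lit 4) (nat_lit 2) (nat_lit 5) (nat_lit 2) (nat_lit 4) (nat_lit 416) (nat_lit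 309) (nat_lit 295)) (XT.lf (nat_lit 0) (nat_lit 19577572421341) (nat_lit 76) (nat_lit 2253449669844) (nat_lit 76) (nat_lit 2253371148100) (nat_lit 1) (nat_lit 4) (nat_lit 2) (nat_lit 5) (nat_lit 2) (nat_lit 4) (nat_lit 417) (nat_lit 309) (nat_lit 294))) (XT.nd (nat_lit 78) (nat_lit 0) (nat_lit 0) (XT.lf (nat_lit 0) (nat_lit 22516779251492) (nat_lit 76) (nat_lit 2590126703432) (nat_lit 76) (nat_lit 2590046746648) (nat_lit 1) (nat_lit 4) (nat_lit 2) (nat_lit 5) (nat_lit 2) (nat_lit 4) (nat_lit 418) (nat_lit 309) (nat_lit 293)) (XT.nd (nat_lit 78) (nat_lit 0) (nat_lit 0) (XT.lf (nat_lit 0) (nat_lit 25896804453027) (nat_lit 76) (nat_lit 2977337630079) (nat_lit 76) (nat_lit 2977256425435) (nat_lit 1) (nat_lit 4) (nat_lit 2) (nat_lit 5) (nat_lit 2) (nat_lit 4) (nat_lit 419) (nat_lit 309) (nat_lit 292)) (XT.lf (nat_lit 0) (nat_lit 29783778953803) (nat_lit 76) (nat_lit 3422658315741) (nat_lit 76)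 (nat_lit 3422576026001) (nat_lit 1) (nat_lit 4) (nat_lit 2) (nat_lit 5) (nat_lit 2) (nat_lit 4) (nat_lit 420) (nat_lit 309) (nat_lit 291)))))) (XT.nd (nat_lit 51636) (nat_lit 0) (nat_lit 0) (XT.nd (nat_lit 51480) (nat_lit 0) (nat_lit 0) (XT.nd (nat_lit 78) (nat_lit 0) (nat_lit 0) (XT.lf (nat_lit 0) (nat_lit 34253752254922) (nat_lit 76) (nat_lit 3934801556443) (nat_lit 76) (nat_lit 3934718323141) (nat_lit 1) (nat_lit 4) (nat_lit 2) (nat_lit 5) (nat_lit 2) (nat_lit 4) (nat_lit 421) (nat_lit 309) (nat_lit 290)) (XT.lf (nat_lit 0) (nat_lit 39394180355754) (nat_lit 76) (nat_lit 4523787546023) (nat_lit 76) (nat_lit 4523703492233) (nat_lit 1) (nat_lit 4) (nat_lit 2) (nat_lit 5) (nat_lit 2) (nat_lit 4) (nat_lit 422) (nat_lit 309) (nat_lit 289))) (XT.nd (nat_lit 78) (nat_lit 0) (nat_lit 0) (XT.lf (nat_lit 0) (nat_lit 894330665653) (nat_lit 76) (nat_lit 112646721446) (nat_lit 76) (nat_lit 112646721446)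 (nat_lit 1) (nat_lit 4) (nat_lit 2) (nat_lit 5) (nat_lit 2) (nat_lit 4) (nat_lit 400) (nat_lit 310) (nat_lit 310)) (XT.lf (nat_lit 0) (nat_lit 2063859597547) (nat_lit 76) (nat_lit 255511106921) (nat_lit 76) (nat_lit 255497678364) (nat_lit 1) (nat_lit 4) (nat_lit 2) (nat_lit 5) (nat_lit 2) (nat_lit 4) (nat_lit 401) (nat_lit 310) (nat_lit 309)))) (XT.nd (nat_lit 156) (nat_lit 0) (nat_lit 0) (XT.nd (nat_lit 78) (nat_lit 0) (nat_lit 0) (XT.lf (nat_lit 0) (nat_lit 2379751319412) (nat_lit 76) (nat_lit 290564027493) (nat_lit 76) (nat_lit 290538921930) (nat_lit 1) (nat_lit 4) (nat_lit 2) (nat_lit 5) (nat_lit 2) (nat_lit 4) (nat_lit 402) (nat_lit 310) (nat_lit 308)) (XT.lf (nat_lit 0) (nat_lit 2742516987112) (nat_lit 76) (nat_lit 331138022620) (nat_lit 76) (nat_lit 331102763138) (nat_lit 1) (nat_lit 4) (nat_lit 2) (nat_lit 5) (nat_lit 2) (nat_lit 4) (nat_lit 403) (nat_lit 310) (nat_lit 307))) (XT.nd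 (nat_lit 78) (nat_lit 0) (nat_lit 0) (XT.lf (nat_lit 0) (nat_lit 3159254189798) (nat_lit 76) (nat_lit 378026931337) (nat_lit 76) (nat_lit 377982842360) (nat_lit 1) (nat_lit 4) (nat_lit 2) (nat_lit 5) (nat_lit 2) (nat_lit 4) (nat_lit 404) (nat_lit 310) (nat_lit 306)) (XT.nd (nat_lit 78) (nat_lit 0) (nat_lit 0) (XT.lf (nat_lit 0) (nat_lit 3638116481436) (nat_lit 76) (nat_lit 432148145336) (nat_lit 76) (nat_lit 432096378538) (nat_lit 1) (nat_lit 4) (nat_lit 2) (nat_lit 5) (nat_lit 2) (nat_lit 4) (nat_lit 405) (nat_lit 310) (nat_lit 305)) (XT.lf (nat_lit 0) (nat_lit 4188472906862) (nat_lit 76) (nat_lit 494560557934) (nat_lit 76) (nat_lit 494502114770) (nat_lit 1) (nat_lit 4) (nat_lit 2) (nat_lit 5) (nat_lit 2) (nat_lit 4) (nat_lit 406) (nat_lit 310) (nat_lit 304))))))) (XT.nd (nat_lit 702) (nat_lit 0) (nat_lit 0) (XT.nd (nat_lit 312) (nat_lit 0) (nat_lit 0) (XT.nd (nat_lit 156) (nat_lit 0) (nat_lit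 0) (XT.nd (nat_lit 78) (nat_lit 0) (nat_lit 0) (XT.lf (nat_lit 0) (nat_lit 4821091309182) (nat_lit 76) (nat_lit 566485281552) (nat_lit 76) (nat_lit 566421032852) (nat_lit 1) (nat_lit 4) (nat_lit 2) (nat_lit 5) (nat_lit 2) (nat_lit 4) (nat_lit 407) (nat_lit 310) (nat_lit 303)) (XT.lf (nat_lit 0) (nat_lit 5548349004963) (nat_lit 76) (nat_lit 649329539044) (nat_lit 76) (nat_lit 649260242052) (nat_lit 1) (nat_lit 4) (nat_lit 2) (nat_lit 5) (nat_lit 2) (nat_lit 4) (nat_lit 408) (nat_lit 310) (nat_lit 302))) (XT.nd (nat_lit 78) (nat_lit 0) (nat_lit 0) (XT.lf (nat_lit 0) (nat_lit 6384474949123) (nat_lit 76) (nat_lit 744714196316) (nat_lit 76) (nat_lit 744640509505) (nat_lit 1) (nat_lit 4) (nat_lit 2) (nat_lit 5) (nat_lit 2) (nat_lit 4) (nat_lit 409) (nat_lit 310) (nat_lit 301)) (XT.lf (nat_lit 0) (nat_lit 7345828127526) (nat_lit 76) (nat_lit 854505474924) (nat_lit 76) (nat_lit 854427970879) (nat_lit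 1) (nat_lit 4) (nat_lit 2) (nat_lit 5) (nat_lit 2) (nat_lit 4) (nat_lit 410) (nat_lit 310) (nat_lit 300)))) (XT.nd (nat_lit 156) (nat_lit 0) (nat_lit 0) (XT.nd (nat_lit 78) (nat_lit 0) (nat_lit 0) (XT.lf (nat_lit 0) (nat_lit 8451217624096) (nat_lit 76) (nat_lit 980851465102) (nat_lit 76) (nat_lit 980770641723) (nat_lit 1) (nat_lit 4) (nat_lit 2) (nat_lit 5) (nat_lit 2) (nat_lit 4) (nat_lit 411) (nat_lit 310) (nat_lit 299)) (XT.lf (nat_lit 0) (nat_lit 9722270624638) (nat_lit 76) (nat_lit 1126224153614) (nat_lit 76) (nat_lit 1126140443858) (nat_lit 1) (nat_lit 4) (nat_lit 2) (nat_lit 5) (nat_lit 2) (nat_lit 4) (nat_lit 412) (nat_lit 310) (nat_lit 298))) (XT.nd (nat_lit 78) (nat_lit 0) (nat_lit 0) (XT.lf (nat_lit 0) (nat_lit 11183855557421) (nat_lit 76) (nat_lit 1293467788714) (nat_lit 76) (nat_lit 1293381569064) (nat_lit 1) (nat_lit 4) (nat_lit 2) (nat_lit 5) (nat_lit 2) (nat_lit 4) (nat_lit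 413) (nat_lit 310) (nat_lit 297)) (XT.nd (nat_lit 78) (nat_lit 0) (nat_lit 0) (XT.lf (nat_lit 0) (nat_lit 12864568649392) (nat_lit 76) (nat_lit 1485854528479) (nat_lit 76) (nat_lit 1485766126314) (nat_lit 1) (nat_lit 4) (nat_lit 2) (nat_lit 5) (nat_lit 2) (nat_lit 4) (nat_lit 414) (nat_lit 310) (nat_lit 296)) (XT.lf (nat_lit 0) (nat_lit 14797293417567) (nat_lit 76) (nat_lit 1707148461297) (nat_lit 76) (nat_lit 1707058161291) (nat_lit 1) (nat_lit 4) (nat_lit 2) (nat_lit 5) (nat_lit 2) (nat_lit 4) (nat_lit 415) (nat_lit 310) (nat_lit 295)))))) (XT.nd (nat_lit 390) (nat_lit 0) (nat_lit 0) (XT.nd (nat_lit 156) (nat_lit 0) (nat_lit 0) (XT.nd (nat_lit 78) (nat_lit 0) (nat_lit 0) (XT.lf (nat_lit 0) (nat_lit 17019844042194) (nat_lit 76) (nat_lit 1961679251070) (nat_lit 76) (nat_lit 1961587300768) (nat_lit 1) (nat_lit 4) (nat_lit 2) (nat_lit 5) (nat_lit 2) (nat_lit 4) (nat_lit 416) (nat_lit 310) (nat_lit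 294)) (XT.lf (nat_lit 0) (nat_lit 19575705209406) (nat_lit 76) (nat_lit 2254426848032) (nat_lit 76) (nat_lit 2254333462692) (nat_lit 1) (nat_lit 4) (nat_lit 2) (nat_lit 5) (nat_lit 2) (nat_lit 4) (nat_lit 417) (nat_lit 310) (nat_lit 293))) (XT.nd (nat_lit 78) (nat_lit 0) (nat_lit 0) (XT.lf (nat_lit 0) (nat_lit 22514882898562) (nat_lit 76) (nat_lit 2591118922560) (nat_lit 76) (nat_lit 2591024289359) (nat_lit 1) (nat_lit 4) (nat_lit 2) (nat_lit 5) (nat_lit 2) (nat_lit 4) (nat_lit 418) (nat_lit 310) (nat_lit 292)) (XT.nd (nat_lit 78) (nat_lit 0) (nat_lit 0) (XT.lf (nat_lit 0) (nat_lit 25894882760102) (nat_lit 76) (nat_lit 2978342928286) (nat_lit 76) (nat_lit 2978247209988) (nat_lit 1) (nat_lit 4) (nat_lit 2) (nat_lit 5) (nat_lit 2) (nat_lit 4) (nat_lit 419) (nat_lit 310) (nat_lit 291)) (XT.lf (nat_lit 0) (nat_lit 29781835226100) (nat_lit 76) (nat_lit 3423674987060) (nat_lit 76) (nat_lit 3423578325200)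 (nat_lit 1) (nat_lit 4) (nat_lit 2) (nat_lit 5) (nat_lit 2) (nat_lit 4) (nat_lit 420) (nat_lit 310) (nat_lit 290))))) (XT.nd (nat_lit 51324) (nat_lit 0) (nat_lit 0) (XT.nd (nat_lit 78) (nat_lit 0) (nat_lit 0) (XT.lf (nat_lit 0) (nat_lit 34251789366542) (nat_lit 76) (nat_lit 3935828117424) (nat_lit 76) (nat_lit 3935730635076) (nat_lit 1) (nat_lit 4) (nat_lit 2) (nat_lit 5) (nat_lit 2) (nat_lit 4) (nat_lit 421) (nat_lit 310) (nat_lit 289)) (XT.lf (nat_lit 0) (nat_lit 39392200805916) (nat_lit 76) (nat_lit 4524822706710) (nat_lit 76) (nat_lit 4524724510894) (nat_lit 1) (nat_lit 4) (nat_lit 2) (nat_lit 5) (nat_lit 2) (nat_lit 4) (nat_lit 422) (nat_lit 310) (nat_lit 288))) (XT.nd (nat_lit 78) (nat_lit 0) (nat_lit 0) (XT.lf (nat_lit 0) (nat_lit 669929687070) (nat_lit 76) (nat_lit 88455681891) (nat_lit 76) (nat_lit 88455681891) (nat_lit 1) (nat_lit 4) (nat_lit 2) (nat_lit 5) (nat_lit 2) (nat_lit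 4) (nat_lit 398) (nat_lit 311) (nat_lit 311)) (XT.nd (nat_lit 78) (nat_lit 0) (nat_lit 0) (XT.lf (nat_lit 0) (nat_lit 1548772206788) (nat_lit 76) (nat_lit 199335263083) (nat_lit 76) (nat_lit 199319820242) (nat_lit 1) (nat_lit 4) (nat_lit 2) (nat_lit 5) (nat_lit 2) (nat_lit 4) (nat_lit 399) (nat_lit 311) (nat_lit 310)) (XT.lf (nat_lit 0) (nat_lit 1788347737373) (nat_lit 76) (nat_lit 225470745259) (nat_lit 76) (nat_lit 225441873861) (nat_lit 1) (nat_lit 4) (nat_lit 2) (nat_lit 5) (nat_lit 2) (nat_lit 4) (nat_lit 400) (nat_lit 311) (nat_lit 309))))))))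
noncomputable def xc4 : XT := (XT.nd (nat_lit 1404) (nat_lit 0) (nat_lit 0) (XT.nd (nat_lit 702) (nat_lit 0) (nat_lit 0) (XT.nd (nat_lit 312) (nat_lit 0) (nat_lit 0) (XT.nd (nat_lit 156) (nat_lit 0) (nat_lit 0) (XT.nd (nat_lit 78) (nat_lit 0) (nat_lit 0) (XT.lf (nat_lit 0) (nat_lit 2063273313236) (nat_lit 76) (nat_lit 255829156701) (nat_lit 76) (nat_lit 255788608297) (nat_lit 1) (nat_lit 4) (nat_lit 2) (nat_lit 5) (nat_lit 2) (nat_lit 4) (nat_lit 401) (nat_lit 311) (nat_lit 308)) (XT.lf (nat_lit 0) (nat_lit 2378927913034) (nat_lit 76) (nat_lit 291004466329) (nat_lit 76) (nat_lit 290953764006) (nat_lit 1) (nat_lit 4) (nat_lit 2) (nat_lit 5) (nat_lit 2) (nat_lit 4) (nat_lit 402) (nat_lit 311) (nat_lit 307))) (XT.nd (nat_lit 78) (nat_lit 0) (nat_lit 0) (XT.lf (nat_lit 0) (nat_lit 2741487387632) (nat_lit 76) (nat_lit 331684886721) (nat_lit 76) (nat_lit 331625354904) (nat_lit 1) (nat_lit 4) (nat_lit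 2) (nat_lit 5) (nat_lit 2) (nat_lit 4) (nat_lit 403) (nat_lit 311) (nat_lit 306)) (XT.lf (nat_lit 0) (nat_lit 3158045291969) (nat_lit 76) (nat_lit 378666339147) (nat_lit 76) (nat_lit 378599129509) (nat_lit 1) (nat_lit 4) (nat_lit 2) (nat_lit 5) (nat_lit 2) (nat_lit 4) (nat_lit 404) (nat_lit 311) (nat_lit 305)))) (XT.nd (nat_lit 156) (nat_lit 0) (nat_lit 0) (XT.nd (nat_lit 78) (nat_lit 0) (nat_lit 0) (XT.lf (nat_lit 0) (nat_lit 3636751671998) (nat_lit 76) (nat_lit 432868025936) (nat_lit 76) (nat_lit 432794139932) (nat_lit 1) (nat_lit 4) (nat_lit 2) (nat_lit 5) (nat_lit 2) (nat_lit 4) (nat_lit 405) (nat_lit 311) (nat_lit 304)) (XT.lf (nat_lit 0) (nat_lit 4186972522113) (nat_lit 76) (nat_lit 495350414874) (nat_lit 76) (nat_lit 495270723334) (nat_lit 1) (nat_lit 4) (nat_lit 2) (nat_lit 5) (nat_lit 2) (nat_lit 4) (nat_lit 406) (nat_lit 311) (nat_lit 303))) (XT.nd (nat_lit 78) (nat_lit 0) (nat_lit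 0) (XT.lf (nat_lit 0) (nat_lit 4819473032857) (nat_lit 76) (nat_lit 567335987483) (nat_lit 76) (nat_lit 567251247651) (nat_lit 1) (nat_lit 4) (nat_lit 2) (nat_lit 5) (nat_lit 2) (nat_lit 4) (nat_lit 407) (nat_lit 311) (nat_lit 302)) (XT.nd (nat_lit 78) (nat_lit 0) (nat_lit 0) (XT.lf (nat_lit 0) (nat_lit 5546628214225) (nat_lit 76) (nat_lit 650233157141) (nat_lit 76) (nat_lit 650144027489) (nat_lit 1) (nat_lit 4) (nat_lit 2) (nat_lit 5) (nat_lit 2) (nat_lit 4) (nat_lit 408) (nat_lit 311) (nat_lit 301)) (XT.lf (nat_lit 0) (nat_lit 6382665015417) (nat_lit 76) (nat_lit 745663824992) (nat_lit 76) (nat_lit 745570878107) (nat_lit 1) (nat_lit 4) (nat_lit 2) (nat_lit 5) (nat_lit 2) (nat_lit 4) (nat_lit 409) (nat_lit 311) (nat_lit 300)))))) (XT.nd (nat_lit 312) (nat_lit 0) (nat_lit 0) (XT.nd (nat_lit 156) (nat_lit 0) (nat_lit 0) (XT.nd (nat_lit 78) (nat_lit 0) (nat_lit 0) (XT.lf (nat_lit 0) (nat_lit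 7343940678196) (nat_lit 76) (nat_lit 855495112800) (nat_lit 76) (nat_lit 855398846580) (nat_lit 1) (nat_lit 4) (nat_lit 2) (nat_lit 5) (nat_lit 2) (nat_lit 4) (nat_lit 410) (nat_lit 311) (nat_lit 299)) (XT.lf (nat_lit 0) (nat_lit 8449262769876) (nat_lit 76) (nat_lit 981875893586) (nat_lit 76) (nat_lit 981776740989) (nat_lit 1) (nat_lit 4) (nat_lit 2) (nat_lit 5) (nat_lit 2) (nat_lit 4) (nat_lit 411) (nat_lit 311) (nat_lit 298))) (XT.nd (nat_lit 78) (nat_lit 0) (nat_lit 0) (XT.lf (nat_lit 0) (nat_lit 9720257157468) (nat_lit 76) (nat_lit 1127278834801) (nat_lit 76) (nat_lit 1127177172310) (nat_lit 1) (nat_lit 4) (nat_lit 2) (nat_lit 5) (nat_lit 2) (nat_lit 4) (nat_lit 412) (nat_lit 311) (nat_lit 297)) (XT.lf (nat_lit 0) (nat_lit 11181791122470) (nat_lit 76) (nat_lit 1294548776598) (nat_lit 76) (nat_lit 1294444931592) (nat_lit 1) (nat_lit 4) (nat_lit 2) (nat_lit 5) (nat_lit 2) (nat_lit 4) (nat_lit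 413) (nat_lit 311) (nat_lit 296)))) (XT.nd (nat_lit 156) (nat_lit 0) (nat_lit 0) (XT.nd (nat_lit 78) (nat_lit 0) (nat_lit 0) (XT.lf (nat_lit 0) (nat_lit 12862459894631) (nat_lit 76) (nat_lit 1486958391753) (nat_lit 76) (nat_lit 1486852648907) (nat_lit 1) (nat_lit 4) (nat_lit 2) (nat_lit 5) (nat_lit 2) (nat_lit 4) (nat_lit 414) (nat_lit 311) (nat_lit 295)) (XT.lf (nat_lit 0) (nat_lit 14795146123842) (nat_lit 76) (nat_lit 1708272216214) (nat_lit 76) (nat_lit 1708164823072) (nat_lit 1) (nat_lit 4) (nat_lit 2) (nat_lit 5) (nat_lit 2) (nat_lit 4) (nat_lit 415) (nat_lit 311) (nat_lit 294))) (XT.nd (nat_lit 78) (nat_lit 0) (nat_lit 0) (XT.lf (nat_lit 0) (nat_lit 17017663236325) (nat_lit 76) (nat_lit 1962820303068) (nat_lit 76) (nat_lit 1962711474886) (nat_lit 1) (nat_lit 4) (nat_lit 2) (nat_lit 5) (nat_lit 2) (nat_lit 4) (nat_lit 416) (nat_lit 311) (nat_lit 293)) (XT.nd (nat_lit 78) (nat_lit 0)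 (nat_lit 0) (XT.lf (nat_lit 0) (nat_lit 19573495262543) (nat_lit 76) (nat_lit 2255582940970) (nat_lit 76) (nat_lit 2255472864928) (nat_lit 1) (nat_lit 4) (nat_lit 2) (nat_lit 5) (nat_lit 2) (nat_lit 4) (nat_lit 417) (nat_lit 311) (nat_lit 292)) (XT.lf (nat_lit 0) (nat_lit 22512647611704) (nat_lit 76) (nat_lit 2592288094577) (nat_lit 76) (nat_lit 2592176933438) (nat_lit 1) (nat_lit 4) (nat_lit 2) (nat_lit 5) (nat_lit 2) (nat_lit 4) (nat_lit 418) (nat_lit 311) (nat_lit 291))))))) (XT.nd (nat_lit 51714) (nat_lit 0) (nat_lit 0) (XT.nd (nat_lit 51324) (nat_lit 0) (nat_lit 0) (XT.nd (nat_lit 156) (nat_lit 0) (nat_lit 0) (XT.nd (nat_lit 78) (nat_lit 0) (nat_lit 0) (XT.lf (nat_lit 0) (nat_lit 25892625438466) (nat_lit 76) (nat_lit 2979523473414) (nat_lit 76) (nat_lit 2979411368713) (nat_lit 1) (nat_lit 4) (nat_lit 2) (nat_lit 5) (nat_lit 2) (nat_lit 4) (nat_lit 419) (nat_lit 311) (nat_lit 290)) (XT.lf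 (nat_lit 0) (nat_lit 29779558743786) (nat_lit 76) (nat_lit 3424865421850) (nat_lit 76) (nat_lit 3424752496661) (nat_lit 1) (nat_lit 4) (nat_lit 2) (nat_lit 5) (nat_lit 2) (nat_lit 4) (nat_lit 420) (nat_lit 311) (nat_lit 289))) (XT.nd (nat_lit 78) (nat_lit 0) (nat_lit 0) (XT.lf (nat_lit 0) (nat_lit 34249496222770) (nat_lit 76) (nat_lit 3937027151920) (nat_lit 76) (nat_lit 3936913513262) (nat_lit 1) (nat_lit 4) (nat_lit 2) (nat_lit 5) (nat_lit 2) (nat_lit 4) (nat_lit 421) (nat_lit 311) (nat_lit 288)) (XT.lf (nat_lit 0) (nat_lit 39389893173920) (nat_lit 76) (nat_lit 4526029219212) (nat_lit 76) (nat_lit 4525914960147) (nat_lit 1) (nat_lit 4) (nat_lit 2) (nat_lit 5) (nat_lit 2) (nat_lit 4) (nat_lit 422) (nat_lit 311) (nat_lit 287)))) (XT.nd (nat_lit 156) (nat_lit 0) (nat_lit 0) (XT.nd (nat_lit 78) (nat_lit 0) (nat_lit 0) (XT.lf (nat_lit 0) (nat_lit 499303390845) (nat_lit 76) (nat_lit 70655567050)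 (nat_lit 76) (nat_lit 70655567050) (nat_lit 1) (nat_lit 4) (nat_lit 2) (nat_lit 5) (nat_lit 2) (nat_lit 4) (nat_lit 396) (nat_lit 312) (nat_lit 312)) (XT.lf (nat_lit 0) (nat_lit 1157521814447) (nat_lit 76) (nat_lit 157778078158) (nat_lit 76) (nat_lit 157760318891) (nat_lit 1) (nat_lit 4) (nat_lit 2) (nat_lit 5) (nat_lit 2) (nat_lit 4) (nat_lit 397) (nat_lit 312) (nat_lit 311))) (XT.nd (nat_lit 78) (nat_lit 0) (nat_lit 0) (XT.lf (nat_lit 0) (nat_lit 1339498741117) (nat_lit 76) (nat_lit 177115261503) (nat_lit 76) (nat_lit 177082059395) (nat_lit 1) (nat_lit 4) (nat_lit 2) (nat_lit 5) (nat_lit 2) (nat_lit 4) (nat_lit 398) (nat_lit 312) (nat_lit 310)) (XT.nd (nat_lit 78) (nat_lit 0) (nat_lit 0) (XT.lf (nat_lit 0) (nat_lit 1548097979830) (nat_lit 76) (nat_lit 199701020330) (nat_lit 76) (nat_lit 199654389665) (nat_lit 1) (nat_lit 4) (nat_lit 2) (nat_lit 5) (nat_lit 2) (nat_lit 4) (nat_lit 399) (nat_lit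 312) (nat_lit 309)) (XT.lf (nat_lit 0) (nat_lit 1787400820039) (nat_lit 76) (nat_lit 225977249920) (nat_lit 76) (nat_lit 225918942249) (nat_lit 1) (nat_lit 4) (nat_lit 2) (nat_lit 5) (nat_lit 2) (nat_lit 4) (nat_lit 400) (nat_lit 312) (nat_lit 308)))))) (XT.nd (nat_lit 390) (nat_lit 0) (nat_lit 0) (XT.nd (nat_lit 156) (nat_lit 0) (nat_lit 0) (XT.nd (nat_lit 78) (nat_lit 0) (nat_lit 0) (XT.lf (nat_lit 0) (nat_lit 2062089273834) (nat_lit 76) (nat_lit 256458050417) (nat_lit 76) (nat_lit 256389588828) (nat_lit 1) (nat_lit 4) (nat_lit 2) (nat_lit 5) (nat_lit 2) (nat_lit 4) (nat_lit 401) (nat_lit 312) (nat_lit 307)) (XT.lf (nat_lit 0) (nat_lit 2377537680530) (nat_lit 76) (nat_lit 291739785310) (nat_lit 76) (nat_lit 291662494226) (nat_lit 1) (nat_lit 4) (nat_lit 2) (nat_lit 5) (nat_lit 2) (nat_lit 4) (nat_lit 402) (nat_lit 312) (nat_lit 306))) (XT.nd (nat_lit 78) (nat_lit 0) (nat_lit 0) (XT.lf (nat_lit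 0) (nat_lit 2739917856779) (nat_lit 76) (nat_lit 332512749412) (nat_lit 76) (nat_lit 332427780506) (nat_lit 1) (nat_lit 4) (nat_lit 2) (nat_lit 5) (nat_lit 2) (nat_lit 4) (nat_lit 403) (nat_lit 312) (nat_lit 305)) (XT.nd (nat_lit 78) (nat_lit 0) (nat_lit 0) (XT.lf (nat_lit 0) (nat_lit 3156319849507) (nat_lit 76) (nat_lit 379574674628) (nat_lit 76) (nat_lit 379483029357) (nat_lit 1) (nat_lit 4) (nat_lit 2) (nat_lit 5) (nat_lit 2) (nat_lit 4) (nat_lit 404) (nat_lit 312) (nat_lit 304)) (XT.lf (nat_lit 0) (nat_lit 3634890654225) (nat_lit 76) (nat_lit 433846337757) (nat_lit 76) (nat_lit 433748886950) (nat_lit 1) (nat_lit 4) (nat_lit 2) (nat_lit 5) (nat_lit 2) (nat_lit 4) (nat_lit 405) (nat_lit 312) (nat_lit 303))))) (XT.nd (nat_lit 156) (nat_lit 0) (nat_lit 0) (XT.nd (nat_lit 78) (nat_lit 0) (nat_lit 0) (XT.lf (nat_lit 0) (nat_lit 4184993612764) (nat_lit 76) (nat_lit 496389575686) (nat_lit 76)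 (nat_lit 496287076587) (nat_lit 1) (nat_lit 4) (nat_lit 2) (nat_lit 5) (nat_lit 2) (nat_lit 4) (nat_lit 406) (nat_lit 312) (nat_lit 302)) (XT.lf (nat_lit 0) (nat_lit 4817391609096) (nat_lit 76) (nat_lit 568428060461) (nat_lit 76) (nat_lit 568321171543) (nat_lit 1) (nat_lit 4) (nat_lit 2) (nat_lit 5) (nat_lit 2) (nat_lit 4) (nat_lit 407) (nat_lit 312) (nat_lit 301))) (XT.nd (nat_lit 78) (nat_lit 0) (nat_lit 0) (XT.lf (nat_lit 0) (nat_lit 5544457647496) (nat_lit 76) (nat_lit 651371240698) (nat_lit 76) (nat_lit 651260534545) (nat_lit 1) (nat_lit 4) (nat_lit 2) (nat_lit 5) (nat_lit 2) (nat_lit 4) (nat_lit 408) (nat_lit 312) (nat_lit 300)) (XT.nd (nat_lit 78) (nat_lit 0) (nat_lit 0) (XT.lf (nat_lit 0) (nat_lit 6380416933063) (nat_lit 76) (nat_lit 746841917749) (nat_lit 76) (nat_lit 746727892262) (nat_lit 1) (nat_lit 4) (nat_lit 2) (nat_lit 5) (nat_lit 2) (nat_lit 4) (nat_lit 409) (nat_lit 312)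 (nat_lit 299)) (XT.lf (nat_lit 0) (nat_lit 7341625190951) (nat_lit 76) (nat_lit 856707996164) (nat_lit 76) (nat_lit 856591084300) (nat_lit 1) (nat_lit 4) (nat_lit 2) (nat_lit 5) (nat_lit 2) (nat_lit 4) (nat_lit 410) (nat_lit 312) (nat_lit 298))))))))
noncomputable def xc5 : XT := (XT.nd (nat_lit 52260) (nat_lit 0) (nat_lit 0) (XT.nd (nat_lit 702) (nat_lit 0) (nat_lit 0) (XT.nd (nat_lit 312) (nat_lit 0) (nat_lit 0) (XT.nd (nat_lit 156) (nat_lit 0) (nat_lit 0) (XT.nd (nat_lit 78) (nat_lit 0) (nat_lit 0) (XT.lf (nat_lit 0) (nat_lit 8446888669682) (nat_lit 76) (nat_lit 983119029653) (nat_lit 76) (nat_lit 982999607896) (nat_lit 1) (nat_lit 4) (nat_lit 2) (nat_lit 5) (nat_lit 2) (nat_lit 4) (nat_lit 411) (nat_lit 312) (nat_lit 297)) (XT.lf (nat_lit 0) (nat_lit 9717832089494) (nat_lit 76) (nat_lit 1128548277566) (nat_lit 76) (nat_lit 1128426673293) (nat_lit 1) (nat_lit 4) (nat_lit 2) (nat_lit 5)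 (nat_lit 2) (nat_lit 4) (nat_lit 412) (nat_lit 312) (nat_lit 296))) (XT.nd (nat_lit 78) (nat_lit 0) (nat_lit 0) (XT.lf (nat_lit 0) (nat_lit 11179321734686) (nat_lit 76) (nat_lit 1295841094753) (nat_lit 76) (nat_lit 1295717592640) (nat_lit 1) (nat_lit 4) (nat_lit 2) (nat_lit 5) (nat_lit 2) (nat_lit 4) (nat_lit 413) (nat_lit 312) (nat_lit 295)) (XT.lf (nat_lit 0) (nat_lit 12859951967882) (nat_lit 76) (nat_lit 1488270601551) (nat_lit 76) (nat_lit 1488145449142) (nat_lit 1) (nat_lit 4) (nat_lit 2) (nat_lit 5) (nat_lit 2) (nat_lit 4) (nat_lit 414) (nat_lit 312) (nat_lit 294)))) (XT.nd (nat_lit 156) (nat_lit 0) (nat_lit 0) (XT.nd (nat_lit 78) (nat_lit 0) (nat_lit 0) (XT.lf (nat_lit 0) (nat_lit 14792604684949) (nat_lit 76) (nat_lit 1709601723092) (nat_lit 76) (nat_lit 1709475135644) (nat_lit 1) (nat_lit 4) (nat_lit 2) (nat_lit 5) (nat_lit 2) (nat_lit 4) (nat_lit 415) (nat_lit 312) (nat_lit 293))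 (XT.lf (nat_lit 0) (nat_lit 17015092656438) (nat_lit 76) (nat_lit 1964164850886) (nat_lit 76) (nat_lit 1964037015577) (nat_lit 1) (nat_lit 4) (nat_lit 2) (nat_lit 5) (nat_lit 2) (nat_lit 4) (nat_lit 416) (nat_lit 312) (nat_lit 292))) (XT.nd (nat_lit 78) (nat_lit 0) (nat_lit 0) (XT.lf (nat_lit 0) (nat_lit 19570899342660) (nat_lit 76) (nat_lit 2256940567867) (nat_lit 76) (nat_lit 2256811647462) (nat_lit 1) (nat_lit 4) (nat_lit 2) (nat_lit 5) (nat_lit 2) (nat_lit 4) (nat_lit 417) (nat_lit 312) (nat_lit 291)) (XT.nd (nat_lit 78) (nat_lit 0) (nat_lit 0) (XT.lf (nat_lit 0) (nat_lit 22510029657043) (nat_lit 76) (nat_lit 2593657094585) (nat_lit 76) (nat_lit 2593527230618) (nat_lit 1) (nat_lit 4) (nat_lit 2) (nat_lit 5) (nat_lit 2) (nat_lit 4) (nat_lit 418) (nat_lit 312) (nat_lit 290)) (XT.lf (nat_lit 0) (nat_lit 25889988323128) (nat_lit 76) (nat_lit 2980902363084) (nat_lit 76) (nat_lit 2980771678628)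 (nat_lit 1) (nat_lit 4) (nat_lit 2) (nat_lit 5) (nat_lit 2) (nat_lit 4) (nat_lit 419) (nat_lit 312) (nat_lit 289)))))) (XT.nd (nat_lit 51168) (nat_lit 0) (nat_lit 0) (XT.nd (nat_lit 156) (nat_lit 0) (nat_lit 0) (XT.nd (nat_lit 78) (nat_lit 0) (nat_lit 0) (XT.lf (nat_lit 0) (nat_lit 29776904966991) (nat_lit 76) (nat_lit 3426252911226) (nat_lit 76) (nat_lit 3426121513302) (nat_lit 1) (nat_lit 4) (nat_lit 2) (nat_lit 5) (nat_lit 2) (nat_lit 4) (nat_lit 420) (nat_lit 312) (nat_lit 288)) (XT.lf (nat_lit 0) (nat_lit 34246827957750) (nat_lit 76) (nat_lit 3938422119302) (nat_lit 76) (nat_lit 3938290100970) (nat_lit 1) (nat_lit 4) (nat_lit 2) (nat_lit 5) (nat_lit 2) (nat_lit 4) (nat_lit 421) (nat_lit 312) (nat_lit 287))) (XT.nd (nat_lit 50934) (nat_lit 0) (nat_lit 0) (XT.lf (nat_lit 0) (nat_lit 39387212310443) (nat_lit 76) (nat_lit 4527430689207) (nat_lit 76) (nat_lit 4527298131391) (nat_lit 1) (nat_lit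 4) (nat_lit 2) (nat_lit 5) (nat_lit 2) (nat_lit 4) (nat_lit 422) (nat_lit 312) (nat_lit 286)) (XT.lf (nat_lit 0) (nat_lit 369196442544) (nat_lit 76) (nat_lit 57761677438) (nat_lit 76) (nat_lit 57761677438) (nat_lit 1) (nat_lit 4) (nat_lit 2) (nat_lit 5) (nat_lit 2) (nat_lit 4) (nat_lit 394) (nat_lit 313) (nat_lit 313)))) (XT.nd (nat_lit 156) (nat_lit 0) (nat_lit 0) (XT.nd (nat_lit 78) (nat_lit 0) (nat_lit 0) (XT.lf (nat_lit 0) (nat_lit 859644435682) (nat_lit 76) (nat_lit 127412673144) (nat_lit 76) (nat_lit 127392249987) (nat_lit 1) (nat_lit 4) (nat_lit 2) (nat_lit 5) (nat_lit 2) (nat_lit 4) (nat_lit 395) (nat_lit 313) (nat_lit 312)) (XT.lf (nat_lit 0) (nat_lit 998192053712) (nat_lit 76) (nat_lit 141545616479) (nat_lit 76) (nat_lit 141507434055) (nat_lit 1) (nat_lit 4) (nat_lit 2) (nat_lit 5) (nat_lit 2) (nat_lit 4) (nat_lit 396) (nat_lit 313) (nat_lit 311))) (XT.nd (nat_lit 78) (nat_lit 0)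 (nat_lit 0) (XT.lf (nat_lit 0) (nat_lit 1156746453446) (nat_lit 76) (nat_lit 158198698993) (nat_lit 76) (nat_lit 158145073728) (nat_lit 1) (nat_lit 4) (nat_lit 2) (nat_lit 5) (nat_lit 2) (nat_lit 4) (nat_lit 397) (nat_lit 313) (nat_lit 310)) (XT.nd (nat_lit 78) (nat_lit 0) (nat_lit 0) (XT.lf (nat_lit 0) (nat_lit 1338409786182) (nat_lit 76) (nat_lit 177697741863) (nat_lit 76) (nat_lit 177630688041) (nat_lit 1) (nat_lit 4) (nat_lit 2) (nat_lit 5) (nat_lit 2) (nat_lit 4) (nat_lit 398) (nat_lit 313) (nat_lit 309)) (XT.lf (nat_lit 0) (nat_lit 1546736334518) (nat_lit 76) (nat_lit 200424248103) (nat_lit 76) (nat_lit 200345517275) (nat_lit 1) (nat_lit 4) (nat_lit 2) (nat_lit 5) (nat_lit 2) (nat_lit 4) (nat_lit 399) (nat_lit 313) (nat_lit 308))))))) (XT.nd (nat_lit 702) (nat_lit 0) (nat_lit 0) (XT.nd (nat_lit 312) (nat_lit 0) (nat_lit 0) (XT.nd (nat_lit 156) (nat_lit 0) (nat_lit 0) (XT.nd (nat_lit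 78) (nat_lit 0) (nat_lit 0) (XT.lf (nat_lit 0) (nat_lit 1785802052659) (nat_lit 76) (nat_lit 226822866749) (nat_lit 76) (nat_lit 226733982002) (nat_lit 1) (nat_lit 4) (nat_lit 2) (nat_lit 5) (nat_lit 2) (nat_lit 4) (nat_lit 400) (nat_lit 313) (nat_lit 307)) (XT.lf (nat_lit 0) (nat_lit 2060284313353) (nat_lit 76) (nat_lit 257410092512) (nat_lit 76) (nat_lit 257312378271) (nat_lit 1) (nat_lit 4) (nat_lit 2) (nat_lit 5) (nat_lit 2) (nat_lit 4) (nat_lit 401) (nat_lit 313) (nat_lit 306))) (XT.nd (nat_lit 78) (nat_lit 0) (nat_lit 0) (XT.lf (nat_lit 0) (nat_lit 2375553421699) (nat_lit 76) (nat_lit 292784371114) (nat_lit 76) (nat_lit 292678979051) (nat_lit 1) (nat_lit 4) (nat_lit 2) (nat_lit 5) (nat_lit 2) (nat_lit 4) (nat_lit 402) (nat_lit 313) (nat_lit 305)) (XT.lf (nat_lit 0) (nat_lit 2737777686340) (nat_lit 76) (nat_lit 333637808006) (nat_lit 76) (nat_lit 333525739577) (nat_lit 1) (nat_lit 4)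 (nat_lit 2) (nat_lit 5) (nat_lit 2) (nat_lit 4) (nat_lit 403) (nat_lit 313) (nat_lit 304)))) (XT.nd (nat_lit 156) (nat_lit 0) (nat_lit 0) (XT.nd (nat_lit 78) (nat_lit 0) (nat_lit 0) (XT.lf (nat_lit 0) (nat_lit 3154044103757) (nat_lit 76) (nat_lit 380769709562) (nat_lit 76) (nat_lit 380651835597) (nat_lit 1) (nat_lit 4) (nat_lit 2) (nat_lit 5) (nat_lit 2) (nat_lit 4) (nat_lit 404) (nat_lit 313) (nat_lit 303)) (XT.lf (nat_lit 0) (nat_lit 3632497016900) (nat_lit 76) (nat_lit 435102221682) (nat_lit 76) (nat_lit 434979299425) (nat_lit 1) (nat_lit 4) (nat_lit 2) (nat_lit 5) (nat_lit 2) (nat_lit 4) (nat_lit 405) (nat_lit 313) (nat_lit 302))) (XT.nd (nat_lit 78) (nat_lit 0) (nat_lit 0) (XT.lf (nat_lit 0) (nat_lit 4182497461025) (nat_lit 76) (nat_lit 497698371776) (nat_lit 76) (nat_lit 497571059701) (nat_lit 1) (nat_lit 4) (nat_lit 2) (nat_lit 5) (nat_lit 2) (nat_lit 4) (nat_lit 406) (nat_lit 313)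 (nat_lit 301)) (XT.nd (nat_lit 78) (nat_lit 0) (nat_lit 0) (XT.lf (nat_lit 0) (nat_lit 4814806314389) (nat_lit 76) (nat_lit 569782867131) (nat_lit 76) (nat_lit 569651737821) (nat_lit 1) (nat_lit 4) (nat_lit 2) (nat_lit 5) (nat_lit 2) (nat_lit 4) (nat_lit 407) (nat_lit 313) (nat_lit 300)) (XT.lf (nat_lit 0) (nat_lit 5541794837164) (nat_lit 76) (nat_lit 652766056567) (nat_lit 76) (nat_lit 652631607923) (nat_lit 1) (nat_lit 4) (nat_lit 2) (nat_lit 5) (nat_lit 2) (nat_lit 4) (nat_lit 408) (nat_lit 313) (nat_lit 299)))))) (XT.nd (nat_lit 390) (nat_lit 0) (nat_lit 0) (XT.nd (nat_lit 156) (nat_lit 0) (nat_lit 0) (XT.nd (nat_lit 78) (nat_lit 0) (nat_lit 0) (XT.lf (nat_lit 0) (nat_lit 6377686717841) (nat_lit 76) (nat_lit 748271524226) (nat_lit 76) (nat_lit 748134189205) (nat_lit 1) (nat_lit 4) (nat_lit 2) (nat_lit 5) (nat_lit 2) (nat_lit 4) (nat_lit 409) (nat_lit 313) (nat_lit 298)) (XT.lf (nat_lit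 0) (nat_lit 7338836362780) (nat_lit 76) (nat_lit 858167855344) (nat_lit 76) (nat_lit 858028010430) (nat_lit 1) (nat_lit 4) (nat_lit 2) (nat_lit 5) (nat_lit 2) (nat_lit 4) (nat_lit 410) (nat_lit 313) (nat_lit 297))) (XT.nd (nat_lit 78) (nat_lit 0) (nat_lit 0) (XT.lf (nat_lit 0) (nat_lit 8444048873731) (nat_lit 76) (nat_lit 984605195531) (nat_lit 76) (nat_lit 984463168101) (nat_lit 1) (nat_lit 4) (nat_lit 2) (nat_lit 5) (nat_lit 2) (nat_lit 4) (nat_lit 411) (nat_lit 313) (nat_lit 296)) (XT.nd (nat_lit 78) (nat_lit 0) (nat_lit 0) (XT.lf (nat_lit 0) (nat_lit 9714947973732) (nat_lit 76) (nat_lit 1130057318833) (nat_lit 76) (nat_lit 1129913393563) (nat_lit 1) (nat_lit 4) (nat_lit 2) (nat_lit 5) (nat_lit 2) (nat_lit 4) (nat_lit 412) (nat_lit 313) (nat_lit 295)) (XT.lf (nat_lit 0) (nat_lit 11176399079959) (nat_lit 76) (nat_lit 1297370027663) (nat_lit 76) (nat_lit 1297224452098) (nat_lit 1) (nat_lit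 4) (nat_lit 2) (nat_lit 5) (nat_lit 2) (nat_lit 4) (nat_lit 413) (nat_lit 313) (nat_lit 294))))) (XT.nd (nat_lit 156) (nat_lit 0) (nat_lit 0) (XT.nd (nat_lit 78) (nat_lit 0) (nat_lit 0) (XT.lf (nat_lit 0) (nat_lit 12856995801012) (nat_lit 76) (nat_lit 1489816831542) (nat_lit 76) (nat_lit 1489669820937) (nat_lit 1) (nat_lit 4) (nat_lit 2) (nat_lit 5) (nat_lit 2) (nat_lit 4) (nat_lit 414) (nat_lit 313) (nat_lit 293)) (XT.lf (nat_lit 0) (nat_lit 14789619377084) (nat_lit 76) (nat_lit 1711162994024) (nat_lit 76) (nat_lit 1711014735558) (nat_lit 1) (nat_lit 4) (nat_lit 2) (nat_lit 5) (nat_lit 2) (nat_lit 4) (nat_lit 415) (nat_lit 313) (nat_lit 292))) (XT.nd (nat_lit 78) (nat_lit 0) (nat_lit 0) (XT.lf (nat_lit 0) (nat_lit 17012082008578) (nat_lit 76) (nat_lit 1965739200896) (nat_lit 76) (nat_lit 1965589857333) (nat_lit 1) (nat_lit 4) (nat_lit 2) (nat_lit 5) (nat_lit 2) (nat_lit 4) (nat_lit 416)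 (nat_lit 313) (nat_lit 291)) (XT.nd (nat_lit 78) (nat_lit 0) (nat_lit 0) (XT.lf (nat_lit 0) (nat_lit 19567866660022) (nat_lit 76) (nat_lit 2258526290988) (nat_lit 76) (nat_lit 2258376003864) (nat_lit 1) (nat_lit 4) (nat_lit 2) (nat_lit 5) (nat_lit 2) (nat_lit 4) (nat_lit 417) (nat_lit 313) (nat_lit 290)) (XT.lf (nat_lit 0) (nat_lit 22506977813728) (nat_lit 76) (nat_lit 2595252707368) (nat_lit 76) (nat_lit 2595101599755) (nat_lit 1) (nat_lit 4) (nat_lit 2) (nat_lit 5) (nat_lit 2) (nat_lit 4) (nat_lit 418) (nat_lit 313) (nat_lit 289))))))))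
noncomputable def xc6 : XT := (XT.nd (nat_lit 52104) (nat_lit 0) (nat_lit 0) (XT.nd (nat_lit 51402) (nat_lit 0) (nat_lit 0) (XT.nd (nat_lit 51012) (nat_lit 0) (nat_lit 0) (XT.nd (nat_lit 156) (nat_lit 0) (nat_lit 0) (XT.nd (nat_lit 78) (nat_lit 0) (nat_lit 0) (XT.lf (nat_lit 0) (nat_lit 25886919818355) (nat_lit 76) (nat_lit 2982506575573) (nat_lit 76) (nat_lit 2982354754492) (nat_lit 1) (nat_lit 4) (nat_lit 2) (nat_lit 5) (nat_lit 2) (nat_lit 4) (nat_lit 419) (nat_lit 313) (nat_lit 288)) (XT.lf (nat_lit 0) (nat_lit 29773821973993) (nat_lit 76) (nat_lit 3427864601721) (nat_lit 76) (nat_lit 3427712160233) (nat_lit 1) (nat_lit 4) (nat_lit 2) (nat_lit 5) (nat_lit 2) (nat_lit 4) (nat_lit 420) (nat_lit 313) (nat_lit 287))) (XT.nd (nat_lit 78) (nat_lit 0) (nat_lit 0) (XT.lf (nat_lit 0) (nat_lit 34243732366297) (nat_lit 76) (nat_lit 3940040312410) (nat_lit 76) (nat_lit 3939887331437) (nat_lit 1)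 (nat_lit 4) (nat_lit 2) (nat_lit 5) (nat_lit 2) (nat_lit 4) (nat_lit 421) (nat_lit 313) (nat_lit 286)) (XT.lf (nat_lit 0) (nat_lit 39384105763811) (nat_lit 76) (nat_lit 4529054536762) (nat_lit 76) (nat_lit 4528901086672) (nat_lit 1) (nat_lit 4) (nat_lit 2) (nat_lit 5) (nat_lit 2) (nat_lit 4) (nat_lit 422) (nat_lit 313) (nat_lit 285)))) (XT.nd (nat_lit 156) (nat_lit 0) (nat_lit 0) (XT.nd (nat_lit 78) (nat_lit 0) (nat_lit 0) (XT.lf (nat_lit 0) (nat_lit 269564599340) (nat_lit 76) (nat_lit 48662432140) (nat_lit 76) (nat_lit 48662432140) (nat_lit 1) (nat_lit 4) (nat_lit 2) (nat_lit 5) (nat_lit 2) (nat_lit 4) (nat_lit 392) (nat_lit 314) (nat_lit 314)) (XT.lf (nat_lit 0) (nat_lit 632065088987) (nat_lit 76) (nat_lit 105668531213) (nat_lit 76) (nat_lit 105645044582) (nat_lit 1) (nat_lit 4) (nat_lit 2) (nat_lit 5) (nat_lit 2) (nat_lit 4) (nat_lit 393) (nat_lit 314) (nat_lit 313))) (XT.nd (nat_lit 78)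 (nat_lit 0) (nat_lit 0) (XT.lf (nat_lit 0) (nat_lit 737915947915) (nat_lit 76) (nat_lit 115793009613) (nat_lit 76) (nat_lit 115749099826) (nat_lit 1) (nat_lit 4) (nat_lit 2) (nat_lit 5) (nat_lit 2) (nat_lit 4) (nat_lit 394) (nat_lit 314) (nat_lit 312)) (XT.nd (nat_lit 78) (nat_lit 0) (nat_lit 0) (XT.lf (nat_lit 0) (nat_lit 858752770530) (nat_lit 76) (nat_lit 127896387103) (nat_lit 76) (nat_lit 127834718049) (nat_lit 1) (nat_lit 4) (nat_lit 2) (nat_lit 5) (nat_lit 2) (nat_lit 4) (nat_lit 395) (nat_lit 314) (nat_lit 311)) (XT.lf (nat_lit 0) (nat_lit 996939755537) (nat_lit 76) (nat_lit 142215468893) (nat_lit 76) (nat_lit 142138356998) (nat_lit 1) (nat_lit 4) (nat_lit 2) (nat_lit 5) (nat_lit 2) (nat_lit 4) (nat_lit 396) (nat_lit 314) (nat_lit 310)))))) (XT.nd (nat_lit 312) (nat_lit 0) (nat_lit 0) (XT.nd (nat_lit 156) (nat_lit 0) (nat_lit 0) (XT.nd (nat_lit 78) (nat_lit 0) (nat_lit 0) (XT.lf (nat_lit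 0) (nat_lit 1155180561337) (nat_lit 76) (nat_lit 159030410932) (nat_lit 76) (nat_lit 158939870480) (nat_lit 1) (nat_lit 4) (nat_lit 2) (nat_lit 5) (nat_lit 2) (nat_lit 4) (nat_lit 397) (nat_lit 314) (nat_lit 309)) (XT.lf (nat_lit 0) (nat_lit 1336571203696) (nat_lit 76) (nat_lit 178670201216) (nat_lit 76) (nat_lit 178567983757) (nat_lit 1) (nat_lit 4) (nat_lit 2) (nat_lit 5) (nat_lit 2) (nat_lit 4) (nat_lit 398) (nat_lit 314) (nat_lit 308))) (XT.nd (nat_lit 78) (nat_lit 0) (nat_lit 0) (XT.lf (nat_lit 0) (nat_lit 1544660629964) (nat_lit 76) (nat_lit 201519096512) (nat_lit 76) (nat_lit 201406725135) (nat_lit 1) (nat_lit 4) (nat_lit 2) (nat_lit 5) (nat_lit 2) (nat_lit 4) (nat_lit 399) (nat_lit 314) (nat_lit 307)) (XT.lf (nat_lit 0) (nat_lit 1783520155004) (nat_lit 76) (nat_lit 228024140423) (nat_lit 76) (nat_lit 227902939551) (nat_lit 1) (nat_lit 4) (nat_lit 2) (nat_lit 5) (nat_lit 2) (nat_lit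 4) (nat_lit 400) (nat_lit 314) (nat_lit 306)))) (XT.nd (nat_lit 156) (nat_lit 0) (nat_lit 0) (XT.nd (nat_lit 78) (nat_lit 0) (nat_lit 0) (XT.lf (nat_lit 0) (nat_lit 2057823117348) (nat_lit 76) (nat_lit 258703909895) (nat_lit 76) (nat_lit 258575031202) (nat_lit 1) (nat_lit 4) (nat_lit 2) (nat_lit 5) (nat_lit 2) (nat_lit 4) (nat_lit 401) (nat_lit 314) (nat_lit 305)) (XT.lf (nat_lit 0) (nat_lit 2372936314086) (nat_lit 76) (nat_lit 294158661287) (nat_lit 76) (nat_lit 294023106228) (nat_lit 1) (nat_lit 4) (nat_lit 2) (nat_lit 5) (nat_lit 2) (nat_lit 4) (nat_lit 402) (nat_lit 314) (nat_lit 304))) (XT.nd (nat_lit 78) (nat_lit 0) (nat_lit 0) (XT.lf (nat_lit 0) (nat_lit 2735025003415) (nat_lit 76) (nat_lit 335082074519) (nat_lit 76) (nat_lit 334940713924) (nat_lit 1) (nat_lit 4) (nat_lit 2) (nat_lit 5) (nat_lit 2) (nat_lit 4) (nat_lit 403) (nat_lit 314) (nat_lit 303)) (XT.nd (nat_lit 78) (nat_lit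 0) (nat_lit 0) (XT.lf (nat_lit 0) (nat_lit 3151173529257) (nat_lit 76) (nat_lit 382274825066) (nat_lit 76) (nat_lit 382128416179) (nat_lit 1) (nat_lit 4) (nat_lit 2) (nat_lit 5) (nat_lit 2) (nat_lit 4) (nat_lit 404) (nat_lit 314) (nat_lit 302)) (XT.lf (nat_lit 0) (nat_lit 3629523927986) (nat_lit 76) (nat_lit 436660249352) (nat_lit 76) (nat_lit 436509450646) (nat_lit 1) (nat_lit 4) (nat_lit 2) (nat_lit 5) (nat_lit 2) (nat_lit 4) (nat_lit 405) (nat_lit 314) (nat_lit 301))))))) (XT.nd (nat_lit 702) (nat_lit 0) (nat_lit 0) (XT.nd (nat_lit 312) (nat_lit 0) (nat_lit 0) (XT.nd (nat_lit 156) (nat_lit 0) (nat_lit 0) (XT.nd (nat_lit 78) (nat_lit 0) (nat_lit 0) (XT.lf (nat_lit 0) (nat_lit 4179435229144) (nat_lit 76) (nat_lit 499302410026) (nat_lit 76) (nat_lit 499147794086) (nat_lit 1) (nat_lit 4) (nat_lit 2) (nat_lit 5) (nat_lit 2) (nat_lit 4) (nat_lit 406) (nat_lit 314) (nat_lit 300)) (XT.lf (nat_lit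 0) (nat_lit 4811666566883) (nat_lit 76) (nat_lit 571426914580) (nat_lit 76) (nat_lit 571268979306) (nat_lit 1) (nat_lit 4) (nat_lit 2) (nat_lit 5) (nat_lit 2) (nat_lit 4) (nat_lit 407) (nat_lit 314) (nat_lit 299))) (XT.nd (nat_lit 78) (nat_lit 0) (nat_lit 0) (XT.lf (nat_lit 0) (nat_lit 5538587684768) (nat_lit 76) (nat_lit 654444894624) (nat_lit 76) (nat_lit 654284072972) (nat_lit 1) (nat_lit 4) (nat_lit 2) (nat_lit 5) (nat_lit 2) (nat_lit 4) (nat_lit 408) (nat_lit 314) (nat_lit 298)) (XT.lf (nat_lit 0) (nat_lit 6374420952497) (nat_lit 76) (nat_lit 749980614985) (nat_lit 76) (nat_lit 749817283440) (nat_lit 1) (nat_lit 4) (nat_lit 2) (nat_lit 5) (nat_lit 2) (nat_lit 4) (nat_lit 409) (nat_lit 314) (nat_lit 297)))) (XT.nd (nat_lit 156) (nat_lit 0) (nat_lit 0) (XT.nd (nat_lit 78) (nat_lit 0) (nat_lit 0) (XT.lf (nat_lit 0) (nat_lit 7335519629654) (nat_lit 76) (nat_lit 859903252801) (nat_lit 76)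 (nat_lit 859737738741) (nat_lit 1) (nat_lit 4) (nat_lit 2) (nat_lit 5) (nat_lit 2) (nat_lit 4) (nat_lit 410) (nat_lit 314) (nat_lit 296)) (XT.lf (nat_lit 0) (nat_lit 8440687820795) (nat_lit 76) (nat_lit 986363468378) (nat_lit 76) (nat_lit 986196056477) (nat_lit 1) (nat_lit 4) (nat_lit 2) (nat_lit 5) (nat_lit 2) (nat_lit 4) (nat_lit 411) (nat_lit 314) (nat_lit 295))) (XT.nd (nat_lit 78) (nat_lit 0) (nat_lit 0) (XT.lf (nat_lit 0) (nat_lit 9711548381831) (nat_lit 76) (nat_lit 1131835483323) (nat_lit 76) (nat_lit 1131666421127) (nat_lit 1) (nat_lit 4) (nat_lit 2) (nat_lit 5) (nat_lit 2) (nat_lit 4) (nat_lit 412) (nat_lit 314) (nat_lit 294)) (XT.nd (nat_lit 78) (nat_lit 0) (nat_lit 0) (XT.lf (nat_lit 0) (nat_lit 11172965975915) (nat_lit 76) (nat_lit 1299165489234) (nat_lit 76) (nat_lit 1298994991998) (nat_lit 1) (nat_lit 4) (nat_lit 2) (nat_lit 5) (nat_lit 2) (nat_lit 4) (nat_lit 413) (nat_lit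 314) (nat_lit 293)) (XT.lf (nat_lit 0) (nat_lit 12853533555973) (nat_lit 76) (nat_lit 1491627334053) (nat_lit 76) (nat_lit 1491455588957) (nat_lit 1) (nat_lit 4) (nat_lit 2) (nat_lit 5) (nat_lit 2) (nat_lit 4) (nat_lit 414) (nat_lit 314) (nat_lit 292)))))) (XT.nd (nat_lit 390) (nat_lit 0) (nat_lit 0) (XT.nd (nat_lit 156) (nat_lit 0) (nat_lit 0) (XT.nd (nat_lit 78) (nat_lit 0) (nat_lit 0) (XT.lf (nat_lit 0) (nat_lit 14786131792050) (nat_lit 76) (nat_lit 1712986575613) (nat_lit 76) (nat_lit 1712813745420) (nat_lit 1) (nat_lit 4) (nat_lit 2) (nat_lit 5) (nat_lit 2) (nat_lit 4) (nat_lit 415) (nat_lit 314) (nat_lit 291)) (XT.lf (nat_lit 0) (nat_lit 17008572388766) (nat_lit 76) (nat_lit 1967574155596) (nat_lit 76) (nat_lit 1967400381842) (nat_lit 1) (nat_lit 4) (nat_lit 2) (nat_lit 5) (nat_lit 2) (nat_lit 4) (nat_lit 416) (nat_lit 314) (nat_lit 290))) (XT.nd (nat_lit 78) (nat_lit 0) (nat_lit 0)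 (XT.lf (nat_lit 0) (nat_lit 19564337879533) (nat_lit 76) (nat_lit 2260371135351) (nat_lit 76) (nat_lit 2260196541108) (nat_lit 1) (nat_lit 4) (nat_lit 2) (nat_lit 5) (nat_lit 2) (nat_lit 4) (nat_lit 417) (nat_lit 314) (nat_lit 289)) (XT.nd (nat_lit 78) (nat_lit 0) (nat_lit 0) (XT.lf (nat_lit 0) (nat_lit 22503432371781) (nat_lit 76) (nat_lit 2597106151437) (nat_lit 76) (nat_lit 2596930843726) (nat_lit 1) (nat_lit 4) (nat_lit 2) (nat_lit 5) (nat_lit 2) (nat_lit 4) (nat_lit 418) (nat_lit 314) (nat_lit 288)) (XT.lf (nat_lit 0) (nat_lit 25883359888183) (nat_lit 76) (nat_lit 2984367497648) (nat_lit 76) (nat_lit 2984191569529) (nat_lit 1) (nat_lit 4) (nat_lit 2) (nat_lit 5) (nat_lit 2) (nat_lit 4) (nat_lit 419) (nat_lit 314) (nat_lit 287))))) (XT.nd (nat_lit 156) (nat_lit 0) (nat_lit 0) (XT.nd (nat_lit 78) (nat_lit 0) (nat_lit 0) (XT.lf (nat_lit 0) (nat_lit 29770249445366) (nat_lit 76) (nat_lit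 3429732026409) (nat_lit 76) (nat_lit 3429555558806) (nat_lit 1) (nat_lit 4) (nat_lit 2) (nat_lit 5) (nat_lit 2) (nat_lit 4) (nat_lit 420) (nat_lit 314) (nat_lit 286)) (XT.lf (nat_lit 0) (nat_lit 34240148882490) (nat_lit 76) (nat_lit 3941913391544) (nat_lit 76) (nat_lit 3941736454824) (nat_lit 1) (nat_lit 4) (nat_lit 2) (nat_lit 5) (nat_lit 2) (nat_lit 4) (nat_lit 421) (nat_lit 314) (nat_lit 285))) (XT.nd (nat_lit 50622) (nat_lit 0) (nat_lit 0) (XT.lf (nat_lit 0) (nat_lit 39380512753761) (nat_lit 76) (nat_lit 4530932532806) (nat_lit 76) (nat_lit 4530755188158) (nat_lit 1) (nat_lit 4) (nat_lit 2) (nat_lit 5) (nat_lit 2) (nat_lit 4) (nat_lit 422) (nat_lit 314) (nat_lit 284)) (XT.nd (nat_lit 78) (nat_lit 0) (nat_lit 0) (XT.lf (nat_lit 0) (nat_lit 192788469138) (nat_lit 76) (nat_lit 42530041260) (nat_lit 76) (nat_lit 42530041260) (nat_lit 1) (nat_lit 4) (nat_lit 2) (nat_lit 5) (nat_lit 2) (nat_lit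 4) (nat_lit 390) (nat_lit 315) (nat_lit 315)) (XT.lf (nat_lit 0) (nat_lit 457289966099) (nat_lit 76) (nat_lit 90625772783) (nat_lit 76) (nat_lit 90598763158) (nat_lit 1) (nat_lit 4) (nat_lit 2) (nat_lit 5) (nat_lit 2) (nat_lit 4) (nat_lit 391) (nat_lit 315) (nat_lit 314))))))))
noncomputable def xc7 : XT := (XT.nd (nat_lit 1404) (nat_lit 0) (nat_lit 0) (XT.nd (nat_lit 702) (nat_lit 0) (nat_lit 0) (XT.nd (nat_lit 312) (nat_lit 0) (nat_lit 0) (XT.nd (nat_lit 156) (nat_lit 0) (nat_lit 0) (XT.nd (nat_lit 78) (nat_lit 0) (nat_lit 0) (XT.lf (nat_lit 0) (nat_lit 538580720930) (nat_lit 76) (nat_lit 97634967227) (nat_lit 76) (nat_lit 97584470971) (nat_lit 1) (nat_lit 4) (nat_lit 2) (nat_lit 5) (nat_lit 2) (nat_lit 4) (nat_lit 392) (nat_lit 315) (nat_lit 313)) (XT.lf (nat_lit 0) (nat_lit 631039674062) (nat_lit 76) (nat_lit 106224802266) (nat_lit 76) (nat_lit 106153882853) (nat_lit 1) (nat_lit 4) (nat_lit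 2) (nat_lit 5) (nat_lit 2) (nat_lit 4) (nat_lit 393) (nat_lit 315) (nat_lit 312))) (XT.nd (nat_lit 78) (nat_lit 0) (nat_lit 0) (XT.lf (nat_lit 0) (nat_lit 736475805013) (nat_lit 76) (nat_lit 116563339889) (nat_lit 76) (nat_lit 116474661210) (nat_lit 1) (nat_lit 4) (nat_lit 2) (nat_lit 5) (nat_lit 2) (nat_lit 4) (nat_lit 394) (nat_lit 315) (nat_lit 311)) (XT.lf (nat_lit 0) (nat_lit 856951994605) (nat_lit 76) (nat_lit 128852855833) (nat_lit 76) (nat_lit 128748734313) (nat_lit 1) (nat_lit 4) (nat_lit 2) (nat_lit 5) (nat_lit 2) (nat_lit 4) (nat_lit 395) (nat_lit 315) (nat_lit 310)))) (XT.nd (nat_lit 156) (nat_lit 0) (nat_lit 0) (XT.nd (nat_lit 78) (nat_lit 0) (nat_lit 0) (XT.lf (nat_lit 0) (nat_lit 994825385677) (nat_lit 76) (nat_lit 143333797149) (nat_lit 76) (nat_lit 143216247072) (nat_lit 1) (nat_lit 4) (nat_lit 2) (nat_lit 5) (nat_lit 2) (nat_lit 4) (nat_lit 396) (nat_lit 315) (nat_lit 309))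 (XT.lf (nat_lit 0) (nat_lit 1152793501100) (nat_lit 76) (nat_lit 160289486602) (nat_lit 76) (nat_lit 160160259518) (nat_lit 1) (nat_lit 4) (nat_lit 2) (nat_lit 5) (nat_lit 2) (nat_lit 4) (nat_lit 397) (nat_lit 315) (nat_lit 308))) (XT.nd (nat_lit 78) (nat_lit 0) (nat_lit 0) (XT.lf (nat_lit 0) (nat_lit 1333947021392) (nat_lit 76) (nat_lit 180051665941) (nat_lit 76) (nat_lit 179912284939) (nat_lit 1) (nat_lit 4) (nat_lit 2) (nat_lit 5) (nat_lit 2) (nat_lit 4) (nat_lit 398) (nat_lit 315) (nat_lit 307)) (XT.nd (nat_lit 78) (nat_lit 0) (nat_lit 0) (XT.lf (nat_lit 0) (nat_lit 1541830254558) (nat_lit 76) (nat_lit 203006986502) (nat_lit 76) (nat_lit 202858776006) (nat_lit 1) (nat_lit 4) (nat_lit 2) (nat_lit 5) (nat_lit 2) (nat_lit 4) (nat_lit 399) (nat_lit 315) (nat_lit 306)) (XT.lf (nat_lit 0) (nat_lit 1780510481248) (nat_lit 76) (nat_lit 229604574122) (nat_lit 76) (nat_lit 229448685805) (nat_lit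 1) (nat_lit 4) (nat_lit 2) (nat_lit 5) (nat_lit 2) (nat_lit 4) (nat_lit 400) (nat_lit 315) (nat_lit 305)))))) (XT.nd (nat_lit 312) (nat_lit 0) (nat_lit 0) (XT.nd (nat_lit 156) (nat_lit 0) (nat_lit 0) (XT.nd (nat_lit 78) (nat_lit 0) (nat_lit 0) (XT.lf (nat_lit 0) (nat_lit 2054657531984) (nat_lit 76) (nat_lit 260364816385) (nat_lit 76) (nat_lit 260202251701) (nat_lit 1) (nat_lit 4) (nat_lit 2) (nat_lit 5) (nat_lit 2) (nat_lit 4) (nat_lit 401) (nat_lit 315) (nat_lit 304)) (XT.lf (nat_lit 0) (nat_lit 2369635153411) (nat_lit 76) (nat_lit 295889544117) (nat_lit 76) (nat_lit 295721173897) (nat_lit 1) (nat_lit 4) (nat_lit 2) (nat_lit 5) (nat_lit 2) (nat_lit 4) (nat_lit 402) (nat_lit 315) (nat_lit 303))) (XT.nd (nat_lit 78) (nat_lit 0) (nat_lit 0) (XT.lf (nat_lit 0) (nat_lit 2731605951165) (nat_lit 76) (nat_lit 336873806340) (nat_lit 76) (nat_lit 336700387828) (nat_lit 1) (nat_lit 4) (nat_lit 2) (nat_lit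 5) (nat_lit 2) (nat_lit 4) (nat_lit 403) (nat_lit 315) (nat_lit 302)) (XT.lf (nat_lit 0) (nat_lit 3147651962594) (nat_lit 76) (nat_lit 384119469053) (nat_lit 76) (nat_lit 383941660722) (nat_lit 1) (nat_lit 4) (nat_lit 2) (nat_lit 5) (nat_lit 2) (nat_lit 4) (nat_lit 404) (nat_lit 315) (nat_lit 301)))) (XT.nd (nat_lit 156) (nat_lit 0) (nat_lit 0) (XT.nd (nat_lit 78) (nat_lit 0) (nat_lit 0) (XT.lf (nat_lit 0) (nat_lit 3625913218355) (nat_lit 76) (nat_lit 438550903918) (nat_lit 76) (nat_lit 438369278353) (nat_lit 1) (nat_lit 4) (nat_lit 2) (nat_lit 5) (nat_lit 2) (nat_lit 4) (nat_lit 405) (nat_lit 315) (nat_lit 300)) (XT.lf (nat_lit 0) (nat_lit 4175747003889) (nat_lit 76) (nat_lit 501233073791) (nat_lit 76) (nat_lit 501048128892) (nat_lit 1) (nat_lit 4) (nat_lit 2) (nat_lit 5) (nat_lit 2) (nat_lit 4) (nat_lit 406) (nat_lit 315) (nat_lit 299))) (XT.nd (nat_lit 78) (nat_lit 0) (nat_lit 0) (XT.lf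 (nat_lit 0) (nat_lit 4807910936737) (nat_lit 76) (nat_lit 573392368953) (nat_lit 76) (nat_lit 573204537676) (nat_lit 1) (nat_lit 4) (nat_lit 2) (nat_lit 5) (nat_lit 2) (nat_lit 4) (nat_lit 407) (nat_lit 315) (nat_lit 298)) (XT.nd (nat_lit 78) (nat_lit 0) (nat_lit 0) (XT.lf (nat_lit 0) (nat_lit 5534773441673) (nat_lit 76) (nat_lit 656440601700) (nat_lit 76) (nat_lit 656250260530) (nat_lit 1) (nat_lit 4) (nat_lit 2) (nat_lit 5) (nat_lit 2) (nat_lit 4) (nat_lit 408) (nat_lit 315) (nat_lit 297)) (XT.lf (nat_lit 0) (nat_lit 6370555741620) (nat_lit 76) (nat_lit 752002628759) (nat_lit 76) (nat_lit 751810105073) (nat_lit 1) (nat_lit 4) (nat_lit 2) (nat_lit 5) (nat_lit 2) (nat_lit 4) (nat_lit 409) (nat_lit 315) (nat_lit 296))))))) (XT.nd (nat_lit 702) (nat_lit 0) (nat_lit 0) (XT.nd (nat_lit 312) (nat_lit 0) (nat_lit 0) (XT.nd (nat_lit 156) (nat_lit 0) (nat_lit 0) (XT.nd (nat_lit 78) (nat_lit 0) (nat_lit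 0) (XT.lf (nat_lit 0) (nat_lit 7331610098968) (nat_lit 76) (nat_lit 861948141965) (nat_lit 76) (nat_lit 861753720439) (nat_lit 1) (nat_lit 4) (nat_lit 2) (nat_lit 5) (nat_lit 2) (nat_lit 4) (nat_lit 410) (nat_lit 315) (nat_lit 295)) (XT.lf (nat_lit 0) (nat_lit 8436739751144) (nat_lit 76) (nat_lit 988428249184) (nat_lit 76) (nat_lit 988232177363) (nat_lit 1) (nat_lit 4) (nat_lit 2) (nat_lit 5) (nat_lit 2) (nat_lit 4) (nat_lit 411) (nat_lit 315) (nat_lit 294))) (XT.nd (nat_lit 78) (nat_lit 0) (nat_lit 0) (XT.lf (nat_lit 0) (nat_lit 9707566800037) (nat_lit 76) (nat_lit 1133917561211) (nat_lit 76) (nat_lit 1133720054350) (nat_lit 1) (nat_lit 4) (nat_lit 2) (nat_lit 5) (nat_lit 2) (nat_lit 4) (nat_lit 412) (nat_lit 315) (nat_lit 293)) (XT.lf (nat_lit 0) (nat_lit 11168955253126) (nat_lit 76) (nat_lit 1301262608062) (nat_lit 76) (nat_lit 1301063853340) (nat_lit 1) (nat_lit 4) (nat_lit 2) (nat_lit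 5) (nat_lit 2) (nat_lit 4) (nat_lit 413) (nat_lit 315) (nat_lit 292)))) (XT.nd (nat_lit 156) (nat_lit 0) (nat_lit 0) (XT.nd (nat_lit 78) (nat_lit 0) (nat_lit 0) (XT.lf (nat_lit 0) (nat_lit 12849497493189) (nat_lit 76) (nat_lit 1493737531959) (nat_lit 76) (nat_lit 1493537692141) (nat_lit 1) (nat_lit 4) (nat_lit 2) (nat_lit 5) (nat_lit 2) (nat_lit 4) (nat_lit 414) (nat_lit 315) (nat_lit 291)) (XT.lf (nat_lit 0) (nat_lit 14782073694488) (nat_lit 76) (nat_lit 1715108146630) (nat_lit 76) (nat_lit 1714907363250) (nat_lit 1) (nat_lit 4) (nat_lit 2) (nat_lit 5) (nat_lit 2) (nat_lit 4) (nat_lit 415) (nat_lit 315) (nat_lit 290))) (XT.nd (nat_lit 78) (nat_lit 0) (nat_lit 0) (XT.lf (nat_lit 0) (nat_lit 17004495130526) (nat_lit 76) (nat_lit 1969705616276) (nat_lit 76) (nat_lit 1969504012407) (nat_lit 1) (nat_lit 4) (nat_lit 2) (nat_lit 5) (nat_lit 2) (nat_lit 4) (nat_lit 416) (nat_lit 315) (nat_lit 289))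 (XT.nd (nat_lit 78) (nat_lit 0) (nat_lit 0) (XT.lf (nat_lit 0) (nat_lit 19560243959836) (nat_lit 76) (nat_lit 2262511195737) (nat_lit 76) (nat_lit 2262308878400) (nat_lit 1) (nat_lit 4) (nat_lit 2) (nat_lit 5) (nat_lit 2) (nat_lit 4) (nat_lit 417) (nat_lit 315) (nat_lit 288)) (XT.lf (nat_lit 0) (nat_lit 22499323963859) (nat_lit 76) (nat_lit 2599253689828) (nat_lit 76) (nat_lit 2599050752084) (nat_lit 1) (nat_lit 4) (nat_lit 2) (nat_lit 5) (nat_lit 2) (nat_lit 4) (nat_lit 418) (nat_lit 315) (nat_lit 287)))))) (XT.nd (nat_lit 50778) (nat_lit 0) (nat_lit 0) (XT.nd (nat_lit 156) (nat_lit 0) (nat_lit 0) (XT.nd (nat_lit 78) (nat_lit 0) (nat_lit 0) (XT.lf (nat_lit 0) (nat_lit 25879238881806) (nat_lit 76) (nat_lit 2986521538652) (nat_lit 76) (nat_lit 2986318061424) (nat_lit 1) (nat_lit 4) (nat_lit 2) (nat_lit 5) (nat_lit 2) (nat_lit 4) (nat_lit 419) (nat_lit 315) (nat_lit 286)) (XT.lf (nat_lit 0)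 (nat_lit 29766117483809) (nat_lit 76) (nat_lit 3431891721860) (nat_lit 76) (nat_lit 3431687775514) (nat_lit 1) (nat_lit 4) (nat_lit 2) (nat_lit 5) (nat_lit 2) (nat_lit 4) (nat_lit 420) (nat_lit 315) (nat_lit 285))) (XT.nd (nat_lit 78) (nat_lit 0) (nat_lit 0) (XT.lf (nat_lit 0) (nat_lit 34236007394690) (nat_lit 76) (nat_lit 3944078003905) (nat_lit 76) (nat_lit 3943873649632) (nat_lit 1) (nat_lit 4) (nat_lit 2) (nat_lit 5) (nat_lit 2) (nat_lit 4) (nat_lit 421) (nat_lit 315) (nat_lit 284)) (XT.nd (nat_lit 50466) (nat_lit 0) (nat_lit 0) (XT.lf (nat_lit 0) (nat_lit 39376362982272) (nat_lit 76) (nat_lit 4533101420741) (nat_lit 76) (nat_lit 4532896711748) (nat_lit 1) (nat_lit 4) (nat_lit 2) (nat_lit 5) (nat_lit 2) (nat_lit 4) (nat_lit 422) (nat_lit 315) (nat_lit 283)) (XT.lf (nat_lit 0) (nat_lit 133078520150) (nat_lit 76) (nat_lit 38753210435) (nat_lit 76) (nat_lit 38753210435) (nat_lit 1) (nat_lit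 4) (nat_lit 2) (nat_lit 5) (nat_lit 2) (nat_lit 4) (nat_lit 388) (nat_lit 316) (nat_lit 316))))) (XT.nd (nat_lit 156) (nat_lit 0) (nat_lit 0) (XT.nd (nat_lit 78) (nat_lit 0) (nat_lit 0) (XT.lf (nat_lit 0) (nat_lit 322038556487) (nat_lit 76) (nat_lit 80860063569) (nat_lit 76) (nat_lit 80829002500) (nat_lit 1) (nat_lit 4) (nat_lit 2) (nat_lit 5) (nat_lit 2) (nat_lit 4) (nat_lit 389) (nat_lit 316) (nat_lit 315)) (XT.lf (nat_lit 0) (nat_lit 384946188865) (nat_lit 76) (nat_lit 85416700910) (nat_lit 76) (nat_lit 85358630216) (nat_lit 1) (nat_lit 4) (nat_lit 2) (nat_lit 5) (nat_lit 2) (nat_lit 4) (nat_lit 390) (nat_lit 316) (nat_lit 314))) (XT.nd (nat_lit 78) (nat_lit 0) (nat_lit 0) (XT.lf (nat_lit 0) (nat_lit 456110738936) (nat_lit 76) (nat_lit 91265484494) (nat_lit 76) (nat_lit 91183927170) (nat_lit 1) (nat_lit 4) (nat_lit 2) (nat_lit 5) (nat_lit 2) (nat_lit 4) (nat_lit 391) (nat_lit 316) (nat_lit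 313)) (XT.nd (nat_lit 78) (nat_lit 0) (nat_lit 0) (XT.lf (nat_lit 0) (nat_lit 536924556593) (nat_lit 76) (nat_lit 98520847044) (nat_lit 76) (nat_lit 98418866563) (nat_lit 1) (nat_lit 4) (nat_lit 2) (nat_lit 5) (nat_lit 2) (nat_lit 4) (nat_lit 392) (nat_lit 316) (nat_lit 312)) (XT.lf (nat_lit 0) (nat_lit 628968781748) (nat_lit 76) (nat_lit 107324741306) (nat_lit 76) (nat_lit 107205001557) (nat_lit 1) (nat_lit 4) (nat_lit 2) (nat_lit 5) (nat_lit 2) (nat_lit 4) (nat_lit 393) (nat_lit 316) (nat_lit 311))))))))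
noncomputable def xc8 : XT := (XT.nd (nat_lit 1404) (nat_lit 0) (nat_lit 0) (XT.nd (nat_lit 702) (nat_lit 0) (nat_lit 0) (XT.nd (nat_lit 312) (nat_lit 0) (nat_lit 0) (XT.nd (nat_lit 156) (nat_lit 0) (nat_lit 0) (XT.nd (nat_lit 78) (nat_lit 0) (nat_lit 0) (XT.lf (nat_lit 0) (nat_lit 734044279675) (nat_lit 76) (nat_lit 117849417384) (nat_lit 76) (nat_lit 117714234795) (nat_lit 1) (nat_lit 4) (nat_lit 2) (nat_lit 5) (nat_lit 2) (nat_lit 4) (nat_lit 394) (nat_lit 316) (nat_lit 310)) (XT.lf (nat_lit 0) (nat_lit 854206875333) (nat_lit 76) (nat_lit 130300792853) (nat_lit 76) (nat_lit 130152181707) (nat_lit 1) (nat_lit 4) (nat_lit 2) (nat_lit 5) (nat_lit 2) (nat_lit 4) (nat_lit 395) (nat_lit 316) (nat_lit 309))) (XT.nd (nat_lit 78) (nat_lit 0) (nat_lit 0) (XT.lf (nat_lit 0) (nat_lit 991807576028) (nat_lit 76) (nat_lit 144922481583) (nat_lit 76) (nat_lit 144762193430) (nat_lit 1) (nat_lit 4) (nat_lit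 2) (nat_lit 5) (nat_lit 2) (nat_lit 4) (nat_lit 396) (nat_lit 316) (nat_lit 308)) (XT.lf (nat_lit 0) (nat_lit 1149538569384) (nat_lit 76) (nat_lit 162000560091) (nat_lit 76) (nat_lit 161830118020) (nat_lit 1) (nat_lit 4) (nat_lit 2) (nat_lit 5) (nat_lit 2) (nat_lit 4) (nat_lit 397) (nat_lit 316) (nat_lit 307)))) (XT.nd (nat_lit 156) (nat_lit 0) (nat_lit 0) (XT.nd (nat_lit 78) (nat_lit 0) (nat_lit 0) (XT.lf (nat_lit 0) (nat_lit 1330485896574) (nat_lit 76) (nat_lit 181869164696) (nat_lit 76) (nat_lit 181689893130) (nat_lit 1) (nat_lit 4) (nat_lit 2) (nat_lit 5) (nat_lit 2) (nat_lit 4) (nat_lit 398) (nat_lit 316) (nat_lit 306)) (XT.lf (nat_lit 0) (nat_lit 1538189831391) (nat_lit 76) (nat_lit 204917028966) (nat_lit 76) (nat_lit 204730079579) (nat_lit 1) (nat_lit 4) (nat_lit 2) (nat_lit 5) (nat_lit 2) (nat_lit 4) (nat_lit 399) (nat_lit 316) (nat_lit 305))) (XT.nd (nat_lit 78) (nat_lit 0) (nat_lit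 0) (XT.lf (nat_lit 0) (nat_lit 1776714146472) (nat_lit 76) (nat_lit 231595089377) (nat_lit 76) (nat_lit 231401463624) (nat_lit 1) (nat_lit 4) (nat_lit 2) (nat_lit 5) (nat_lit 2) (nat_lit 4) (nat_lit 400) (nat_lit 316) (nat_lit 304)) (XT.nd (nat_lit 78) (nat_lit 0) (nat_lit 0) (XT.lf (nat_lit 0) (nat_lit 2050725621897) (nat_lit 76) (nat_lit 262425307979) (nat_lit 76) (nat_lit 262225876690) (nat_lit 1) (nat_lit 4) (nat_lit 2) (nat_lit 5) (nat_lit 2) (nat_lit 4) (nat_lit 401) (nat_lit 316) (nat_lit 303)) (XT.lf (nat_lit 0) (nat_lit 2365585351748) (nat_lit 76) (nat_lit 298010884702) (nat_lit 76) (nat_lit 297806405121) (nat_lit 1) (nat_lit 4) (nat_lit 2) (nat_lit 5) (nat_lit 2) (nat_lit 4) (nat_lit 402) (nat_lit 316) (nat_lit 302)))))) (XT.nd (nat_lit 312) (nat_lit 0) (nat_lit 0) (XT.nd (nat_lit 156) (nat_lit 0) (nat_lit 0) (XT.nd (nat_lit 78) (nat_lit 0) (nat_lit 0) (XT.lf (nat_lit 0) (nat_lit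 2727453635089) (nat_lit 76) (nat_lit 339048059091) (nat_lit 76) (nat_lit 338839189691) (nat_lit 1) (nat_lit 4) (nat_lit 2) (nat_lit 5) (nat_lit 2) (nat_lit 4) (nat_lit 403) (nat_lit 316) (nat_lit 301)) (XT.lf (nat_lit 0) (nat_lit 3143410503550) (nat_lit 76) (nat_lit 386339732383) (nat_lit 76) (nat_lit 386127045749) (nat_lit 1) (nat_lit 4) (nat_lit 2) (nat_lit 5) (nat_lit 2) (nat_lit 4) (nat_lit 404) (nat_lit 316) (nat_lit 300))) (XT.nd (nat_lit 78) (nat_lit 0) (nat_lit 0) (XT.lf (nat_lit 0) (nat_lit 3621594243687) (nat_lit 76) (nat_lit 440811176447) (nat_lit 76) (nat_lit 440595170479) (nat_lit 1) (nat_lit 4) (nat_lit 2) (nat_lit 5) (nat_lit 2) (nat_lit 4) (nat_lit 405) (nat_lit 316) (nat_lit 299)) (XT.lf (nat_lit 0) (nat_lit 4171360624330) (nat_lit 76) (nat_lit 503528136929) (nat_lit 76) (nat_lit 503309244583) (nat_lit 1) (nat_lit 4) (nat_lit 2) (nat_lit 5) (nat_lit 2) (nat_lit 4) (nat_lit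 406) (nat_lit 316) (nat_lit 298)))) (XT.nd (nat_lit 156) (nat_lit 0) (nat_lit 0) (XT.nd (nat_lit 78) (nat_lit 0) (nat_lit 0) (XT.lf (nat_lit 0) (nat_lit 4803465944229) (nat_lit 76) (nat_lit 575717684793) (nat_lit 76) (nat_lit 575496282554) (nat_lit 1) (nat_lit 4) (nat_lit 2) (nat_lit 5) (nat_lit 2) (nat_lit 4) (nat_lit 407) (nat_lit 316) (nat_lit 297)) (XT.lf (nat_lit 0) (nat_lit 5530277481384) (nat_lit 76) (nat_lit 658792224238) (nat_lit 76) (nat_lit 658568639483) (nat_lit 1) (nat_lit 4) (nat_lit 2) (nat_lit 5) (nat_lit 2) (nat_lit 4) (nat_lit 408) (nat_lit 316) (nat_lit 296))) (XT.nd (nat_lit 78) (nat_lit 0) (nat_lit 0) (XT.lf (nat_lit 0) (nat_lit 6366015461522) (nat_lit 76) (nat_lit 754377126687) (nat_lit 76) (nat_lit 754151644092) (nat_lit 1) (nat_lit 4) (nat_lit 2) (nat_lit 5) (nat_lit 2) (nat_lit 4) (nat_lit 409) (nat_lit 316) (nat_lit 295)) (XT.nd (nat_lit 78) (nat_lit 0) (nat_lit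 0) (XT.lf (nat_lit 0) (nat_lit 7327031279905) (nat_lit 76) (nat_lit 864342531536) (nat_lit 76) (nat_lit 864115398645) (nat_lit 1) (nat_lit 4) (nat_lit 2) (nat_lit 5) (nat_lit 2) (nat_lit 4) (nat_lit 410) (nat_lit 316) (nat_lit 294)) (XT.lf (nat_lit 0) (nat_lit 8432127419936) (nat_lit 76) (nat_lit 990839935836) (nat_lit 76) (nat_lit 990611367906) (nat_lit 1) (nat_lit 4) (nat_lit 2) (nat_lit 5) (nat_lit 2) (nat_lit 4) (nat_lit 411) (nat_lit 316) (nat_lit 293))))))) (XT.nd (nat_lit 702) (nat_lit 0) (nat_lit 0) (XT.nd (nat_lit 312) (nat_lit 0) (nat_lit 0) (XT.nd (nat_lit 156) (nat_lit 0) (nat_lit 0) (XT.nd (nat_lit 78) (nat_lit 0) (nat_lit 0) (XT.lf (nat_lit 0) (nat_lit 9702925327835) (nat_lit 76) (nat_lit 1136344288802) (nat_lit 76) (nat_lit 1136114473012) (nat_lit 1) (nat_lit 4) (nat_lit 2) (nat_lit 5) (nat_lit 2) (nat_lit 4) (nat_lit 412) (nat_lit 316) (nat_lit 292)) (XT.lf (nat_lit 0) (nat_lit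 11164288440929) (nat_lit 76) (nat_lit 1303702414732) (nat_lit 76) (nat_lit 1303471513845) (nat_lit 1) (nat_lit 4) (nat_lit 2) (nat_lit 5) (nat_lit 2) (nat_lit 4) (nat_lit 413) (nat_lit 316) (nat_lit 291))) (XT.nd (nat_lit 78) (nat_lit 0) (nat_lit 0) (XT.lf (nat_lit 0) (nat_lit 12844808646214) (nat_lit 76) (nat_lit 1496188711740) (nat_lit 76) (nat_lit 1495956867292) (nat_lit 1) (nat_lit 4) (nat_lit 2) (nat_lit 5) (nat_lit 2) (nat_lit 4) (nat_lit 414) (nat_lit 316) (nat_lit 290)) (XT.lf (nat_lit 0) (nat_lit 14777365686836) (nat_lit 76) (nat_lit 1717569216074) (nat_lit 76) (nat_lit 1717336551136) (nat_lit 1) (nat_lit 4) (nat_lit 2) (nat_lit 5) (nat_lit 2) (nat_lit 4) (nat_lit 415) (nat_lit 316) (nat_lit 289)))) (XT.nd (nat_lit 156) (nat_lit 0) (nat_lit 0) (XT.nd (nat_lit 78) (nat_lit 0) (nat_lit 0) (XT.lf (nat_lit 0) (nat_lit 16999770461416) (nat_lit 76) (nat_lit 1972175285425) (nat_lit 76)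 (nat_lit 1971941907020) (nat_lit 1) (nat_lit 4) (nat_lit 2) (nat_lit 5) (nat_lit 2) (nat_lit 4) (nat_lit 416) (nat_lit 316) (nat_lit 288)) (XT.lf (nat_lit 0) (nat_lit 19555504802501) (nat_lit 76) (nat_lit 2264988342892) (nat_lit 76) (nat_lit 2264754344079) (nat_lit 1) (nat_lit 4) (nat_lit 2) (nat_lit 5) (nat_lit 2) (nat_lit 4) (nat_lit 417) (nat_lit 316) (nat_lit 287))) (XT.nd (nat_lit 78) (nat_lit 0) (nat_lit 0) (XT.lf (nat_lit 0) (nat_lit 22494572208069) (nat_lit 76) (nat_lit 2601737339597) (nat_lit 76) (nat_lit 2601502801299) (nat_lit 1) (nat_lit 4) (nat_lit 2) (nat_lit 5) (nat_lit 2) (nat_lit 4) (nat_lit 418) (nat_lit 316) (nat_lit 286)) (XT.nd (nat_lit 78) (nat_lit 0) (nat_lit 0) (XT.lf (nat_lit 0) (nat_lit 25874476170836) (nat_lit 76) (nat_lit 2989010842867) (nat_lit 76) (nat_lit 2988775835453) (nat_lit 1) (nat_lit 4) (nat_lit 2) (nat_lit 5) (nat_lit 2) (nat_lit 4) (nat_lit 419) (nat_lit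 316) (nat_lit 285)) (XT.lf (nat_lit 0) (nat_lit 29761345246596) (nat_lit 76) (nat_lit 3434385942985) (nat_lit 76) (nat_lit 3434150527643) (nat_lit 1) (nat_lit 4) (nat_lit 2) (nat_lit 5) (nat_lit 2) (nat_lit 4) (nat_lit 420) (nat_lit 316) (nat_lit 284)))))) (XT.nd (nat_lit 50544) (nat_lit 0) (nat_lit 0) (XT.nd (nat_lit 50388) (nat_lit 0) (nat_lit 0) (XT.nd (nat_lit 78) (nat_lit 0) (nat_lit 0) (XT.lf (nat_lit 0) (nat_lit 34231226873788) (nat_lit 76) (nat_lit 3946576500604) (nat_lit 76) (nat_lit 3946340730542) (nat_lit 1) (nat_lit 4) (nat_lit 2) (nat_lit 5) (nat_lit 2) (nat_lit 4) (nat_lit 421) (nat_lit 316) (nat_lit 283)) (XT.lf (nat_lit 0) (nat_lit 39371575258162) (nat_lit 76) (nat_lit 4535603635330) (nat_lit 76) (nat_lit 4535367556816) (nat_lit 1) (nat_lit 4) (nat_lit 2) (nat_lit 5) (nat_lit 2) (nat_lit 4) (nat_lit 422) (nat_lit 316) (nat_lit 282))) (XT.nd (nat_lit 78) (nat_lit 0) (nat_lit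 0) (XT.lf (nat_lit 0) (nat_lit 86024631360) (nat_lit 76) (nat_lit 36886542085) (nat_lit 76) (nat_lit 36886542085) (nat_lit 1) (nat_lit 4) (nat_lit 2) (nat_lit 5) (nat_lit 2) (nat_lit 4) (nat_lit 386) (nat_lit 317) (nat_lit 317)) (XT.lf (nat_lit 0) (nat_lit 216208306292) (nat_lit 76) (nat_lit 75325878298) (nat_lit 76) (nat_lit 75290158069) (nat_lit 1) (nat_lit 4) (nat_lit 2) (nat_lit 5) (nat_lit 2) (nat_lit 4) (nat_lit 387) (nat_lit 317) (nat_lit 316)))) (XT.nd (nat_lit 156) (nat_lit 0) (nat_lit 0) (XT.nd (nat_lit 78) (nat_lit 0) (nat_lit 0) (XT.lf (nat_lit 0) (nat_lit 265431678476) (nat_lit 76) (nat_lit 77916532019) (nat_lit 76) (nat_lit 77849750721) (nat_lit 1) (nat_lit 4) (nat_lit 2) (nat_lit 5) (nat_lit 2) (nat_lit 4) (nat_lit 388) (nat_lit 317) (nat_lit 315)) (XT.lf (nat_lit 0) (nat_lit 320682445250) (nat_lit 76) (nat_lit 81595732037) (nat_lit 76) (nat_lit 81501941114) (nat_lit 1) (nat_lit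 4) (nat_lit 2) (nat_lit 5) (nat_lit 2) (nat_lit 4) (nat_lit 389) (nat_lit 317) (nat_lit 314))) (XT.nd (nat_lit 78) (nat_lit 0) (nat_lit 0) (XT.lf (nat_lit 0) (nat_lit 383041599877) (nat_lit 76) (nat_lit 86435462700) (nat_lit 76) (nat_lit 86318185146) (nat_lit 1) (nat_lit 4) (nat_lit 2) (nat_lit 5) (nat_lit 2) (nat_lit 4) (nat_lit 390) (nat_lit 317) (nat_lit 313)) (XT.nd (nat_lit 78) (nat_lit 0) (nat_lit 0) (XT.lf (nat_lit 0) (nat_lit 453729212774) (nat_lit 76) (nat_lit 92530414390) (nat_lit 76) (nat_lit 92392713680) (nat_lit 1) (nat_lit 4) (nat_lit 2) (nat_lit 5) (nat_lit 2) (nat_lit 4) (nat_lit 391) (nat_lit 317) (nat_lit 312)) (XT.lf (nat_lit 0) (nat_lit 534128302454) (nat_lit 76) (nat_lit 99999836163) (nat_lit 76) (nat_lit 99844376185) (nat_lit 1) (nat_lit 4) (nat_lit 2) (nat_lit 5) (nat_lit 2) (nat_lit 4) (nat_lit 392) (nat_lit 317) (nat_lit 311))))))))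
noncomputable def xc9 : XT := (XT.nd (nat_lit 1404) (nat_lit 0) (nat_lit 0) (XT.nd (nat_lit 702) (nat_lit 0) (nat_lit 0) (XT.nd (nat_lit 312) (nat_lit 0) (nat_lit 0) (XT.nd (nat_lit 156) (nat_lit 0) (nat_lit 0) (XT.nd (nat_lit 78) (nat_lit 0) (nat_lit 0) (XT.lf (nat_lit 0) (nat_lit 625811894585) (nat_lit 76) (nat_lit 108989868879) (nat_lit 76) (nat_lit 108818966061) (nat_lit 1) (nat_lit 4) (nat_lit 2) (nat_lit 5) (nat_lit 2) (nat_lit 4) (nat_lit 393) (nat_lit 317) (nat_lit 310)) (XT.lf (nat_lit 0) (nat_lit 730573798578) (nat_lit 76) (nat_lit 119676404482) (nat_lit 76) (nat_lit 119492073107) (nat_lit 1) (nat_lit 4) (nat_lit 2) (nat_lit 5) (nat_lit 2) (nat_lit 4) (nat_lit 394) (nat_lit 317) (nat_lit 309))) (XT.nd (nat_lit 78) (nat_lit 0) (nat_lit 0) (XT.lf (nat_lit 0) (nat_lit 850463703859) (nat_lit 76) (nat_lit 132268527366) (nat_lit 76) (nat_lit 132072518984) (nat_lit 1) (nat_lit 4) (nat_lit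 2) (nat_lit 5) (nat_lit 2) (nat_lit 4) (nat_lit 395) (nat_lit 317) (nat_lit 308)) (XT.lf (nat_lit 0) (nat_lit 987827282487) (nat_lit 76) (nat_lit 147012605151) (nat_lit 76) (nat_lit 146806442851) (nat_lit 1) (nat_lit 4) (nat_lit 2) (nat_lit 5) (nat_lit 2) (nat_lit 4) (nat_lit 396) (nat_lit 317) (nat_lit 307)))) (XT.nd (nat_lit 156) (nat_lit 0) (nat_lit 0) (XT.nd (nat_lit 78) (nat_lit 0) (nat_lit 0) (XT.lf (nat_lit 0) (nat_lit 1145352082741) (nat_lit 76) (nat_lit 164197108924) (nat_lit 76) (nat_lit 163982117130) (nat_lit 1) (nat_lit 4) (nat_lit 2) (nat_lit 5) (nat_lit 2) (nat_lit 4) (nat_lit 397) (nat_lit 317) (nat_lit 306)) (XT.lf (nat_lit 0) (nat_lit 1326120111581) (nat_lit 76) (nat_lit 184158257238) (nat_lit 76) (nat_lit 183935587622) (nat_lit 1) (nat_lit 4) (nat_lit 2) (nat_lit 5) (nat_lit 2) (nat_lit 4) (nat_lit 398) (nat_lit 317) (nat_lit 305))) (XT.nd (nat_lit 78) (nat_lit 0) (nat_lit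 0) (XT.lf (nat_lit 0) (nat_lit 1533668134790) (nat_lit 76) (nat_lit 207286594299) (nat_lit 76) (nat_lit 207057248317) (nat_lit 1) (nat_lit 4) (nat_lit 2) (nat_lit 5) (nat_lit 2) (nat_lit 4) (nat_lit 399) (nat_lit 317) (nat_lit 304)) (XT.nd (nat_lit 78) (nat_lit 0) (nat_lit 0) (XT.lf (nat_lit 0) (nat_lit 1772056874560) (nat_lit 76) (nat_lit 234034631049) (nat_lit 76) (nat_lit 233799479531) (nat_lit 1) (nat_lit 4) (nat_lit 2) (nat_lit 5) (nat_lit 2) (nat_lit 4) (nat_lit 400) (nat_lit 317) (nat_lit 303)) (XT.lf (nat_lit 0) (nat_lit 2045950458410) (nat_lit 76) (nat_lit 264925698642) (nat_lit 76) (nat_lit 264685498832) (nat_lit 1) (nat_lit 4) (nat_lit 2) (nat_lit 5) (nat_lit 2) (nat_lit 4) (nat_lit 401) (nat_lit 317) (nat_lit 302)))))) (XT.nd (nat_lit 312) (nat_lit 0) (nat_lit 0) (XT.nd (nat_lit 156) (nat_lit 0) (nat_lit 0) (XT.nd (nat_lit 78) (nat_lit 0) (nat_lit 0) (XT.lf (nat_lit 0) (nat_lit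 2360707673848) (nat_lit 76) (nat_lit 300564187532) (nat_lit 76) (nat_lit 300319597902) (nat_lit 1) (nat_lit 4) (nat_lit 2) (nat_lit 5) (nat_lit 2) (nat_lit 4) (nat_lit 402) (nat_lit 317) (nat_lit 301)) (XT.lf (nat_lit 0) (nat_lit 2722486814220) (nat_lit 76) (nat_lit 341647372499) (nat_lit 76) (nat_lit 341398965636) (nat_lit 1) (nat_lit 4) (nat_lit 2) (nat_lit 5) (nat_lit 2) (nat_lit 4) (nat_lit 403) (nat_lit 317) (nat_lit 300))) (XT.nd (nat_lit 78) (nat_lit 0) (nat_lit 0) (XT.lf (nat_lit 0) (nat_lit 3138366167057) (nat_lit 76) (nat_lit 388979054991) (nat_lit 76) (nat_lit 388727328794) (nat_lit 1) (nat_lit 4) (nat_lit 2) (nat_lit 5) (nat_lit 2) (nat_lit 4) (nat_lit 404) (nat_lit 317) (nat_lit 299)) (XT.lf (nat_lit 0) (nat_lit 3616482502303) (nat_lit 76) (nat_lit 443485289663) (nat_lit 76) (nat_lit 443230677089) (nat_lit 1) (nat_lit 4) (nat_lit 2) (nat_lit 5) (nat_lit 2) (nat_lit 4) (nat_lit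 405) (nat_lit 317) (nat_lit 298)))) (XT.nd (nat_lit 156) (nat_lit 0) (nat_lit 0) (XT.nd (nat_lit 78) (nat_lit 0) (nat_lit 0) (XT.lf (nat_lit 0) (nat_lit 4166190269997) (nat_lit 76) (nat_lit 506232502847) (nat_lit 76) (nat_lit 505975380380) (nat_lit 1) (nat_lit 4) (nat_lit 2) (nat_lit 5) (nat_lit 2) (nat_lit 4) (nat_lit 406) (nat_lit 317) (nat_lit 297)) (XT.lf (nat_lit 0) (nat_lit 4798244622116) (nat_lit 76) (nat_lit 578448357410) (nat_lit 76) (nat_lit 578189052426) (nat_lit 1) (nat_lit 4) (nat_lit 2) (nat_lit 5) (nat_lit 2) (nat_lit 4) (nat_lit 407) (nat_lit 317) (nat_lit 296))) (XT.nd (nat_lit 78) (nat_lit 0) (nat_lit 0) (XT.lf (nat_lit 0) (nat_lit 5525011839461) (nat_lit 76) (nat_lit 661545772244) (nat_lit 76) (nat_lit 661284569420) (nat_lit 1) (nat_lit 4) (nat_lit 2) (nat_lit 5) (nat_lit 2) (nat_lit 4) (nat_lit 408) (nat_lit 317) (nat_lit 295)) (XT.nd (nat_lit 78) (nat_lit 0) (nat_lit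 0) (XT.lf (nat_lit 0) (nat_lit 6360711280633) (nat_lit 76) (nat_lit 757150566336) (nat_lit 76) (nat_lit 756887713217) (nat_lit 1) (nat_lit 4) (nat_lit 2) (nat_lit 5) (nat_lit 2) (nat_lit 4) (nat_lit 409) (nat_lit 317) (nat_lit 294)) (XT.lf (nat_lit 0) (nat_lit 7321693586873) (nat_lit 76) (nat_lit 867133268266) (nat_lit 76) (nat_lit 866868980107) (nat_lit 1) (nat_lit 4) (nat_lit 2) (nat_lit 5) (nat_lit 2) (nat_lit 4) (nat_lit 410) (nat_lit 317) (nat_lit 293))))))) (XT.nd (nat_lit 702) (nat_lit 0) (nat_lit 0) (XT.nd (nat_lit 312) (nat_lit 0) (nat_lit 0) (XT.nd (nat_lit 156) (nat_lit 0) (nat_lit 0) (XT.nd (nat_lit 78) (nat_lit 0) (nat_lit 0) (XT.lf (nat_lit 0) (nat_lit 8426760585910) (nat_lit 76) (nat_lit 993645713506) (nat_lit 76) (nat_lit 993380177487) (nat_lit 1) (nat_lit 4) (nat_lit 2) (nat_lit 5) (nat_lit 2) (nat_lit 4) (nat_lit 411) (nat_lit 317) (nat_lit 292)) (XT.lf (nat_lit 0) (nat_lit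 9697533153814) (nat_lit 76) (nat_lit 1139163145551) (nat_lit 76) (nat_lit 1138896524435) (nat_lit 1) (nat_lit 4) (nat_lit 2) (nat_lit 5) (nat_lit 2) (nat_lit 4) (nat_lit 412) (nat_lit 317) (nat_lit 291))) (XT.nd (nat_lit 78) (nat_lit 0) (nat_lit 0) (XT.lf (nat_lit 0) (nat_lit 11158874232129) (nat_lit 76) (nat_lit 1306532644592) (nat_lit 76) (nat_lit 1306265079914) (nat_lit 1) (nat_lit 4) (nat_lit 2) (nat_lit 5) (nat_lit 2) (nat_lit 4) (nat_lit 413) (nat_lit 317) (nat_lit 290)) (XT.lf (nat_lit 0) (nat_lit 12839375276737) (nat_lit 76) (nat_lit 1499028831262) (nat_lit 76) (nat_lit 1498760446096) (nat_lit 1) (nat_lit 4) (nat_lit 2) (nat_lit 5) (nat_lit 2) (nat_lit 4) (nat_lit 414) (nat_lit 317) (nat_lit 289)))) (XT.nd (nat_lit 156) (nat_lit 0) (nat_lit 0) (XT.nd (nat_lit 78) (nat_lit 0) (nat_lit 0) (XT.lf (nat_lit 0) (nat_lit 14771915655901) (nat_lit 76) (nat_lit 1720417935302) (nat_lit 76) (nat_lit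 1720148836667) (nat_lit 1) (nat_lit 4) (nat_lit 2) (nat_lit 5) (nat_lit 2) (nat_lit 4) (nat_lit 415) (nat_lit 317) (nat_lit 288)) (XT.lf (nat_lit 0) (nat_lit 16994305942257) (nat_lit 76) (nat_lit 1975031482659) (nat_lit 76) (nat_lit 1974761763617) (nat_lit 1) (nat_lit 4) (nat_lit 2) (nat_lit 5) (nat_lit 2) (nat_lit 4) (nat_lit 416) (nat_lit 317) (nat_lit 287))) (XT.nd (nat_lit 78) (nat_lit 0) (nat_lit 0) (XT.lf (nat_lit 0) (nat_lit 19550027684886) (nat_lit 76) (nat_lit 2267851042739) (nat_lit 76) (nat_lit 2267580784212) (nat_lit 1) (nat_lit 4) (nat_lit 2) (nat_lit 5) (nat_lit 2) (nat_lit 4) (nat_lit 417) (nat_lit 317) (nat_lit 286)) (XT.nd (nat_lit 78) (nat_lit 0) (nat_lit 0) (XT.lf (nat_lit 0) (nat_lit 22489084135274) (nat_lit 76) (nat_lit 2604605693890) (nat_lit 76) (nat_lit 2604334966247) (nat_lit 1) (nat_lit 4) (nat_lit 2) (nat_lit 5) (nat_lit 2) (nat_lit 4) (nat_lit 418) (nat_lit 317)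 (nat_lit 285)) (XT.lf (nat_lit 0) (nat_lit 25868978571799) (nat_lit 76) (nat_lit 2991884114071) (nat_lit 76) (nat_lit 2991612978500) (nat_lit 1) (nat_lit 4) (nat_lit 2) (nat_lit 5) (nat_lit 2) (nat_lit 4) (nat_lit 419) (nat_lit 317) (nat_lit 284)))))) (XT.nd (nat_lit 50466) (nat_lit 0) (nat_lit 0) (XT.nd (nat_lit 156) (nat_lit 0) (nat_lit 0) (XT.nd (nat_lit 78) (nat_lit 0) (nat_lit 0) (XT.lf (nat_lit 0) (nat_lit 29755839363870) (nat_lit 76) (nat_lit 3437263489762) (nat_lit 76) (nat_lit 3436991999471) (nat_lit 1) (nat_lit 4) (nat_lit 2) (nat_lit 5) (nat_lit 2) (nat_lit 4) (nat_lit 420) (nat_lit 317) (nat_lit 283)) (XT.lf (nat_lit 0) (nat_lit 34225713787854) (nat_lit 76) (nat_lit 3949457765272) (nat_lit 76) (nat_lit 3949185966529) (nat_lit 1) (nat_lit 4) (nat_lit 2) (nat_lit 5) (nat_lit 2) (nat_lit 4) (nat_lit 421) (nat_lit 317) (nat_lit 282))) (XT.nd (nat_lit 50154) (nat_lit 0) (nat_lit 0)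 (XT.lf (nat_lit 0) (nat_lit 39366055908568) (nat_lit 76) (nat_lit 4538488132946) (nat_lit 76) (nat_lit 4538216065984) (nat_lit 1) (nat_lit 4) (nat_lit 2) (nat_lit 5) (nat_lit 2) (nat_lit 4) (nat_lit 422) (nat_lit 317) (nat_lit 281)) (XT.nd (nat_lit 78) (nat_lit 0) (nat_lit 0) (XT.lf (nat_lit 0) (nat_lit 48254853994) (nat_lit 76) (nat_lit 36612604747) (nat_lit 76) (nat_lit 36612604747) (nat_lit 1) (nat_lit 4) (nat_lit 2) (nat_lit 5) (nat_lit 2) (nat_lit 4) (nat_lit 384) (nat_lit 318) (nat_lit 318)) (XT.lf (nat_lit 0) (nat_lit 132090566475) (nat_lit 76) (nat_lit 73268847145) (nat_lit 76) (nat_lit 73227768882) (nat_lit 1) (nat_lit 4) (nat_lit 2) (nat_lit 5) (nat_lit 2) (nat_lit 4) (nat_lit 385) (nat_lit 318) (nat_lit 317))))) (XT.nd (nat_lit 156) (nat_lit 0) (nat_lit 0) (XT.nd (nat_lit 78) (nat_lit 0) (nat_lit 0) (XT.lf (nat_lit 0) (nat_lit 171215096622) (nat_lit 76) (nat_lit 74244711990) (nat_lit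 76) (nat_lit 74167913497) (nat_lit 1) (nat_lit 4) (nat_lit 2) (nat_lit 5) (nat_lit 2) (nat_lit 4) (nat_lit 386) (nat_lit 318) (nat_lit 316)) (XT.lf (nat_lit 0) (nat_lit 214648778369) (nat_lit 76) (nat_lit 76171897036) (nat_lit 76) (nat_lit 76064037474) (nat_lit 1) (nat_lit 4) (nat_lit 2) (nat_lit 5) (nat_lit 2) (nat_lit 4) (nat_lit 387) (nat_lit 318) (nat_lit 315))) (XT.nd (nat_lit 78) (nat_lit 0) (nat_lit 0) (XT.lf (nat_lit 0) (nat_lit 263241401140) (nat_lit 76) (nat_lit 79088108077) (nat_lit 76) (nat_lit 78953238891) (nat_lit 1) (nat_lit 4) (nat_lit 2) (nat_lit 5) (nat_lit 2) (nat_lit 4) (nat_lit 388) (nat_lit 318) (nat_lit 314)) (XT.nd (nat_lit 78) (nat_lit 0) (nat_lit 0) (XT.lf (nat_lit 0) (nat_lit 317943690164) (nat_lit 76) (nat_lit 83050401417) (nat_lit 76) (nat_lit 82892045600) (nat_lit 1) (nat_lit 4) (nat_lit 2) (nat_lit 5) (nat_lit 2) (nat_lit 4) (nat_lit 389) (nat_lit 318) (nat_lit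 313)) (XT.lf (nat_lit 0) (nat_lit 379825907617) (nat_lit 76) (nat_lit 88136300186) (nat_lit 76) (nat_lit 87957521212) (nat_lit 1) (nat_lit 4) (nat_lit 2) (nat_lit 5) (nat_lit 2) (nat_lit 4) (nat_lit 390) (nat_lit 318) (nat_lit 312))))))))
noncomputable def xc10 : XT := (XT.nd (nat_lit 1404) (nat_lit 0) (nat_lit 0) (XT.nd (nat_lit 702) (nat_lit 0) (nat_lit 0) (XT.nd (nat_lit 312) (nat_lit 0) (nat_lit 0) (XT.nd (nat_lit 156) (nat_lit 0) (nat_lit 0) (XT.nd (nat_lit 78) (nat_lit 0) (nat_lit 0) (XT.lf (nat_lit 0) (nat_lit 450098792537) (nat_lit 76) (nat_lit 94445311099) (nat_lit 76) (nat_lit 94248772858) (nat_lit 1) (nat_lit 4) (nat_lit 2) (nat_lit 5) (nat_lit 2) (nat_lit 4) (nat_lit 391) (nat_lit 318) (nat_lit 311)) (XT.lf (nat_lit 0) (nat_lit 530137249193) (nat_lit 76) (nat_lit 102100871327) (nat_lit 76) (nat_lit 101888890245) (nat_lit 1) (nat_lit 4) (nat_lit 2) (nat_lit 5) (nat_lit 2) (nat_lit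 4) (nat_lit 392) (nat_lit 318) (nat_lit 310))) (XT.nd (nat_lit 78) (nat_lit 0) (nat_lit 0) (XT.lf (nat_lit 0) (nat_lit 621507247390) (nat_lit 76) (nat_lit 111252763568) (nat_lit 76) (nat_lit 111027353929) (nat_lit 1) (nat_lit 4) (nat_lit 2) (nat_lit 5) (nat_lit 2) (nat_lit 4) (nat_lit 393) (nat_lit 318) (nat_lit 309)) (XT.lf (nat_lit 0) (nat_lit 725996461006) (nat_lit 76) (nat_lit 122080046585) (nat_lit 76) (nat_lit 121842959940) (nat_lit 1) (nat_lit 4) (nat_lit 2) (nat_lit 5) (nat_lit 2) (nat_lit 4) (nat_lit 394) (nat_lit 318) (nat_lit 308)))) (XT.nd (nat_lit 156) (nat_lit 0) (nat_lit 0) (XT.nd (nat_lit 78) (nat_lit 0) (nat_lit 0) (XT.lf (nat_lit 0) (nat_lit 845649244219) (nat_lit 76) (nat_lit 134794558524) (nat_lit 76) (nat_lit 134547317960) (nat_lit 1) (nat_lit 4) (nat_lit 2) (nat_lit 5) (nat_lit 2) (nat_lit 4) (nat_lit 395) (nat_lit 318) (nat_lit 307)) (XT.lf (nat_lit 0) (nat_lit 982806629746)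 (nat_lit 76) (nat_lit 149645061575) (nat_lit 76) (nat_lit 149388991516) (nat_lit 1) (nat_lit 4) (nat_lit 2) (nat_lit 5) (nat_lit 2) (nat_lit 4) (nat_lit 396) (nat_lit 318) (nat_lit 306))) (XT.nd (nat_lit 78) (nat_lit 0) (nat_lit 0) (XT.lf (nat_lit 0) (nat_lit 1140152131650) (nat_lit 76) (nat_lit 166922109057) (nat_lit 76) (nat_lit 166658361178) (nat_lit 1) (nat_lit 4) (nat_lit 2) (nat_lit 5) (nat_lit 2) (nat_lit 4) (nat_lit 397) (nat_lit 318) (nat_lit 305)) (XT.nd (nat_lit 78) (nat_lit 0) (nat_lit 0) (XT.lf (nat_lit 0) (nat_lit 1320764248882) (nat_lit 76) (nat_lit 186963730162) (nat_lit 76) (nat_lit 186693305916) (nat_lit 1) (nat_lit 4) (nat_lit 2) (nat_lit 5) (nat_lit 2) (nat_lit 4) (nat_lit 398) (nat_lit 318) (nat_lit 304)) (XT.lf (nat_lit 0) (nat_lit 1528176696779) (nat_lit 76) (nat_lit 210162043562) (nat_lit 76) (nat_lit 209885813781) (nat_lit 1) (nat_lit 4) (nat_lit 2) (nat_lit 5) (nat_lit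 2) (nat_lit 4) (nat_lit 399) (nat_lit 318) (nat_lit 303)))))) (XT.nd (nat_lit 312) (nat_lit 0) (nat_lit 0) (XT.nd (nat_lit 156) (nat_lit 0) (nat_lit 0) (XT.nd (nat_lit 78) (nat_lit 0) (nat_lit 0) (XT.lf (nat_lit 0) (nat_lit 1766447544975) (nat_lit 76) (nat_lit 236970929303) (nat_lit 76) (nat_lit 236689651230) (nat_lit 1) (nat_lit 4) (nat_lit 2) (nat_lit 5) (nat_lit 2) (nat_lit 4) (nat_lit 400) (nat_lit 318) (nat_lit 302)) (XT.lf (nat_lit 0) (nat_lit 2040238614411) (nat_lit 76) (nat_lit 267914909062) (nat_lit 76) (nat_lit 267629241170) (nat_lit 1) (nat_lit 4) (nat_lit 2) (nat_lit 5) (nat_lit 2) (nat_lit 4) (nat_lit 401) (nat_lit 318) (nat_lit 301))) (XT.nd (nat_lit 78) (nat_lit 0) (nat_lit 0) (XT.lf (nat_lit 0) (nat_lit 2354906686881) (nat_lit 76) (nat_lit 303599408531) (nat_lit 76) (nat_lit 303309923404) (nat_lit 1) (nat_lit 4) (nat_lit 2) (nat_lit 5) (nat_lit 2) (nat_lit 4) (nat_lit 402)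 (nat_lit 318) (nat_lit 300)) (XT.lf (nat_lit 0) (nat_lit 2716608311629) (nat_lit 76) (nat_lit 344722602698) (nat_lit 76) (nat_lit 344429798237) (nat_lit 1) (nat_lit 4) (nat_lit 2) (nat_lit 5) (nat_lit 2) (nat_lit 4) (nat_lit 403) (nat_lit 318) (nat_lit 299)))) (XT.nd (nat_lit 156) (nat_lit 0) (nat_lit 0) (XT.nd (nat_lit 78) (nat_lit 0) (nat_lit 0) (XT.lf (nat_lit 0) (nat_lit 3132420259575) (nat_lit 76) (nat_lit 392089075797) (nat_lit 76) (nat_lit 391793384959) (nat_lit 1) (nat_lit 4) (nat_lit 2) (nat_lit 5) (nat_lit 2) (nat_lit 4) (nat_lit 404) (nat_lit 318) (nat_lit 298)) (XT.lf (nat_lit 0) (nat_lit 3610477981873) (nat_lit 76) (nat_lit 446625563173) (nat_lit 76) (nat_lit 446327362441) (nat_lit 1) (nat_lit 4) (nat_lit 2) (nat_lit 5) (nat_lit 2) (nat_lit 4) (nat_lit 405) (nat_lit 318) (nat_lit 297))) (XT.nd (nat_lit 78) (nat_lit 0) (nat_lit 0) (XT.lf (nat_lit 0) (nat_lit 4160134781786) (nat_lit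 76) (nat_lit 509399083055) (nat_lit 76) (nat_lit 509098699807) (nat_lit 1) (nat_lit 4) (nat_lit 2) (nat_lit 5) (nat_lit 2) (nat_lit 4) (nat_lit 406) (nat_lit 318) (nat_lit 296)) (XT.nd (nat_lit 78) (nat_lit 0) (nat_lit 0) (XT.lf (nat_lit 0) (nat_lit 4792144814094) (nat_lit 76) (nat_lit 581637813007) (nat_lit 76) (nat_lit 581335531919) (nat_lit 1) (nat_lit 4) (nat_lit 2) (nat_lit 5) (nat_lit 2) (nat_lit 4) (nat_lit 407) (nat_lit 318) (nat_lit 295)) (XT.lf (nat_lit 0) (nat_lit 5518873492474) (nat_lit 76) (nat_lit 664755119484) (nat_lit 76) (nat_lit 664451188101) (nat_lit 1) (nat_lit 4) (nat_lit 2) (nat_lit 5) (nat_lit 2) (nat_lit 4) (nat_lit 408) (nat_lit 318) (nat_lit 294))))))) (XT.nd (nat_lit 702) (nat_lit 0) (nat_lit 0) (XT.nd (nat_lit 312) (nat_lit 0) (nat_lit 0) (XT.nd (nat_lit 156) (nat_lit 0) (nat_lit 0) (XT.nd (nat_lit 78) (nat_lit 0) (nat_lit 0) (XT.lf (nat_lit 0) (nat_lit 6354539421503)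 (nat_lit 76) (nat_lit 760377210657) (nat_lit 76) (nat_lit 760071844234) (nat_lit 1) (nat_lit 4) (nat_lit 2) (nat_lit 5) (nat_lit 2) (nat_lit 4) (nat_lit 409) (nat_lit 318) (nat_lit 293)) (XT.lf (nat_lit 0) (nat_lit 7315492586748) (nat_lit 76) (nat_lit 870374953527) (nat_lit 76) (nat_lit 870068339244) (nat_lit 1) (nat_lit 4) (nat_lit 2) (nat_lit 5) (nat_lit 2) (nat_lit 4) (nat_lit 410) (nat_lit 318) (nat_lit 292))) (XT.nd (nat_lit 78) (nat_lit 0) (nat_lit 0) (XT.lf (nat_lit 0) (nat_lit 8420534245790) (nat_lit 76) (nat_lit 996900477845) (nat_lit 76) (nat_lit 996592778466) (nat_lit 1) (nat_lit 4) (nat_lit 2) (nat_lit 5) (nat_lit 2) (nat_lit 4) (nat_lit 411) (nat_lit 318) (nat_lit 291)) (XT.lf (nat_lit 0) (nat_lit 9691284778916) (nat_lit 76) (nat_lit 1142429283001) (nat_lit 76) (nat_lit 1142120640060) (nat_lit 1) (nat_lit 4) (nat_lit 2) (nat_lit 5) (nat_lit 2) (nat_lit 4) (nat_lit 412) (nat_lit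 318) (nat_lit 290)))) (XT.nd (nat_lit 156) (nat_lit 0) (nat_lit 0) (XT.nd (nat_lit 78) (nat_lit 0) (nat_lit 0) (XT.lf (nat_lit 0) (nat_lit 11152606696554) (nat_lit 76) (nat_lit 1309808671704) (nat_lit 76) (nat_lit 1309499208275) (nat_lit 1) (nat_lit 4) (nat_lit 2) (nat_lit 5) (nat_lit 2) (nat_lit 4) (nat_lit 413) (nat_lit 318) (nat_lit 289)) (XT.lf (nat_lit 0) (nat_lit 12833091079704) (nat_lit 76) (nat_lit 1502313458081) (nat_lit 76) (nat_lit 1502003281183) (nat_lit 1) (nat_lit 4) (nat_lit 2) (nat_lit 5) (nat_lit 2) (nat_lit 4) (nat_lit 414) (nat_lit 318) (nat_lit 288))) (XT.nd (nat_lit 78) (nat_lit 0) (nat_lit 0) (XT.lf (nat_lit 0) (nat_lit 14765616970644) (nat_lit 76) (nat_lit 1723710040126) (nat_lit 76) (nat_lit 1723399242821) (nat_lit 1) (nat_lit 4) (nat_lit 2) (nat_lit 5) (nat_lit 2) (nat_lit 4) (nat_lit 415) (nat_lit 318) (nat_lit 287)) (XT.nd (nat_lit 78) (nat_lit 0) (nat_lit 0) (XT.lf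 (nat_lit 0) (nat_lit 16987994658544) (nat_lit 76) (nat_lit 1978330090097) (nat_lit 76) (nat_lit 1978018753307) (nat_lit 1) (nat_lit 4) (nat_lit 2) (nat_lit 5) (nat_lit 2) (nat_lit 4) (nat_lit 416) (nat_lit 318) (nat_lit 286)) (XT.lf (nat_lit 0) (nat_lit 19543705445994) (nat_lit 76) (nat_lit 2271155304623) (nat_lit 76) (nat_lit 2270843498716) (nat_lit 1) (nat_lit 4) (nat_lit 2) (nat_lit 5) (nat_lit 2) (nat_lit 4) (nat_lit 417) (nat_lit 318) (nat_lit 285)))))) (XT.nd (nat_lit 50310) (nat_lit 0) (nat_lit 0) (XT.nd (nat_lit 156) (nat_lit 0) (nat_lit 0) (XT.nd (nat_lit 78) (nat_lit 0) (nat_lit 0) (XT.lf (nat_lit 0) (nat_lit 22482752370139) (nat_lit 76) (nat_lit 2607914872684) (nat_lit 76) (nat_lit 2607602658850) (nat_lit 1) (nat_lit 4) (nat_lit 2) (nat_lit 5) (nat_lit 2) (nat_lit 4) (nat_lit 418) (nat_lit 318) (nat_lit 284)) (XT.lf (nat_lit 0) (nat_lit 25862638522974) (nat_lit 76) (nat_lit 2995197568439)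 (nat_lit 76) (nat_lit 2994884999884) (nat_lit 1) (nat_lit 4) (nat_lit 2) (nat_lit 5) (nat_lit 2) (nat_lit 4) (nat_lit 419) (nat_lit 318) (nat_lit 283))) (XT.nd (nat_lit 78) (nat_lit 0) (nat_lit 0) (XT.lf (nat_lit 0) (nat_lit 29749492111837) (nat_lit 76) (nat_lit 3440580662021) (nat_lit 76) (nat_lit 3440267785014) (nat_lit 1) (nat_lit 4) (nat_lit 2) (nat_lit 5) (nat_lit 2) (nat_lit 4) (nat_lit 420) (nat_lit 318) (nat_lit 282)) (XT.nd (nat_lit 78) (nat_lit 0) (nat_lit 0) (XT.lf (nat_lit 0) (nat_lit 34219360272162) (nat_lit 76) (nat_lit 3952778170478) (nat_lit 76) (nat_lit 3952465025252) (nat_lit 1) (nat_lit 4) (nat_lit 2) (nat_lit 5) (nat_lit 2) (nat_lit 4) (nat_lit 421) (nat_lit 318) (nat_lit 281)) (XT.lf (nat_lit 0) (nat_lit 39359696946216) (nat_lit 76) (nat_lit 4541811349412) (nat_lit 76) (nat_lit 4541497970952) (nat_lit 1) (nat_lit 4) (nat_lit 2) (nat_lit 5) (nat_lit 2) (nat_lit 4) (nat_lit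 422) (nat_lit 318) (nat_lit 280))))) (XT.nd (nat_lit 156) (nat_lit 0) (nat_lit 0) (XT.nd (nat_lit 78) (nat_lit 0) (nat_lit 0) (XT.lf (nat_lit 0) (nat_lit 17176657088) (nat_lit 76) (nat_lit 37713630694) (nat_lit 76) (nat_lit 37713630694) (nat_lit 1) (nat_lit 4) (nat_lit 2) (nat_lit 5) (nat_lit 2) (nat_lit 4) (nat_lit 382) (nat_lit 319) (nat_lit 319)) (XT.lf (nat_lit 0) (nat_lit 63776373934) (nat_lit 76) (nat_lit 74160185259) (nat_lit 76) (nat_lit 74112945256) (nat_lit 1) (nat_lit 4) (nat_lit 2) (nat_lit 5) (nat_lit 2) (nat_lit 4) (nat_lit 383) (nat_lit 319) (nat_lit 318))) (XT.nd (nat_lit 78) (nat_lit 0) (nat_lit 0) (XT.lf (nat_lit 0) (nat_lit 95550416976) (nat_lit 76) (nat_lit 73767581487) (nat_lit 76) (nat_lit 73679263220) (nat_lit 1) (nat_lit 4) (nat_lit 2) (nat_lit 5) (nat_lit 2) (nat_lit 4) (nat_lit 384) (nat_lit 319) (nat_lit 317)) (XT.nd (nat_lit 78) (nat_lit 0) (nat_lit 0) (XT.lf (nat_lit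 0) (nat_lit 130297109364) (nat_lit 76) (nat_lit 74241768694) (nat_lit 76) (nat_lit 74117730198) (nat_lit 1) (nat_lit 4) (nat_lit 2) (nat_lit 5) (nat_lit 2) (nat_lit 4) (nat_lit 385) (nat_lit 319) (nat_lit 316)) (XT.lf (nat_lit 0) (nat_lit 168696277686) (nat_lit 76) (nat_lit 75592024457) (nat_lit 76) (nat_lit 75436924892) (nat_lit 1) (nat_lit 4) (nat_lit 2) (nat_lit 5) (nat_lit 2) (nat_lit 4) (nat_lit 386) (nat_lit 319) (nat_lit 315))))))))
noncomputable def xc11 : XT := (XT.nd (nat_lit 1404) (nat_lit 0) (nat_lit 0) (XT.nd (nat_lit 702) (nat_lit 0) (nat_lit 0) (XT.nd (nat_lit 312) (nat_lit 0) (nat_lit 0) (XT.nd (nat_lit 156) (nat_lit 0) (nat_lit 0) (XT.nd (nat_lit 78) (nat_lit 0) (nat_lit 0) (XT.lf (nat_lit 0) (nat_lit 211499210020) (nat_lit 76) (nat_lit 77844766823) (nat_lit 76) (nat_lit 77662657633) (nat_lit 1) (nat_lit 4) (nat_lit 2) (nat_lit 5) (nat_lit 2) (nat_lit 4) (nat_lit 387) (nat_lit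 319) (nat_lit 314)) (XT.lf (nat_lit 0) (nat_lit 259543355041) (nat_lit 76) (nat_lit 81044071187) (nat_lit 76) (nat_lit 80838475366) (nat_lit 1) (nat_lit 4) (nat_lit 2) (nat_lit 5) (nat_lit 2) (nat_lit 4) (nat_lit 388) (nat_lit 319) (nat_lit 313))) (XT.nd (nat_lit 78) (nat_lit 0) (nat_lit 0) (XT.lf (nat_lit 0) (nat_lit 313768706891) (nat_lit 76) (nat_lit 85252532633) (nat_lit 76) (nat_lit 85026513655) (nat_lit 1) (nat_lit 4) (nat_lit 2) (nat_lit 5) (nat_lit 2) (nat_lit 4) (nat_lit 389) (nat_lit 319) (nat_lit 312)) (XT.lf (nat_lit 0) (nat_lit 375236196367) (nat_lit 76) (nat_lit 90552490624) (nat_lit 76) (nat_lit 90308712380) (nat_lit 1) (nat_lit 4) (nat_lit 2) (nat_lit 5) (nat_lit 2) (nat_lit 4) (nat_lit 390) (nat_lit 319) (nat_lit 311)))) (XT.nd (nat_lit 156) (nat_lit 0) (nat_lit 0) (XT.nd (nat_lit 78) (nat_lit 0) (nat_lit 0) (XT.lf (nat_lit 0) (nat_lit 445148448262) (nat_lit 76) (nat_lit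 97047639992) (nat_lit 76) (nat_lit 96788418907) (nat_lit 1) (nat_lit 4) (nat_lit 2) (nat_lit 5) (nat_lit 2) (nat_lit 4) (nat_lit 391) (nat_lit 319) (nat_lit 310)) (XT.lf (nat_lit 0) (nat_lit 524873310985) (nat_lit 76) (nat_lit 104865059745) (nat_lit 76) (nat_lit 104592410103) (nat_lit 1) (nat_lit 4) (nat_lit 2) (nat_lit 5) (nat_lit 2) (nat_lit 4) (nat_lit 392) (nat_lit 319) (nat_lit 309))) (XT.nd (nat_lit 78) (nat_lit 0) (nat_lit 0) (XT.lf (nat_lit 0) (nat_lit 615970618805) (nat_lit 76) (nat_lit 114157699400) (nat_lit 76) (nat_lit 113873372752) (nat_lit 1) (nat_lit 4) (nat_lit 2) (nat_lit 5) (nat_lit 2) (nat_lit 4) (nat_lit 393) (nat_lit 319) (nat_lit 308)) (XT.nd (nat_lit 78) (nat_lit 0) (nat_lit 0) (XT.lf (nat_lit 0) (nat_lit 720222710353) (nat_lit 76) (nat_lit 125107371473) (nat_lit 76) (nat_lit 124812890906) (nat_lit 1) (nat_lit 4) (nat_lit 2) (nat_lit 5) (nat_lit 2) (nat_lit 4) (nat_lit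 394) (nat_lit 319) (nat_lit 307)) (XT.lf (nat_lit 0) (nat_lit 839669300465) (nat_lit 76) (nat_lit 137928308677) (nat_lit 76) (nat_lit 137624998616) (nat_lit 1) (nat_lit 4) (nat_lit 2) (nat_lit 5) (nat_lit 2) (nat_lit 4) (nat_lit 395) (nat_lit 319) (nat_lit 306)))))) (XT.nd (nat_lit 312) (nat_lit 0) (nat_lit 0) (XT.nd (nat_lit 156) (nat_lit 0) (nat_lit 0) (XT.nd (nat_lit 78) (nat_lit 0) (nat_lit 0) (XT.lf (nat_lit 0) (nat_lit 976647387642) (nat_lit 76) (nat_lit 152871355436) (nat_lit 76) (nat_lit 152560367554) (nat_lit 1) (nat_lit 4) (nat_lit 2) (nat_lit 5) (nat_lit 2) (nat_lit 4) (nat_lit 396) (nat_lit 319) (nat_lit 305)) (XT.lf (nat_lit 0) (nat_lit 1133836977938) (nat_lit 76) (nat_lit 170228875710) (nat_lit 76) (nat_lit 169911211461) (nat_lit 1) (nat_lit 4) (nat_lit 2) (nat_lit 5) (nat_lit 2) (nat_lit 4) (nat_lit 397) (nat_lit 319) (nat_lit 304))) (XT.nd (nat_lit 78) (nat_lit 0) (nat_lit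 0) (XT.lf (nat_lit 0) (nat_lit 1314313519859) (nat_lit 76) (nat_lit 190340473154) (nat_lit 76) (nat_lit 190017003369) (nat_lit 1) (nat_lit 4) (nat_lit 2) (nat_lit 5) (nat_lit 2) (nat_lit 4) (nat_lit 398) (nat_lit 319) (nat_lit 303)) (XT.lf (nat_lit 0) (nat_lit 1521608076181) (nat_lit 76) (nat_lit 213599635545) (nat_lit 76) (nat_lit 213271117469) (nat_lit 1) (nat_lit 4) (nat_lit 2) (nat_lit 5) (nat_lit 2) (nat_lit 4) (nat_lit 399) (nat_lit 319) (nat_lit 302)))) (XT.nd (nat_lit 156) (nat_lit 0) (nat_lit 0) (XT.nd (nat_lit 78) (nat_lit 0) (nat_lit 0) (XT.lf (nat_lit 0) (nat_lit 1759776409963) (nat_lit 76) (nat_lit 240461433452) (nat_lit 76) (nat_lit 240128525557) (nat_lit 1) (nat_lit 4) (nat_lit 2) (nat_lit 5) (nat_lit 2) (nat_lit 4) (nat_lit 400) (nat_lit 319) (nat_lit 301)) (XT.lf (nat_lit 0) (nat_lit 2033478336431) (nat_lit 76) (nat_lit 271451423791) (nat_lit 76) (nat_lit 271114698661) (nat_lit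 1) (nat_lit 4) (nat_lit 2) (nat_lit 5) (nat_lit 2) (nat_lit 4) (nat_lit 401) (nat_lit 319) (nat_lit 300))) (XT.nd (nat_lit 78) (nat_lit 0) (nat_lit 0) (XT.lf (nat_lit 0) (nat_lit 2348068893276) (nat_lit 76) (nat_lit 307175932458) (nat_lit 76) (nat_lit 306835887995) (nat_lit 1) (nat_lit 4) (nat_lit 2) (nat_lit 5) (nat_lit 2) (nat_lit 4) (nat_lit 402) (nat_lit 319) (nat_lit 299)) (XT.nd (nat_lit 78) (nat_lit 0) (nat_lit 0) (XT.lf (nat_lit 0) (nat_lit 2709703113134) (nat_lit 76) (nat_lit 348333917234) (nat_lit 76) (nat_lit 347990986392) (nat_lit 1) (nat_lit 4) (nat_lit 2) (nat_lit 5) (nat_lit 2) (nat_lit 4) (nat_lit 403) (nat_lit 319) (nat_lit 298)) (XT.lf (nat_lit 0) (nat_lit 3125456448131) (nat_lit 76) (nat_lit 395730643036) (nat_lit 76) (nat_lit 395385202301) (nat_lit 1) (nat_lit 4) (nat_lit 2) (nat_lit 5) (nat_lit 2) (nat_lit 4) (nat_lit 404) (nat_lit 319) (nat_lit 297))))))) (XT.nd (nat_lit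 702) (nat_lit 0) (nat_lit 0) (XT.nd (nat_lit 312) (nat_lit 0) (nat_lit 0) (XT.nd (nat_lit 156) (nat_lit 0) (nat_lit 0) (XT.nd (nat_lit 78) (nat_lit 0) (nat_lit 0) (XT.lf (nat_lit 0) (nat_lit 3603463202648) (nat_lit 76) (nat_lit 450293437109) (nat_lit 76) (nat_lit 449945813859) (nat_lit 1) (nat_lit 4) (nat_lit 2) (nat_lit 5) (nat_lit 2) (nat_lit 4) (nat_lit 405) (nat_lit 319) (nat_lit 296)) (XT.lf (nat_lit 0) (nat_lit 4153075682751) (nat_lit 76) (nat_lit 513089832381) (nat_lit 76) (nat_lit 512740311290) (nat_lit 1) (nat_lit 4) (nat_lit 2) (nat_lit 5) (nat_lit 2) (nat_lit 4) (nat_lit 406) (nat_lit 319) (nat_lit 295))) (XT.nd (nat_lit 78) (nat_lit 0) (nat_lit 0) (XT.lf (nat_lit 0) (nat_lit 4785047176095) (nat_lit 76) (nat_lit 585348453976) (nat_lit 76) (nat_lit 584997282590) (nat_lit 1) (nat_lit 4) (nat_lit 2) (nat_lit 5) (nat_lit 2) (nat_lit 4) (nat_lit 407) (nat_lit 319) (nat_lit 294)) (XT.lf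 (nat_lit 0) (nat_lit 5511742342331) (nat_lit 76) (nat_lit 668483057534) (nat_lit 76) (nat_lit 668130451108) (nat_lit 1) (nat_lit 4) (nat_lit 2) (nat_lit 5) (nat_lit 2) (nat_lit 4) (nat_lit 408) (nat_lit 319) (nat_lit 293)))) (XT.nd (nat_lit 156) (nat_lit 0) (nat_lit 0) (XT.nd (nat_lit 78) (nat_lit 0) (nat_lit 0) (XT.lf (nat_lit 0) (nat_lit 6347379130365) (nat_lit 76) (nat_lit 764120189647) (nat_lit 76) (nat_lit 763766335361) (nat_lit 1) (nat_lit 4) (nat_lit 2) (nat_lit 5) (nat_lit 2) (nat_lit 4) (nat_lit 409) (nat_lit 319) (nat_lit 292)) (XT.lf (nat_lit 0) (nat_lit 7308306955615) (nat_lit 76) (nat_lit 874131011595) (nat_lit 76) (nat_lit 873776072213) (nat_lit 1) (nat_lit 4) (nat_lit 2) (nat_lit 5) (nat_lit 2) (nat_lit 4) (nat_lit 410) (nat_lit 319) (nat_lit 291))) (XT.nd (nat_lit 78) (nat_lit 0) (nat_lit 0) (XT.lf (nat_lit 0) (nat_lit 8413326579879) (nat_lit 76) (nat_lit 1000667909025) (nat_lit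 76) (nat_lit 1000312026081) (nat_lit 1) (nat_lit 4) (nat_lit 2) (nat_lit 5) (nat_lit 2) (nat_lit 4) (nat_lit 411) (nat_lit 319) (nat_lit 290)) (XT.nd (nat_lit 78) (nat_lit 0) (nat_lit 0) (XT.lf (nat_lit 0) (nat_lit 9684057952328) (nat_lit 76) (nat_lit 1146206603843) (nat_lit 76) (nat_lit 1145849900410) (nat_lit 1) (nat_lit 4) (nat_lit 2) (nat_lit 5) (nat_lit 2) (nat_lit 4) (nat_lit 412) (nat_lit 319) (nat_lit 289)) (XT.lf (nat_lit 0) (nat_lit 11145363208508) (nat_lit 76) (nat_lit 1313594592252) (nat_lit 76) (nat_lit 1313237175351) (nat_lit 1) (nat_lit 4) (nat_lit 2) (nat_lit 5) (nat_lit 2) (nat_lit 4) (nat_lit 413) (nat_lit 319) (nat_lit 288)))))) (XT.nd (nat_lit 390) (nat_lit 0) (nat_lit 0) (XT.nd (nat_lit 156) (nat_lit 0) (nat_lit 0) (XT.nd (nat_lit 78) (nat_lit 0) (nat_lit 0) (XT.lf (nat_lit 0) (nat_lit 12825833103434) (nat_lit 76) (nat_lit 1506106856635) (nat_lit 76) (nat_lit 1505748819326)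 (nat_lit 1) (nat_lit 4) (nat_lit 2) (nat_lit 5) (nat_lit 2) (nat_lit 4) (nat_lit 414) (nat_lit 319) (nat_lit 287)) (XT.lf (nat_lit 0) (nat_lit 14758346395917) (nat_lit 76) (nat_lit 1727509941293) (nat_lit 76) (nat_lit 1727151364500) (nat_lit 1) (nat_lit 4) (nat_lit 2) (nat_lit 5) (nat_lit 2) (nat_lit 4) (nat_lit 415) (nat_lit 319) (nat_lit 286))) (XT.nd (nat_lit 78) (nat_lit 0) (nat_lit 0) (XT.lf (nat_lit 0) (nat_lit 16980713128638) (nat_lit 76) (nat_lit 1982135645710) (nat_lit 76) (nat_lit 1981776599800) (nat_lit 1) (nat_lit 4) (nat_lit 2) (nat_lit 5) (nat_lit 2) (nat_lit 4) (nat_lit 416) (nat_lit 319) (nat_lit 285)) (XT.nd (nat_lit 78) (nat_lit 0) (nat_lit 0) (XT.lf (nat_lit 0) (nat_lit 19536414389845) (nat_lit 76) (nat_lit 2274965777146) (nat_lit 76) (nat_lit 2274606323308) (nat_lit 1) (nat_lit 4) (nat_lit 2) (nat_lit 5) (nat_lit 2) (nat_lit 4) (nat_lit 417) (nat_lit 319) (nat_lit 284))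 (XT.lf (nat_lit 0) (nat_lit 22475453030301) (nat_lit 76) (nat_lit 2611729620781) (nat_lit 76) (nat_lit 2611369812224) (nat_lit 1) (nat_lit 4) (nat_lit 2) (nat_lit 5) (nat_lit 2) (nat_lit 4) (nat_lit 418) (nat_lit 319) (nat_lit 283))))) (XT.nd (nat_lit 156) (nat_lit 0) (nat_lit 0) (XT.nd (nat_lit 78) (nat_lit 0) (nat_lit 0) (XT.lf (nat_lit 0) (nat_lit 25855331979928) (nat_lit 76) (nat_lit 2999016034426) (nat_lit 76) (nat_lit 2998655917416) (nat_lit 1) (nat_lit 4) (nat_lit 2) (nat_lit 5) (nat_lit 2) (nat_lit 4) (nat_lit 419) (nat_lit 319) (nat_lit 282)) (XT.lf (nat_lit 0) (nat_lit 29742179305132) (nat_lit 76) (nat_lit 3444402360956) (nat_lit 76) (nat_lit 3444041975727) (nat_lit 1) (nat_lit 4) (nat_lit 2) (nat_lit 5) (nat_lit 2) (nat_lit 4) (nat_lit 420) (nat_lit 319) (nat_lit 281))) (XT.nd (nat_lit 78) (nat_lit 0) (nat_lit 0) (XT.lf (nat_lit 0) (nat_lit 34212042018796) (nat_lit 76) (nat_lit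 3956602680673) (nat_lit 76) (nat_lit 3956242062210) (nat_lit 1) (nat_lit 4) (nat_lit 2) (nat_lit 5) (nat_lit 2) (nat_lit 4) (nat_lit 421) (nat_lit 319) (nat_lit 280)) (XT.nd (nat_lit 49842) (nat_lit 0) (nat_lit 76) (XT.lf (nat_lit 0) (nat_lit 39352373956624) (nat_lit 76) (nat_lit 4545638304179) (nat_lit 76) (nat_lit 4545277482904) (nat_lit 1) (nat_lit 4) (nat_lit 2) (nat_lit 5) (nat_lit 2) (nat_lit 4) (nat_lit 422) (nat_lit 319) (nat_lit 279)) (XT.lf (nat_lit 0) (nat_lit 31052715039) (nat_lit 152) (nat_lit 8758366415) (nat_lit 0) (nat_lit 31052715039) (nat_lit 2) (nat_lit 5) (nat_lit 4) (nat_lit 4) (nat_lit 2) (nat_lit 4) (nat_lit 380) (nat_lit 320) (nat_lit 320))))))))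
noncomputable def xc12 : XT := (XT.nd (nat_lit 1404) (nat_lit 0) (nat_lit 0) (XT.nd (nat_lit 702) (nat_lit 0) (nat_lit 0) (XT.nd (nat_lit 312) (nat_lit 0) (nat_lit 0) (XT.nd (nat_lit 156) (nat_lit 0) (nat_lit 0) (XT.nd (nat_lit 78) (nat_lit 0) (nat_lit 0) (XT.lf (nat_lit 0) (nat_lit 6705569144) (nat_lit 76) (nat_lit 77647926501) (nat_lit 76) (nat_lit 77593600498) (nat_lit 1) (nat_lit 4) (nat_lit 2) (nat_lit 5) (nat_lit 2) (nat_lit 4) (nat_lit 381) (nat_lit 320) (nat_lit 319)) (XT.lf (nat_lit 0) (nat_lit 33250129512) (nat_lit 76) (nat_lit 76050989181) (nat_lit 76) (nat_lit 75949423174) (nat_lit 1) (nat_lit 4) (nat_lit 2) (nat_lit 5) (nat_lit 2) (nat_lit 4) (nat_lit 382) (nat_lit 320) (nat_lit 318))) (XT.nd (nat_lit 78) (nat_lit 0) (nat_lit 0) (XT.lf (nat_lit 0) (nat_lit 61713898255) (nat_lit 76) (nat_lit 75279045040) (nat_lit 76) (nat_lit 75136400770) (nat_lit 1) (nat_lit 4) (nat_lit 2) (nat_lit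 5) (nat_lit 2) (nat_lit 4) (nat_lit 383) (nat_lit 320) (nat_lit 317)) (XT.lf (nat_lit 0) (nat_lit 92653775200) (nat_lit 76) (nat_lit 75316990824) (nat_lit 76) (nat_lit 75138626324) (nat_lit 1) (nat_lit 4) (nat_lit 2) (nat_lit 5) (nat_lit 2) (nat_lit 4) (nat_lit 384) (nat_lit 320) (nat_lit 316)))) (XT.nd (nat_lit 156) (nat_lit 0) (nat_lit 0) (XT.nd (nat_lit 78) (nat_lit 0) (nat_lit 0) (XT.lf (nat_lit 0) (nat_lit 126675105763) (nat_lit 76) (nat_lit 76165568949) (nat_lit 76) (nat_lit 75956143381) (nat_lit 1) (nat_lit 4) (nat_lit 2) (nat_lit 5) (nat_lit 2) (nat_lit 4) (nat_lit 385) (nat_lit 320) (nat_lit 315)) (XT.lf (nat_lit 0) (nat_lit 164443524673) (nat_lit 76) (nat_lit 77841382033) (nat_lit 76) (nat_lit 77604946840) (nat_lit 1) (nat_lit 4) (nat_lit 2) (nat_lit 5) (nat_lit 2) (nat_lit 4) (nat_lit 386) (nat_lit 320) (nat_lit 314))) (XT.nd (nat_lit 78) (nat_lit 0) (nat_lit 0) (XT.lf (nat_lit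 0) (nat_lit 206697979256) (nat_lit 76) (nat_lit 80377217721) (nat_lit 76) (nat_lit 80117295897) (nat_lit 1) (nat_lit 4) (nat_lit 2) (nat_lit 5) (nat_lit 2) (nat_lit 4) (nat_lit 387) (nat_lit 320) (nat_lit 313)) (XT.nd (nat_lit 78) (nat_lit 0) (nat_lit 0) (XT.lf (nat_lit 0) (nat_lit 254265187103) (nat_lit 76) (nat_lit 83822690190) (nat_lit 76) (nat_lit 83542345210) (nat_lit 1) (nat_lit 4) (nat_lit 2) (nat_lit 5) (nat_lit 2) (nat_lit 4) (nat_lit 388) (nat_lit 320) (nat_lit 312)) (XT.lf (nat_lit 0) (nat_lit 308075810975) (nat_lit 76) (nat_lit 88245210859) (nat_lit 76) (nat_lit 87947106612) (nat_lit 1) (nat_lit 4) (nat_lit 2) (nat_lit 5) (nat_lit 2) (nat_lit 4) (nat_lit 389) (nat_lit 320) (nat_lit 311)))))) (XT.nd (nat_lit 312) (nat_lit 0) (nat_lit 0) (XT.nd (nat_lit 156) (nat_lit 0) (nat_lit 0) (XT.nd (nat_lit 78) (nat_lit 0) (nat_lit 0) (XT.lf (nat_lit 0) (nat_lit 369182667427) (nat_lit 76)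 (nat_lit 93731307305) (nat_lit 76) (nat_lit 93417760217) (nat_lit 1) (nat_lit 4) (nat_lit 2) (nat_lit 5) (nat_lit 2) (nat_lit 4) (nat_lit 390) (nat_lit 320) (nat_lit 310)) (XT.lf (nat_lit 0) (nat_lit 438781325389) (nat_lit 76) (nat_lit 100388316199) (nat_lit 76) (nat_lit 100061340553) (nat_lit 1) (nat_lit 4) (nat_lit 2) (nat_lit 5) (nat_lit 2) (nat_lit 4) (nat_lit 391) (nat_lit 320) (nat_lit 309))) (XT.nd (nat_lit 78) (nat_lit 0) (nat_lit 0) (XT.lf (nat_lit 0) (nat_lit 518233497735) (nat_lit 76) (nat_lit 108346483365) (nat_lit 76) (nat_lit 108007830714) (nat_lit 1) (nat_lit 4) (nat_lit 2) (nat_lit 5) (nat_lit 2) (nat_lit 4) (nat_lit 392) (nat_lit 320) (nat_lit 308)) (XT.lf (nat_lit 0) (nat_lit 609093683487) (nat_lit 76) (nat_lit 117761512076) (nat_lit 76) (nat_lit 117412705506) (nat_lit 1) (nat_lit 4) (nat_lit 2) (nat_lit 5) (nat_lit 2) (nat_lit 4) (nat_lit 393) (nat_lit 320) (nat_lit 307))))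 (XT.nd (nat_lit 156) (nat_lit 0) (nat_lit 0) (XT.nd (nat_lit 78) (nat_lit 0) (nat_lit 0) (XT.lf (nat_lit 0) (nat_lit 713139581934) (nat_lit 76) (nat_lit 128817609414) (nat_lit 76) (nat_lit 128459973349) (nat_lit 1) (nat_lit 4) (nat_lit 2) (nat_lit 5) (nat_lit 2) (nat_lit 4) (nat_lit 394) (nat_lit 320) (nat_lit 306)) (XT.lf (nat_lit 0) (nat_lit 832406873696) (nat_lit 76) (nat_lit 141731090327) (nat_lit 76) (nat_lit 141365776442) (nat_lit 1) (nat_lit 4) (nat_lit 2) (nat_lit 5) (nat_lit 2) (nat_lit 4) (nat_lit 395) (nat_lit 320) (nat_lit 305))) (XT.nd (nat_lit 78) (nat_lit 0) (nat_lit 0) (XT.lf (nat_lit 0) (nat_lit 969229049265) (nat_lit 76) (nat_lit 156754609877) (nat_lit 76) (nat_lit 156382619625) (nat_lit 1) (nat_lit 4) (nat_lit 2) (nat_lit 5) (nat_lit 2) (nat_lit 4) (nat_lit 396) (nat_lit 320) (nat_lit 304)) (XT.nd (nat_lit 78) (nat_lit 0) (nat_lit 0) (XT.lf (nat_lit 0) (nat_lit 1126283064249)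 (nat_lit 76) (nat_lit 174182106490) (nat_lit 76) (nat_lit 173804310702) (nat_lit 1) (nat_lit 4) (nat_lit 2) (nat_lit 5) (nat_lit 2) (nat_lit 4) (nat_lit 397) (nat_lit 320) (nat_lit 303)) (XT.lf (nat_lit 0) (nat_lit 1306641714595) (nat_lit 76) (nat_lit 194354552925) (nat_lit 76) (nat_lit 193971708845) (nat_lit 1) (nat_lit 4) (nat_lit 2) (nat_lit 5) (nat_lit 2) (nat_lit 4) (nat_lit 398) (nat_lit 320) (nat_lit 302))))))) (XT.nd (nat_lit 702) (nat_lit 0) (nat_lit 0) (XT.nd (nat_lit 312) (nat_lit 0) (nat_lit 0) (XT.nd (nat_lit 156) (nat_lit 0) (nat_lit 0) (XT.nd (nat_lit 78) (nat_lit 0) (nat_lit 0) (XT.lf (nat_lit 0) (nat_lit 1513833756504) (nat_lit 76) (nat_lit 217666627483) (nat_lit 76) (nat_lit 217279393584) (nat_lit 1) (nat_lit 4) (nat_lit 2) (nat_lit 5) (nat_lit 2) (nat_lit 4) (nat_lit 399) (nat_lit 320) (nat_lit 301)) (XT.lf (nat_lit 0) (nat_lit 1751912947318) (nat_lit 76) (nat_lit 244574435969)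 (nat_lit 76) (nat_lit 244183384836) (nat_lit 1) (nat_lit 4) (nat_lit 2) (nat_lit 5) (nat_lit 2) (nat_lit 4) (nat_lit 400) (nat_lit 320) (nat_lit 300))) (XT.nd (nat_lit 78) (nat_lit 0) (nat_lit 0) (XT.lf (nat_lit 0) (nat_lit 2025537358161) (nat_lit 76) (nat_lit 275604435507) (nat_lit 76) (nat_lit 275210065040) (nat_lit 1) (nat_lit 4) (nat_lit 2) (nat_lit 5) (nat_lit 2) (nat_lit 4) (nat_lit 401) (nat_lit 320) (nat_lit 299)) (XT.lf (nat_lit 0) (nat_lit 2340060510116) (nat_lit 76) (nat_lit 311363734782) (nat_lit 76) (nat_lit 310966477938) (nat_lit 1) (nat_lit 4) (nat_lit 2) (nat_lit 5) (nat_lit 2) (nat_lit 4) (nat_lit 402) (nat_lit 320) (nat_lit 298)))) (XT.nd (nat_lit 156) (nat_lit 0) (nat_lit 0) (XT.nd (nat_lit 78) (nat_lit 0) (nat_lit 0) (XT.lf (nat_lit 0) (nat_lit 2701636117025) (nat_lit 76) (nat_lit 352551972260) (nat_lit 76) (nat_lit 352152205522) (nat_lit 1) (nat_lit 4) (nat_lit 2) (nat_lit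 5) (nat_lit 2) (nat_lit 4) (nat_lit 403) (nat_lit 320) (nat_lit 297)) (XT.lf (nat_lit 0) (nat_lit 3117338484241) (nat_lit 76) (nat_lit 399975004760) (nat_lit 76) (nat_lit 399573055507) (nat_lit 1) (nat_lit 4) (nat_lit 2) (nat_lit 5) (nat_lit 2) (nat_lit 4) (nat_lit 404) (nat_lit 320) (nat_lit 296))) (XT.nd (nat_lit 78) (nat_lit 0) (nat_lit 0) (XT.lf (nat_lit 0) (nat_lit 3595300918948) (nat_lit 76) (nat_lit 454560674223) (nat_lit 76) (nat_lit 454156827129) (nat_lit 1) (nat_lit 4) (nat_lit 2) (nat_lit 5) (nat_lit 2) (nat_lit 4) (nat_lit 405) (nat_lit 320) (nat_lit 295)) (XT.nd (nat_lit 78) (nat_lit 0) (nat_lit 0) (XT.lf (nat_lit 0) (nat_lit 4144874860086) (nat_lit 76) (nat_lit 517376961138) (nat_lit 76) (nat_lit 516971463748) (nat_lit 1) (nat_lit 4) (nat_lit 2) (nat_lit 5) (nat_lit 2) (nat_lit 4) (nat_lit 406) (nat_lit 320) (nat_lit 294)) (XT.lf (nat_lit 0) (nat_lit 4776812841286) (nat_lit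 76) (nat_lit 589652879814) (nat_lit 76) (nat_lit 589245947385) (nat_lit 1) (nat_lit 4) (nat_lit 2) (nat_lit 5) (nat_lit 2) (nat_lit 4) (nat_lit 407) (nat_lit 320) (nat_lit 293)))))) (XT.nd (nat_lit 390) (nat_lit 0) (nat_lit 0) (XT.nd (nat_lit 156) (nat_lit 0) (nat_lit 0) (XT.nd (nat_lit 78) (nat_lit 0) (nat_lit 0) (XT.lf (nat_lit 0) (nat_lit 5503478866529) (nat_lit 76) (nat_lit 672802524312) (nat_lit 76) (nat_lit 672394344022) (nat_lit 1) (nat_lit 4) (nat_lit 2) (nat_lit 5) (nat_lit 2) (nat_lit 4) (nat_lit 408) (nat_lit 320) (nat_lit 292)) (XT.lf (nat_lit 0) (nat_lit 6339090314568) (nat_lit 76) (nat_lit 768452735503) (nat_lit 76) (nat_lit 768043470117) (nat_lit 1) (nat_lit 4) (nat_lit 2) (nat_lit 5) (nat_lit 2) (nat_lit 4) (nat_lit 409) (nat_lit 320) (nat_lit 291))) (XT.nd (nat_lit 78) (nat_lit 0) (nat_lit 0) (XT.lf (nat_lit 0) (nat_lit 7299996105039) (nat_lit 76) (nat_lit 878474930563) (nat_lit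 76) (nat_lit 878064721615) (nat_lit 1) (nat_lit 4) (nat_lit 2) (nat_lit 5) (nat_lit 2) (nat_lit 4) (nat_lit 410) (nat_lit 320) (nat_lit 290)) (XT.nd (nat_lit 78) (nat_lit 0) (nat_lit 0) (XT.lf (nat_lit 0) (nat_lit 8404996568626) (nat_lit 76) (nat_lit 1005021717655) (nat_lit 76) (nat_lit 1004610688219) (nat_lit 1) (nat_lit 4) (nat_lit 2) (nat_lit 5) (nat_lit 2) (nat_lit 4) (nat_lit 411) (nat_lit 320) (nat_lit 289)) (XT.lf (nat_lit 0) (nat_lit 9675711279617) (nat_lit 76) (nat_lit 1150569012179) (nat_lit 76) (nat_lit 1150157269275) (nat_lit 1) (nat_lit 4) (nat_lit 2) (nat_lit 5) (nat_lit 2) (nat_lit 4) (nat_lit 412) (nat_lit 320) (nat_lit 288))))) (XT.nd (nat_lit 156) (nat_lit 0) (nat_lit 0) (XT.nd (nat_lit 78) (nat_lit 0) (nat_lit 0) (XT.lf (nat_lit 0) (nat_lit 11137002047573) (nat_lit 76) (nat_lit 1317964478594) (nat_lit 76) (nat_lit 1317552115282) (nat_lit 1) (nat_lit 4) (nat_lit 2) (nat_lit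 5) (nat_lit 2) (nat_lit 4) (nat_lit 413) (nat_lit 320) (nat_lit 287)) (XT.lf (nat_lit 0) (nat_lit 12817459344042) (nat_lit 76) (nat_lit 1510483245590) (nat_lit 76) (nat_lit 1510070342793) (nat_lit 1) (nat_lit 4) (nat_lit 2) (nat_lit 5) (nat_lit 2) (nat_lit 4) (nat_lit 414) (nat_lit 320) (nat_lit 286))) (XT.nd (nat_lit 78) (nat_lit 0) (nat_lit 0) (XT.lf (nat_lit 0) (nat_lit 14749961681346) (nat_lit 76) (nat_lit 1731891984695) (nat_lit 76) (nat_lit 1731478612781) (nat_lit 1) (nat_lit 4) (nat_lit 2) (nat_lit 5) (nat_lit 2) (nat_lit 4) (nat_lit 415) (nat_lit 320) (nat_lit 285)) (XT.nd (nat_lit 78) (nat_lit 0) (nat_lit 0) (XT.lf (nat_lit 0) (nat_lit 16972318887825) (nat_lit 76) (nat_lit 1986522606022) (nat_lit 76) (nat_lit 1986108826180) (nat_lit 1) (nat_lit 4) (nat_lit 2) (nat_lit 5) (nat_lit 2) (nat_lit 4) (nat_lit 416) (nat_lit 320) (nat_lit 284)) (XT.lf (nat_lit 0) (nat_lit 19528011865342)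 (nat_lit 76) (nat_lit 2279357013032) (nat_lit 76) (nat_lit 2278942878470) (nat_lit 1) (nat_lit 4) (nat_lit 2) (nat_lit 5) (nat_lit 2) (nat_lit 4) (nat_lit 417) (nat_lit 320) (nat_lit 283))))))))
noncomputable def xc13 : XT := (XT.nd (nat_lit 51012) (nat_lit 0) (nat_lit 0) (XT.nd (nat_lit 50310) (nat_lit 0) (nat_lit 0) (XT.nd (nat_lit 312) (nat_lit 0) (nat_lit 0) (XT.nd (nat_lit 156) (nat_lit 0) (nat_lit 0) (XT.nd (nat_lit 78) (nat_lit 0) (nat_lit 0) (XT.lf (nat_lit 0) (nat_lit 22467043302590) (nat_lit 76) (nat_lit 2616124574557) (nat_lit 76) (nat_lit 2615710131544) (nat_lit 1) (nat_lit 4) (nat_lit 2) (nat_lit 5) (nat_lit 2) (nat_lit 4) (nat_lit 418) (nat_lit 320) (nat_lit 282)) (XT.lf (nat_lit 0) (nat_lit 25846915988558) (nat_lit 76) (nat_lit 3003414221150) (nat_lit 76) (nat_lit 3002999509918) (nat_lit 1) (nat_lit 4) (nat_lit 2) (nat_lit 5) (nat_lit 2) (nat_lit 4) (nat_lit 419) (nat_lit 320)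 (nat_lit 281))) (XT.nd (nat_lit 78) (nat_lit 0) (nat_lit 0) (XT.lf (nat_lit 0) (nat_lit 29733757867101) (nat_lit 76) (nat_lit 3448803358939) (nat_lit 76) (nat_lit 3448388414473) (nat_lit 1) (nat_lit 4) (nat_lit 2) (nat_lit 5) (nat_lit 2) (nat_lit 4) (nat_lit 420) (nat_lit 320) (nat_lit 280)) (XT.lf (nat_lit 0) (nat_lit 34203615844540) (nat_lit 76) (nat_lit 3961006123229) (nat_lit 76) (nat_lit 3960590975950) (nat_lit 1) (nat_lit 4) (nat_lit 2) (nat_lit 5) (nat_lit 2) (nat_lit 4) (nat_lit 421) (nat_lit 320) (nat_lit 279)))) (XT.nd (nat_lit 49764) (nat_lit 0) (nat_lit 0) (XT.nd (nat_lit 49686) (nat_lit 0) (nat_lit 76) (XT.lf (nat_lit 0) (nat_lit 39343943663910) (nat_lit 76) (nat_lit 4550043872452) (nat_lit 76) (nat_lit 4549628548815) (nat_lit 1) (nat_lit 4) (nat_lit 2) (nat_lit 5) (nat_lit 2) (nat_lit 4) (nat_lit 422) (nat_lit 320) (nat_lit 278)) (XT.lf (nat_lit 0) (nat_lit 11819467631) (nat_lit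 152) (nat_lit 30883757839) (nat_lit 0) (nat_lit 11819467631) (nat_lit 2) (nat_lit 5) (nat_lit 4) (nat_lit 4) (nat_lit 2) (nat_lit 4) (nat_lit 378) (nat_lit 321) (nat_lit 321))) (XT.nd (nat_lit 78) (nat_lit 76) (nat_lit 0) (XT.lf (nat_lit 0) (nat_lit 41871404802) (nat_lit 152) (nat_lit 40541115030) (nat_lit 0) (nat_lit 41808929898) (nat_lit 2) (nat_lit 5) (nat_lit 4) (nat_lit 4) (nat_lit 2) (nat_lit 4) (nat_lit 379) (nat_lit 321) (nat_lit 320)) (XT.nd (nat_lit 78) (nat_lit 76) (nat_lit 0) (XT.lf (nat_lit 0) (nat_lit 61584566034) (nat_lit 152) (nat_lit 18721931565) (nat_lit 0) (nat_lit 61467765126) (nat_lit 2) (nat_lit 5) (nat_lit 4) (nat_lit 4) (nat_lit 2) (nat_lit 4) (nat_lit 380) (nat_lit 321) (nat_lit 319)) (XT.lf (nat_lit 0) (nat_lit 4333722115) (nat_lit 76) (nat_lit 78934615249) (nat_lit 76) (nat_lit 78770574339) (nat_lit 1) (nat_lit 4) (nat_lit 2) (nat_lit 5) (nat_lit 2) (nat_lit 4)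 (nat_lit 381) (nat_lit 321) (nat_lit 318)))))) (XT.nd (nat_lit 312) (nat_lit 0) (nat_lit 0) (XT.nd (nat_lit 156) (nat_lit 0) (nat_lit 0) (XT.nd (nat_lit 78) (nat_lit 0) (nat_lit 0) (XT.lf (nat_lit 0) (nat_lit 29918991469) (nat_lit 76) (nat_lit 77832809918) (nat_lit 76) (nat_lit 77627690744) (nat_lit 1) (nat_lit 4) (nat_lit 2) (nat_lit 5) (nat_lit 2) (nat_lit 4) (nat_lit 382) (nat_lit 321) (nat_lit 317)) (XT.lf (nat_lit 0) (nat_lit 57548594114) (nat_lit 76) (nat_lit 77491415334) (nat_lit 76) (nat_lit 77250575930) (nat_lit 1) (nat_lit 4) (nat_lit 2) (nat_lit 5) (nat_lit 2) (nat_lit 4) (nat_lit 383) (nat_lit 321) (nat_lit 316))) (XT.nd (nat_lit 78) (nat_lit 0) (nat_lit 0) (XT.lf (nat_lit 0) (nat_lit 87763109234) (nat_lit 76) (nat_lit 77903752036) (nat_lit 76) (nat_lit 77631851564) (nat_lit 1) (nat_lit 4) (nat_lit 2) (nat_lit 5) (nat_lit 2) (nat_lit 4) (nat_lit 384) (nat_lit 321) (nat_lit 315))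 (XT.lf (nat_lit 0) (nat_lit 121153690384) (nat_lit 76) (nat_lit 79077887482) (nat_lit 76) (nat_lit 78778977385) (nat_lit 1) (nat_lit 4) (nat_lit 2) (nat_lit 5) (nat_lit 2) (nat_lit 4) (nat_lit 385) (nat_lit 321) (nat_lit 314)))) (XT.nd (nat_lit 156) (nat_lit 0) (nat_lit 0) (XT.nd (nat_lit 78) (nat_lit 0) (nat_lit 0) (XT.lf (nat_lit 0) (nat_lit 158373631544) (nat_lit 76) (nat_lit 81036793887) (nat_lit 76) (nat_lit 80714397160) (nat_lit 1) (nat_lit 4) (nat_lit 2) (nat_lit 5) (nat_lit 2) (nat_lit 4) (nat_lit 386) (nat_lit 321) (nat_lit 313)) (XT.lf (nat_lit 0) (nat_lit 200151148953) (nat_lit 76) (nat_lit 83818797682) (nat_lit 76) (nat_lit 83475977797) (nat_lit 1) (nat_lit 4) (nat_lit 2) (nat_lit 5) (nat_lit 2) (nat_lit 4) (nat_lit 387) (nat_lit 321) (nat_lit 312))) (XT.nd (nat_lit 78) (nat_lit 0) (nat_lit 0) (XT.lf (nat_lit 0) (nat_lit 247303628823) (nat_lit 76) (nat_lit 87478329374) (nat_lit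 76) (nat_lit 87117750222) (nat_lit 1) (nat_lit 4) (nat_lit 2) (nat_lit 5) (nat_lit 2) (nat_lit 4) (nat_lit 388) (nat_lit 321) (nat_lit 311)) (XT.nd (nat_lit 78) (nat_lit 0) (nat_lit 0) (XT.lf (nat_lit 0) (nat_lit 300753619671) (nat_lit 76) (nat_lit 92086988497) (nat_lit 76) (nat_lit 91710966505) (nat_lit 1) (nat_lit 4) (nat_lit 2) (nat_lit 5) (nat_lit 2) (nat_lit 4) (nat_lit 389) (nat_lit 321) (nat_lit 310)) (XT.lf (nat_lit 0) (nat_lit 361546882189) (nat_lit 76) (nat_lit 97734944469) (nat_lit 76) (nat_lit 97345493919) (nat_lit 1) (nat_lit 4) (nat_lit 2) (nat_lit 5) (nat_lit 2) (nat_lit 4) (nat_lit 390) (nat_lit 321) (nat_lit 309))))))) (XT.nd (nat_lit 702) (nat_lit 0) (nat_lit 0) (XT.nd (nat_lit 312) (nat_lit 0) (nat_lit 0) (XT.nd (nat_lit 156) (nat_lit 0) (nat_lit 0) (XT.nd (nat_lit 78) (nat_lit 0) (nat_lit 0) (XT.lf (nat_lit 0) (nat_lit 430872849774) (nat_lit 76) (nat_lit 104532700776)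 (nat_lit 76) (nat_lit 104131573220) (nat_lit 1) (nat_lit 4) (nat_lit 2) (nat_lit 5) (nat_lit 2) (nat_lit 4) (nat_lit 391) (nat_lit 321) (nat_lit 308)) (XT.lf (nat_lit 0) (nat_lit 510087900052) (nat_lit 76) (nat_lit 112613256998) (nat_lit 76) (nat_lit 112201975524) (nat_lit 1) (nat_lit 4) (nat_lit 2) (nat_lit 5) (nat_lit 2) (nat_lit 4) (nat_lit 392) (nat_lit 321) (nat_lit 307))) (XT.nd (nat_lit 78) (nat_lit 0) (nat_lit 0) (XT.lf (nat_lit 0) (nat_lit 600741892703) (nat_lit 76) (nat_lit 122134710974) (nat_lit 76) (nat_lit 121714600005) (nat_lit 1) (nat_lit 4) (nat_lit 2) (nat_lit 5) (nat_lit 2) (nat_lit 4) (nat_lit 393) (nat_lit 321) (nat_lit 306)) (XT.lf (nat_lit 0) (nat_lit 704608492800) (nat_lit 76) (nat_lit 133283352021) (nat_lit 76) (nat_lit 132855563231) (nat_lit 1) (nat_lit 4) (nat_lit 2) (nat_lit 5) (nat_lit 2) (nat_lit 4) (nat_lit 394) (nat_lit 321) (nat_lit 305)))) (XT.nd (nat_lit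 156) (nat_lit 0) (nat_lit 0) (XT.nd (nat_lit 78) (nat_lit 0) (nat_lit 0) (XT.lf (nat_lit 0) (nat_lit 823719872954) (nat_lit 76) (nat_lit 146277305725) (nat_lit 76) (nat_lit 145842840569) (nat_lit 1) (nat_lit 4) (nat_lit 2) (nat_lit 5) (nat_lit 2) (nat_lit 4) (nat_lit 395) (nat_lit 321) (nat_lit 304)) (XT.lf (nat_lit 0) (nat_lit 960406473212) (nat_lit 76) (nat_lit 161370801615) (nat_lit 76) (nat_lit 160930530923) (nat_lit 1) (nat_lit 4) (nat_lit 2) (nat_lit 5) (nat_lit 2) (nat_lit 4) (nat_lit 396) (nat_lit 321) (nat_lit 303))) (XT.nd (nat_lit 78) (nat_lit 0) (nat_lit 0) (XT.lf (nat_lit 0) (nat_lit 1117342596621) (nat_lit 76) (nat_lit 178859147218) (nat_lit 76) (nat_lit 178413828234) (nat_lit 1) (nat_lit 4) (nat_lit 2) (nat_lit 5) (nat_lit 2) (nat_lit 4) (nat_lit 397) (nat_lit 321) (nat_lit 302)) (XT.nd (nat_lit 78) (nat_lit 0) (nat_lit 0) (XT.lf (nat_lit 0) (nat_lit 1297598732553) (nat_lit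 76) (nat_lit 199084505820) (nat_lit 76) (nat_lit 198634797016) (nat_lit 1) (nat_lit 4) (nat_lit 2) (nat_lit 5) (nat_lit 2) (nat_lit 4) (nat_lit 398) (nat_lit 321) (nat_lit 301)) (XT.lf (nat_lit 0) (nat_lit 1504701631494) (nat_lit 76) (nat_lit 222442590956) (nat_lit 76) (nat_lit 221989064919) (nat_lit 1) (nat_lit 4) (nat_lit 2) (nat_lit 5) (nat_lit 2) (nat_lit 4) (nat_lit 399) (nat_lit 321) (nat_lit 300)))))) (XT.nd (nat_lit 390) (nat_lit 0) (nat_lit 0) (XT.nd (nat_lit 156) (nat_lit 0) (nat_lit 0) (XT.nd (nat_lit 78) (nat_lit 0) (nat_lit 0) (XT.lf (nat_lit 0) (nat_lit 1742703306684) (nat_lit 76) (nat_lit 249390408642) (nat_lit 76) (nat_lit 248933563270) (nat_lit 1) (nat_lit 4) (nat_lit 2) (nat_lit 5) (nat_lit 2) (nat_lit 4) (nat_lit 400) (nat_lit 321) (nat_lit 299)) (XT.lf (nat_lit 0) (nat_lit 2016260312636) (nat_lit 76) (nat_lit 280455198788) (nat_lit 76) (nat_lit 279995467039) (nat_lit 1)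 (nat_lit 4) (nat_lit 2) (nat_lit 5) (nat_lit 2) (nat_lit 4) (nat_lit 401) (nat_lit 321) (nat_lit 298))) (XT.nd (nat_lit 78) (nat_lit 0) (nat_lit 0) (XT.lf (nat_lit 0) (nat_lit 2330724851643) (nat_lit 76) (nat_lit 316244750766) (nat_lit 76) (nat_lit 315782509124) (nat_lit 1) (nat_lit 4) (nat_lit 2) (nat_lit 5) (nat_lit 2) (nat_lit 4) (nat_lit 402) (nat_lit 321) (nat_lit 297)) (XT.nd (nat_lit 78) (nat_lit 0) (nat_lit 0) (XT.lf (nat_lit 0) (nat_lit 2692249490771) (nat_lit 76) (nat_lit 357459294942) (nat_lit 76) (nat_lit 356994870784) (nat_lit 1) (nat_lit 4) (nat_lit 2) (nat_lit 5) (nat_lit 2) (nat_lit 4) (nat_lit 403) (nat_lit 321) (nat_lit 296)) (XT.lf (nat_lit 0) (nat_lit 3107907538177) (nat_lit 76) (nat_lit 404905202832) (nat_lit 76) (nat_lit 404438880834) (nat_lit 1) (nat_lit 4) (nat_lit 2) (nat_lit 5) (nat_lit 2) (nat_lit 4) (nat_lit 404) (nat_lit 321) (nat_lit 295))))) (XT.nd (nat_lit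 156) (nat_lit 0) (nat_lit 0) (XT.nd (nat_lit 78) (nat_lit 0) (nat_lit 0) (XT.lf (nat_lit 0) (nat_lit 3585831433918) (nat_lit 76) (nat_lit 459510763937) (nat_lit 76) (nat_lit 459042791644) (nat_lit 1) (nat_lit 4) (nat_lit 2) (nat_lit 5) (nat_lit 2) (nat_lit 4) (nat_lit 405) (nat_lit 321) (nat_lit 294)) (XT.lf (nat_lit 0) (nat_lit 4135371862913) (nat_lit 76) (nat_lit 522344347933) (nat_lit 76) (nat_lit 521874940600) (nat_lit 1) (nat_lit 4) (nat_lit 2) (nat_lit 5) (nat_lit 2) (nat_lit 4) (nat_lit 406) (nat_lit 321) (nat_lit 293))) (XT.nd (nat_lit 78) (nat_lit 0) (nat_lit 0) (XT.lf (nat_lit 0) (nat_lit 4767280703119) (nat_lit 76) (nat_lit 594635307549) (nat_lit 76) (nat_lit 594164652355) (nat_lit 1) (nat_lit 4) (nat_lit 2) (nat_lit 5) (nat_lit 2) (nat_lit 4) (nat_lit 407) (nat_lit 321) (nat_lit 292)) (XT.nd (nat_lit 78) (nat_lit 0) (nat_lit 0) (XT.lf (nat_lit 0) (nat_lit 5493921388366) (nat_lit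 76) (nat_lit 677798031125) (nat_lit 76) (nat_lit 677326290835) (nat_lit 1) (nat_lit 4) (nat_lit 2) (nat_lit 5) (nat_lit 2) (nat_lit 4) (nat_lit 408) (nat_lit 321) (nat_lit 291)) (XT.lf (nat_lit 0) (nat_lit 6329510801627) (nat_lit 76) (nat_lit 773459615428) (nat_lit 76) (nat_lit 772986931576) (nat_lit 1) (nat_lit 4) (nat_lit 2) (nat_lit 5) (nat_lit 2) (nat_lit 4) (nat_lit 409) (nat_lit 321) (nat_lit 290))))))))
noncomputable def xc14 : XT := (XT.nd (nat_lit 50856) (nat_lit 0) (nat_lit 0) (XT.nd (nat_lit 702) (nat_lit 0) (nat_lit 0) (XT.nd (nat_lit 312) (nat_lit 0) (nat_lit 0) (XT.nd (nat_lit 156) (nat_lit 0) (nat_lit 0) (XT.nd (nat_lit 78) (nat_lit 0) (nat_lit 0) (XT.lf (nat_lit 0) (nat_lit 7290397431421) (nat_lit 76) (nat_lit 883491700150) (nat_lit 76) (nat_lit 883018195809) (nat_lit 1) (nat_lit 4) (nat_lit 2) (nat_lit 5) (nat_lit 2) (nat_lit 4) (nat_lit 410) (nat_lit 321) (nat_lit 289))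 (XT.lf (nat_lit 0) (nat_lit 8395381233550) (nat_lit 76) (nat_lit 1010047086948) (nat_lit 76) (nat_lit 1009572869139) (nat_lit 1) (nat_lit 4) (nat_lit 2) (nat_lit 5) (nat_lit 2) (nat_lit 4) (nat_lit 411) (nat_lit 321) (nat_lit 288))) (XT.nd (nat_lit 78) (nat_lit 0) (nat_lit 0) (XT.lf (nat_lit 0) (nat_lit 9666081456316) (nat_lit 76) (nat_lit 1155601859478) (nat_lit 76) (nat_lit 1155127021262) (nat_lit 1) (nat_lit 4) (nat_lit 2) (nat_lit 5) (nat_lit 2) (nat_lit 4) (nat_lit 412) (nat_lit 321) (nat_lit 287)) (XT.lf (nat_lit 0) (nat_lit 11127359625817) (nat_lit 76) (nat_lit 1323003828506) (nat_lit 76) (nat_lit 1322528450805) (nat_lit 1) (nat_lit 4) (nat_lit 2) (nat_lit 5) (nat_lit 2) (nat_lit 4) (nat_lit 413) (nat_lit 321) (nat_lit 286)))) (XT.nd (nat_lit 156) (nat_lit 0) (nat_lit 0) (XT.nd (nat_lit 78) (nat_lit 0) (nat_lit 0) (XT.lf (nat_lit 0) (nat_lit 12807805967107) (nat_lit 76) (nat_lit 1515528249948)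 (nat_lit 76) (nat_lit 1515052403131) (nat_lit 1) (nat_lit 4) (nat_lit 2) (nat_lit 5) (nat_lit 2) (nat_lit 4) (nat_lit 414) (nat_lit 321) (nat_lit 285)) (XT.lf (nat_lit 0) (nat_lit 14740298778168) (nat_lit 76) (nat_lit 1736941905963) (nat_lit 76) (nat_lit 1736465651218) (nat_lit 1) (nat_lit 4) (nat_lit 2) (nat_lit 5) (nat_lit 2) (nat_lit 4) (nat_lit 415) (nat_lit 321) (nat_lit 284))) (XT.nd (nat_lit 78) (nat_lit 0) (nat_lit 0) (XT.lf (nat_lit 0) (nat_lit 16962647700957) (nat_lit 76) (nat_lit 1991576802864) (nat_lit 76) (nat_lit 1991100193399) (nat_lit 1) (nat_lit 4) (nat_lit 2) (nat_lit 5) (nat_lit 2) (nat_lit 4) (nat_lit 416) (nat_lit 321) (nat_lit 283)) (XT.nd (nat_lit 78) (nat_lit 0) (nat_lit 0) (XT.lf (nat_lit 0) (nat_lit 19518333475267) (nat_lit 76) (nat_lit 2284414927764) (nat_lit 76) (nat_lit 2283938009847) (nat_lit 1) (nat_lit 4) (nat_lit 2) (nat_lit 5) (nat_lit 2) (nat_lit 4) (nat_lit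 417) (nat_lit 321) (nat_lit 282)) (XT.lf (nat_lit 0) (nat_lit 22457358648855) (nat_lit 76) (nat_lit 2621185722238) (nat_lit 76) (nat_lit 2620708536101) (nat_lit 1) (nat_lit 4) (nat_lit 2) (nat_lit 5) (nat_lit 2) (nat_lit 4) (nat_lit 418) (nat_lit 321) (nat_lit 281)))))) (XT.nd (nat_lit 49764) (nat_lit 0) (nat_lit 76) (XT.nd (nat_lit 156) (nat_lit 0) (nat_lit 0) (XT.nd (nat_lit 78) (nat_lit 0) (nat_lit 0) (XT.lf (nat_lit 0) (nat_lit 25837225888163) (nat_lit 76) (nat_lit 3008478180090) (nat_lit 76) (nat_lit 3008000760719) (nat_lit 1) (nat_lit 4) (nat_lit 2) (nat_lit 5) (nat_lit 2) (nat_lit 4) (nat_lit 419) (nat_lit 321) (nat_lit 280)) (XT.lf (nat_lit 0) (nat_lit 29724063030480) (nat_lit 76) (nat_lit 3453869762452) (nat_lit 76) (nat_lit 3453392140269) (nat_lit 1) (nat_lit 4) (nat_lit 2) (nat_lit 5) (nat_lit 2) (nat_lit 4) (nat_lit 420) (nat_lit 321) (nat_lit 279))) (XT.nd (nat_lit 78) (nat_lit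 0) (nat_lit 0) (XT.lf (nat_lit 0) (nat_lit 34193916889461) (nat_lit 76) (nat_lit 3966074652458) (nat_lit 76) (nat_lit 3965596853917) (nat_lit 1) (nat_lit 4) (nat_lit 2) (nat_lit 5) (nat_lit 2) (nat_lit 4) (nat_lit 421) (nat_lit 321) (nat_lit 278)) (XT.lf (nat_lit 0) (nat_lit 39334241127563) (nat_lit 76) (nat_lit 4555114250129) (nat_lit 76) (nat_lit 4554636298233) (nat_lit 1) (nat_lit 4) (nat_lit 2) (nat_lit 5) (nat_lit 2) (nat_lit 4) (nat_lit 422) (nat_lit 321) (nat_lit 277)))) (XT.nd (nat_lit 156) (nat_lit 0) (nat_lit 0) (XT.nd (nat_lit 78) (nat_lit 152) (nat_lit 0) (XT.lf (nat_lit 0) (nat_lit 33553454295) (nat_lit 76) (nat_lit 4359523159) (nat_lit 76) (nat_lit 4359523159) (nat_lit 4) (nat_lit 4) (nat_lit 5) (nat_lit 5) (nat_lit 5) (nat_lit 4) (nat_lit 376) (nat_lit 322) (nat_lit 322)) (XT.lf (nat_lit 0) (nat_lit 6602281324) (nat_lit 152) (nat_lit 82816432653) (nat_lit 0) (nat_lit 6530435184)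 (nat_lit 2) (nat_lit 5) (nat_lit 4) (nat_lit 4) (nat_lit 2) (nat_lit 4) (nat_lit 377) (nat_lit 322) (nat_lit 321))) (XT.nd (nat_lit 78) (nat_lit 0) (nat_lit 0) (XT.lf (nat_lit 0) (nat_lit 23039941611) (nat_lit 152) (nat_lit 63153494224) (nat_lit 0) (nat_lit 22905620567) (nat_lit 2) (nat_lit 5) (nat_lit 4) (nat_lit 4) (nat_lit 2) (nat_lit 4) (nat_lit 378) (nat_lit 322) (nat_lit 320)) (XT.nd (nat_lit 78) (nat_lit 0) (nat_lit 0) (XT.lf (nat_lit 0) (nat_lit 40689072203) (nat_lit 152) (nat_lit 43132292311) (nat_lit 0) (nat_lit 40500425155) (nat_lit 2) (nat_lit 5) (nat_lit 4) (nat_lit 4) (nat_lit 2) (nat_lit 4) (nat_lit 379) (nat_lit 322) (nat_lit 319)) (XT.lf (nat_lit 0) (nat_lit 59894982176) (nat_lit 152) (nat_lit 22361107746) (nat_lit 0) (nat_lit 59659095125) (nat_lit 2) (nat_lit 5) (nat_lit 4) (nat_lit 4) (nat_lit 2) (nat_lit 4) (nat_lit 380) (nat_lit 322) (nat_lit 318))))))) (XT.nd (nat_lit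 702) (nat_lit 0) (nat_lit 0) (XT.nd (nat_lit 312) (nat_lit 0) (nat_lit 0) (XT.nd (nat_lit 156) (nat_lit 0) (nat_lit 0) (XT.nd (nat_lit 78) (nat_lit 76) (nat_lit 0) (XT.lf (nat_lit 0) (nat_lit 81033439333) (nat_lit 152) (nat_lit 433547788) (nat_lit 0) (nat_lit 80756474020) (nat_lit 2) (nat_lit 5) (nat_lit 4) (nat_lit 4) (nat_lit 2) (nat_lit 4) (nat_lit 381) (nat_lit 322) (nat_lit 317)) (XT.lf (nat_lit 0) (nat_lit 24294725608) (nat_lit 76) (nat_lit 80807585313) (nat_lit 76) (nat_lit 80494899770) (nat_lit 1) (nat_lit 4) (nat_lit 2) (nat_lit 5) (nat_lit 2) (nat_lit 4) (nat_lit 382) (nat_lit 322) (nat_lit 316))) (XT.nd (nat_lit 78) (nat_lit 0) (nat_lit 0) (XT.lf (nat_lit 0) (nat_lit 51198966429) (nat_lit 76) (nat_lit 80840581646) (nat_lit 76) (nat_lit 80496835034) (nat_lit 1) (nat_lit 4) (nat_lit 2) (nat_lit 5) (nat_lit 2) (nat_lit 4) (nat_lit 383) (nat_lit 322) (nat_lit 315)) (XT.lf (nat_lit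 0) (nat_lit 80782732136) (nat_lit 76) (nat_lit 81578475669) (nat_lit 76) (nat_lit 81207719432) (nat_lit 1) (nat_lit 4) (nat_lit 2) (nat_lit 5) (nat_lit 2) (nat_lit 4) (nat_lit 384) (nat_lit 322) (nat_lit 314)))) (XT.nd (nat_lit 156) (nat_lit 0) (nat_lit 0) (XT.nd (nat_lit 78) (nat_lit 0) (nat_lit 0) (XT.lf (nat_lit 0) (nat_lit 113624835536) (nat_lit 76) (nat_lit 83035704437) (nat_lit 76) (nat_lit 82641461569) (nat_lit 1) (nat_lit 4) (nat_lit 2) (nat_lit 5) (nat_lit 2) (nat_lit 4) (nat_lit 385) (nat_lit 322) (nat_lit 313)) (XT.lf (nat_lit 0) (nat_lit 150367839522) (nat_lit 76) (nat_lit 85240778948) (nat_lit 76) (nat_lit 84826112924) (nat_lit 1) (nat_lit 4) (nat_lit 2) (nat_lit 5) (nat_lit 2) (nat_lit 4) (nat_lit 386) (nat_lit 322) (nat_lit 312))) (XT.nd (nat_lit 78) (nat_lit 0) (nat_lit 0) (XT.lf (nat_lit 0) (nat_lit 191730628954) (nat_lit 76) (nat_lit 88236841965) (nat_lit 76) (nat_lit 87804416674)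 (nat_lit 1) (nat_lit 4) (nat_lit 2) (nat_lit 5) (nat_lit 2) (nat_lit 4) (nat_lit 387) (nat_lit 322) (nat_lit 311)) (XT.nd (nat_lit 78) (nat_lit 0) (nat_lit 0) (XT.lf (nat_lit 0) (nat_lit 238522475799) (nat_lit 76) (nat_lit 92082512112) (nat_lit 76) (nat_lit 91634643980) (nat_lit 1) (nat_lit 4) (nat_lit 2) (nat_lit 5) (nat_lit 2) (nat_lit 4) (nat_lit 388) (nat_lit 322) (nat_lit 310)) (XT.lf (nat_lit 0) (nat_lit 291658872714) (nat_lit 76) (nat_lit 96853030761) (nat_lit 76) (nat_lit 96391734071) (nat_lit 1) (nat_lit 4) (nat_lit 2) (nat_lit 5) (nat_lit 2) (nat_lit 4) (nat_lit 389) (nat_lit 322) (nat_lit 309)))))) (XT.nd (nat_lit 390) (nat_lit 0) (nat_lit 0) (XT.nd (nat_lit 156) (nat_lit 0) (nat_lit 0) (XT.nd (nat_lit 78) (nat_lit 0) (nat_lit 0) (XT.lf (nat_lit 0) (nat_lit 352179444855) (nat_lit 76) (nat_lit 102641734146) (nat_lit 76) (nat_lit 102168760451) (nat_lit 1) (nat_lit 4) (nat_lit 2)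 (nat_lit 5) (nat_lit 2) (nat_lit 4) (nat_lit 390) (nat_lit 322) (nat_lit 308)) (XT.lf (nat_lit 0) (nat_lit 421268290372) (nat_lit 76) (nat_lit 109561879509) (nat_lit 76) (nat_lit 109078751895) (nat_lit 1) (nat_lit 4) (nat_lit 2) (nat_lit 5) (nat_lit 2) (nat_lit 4) (nat_lit 391) (nat_lit 322) (nat_lit 307))) (XT.nd (nat_lit 78) (nat_lit 0) (nat_lit 0) (XT.lf (nat_lit 0) (nat_lit 500277147549) (nat_lit 76) (nat_lit 117748860996) (nat_lit 76) (nat_lit 117256903888) (nat_lit 1) (nat_lit 4) (nat_lit 2) (nat_lit 5) (nat_lit 2) (nat_lit 4) (nat_lit 392) (nat_lit 322) (nat_lit 306)) (XT.nd (nat_lit 78) (nat_lit 0) (nat_lit 0) (XT.lf (nat_lit 0) (nat_lit 590751841850) (nat_lit 76) (nat_lit 127362858681) (nat_lit 76) (nat_lit 126863223752) (nat_lit 1) (nat_lit 4) (nat_lit 2) (nat_lit 5) (nat_lit 2) (nat_lit 4) (nat_lit 393) (nat_lit 322) (nat_lit 305)) (XT.lf (nat_lit 0) (nat_lit 694462530339) (nat_lit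 76) (nat_lit 138591972519) (nat_lit 76) (nat_lit 138085661223) (nat_lit 1) (nat_lit 4) (nat_lit 2) (nat_lit 5) (nat_lit 2) (nat_lit 4) (nat_lit 394) (nat_lit 322) (nat_lit 304))))) (XT.nd (nat_lit 156) (nat_lit 0) (nat_lit 0) (XT.nd (nat_lit 78) (nat_lit 0) (nat_lit 0) (XT.lf (nat_lit 0) (nat_lit 813438335181) (nat_lit 76) (nat_lit 151655902562) (nat_lit 76) (nat_lit 151143785731) (nat_lit 1) (nat_lit 4) (nat_lit 2) (nat_lit 5) (nat_lit 2) (nat_lit 4) (nat_lit 395) (nat_lit 322) (nat_lit 303)) (XT.lf (nat_lit 0) (nat_lit 950007043864) (nat_lit 76) (nat_lit 166810247443) (nat_lit 76) (nat_lit 166293082319) (nat_lit 1) (nat_lit 4) (nat_lit 2) (nat_lit 5) (nat_lit 2) (nat_lit 4) (nat_lit 396) (nat_lit 322) (nat_lit 302))) (XT.nd (nat_lit 78) (nat_lit 0) (nat_lit 0) (XT.lf (nat_lit 0) (nat_lit 1106840652860) (nat_lit 76) (nat_lit 184351505213) (nat_lit 76) (nat_lit 183829950270) (nat_lit 1) (nat_lit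 4) (nat_lit 2) (nat_lit 5) (nat_lit 2) (nat_lit 4) (nat_lit 397) (nat_lit 322) (nat_lit 301)) (XT.nd (nat_lit 78) (nat_lit 0) (nat_lit 0) (XT.lf (nat_lit 0) (nat_lit 1287007645824) (nat_lit 76) (nat_lit 204622874393) (nat_lit 76) (nat_lit 204097502216) (nat_lit 1) (nat_lit 4) (nat_lit 2) (nat_lit 5) (nat_lit 2) (nat_lit 4) (nat_lit 398) (nat_lit 322) (nat_lit 300)) (XT.lf (nat_lit 0) (nat_lit 1494033029140) (nat_lit 76) (nat_lit 228020968729) (nat_lit 76) (nat_lit 227492277218) (nat_lit 1) (nat_lit 4) (nat_lit 2) (nat_lit 5) (nat_lit 2) (nat_lit 4) (nat_lit 399) (nat_lit 322) (nat_lit 299))))))))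
noncomputable def xc15 : XT := (XT.nd (nat_lit 1404) (nat_lit 0) (nat_lit 0) (XT.nd (nat_lit 702) (nat_lit 0) (nat_lit 0) (XT.nd (nat_lit 312) (nat_lit 0) (nat_lit 0) (XT.nd (nat_lit 156) (nat_lit 0) (nat_lit 0) (XT.nd (nat_lit 78) (nat_lit 0) (nat_lit 0) (XT.lf (nat_lit 0) (nat_lit 1731967299439) (nat_lit 76) (nat_lit 255003577023) (nat_lit 76) (nat_lit 254471999134) (nat_lit 1) (nat_lit 4) (nat_lit 2) (nat_lit 5) (nat_lit 2) (nat_lit 4) (nat_lit 400) (nat_lit 322) (nat_lit 298)) (XT.lf (nat_lit 0) (nat_lit 2005465692444) (nat_lit 76) (nat_lit 286098619871) (nat_lit 76) (nat_lit 285564532090) (nat_lit 1) (nat_lit 4) (nat_lit 2) (nat_lit 5) (nat_lit 2) (nat_lit 4) (nat_lit 401) (nat_lit 322) (nat_lit 297))) (XT.nd (nat_lit 78) (nat_lit 0) (nat_lit 0) (XT.lf (nat_lit 0) (nat_lit 2319879263669) (nat_lit 76) (nat_lit 321914478548) (nat_lit 76) (nat_lit 321378208250) (nat_lit 1) (nat_lit 4) (nat_lit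 2) (nat_lit 5) (nat_lit 2) (nat_lit 4) (nat_lit 402) (nat_lit 322) (nat_lit 296)) (XT.lf (nat_lit 0) (nat_lit 2681359582987) (nat_lit 76) (nat_lit 363151898113) (nat_lit 76) (nat_lit 362613729975) (nat_lit 1) (nat_lit 4) (nat_lit 2) (nat_lit 5) (nat_lit 2) (nat_lit 4) (nat_lit 403) (nat_lit 322) (nat_lit 295)))) (XT.nd (nat_lit 156) (nat_lit 0) (nat_lit 0) (XT.nd (nat_lit 78) (nat_lit 0) (nat_lit 0) (XT.lf (nat_lit 0) (nat_lit 3096979091428) (nat_lit 76) (nat_lit 410617697646) (nat_lit 76) (nat_lit 410077879213) (nat_lit 1) (nat_lit 4) (nat_lit 2) (nat_lit 5) (nat_lit 2) (nat_lit 4) (nat_lit 404) (nat_lit 322) (nat_lit 294)) (XT.lf (nat_lit 0) (nat_lit 3574869475026) (nat_lit 76) (nat_lit 465240555833) (nat_lit 76) (nat_lit 464699302360) (nat_lit 1) (nat_lit 4) (nat_lit 2) (nat_lit 5) (nat_lit 2) (nat_lit 4) (nat_lit 405) (nat_lit 322) (nat_lit 293))) (XT.nd (nat_lit 78) (nat_lit 0) (nat_lit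 0) (XT.lf (nat_lit 0) (nat_lit 4124380763026) (nat_lit 76) (nat_lit 528089180768) (nat_lit 76) (nat_lit 527546679435) (nat_lit 1) (nat_lit 4) (nat_lit 2) (nat_lit 5) (nat_lit 2) (nat_lit 4) (nat_lit 406) (nat_lit 322) (nat_lit 292)) (XT.nd (nat_lit 78) (nat_lit 0) (nat_lit 0) (XT.lf (nat_lit 0) (nat_lit 4756264263237) (nat_lit 76) (nat_lit 600393219462) (nat_lit 76) (nat_lit 599849633033) (nat_lit 1) (nat_lit 4) (nat_lit 2) (nat_lit 5) (nat_lit 2) (nat_lit 4) (nat_lit 407) (nat_lit 322) (nat_lit 291)) (XT.lf (nat_lit 0) (nat_lit 5482882913706) (nat_lit 76) (nat_lit 683567316150) (nat_lit 76) (nat_lit 683022786159) (nat_lit 1) (nat_lit 4) (nat_lit 2) (nat_lit 5) (nat_lit 2) (nat_lit 4) (nat_lit 408) (nat_lit 322) (nat_lit 290)))))) (XT.nd (nat_lit 312) (nat_lit 0) (nat_lit 0) (XT.nd (nat_lit 156) (nat_lit 0) (nat_lit 0) (XT.nd (nat_lit 78) (nat_lit 0) (nat_lit 0) (XT.lf (nat_lit 0) (nat_lit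 6318453166290) (nat_lit 76) (nat_lit 779238790115) (nat_lit 76) (nat_lit 778693439635) (nat_lit 1) (nat_lit 4) (nat_lit 2) (nat_lit 5) (nat_lit 2) (nat_lit 4) (nat_lit 409) (nat_lit 322) (nat_lit 289)) (XT.lf (nat_lit 0) (nat_lit 7279323134626) (nat_lit 76) (nat_lit 889279474543) (nat_lit 76) (nat_lit 888733410595) (nat_lit 1) (nat_lit 4) (nat_lit 2) (nat_lit 5) (nat_lit 2) (nat_lit 4) (nat_lit 410) (nat_lit 322) (nat_lit 288))) (XT.nd (nat_lit 78) (nat_lit 0) (nat_lit 0) (XT.lf (nat_lit 0) (nat_lit 8384292448531) (nat_lit 76) (nat_lit 1015842339347) (nat_lit 76) (nat_lit 1015295654991) (nat_lit 1) (nat_lit 4) (nat_lit 2) (nat_lit 5) (nat_lit 2) (nat_lit 4) (nat_lit 411) (nat_lit 322) (nat_lit 287)) (XT.lf (nat_lit 0) (nat_lit 9654980072840) (nat_lit 76) (nat_lit 1161403614490) (nat_lit 76) (nat_lit 1160856390650) (nat_lit 1) (nat_lit 4) (nat_lit 2) (nat_lit 5) (nat_lit 2) (nat_lit 4) (nat_lit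 412) (nat_lit 322) (nat_lit 286)))) (XT.nd (nat_lit 156) (nat_lit 0) (nat_lit 0) (XT.nd (nat_lit 78) (nat_lit 0) (nat_lit 0) (XT.lf (nat_lit 0) (nat_lit 11116247287162) (nat_lit 76) (nat_lit 1328811237965) (nat_lit 76) (nat_lit 1328263545007) (nat_lit 1) (nat_lit 4) (nat_lit 2) (nat_lit 5) (nat_lit 2) (nat_lit 4) (nat_lit 413) (nat_lit 322) (nat_lit 285)) (XT.lf (nat_lit 0) (nat_lit 12796684102209) (nat_lit 76) (nat_lit 1521340576317) (nat_lit 76) (nat_lit 1520792475432) (nat_lit 1) (nat_lit 4) (nat_lit 2) (nat_lit 5) (nat_lit 2) (nat_lit 4) (nat_lit 414) (nat_lit 322) (nat_lit 284))) (XT.nd (nat_lit 78) (nat_lit 0) (nat_lit 0) (XT.lf (nat_lit 0) (nat_lit 14729168629581) (nat_lit 76) (nat_lit 1742758507905) (nat_lit 76) (nat_lit 1742210052300) (nat_lit 1) (nat_lit 4) (nat_lit 2) (nat_lit 5) (nat_lit 2) (nat_lit 4) (nat_lit 415) (nat_lit 322) (nat_lit 283)) (XT.nd (nat_lit 78) (nat_lit 0)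 (nat_lit 0) (XT.lf (nat_lit 0) (nat_lit 16951510349162) (nat_lit 76) (nat_lit 1997397122697) (nat_lit 76) (nat_lit 1996848358640) (nat_lit 1) (nat_lit 4) (nat_lit 2) (nat_lit 5) (nat_lit 2) (nat_lit 4) (nat_lit 416) (nat_lit 322) (nat_lit 282)) (XT.lf (nat_lit 0) (nat_lit 19507189859812) (nat_lit 76) (nat_lit 2290238480545) (nat_lit 76) (nat_lit 2289689448269) (nat_lit 1) (nat_lit 4) (nat_lit 2) (nat_lit 5) (nat_lit 2) (nat_lit 4) (nat_lit 417) (nat_lit 322) (nat_lit 281))))))) (XT.nd (nat_lit 49998) (nat_lit 0) (nat_lit 0) (XT.nd (nat_lit 312) (nat_lit 0) (nat_lit 0) (XT.nd (nat_lit 156) (nat_lit 0) (nat_lit 0) (XT.nd (nat_lit 78) (nat_lit 0) (nat_lit 0) (XT.lf (nat_lit 0) (nat_lit 22446209586740) (nat_lit 76) (nat_lit 2627012086278) (nat_lit 76) (nat_lit 2626462820768) (nat_lit 1) (nat_lit 4) (nat_lit 2) (nat_lit 5) (nat_lit 2) (nat_lit 4) (nat_lit 418) (nat_lit 322) (nat_lit 280)) (XT.lf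 (nat_lit 0) (nat_lit 25826072089822) (nat_lit 76) (nat_lit 3014306988703) (nat_lit 76) (nat_lit 3013757520381) (nat_lit 1) (nat_lit 4) (nat_lit 2) (nat_lit 5) (nat_lit 2) (nat_lit 4) (nat_lit 419) (nat_lit 322) (nat_lit 279))) (XT.nd (nat_lit 78) (nat_lit 0) (nat_lit 0) (XT.lf (nat_lit 0) (nat_lit 29712905113681) (nat_lit 76) (nat_lit 3459700696781) (nat_lit 76) (nat_lit 3459151052101) (nat_lit 1) (nat_lit 4) (nat_lit 2) (nat_lit 5) (nat_lit 2) (nat_lit 4) (nat_lit 420) (nat_lit 322) (nat_lit 278)) (XT.lf (nat_lit 0) (nat_lit 34182755391394) (nat_lit 76) (nat_lit 3971907435236) (nat_lit 76) (nat_lit 3971357637200) (nat_lit 1) (nat_lit 4) (nat_lit 2) (nat_lit 5) (nat_lit 2) (nat_lit 4) (nat_lit 421) (nat_lit 322) (nat_lit 277)))) (XT.nd (nat_lit 49452) (nat_lit 0) (nat_lit 76) (XT.nd (nat_lit 49374) (nat_lit 0) (nat_lit 304) (XT.lf (nat_lit 0) (nat_lit 39323076515352) (nat_lit 76) (nat_lit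 4560948640253) (nat_lit 76) (nat_lit 4560398708865) (nat_lit 1) (nat_lit 4) (nat_lit 2) (nat_lit 5) (nat_lit 2) (nat_lit 4) (nat_lit 422) (nat_lit 322) (nat_lit 276)) (XT.lf (nat_lit 0) (nat_lit 14844592174) (nat_lit 152) (nat_lit 3390191957) (nat_lit 0) (nat_lit 14844592174) (nat_lit 5) (nat_lit 5) (nat_lit 7) (nat_lit 4) (nat_lit 5) (nat_lit 4) (nat_lit 374) (nat_lit 323) (nat_lit 323))) (XT.nd (nat_lit 78) (nat_lit 152) (nat_lit 0) (XT.lf (nat_lit 0) (nat_lit 28163782483) (nat_lit 76) (nat_lit 23306737529) (nat_lit 76) (nat_lit 23217504623) (nat_lit 4) (nat_lit 4) (nat_lit 5) (nat_lit 5) (nat_lit 5) (nat_lit 4) (nat_lit 375) (nat_lit 323) (nat_lit 322)) (XT.nd (nat_lit 78) (nat_lit 152) (nat_lit 0) (XT.lf (nat_lit 0) (nat_lit 65669287111) (nat_lit 76) (nat_lit 9549142624) (nat_lit 76) (nat_lit 9382315888) (nat_lit 4) (nat_lit 4) (nat_lit 5) (nat_lit 5) (nat_lit 5) (nat_lit 4) (nat_lit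 376) (nat_lit 323) (nat_lit 321)) (XT.lf (nat_lit 0) (nat_lit 5242598835) (nat_lit 152) (nat_lit 85796286526) (nat_lit 0) (nat_lit 5025654731) (nat_lit 2) (nat_lit 5) (nat_lit 4) (nat_lit 4) (nat_lit 2) (nat_lit 4) (nat_lit 377) (nat_lit 323) (nat_lit 320)))))) (XT.nd (nat_lit 390) (nat_lit 0) (nat_lit 0) (XT.nd (nat_lit 156) (nat_lit 76) (nat_lit 0) (XT.nd (nat_lit 78) (nat_lit 0) (nat_lit 0) (XT.lf (nat_lit 0) (nat_lit 21096920174) (nat_lit 152) (nat_lit 67338546832) (nat_lit 0) (nat_lit 20825650066) (nat_lit 2) (nat_lit 5) (nat_lit 4) (nat_lit 4) (nat_lit 2) (nat_lit 4) (nat_lit 378) (nat_lit 323) (nat_lit 319)) (XT.lf (nat_lit 0) (nat_lit 38238799506) (nat_lit 152) (nat_lit 48365343819) (nat_lit 0) (nat_lit 37920289395) (nat_lit 2) (nat_lit 5) (nat_lit 4) (nat_lit 4) (nat_lit 2) (nat_lit 4) (nat_lit 379) (nat_lit 323) (nat_lit 318))) (XT.nd (nat_lit 78) (nat_lit 76) (nat_lit 0) (XT.lf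 (nat_lit 0) (nat_lit 57003621427) (nat_lit 152) (nat_lit 28505462646) (nat_lit 0) (nat_lit 56644033053) (nat_lit 2) (nat_lit 5) (nat_lit 4) (nat_lit 4) (nat_lit 2) (nat_lit 4) (nat_lit 380) (nat_lit 323) (nat_lit 317)) (XT.nd (nat_lit 78) (nat_lit 76) (nat_lit 0) (XT.lf (nat_lit 0) (nat_lit 77758523758) (nat_lit 152) (nat_lit 7370340420) (nat_lit 0) (nat_lit 77363215154) (nat_lit 2) (nat_lit 5) (nat_lit 4) (nat_lit 4) (nat_lit 2) (nat_lit 4) (nat_lit 381) (nat_lit 323) (nat_lit 316)) (XT.lf (nat_lit 0) (nat_lit 16267291945) (nat_lit 76) (nat_lit 85033517490) (nat_lit 76) (nat_lit 84607147818) (nat_lit 1) (nat_lit 4) (nat_lit 2) (nat_lit 5) (nat_lit 2) (nat_lit 4) (nat_lit 382) (nat_lit 323) (nat_lit 315))))) (XT.nd (nat_lit 156) (nat_lit 0) (nat_lit 0) (XT.nd (nat_lit 78) (nat_lit 0) (nat_lit 0) (XT.lf (nat_lit 0) (nat_lit 42540783354) (nat_lit 76) (nat_lit 85392071144) (nat_lit 76) (nat_lit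 84938691847) (nat_lit 1) (nat_lit 4) (nat_lit 2) (nat_lit 5) (nat_lit 2) (nat_lit 4) (nat_lit 383) (nat_lit 323) (nat_lit 314)) (XT.lf (nat_lit 0) (nat_lit 71576071310) (nat_lit 76) (nat_lit 86413058489) (nat_lit 76) (nat_lit 85936192561) (nat_lit 1) (nat_lit 4) (nat_lit 2) (nat_lit 5) (nat_lit 2) (nat_lit 4) (nat_lit 384) (nat_lit 323) (nat_lit 313))) (XT.nd (nat_lit 78) (nat_lit 0) (nat_lit 0) (XT.lf (nat_lit 0) (nat_lit 103941237536) (nat_lit 76) (nat_lit 88116455363) (nat_lit 76) (nat_lit 87619166278) (nat_lit 1) (nat_lit 4) (nat_lit 2) (nat_lit 5) (nat_lit 2) (nat_lit 4) (nat_lit 385) (nat_lit 323) (nat_lit 312)) (XT.nd (nat_lit 78) (nat_lit 0) (nat_lit 0) (XT.lf (nat_lit 0) (nat_lit 140269513544) (nat_lit 76) (nat_lit 90535589097) (nat_lit 76) (nat_lit 90020540745) (nat_lit 1) (nat_lit 4) (nat_lit 2) (nat_lit 5) (nat_lit 2) (nat_lit 4) (nat_lit 386) (nat_lit 323) (nat_lit 311)) (XT.lf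 (nat_lit 0) (nat_lit 181271669953) (nat_lit 76) (nat_lit 93717790568) (nat_lit 76) (nat_lit 93187299376) (nat_lit 1) (nat_lit 4) (nat_lit 2) (nat_lit 5) (nat_lit 2) (nat_lit 4) (nat_lit 387) (nat_lit 323) (nat_lit 310))))))))
noncomputable def xc16 : XT := (XT.nd (nat_lit 1404) (nat_lit 0) (nat_lit 0) (XT.nd (nat_lit 702) (nat_lit 0) (nat_lit 0) (XT.nd (nat_lit 312) (nat_lit 0) (nat_lit 0) (XT.nd (nat_lit 156) (nat_lit 0) (nat_lit 0) (XT.nd (nat_lit 78) (nat_lit 0) (nat_lit 0) (XT.lf (nat_lit 0) (nat_lit 227749922864) (nat_lit 76) (nat_lit 97725320241) (nat_lit 76) (nat_lit 97181400491) (nat_lit 1) (nat_lit 4) (nat_lit 2) (nat_lit 5) (nat_lit 2) (nat_lit 4) (nat_lit 388) (nat_lit 323) (nat_lit 309)) (XT.lf (nat_lit 0) (nat_lit 280613629402) (nat_lit 76) (nat_lit 102636586303) (nat_lit 76) (nat_lit 102080989547) (nat_lit 1) (nat_lit 4) (nat_lit 2) (nat_lit 5) (nat_lit 2) (nat_lit 4) (nat_lit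 389) (nat_lit 323) (nat_lit 308))) (XT.nd (nat_lit 78) (nat_lit 0) (nat_lit 0) (XT.lf (nat_lit 0) (nat_lit 340897079476) (nat_lit 76) (nat_lit 108547678744) (nat_lit 76) (nat_lit 107981928069) (nat_lit 1) (nat_lit 4) (nat_lit 2) (nat_lit 5) (nat_lit 2) (nat_lit 4) (nat_lit 390) (nat_lit 323) (nat_lit 307)) (XT.lf (nat_lit 0) (nat_lit 409779731891) (nat_lit 76) (nat_lit 115574249372) (nat_lit 76) (nat_lit 114999669203) (nat_lit 1) (nat_lit 4) (nat_lit 2) (nat_lit 5) (nat_lit 2) (nat_lit 4) (nat_lit 391) (nat_lit 323) (nat_lit 306)))) (XT.nd (nat_lit 156) (nat_lit 0) (nat_lit 0) (XT.nd (nat_lit 78) (nat_lit 0) (nat_lit 0) (XT.lf (nat_lit 0) (nat_lit 488609290718) (nat_lit 76) (nat_lit 123853774569) (nat_lit 76) (nat_lit 123271516578) (nat_lit 1) (nat_lit 4) (nat_lit 2) (nat_lit 5) (nat_lit 2) (nat_lit 4) (nat_lit 392) (nat_lit 323) (nat_lit 305)) (XT.lf (nat_lit 0) (nat_lit 578928073411) (nat_lit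 76) (nat_lit 133548245044) (nat_lit 76) (nat_lit 132959310688) (nat_lit 1) (nat_lit 4) (nat_lit 2) (nat_lit 5) (nat_lit 2) (nat_lit 4) (nat_lit 393) (nat_lit 323) (nat_lit 304))) (XT.nd (nat_lit 78) (nat_lit 0) (nat_lit 0) (XT.lf (nat_lit 0) (nat_lit 682503186589) (nat_lit 76) (nat_lit 144847335222) (nat_lit 76) (nat_lit 144252595329) (nat_lit 1) (nat_lit 4) (nat_lit 2) (nat_lit 5) (nat_lit 2) (nat_lit 4) (nat_lit 394) (nat_lit 323) (nat_lit 303)) (XT.nd (nat_lit 78) (nat_lit 0) (nat_lit 0) (XT.lf (nat_lit 0) (nat_lit 801361099856) (nat_lit 76) (nat_lit 157972114256) (nat_lit 76) (nat_lit 157372326072) (nat_lit 1) (nat_lit 4) (nat_lit 2) (nat_lit 5) (nat_lit 2) (nat_lit 4) (nat_lit 395) (nat_lit 323) (nat_lit 302)) (XT.lf (nat_lit 0) (nat_lit 937827294125) (nat_lit 76) (nat_lit 173179371303) (nat_lit 76) (nat_lit 172575193299) (nat_lit 1) (nat_lit 4) (nat_lit 2) (nat_lit 5) (nat_lit 2) (nat_lit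 4) (nat_lit 396) (nat_lit 323) (nat_lit 301)))))) (XT.nd (nat_lit 312) (nat_lit 0) (nat_lit 0) (XT.nd (nat_lit 156) (nat_lit 0) (nat_lit 0) (XT.nd (nat_lit 78) (nat_lit 0) (nat_lit 0) (XT.lf (nat_lit 0) (nat_lit 1094571760153) (nat_lit 76) (nat_lit 190766639652) (nat_lit 76) (nat_lit 190158644414) (nat_lit 1) (nat_lit 4) (nat_lit 2) (nat_lit 5) (nat_lit 2) (nat_lit 4) (nat_lit 397) (nat_lit 323) (nat_lit 300)) (XT.lf (nat_lit 0) (nat_lit 1274661237493) (nat_lit 76) (nat_lit 211078018031) (nat_lit 76) (nat_lit 210466703460) (nat_lit 1) (nat_lit 4) (nat_lit 2) (nat_lit 5) (nat_lit 2) (nat_lit 4) (nat_lit 398) (nat_lit 323) (nat_lit 299))) (XT.nd (nat_lit 78) (nat_lit 0) (nat_lit 0) (XT.lf (nat_lit 0) (nat_lit 1481619215918) (nat_lit 76) (nat_lit 234510902975) (nat_lit 76) (nat_lit 233896702026) (nat_lit 1) (nat_lit 4) (nat_lit 2) (nat_lit 5) (nat_lit 2) (nat_lit 4) (nat_lit 399) (nat_lit 323)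 (nat_lit 298)) (XT.lf (nat_lit 0) (nat_lit 1719494873269) (nat_lit 76) (nat_lit 261523763972) (nat_lit 76) (nat_lit 260907053129) (nat_lit 1) (nat_lit 4) (nat_lit 2) (nat_lit 5) (nat_lit 2) (nat_lit 4) (nat_lit 400) (nat_lit 323) (nat_lit 297)))) (XT.nd (nat_lit 156) (nat_lit 0) (nat_lit 0) (XT.nd (nat_lit 78) (nat_lit 0) (nat_lit 0) (XT.lf (nat_lit 0) (nat_lit 1992942298492) (nat_lit 76) (nat_lit 292645113518) (nat_lit 76) (nat_lit 292026220160) (nat_lit 1) (nat_lit 4) (nat_lit 2) (nat_lit 5) (nat_lit 2) (nat_lit 4) (nat_lit 401) (nat_lit 323) (nat_lit 296)) (XT.lf (nat_lit 0) (nat_lit 2307311549907) (nat_lit 76) (nat_lit 328483847584) (nat_lit 76) (nat_lit 327863056386) (nat_lit 1) (nat_lit 4) (nat_lit 2) (nat_lit 5) (nat_lit 2) (nat_lit 4) (nat_lit 402) (nat_lit 323) (nat_lit 295))) (XT.nd (nat_lit 78) (nat_lit 0) (nat_lit 0) (XT.lf (nat_lit 0) (nat_lit 2668753330260) (nat_lit 76) (nat_lit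 369741158792) (nat_lit 76) (nat_lit 369118717299) (nat_lit 1) (nat_lit 4) (nat_lit 2) (nat_lit 5) (nat_lit 2) (nat_lit 4) (nat_lit 403) (nat_lit 323) (nat_lit 294)) (XT.nd (nat_lit 78) (nat_lit 0) (nat_lit 0) (XT.lf (nat_lit 0) (nat_lit 3084339326558) (nat_lit 76) (nat_lit 417224255406) (nat_lit 76) (nat_lit 416600378873) (nat_lit 1) (nat_lit 4) (nat_lit 2) (nat_lit 5) (nat_lit 2) (nat_lit 4) (nat_lit 404) (nat_lit 323) (nat_lit 293)) (XT.lf (nat_lit 0) (nat_lit 3562200569161) (nat_lit 76) (nat_lit 471862154533) (nat_lit 76) (nat_lit 471237030139) (nat_lit 1) (nat_lit 4) (nat_lit 2) (nat_lit 5) (nat_lit 2) (nat_lit 4) (nat_lit 405) (nat_lit 323) (nat_lit 292))))))) (XT.nd (nat_lit 702) (nat_lit 0) (nat_lit 0) (XT.nd (nat_lit 312) (nat_lit 0) (nat_lit 0) (XT.nd (nat_lit 156) (nat_lit 0) (nat_lit 0) (XT.nd (nat_lit 78) (nat_lit 0) (nat_lit 0) (XT.lf (nat_lit 0) (nat_lit 4111686517167) (nat_lit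 76) (nat_lit 534723858547) (nat_lit 76) (nat_lit 534097649056) (nat_lit 1) (nat_lit 4) (nat_lit 2) (nat_lit 5) (nat_lit 2) (nat_lit 4) (nat_lit 406) (nat_lit 323) (nat_lit 291)) (XT.lf (nat_lit 0) (nat_lit 4743547982599) (nat_lit 76) (nat_lit 607039270352) (nat_lit 76) (nat_lit 606412117300) (nat_lit 1) (nat_lit 4) (nat_lit 2) (nat_lit 5) (nat_lit 2) (nat_lit 4) (nat_lit 407) (nat_lit 323) (nat_lit 290))) (XT.nd (nat_lit 78) (nat_lit 0) (nat_lit 0) (XT.lf (nat_lit 0) (nat_lit 5470147472391) (nat_lit 76) (nat_lit 690223256703) (nat_lit 76) (nat_lit 689595283162) (nat_lit 1) (nat_lit 4) (nat_lit 2) (nat_lit 5) (nat_lit 2) (nat_lit 4) (nat_lit 408) (nat_lit 323) (nat_lit 289)) (XT.lf (nat_lit 0) (nat_lit 6305701063517) (nat_lit 76) (nat_lit 785903330374) (nat_lit 76) (nat_lit 785274643365) (nat_lit 1) (nat_lit 4) (nat_lit 2) (nat_lit 5) (nat_lit 2) (nat_lit 4) (nat_lit 409) (nat_lit 323) (nat_lit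 288)))) (XT.nd (nat_lit 156) (nat_lit 0) (nat_lit 0) (XT.nd (nat_lit 78) (nat_lit 0) (nat_lit 0) (XT.lf (nat_lit 0) (nat_lit 7266556543629) (nat_lit 76) (nat_lit 895951492807) (nat_lit 76) (nat_lit 895322185391) (nat_lit 1) (nat_lit 4) (nat_lit 2) (nat_lit 5) (nat_lit 2) (nat_lit 4) (nat_lit 410) (nat_lit 323) (nat_lit 287)) (XT.lf (nat_lit 0) (nat_lit 8371513259077) (nat_lit 76) (nat_lit 1022520860224) (nat_lit 76) (nat_lit 1021891013323) (nat_lit 1) (nat_lit 4) (nat_lit 2) (nat_lit 5) (nat_lit 2) (nat_lit 4) (nat_lit 411) (nat_lit 323) (nat_lit 286))) (XT.nd (nat_lit 78) (nat_lit 0) (nat_lit 0) (XT.lf (nat_lit 0) (nat_lit 9642189928208) (nat_lit 76) (nat_lit 1168087789814) (nat_lit 76) (nat_lit 1167457473796) (nat_lit 1) (nat_lit 4) (nat_lit 2) (nat_lit 5) (nat_lit 2) (nat_lit 4) (nat_lit 412) (nat_lit 323) (nat_lit 285)) (XT.nd (nat_lit 78) (nat_lit 0) (nat_lit 0) (XT.lf (nat_lit 0) (nat_lit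 11103447616286) (nat_lit 76) (nat_lit 1335500330198) (nat_lit 76) (nat_lit 1334869606253) (nat_lit 1) (nat_lit 4) (nat_lit 2) (nat_lit 5) (nat_lit 2) (nat_lit 4) (nat_lit 413) (nat_lit 323) (nat_lit 284)) (XT.lf (nat_lit 0) (nat_lit 12783876147644) (nat_lit 76) (nat_lit 1528033944124) (nat_lit 76) (nat_lit 1527402865459) (nat_lit 1) (nat_lit 4) (nat_lit 2) (nat_lit 5) (nat_lit 2) (nat_lit 4) (nat_lit 414) (nat_lit 323) (nat_lit 283)))))) (XT.nd (nat_lit 312) (nat_lit 0) (nat_lit 0) (XT.nd (nat_lit 156) (nat_lit 0) (nat_lit 0) (XT.nd (nat_lit 78) (nat_lit 0) (nat_lit 0) (XT.lf (nat_lit 0) (nat_lit 14716353471808) (nat_lit 76) (nat_lit 1749455593603) (nat_lit 76) (nat_lit 1748824206486) (nat_lit 1) (nat_lit 4) (nat_lit 2) (nat_lit 5) (nat_lit 2) (nat_lit 4) (nat_lit 415) (nat_lit 323) (nat_lit 282)) (XT.lf (nat_lit 0) (nat_lit 16938688927730) (nat_lit 76) (nat_lit 2004097441343) (nat_lit 76)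 (nat_lit 2003465786006) (nat_lit 1) (nat_lit 4) (nat_lit 2) (nat_lit 5) (nat_lit 2) (nat_lit 4) (nat_lit 416) (nat_lit 323) (nat_lit 281))) (XT.nd (nat_lit 78) (nat_lit 0) (nat_lit 0) (XT.lf (nat_lit 0) (nat_lit 19494362991720) (nat_lit 76) (nat_lit 2296941610450) (nat_lit 76) (nat_lit 2296309721879) (nat_lit 1) (nat_lit 4) (nat_lit 2) (nat_lit 5) (nat_lit 2) (nat_lit 4) (nat_lit 417) (nat_lit 323) (nat_lit 280)) (XT.lf (nat_lit 0) (nat_lit 22433377982422) (nat_lit 76) (nat_lit 2633717660756) (nat_lit 76) (nat_lit 2633085569373) (nat_lit 1) (nat_lit 4) (nat_lit 2) (nat_lit 5) (nat_lit 2) (nat_lit 4) (nat_lit 418) (nat_lit 323) (nat_lit 279)))) (XT.nd (nat_lit 156) (nat_lit 0) (nat_lit 0) (XT.nd (nat_lit 78) (nat_lit 0) (nat_lit 0) (XT.lf (nat_lit 0) (nat_lit 25813236367046) (nat_lit 76) (nat_lit 3021014688898) (nat_lit 76) (nat_lit 3020382421156) (nat_lit 1) (nat_lit 4) (nat_lit 2) (nat_lit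 5) (nat_lit 2) (nat_lit 4) (nat_lit 419) (nat_lit 323) (nat_lit 278)) (XT.lf (nat_lit 0) (nat_lit 29700065809638) (nat_lit 76) (nat_lit 3466410245424) (nat_lit 76) (nat_lit 3465777824328) (nat_lit 1) (nat_lit 4) (nat_lit 2) (nat_lit 5) (nat_lit 2) (nat_lit 4) (nat_lit 420) (nat_lit 323) (nat_lit 277))) (XT.nd (nat_lit 78) (nat_lit 0) (nat_lit 0) (XT.lf (nat_lit 0) (nat_lit 34169912973205) (nat_lit 76) (nat_lit 3978618591225) (nat_lit 76) (nat_lit 3977986036776) (nat_lit 1) (nat_lit 4) (nat_lit 2) (nat_lit 5) (nat_lit 2) (nat_lit 4) (nat_lit 421) (nat_lit 323) (nat_lit 276)) (XT.nd (nat_lit 49218) (nat_lit 0) (nat_lit 456) (XT.lf (nat_lit 0) (nat_lit 39310231389210) (nat_lit 76) (nat_lit 4567661193936) (nat_lit 76) (nat_lit 4567028523528) (nat_lit 1) (nat_lit 4) (nat_lit 2) (nat_lit 5) (nat_lit 2) (nat_lit 4) (nat_lit 422) (nat_lit 323) (nat_lit 275)) (XT.lf (nat_lit 0) (nat_lit 18468909238)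 (nat_lit 76) (nat_lit 3869664792) (nat_lit 76) (nat_lit 3869664792) (nat_lit 7) (nat_lit 4) (nat_lit 8) (nat_lit 5) (nat_lit 8) (nat_lit 4) (nat_lit 372) (nat_lit 324) (nat_lit 324))))))))
noncomputable def xc17 : XT := (XT.nd (nat_lit 1404) (nat_lit 0) (nat_lit 0) (XT.nd (nat_lit 702) (nat_lit 76) (nat_lit 0) (XT.nd (nat_lit 312) (nat_lit 152) (nat_lit 0) (XT.nd (nat_lit 156) (nat_lit 76) (nat_lit 0) (XT.nd (nat_lit 78) (nat_lit 0) (nat_lit 0) (XT.lf (nat_lit 0) (nat_lit 10016807318) (nat_lit 152) (nat_lit 38877781829) (nat_lit 0) (nat_lit 9914189477) (nat_lit 5) (nat_lit 5) (nat_lit 7) (nat_lit 4) (nat_lit 5) (nat_lit 4) (nat_lit 373) (nat_lit 324) (nat_lit 323)) (XT.lf (nat_lit 0) (nat_lit 29030291453) (nat_lit 152) (nat_lit 8350945620) (nat_lit 0) (nat_lit 28838440706) (nat_lit 5) (nat_lit 5) (nat_lit 7) (nat_lit 4) (nat_lit 5) (nat_lit 4) (nat_lit 374) (nat_lit 324) (nat_lit 322))) (XT.nd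 (nat_lit 78) (nat_lit 0) (nat_lit 0) (XT.lf (nat_lit 0) (nat_lit 25072896302) (nat_lit 76) (nat_lit 25002211679) (nat_lit 76) (nat_lit 24732767101) (nat_lit 4) (nat_lit 4) (nat_lit 5) (nat_lit 5) (nat_lit 5) (nat_lit 4) (nat_lit 375) (nat_lit 324) (nat_lit 321)) (XT.lf (nat_lit 0) (nat_lit 61328295295) (nat_lit 76) (nat_lit 11888845817) (nat_lit 76) (nat_lit 11551928343) (nat_lit 4) (nat_lit 4) (nat_lit 5) (nat_lit 5) (nat_lit 5) (nat_lit 4) (nat_lit 376) (nat_lit 324) (nat_lit 320)))) (XT.nd (nat_lit 156) (nat_lit 0) (nat_lit 0) (XT.nd (nat_lit 78) (nat_lit 0) (nat_lit 0) (XT.lf (nat_lit 0) (nat_lit 2424785234) (nat_lit 152) (nat_lit 91814295760) (nat_lit 0) (nat_lit 2058498606) (nat_lit 2) (nat_lit 5) (nat_lit 4) (nat_lit 4) (nat_lit 2) (nat_lit 4) (nat_lit 377) (nat_lit 324) (nat_lit 319)) (XT.lf (nat_lit 0) (nat_lit 17771855314) (nat_lit 152) (nat_lit 74404554966) (nat_lit 0) (nat_lit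 17358328683) (nat_lit 2) (nat_lit 5) (nat_lit 4) (nat_lit 4) (nat_lit 2) (nat_lit 4) (nat_lit 378) (nat_lit 324) (nat_lit 318))) (XT.nd (nat_lit 78) (nat_lit 0) (nat_lit 0) (XT.lf (nat_lit 0) (nat_lit 34472646594) (nat_lit 152) (nat_lit 56342655345) (nat_lit 0) (nat_lit 34018041700) (nat_lit 2) (nat_lit 5) (nat_lit 4) (nat_lit 4) (nat_lit 2) (nat_lit 4) (nat_lit 379) (nat_lit 324) (nat_lit 317)) (XT.nd (nat_lit 78) (nat_lit 0) (nat_lit 0) (XT.lf (nat_lit 0) (nat_lit 52853913688) (nat_lit 152) (nat_lit 37275211903) (nat_lit 0) (nat_lit 52363588565) (nat_lit 2) (nat_lit 5) (nat_lit 4) (nat_lit 4) (nat_lit 2) (nat_lit 4) (nat_lit 380) (nat_lit 324) (nat_lit 316)) (XT.lf (nat_lit 0) (nat_lit 73275290082) (nat_lit 152) (nat_lit 16829165966) (nat_lit 0) (nat_lit 72753903889) (nat_lit 2) (nat_lit 5) (nat_lit 4) (nat_lit 4) (nat_lit 2) (nat_lit 4) (nat_lit 381) (nat_lit 324) (nat_lit 315)))))) (XT.nd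 (nat_lit 312) (nat_lit 0) (nat_lit 0) (XT.nd (nat_lit 156) (nat_lit 0) (nat_lit 0) (XT.nd (nat_lit 78) (nat_lit 0) (nat_lit 0) (XT.lf (nat_lit 0) (nat_lit 5679631996) (nat_lit 76) (nat_lit 90593287733) (nat_lit 76) (nat_lit 90044891916) (nat_lit 1) (nat_lit 4) (nat_lit 2) (nat_lit 5) (nat_lit 2) (nat_lit 4) (nat_lit 382) (nat_lit 324) (nat_lit 314)) (XT.lf (nat_lit 0) (nat_lit 31404645654) (nat_lit 76) (nat_lit 91234934709) (nat_lit 76) (nat_lit 90663052261) (nat_lit 1) (nat_lit 4) (nat_lit 2) (nat_lit 5) (nat_lit 2) (nat_lit 4) (nat_lit 383) (nat_lit 324) (nat_lit 313))) (XT.nd (nat_lit 78) (nat_lit 0) (nat_lit 0) (XT.lf (nat_lit 0) (nat_lit 59962996437) (nat_lit 76) (nat_lit 92502090160) (nat_lit 76) (nat_lit 91909784555) (nat_lit 1) (nat_lit 4) (nat_lit 2) (nat_lit 5) (nat_lit 2) (nat_lit 4) (nat_lit 384) (nat_lit 324) (nat_lit 312)) (XT.lf (nat_lit 0) (nat_lit 91913434685) (nat_lit 76)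 (nat_lit 94419546257) (nat_lit 76) (nat_lit 93809481385) (nat_lit 1) (nat_lit 4) (nat_lit 2) (nat_lit 5) (nat_lit 2) (nat_lit 4) (nat_lit 385) (nat_lit 324) (nat_lit 311)))) (XT.nd (nat_lit 156) (nat_lit 0) (nat_lit 0) (XT.nd (nat_lit 78) (nat_lit 0) (nat_lit 0) (XT.lf (nat_lit 0) (nat_lit 127881077669) (nat_lit 76) (nat_lit 97024818445) (nat_lit 76) (nat_lit 96399310733) (nat_lit 1) (nat_lit 4) (nat_lit 2) (nat_lit 5) (nat_lit 2) (nat_lit 4) (nat_lit 386) (nat_lit 324) (nat_lit 310)) (XT.lf (nat_lit 0) (nat_lit 168569640144) (nat_lit 76) (nat_lit 100368879442) (nat_lit 76) (nat_lit 99729943173) (nat_lit 1) (nat_lit 4) (nat_lit 2) (nat_lit 5) (nat_lit 2) (nat_lit 4) (nat_lit 387) (nat_lit 324) (nat_lit 309))) (XT.nd (nat_lit 78) (nat_lit 0) (nat_lit 0) (XT.lf (nat_lit 0) (nat_lit 214775202678) (nat_lit 76) (nat_lit 104517156528) (nat_lit 76) (nat_lit 103866543252) (nat_lit 1) (nat_lit 4)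 (nat_lit 2) (nat_lit 5) (nat_lit 2) (nat_lit 4) (nat_lit 388) (nat_lit 324) (nat_lit 308)) (XT.nd (nat_lit 78) (nat_lit 0) (nat_lit 0) (XT.lf (nat_lit 0) (nat_lit 267401787149) (nat_lit 76) (nat_lit 109550811646) (nat_lit 76) (nat_lit 108890044452) (nat_lit 1) (nat_lit 4) (nat_lit 2) (nat_lit 5) (nat_lit 2) (nat_lit 4) (nat_lit 389) (nat_lit 324) (nat_lit 307)) (XT.lf (nat_lit 0) (nat_lit 327479044120) (nat_lit 76) (nat_lit 115568329353) (nat_lit 76) (nat_lit 114898732664) (nat_lit 1) (nat_lit 4) (nat_lit 2) (nat_lit 5) (nat_lit 2) (nat_lit 4) (nat_lit 390) (nat_lit 324) (nat_lit 306))))))) (XT.nd (nat_lit 702) (nat_lit 0) (nat_lit 0) (XT.nd (nat_lit 312) (nat_lit 0) (nat_lit 0) (XT.nd (nat_lit 156) (nat_lit 0) (nat_lit 0) (XT.nd (nat_lit 78) (nat_lit 0) (nat_lit 0) (XT.lf (nat_lit 0) (nat_lit 396182398187) (nat_lit 76) (nat_lit 122687443689) (nat_lit 76) (nat_lit 122010169180) (nat_lit 1)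 (nat_lit 4) (nat_lit 2) (nat_lit 5) (nat_lit 2) (nat_lit 4) (nat_lit 391) (nat_lit 324) (nat_lit 305)) (XT.lf (nat_lit 0) (nat_lit 474856045405) (nat_lit 76) (nat_lit 131047441677) (nat_lit 76) (nat_lit 130363490801) (nat_lit 1) (nat_lit 4) (nat_lit 2) (nat_lit 5) (nat_lit 2) (nat_lit 4) (nat_lit 392) (nat_lit 324) (nat_lit 304))) (XT.nd (nat_lit 78) (nat_lit 0) (nat_lit 0) (XT.lf (nat_lit 0) (nat_lit 565039252787) (nat_lit 76) (nat_lit 140811888492) (nat_lit 76) (nat_lit 140122132080) (nat_lit 1) (nat_lit 4) (nat_lit 2) (nat_lit 5) (nat_lit 2) (nat_lit 4) (nat_lit 393) (nat_lit 324) (nat_lit 303)) (XT.lf (nat_lit 0) (nat_lit 668496474389) (nat_lit 76) (nat_lit 152171827660) (nat_lit 76) (nat_lit 151477022956) (nat_lit 1) (nat_lit 4) (nat_lit 2) (nat_lit 5) (nat_lit 2) (nat_lit 4) (nat_lit 394) (nat_lit 324) (nat_lit 302)))) (XT.nd (nat_lit 156) (nat_lit 0) (nat_lit 0) (XT.nd (nat_lit 78)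 (nat_lit 0) (nat_lit 0) (XT.lf (nat_lit 0) (nat_lit 787251873243) (nat_lit 76) (nat_lit 165349518861) (nat_lit 76) (nat_lit 164650324338) (nat_lit 1) (nat_lit 4) (nat_lit 2) (nat_lit 5) (nat_lit 2) (nat_lit 4) (nat_lit 395) (nat_lit 324) (nat_lit 301)) (XT.lf (nat_lit 0) (nat_lit 923628924544) (nat_lit 76) (nat_lit 180602786487) (nat_lit 76) (nat_lit 179899774729) (nat_lit 1) (nat_lit 4) (nat_lit 2) (nat_lit 5) (nat_lit 2) (nat_lit 4) (nat_lit 396) (nat_lit 324) (nat_lit 300))) (XT.nd (nat_lit 78) (nat_lit 0) (nat_lit 0) (XT.lf (nat_lit 0) (nat_lit 1080295874948) (nat_lit 76) (nat_lit 198230064035) (nat_lit 76) (nat_lit 197523732944) (nat_lit 1) (nat_lit 4) (nat_lit 2) (nat_lit 5) (nat_lit 2) (nat_lit 4) (nat_lit 397) (nat_lit 324) (nat_lit 299)) (XT.nd (nat_lit 78) (nat_lit 0) (nat_lit 0) (XT.lf (nat_lit 0) (nat_lit 1260317947397) (nat_lit 76) (nat_lit 218576233023) (nat_lit 76) (nat_lit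 217867015554) (nat_lit 1) (nat_lit 4) (nat_lit 2) (nat_lit 5) (nat_lit 2) (nat_lit 4) (nat_lit 398) (nat_lit 324) (nat_lit 298)) (XT.lf (nat_lit 0) (nat_lit 1467217312874) (nat_lit 76) (nat_lit 242039370669) (nat_lit 76) (nat_lit 241327643307) (nat_lit 1) (nat_lit 4) (nat_lit 2) (nat_lit 5) (nat_lit 2) (nat_lit 4) (nat_lit 399) (nat_lit 324) (nat_lit 297)))))) (XT.nd (nat_lit 390) (nat_lit 0) (nat_lit 0) (XT.nd (nat_lit 156) (nat_lit 0) (nat_lit 0) (XT.nd (nat_lit 78) (nat_lit 0) (nat_lit 0) (XT.lf (nat_lit 0) (nat_lit 1705042002443) (nat_lit 76) (nat_lit 269078538364) (nat_lit 76) (nat_lit 268364628486) (nat_lit 1) (nat_lit 4) (nat_lit 2) (nat_lit 5) (nat_lit 2) (nat_lit 4) (nat_lit 400) (nat_lit 324) (nat_lit 296)) (XT.lf (nat_lit 0) (nat_lit 1978445107856) (nat_lit 76) (nat_lit 300222763300) (nat_lit 76) (nat_lit 299506955582) (nat_lit 1) (nat_lit 4) (nat_lit 2) (nat_lit 5) (nat_lit 2)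 (nat_lit 4) (nat_lit 401) (nat_lit 324) (nat_lit 295))) (XT.nd (nat_lit 78) (nat_lit 0) (nat_lit 0) (XT.lf (nat_lit 0) (nat_lit 2292775820307) (nat_lit 76) (nat_lit 336081389009) (nat_lit 76) (nat_lit 335363930995) (nat_lit 1) (nat_lit 4) (nat_lit 2) (nat_lit 5) (nat_lit 2) (nat_lit 4) (nat_lit 402) (nat_lit 324) (nat_lit 294)) (XT.nd (nat_lit 78) (nat_lit 0) (nat_lit 0) (XT.lf (nat_lit 0) (nat_lit 2654184088516) (nat_lit 76) (nat_lit 377355997298) (nat_lit 76) (nat_lit 376637104245) (nat_lit 1) (nat_lit 4) (nat_lit 2) (nat_lit 5) (nat_lit 2) (nat_lit 4) (nat_lit 403) (nat_lit 324) (nat_lit 293)) (XT.lf (nat_lit 0) (nat_lit 3069740943819) (nat_lit 76) (nat_lit 424854134852) (nat_lit 76) (nat_lit 424133993938) (nat_lit 1) (nat_lit 4) (nat_lit 2) (nat_lit 5) (nat_lit 2) (nat_lit 4) (nat_lit 404) (nat_lit 324) (nat_lit 292))))) (XT.nd (nat_lit 156) (nat_lit 0) (nat_lit 0) (XT.nd (nat_lit 78)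 (nat_lit 0) (nat_lit 0) (XT.lf (nat_lit 0) (nat_lit 3547576846428) (nat_lit 76) (nat_lit 479505113057) (nat_lit 76) (nat_lit 478783887047) (nat_lit 1) (nat_lit 4) (nat_lit 2) (nat_lit 5) (nat_lit 2) (nat_lit 4) (nat_lit 405) (nat_lit 324) (nat_lit 291)) (XT.lf (nat_lit 0) (nat_lit 4097040759655) (nat_lit 76) (nat_lit 542378190182) (nat_lit 76) (nat_lit 541656020610) (nat_lit 1) (nat_lit 4) (nat_lit 2) (nat_lit 5) (nat_lit 2) (nat_lit 4) (nat_lit 406) (nat_lit 324) (nat_lit 290))) (XT.nd (nat_lit 78) (nat_lit 0) (nat_lit 0) (XT.lf (nat_lit 0) (nat_lit 4728883064410) (nat_lit 76) (nat_lit 614703491650) (nat_lit 76) (nat_lit 613980501589) (nat_lit 1) (nat_lit 4) (nat_lit 2) (nat_lit 5) (nat_lit 2) (nat_lit 4) (nat_lit 407) (nat_lit 324) (nat_lit 289)) (XT.nd (nat_lit 78) (nat_lit 0) (nat_lit 0) (XT.lf (nat_lit 0) (nat_lit 5455465892744) (nat_lit 76) (nat_lit 697896077706) (nat_lit 76) (nat_lit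 697172374177) (nat_lit 1) (nat_lit 4) (nat_lit 2) (nat_lit 5) (nat_lit 2) (nat_lit 4) (nat_lit 408) (nat_lit 324) (nat_lit 288)) (XT.lf (nat_lit 0) (nat_lit 6291004995645) (nat_lit 76) (nat_lit 793583629383) (nat_lit 76) (nat_lit 792859305446) (nat_lit 1) (nat_lit 4) (nat_lit 2) (nat_lit 5) (nat_lit 2) (nat_lit 4) (nat_lit 409) (nat_lit 324) (nat_lit 287))))))))
noncomputable def xc18 : XT := (XT.nd (nat_lit 50388) (nat_lit 0) (nat_lit 0) (XT.nd (nat_lit 702) (nat_lit 0) (nat_lit 0) (XT.nd (nat_lit 312) (nat_lit 0) (nat_lit 0) (XT.nd (nat_lit 156) (nat_lit 0) (nat_lit 0) (XT.nd (nat_lit 78) (nat_lit 0) (nat_lit 0) (XT.lf (nat_lit 0) (nat_lit 7251847877302) (nat_lit 76) (nat_lit 903638294429) (nat_lit 76) (nat_lit 902913431009) (nat_lit 1) (nat_lit 4) (nat_lit 2) (nat_lit 5) (nat_lit 2) (nat_lit 4) (nat_lit 410) (nat_lit 324) (nat_lit 286)) (XT.lf (nat_lit 0) (nat_lit 8356793637571) (nat_lit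 76) (nat_lit 1030213316293) (nat_lit 76) (nat_lit 1029487983755) (nat_lit 1) (nat_lit 4) (nat_lit 2) (nat_lit 5) (nat_lit 2) (nat_lit 4) (nat_lit 411) (nat_lit 324) (nat_lit 285))) (XT.nd (nat_lit 78) (nat_lit 0) (nat_lit 0) (XT.lf (nat_lit 0) (nat_lit 9627460780459) (nat_lit 76) (nat_lit 1175785162793) (nat_lit 76) (nat_lit 1175059422327) (nat_lit 1) (nat_lit 4) (nat_lit 2) (nat_lit 5) (nat_lit 2) (nat_lit 4) (nat_lit 412) (nat_lit 324) (nat_lit 284)) (XT.lf (nat_lit 0) (nat_lit 11088710184848) (nat_lit 76) (nat_lit 1343201978751) (nat_lit 76) (nat_lit 1342475883566) (nat_lit 1) (nat_lit 4) (nat_lit 2) (nat_lit 5) (nat_lit 2) (nat_lit 4) (nat_lit 413) (nat_lit 324) (nat_lit 283)))) (XT.nd (nat_lit 156) (nat_lit 0) (nat_lit 0) (XT.nd (nat_lit 78) (nat_lit 0) (nat_lit 0) (XT.lf (nat_lit 0) (nat_lit 12769131512998) (nat_lit 76) (nat_lit 1535739310567) (nat_lit 76) (nat_lit 1535012906930) (nat_lit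 1) (nat_lit 4) (nat_lit 2) (nat_lit 5) (nat_lit 2) (nat_lit 4) (nat_lit 414) (nat_lit 324) (nat_lit 282)) (XT.lf (nat_lit 0) (nat_lit 14701602573502) (nat_lit 76) (nat_lit 1757164192994) (nat_lit 76) (nat_lit 1756437521138) (nat_lit 1) (nat_lit 4) (nat_lit 2) (nat_lit 5) (nat_lit 2) (nat_lit 4) (nat_lit 415) (nat_lit 324) (nat_lit 281))) (XT.nd (nat_lit 78) (nat_lit 0) (nat_lit 0) (XT.lf (nat_lit 0) (nat_lit 16923932582764) (nat_lit 76) (nat_lit 2011808851993) (nat_lit 76) (nat_lit 2011081946902) (nat_lit 1) (nat_lit 4) (nat_lit 2) (nat_lit 5) (nat_lit 2) (nat_lit 4) (nat_lit 416) (nat_lit 324) (nat_lit 280)) (XT.nd (nat_lit 78) (nat_lit 0) (nat_lit 0) (XT.lf (nat_lit 0) (nat_lit 19479601910527) (nat_lit 76) (nat_lit 2304655465674) (nat_lit 76) (nat_lit 2303928357771) (nat_lit 1) (nat_lit 4) (nat_lit 2) (nat_lit 5) (nat_lit 2) (nat_lit 4) (nat_lit 417) (nat_lit 324) (nat_lit 279)) (XT.lf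 (nat_lit 0) (nat_lit 22418612782772) (nat_lit 76) (nat_lit 2641433641696) (nat_lit 76) (nat_lit 2640706357434) (nat_lit 1) (nat_lit 4) (nat_lit 2) (nat_lit 5) (nat_lit 2) (nat_lit 4) (nat_lit 418) (nat_lit 324) (nat_lit 278)))))) (XT.nd (nat_lit 49296) (nat_lit 0) (nat_lit 304) (XT.nd (nat_lit 156) (nat_lit 0) (nat_lit 0) (XT.nd (nat_lit 78) (nat_lit 0) (nat_lit 0) (XT.lf (nat_lit 0) (nat_lit 25798467586128) (nat_lit 76) (nat_lit 3028732518285) (nat_lit 76) (nat_lit 3028005080669) (nat_lit 1) (nat_lit 4) (nat_lit 2) (nat_lit 5) (nat_lit 2) (nat_lit 4) (nat_lit 419) (nat_lit 324) (nat_lit 277)) (XT.lf (nat_lit 0) (nat_lit 29685293914574) (nat_lit 76) (nat_lit 3474129682159) (nat_lit 76) (nat_lit 3473402111190) (nat_lit 1) (nat_lit 4) (nat_lit 2) (nat_lit 5) (nat_lit 2) (nat_lit 4) (nat_lit 420) (nat_lit 324) (nat_lit 276))) (XT.nd (nat_lit 78) (nat_lit 0) (nat_lit 0) (XT.lf (nat_lit 0) (nat_lit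 34155138370189) (nat_lit 76) (nat_lit 3986339425653) (nat_lit 76) (nat_lit 3985611738725) (nat_lit 1) (nat_lit 4) (nat_lit 2) (nat_lit 5) (nat_lit 2) (nat_lit 4) (nat_lit 421) (nat_lit 324) (nat_lit 275)) (XT.lf (nat_lit 0) (nat_lit 39295454431452) (nat_lit 76) (nat_lit 4575383243748) (nat_lit 76) (nat_lit 4574655455987) (nat_lit 1) (nat_lit 4) (nat_lit 2) (nat_lit 5) (nat_lit 2) (nat_lit 4) (nat_lit 422) (nat_lit 324) (nat_lit 274)))) (XT.nd (nat_lit 156) (nat_lit 228) (nat_lit 0) (XT.nd (nat_lit 78) (nat_lit 0) (nat_lit 0) (XT.lf (nat_lit 0) (nat_lit 1586327500) (nat_lit 152) (nat_lit 17882420061) (nat_lit 0) (nat_lit 1586327500) (nat_lit 8) (nat_lit 5) (nat_lit 10) (nat_lit 4) (nat_lit 8) (nat_lit 4) (nat_lit 370) (nat_lit 325) (nat_lit 325)) (XT.lf (nat_lit 0) (nat_lit 22525346766) (nat_lit 152) (nat_lit 1981426060) (nat_lit 0) (nat_lit 22397895407) (nat_lit 8) (nat_lit 5) (nat_lit 10)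 (nat_lit 4) (nat_lit 8) (nat_lit 4) (nat_lit 371) (nat_lit 325) (nat_lit 324))) (XT.nd (nat_lit 78) (nat_lit 152) (nat_lit 0) (XT.lf (nat_lit 0) (nat_lit 35308980067) (nat_lit 76) (nat_lit 8704534185) (nat_lit 76) (nat_lit 8466255558) (nat_lit 7) (nat_lit 4) (nat_lit 8) (nat_lit 5) (nat_lit 8) (nat_lit 4) (nat_lit 372) (nat_lit 325) (nat_lit 323)) (XT.nd (nat_lit 78) (nat_lit 0) (nat_lit 0) (XT.lf (nat_lit 0) (nat_lit 8497569752) (nat_lit 152) (nat_lit 42254489495) (nat_lit 0) (nat_lit 8187708487) (nat_lit 5) (nat_lit 5) (nat_lit 7) (nat_lit 4) (nat_lit 5) (nat_lit 4) (nat_lit 373) (nat_lit 325) (nat_lit 322)) (XT.lf (nat_lit 0) (nat_lit 26848870637) (nat_lit 152) (nat_lit 13093359118) (nat_lit 0) (nat_lit 26461415542) (nat_lit 5) (nat_lit 5) (nat_lit 7) (nat_lit 4) (nat_lit 5) (nat_lit 4) (nat_lit 374) (nat_lit 325) (nat_lit 321))))))) (XT.nd (nat_lit 702) (nat_lit 0) (nat_lit 0) (XT.nd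 (nat_lit 312) (nat_lit 76) (nat_lit 0) (XT.nd (nat_lit 156) (nat_lit 152) (nat_lit 0) (XT.nd (nat_lit 78) (nat_lit 0) (nat_lit 0) (XT.lf (nat_lit 0) (nat_lit 18830650079) (nat_lit 76) (nat_lit 28337099393) (nat_lit 76) (nat_lit 27882171401) (nat_lit 4) (nat_lit 4) (nat_lit 5) (nat_lit 5) (nat_lit 5) (nat_lit 4) (nat_lit 375) (nat_lit 325) (nat_lit 320)) (XT.lf (nat_lit 0) (nat_lit 53999000695) (nat_lit 76) (nat_lit 15783932699) (nat_lit 76) (nat_lit 15270332623) (nat_lit 4) (nat_lit 4) (nat_lit 5) (nat_lit 5) (nat_lit 5) (nat_lit 4) (nat_lit 376) (nat_lit 325) (nat_lit 319))) (XT.nd (nat_lit 78) (nat_lit 152) (nat_lit 0) (XT.lf (nat_lit 0) (nat_lit 92410296066) (nat_lit 76) (nat_lit 2395119879) (nat_lit 76) (nat_lit 1830500600) (nat_lit 4) (nat_lit 4) (nat_lit 5) (nat_lit 5) (nat_lit 5) (nat_lit 4) (nat_lit 377) (nat_lit 325) (nat_lit 318)) (XT.lf (nat_lit 0) (nat_lit 12999691413) (nat_lit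 152) (nat_lit 84489766612) (nat_lit 0) (nat_lit 12435817522) (nat_lit 2) (nat_lit 5) (nat_lit 4) (nat_lit 4) (nat_lit 2) (nat_lit 4) (nat_lit 378) (nat_lit 325) (nat_lit 317)))) (XT.nd (nat_lit 156) (nat_lit 76) (nat_lit 0) (XT.nd (nat_lit 78) (nat_lit 0) (nat_lit 0) (XT.lf (nat_lit 0) (nat_lit 29316927867) (nat_lit 152) (nat_lit 67220304722) (nat_lit 0) (nat_lit 28717333746) (nat_lit 2) (nat_lit 5) (nat_lit 4) (nat_lit 4) (nat_lit 2) (nat_lit 4) (nat_lit 379) (nat_lit 325) (nat_lit 316)) (XT.lf (nat_lit 0) (nat_lit 47364669024) (nat_lit 152) (nat_lit 48841937569) (nat_lit 0) (nat_lit 46734013834) (nat_lit 2) (nat_lit 5) (nat_lit 4) (nat_lit 4) (nat_lit 2) (nat_lit 4) (nat_lit 380) (nat_lit 325) (nat_lit 315))) (XT.nd (nat_lit 78) (nat_lit 76) (nat_lit 0) (XT.lf (nat_lit 0) (nat_lit 67496022863) (nat_lit 152) (nat_lit 28995088404) (nat_lit 0) (nat_lit 66838358048) (nat_lit 2) (nat_lit 5)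 (nat_lit 4) (nat_lit 4) (nat_lit 2) (nat_lit 4) (nat_lit 381) (nat_lit 325) (nat_lit 314)) (XT.nd (nat_lit 78) (nat_lit 76) (nat_lit 0) (XT.lf (nat_lit 0) (nat_lit 90104863700) (nat_lit 152) (nat_lit 7291449309) (nat_lit 0) (nat_lit 89423712254) (nat_lit 2) (nat_lit 5) (nat_lit 4) (nat_lit 4) (nat_lit 2) (nat_lit 4) (nat_lit 382) (nat_lit 325) (nat_lit 313)) (XT.lf (nat_lit 0) (nat_lit 17572672375) (nat_lit 76) (nat_lit 98483489237) (nat_lit 76) (nat_lit 97781914635) (nat_lit 1) (nat_lit 4) (nat_lit 2) (nat_lit 5) (nat_lit 2) (nat_lit 4) (nat_lit 383) (nat_lit 325) (nat_lit 312)))))) (XT.nd (nat_lit 390) (nat_lit 0) (nat_lit 0) (XT.nd (nat_lit 156) (nat_lit 0) (nat_lit 0) (XT.nd (nat_lit 78) (nat_lit 0) (nat_lit 0) (XT.lf (nat_lit 0) (nat_lit 45716295180) (nat_lit 76) (nat_lit 99964703910) (nat_lit 76) (nat_lit 99245370041) (nat_lit 1) (nat_lit 4) (nat_lit 2) (nat_lit 5) (nat_lit 2) (nat_lit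 4) (nat_lit 384) (nat_lit 325) (nat_lit 311)) (XT.lf (nat_lit 0) (nat_lit 77306100405) (nat_lit 76) (nat_lit 102068298462) (nat_lit 76) (nat_lit 101333521752) (nat_lit 1) (nat_lit 4) (nat_lit 2) (nat_lit 5) (nat_lit 2) (nat_lit 4) (nat_lit 385) (nat_lit 325) (nat_lit 310))) (XT.nd (nat_lit 78) (nat_lit 0) (nat_lit 0) (XT.lf (nat_lit 0) (nat_lit 112960149455) (nat_lit 76) (nat_lit 104835430176) (nat_lit 76) (nat_lit 104087224909) (nat_lit 1) (nat_lit 4) (nat_lit 2) (nat_lit 5) (nat_lit 2) (nat_lit 4) (nat_lit 386) (nat_lit 325) (nat_lit 309)) (XT.nd (nat_lit 78) (nat_lit 0) (nat_lit 0) (XT.lf (nat_lit 0) (nat_lit 153376021553) (nat_lit 76) (nat_lit 108320238587) (nat_lit 76) (nat_lit 107560356313) (nat_lit 1) (nat_lit 4) (nat_lit 2) (nat_lit 5) (nat_lit 2) (nat_lit 4) (nat_lit 387) (nat_lit 325) (nat_lit 308)) (XT.lf (nat_lit 0) (nat_lit 199344462020) (nat_lit 76) (nat_lit 112590904728) (nat_lit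 76) (nat_lit 111820868536) (nat_lit 1) (nat_lit 4) (nat_lit 2) (nat_lit 5) (nat_lit 2) (nat_lit 4) (nat_lit 388) (nat_lit 325) (nat_lit 307))))) (XT.nd (nat_lit 156) (nat_lit 0) (nat_lit 0) (XT.nd (nat_lit 78) (nat_lit 0) (nat_lit 0) (XT.lf (nat_lit 0) (nat_lit 251764853388) (nat_lit 76) (nat_lit 117730985111) (nat_lit 76) (nat_lit 116952119425) (nat_lit 1) (nat_lit 4) (nat_lit 2) (nat_lit 5) (nat_lit 2) (nat_lit 4) (nat_lit 389) (nat_lit 325) (nat_lit 306)) (XT.lf (nat_lit 0) (nat_lit 311662812011) (nat_lit 76) (nat_lit 123841046527) (nat_lit 76) (nat_lit 123054503019) (nat_lit 1) (nat_lit 4) (nat_lit 2) (nat_lit 5) (nat_lit 2) (nat_lit 4) (nat_lit 390) (nat_lit 325) (nat_lit 305))) (XT.nd (nat_lit 78) (nat_lit 0) (nat_lit 0) (XT.lf (nat_lit 0) (nat_lit 380210254469) (nat_lit 76) (nat_lit 131040633654) (nat_lit 76) (nat_lit 130247413781) (nat_lit 1) (nat_lit 4) (nat_lit 2) (nat_lit 5) (nat_lit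 2) (nat_lit 4) (nat_lit 391) (nat_lit 325) (nat_lit 304)) (XT.nd (nat_lit 78) (nat_lit 0) (nat_lit 0) (XT.lf (nat_lit 0) (nat_lit 458748326376) (nat_lit 76) (nat_lit 139470607981) (nat_lit 76) (nat_lit 138671582571) (nat_lit 1) (nat_lit 4) (nat_lit 2) (nat_lit 5) (nat_lit 2) (nat_lit 4) (nat_lit 392) (nat_lit 325) (nat_lit 303)) (XT.lf (nat_lit 0) (nat_lit 548813642182) (nat_lit 76) (nat_lit 149295903787) (nat_lit 76) (nat_lit 148491830086) (nat_lit 1) (nat_lit 4) (nat_lit 2) (nat_lit 5) (nat_lit 2) (nat_lit 4) (nat_lit 393) (nat_lit 325) (nat_lit 302))))))))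
noncomputable def xc19 : XT := (XT.nd (nat_lit 1404) (nat_lit 0) (nat_lit 0) (XT.nd (nat_lit 702) (nat_lit 0) (nat_lit 0) (XT.nd (nat_lit 312) (nat_lit 0) (nat_lit 0) (XT.nd (nat_lit 156) (nat_lit 0) (nat_lit 0) (XT.nd (nat_lit 78) (nat_lit 0) (nat_lit 0) (XT.lf (nat_lit 0) (nat_lit 652168349371) (nat_lit 76) (nat_lit 160708755122) (nat_lit 76) (nat_lit 159900291601) (nat_lit 1) (nat_lit 4) (nat_lit 2) (nat_lit 5) (nat_lit 2) (nat_lit 4) (nat_lit 394) (nat_lit 325) (nat_lit 301)) (XT.lf (nat_lit 0) (nat_lit 770834605257) (nat_lit 76) (nat_lit 173932456901) (nat_lit 76) (nat_lit 173120176147) (nat_lit 1) (nat_lit 4) (nat_lit 2) (nat_lit 5) (nat_lit 2) (nat_lit 4) (nat_lit 395) (nat_lit 325) (nat_lit 300))) (XT.nd (nat_lit 78) (nat_lit 0) (nat_lit 0) (XT.lf (nat_lit 0) (nat_lit 907134140934) (nat_lit 76) (nat_lit 189225733727) (nat_lit 76) (nat_lit 188410133638) (nat_lit 1) (nat_lit 4) (nat_lit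 2) (nat_lit 5) (nat_lit 2) (nat_lit 4) (nat_lit 396) (nat_lit 325) (nat_lit 299)) (XT.lf (nat_lit 0) (nat_lit 1063733686447) (nat_lit 76) (nat_lit 206887801883) (nat_lit 76) (nat_lit 206069315417) (nat_lit 1) (nat_lit 4) (nat_lit 2) (nat_lit 5) (nat_lit 2) (nat_lit 4) (nat_lit 397) (nat_lit 325) (nat_lit 298)))) (XT.nd (nat_lit 156) (nat_lit 0) (nat_lit 0) (XT.nd (nat_lit 78) (nat_lit 0) (nat_lit 0) (XT.lf (nat_lit 0) (nat_lit 1243697145947) (nat_lit 76) (nat_lit 227264223573) (nat_lit 76) (nat_lit 226443227214) (nat_lit 1) (nat_lit 4) (nat_lit 2) (nat_lit 5) (nat_lit 2) (nat_lit 4) (nat_lit 398) (nat_lit 325) (nat_lit 297)) (XT.lf (nat_lit 0) (nat_lit 1450545543643) (nat_lit 76) (nat_lit 250753667918) (nat_lit 76) (nat_lit 249930489042) (nat_lit 1) (nat_lit 4) (nat_lit 2) (nat_lit 5) (nat_lit 2) (nat_lit 4) (nat_lit 399) (nat_lit 325) (nat_lit 296))) (XT.nd (nat_lit 78) (nat_lit 0) (nat_lit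 0) (XT.lf (nat_lit 0) (nat_lit 1688325913403) (nat_lit 76) (nat_lit 277815711002) (nat_lit 76) (nat_lit 276990634286) (nat_lit 1) (nat_lit 4) (nat_lit 2) (nat_lit 5) (nat_lit 2) (nat_lit 4) (nat_lit 400) (nat_lit 325) (nat_lit 295)) (XT.nd (nat_lit 78) (nat_lit 0) (nat_lit 0) (XT.lf (nat_lit 0) (nat_lit 1961690479851) (nat_lit 76) (nat_lit 308979827581) (nat_lit 76) (nat_lit 308153100570) (nat_lit 1) (nat_lit 4) (nat_lit 2) (nat_lit 5) (nat_lit 2) (nat_lit 4) (nat_lit 401) (nat_lit 325) (nat_lit 294)) (XT.lf (nat_lit 0) (nat_lit 2275987680158) (nat_lit 76) (nat_lit 344855750371) (nat_lit 76) (nat_lit 344027588320) (nat_lit 1) (nat_lit 4) (nat_lit 2) (nat_lit 5) (nat_lit 2) (nat_lit 4) (nat_lit 402) (nat_lit 325) (nat_lit 293)))))) (XT.nd (nat_lit 312) (nat_lit 0) (nat_lit 0) (XT.nd (nat_lit 156) (nat_lit 0) (nat_lit 0) (XT.nd (nat_lit 78) (nat_lit 0) (nat_lit 0) (XT.lf (nat_lit 0) (nat_lit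 2637366807373) (nat_lit 76) (nat_lit 386145399600) (nat_lit 76) (nat_lit 385315989689) (nat_lit 1) (nat_lit 4) (nat_lit 2) (nat_lit 5) (nat_lit 2) (nat_lit 4) (nat_lit 403) (nat_lit 325) (nat_lit 292)) (XT.lf (nat_lit 0) (nat_lit 3052898322680) (nat_lit 76) (nat_lit 433656616232) (nat_lit 76) (nat_lit 432826121224) (nat_lit 1) (nat_lit 4) (nat_lit 2) (nat_lit 5) (nat_lit 2) (nat_lit 4) (nat_lit 404) (nat_lit 325) (nat_lit 291))) (XT.nd (nat_lit 78) (nat_lit 0) (nat_lit 0) (XT.lf (nat_lit 0) (nat_lit 3530712190511) (nat_lit 76) (nat_lit 488318967548) (nat_lit 76) (nat_lit 487487528979) (nat_lit 1) (nat_lit 4) (nat_lit 2) (nat_lit 5) (nat_lit 2) (nat_lit 4) (nat_lit 405) (nat_lit 325) (nat_lit 290)) (XT.lf (nat_lit 0) (nat_lit 4080156943061) (nat_lit 76) (nat_lit 551201934336) (nat_lit 76) (nat_lit 550369675278) (nat_lit 1) (nat_lit 4) (nat_lit 2) (nat_lit 5) (nat_lit 2) (nat_lit 4) (nat_lit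 406) (nat_lit 325) (nat_lit 289)))) (XT.nd (nat_lit 156) (nat_lit 0) (nat_lit 0) (XT.nd (nat_lit 78) (nat_lit 0) (nat_lit 0) (XT.lf (nat_lit 0) (nat_lit 4711982586358) (nat_lit 76) (nat_lit 623535835510) (nat_lit 76) (nat_lit 622702862983) (nat_lit 1) (nat_lit 4) (nat_lit 2) (nat_lit 5) (nat_lit 2) (nat_lit 4) (nat_lit 407) (nat_lit 325) (nat_lit 288)) (XT.lf (nat_lit 0) (nat_lit 5438550926468) (nat_lit 76) (nat_lit 706735899572) (nat_lit 76) (nat_lit 705902306638) (nat_lit 1) (nat_lit 4) (nat_lit 2) (nat_lit 5) (nat_lit 2) (nat_lit 4) (nat_lit 408) (nat_lit 325) (nat_lit 287))) (XT.nd (nat_lit 78) (nat_lit 0) (nat_lit 0) (XT.lf (nat_lit 0) (nat_lit 6274077430913) (nat_lit 76) (nat_lit 802429953862) (nat_lit 76) (nat_lit 801595821443) (nat_lit 1) (nat_lit 4) (nat_lit 2) (nat_lit 5) (nat_lit 2) (nat_lit 4) (nat_lit 409) (nat_lit 325) (nat_lit 286)) (XT.nd (nat_lit 78) (nat_lit 0) (nat_lit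 0) (XT.lf (nat_lit 0) (nat_lit 7234909357390) (nat_lit 76) (nat_lit 912490273355) (nat_lit 76) (nat_lit 911655671820) (nat_lit 1) (nat_lit 4) (nat_lit 2) (nat_lit 5) (nat_lit 2) (nat_lit 4) (nat_lit 410) (nat_lit 325) (nat_lit 285)) (XT.lf (nat_lit 0) (nat_lit 8339845591417) (nat_lit 76) (nat_lit 1039070212128) (nat_lit 76) (nat_lit 1038235202665) (nat_lit 1) (nat_lit 4) (nat_lit 2) (nat_lit 5) (nat_lit 2) (nat_lit 4) (nat_lit 411) (nat_lit 325) (nat_lit 284))))))) (XT.nd (nat_lit 702) (nat_lit 0) (nat_lit 0) (XT.nd (nat_lit 312) (nat_lit 0) (nat_lit 0) (XT.nd (nat_lit 156) (nat_lit 0) (nat_lit 0) (XT.nd (nat_lit 78) (nat_lit 0) (nat_lit 0) (XT.lf (nat_lit 0) (nat_lit 9610504450615) (nat_lit 76) (nat_lit 1184646334202) (nat_lit 76) (nat_lit 1183810970019) (nat_lit 1) (nat_lit 4) (nat_lit 2) (nat_lit 5) (nat_lit 2) (nat_lit 4) (nat_lit 412) (nat_lit 325) (nat_lit 283)) (XT.lf (nat_lit 0) (nat_lit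 11071746651796) (nat_lit 76) (nat_lit 1352066868051) (nat_lit 76) (nat_lit 1351231195416) (nat_lit 1) (nat_lit 4) (nat_lit 2) (nat_lit 5) (nat_lit 2) (nat_lit 4) (nat_lit 413) (nat_lit 325) (nat_lit 282))) (XT.nd (nat_lit 78) (nat_lit 0) (nat_lit 0) (XT.lf (nat_lit 0) (nat_lit 12752161716287) (nat_lit 76) (nat_lit 1544607432815) (nat_lit 76) (nat_lit 1543771491961) (nat_lit 1) (nat_lit 4) (nat_lit 2) (nat_lit 5) (nat_lit 2) (nat_lit 4) (nat_lit 414) (nat_lit 325) (nat_lit 281)) (XT.lf (nat_lit 0) (nat_lit 14684627330131) (nat_lit 76) (nat_lit 1766035126501) (nat_lit 76) (nat_lit 1765198952413) (nat_lit 1) (nat_lit 4) (nat_lit 2) (nat_lit 5) (nat_lit 2) (nat_lit 4) (nat_lit 415) (nat_lit 325) (nat_lit 280)))) (XT.nd (nat_lit 156) (nat_lit 0) (nat_lit 0) (XT.nd (nat_lit 78) (nat_lit 0) (nat_lit 0) (XT.lf (nat_lit 0) (nat_lit 16906952603166) (nat_lit 76) (nat_lit 2020682230073) (nat_lit 76)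 (nat_lit 2019845853173) (nat_lit 1) (nat_lit 4) (nat_lit 2) (nat_lit 5) (nat_lit 2) (nat_lit 4) (nat_lit 416) (nat_lit 325) (nat_lit 279)) (XT.lf (nat_lit 0) (nat_lit 19462617812472) (nat_lit 76) (nat_lit 2313530969470) (nat_lit 76) (nat_lit 2312694416211) (nat_lit 1) (nat_lit 4) (nat_lit 2) (nat_lit 5) (nat_lit 2) (nat_lit 4) (nat_lit 417) (nat_lit 325) (nat_lit 278))) (XT.nd (nat_lit 78) (nat_lit 0) (nat_lit 0) (XT.lf (nat_lit 0) (nat_lit 22401625103449) (nat_lit 76) (nat_lit 2650310993940) (nat_lit 76) (nat_lit 2649474287326) (nat_lit 1) (nat_lit 4) (nat_lit 2) (nat_lit 5) (nat_lit 2) (nat_lit 4) (nat_lit 418) (nat_lit 325) (nat_lit 277)) (XT.nd (nat_lit 78) (nat_lit 0) (nat_lit 0) (XT.lf (nat_lit 0) (nat_lit 25781476792660) (nat_lit 76) (nat_lit 3037611477877) (nat_lit 76) (nat_lit 3036774637910) (nat_lit 1) (nat_lit 4) (nat_lit 2) (nat_lit 5) (nat_lit 2) (nat_lit 4) (nat_lit 419) (nat_lit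 325) (nat_lit 276)) (XT.lf (nat_lit 0) (nat_lit 29668300413153) (nat_lit 76) (nat_lit 3483010039443) (nat_lit 76) (nat_lit 3482173083518) (nat_lit 1) (nat_lit 4) (nat_lit 2) (nat_lit 5) (nat_lit 2) (nat_lit 4) (nat_lit 420) (nat_lit 325) (nat_lit 275)))))) (XT.nd (nat_lit 49218) (nat_lit 0) (nat_lit 228) (XT.nd (nat_lit 48984) (nat_lit 0) (nat_lit 532) (XT.nd (nat_lit 78) (nat_lit 0) (nat_lit 0) (XT.lf (nat_lit 0) (nat_lit 34138142514027) (nat_lit 76) (nat_lit 3995220998321) (nat_lit 76) (nat_lit 3994383941563) (nat_lit 1) (nat_lit 4) (nat_lit 2) (nat_lit 5) (nat_lit 2) (nat_lit 4) (nat_lit 421) (nat_lit 325) (nat_lit 274)) (XT.lf (nat_lit 0) (nat_lit 39278456527688) (nat_lit 76) (nat_lit 4584265873273) (nat_lit 76) (nat_lit 4583428728833) (nat_lit 1) (nat_lit 4) (nat_lit 2) (nat_lit 5) (nat_lit 2) (nat_lit 4) (nat_lit 422) (nat_lit 325) (nat_lit 273))) (XT.nd (nat_lit 78) (nat_lit 228) (nat_lit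 0) (XT.lf (nat_lit 0) (nat_lit 1916423686) (nat_lit 152) (nat_lit 13328548628) (nat_lit 0) (nat_lit 1916423686) (nat_lit 11) (nat_lit 5) (nat_lit 13) (nat_lit 4) (nat_lit 11) (nat_lit 4) (nat_lit 368) (nat_lit 326) (nat_lit 326)) (XT.nd (nat_lit 78) (nat_lit 152) (nat_lit 0) (XT.lf (nat_lit 0) (nat_lit 8323151416) (nat_lit 76) (nat_lit 14893457957) (nat_lit 76) (nat_lit 14735163370) (nat_lit 10) (nat_lit 4) (nat_lit 11) (nat_lit 5) (nat_lit 11) (nat_lit 4) (nat_lit 369) (nat_lit 326) (nat_lit 325)) (XT.lf (nat_lit 0) (nat_lit 2454525764) (nat_lit 152) (nat_lit 37544301034) (nat_lit 0) (nat_lit 2180505342) (nat_lit 8) (nat_lit 5) (nat_lit 10) (nat_lit 4) (nat_lit 8) (nat_lit 4) (nat_lit 370) (nat_lit 326) (nat_lit 324))))) (XT.nd (nat_lit 156) (nat_lit 228) (nat_lit 0) (XT.nd (nat_lit 78) (nat_lit 76) (nat_lit 0) (XT.lf (nat_lit 0) (nat_lit 21055305965) (nat_lit 152) (nat_lit 5308244288) (nat_lit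 0) (nat_lit 20670458275) (nat_lit 8) (nat_lit 5) (nat_lit 10) (nat_lit 4) (nat_lit 8) (nat_lit 4) (nat_lit 371) (nat_lit 326) (nat_lit 323)) (XT.lf (nat_lit 0) (nat_lit 30390596261) (nat_lit 76) (nat_lit 11380753799) (nat_lit 76) (nat_lit 10899534571) (nat_lit 7) (nat_lit 4) (nat_lit 8) (nat_lit 5) (nat_lit 8) (nat_lit 4) (nat_lit 372) (nat_lit 326) (nat_lit 322))) (XT.nd (nat_lit 78) (nat_lit 76) (nat_lit 0) (XT.lf (nat_lit 0) (nat_lit 5326752564) (nat_lit 152) (nat_lit 49073970849) (nat_lit 0) (nat_lit 4803585374) (nat_lit 5) (nat_lit 5) (nat_lit 7) (nat_lit 4) (nat_lit 5) (nat_lit 4) (nat_lit 373) (nat_lit 326) (nat_lit 321)) (XT.nd (nat_lit 78) (nat_lit 76) (nat_lit 0) (XT.lf (nat_lit 0) (nat_lit 23102241929) (nat_lit 152) (nat_lit 21100410759) (nat_lit 0) (nat_lit 22511601842) (nat_lit 5) (nat_lit 5) (nat_lit 7) (nat_lit 4) (nat_lit 5) (nat_lit 4) (nat_lit 374) (nat_lit 326) (nat_lit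 320)) (XT.lf (nat_lit 0) (nat_lit 9314912910) (nat_lit 76) (nat_lit 33376648475) (nat_lit 76) (nat_lit 32727336304) (nat_lit 4) (nat_lit 4) (nat_lit 5) (nat_lit 5) (nat_lit 5) (nat_lit 4) (nat_lit 375) (nat_lit 326) (nat_lit 319))))))))
noncomputable def xc20 : XT := (XT.nd (nat_lit 1404) (nat_lit 0) (nat_lit 0) (XT.nd (nat_lit 702) (nat_lit 0) (nat_lit 0) (XT.nd (nat_lit 312) (nat_lit 76) (nat_lit 0) (XT.nd (nat_lit 156) (nat_lit 152) (nat_lit 0) (XT.nd (nat_lit 78) (nat_lit 0) (nat_lit 0) (XT.lf (nat_lit 0) (nat_lit 43538004067) (nat_lit 76) (nat_lit 21310611491) (nat_lit 76) (nat_lit 20610280118) (nat_lit 4) (nat_lit 4) (nat_lit 5) (nat_lit 5) (nat_lit 5) (nat_lit 4) (nat_lit 376) (nat_lit 326) (nat_lit 318)) (XT.lf (nat_lit 0) (nat_lit 81127334691) (nat_lit 76) (nat_lit 8345389725) (nat_lit 76) (nat_lit 7600693827) (nat_lit 4) (nat_lit 4) (nat_lit 5) (nat_lit 5) (nat_lit 5) (nat_lit 4)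 (nat_lit 377) (nat_lit 326) (nat_lit 317))) (XT.nd (nat_lit 78) (nat_lit 0) (nat_lit 0) (XT.lf (nat_lit 0) (nat_lit 6687060049) (nat_lit 152) (nat_lit 97791501128) (nat_lit 0) (nat_lit 5961806581) (nat_lit 2) (nat_lit 5) (nat_lit 4) (nat_lit 4) (nat_lit 2) (nat_lit 4) (nat_lit 378) (nat_lit 326) (nat_lit 316)) (XT.lf (nat_lit 0) (nat_lit 22670770566) (nat_lit 152) (nat_lit 81211115527) (nat_lit 0) (nat_lit 21914456028) (nat_lit 2) (nat_lit 5) (nat_lit 4) (nat_lit 4) (nat_lit 2) (nat_lit 4) (nat_lit 379) (nat_lit 326) (nat_lit 315)))) (XT.nd (nat_lit 156) (nat_lit 76) (nat_lit 0) (XT.nd (nat_lit 78) (nat_lit 0) (nat_lit 0) (XT.lf (nat_lit 0) (nat_lit 40428489169) (nat_lit 152) (nat_lit 63431945147) (nat_lit 0) (nat_lit 39645165006) (nat_lit 2) (nat_lit 5) (nat_lit 4) (nat_lit 4) (nat_lit 2) (nat_lit 4) (nat_lit 380) (nat_lit 326) (nat_lit 314)) (XT.lf (nat_lit 0) (nat_lit 60307649483) (nat_lit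 152) (nat_lit 44106136653) (nat_lit 0) (nat_lit 59500838690) (nat_lit 2) (nat_lit 5) (nat_lit 4) (nat_lit 4) (nat_lit 2) (nat_lit 4) (nat_lit 381) (nat_lit 326) (nat_lit 313))) (XT.nd (nat_lit 78) (nat_lit 76) (nat_lit 0) (XT.lf (nat_lit 0) (nat_lit 82697191602) (nat_lit 152) (nat_lit 22855576403) (nat_lit 0) (nat_lit 81869957653) (nat_lit 2) (nat_lit 5) (nat_lit 4) (nat_lit 4) (nat_lit 2) (nat_lit 4) (nat_lit 382) (nat_lit 326) (nat_lit 312)) (XT.nd (nat_lit 78) (nat_lit 0) (nat_lit 0) (XT.lf (nat_lit 0) (nat_lit 774237953) (nat_lit 76) (nat_lit 107279554273) (nat_lit 76) (nat_lit 106434561056) (nat_lit 1) (nat_lit 4) (nat_lit 2) (nat_lit 5) (nat_lit 2) (nat_lit 4) (nat_lit 383) (nat_lit 326) (nat_lit 311)) (XT.lf (nat_lit 0) (nat_lit 28557227734) (nat_lit 76) (nat_lit 108946907400) (nat_lit 76) (nat_lit 108086471343) (nat_lit 1) (nat_lit 4) (nat_lit 2) (nat_lit 5) (nat_lit 2) (nat_lit 4)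 (nat_lit 384) (nat_lit 326) (nat_lit 310)))))) (XT.nd (nat_lit 312) (nat_lit 0) (nat_lit 0) (XT.nd (nat_lit 156) (nat_lit 0) (nat_lit 0) (XT.nd (nat_lit 78) (nat_lit 0) (nat_lit 0) (XT.lf (nat_lit 0) (nat_lit 59833439025) (nat_lit 76) (nat_lit 111212361478) (nat_lit 76) (nat_lit 110338496863) (nat_lit 1) (nat_lit 4) (nat_lit 2) (nat_lit 5) (nat_lit 2) (nat_lit 4) (nat_lit 385) (nat_lit 326) (nat_lit 309)) (XT.lf (nat_lit 0) (nat_lit 95214797698) (nat_lit 76) (nat_lit 114120240605) (nat_lit 76) (nat_lit 113234698985) (nat_lit 1) (nat_lit 4) (nat_lit 2) (nat_lit 5) (nat_lit 2) (nat_lit 4) (nat_lit 386) (nat_lit 326) (nat_lit 308))) (XT.nd (nat_lit 78) (nat_lit 0) (nat_lit 0) (XT.lf (nat_lit 0) (nat_lit 135393547728) (nat_lit 76) (nat_lit 117727438072) (nat_lit 76) (nat_lit 116831742532) (nat_lit 1) (nat_lit 4) (nat_lit 2) (nat_lit 5) (nat_lit 2) (nat_lit 4) (nat_lit 387) (nat_lit 326) (nat_lit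 307)) (XT.lf (nat_lit 0) (nat_lit 181155795094) (nat_lit 76) (nat_lit 122104529478) (nat_lit 76) (nat_lit 121200004445) (nat_lit 1) (nat_lit 4) (nat_lit 2) (nat_lit 5) (nat_lit 2) (nat_lit 4) (nat_lit 388) (nat_lit 326) (nat_lit 306)))) (XT.nd (nat_lit 156) (nat_lit 0) (nat_lit 0) (XT.nd (nat_lit 78) (nat_lit 0) (nat_lit 0) (XT.lf (nat_lit 0) (nat_lit 233396888113) (nat_lit 76) (nat_lit 127337153571) (nat_lit 76) (nat_lit 126424950716) (nat_lit 1) (nat_lit 4) (nat_lit 2) (nat_lit 5) (nat_lit 2) (nat_lit 4) (nat_lit 389) (nat_lit 326) (nat_lit 305)) (XT.lf (nat_lit 0) (nat_lit 293138935127) (nat_lit 76) (nat_lit 133527687777) (nat_lit 76) (nat_lit 132608808556) (nat_lit 1) (nat_lit 4) (nat_lit 2) (nat_lit 5) (nat_lit 2) (nat_lit 4) (nat_lit 390) (nat_lit 326) (nat_lit 304))) (XT.nd (nat_lit 78) (nat_lit 0) (nat_lit 0) (XT.lf (nat_lit 0) (nat_lit 361550802274) (nat_lit 76) (nat_lit 140797251244)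 (nat_lit 76) (nat_lit 139872566487) (nat_lit 1) (nat_lit 4) (nat_lit 2) (nat_lit 5) (nat_lit 2) (nat_lit 4) (nat_lit 391) (nat_lit 326) (nat_lit 303)) (XT.nd (nat_lit 78) (nat_lit 0) (nat_lit 0) (XT.lf (nat_lit 0) (nat_lit 439970982605) (nat_lit 76) (nat_lit 149288074562) (nat_lit 76) (nat_lit 148358341513) (nat_lit 1) (nat_lit 4) (nat_lit 2) (nat_lit 5) (nat_lit 2) (nat_lit 4) (nat_lit 392) (nat_lit 326) (nat_lit 302)) (XT.lf (nat_lit 0) (nat_lit 529933783999) (nat_lit 76) (nat_lit 159166282534) (nat_lit 76) (nat_lit 158232159666) (nat_lit 1) (nat_lit 4) (nat_lit 2) (nat_lit 5) (nat_lit 2) (nat_lit 4) (nat_lit 393) (nat_lit 326) (nat_lit 301))))))) (XT.nd (nat_lit 702) (nat_lit 0) (nat_lit 0) (XT.nd (nat_lit 312) (nat_lit 0) (nat_lit 0) (XT.nd (nat_lit 156) (nat_lit 0) (nat_lit 0) (XT.nd (nat_lit 78) (nat_lit 0) (nat_lit 0) (XT.lf (nat_lit 0) (nat_lit 633199348220) (nat_lit 76) (nat_lit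 170625144448) (nat_lit 76) (nat_lit 169687204345) (nat_lit 1) (nat_lit 4) (nat_lit 2) (nat_lit 5) (nat_lit 2) (nat_lit 4) (nat_lit 394) (nat_lit 326) (nat_lit 300)) (XT.lf (nat_lit 0) (nat_lit 751788088481) (nat_lit 76) (nat_lit 183888855427) (nat_lit 76) (nat_lit 182947595990) (nat_lit 1) (nat_lit 4) (nat_lit 2) (nat_lit 5) (nat_lit 2) (nat_lit 4) (nat_lit 395) (nat_lit 326) (nat_lit 299))) (XT.nd (nat_lit 78) (nat_lit 0) (nat_lit 0) (XT.lf (nat_lit 0) (nat_lit 888020219267) (nat_lit 76) (nat_lit 199216922860) (nat_lit 76) (nat_lit 198272777046) (nat_lit 1) (nat_lit 4) (nat_lit 2) (nat_lit 5) (nat_lit 2) (nat_lit 4) (nat_lit 396) (nat_lit 326) (nat_lit 298)) (XT.lf (nat_lit 0) (nat_lit 1044561151831) (nat_lit 76) (nat_lit 216909243719) (nat_lit 76) (nat_lit 215962588012) (nat_lit 1) (nat_lit 4) (nat_lit 2) (nat_lit 5) (nat_lit 2) (nat_lit 4) (nat_lit 397) (nat_lit 326) (nat_lit 297)))) (XT.nd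 (nat_lit 156) (nat_lit 0) (nat_lit 0) (XT.nd (nat_lit 78) (nat_lit 0) (nat_lit 0) (XT.lf (nat_lit 0) (nat_lit 1224473643551) (nat_lit 76) (nat_lit 237311972107) (nat_lit 76) (nat_lit 236363133884) (nat_lit 1) (nat_lit 4) (nat_lit 2) (nat_lit 5) (nat_lit 2) (nat_lit 4) (nat_lit 398) (nat_lit 326) (nat_lit 296)) (XT.lf (nat_lit 0) (nat_lit 1431277721437) (nat_lit 76) (nat_lit 260824291841) (nat_lit 76) (nat_lit 259873555778) (nat_lit 1) (nat_lit 4) (nat_lit 2) (nat_lit 5) (nat_lit 2) (nat_lit 4) (nat_lit 399) (nat_lit 326) (nat_lit 295))) (XT.nd (nat_lit 78) (nat_lit 0) (nat_lit 0) (XT.lf (nat_lit 0) (nat_lit 1669019552231) (nat_lit 76) (nat_lit 287906226568) (nat_lit 76) (nat_lit 286953840210) (nat_lit 1) (nat_lit 4) (nat_lit 2) (nat_lit 5) (nat_lit 2) (nat_lit 4) (nat_lit 400) (nat_lit 326) (nat_lit 294)) (XT.nd (nat_lit 78) (nat_lit 0) (nat_lit 0) (XT.lf (nat_lit 0) (nat_lit 1942350606536)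 (nat_lit 76) (nat_lit 319087640228) (nat_lit 76) (nat_lit 318133818830) (nat_lit 1) (nat_lit 4) (nat_lit 2) (nat_lit 5) (nat_lit 2) (nat_lit 4) (nat_lit 401) (nat_lit 326) (nat_lit 293)) (XT.lf (nat_lit 0) (nat_lit 2256618665848) (nat_lit 76) (nat_lit 354978603958) (nat_lit 76) (nat_lit 354023534699) (nat_lit 1) (nat_lit 4) (nat_lit 2) (nat_lit 5) (nat_lit 2) (nat_lit 4) (nat_lit 402) (nat_lit 326) (nat_lit 292)))))) (XT.nd (nat_lit 390) (nat_lit 0) (nat_lit 0) (XT.nd (nat_lit 156) (nat_lit 0) (nat_lit 0) (XT.nd (nat_lit 78) (nat_lit 0) (nat_lit 0) (XT.lf (nat_lit 0) (nat_lit 2617972453068) (nat_lit 76) (nat_lit 396281332266) (nat_lit 76) (nat_lit 395325177911) (nat_lit 1) (nat_lit 4) (nat_lit 2) (nat_lit 5) (nat_lit 2) (nat_lit 4) (nat_lit 403) (nat_lit 326) (nat_lit 291)) (XT.lf (nat_lit 0) (nat_lit 3033481933598) (nat_lit 76) (nat_lit 443803922009) (nat_lit 76) (nat_lit 442846824092) (nat_lit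 1) (nat_lit 4) (nat_lit 2) (nat_lit 5) (nat_lit 2) (nat_lit 4) (nat_lit 404) (nat_lit 326) (nat_lit 290))) (XT.nd (nat_lit 78) (nat_lit 0) (nat_lit 0) (XT.lf (nat_lit 0) (nat_lit 3511276640751) (nat_lit 76) (nat_lit 498476162988) (nat_lit 76) (nat_lit 497518244582) (nat_lit 1) (nat_lit 4) (nat_lit 2) (nat_lit 5) (nat_lit 2) (nat_lit 4) (nat_lit 405) (nat_lit 326) (nat_lit 289)) (XT.nd (nat_lit 78) (nat_lit 0) (nat_lit 0) (XT.lf (nat_lit 0) (nat_lit 4060704731843) (nat_lit 76) (nat_lit 561367729481) (nat_lit 76) (nat_lit 560409097608) (nat_lit 1) (nat_lit 4) (nat_lit 2) (nat_lit 5) (nat_lit 2) (nat_lit 4) (nat_lit 406) (nat_lit 326) (nat_lit 288)) (XT.lf (nat_lit 0) (nat_lit 4692515886916) (nat_lit 76) (nat_lit 633709108661) (nat_lit 76) (nat_lit 632749856380) (nat_lit 1) (nat_lit 4) (nat_lit 2) (nat_lit 5) (nat_lit 2) (nat_lit 4) (nat_lit 407) (nat_lit 326) (nat_lit 287))))) (XT.nd (nat_lit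 156) (nat_lit 0) (nat_lit 0) (XT.nd (nat_lit 78) (nat_lit 0) (nat_lit 0) (XT.lf (nat_lit 0) (nat_lit 5419071628569) (nat_lit 76) (nat_lit 716915675336) (nat_lit 76) (nat_lit 715955883571) (nat_lit 1) (nat_lit 4) (nat_lit 2) (nat_lit 5) (nat_lit 2) (nat_lit 4) (nat_lit 408) (nat_lit 326) (nat_lit 286)) (XT.lf (nat_lit 0) (nat_lit 6254587177836) (nat_lit 76) (nat_lit 812615384072) (nat_lit 76) (nat_lit 811655123190) (nat_lit 1) (nat_lit 4) (nat_lit 2) (nat_lit 5) (nat_lit 2) (nat_lit 4) (nat_lit 409) (nat_lit 326) (nat_lit 285))) (XT.nd (nat_lit 78) (nat_lit 0) (nat_lit 0) (XT.lf (nat_lit 0) (nat_lit 7215409578070) (nat_lit 76) (nat_lit 922680620476) (nat_lit 76) (nat_lit 921719951665) (nat_lit 1) (nat_lit 4) (nat_lit 2) (nat_lit 5) (nat_lit 2) (nat_lit 4) (nat_lit 410) (nat_lit 326) (nat_lit 284)) (XT.nd (nat_lit 78) (nat_lit 0) (nat_lit 0) (XT.lf (nat_lit 0) (nat_lit 8320337528407) (nat_lit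 76) (nat_lit 1049264834823) (nat_lit 76) (nat_lit 1048303811293) (nat_lit 1) (nat_lit 4) (nat_lit 2) (nat_lit 5) (nat_lit 2) (nat_lit 4) (nat_lit 411) (nat_lit 326) (nat_lit 283)) (XT.lf (nat_lit 0) (nat_lit 9590989184397) (nat_lit 76) (nat_lit 1194844674787) (nat_lit 76) (nat_lit 1193883342805) (nat_lit 1) (nat_lit 4) (nat_lit 2) (nat_lit 5) (nat_lit 2) (nat_lit 4) (nat_lit 412) (nat_lit 326) (nat_lit 282))))))))
noncomputable def xc21 : XT := (XT.nd (nat_lit 50076) (nat_lit 0) (nat_lit 0) (XT.nd (nat_lit 702) (nat_lit 0) (nat_lit 0) (XT.nd (nat_lit 312) (nat_lit 0) (nat_lit 0) (XT.nd (nat_lit 156) (nat_lit 0) (nat_lit 0) (XT.nd (nat_lit 78) (nat_lit 0) (nat_lit 0) (XT.lf (nat_lit 0) (nat_lit 11052225121919) (nat_lit 76) (nat_lit 1362268441584) (nat_lit 76) (nat_lit 1361306841382) (nat_lit 1) (nat_lit 4) (nat_lit 2) (nat_lit 5) (nat_lit 2) (nat_lit 4) (nat_lit 413) (nat_lit 326) (nat_lit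 281)) (XT.lf (nat_lit 0) (nat_lit 12732634739749) (nat_lit 76) (nat_lit 1554811817607) (nat_lit 76) (nat_lit 1553849984172) (nat_lit 1) (nat_lit 4) (nat_lit 2) (nat_lit 5) (nat_lit 2) (nat_lit 4) (nat_lit 414) (nat_lit 326) (nat_lit 280))) (XT.nd (nat_lit 78) (nat_lit 0) (nat_lit 0) (XT.lf (nat_lit 0) (nat_lit 14665095617368) (nat_lit 76) (nat_lit 1776241955867) (nat_lit 76) (nat_lit 1775279919619) (nat_lit 1) (nat_lit 4) (nat_lit 2) (nat_lit 5) (nat_lit 2) (nat_lit 4) (nat_lit 415) (nat_lit 326) (nat_lit 279)) (XT.lf (nat_lit 0) (nat_lit 16887416771945) (nat_lit 76) (nat_lit 2030891185155) (nat_lit 76) (nat_lit 2029928972548) (nat_lit 1) (nat_lit 4) (nat_lit 2) (nat_lit 5) (nat_lit 2) (nat_lit 4) (nat_lit 416) (nat_lit 326) (nat_lit 278)))) (XT.nd (nat_lit 156) (nat_lit 0) (nat_lit 0) (XT.nd (nat_lit 78) (nat_lit 0) (nat_lit 0) (XT.lf (nat_lit 0) (nat_lit 19443078399984) (nat_lit 76) (nat_lit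 2323741773000) (nat_lit 76) (nat_lit 2322779407038) (nat_lit 1) (nat_lit 4) (nat_lit 2) (nat_lit 5) (nat_lit 2) (nat_lit 4) (nat_lit 417) (nat_lit 326) (nat_lit 277)) (XT.lf (nat_lit 0) (nat_lit 22382082576815) (nat_lit 76) (nat_lit 2660523404817) (nat_lit 76) (nat_lit 2659560905503) (nat_lit 1) (nat_lit 4) (nat_lit 2) (nat_lit 5) (nat_lit 2) (nat_lit 4) (nat_lit 418) (nat_lit 326) (nat_lit 276))) (XT.nd (nat_lit 78) (nat_lit 0) (nat_lit 0) (XT.lf (nat_lit 0) (nat_lit 25761931558073) (nat_lit 76) (nat_lit 3047825286446) (nat_lit 76) (nat_lit 3046862671174) (nat_lit 1) (nat_lit 4) (nat_lit 2) (nat_lit 5) (nat_lit 2) (nat_lit 4) (nat_lit 419) (nat_lit 326) (nat_lit 275)) (XT.nd (nat_lit 78) (nat_lit 0) (nat_lit 0) (XT.lf (nat_lit 0) (nat_lit 29648752823825) (nat_lit 76) (nat_lit 3493225063397) (nat_lit 76) (nat_lit 3492262347291) (nat_lit 1) (nat_lit 4) (nat_lit 2) (nat_lit 5) (nat_lit 2) (nat_lit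 4) (nat_lit 420) (nat_lit 326) (nat_lit 274)) (XT.lf (nat_lit 0) (nat_lit 34118592877097) (nat_lit 76) (nat_lit 4005437079132) (nat_lit 76) (nat_lit 4004474275345) (nat_lit 1) (nat_lit 4) (nat_lit 2) (nat_lit 5) (nat_lit 2) (nat_lit 4) (nat_lit 421) (nat_lit 326) (nat_lit 273)))))) (XT.nd (nat_lit 48984) (nat_lit 0) (nat_lit 304) (XT.nd (nat_lit 48828) (nat_lit 0) (nat_lit 760) (XT.nd (nat_lit 48750) (nat_lit 0) (nat_lit 1140) (XT.lf (nat_lit 0) (nat_lit 39258905110236) (nat_lit 76) (nat_lit 4594482873089) (nat_lit 76) (nat_lit 4593519993058) (nat_lit 1) (nat_lit 4) (nat_lit 2) (nat_lit 5) (nat_lit 2) (nat_lit 4) (nat_lit 422) (nat_lit 326) (nat_lit 272)) (XT.lf (nat_lit 0) (nat_lit 13226981448) (nat_lit 76) (nat_lit 484771713) (nat_lit 76) (nat_lit 484771713) (nat_lit 16) (nat_lit 4) (nat_lit 17) (nat_lit 5) (nat_lit 17) (nat_lit 4) (nat_lit 366) (nat_lit 327) (nat_lit 327))) (XT.nd (nat_lit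 78) (nat_lit 152) (nat_lit 0) (XT.lf (nat_lit 0) (nat_lit 3187105928) (nat_lit 76) (nat_lit 14089253708) (nat_lit 76) (nat_lit 13892651830) (nat_lit 13) (nat_lit 4) (nat_lit 14) (nat_lit 5) (nat_lit 14) (nat_lit 4) (nat_lit 367) (nat_lit 327) (nat_lit 326)) (XT.lf (nat_lit 0) (nat_lit 3160763345) (nat_lit 152) (nat_lit 28409936145) (nat_lit 0) (nat_lit 2820429982) (nat_lit 11) (nat_lit 5) (nat_lit 13) (nat_lit 4) (nat_lit 11) (nat_lit 4) (nat_lit 368) (nat_lit 327) (nat_lit 325)))) (XT.nd (nat_lit 156) (nat_lit 304) (nat_lit 0) (XT.nd (nat_lit 78) (nat_lit 76) (nat_lit 0) (XT.lf (nat_lit 0) (nat_lit 4873541333) (nat_lit 76) (nat_lit 16845305326) (nat_lit 76) (nat_lit 16367324494) (nat_lit 10) (nat_lit 4) (nat_lit 11) (nat_lit 5) (nat_lit 11) (nat_lit 4) (nat_lit 369) (nat_lit 327) (nat_lit 324)) (XT.lf (nat_lit 0) (nat_lit 38856821) (nat_lit 152) (nat_lit 516852092) (nat_lit 76) (nat_lit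 41830379681) (nat_lit 9) (nat_lit 5) (nat_lit 11) (nat_lit 5) (nat_lit 10) (nat_lit 4) (nat_lit 370) (nat_lit 327) (nat_lit 323))) (XT.nd (nat_lit 78) (nat_lit 228) (nat_lit 0) (XT.lf (nat_lit 0) (nat_lit 17959011337) (nat_lit 152) (nat_lit 12026970666) (nat_lit 0) (nat_lit 17309237687) (nat_lit 8) (nat_lit 5) (nat_lit 10) (nat_lit 4) (nat_lit 8) (nat_lit 4) (nat_lit 371) (nat_lit 327) (nat_lit 322)) (XT.nd (nat_lit 78) (nat_lit 152) (nat_lit 0) (XT.lf (nat_lit 0) (nat_lit 22086437810) (nat_lit 76) (nat_lit 15820349244) (nat_lit 76) (nat_lit 15086774256) (nat_lit 7) (nat_lit 4) (nat_lit 8) (nat_lit 5) (nat_lit 8) (nat_lit 4) (nat_lit 372) (nat_lit 327) (nat_lit 321)) (XT.lf (nat_lit 0) (nat_lit 129604473) (nat_lit 76) (nat_lit 320419655) (nat_lit 152) (nat_lit 59156936968) (nat_lit 5) (nat_lit 5) (nat_lit 6) (nat_lit 5) (nat_lit 7) (nat_lit 4) (nat_lit 373) (nat_lit 327) (nat_lit 320)))))))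 (XT.nd (nat_lit 702) (nat_lit 76) (nat_lit 0) (XT.nd (nat_lit 312) (nat_lit 152) (nat_lit 0) (XT.nd (nat_lit 156) (nat_lit 76) (nat_lit 0) (XT.nd (nat_lit 78) (nat_lit 0) (nat_lit 0) (XT.lf (nat_lit 0) (nat_lit 17717101722) (nat_lit 152) (nat_lit 32528760249) (nat_lit 0) (nat_lit 16911720642) (nat_lit 5) (nat_lit 5) (nat_lit 7) (nat_lit 4) (nat_lit 5) (nat_lit 4) (nat_lit 374) (nat_lit 327) (nat_lit 319)) (XT.lf (nat_lit 0) (nat_lit 36647001064) (nat_lit 152) (nat_lit 3477380001) (nat_lit 0) (nat_lit 35790600781) (nat_lit 5) (nat_lit 5) (nat_lit 7) (nat_lit 4) (nat_lit 5) (nat_lit 4) (nat_lit 375) (nat_lit 327) (nat_lit 318))) (XT.nd (nat_lit 78) (nat_lit 0) (nat_lit 0) (XT.lf (nat_lit 0) (nat_lit 29740633739) (nat_lit 76) (nat_lit 28577012867) (nat_lit 76) (nat_lit 27676248060) (nat_lit 4) (nat_lit 4) (nat_lit 5) (nat_lit 5) (nat_lit 5) (nat_lit 4) (nat_lit 376) (nat_lit 327) (nat_lit 317))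 (XT.lf (nat_lit 0) (nat_lit 66615212409) (nat_lit 76) (nat_lit 15980131147) (nat_lit 76) (nat_lit 15040788492) (nat_lit 4) (nat_lit 4) (nat_lit 5) (nat_lit 5) (nat_lit 5) (nat_lit 4) (nat_lit 377) (nat_lit 327) (nat_lit 316)))) (XT.nd (nat_lit 156) (nat_lit 0) (nat_lit 0) (XT.nd (nat_lit 78) (nat_lit 152) (nat_lit 0) (XT.lf (nat_lit 0) (nat_lit 107684702488) (nat_lit 76) (nat_lit 2182352907) (nat_lit 76) (nat_lit 1209464298) (nat_lit 4) (nat_lit 4) (nat_lit 5) (nat_lit 5) (nat_lit 5) (nat_lit 4) (nat_lit 378) (nat_lit 327) (nat_lit 315)) (XT.lf (nat_lit 0) (nat_lit 14404141178) (nat_lit 152) (nat_lit 98588821013) (nat_lit 0) (nat_lit 13476308767) (nat_lit 2) (nat_lit 5) (nat_lit 4) (nat_lit 4) (nat_lit 2) (nat_lit 4) (nat_lit 379) (nat_lit 327) (nat_lit 314))) (XT.nd (nat_lit 78) (nat_lit 0) (nat_lit 0) (XT.lf (nat_lit 0) (nat_lit 31909666256) (nat_lit 152) (nat_lit 81330691305) (nat_lit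 0) (nat_lit 30958347214) (nat_lit 2) (nat_lit 5) (nat_lit 4) (nat_lit 4) (nat_lit 2) (nat_lit 4) (nat_lit 380) (nat_lit 327) (nat_lit 313)) (XT.nd (nat_lit 78) (nat_lit 0) (nat_lit 0) (XT.lf (nat_lit 0) (nat_lit 51569527853) (nat_lit 152) (nat_lit 62457961656) (nat_lit 0) (nat_lit 50597785654) (nat_lit 2) (nat_lit 5) (nat_lit 4) (nat_lit 4) (nat_lit 2) (nat_lit 4) (nat_lit 381) (nat_lit 327) (nat_lit 312)) (XT.lf (nat_lit 0) (nat_lit 73768375435) (nat_lit 152) (nat_lit 41601383010) (nat_lit 0) (nat_lit 72778873970) (nat_lit 2) (nat_lit 5) (nat_lit 4) (nat_lit 4) (nat_lit 2) (nat_lit 4) (nat_lit 382) (nat_lit 327) (nat_lit 311)))))) (XT.nd (nat_lit 390) (nat_lit 0) (nat_lit 0) (XT.nd (nat_lit 156) (nat_lit 0) (nat_lit 0) (XT.nd (nat_lit 78) (nat_lit 76) (nat_lit 0) (XT.lf (nat_lit 0) (nat_lit 98940534282) (nat_lit 152) (nat_lit 18352891871) (nat_lit 0) (nat_lit 97935589975) (nat_lit 2) (nat_lit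 5) (nat_lit 4) (nat_lit 4) (nat_lit 2) (nat_lit 4) (nat_lit 383) (nat_lit 327) (nat_lit 310)) (XT.lf (nat_lit 0) (nat_lit 8150073214) (nat_lit 76) (nat_lit 119624439394) (nat_lit 76) (nat_lit 118606066531) (nat_lit 1) (nat_lit 4) (nat_lit 2) (nat_lit 5) (nat_lit 2) (nat_lit 4) (nat_lit 384) (nat_lit 327) (nat_lit 309))) (XT.nd (nat_lit 78) (nat_lit 0) (nat_lit 0) (XT.lf (nat_lit 0) (nat_lit 39153594127) (nat_lit 76) (nat_lit 122030640885) (nat_lit 76) (nat_lit 121000591015) (nat_lit 1) (nat_lit 4) (nat_lit 2) (nat_lit 5) (nat_lit 2) (nat_lit 4) (nat_lit 385) (nat_lit 327) (nat_lit 308)) (XT.nd (nat_lit 78) (nat_lit 0) (nat_lit 0) (XT.lf (nat_lit 0) (nat_lit 74297830733) (nat_lit 76) (nat_lit 125060909068) (nat_lit 76) (nat_lit 124020705280) (nat_lit 1) (nat_lit 4) (nat_lit 2) (nat_lit 5) (nat_lit 2) (nat_lit 4) (nat_lit 386) (nat_lit 327) (nat_lit 307)) (XT.lf (nat_lit 0) (nat_lit 114270387661)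 (nat_lit 76) (nat_lit 128774531800) (nat_lit 76) (nat_lit 127725498517) (nat_lit 1) (nat_lit 4) (nat_lit 2) (nat_lit 5) (nat_lit 2) (nat_lit 4) (nat_lit 387) (nat_lit 327) (nat_lit 306))))) (XT.nd (nat_lit 156) (nat_lit 0) (nat_lit 0) (XT.nd (nat_lit 78) (nat_lit 0) (nat_lit 0) (XT.lf (nat_lit 0) (nat_lit 159853336677) (nat_lit 76) (nat_lit 133244166916) (nat_lit 76) (nat_lit 132187455812) (nat_lit 1) (nat_lit 4) (nat_lit 2) (nat_lit 5) (nat_lit 2) (nat_lit 4) (nat_lit 388) (nat_lit 327) (nat_lit 305)) (XT.lf (nat_lit 0) (nat_lit 211938518088) (nat_lit 76) (nat_lit 138557263799) (nat_lit 76) (nat_lit 137493876329) (nat_lit 1) (nat_lit 4) (nat_lit 2) (nat_lit 5) (nat_lit 2) (nat_lit 4) (nat_lit 389) (nat_lit 327) (nat_lit 304))) (XT.nd (nat_lit 78) (nat_lit 0) (nat_lit 0) (XT.lf (nat_lit 0) (nat_lit 271544989791) (nat_lit 76) (nat_lit 144817774345) (nat_lit 76) (nat_lit 143748581338) (nat_lit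 1) (nat_lit 4) (nat_lit 2) (nat_lit 5) (nat_lit 2) (nat_lit 4) (nat_lit 390) (nat_lit 327) (nat_lit 303)) (XT.nd (nat_lit 78) (nat_lit 0) (nat_lit 0) (XT.lf (nat_lit 0) (nat_lit 339838965362) (nat_lit 76) (nat_lit 152148186803) (nat_lit 76) (nat_lit 151073945504) (nat_lit 1) (nat_lit 4) (nat_lit 2) (nat_lit 5) (nat_lit 2) (nat_lit 4) (nat_lit 391) (nat_lit 327) (nat_lit 302)) (XT.lf (nat_lit 0) (nat_lit 418156631281) (nat_lit 76) (nat_lit 160691922287) (nat_lit 76) (nat_lit 159613291169) (nat_lit 1) (nat_lit 4) (nat_lit 2) (nat_lit 5) (nat_lit 2) (nat_lit 4) (nat_lit 392) (nat_lit 327) (nat_lit 301))))))))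
noncomputable def xc22 : XT := (XT.nd (nat_lit 1404) (nat_lit 0) (nat_lit 0) (XT.nd (nat_lit 702) (nat_lit 0) (nat_lit 0) (XT.nd (nat_lit 312) (nat_lit 0) (nat_lit 0) (XT.nd (nat_lit 156) (nat_lit 0) (nat_lit 0) (XT.nd (nat_lit 78) (nat_lit 0) (nat_lit 0) (XT.lf (nat_lit 0) (nat_lit 508030289706) (nat_lit 76) (nat_lit 170616140838) (nat_lit 76) (nat_lit 169533692486) (nat_lit 1) (nat_lit 4) (nat_lit 2) (nat_lit 5) (nat_lit 2) (nat_lit 4) (nat_lit 393) (nat_lit 327) (nat_lit 300)) (XT.lf (nat_lit 0) (nat_lit 611218338303) (nat_lit 76) (nat_lit 182115011951) (nat_lit 76) (nat_lit 181029244265) (nat_lit 1) (nat_lit 4) (nat_lit 2) (nat_lit 5) (nat_lit 2) (nat_lit 4) (nat_lit 394) (nat_lit 327) (nat_lit 299))) (XT.nd (nat_lit 78) (nat_lit 0) (nat_lit 0) (XT.lf (nat_lit 0) (nat_lit 729739673674) (nat_lit 76) (nat_lit 195413513538) (nat_lit 76) (nat_lit 194324859475) (nat_lit 1) (nat_lit 4) (nat_lit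 2) (nat_lit 5) (nat_lit 2) (nat_lit 4) (nat_lit 395) (nat_lit 327) (nat_lit 298)) (XT.lf (nat_lit 0) (nat_lit 865913191511) (nat_lit 76) (nat_lit 210771833674) (nat_lit 76) (nat_lit 209680669717) (nat_lit 1) (nat_lit 4) (nat_lit 2) (nat_lit 5) (nat_lit 2) (nat_lit 4) (nat_lit 396) (nat_lit 327) (nat_lit 297)))) (XT.nd (nat_lit 156) (nat_lit 0) (nat_lit 0) (XT.nd (nat_lit 78) (nat_lit 0) (nat_lit 0) (XT.lf (nat_lit 0) (nat_lit 1022403156294) (nat_lit 76) (nat_lit 228490461231) (nat_lit 76) (nat_lit 227397114758) (nat_lit 1) (nat_lit 4) (nat_lit 2) (nat_lit 5) (nat_lit 2) (nat_lit 4) (nat_lit 397) (nat_lit 327) (nat_lit 296)) (XT.lf (nat_lit 0) (nat_lit 1202271328204) (nat_lit 76) (nat_lit 248916065009) (nat_lit 76) (nat_lit 247820820696) (nat_lit 1) (nat_lit 4) (nat_lit 2) (nat_lit 5) (nat_lit 2) (nat_lit 4) (nat_lit 398) (nat_lit 327) (nat_lit 295))) (XT.nd (nat_lit 78) (nat_lit 0) (nat_lit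 0) (XT.lf (nat_lit 0) (nat_lit 1409036867125) (nat_lit 76) (nat_lit 272448276386) (nat_lit 76) (nat_lit 271351381778) (nat_lit 1) (nat_lit 4) (nat_lit 2) (nat_lit 5) (nat_lit 2) (nat_lit 4) (nat_lit 399) (nat_lit 327) (nat_lit 294)) (XT.nd (nat_lit 78) (nat_lit 0) (nat_lit 0) (XT.lf (nat_lit 0) (nat_lit 1646745185775) (nat_lit 76) (nat_lit 299547508194) (nat_lit 76) (nat_lit 298449178546) (nat_lit 1) (nat_lit 4) (nat_lit 2) (nat_lit 5) (nat_lit 2) (nat_lit 4) (nat_lit 400) (nat_lit 327) (nat_lit 293)) (XT.lf (nat_lit 0) (nat_lit 1920047099086) (nat_lit 76) (nat_lit 330743962794) (nat_lit 76) (nat_lit 329644385286) (nat_lit 1) (nat_lit 4) (nat_lit 2) (nat_lit 5) (nat_lit 2) (nat_lit 4) (nat_lit 401) (nat_lit 327) (nat_lit 292)))))) (XT.nd (nat_lit 312) (nat_lit 0) (nat_lit 0) (XT.nd (nat_lit 156) (nat_lit 0) (nat_lit 0) (XT.nd (nat_lit 78) (nat_lit 0) (nat_lit 0) (XT.lf (nat_lit 0) (nat_lit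 2234289818403) (nat_lit 76) (nat_lit 366648005602) (nat_lit 76) (nat_lit 365547342998) (nat_lit 1) (nat_lit 4) (nat_lit 2) (nat_lit 5) (nat_lit 2) (nat_lit 4) (nat_lit 402) (nat_lit 327) (nat_lit 291)) (XT.lf (nat_lit 0) (nat_lit 2595621570845) (nat_lit 76) (nat_lit 407962107021) (nat_lit 76) (nat_lit 406860500855) (nat_lit 1) (nat_lit 4) (nat_lit 2) (nat_lit 5) (nat_lit 2) (nat_lit 4) (nat_lit 403) (nat_lit 327) (nat_lit 290))) (XT.nd (nat_lit 78) (nat_lit 0) (nat_lit 0) (XT.lf (nat_lit 0) (nat_lit 3011111890697) (nat_lit 76) (nat_lit 455494586426) (nat_lit 76) (nat_lit 454392159772) (nat_lit 1) (nat_lit 4) (nat_lit 2) (nat_lit 5) (nat_lit 2) (nat_lit 4) (nat_lit 404) (nat_lit 327) (nat_lit 289)) (XT.lf (nat_lit 0) (nat_lit 3488889936393) (nat_lit 76) (nat_lit 510175427111) (nat_lit 76) (nat_lit 509072286988) (nat_lit 1) (nat_lit 4) (nat_lit 2) (nat_lit 5) (nat_lit 2) (nat_lit 4) (nat_lit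 405) (nat_lit 327) (nat_lit 288)))) (XT.nd (nat_lit 156) (nat_lit 0) (nat_lit 0) (XT.nd (nat_lit 78) (nat_lit 0) (nat_lit 0) (XT.lf (nat_lit 0) (nat_lit 4038303539260) (nat_lit 76) (nat_lit 573074471610) (nat_lit 76) (nat_lit 571970711080) (nat_lit 1) (nat_lit 4) (nat_lit 2) (nat_lit 5) (nat_lit 2) (nat_lit 4) (nat_lit 406) (nat_lit 327) (nat_lit 287)) (XT.lf (nat_lit 0) (nat_lit 4670102095877) (nat_lit 76) (nat_lit 645422353403) (nat_lit 76) (nat_lit 644318053388) (nat_lit 1) (nat_lit 4) (nat_lit 2) (nat_lit 5) (nat_lit 2) (nat_lit 4) (nat_lit 407) (nat_lit 327) (nat_lit 286))) (XT.nd (nat_lit 78) (nat_lit 0) (nat_lit 0) (XT.lf (nat_lit 0) (nat_lit 5396646882351) (nat_lit 76) (nat_lit 728634574525) (nat_lit 76) (nat_lit 727529805393) (nat_lit 1) (nat_lit 4) (nat_lit 2) (nat_lit 5) (nat_lit 2) (nat_lit 4) (nat_lit 408) (nat_lit 327) (nat_lit 285)) (XT.nd (nat_lit 78) (nat_lit 0) (nat_lit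 0) (XT.lf (nat_lit 0) (nat_lit 6232152905375) (nat_lit 76) (nat_lit 824339200171) (nat_lit 76) (nat_lit 823234023111) (nat_lit 1) (nat_lit 4) (nat_lit 2) (nat_lit 5) (nat_lit 2) (nat_lit 4) (nat_lit 409) (nat_lit 327) (nat_lit 284)) (XT.lf (nat_lit 0) (nat_lit 7192967021919) (nat_lit 76) (nat_lit 934408712148) (nat_lit 76) (nat_lit 933303180369) (nat_lit 1) (nat_lit 4) (nat_lit 2) (nat_lit 5) (nat_lit 2) (nat_lit 4) (nat_lit 410) (nat_lit 327) (nat_lit 283))))))) (XT.nd (nat_lit 702) (nat_lit 0) (nat_lit 0) (XT.nd (nat_lit 312) (nat_lit 0) (nat_lit 0) (XT.nd (nat_lit 156) (nat_lit 0) (nat_lit 0) (XT.nd (nat_lit 78) (nat_lit 0) (nat_lit 0) (XT.lf (nat_lit 0) (nat_lit 8297887769049) (nat_lit 76) (nat_lit 1060996644386) (nat_lit 76) (nat_lit 1059890804154) (nat_lit 1) (nat_lit 4) (nat_lit 2) (nat_lit 5) (nat_lit 2) (nat_lit 4) (nat_lit 411) (nat_lit 327) (nat_lit 282)) (XT.lf (nat_lit 0) (nat_lit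 9568533161380) (nat_lit 76) (nat_lit 1206579717298) (nat_lit 76) (nat_lit 1205473608847) (nat_lit 1) (nat_lit 4) (nat_lit 2) (nat_lit 5) (nat_lit 2) (nat_lit 4) (nat_lit 412) (nat_lit 327) (nat_lit 281))) (XT.nd (nat_lit 78) (nat_lit 0) (nat_lit 0) (XT.lf (nat_lit 0) (nat_lit 11029763652241) (nat_lit 76) (nat_lit 1374006295354) (nat_lit 76) (nat_lit 1372899953669) (nat_lit 1) (nat_lit 4) (nat_lit 2) (nat_lit 5) (nat_lit 2) (nat_lit 4) (nat_lit 413) (nat_lit 327) (nat_lit 280)) (XT.lf (nat_lit 0) (nat_lit 12710168533845) (nat_lit 76) (nat_lit 1566552115951) (nat_lit 76) (nat_lit 1565445571454) (nat_lit 1) (nat_lit 4) (nat_lit 2) (nat_lit 5) (nat_lit 2) (nat_lit 4) (nat_lit 414) (nat_lit 327) (nat_lit 279)))) (XT.nd (nat_lit 156) (nat_lit 0) (nat_lit 0) (XT.nd (nat_lit 78) (nat_lit 0) (nat_lit 0) (XT.lf (nat_lit 0) (nat_lit 14642625293006) (nat_lit 76) (nat_lit 1787984379926) (nat_lit 76) (nat_lit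 1786877659071) (nat_lit 1) (nat_lit 4) (nat_lit 2) (nat_lit 5) (nat_lit 2) (nat_lit 4) (nat_lit 415) (nat_lit 327) (nat_lit 278)) (XT.lf (nat_lit 0) (nat_lit 16864942866316) (nat_lit 76) (nat_lit 2042635457663) (nat_lit 76) (nat_lit 2041528583452) (nat_lit 1) (nat_lit 4) (nat_lit 2) (nat_lit 5) (nat_lit 2) (nat_lit 4) (nat_lit 416) (nat_lit 327) (nat_lit 277))) (XT.nd (nat_lit 78) (nat_lit 0) (nat_lit 0) (XT.lf (nat_lit 0) (nat_lit 19420601380209) (nat_lit 76) (nat_lit 2335487652854) (nat_lit 76) (nat_lit 2334380645291) (nat_lit 1) (nat_lit 4) (nat_lit 2) (nat_lit 5) (nat_lit 2) (nat_lit 4) (nat_lit 417) (nat_lit 327) (nat_lit 276)) (XT.nd (nat_lit 78) (nat_lit 0) (nat_lit 0) (XT.lf (nat_lit 0) (nat_lit 22359602849087) (nat_lit 76) (nat_lit 2672270682364) (nat_lit 76) (nat_lit 2671163558842) (nat_lit 1) (nat_lit 4) (nat_lit 2) (nat_lit 5) (nat_lit 2) (nat_lit 4) (nat_lit 418) (nat_lit 327)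 (nat_lit 275)) (XT.lf (nat_lit 0) (nat_lit 25739449475604) (nat_lit 76) (nat_lit 3059573779378) (nat_lit 76) (nat_lit 3058466555023) (nat_lit 1) (nat_lit 4) (nat_lit 2) (nat_lit 5) (nat_lit 2) (nat_lit 4) (nat_lit 419) (nat_lit 327) (nat_lit 274)))))) (XT.nd (nat_lit 48984) (nat_lit 0) (nat_lit 532) (XT.nd (nat_lit 48750) (nat_lit 0) (nat_lit 1140) (XT.nd (nat_lit 78) (nat_lit 0) (nat_lit 0) (XT.lf (nat_lit 0) (nat_lit 29626268693754) (nat_lit 76) (nat_lit 3504974613186) (nat_lit 76) (nat_lit 3503867301149) (nat_lit 1) (nat_lit 4) (nat_lit 2) (nat_lit 5) (nat_lit 2) (nat_lit 4) (nat_lit 420) (nat_lit 327) (nat_lit 273)) (XT.lf (nat_lit 0) (nat_lit 34096106966503) (nat_lit 76) (nat_lit 4017187547926) (nat_lit 76) (nat_lit 4016080159645) (nat_lit 1) (nat_lit 4) (nat_lit 2) (nat_lit 5) (nat_lit 2) (nat_lit 4) (nat_lit 421) (nat_lit 327) (nat_lit 272))) (XT.nd (nat_lit 78) (nat_lit 228) (nat_lit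 0) (XT.lf (nat_lit 0) (nat_lit 3776641215) (nat_lit 76) (nat_lit 4056889034) (nat_lit 76) (nat_lit 4056889034) (nat_lit 19) (nat_lit 4) (nat_lit 20) (nat_lit 5) (nat_lit 20) (nat_lit 4) (nat_lit 364) (nat_lit 328) (nat_lit 328)) (XT.nd (nat_lit 78) (nat_lit 76) (nat_lit 0) (XT.lf (nat_lit 0) (nat_lit 8508332557) (nat_lit 152) (nat_lit 9180914553) (nat_lit 0) (nat_lit 8264153025) (nat_lit 17) (nat_lit 5) (nat_lit 19) (nat_lit 4) (nat_lit 17) (nat_lit 4) (nat_lit 365) (nat_lit 328) (nat_lit 327)) (XT.lf (nat_lit 0) (nat_lit 24898352837) (nat_lit 76) (nat_lit 2006136234) (nat_lit 76) (nat_lit 1549626673) (nat_lit 16) (nat_lit 4) (nat_lit 17) (nat_lit 5) (nat_lit 17) (nat_lit 4) (nat_lit 366) (nat_lit 328) (nat_lit 326))))) (XT.nd (nat_lit 156) (nat_lit 228) (nat_lit 0) (XT.nd (nat_lit 78) (nat_lit 228) (nat_lit 0) (XT.lf (nat_lit 0) (nat_lit 15847741154) (nat_lit 152) (nat_lit 199575949) (nat_lit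 0) (nat_lit 15254088962) (nat_lit 14) (nat_lit 5) (nat_lit 16) (nat_lit 4) (nat_lit 14) (nat_lit 4) (nat_lit 367) (nat_lit 328) (nat_lit 325)) (XT.lf (nat_lit 0) (nat_lit 791028429) (nat_lit 152) (nat_lit 33702747480) (nat_lit 0) (nat_lit 103703005) (nat_lit 11) (nat_lit 5) (nat_lit 13) (nat_lit 4) (nat_lit 11) (nat_lit 4) (nat_lit 368) (nat_lit 328) (nat_lit 324))) (XT.nd (nat_lit 78) (nat_lit 228) (nat_lit 0) (XT.lf (nat_lit 0) (nat_lit 18586063407) (nat_lit 152) (nat_lit 1988462301) (nat_lit 0) (nat_lit 17779044534) (nat_lit 11) (nat_lit 5) (nat_lit 13) (nat_lit 4) (nat_lit 11) (nat_lit 4) (nat_lit 369) (nat_lit 328) (nat_lit 323)) (XT.nd (nat_lit 78) (nat_lit 152) (nat_lit 0) (XT.lf (nat_lit 0) (nat_lit 33690376697) (nat_lit 76) (nat_lit 4962792148) (nat_lit 76) (nat_lit 4051692013) (nat_lit 10) (nat_lit 4) (nat_lit 11) (nat_lit 5) (nat_lit 11) (nat_lit 4) (nat_lit 370) (nat_lit 328)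 (nat_lit 322)) (XT.lf (nat_lit 0) (nat_lit 13175883204) (nat_lit 152) (nat_lit 22269058536) (nat_lit 0) (nat_lit 12248470631) (nat_lit 8) (nat_lit 5) (nat_lit 10) (nat_lit 4) (nat_lit 8) (nat_lit 4) (nat_lit 371) (nat_lit 328) (nat_lit 321))))))))
noncomputable def xc23 : XT := (XT.nd (nat_lit 1404) (nat_lit 0) (nat_lit 0) (XT.nd (nat_lit 702) (nat_lit 76) (nat_lit 0) (XT.nd (nat_lit 312) (nat_lit 228) (nat_lit 0) (XT.nd (nat_lit 156) (nat_lit 152) (nat_lit 0) (XT.nd (nat_lit 78) (nat_lit 0) (nat_lit 0) (XT.lf (nat_lit 0) (nat_lit 10234032049) (nat_lit 76) (nat_lit 22110182169) (nat_lit 76) (nat_lit 21109898869) (nat_lit 7) (nat_lit 4) (nat_lit 8) (nat_lit 5) (nat_lit 8) (nat_lit 4) (nat_lit 372) (nat_lit 328) (nat_lit 320)) (XT.lf (nat_lit 0) (nat_lit 46958851414) (nat_lit 76) (nat_lit 7104826300) (nat_lit 76) (nat_lit 6041177148) (nat_lit 7) (nat_lit 4) (nat_lit 8) (nat_lit 5) (nat_lit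 8) (nat_lit 4) (nat_lit 373) (nat_lit 328) (nat_lit 319))) (XT.nd (nat_lit 78) (nat_lit 0) (nat_lit 0) (XT.lf (nat_lit 0) (nat_lit 10588088579) (nat_lit 152) (nat_lit 47602005731) (nat_lit 0) (nat_lit 9552209050) (nat_lit 5) (nat_lit 5) (nat_lit 7) (nat_lit 4) (nat_lit 5) (nat_lit 4) (nat_lit 374) (nat_lit 328) (nat_lit 318)) (XT.lf (nat_lit 0) (nat_lit 29139382499) (nat_lit 152) (nat_lit 19331472224) (nat_lit 0) (nat_lit 28059138446) (nat_lit 5) (nat_lit 5) (nat_lit 7) (nat_lit 4) (nat_lit 5) (nat_lit 4) (nat_lit 375) (nat_lit 328) (nat_lit 317)))) (XT.nd (nat_lit 156) (nat_lit 152) (nat_lit 0) (XT.nd (nat_lit 78) (nat_lit 0) (nat_lit 0) (XT.lf (nat_lit 0) (nat_lit 12336941161) (nat_lit 76) (nat_lit 37725305549) (nat_lit 76) (nat_lit 36606483648) (nat_lit 4) (nat_lit 4) (nat_lit 5) (nat_lit 5) (nat_lit 5) (nat_lit 4) (nat_lit 376) (nat_lit 328) (nat_lit 316)) (XT.lf (nat_lit 0) (nat_lit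 48589996393) (nat_lit 76) (nat_lit 25448719521) (nat_lit 76) (nat_lit 24296351666) (nat_lit 4) (nat_lit 4) (nat_lit 5) (nat_lit 5) (nat_lit 5) (nat_lit 4) (nat_lit 377) (nat_lit 328) (nat_lit 315))) (XT.nd (nat_lit 78) (nat_lit 152) (nat_lit 0) (XT.lf (nat_lit 0) (nat_lit 89119031308) (nat_lit 76) (nat_lit 11929459274) (nat_lit 76) (nat_lit 10747921024) (nat_lit 4) (nat_lit 4) (nat_lit 5) (nat_lit 5) (nat_lit 5) (nat_lit 4) (nat_lit 378) (nat_lit 328) (nat_lit 314)) (XT.nd (nat_lit 78) (nat_lit 0) (nat_lit 0) (XT.lf (nat_lit 0) (nat_lit 4355301304) (nat_lit 152) (nat_lit 119693419767) (nat_lit 0) (nat_lit 3237797775) (nat_lit 2) (nat_lit 5) (nat_lit 4) (nat_lit 4) (nat_lit 2) (nat_lit 4) (nat_lit 379) (nat_lit 328) (nat_lit 313)) (XT.lf (nat_lit 0) (nat_lit 21641527665) (nat_lit 152) (nat_lit 102888368903) (nat_lit 0) (nat_lit 20503600979) (nat_lit 2) (nat_lit 5) (nat_lit 4) (nat_lit 4) (nat_lit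 2) (nat_lit 4) (nat_lit 380) (nat_lit 328) (nat_lit 312)))))) (XT.nd (nat_lit 312) (nat_lit 76) (nat_lit 0) (XT.nd (nat_lit 156) (nat_lit 0) (nat_lit 0) (XT.nd (nat_lit 78) (nat_lit 0) (nat_lit 0) (XT.lf (nat_lit 0) (nat_lit 41110694725) (nat_lit 152) (nat_lit 84409620859) (nat_lit 0) (nat_lit 39955008772) (nat_lit 2) (nat_lit 5) (nat_lit 4) (nat_lit 4) (nat_lit 2) (nat_lit 4) (nat_lit 381) (nat_lit 328) (nat_lit 311)) (XT.lf (nat_lit 0) (nat_lit 63143720970) (nat_lit 152) (nat_lit 63895634913) (nat_lit 0) (nat_lit 61972592177) (nat_lit 2) (nat_lit 5) (nat_lit 4) (nat_lit 4) (nat_lit 2) (nat_lit 4) (nat_lit 382) (nat_lit 328) (nat_lit 310))) (XT.nd (nat_lit 78) (nat_lit 0) (nat_lit 0) (XT.lf (nat_lit 0) (nat_lit 88171687350) (nat_lit 152) (nat_lit 40945050469) (nat_lit 0) (nat_lit 86987129999) (nat_lit 2) (nat_lit 5) (nat_lit 4) (nat_lit 4) (nat_lit 2) (nat_lit 4) (nat_lit 383) (nat_lit 328)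 (nat_lit 309)) (XT.lf (nat_lit 0) (nat_lit 116684271467) (nat_lit 152) (nat_lit 15108834353) (nat_lit 0) (nat_lit 115488037110) (nat_lit 2) (nat_lit 5) (nat_lit 4) (nat_lit 4) (nat_lit 2) (nat_lit 4) (nat_lit 384) (nat_lit 328) (nat_lit 308)))) (XT.nd (nat_lit 156) (nat_lit 0) (nat_lit 0) (XT.nd (nat_lit 78) (nat_lit 0) (nat_lit 0) (XT.lf (nat_lit 0) (nat_lit 14861960050) (nat_lit 76) (nat_lit 134734798673) (nat_lit 76) (nat_lit 133528410397) (nat_lit 1) (nat_lit 4) (nat_lit 2) (nat_lit 5) (nat_lit 2) (nat_lit 4) (nat_lit 385) (nat_lit 328) (nat_lit 307)) (XT.lf (nat_lit 0) (nat_lit 49800003554) (nat_lit 76) (nat_lit 137871492122) (nat_lit 76) (nat_lit 136656274352) (nat_lit 1) (nat_lit 4) (nat_lit 2) (nat_lit 5) (nat_lit 2) (nat_lit 4) (nat_lit 386) (nat_lit 328) (nat_lit 306))) (XT.nd (nat_lit 78) (nat_lit 0) (nat_lit 0) (XT.lf (nat_lit 0) (nat_lit 89593262133) (nat_lit 76) (nat_lit 141677658562)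 (nat_lit 76) (nat_lit 140454762971) (nat_lit 1) (nat_lit 4) (nat_lit 2) (nat_lit 5) (nat_lit 2) (nat_lit 4) (nat_lit 387) (nat_lit 328) (nat_lit 305)) (XT.nd (nat_lit 78) (nat_lit 0) (nat_lit 0) (XT.lf (nat_lit 0) (nat_lit 135020299541) (nat_lit 76) (nat_lit 146227766469) (nat_lit 76) (nat_lit 144998194512) (nat_lit 1) (nat_lit 4) (nat_lit 2) (nat_lit 5) (nat_lit 2) (nat_lit 4) (nat_lit 388) (nat_lit 328) (nat_lit 304)) (XT.lf (nat_lit 0) (nat_lit 186969905640) (nat_lit 76) (nat_lit 151610839692) (nat_lit 76) (nat_lit 150375462198) (nat_lit 1) (nat_lit 4) (nat_lit 2) (nat_lit 5) (nat_lit 2) (nat_lit 4) (nat_lit 389) (nat_lit 328) (nat_lit 303))))))) (XT.nd (nat_lit 702) (nat_lit 0) (nat_lit 0) (XT.nd (nat_lit 312) (nat_lit 0) (nat_lit 0) (XT.nd (nat_lit 156) (nat_lit 0) (nat_lit 0) (XT.nd (nat_lit 78) (nat_lit 0) (nat_lit 0) (XT.lf (nat_lit 0) (nat_lit 246458485768) (nat_lit 76) (nat_lit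 157932199228) (nat_lit 76) (nat_lit 156691773443) (nat_lit 1) (nat_lit 4) (nat_lit 2) (nat_lit 5) (nat_lit 2) (nat_lit 4) (nat_lit 390) (nat_lit 328) (nat_lit 302)) (XT.lf (nat_lit 0) (nat_lit 314649946926) (nat_lit 76) (nat_lit 165315523852) (nat_lit 76) (nat_lit 164070708248) (nat_lit 1) (nat_lit 4) (nat_lit 2) (nat_lit 5) (nat_lit 2) (nat_lit 4) (nat_lit 391) (nat_lit 328) (nat_lit 301))) (XT.nd (nat_lit 78) (nat_lit 0) (nat_lit 0) (XT.lf (nat_lit 0) (nat_lit 392878469876) (nat_lit 76) (nat_lit 173905269915) (nat_lit 76) (nat_lit 172656637077) (nat_lit 1) (nat_lit 4) (nat_lit 2) (nat_lit 5) (nat_lit 2) (nat_lit 4) (nat_lit 392) (nat_lit 328) (nat_lit 300)) (XT.lf (nat_lit 0) (nat_lit 482674612677) (nat_lit 76) (nat_lit 183869497666) (nat_lit 76) (nat_lit 182617545494) (nat_lit 1) (nat_lit 4) (nat_lit 2) (nat_lit 5) (nat_lit 2) (nat_lit 4) (nat_lit 393) (nat_lit 328) (nat_lit 299)))) (XT.nd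 (nat_lit 156) (nat_lit 0) (nat_lit 0) (XT.nd (nat_lit 78) (nat_lit 0) (nat_lit 0) (XT.lf (nat_lit 0) (nat_lit 585795256383) (nat_lit 76) (nat_lit 195403159387) (nat_lit 76) (nat_lit 194148320837) (nat_lit 1) (nat_lit 4) (nat_lit 2) (nat_lit 5) (nat_lit 2) (nat_lit 4) (nat_lit 394) (nat_lit 328) (nat_lit 298)) (XT.lf (nat_lit 0) (nat_lit 704257978806) (nat_lit 76) (nat_lit 208731913677) (nat_lit 76) (nat_lit 207474565234) (nat_lit 1) (nat_lit 4) (nat_lit 2) (nat_lit 5) (nat_lit 2) (nat_lit 4) (nat_lit 395) (nat_lit 328) (nat_lit 297))) (XT.nd (nat_lit 78) (nat_lit 0) (nat_lit 0) (XT.lf (nat_lit 0) (nat_lit 840380528862) (nat_lit 76) (nat_lit 224116540511) (nat_lit 76) (nat_lit 222857009551) (nat_lit 1) (nat_lit 4) (nat_lit 2) (nat_lit 5) (nat_lit 2) (nat_lit 4) (nat_lit 396) (nat_lit 328) (nat_lit 296)) (XT.nd (nat_lit 78) (nat_lit 0) (nat_lit 0) (XT.lf (nat_lit 0) (nat_lit 996826173835) (nat_lit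 76) (nat_lit 241858043457) (nat_lit 76) (nat_lit 240596614658) (nat_lit 1) (nat_lit 4) (nat_lit 2) (nat_lit 5) (nat_lit 2) (nat_lit 4) (nat_lit 397) (nat_lit 328) (nat_lit 295)) (XT.lf (nat_lit 0) (nat_lit 1176655806779) (nat_lit 76) (nat_lit 262303538878) (nat_lit 76) (nat_lit 261040459783) (nat_lit 1) (nat_lit 4) (nat_lit 2) (nat_lit 5) (nat_lit 2) (nat_lit 4) (nat_lit 398) (nat_lit 328) (nat_lit 294)))))) (XT.nd (nat_lit 390) (nat_lit 0) (nat_lit 0) (XT.nd (nat_lit 156) (nat_lit 0) (nat_lit 0) (XT.nd (nat_lit 78) (nat_lit 0) (nat_lit 0) (XT.lf (nat_lit 0) (nat_lit 1383387833557) (nat_lit 76) (nat_lit 285853047336) (nat_lit 76) (nat_lit 284588533202) (nat_lit 1) (nat_lit 4) (nat_lit 2) (nat_lit 5) (nat_lit 2) (nat_lit 4) (nat_lit 399) (nat_lit 328) (nat_lit 293)) (XT.lf (nat_lit 0) (nat_lit 1621067011213) (nat_lit 76) (nat_lit 312967320084) (nat_lit 76) (nat_lit 311701558089) (nat_lit 1)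 (nat_lit 4) (nat_lit 2) (nat_lit 5) (nat_lit 2) (nat_lit 4) (nat_lit 400) (nat_lit 328) (nat_lit 292))) (XT.nd (nat_lit 78) (nat_lit 0) (nat_lit 0) (XT.lf (nat_lit 0) (nat_lit 1894343584528) (nat_lit 76) (nat_lit 344176853762) (nat_lit 76) (nat_lit 342910006671) (nat_lit 1) (nat_lit 4) (nat_lit 2) (nat_lit 5) (nat_lit 2) (nat_lit 4) (nat_lit 401) (nat_lit 328) (nat_lit 291)) (XT.nd (nat_lit 78) (nat_lit 0) (nat_lit 0) (XT.lf (nat_lit 0) (nat_lit 2208564269067) (nat_lit 76) (nat_lit 380092269682) (nat_lit 76) (nat_lit 378824479029) (nat_lit 1) (nat_lit 4) (nat_lit 2) (nat_lit 5) (nat_lit 2) (nat_lit 4) (nat_lit 402) (nat_lit 328) (nat_lit 290)) (XT.lf (nat_lit 0) (nat_lit 2569876860832) (nat_lit 76) (nat_lit 421416260763) (nat_lit 76) (nat_lit 420147649621) (nat_lit 1) (nat_lit 4) (nat_lit 2) (nat_lit 5) (nat_lit 2) (nat_lit 4) (nat_lit 403) (nat_lit 328) (nat_lit 289))))) (XT.nd (nat_lit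 156) (nat_lit 0) (nat_lit 0) (XT.nd (nat_lit 78) (nat_lit 0) (nat_lit 0) (XT.lf (nat_lit 0) (nat_lit 2985350519227) (nat_lit 76) (nat_lit 468957339875) (nat_lit 76) (nat_lit 467688015265) (nat_lit 1) (nat_lit 4) (nat_lit 2) (nat_lit 5) (nat_lit 2) (nat_lit 4) (nat_lit 404) (nat_lit 328) (nat_lit 288)) (XT.lf (nat_lit 0) (nat_lit 3463114076698) (nat_lit 76) (nat_lit 523645658565) (nat_lit 76) (nat_lit 522375713548) (nat_lit 1) (nat_lit 4) (nat_lit 2) (nat_lit 5) (nat_lit 2) (nat_lit 4) (nat_lit 405) (nat_lit 328) (nat_lit 287))) (XT.nd (nat_lit 78) (nat_lit 0) (nat_lit 0) (XT.lf (nat_lit 0) (nat_lit 4012515081109) (nat_lit 76) (nat_lit 586551205678) (nat_lit 76) (nat_lit 585280721176) (nat_lit 1) (nat_lit 4) (nat_lit 2) (nat_lit 5) (nat_lit 2) (nat_lit 4) (nat_lit 406) (nat_lit 328) (nat_lit 286)) (XT.nd (nat_lit 78) (nat_lit 0) (nat_lit 0) (XT.lf (nat_lit 0) (nat_lit 4644302682547) (nat_lit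 76) (nat_lit 658904741917) (nat_lit 76) (nat_lit 657633788298) (nat_lit 1) (nat_lit 4) (nat_lit 2) (nat_lit 5) (nat_lit 2) (nat_lit 4) (nat_lit 407) (nat_lit 328) (nat_lit 285)) (XT.lf (nat_lit 0) (nat_lit 5370837942778) (nat_lit 76) (nat_lit 742121879949) (nat_lit 76) (nat_lit 740850518402) (nat_lit 1) (nat_lit 4) (nat_lit 2) (nat_lit 5) (nat_lit 2) (nat_lit 4) (nat_lit 408) (nat_lit 328) (nat_lit 284))))))))
noncomputable def xc24 : XT := (XT.nd (nat_lit 49842) (nat_lit 0) (nat_lit 76) (XT.nd (nat_lit 702) (nat_lit 0) (nat_lit 0) (XT.nd (nat_lit 312) (nat_lit 0) (nat_lit 0) (XT.nd (nat_lit 156) (nat_lit 0) (nat_lit 0) (XT.nd (nat_lit 78) (nat_lit 0) (nat_lit 0) (XT.lf (nat_lit 0) (nat_lit 6206335682112) (nat_lit 76) (nat_lit 837830781169) (nat_lit 76) (nat_lit 836559064902) (nat_lit 1) (nat_lit 4) (nat_lit 2) (nat_lit 5) (nat_lit 2) (nat_lit 4) (nat_lit 409) (nat_lit 328) (nat_lit 283))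 (XT.lf (nat_lit 0) (nat_lit 7167142595449) (nat_lit 76) (nat_lit 947904011036) (nat_lit 76) (nat_lit 946631986318) (nat_lit 1) (nat_lit 4) (nat_lit 2) (nat_lit 5) (nat_lit 2) (nat_lit 4) (nat_lit 410) (nat_lit 328) (nat_lit 282))) (XT.nd (nat_lit 78) (nat_lit 0) (nat_lit 0) (XT.lf (nat_lit 0) (nat_lit 8272057078919) (nat_lit 76) (nat_lit 1074495176222) (nat_lit 76) (nat_lit 1073222883284) (nat_lit 1) (nat_lit 4) (nat_lit 2) (nat_lit 5) (nat_lit 2) (nat_lit 4) (nat_lit 411) (nat_lit 328) (nat_lit 281)) (XT.lf (nat_lit 0) (nat_lit 9542697024590) (nat_lit 76) (nat_lit 1220081060393) (nat_lit 76) (nat_lit 1218808534221) (nat_lit 1) (nat_lit 4) (nat_lit 2) (nat_lit 5) (nat_lit 2) (nat_lit 4) (nat_lit 412) (nat_lit 328) (nat_lit 280)))) (XT.nd (nat_lit 156) (nat_lit 0) (nat_lit 0) (XT.nd (nat_lit 78) (nat_lit 0) (nat_lit 0) (XT.lf (nat_lit 0) (nat_lit 11003922779225) (nat_lit 76) (nat_lit 1387510083022)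 (nat_lit 76) (nat_lit 1386237354038) (nat_lit 1) (nat_lit 4) (nat_lit 2) (nat_lit 5) (nat_lit 2) (nat_lit 4) (nat_lit 413) (nat_lit 328) (nat_lit 279)) (XT.lf (nat_lit 0) (nat_lit 12684323542371) (nat_lit 76) (nat_lit 1580058029335) (nat_lit 76) (nat_lit 1578785123993) (nat_lit 1) (nat_lit 4) (nat_lit 2) (nat_lit 5) (nat_lit 2) (nat_lit 4) (nat_lit 414) (nat_lit 328) (nat_lit 278))) (XT.nd (nat_lit 78) (nat_lit 0) (nat_lit 0) (XT.lf (nat_lit 0) (nat_lit 14616776720265) (nat_lit 76) (nat_lit 1801492141759) (nat_lit 76) (nat_lit 1800219083061) (nat_lit 1) (nat_lit 4) (nat_lit 2) (nat_lit 5) (nat_lit 2) (nat_lit 4) (nat_lit 415) (nat_lit 328) (nat_lit 277)) (XT.nd (nat_lit 78) (nat_lit 0) (nat_lit 0) (XT.lf (nat_lit 0) (nat_lit 16839091179429) (nat_lit 76) (nat_lit 2056144826842) (nat_lit 76) (nat_lit 2054871634792) (nat_lit 1) (nat_lit 4) (nat_lit 2) (nat_lit 5) (nat_lit 2) (nat_lit 4) (nat_lit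 416) (nat_lit 328) (nat_lit 276)) (XT.lf (nat_lit 0) (nat_lit 19394746985369) (nat_lit 76) (nat_lit 2348998419726) (nat_lit 76) (nat_lit 2347725111718) (nat_lit 1) (nat_lit 4) (nat_lit 2) (nat_lit 5) (nat_lit 2) (nat_lit 4) (nat_lit 417) (nat_lit 328) (nat_lit 275)))))) (XT.nd (nat_lit 48750) (nat_lit 0) (nat_lit 1140) (XT.nd (nat_lit 156) (nat_lit 0) (nat_lit 0) (XT.nd (nat_lit 78) (nat_lit 0) (nat_lit 0) (XT.lf (nat_lit 0) (nat_lit 22333746099506) (nat_lit 76) (nat_lit 2685782664621) (nat_lit 76) (nat_lit 2684509255779) (nat_lit 1) (nat_lit 4) (nat_lit 2) (nat_lit 5) (nat_lit 2) (nat_lit 4) (nat_lit 418) (nat_lit 328) (nat_lit 274)) (XT.lf (nat_lit 0) (nat_lit 25713590678421) (nat_lit 76) (nat_lit 3073086818492) (nat_lit 76) (nat_lit 3071813321968) (nat_lit 1) (nat_lit 4) (nat_lit 2) (nat_lit 5) (nat_lit 2) (nat_lit 4) (nat_lit 419) (nat_lit 328) (nat_lit 273))) (XT.nd (nat_lit 78) (nat_lit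 0) (nat_lit 0) (XT.lf (nat_lit 0) (nat_lit 29600408116049) (nat_lit 76) (nat_lit 3518488571305) (nat_lit 76) (nat_lit 3517214998537) (nat_lit 1) (nat_lit 4) (nat_lit 2) (nat_lit 5) (nat_lit 2) (nat_lit 4) (nat_lit 420) (nat_lit 328) (nat_lit 272)) (XT.lf (nat_lit 0) (nat_lit 34070244840517) (nat_lit 76) (nat_lit 4030702305181) (nat_lit 76) (nat_lit 4029428666113) (nat_lit 1) (nat_lit 4) (nat_lit 2) (nat_lit 5) (nat_lit 2) (nat_lit 4) (nat_lit 421) (nat_lit 328) (nat_lit 271)))) (XT.nd (nat_lit 156) (nat_lit 456) (nat_lit 0) (XT.nd (nat_lit 78) (nat_lit 76) (nat_lit 0) (XT.lf (nat_lit 0) (nat_lit 2233755093) (nat_lit 152) (nat_lit 5610371846) (nat_lit 0) (nat_lit 2233755093) (nat_lit 23) (nat_lit 5) (nat_lit 25) (nat_lit 4) (nat_lit 23) (nat_lit 4) (nat_lit 362) (nat_lit 329) (nat_lit 329)) (XT.lf (nat_lit 0) (nat_lit 19546733136) (nat_lit 76) (nat_lit 1334961307) (nat_lit 76) (nat_lit 1007428649)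 (nat_lit 22) (nat_lit 4) (nat_lit 23) (nat_lit 5) (nat_lit 23) (nat_lit 4) (nat_lit 363) (nat_lit 329) (nat_lit 328))) (XT.nd (nat_lit 78) (nat_lit 228) (nat_lit 0) (XT.lf (nat_lit 0) (nat_lit 6022354523) (nat_lit 76) (nat_lit 9192942217) (nat_lit 76) (nat_lit 8625957343) (nat_lit 19) (nat_lit 4) (nat_lit 20) (nat_lit 5) (nat_lit 20) (nat_lit 4) (nat_lit 364) (nat_lit 329) (nat_lit 327)) (XT.nd (nat_lit 78) (nat_lit 76) (nat_lit 0) (XT.lf (nat_lit 0) (nat_lit 7228702722) (nat_lit 152) (nat_lit 12358167662) (nat_lit 0) (nat_lit 6491386699) (nat_lit 17) (nat_lit 5) (nat_lit 19) (nat_lit 4) (nat_lit 17) (nat_lit 4) (nat_lit 365) (nat_lit 329) (nat_lit 326)) (XT.lf (nat_lit 0) (nat_lit 20201086811) (nat_lit 76) (nat_lit 4679686260) (nat_lit 76) (nat_lit 3757735430) (nat_lit 16) (nat_lit 4) (nat_lit 17) (nat_lit 5) (nat_lit 17) (nat_lit 4) (nat_lit 366) (nat_lit 329) (nat_lit 325))))))) (XT.nd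 (nat_lit 702) (nat_lit 228) (nat_lit 0) (XT.nd (nat_lit 312) (nat_lit 380) (nat_lit 0) (XT.nd (nat_lit 156) (nat_lit 228) (nat_lit 0) (XT.nd (nat_lit 78) (nat_lit 76) (nat_lit 0) (XT.lf (nat_lit 0) (nat_lit 12920750704) (nat_lit 152) (nat_lit 6717217659) (nat_lit 0) (nat_lit 11918433263) (nat_lit 14) (nat_lit 5) (nat_lit 16) (nat_lit 4) (nat_lit 14) (nat_lit 4) (nat_lit 367) (nat_lit 329) (nat_lit 324)) (XT.lf (nat_lit 0) (nat_lit 27417425512) (nat_lit 76) (nat_lit 4315015128) (nat_lit 76) (nat_lit 3183428761) (nat_lit 13) (nat_lit 4) (nat_lit 14) (nat_lit 5) (nat_lit 14) (nat_lit 4) (nat_lit 368) (nat_lit 329) (nat_lit 323))) (XT.nd (nat_lit 78) (nat_lit 76) (nat_lit 0) (XT.lf (nat_lit 0) (nat_lit 13910713615) (nat_lit 152) (nat_lit 12077321111) (nat_lit 0) (nat_lit 12758867199) (nat_lit 11) (nat_lit 5) (nat_lit 13) (nat_lit 4) (nat_lit 11) (nat_lit 4) (nat_lit 369) (nat_lit 329) (nat_lit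 322)) (XT.lf (nat_lit 0) (nat_lit 22015291520) (nat_lit 76) (nat_lit 11193393968) (nat_lit 76) (nat_lit 9951042109) (nat_lit 10) (nat_lit 4) (nat_lit 11) (nat_lit 5) (nat_lit 11) (nat_lit 4) (nat_lit 370) (nat_lit 329) (nat_lit 321)))) (XT.nd (nat_lit 156) (nat_lit 228) (nat_lit 0) (XT.nd (nat_lit 78) (nat_lit 0) (nat_lit 0) (XT.lf (nat_lit 0) (nat_lit 6612338625) (nat_lit 152) (nat_lit 36234896575) (nat_lit 0) (nat_lit 5389142100) (nat_lit 8) (nat_lit 5) (nat_lit 10) (nat_lit 4) (nat_lit 8) (nat_lit 4) (nat_lit 371) (nat_lit 329) (nat_lit 320)) (XT.lf (nat_lit 0) (nat_lit 25104633045) (nat_lit 152) (nat_lit 5128460287) (nat_lit 0) (nat_lit 23818070670) (nat_lit 8) (nat_lit 5) (nat_lit 10) (nat_lit 4) (nat_lit 8) (nat_lit 4) (nat_lit 372) (nat_lit 329) (nat_lit 319))) (XT.nd (nat_lit 78) (nat_lit 152) (nat_lit 0) (XT.lf (nat_lit 0) (nat_lit 30516482884) (nat_lit 76) (nat_lit 15784470077)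 (nat_lit 76) (nat_lit 14442806963) (nat_lit 7) (nat_lit 4) (nat_lit 8) (nat_lit 5) (nat_lit 8) (nat_lit 4) (nat_lit 373) (nat_lit 329) (nat_lit 318)) (XT.nd (nat_lit 78) (nat_lit 0) (nat_lit 0) (XT.lf (nat_lit 0) (nat_lit 1575721807) (nat_lit 152) (nat_lit 66615058529) (nat_lit 0) (nat_lit 289076621) (nat_lit 5) (nat_lit 5) (nat_lit 7) (nat_lit 4) (nat_lit 5) (nat_lit 4) (nat_lit 374) (nat_lit 329) (nat_lit 317)) (XT.lf (nat_lit 0) (nat_lit 19797793621) (nat_lit 152) (nat_lit 39023522189) (nat_lit 0) (nat_lit 18472570587) (nat_lit 5) (nat_lit 5) (nat_lit 7) (nat_lit 4) (nat_lit 5) (nat_lit 4) (nat_lit 375) (nat_lit 329) (nat_lit 316)))))) (XT.nd (nat_lit 312) (nat_lit 152) (nat_lit 0) (XT.nd (nat_lit 156) (nat_lit 0) (nat_lit 0) (XT.nd (nat_lit 78) (nat_lit 76) (nat_lit 0) (XT.lf (nat_lit 0) (nat_lit 40137674009) (nat_lit 152) (nat_lit 8562684883) (nat_lit 0) (nat_lit 38778905021) (nat_lit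 5) (nat_lit 5) (nat_lit 7) (nat_lit 4) (nat_lit 5) (nat_lit 4) (nat_lit 376) (nat_lit 329) (nat_lit 315)) (XT.lf (nat_lit 0) (nat_lit 26699019373) (nat_lit 76) (nat_lit 36936409836) (nat_lit 76) (nat_lit 35548470453) (nat_lit 4) (nat_lit 4) (nat_lit 5) (nat_lit 5) (nat_lit 5) (nat_lit 4) (nat_lit 377) (nat_lit 329) (nat_lit 314))) (XT.nd (nat_lit 78) (nat_lit 0) (nat_lit 0) (XT.lf (nat_lit 0) (nat_lit 66758093276) (nat_lit 76) (nat_lit 23659339149) (nat_lit 76) (nat_lit 22246034205) (nat_lit 4) (nat_lit 4) (nat_lit 5) (nat_lit 5) (nat_lit 5) (nat_lit 4) (nat_lit 378) (nat_lit 329) (nat_lit 313)) (XT.lf (nat_lit 0) (nat_lit 111947405504) (nat_lit 76) (nat_lit 8843497035) (nat_lit 76) (nat_lit 7408135082) (nat_lit 4) (nat_lit 4) (nat_lit 5) (nat_lit 5) (nat_lit 5) (nat_lit 4) (nat_lit 379) (nat_lit 329) (nat_lit 312)))) (XT.nd (nat_lit 156) (nat_lit 0) (nat_lit 0) (XT.nd (nat_lit 78) (nat_lit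 0) (nat_lit 0) (XT.lf (nat_lit 0) (nat_lit 9423175030) (nat_lit 152) (nat_lit 128526758591) (nat_lit 0) (nat_lit 8076376917) (nat_lit 2) (nat_lit 5) (nat_lit 4) (nat_lit 4) (nat_lit 2) (nat_lit 4) (nat_lit 380) (nat_lit 329) (nat_lit 311)) (XT.lf (nat_lit 0) (nat_lit 28726520753) (nat_lit 152) (nat_lit 110390603247) (nat_lit 0) (nat_lit 27364279800) (nat_lit 2) (nat_lit 5) (nat_lit 4) (nat_lit 4) (nat_lit 2) (nat_lit 4) (nat_lit 381) (nat_lit 329) (nat_lit 310))) (XT.nd (nat_lit 78) (nat_lit 0) (nat_lit 0) (XT.lf (nat_lit 0) (nat_lit 50615354533) (nat_lit 152) (nat_lit 90174523995) (nat_lit 0) (nat_lit 49239685022) (nat_lit 2) (nat_lit 5) (nat_lit 4) (nat_lit 4) (nat_lit 2) (nat_lit 4) (nat_lit 382) (nat_lit 329) (nat_lit 309)) (XT.nd (nat_lit 78) (nat_lit 0) (nat_lit 0) (XT.lf (nat_lit 0) (nat_lit 75517936159) (nat_lit 152) (nat_lit 67482988851) (nat_lit 0) (nat_lit 74130589642) (nat_lit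 2) (nat_lit 5) (nat_lit 4) (nat_lit 4) (nat_lit 2) (nat_lit 4) (nat_lit 383) (nat_lit 329) (nat_lit 308)) (XT.lf (nat_lit 0) (nat_lit 103921490055) (nat_lit 152) (nat_lit 41872032997) (nat_lit 0) (nat_lit 102523989620) (nat_lit 2) (nat_lit 5) (nat_lit 4) (nat_lit 4) (nat_lit 2) (nat_lit 4) (nat_lit 384) (nat_lit 329) (nat_lit 307))))))))
noncomputable def xc25 : XT := (XT.nd (nat_lit 1404) (nat_lit 0) (nat_lit 0) (XT.nd (nat_lit 702) (nat_lit 0) (nat_lit 0) (XT.nd (nat_lit 312) (nat_lit 0) (nat_lit 0) (XT.nd (nat_lit 156) (nat_lit 0) (nat_lit 0) (XT.nd (nat_lit 78) (nat_lit 76) (nat_lit 0) (XT.lf (nat_lit 0) (nat_lit 136381737928) (nat_lit 152) (nat_lit 12840572513) (nat_lit 0) (nat_lit 134975407998) (nat_lit 2) (nat_lit 5) (nat_lit 4) (nat_lit 4) (nat_lit 2) (nat_lit 4) (nat_lit 385) (nat_lit 329) (nat_lit 306)) (XT.lf (nat_lit 0) (nat_lit 21242010848) (nat_lit 76) (nat_lit 152802631608)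 (nat_lit 76) (nat_lit 151388623857) (nat_lit 1) (nat_lit 4) (nat_lit 2) (nat_lit 5) (nat_lit 2) (nat_lit 4) (nat_lit 386) (nat_lit 329) (nat_lit 305))) (XT.nd (nat_lit 78) (nat_lit 0) (nat_lit 0) (XT.lf (nat_lit 0) (nat_lit 60879357818) (nat_lit 76) (nat_lit 156689270839) (nat_lit 76) (nat_lit 155268586722) (nat_lit 1) (nat_lit 4) (nat_lit 2) (nat_lit 5) (nat_lit 2) (nat_lit 4) (nat_lit 387) (nat_lit 329) (nat_lit 304)) (XT.lf (nat_lit 0) (nat_lit 106170819914) (nat_lit 76) (nat_lit 161309355085) (nat_lit 76) (nat_lit 159882865432) (nat_lit 1) (nat_lit 4) (nat_lit 2) (nat_lit 5) (nat_lit 2) (nat_lit 4) (nat_lit 388) (nat_lit 329) (nat_lit 303)))) (XT.nd (nat_lit 156) (nat_lit 0) (nat_lit 0) (XT.nd (nat_lit 78) (nat_lit 0) (nat_lit 0) (XT.lf (nat_lit 0) (nat_lit 158002534438) (nat_lit 76) (nat_lit 166753277299) (nat_lit 76) (nat_lit 165321739354) (nat_lit 1) (nat_lit 4) (nat_lit 2) (nat_lit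 5) (nat_lit 2) (nat_lit 4) (nat_lit 389) (nat_lit 329) (nat_lit 302)) (XT.lf (nat_lit 0) (nat_lit 217388600153) (nat_lit 76) (nat_lit 173127549001) (nat_lit 76) (nat_lit 171691621237) (nat_lit 1) (nat_lit 4) (nat_lit 2) (nat_lit 5) (nat_lit 2) (nat_lit 4) (nat_lit 390) (nat_lit 329) (nat_lit 301))) (XT.nd (nat_lit 78) (nat_lit 0) (nat_lit 0) (XT.lf (nat_lit 0) (nat_lit 285490918343) (nat_lit 76) (nat_lit 180556884205) (nat_lit 76) (nat_lit 179117139206) (nat_lit 1) (nat_lit 4) (nat_lit 2) (nat_lit 5) (nat_lit 2) (nat_lit 4) (nat_lit 391) (nat_lit 329) (nat_lit 300)) (XT.nd (nat_lit 78) (nat_lit 0) (nat_lit 0) (XT.lf (nat_lit 0) (nat_lit 363641925669) (nat_lit 76) (nat_lit 189186639467) (nat_lit 76) (nat_lit 187743575135) (nat_lit 1) (nat_lit 4) (nat_lit 2) (nat_lit 5) (nat_lit 2) (nat_lit 4) (nat_lit 392) (nat_lit 329) (nat_lit 299)) (XT.lf (nat_lit 0) (nat_lit 453370663579) (nat_lit 76)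 (nat_lit 199185657826) (nat_lit 76) (nat_lit 197739707116) (nat_lit 1) (nat_lit 4) (nat_lit 2) (nat_lit 5) (nat_lit 2) (nat_lit 4) (nat_lit 393) (nat_lit 329) (nat_lit 298)))))) (XT.nd (nat_lit 312) (nat_lit 0) (nat_lit 0) (XT.nd (nat_lit 156) (nat_lit 0) (nat_lit 0) (XT.nd (nat_lit 78) (nat_lit 0) (nat_lit 0) (XT.lf (nat_lit 0) (nat_lit 556432694336) (nat_lit 76) (nat_lit 210749572249) (nat_lit 76) (nat_lit 209301111646) (nat_lit 1) (nat_lit 4) (nat_lit 2) (nat_lit 5) (nat_lit 2) (nat_lit 4) (nat_lit 394) (nat_lit 329) (nat_lit 297)) (XT.lf (nat_lit 0) (nat_lit 674844448977) (nat_lit 76) (nat_lit 224104633237) (nat_lit 76) (nat_lit 222653990118) (nat_lit 1) (nat_lit 4) (nat_lit 2) (nat_lit 5) (nat_lit 2) (nat_lit 4) (nat_lit 395) (nat_lit 329) (nat_lit 296))) (XT.nd (nat_lit 78) (nat_lit 0) (nat_lit 0) (XT.lf (nat_lit 0) (nat_lit 810922679224) (nat_lit 76) (nat_lit 239512135460) (nat_lit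 76) (nat_lit 238059594501) (nat_lit 1) (nat_lit 4) (nat_lit 2) (nat_lit 5) (nat_lit 2) (nat_lit 4) (nat_lit 396) (nat_lit 329) (nat_lit 295)) (XT.lf (nat_lit 0) (nat_lit 967329785232) (nat_lit 76) (nat_lit 257273530050) (nat_lit 76) (nat_lit 255819338795) (nat_lit 1) (nat_lit 4) (nat_lit 2) (nat_lit 5) (nat_lit 2) (nat_lit 4) (nat_lit 397) (nat_lit 329) (nat_lit 294)))) (XT.nd (nat_lit 156) (nat_lit 0) (nat_lit 0) (XT.nd (nat_lit 78) (nat_lit 0) (nat_lit 0) (XT.lf (nat_lit 0) (nat_lit 1147125906033) (nat_lit 76) (nat_lit 277736322552) (nat_lit 76) (nat_lit 276280696258) (nat_lit 1) (nat_lit 4) (nat_lit 2) (nat_lit 5) (nat_lit 2) (nat_lit 4) (nat_lit 398) (nat_lit 329) (nat_lit 293)) (XT.lf (nat_lit 0) (nat_lit 1353828791816) (nat_lit 76) (nat_lit 301300871950) (nat_lit 76) (nat_lit 299843997795) (nat_lit 1) (nat_lit 4) (nat_lit 2) (nat_lit 5) (nat_lit 2) (nat_lit 4) (nat_lit 399) (nat_lit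 329) (nat_lit 292))) (XT.nd (nat_lit 78) (nat_lit 0) (nat_lit 0) (XT.lf (nat_lit 0) (nat_lit 1591482629477) (nat_lit 76) (nat_lit 328428223776) (nat_lit 76) (nat_lit 326970264525) (nat_lit 1) (nat_lit 4) (nat_lit 2) (nat_lit 5) (nat_lit 2) (nat_lit 4) (nat_lit 400) (nat_lit 329) (nat_lit 291)) (XT.nd (nat_lit 78) (nat_lit 0) (nat_lit 0) (XT.lf (nat_lit 0) (nat_lit 1864737168014) (nat_lit 76) (nat_lit 359649130566) (nat_lit 76) (nat_lit 358190227753) (nat_lit 1) (nat_lit 4) (nat_lit 2) (nat_lit 5) (nat_lit 2) (nat_lit 4) (nat_lit 401) (nat_lit 329) (nat_lit 290)) (XT.lf (nat_lit 0) (nat_lit 2178938691876) (nat_lit 76) (nat_lit 395574436147) (nat_lit 76) (nat_lit 394114712846) (nat_lit 1) (nat_lit 4) (nat_lit 2) (nat_lit 5) (nat_lit 2) (nat_lit 4) (nat_lit 402) (nat_lit 329) (nat_lit 289))))))) (XT.nd (nat_lit 702) (nat_lit 0) (nat_lit 0) (XT.nd (nat_lit 312) (nat_lit 0) (nat_lit 0) (XT.nd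 (nat_lit 156) (nat_lit 0) (nat_lit 0) (XT.nd (nat_lit 78) (nat_lit 0) (nat_lit 0) (XT.lf (nat_lit 0) (nat_lit 2540234622183) (nat_lit 76) (nat_lit 436907026935) (nat_lit 76) (nat_lit 435446590165) (nat_lit 1) (nat_lit 4) (nat_lit 2) (nat_lit 5) (nat_lit 2) (nat_lit 4) (nat_lit 403) (nat_lit 329) (nat_lit 288)) (XT.lf (nat_lit 0) (nat_lit 2955693792353) (nat_lit 76) (nat_lit 484455584052) (nat_lit 76) (nat_lit 482994526875) (nat_lit 1) (nat_lit 4) (nat_lit 2) (nat_lit 5) (nat_lit 2) (nat_lit 4) (nat_lit 404) (nat_lit 329) (nat_lit 287))) (XT.nd (nat_lit 78) (nat_lit 0) (nat_lit 0) (XT.lf (nat_lit 0) (nat_lit 3433444751368) (nat_lit 76) (nat_lit 539150405356) (nat_lit 76) (nat_lit 537688808694) (nat_lit 1) (nat_lit 4) (nat_lit 2) (nat_lit 5) (nat_lit 2) (nat_lit 4) (nat_lit 405) (nat_lit 329) (nat_lit 286)) (XT.lf (nat_lit 0) (nat_lit 3982834800600) (nat_lit 76) (nat_lit 602061606915) (nat_lit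 76) (nat_lit 600599541136) (nat_lit 1) (nat_lit 4) (nat_lit 2) (nat_lit 5) (nat_lit 2) (nat_lit 4) (nat_lit 406) (nat_lit 329) (nat_lit 285)))) (XT.nd (nat_lit 156) (nat_lit 0) (nat_lit 0) (XT.nd (nat_lit 78) (nat_lit 0) (nat_lit 0) (XT.lf (nat_lit 0) (nat_lit 4614612875795) (nat_lit 76) (nat_lit 674420060064) (nat_lit 76) (nat_lit 672957586358) (nat_lit 1) (nat_lit 4) (nat_lit 2) (nat_lit 5) (nat_lit 2) (nat_lit 4) (nat_lit 407) (nat_lit 329) (nat_lit 284)) (XT.lf (nat_lit 0) (nat_lit 5341139852337) (nat_lit 76) (nat_lit 757641473669) (nat_lit 76) (nat_lit 756178645243) (nat_lit 1) (nat_lit 4) (nat_lit 2) (nat_lit 5) (nat_lit 2) (nat_lit 4) (nat_lit 408) (nat_lit 329) (nat_lit 283))) (XT.nd (nat_lit 78) (nat_lit 0) (nat_lit 0) (XT.lf (nat_lit 0) (nat_lit 6176630388463) (nat_lit 76) (nat_lit 853354092780) (nat_lit 76) (nat_lit 851890955902) (nat_lit 1) (nat_lit 4) (nat_lit 2) (nat_lit 5)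 (nat_lit 2) (nat_lit 4) (nat_lit 409) (nat_lit 329) (nat_lit 282)) (XT.nd (nat_lit 78) (nat_lit 0) (nat_lit 0) (XT.lf (nat_lit 0) (nat_lit 7137431038141) (nat_lit 76) (nat_lit 963430555595) (nat_lit 76) (nat_lit 961967150498) (nat_lit 1) (nat_lit 4) (nat_lit 2) (nat_lit 5) (nat_lit 2) (nat_lit 4) (nat_lit 410) (nat_lit 329) (nat_lit 281)) (XT.lf (nat_lit 0) (nat_lit 8242340074950) (nat_lit 76) (nat_lit 1090024532041) (nat_lit 76) (nat_lit 1088560893709) (nat_lit 1) (nat_lit 4) (nat_lit 2) (nat_lit 5) (nat_lit 2) (nat_lit 4) (nat_lit 411) (nat_lit 329) (nat_lit 280)))))) (XT.nd (nat_lit 390) (nat_lit 0) (nat_lit 0) (XT.nd (nat_lit 156) (nat_lit 0) (nat_lit 0) (XT.nd (nat_lit 78) (nat_lit 0) (nat_lit 0) (XT.lf (nat_lit 0) (nat_lit 9512975284395) (nat_lit 76) (nat_lit 1235612860785) (nat_lit 76) (nat_lit 1234149019641) (nat_lit 1) (nat_lit 4) (nat_lit 2) (nat_lit 5) (nat_lit 2) (nat_lit 4) (nat_lit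 412) (nat_lit 329) (nat_lit 279)) (XT.lf (nat_lit 0) (nat_lit 10974196920572) (nat_lit 76) (nat_lit 1403044009130) (nat_lit 76) (nat_lit 1401579991628) (nat_lit 1) (nat_lit 4) (nat_lit 2) (nat_lit 5) (nat_lit 2) (nat_lit 4) (nat_lit 413) (nat_lit 329) (nat_lit 278))) (XT.nd (nat_lit 78) (nat_lit 0) (nat_lit 0) (XT.lf (nat_lit 0) (nat_lit 12654594102451) (nat_lit 76) (nat_lit 1595593803891) (nat_lit 76) (nat_lit 1594129633034) (nat_lit 1) (nat_lit 4) (nat_lit 2) (nat_lit 5) (nat_lit 2) (nat_lit 4) (nat_lit 414) (nat_lit 329) (nat_lit 277)) (XT.nd (nat_lit 78) (nat_lit 0) (nat_lit 0) (XT.lf (nat_lit 0) (nat_lit 14587044166199) (nat_lit 76) (nat_lit 1817029523662) (nat_lit 76) (nat_lit 1815565219452) (nat_lit 1) (nat_lit 4) (nat_lit 2) (nat_lit 5) (nat_lit 2) (nat_lit 4) (nat_lit 415) (nat_lit 329) (nat_lit 276)) (XT.lf (nat_lit 0) (nat_lit 16809355917410) (nat_lit 76) (nat_lit 2071683606437)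 (nat_lit 76) (nat_lit 2070219186269) (nat_lit 1) (nat_lit 4) (nat_lit 2) (nat_lit 5) (nat_lit 2) (nat_lit 4) (nat_lit 416) (nat_lit 329) (nat_lit 275))))) (XT.nd (nat_lit 156) (nat_lit 0) (nat_lit 0) (XT.nd (nat_lit 78) (nat_lit 0) (nat_lit 0) (XT.lf (nat_lit 0) (nat_lit 19365009368609) (nat_lit 76) (nat_lit 2364538414707) (nat_lit 76) (nat_lit 2363073893705) (nat_lit 1) (nat_lit 4) (nat_lit 2) (nat_lit 5) (nat_lit 2) (nat_lit 4) (nat_lit 417) (nat_lit 329) (nat_lit 274)) (XT.lf (nat_lit 0) (nat_lit 22304006435145) (nat_lit 76) (nat_lit 2701323716458) (nat_lit 76) (nat_lit 2699859107775) (nat_lit 1) (nat_lit 4) (nat_lit 2) (nat_lit 5) (nat_lit 2) (nat_lit 4) (nat_lit 418) (nat_lit 329) (nat_lit 273))) (XT.nd (nat_lit 78) (nat_lit 0) (nat_lit 0) (XT.lf (nat_lit 0) (nat_lit 25683849233537) (nat_lit 76) (nat_lit 3088628789334) (nat_lit 76) (nat_lit 3087164104406) (nat_lit 1) (nat_lit 4) (nat_lit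 2) (nat_lit 5) (nat_lit 2) (nat_lit 4) (nat_lit 419) (nat_lit 329) (nat_lit 272)) (XT.nd (nat_lit 78) (nat_lit 0) (nat_lit 0) (XT.lf (nat_lit 0) (nat_lit 29570665122884) (nat_lit 76) (nat_lit 3534031341283) (nat_lit 76) (nat_lit 3532566590055) (nat_lit 1) (nat_lit 4) (nat_lit 2) (nat_lit 5) (nat_lit 2) (nat_lit 4) (nat_lit 420) (nat_lit 329) (nat_lit 271)) (XT.lf (nat_lit 0) (nat_lit 34040500501021) (nat_lit 76) (nat_lit 4046245770059) (nat_lit 76) (nat_lit 4044780961179) (nat_lit 1) (nat_lit 4) (nat_lit 2) (nat_lit 5) (nat_lit 2) (nat_lit 4) (nat_lit 421) (nat_lit 329) (nat_lit 270))))))))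
noncomputable def xc26 : XT := (XT.nd (nat_lit 1404) (nat_lit 228) (nat_lit 0) (XT.nd (nat_lit 702) (nat_lit 684) (nat_lit 0) (XT.nd (nat_lit 312) (nat_lit 684) (nat_lit 0) (XT.nd (nat_lit 156) (nat_lit 304) (nat_lit 0) (XT.nd (nat_lit 78) (nat_lit 152) (nat_lit 0) (XT.lf (nat_lit 0) (nat_lit 3167120163) (nat_lit 76) (nat_lit 2726914129) (nat_lit 76) (nat_lit 2726914129) (nat_lit 28) (nat_lit 4) (nat_lit 29) (nat_lit 5) (nat_lit 29) (nat_lit 4) (nat_lit 360) (nat_lit 330) (nat_lit 330)) (XT.lf (nat_lit 0) (nat_lit 8617411797) (nat_lit 152) (nat_lit 1808317661) (nat_lit 0) (nat_lit 8210616236) (nat_lit 26) (nat_lit 5) (nat_lit 28) (nat_lit 4) (nat_lit 26) (nat_lit 4) (nat_lit 361) (nat_lit 330) (nat_lit 329))) (XT.nd (nat_lit 78) (nat_lit 76) (nat_lit 0) (XT.lf (nat_lit 0) (nat_lit 4132780885) (nat_lit 152) (nat_lit 12651324675) (nat_lit 0) (nat_lit 3428585671) (nat_lit 23) (nat_lit 5) (nat_lit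 25) (nat_lit 4) (nat_lit 23) (nat_lit 4) (nat_lit 362) (nat_lit 330) (nat_lit 328)) (XT.lf (nat_lit 0) (nat_lit 16731330865) (nat_lit 76) (nat_lit 3129322167) (nat_lit 76) (nat_lit 2140315947) (nat_lit 22) (nat_lit 4) (nat_lit 23) (nat_lit 5) (nat_lit 23) (nat_lit 4) (nat_lit 363) (nat_lit 330) (nat_lit 327)))) (XT.nd (nat_lit 156) (nat_lit 304) (nat_lit 0) (XT.nd (nat_lit 78) (nat_lit 152) (nat_lit 0) (XT.lf (nat_lit 0) (nat_lit 1399617865) (nat_lit 76) (nat_lit 11884563866) (nat_lit 76) (nat_lit 10739500935) (nat_lit 19) (nat_lit 4) (nat_lit 20) (nat_lit 5) (nat_lit 20) (nat_lit 4) (nat_lit 364) (nat_lit 330) (nat_lit 326)) (XT.lf (nat_lit 0) (nat_lit 4400227284) (nat_lit 152) (nat_lit 18774837528) (nat_lit 0) (nat_lit 3155349022) (nat_lit 17) (nat_lit 5) (nat_lit 19) (nat_lit 4) (nat_lit 17) (nat_lit 4) (nat_lit 365) (nat_lit 330) (nat_lit 325))) (XT.nd (nat_lit 78) (nat_lit 228) (nat_lit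 0) (XT.lf (nat_lit 0) (nat_lit 12270261786) (nat_lit 76) (nat_lit 9042502093) (nat_lit 76) (nat_lit 7637071825) (nat_lit 16) (nat_lit 4) (nat_lit 17) (nat_lit 5) (nat_lit 17) (nat_lit 4) (nat_lit 366) (nat_lit 330) (nat_lit 324)) (XT.nd (nat_lit 78) (nat_lit 76) (nat_lit 0) (XT.lf (nat_lit 0) (nat_lit 8361471106) (nat_lit 152) (nat_lit 16652770224) (nat_lit 0) (nat_lit 6930877858) (nat_lit 14) (nat_lit 5) (nat_lit 16) (nat_lit 4) (nat_lit 14) (nat_lit 4) (nat_lit 367) (nat_lit 330) (nat_lit 323)) (XT.lf (nat_lit 0) (nat_lit 15919750238) (nat_lit 76) (nat_lit 10494286551) (nat_lit 76) (nat_lit 8951285541) (nat_lit 13) (nat_lit 4) (nat_lit 14) (nat_lit 5) (nat_lit 14) (nat_lit 4) (nat_lit 368) (nat_lit 330) (nat_lit 322)))))) (XT.nd (nat_lit 312) (nat_lit 304) (nat_lit 0) (XT.nd (nat_lit 156) (nat_lit 152) (nat_lit 0) (XT.nd (nat_lit 78) (nat_lit 76) (nat_lit 0) (XT.lf (nat_lit 0) (nat_lit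 7484114260) (nat_lit 152) (nat_lit 25834220086) (nat_lit 0) (nat_lit 5964904177) (nat_lit 11) (nat_lit 5) (nat_lit 13) (nat_lit 4) (nat_lit 11) (nat_lit 4) (nat_lit 369) (nat_lit 330) (nat_lit 321)) (XT.lf (nat_lit 0) (nat_lit 6616617805) (nat_lit 76) (nat_lit 19370479869) (nat_lit 76) (nat_lit 17772569399) (nat_lit 10) (nat_lit 4) (nat_lit 11) (nat_lit 5) (nat_lit 11) (nat_lit 4) (nat_lit 370) (nat_lit 330) (nat_lit 320))) (XT.nd (nat_lit 78) (nat_lit 152) (nat_lit 0) (XT.lf (nat_lit 0) (nat_lit 43784457386) (nat_lit 76) (nat_lit 3398048513) (nat_lit 76) (nat_lit 1731702925) (nat_lit 10) (nat_lit 4) (nat_lit 11) (nat_lit 5) (nat_lit 11) (nat_lit 4) (nat_lit 371) (nat_lit 330) (nat_lit 319)) (XT.lf (nat_lit 0) (nat_lit 16258421905) (nat_lit 152) (nat_lit 23860603208) (nat_lit 0) (nat_lit 14660408584) (nat_lit 8) (nat_lit 5) (nat_lit 10) (nat_lit 4) (nat_lit 8) (nat_lit 4) (nat_lit 372) (nat_lit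 330) (nat_lit 318)))) (XT.nd (nat_lit 156) (nat_lit 228) (nat_lit 0) (XT.nd (nat_lit 78) (nat_lit 0) (nat_lit 0) (XT.lf (nat_lit 0) (nat_lit 10093746719) (nat_lit 76) (nat_lit 26544755688) (nat_lit 76) (nat_lit 24898828680) (nat_lit 7) (nat_lit 4) (nat_lit 8) (nat_lit 5) (nat_lit 8) (nat_lit 4) (nat_lit 373) (nat_lit 330) (nat_lit 317)) (XT.lf (nat_lit 0) (nat_lit 49269642295) (nat_lit 76) (nat_lit 10861222314) (nat_lit 76) (nat_lit 9173631231) (nat_lit 7) (nat_lit 4) (nat_lit 8) (nat_lit 5) (nat_lit 8) (nat_lit 4) (nat_lit 374) (nat_lit 330) (nat_lit 316))) (XT.nd (nat_lit 78) (nat_lit 76) (nat_lit 0) (XT.lf (nat_lit 0) (nat_lit 8439464213) (nat_lit 152) (nat_lit 62938809133) (nat_lit 0) (nat_lit 6843333923) (nat_lit 5) (nat_lit 5) (nat_lit 7) (nat_lit 4) (nat_lit 5) (nat_lit 4) (nat_lit 375) (nat_lit 330) (nat_lit 315)) (XT.nd (nat_lit 78) (nat_lit 76) (nat_lit 0) (XT.lf (nat_lit 0) (nat_lit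 28530405390) (nat_lit 152) (nat_lit 32991391234) (nat_lit 0) (nat_lit 26905104705) (nat_lit 5) (nat_lit 5) (nat_lit 7) (nat_lit 4) (nat_lit 5) (nat_lit 4) (nat_lit 376) (nat_lit 330) (nat_lit 314)) (XT.lf (nat_lit 0) (nat_lit 513979625) (nat_lit 76) (nat_lit 50667961252) (nat_lit 76) (nat_lit 49017295006) (nat_lit 4) (nat_lit 4) (nat_lit 5) (nat_lit 5) (nat_lit 5) (nat_lit 4) (nat_lit 377) (nat_lit 330) (nat_lit 313))))))) (XT.nd (nat_lit 702) (nat_lit 76) (nat_lit 0) (XT.nd (nat_lit 312) (nat_lit 0) (nat_lit 0) (XT.nd (nat_lit 156) (nat_lit 152) (nat_lit 0) (XT.nd (nat_lit 78) (nat_lit 0) (nat_lit 0) (XT.lf (nat_lit 0) (nat_lit 40164391778) (nat_lit 76) (nat_lit 37601490181) (nat_lit 76) (nat_lit 35928766926) (nat_lit 4) (nat_lit 4) (nat_lit 5) (nat_lit 5) (nat_lit 5) (nat_lit 4) (nat_lit 378) (nat_lit 330) (nat_lit 312)) (XT.lf (nat_lit 0) (nat_lit 84998345963) (nat_lit 76) (nat_lit 22968778169)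 (nat_lit 76) (nat_lit 21276874905) (nat_lit 4) (nat_lit 4) (nat_lit 5) (nat_lit 5) (nat_lit 5) (nat_lit 4) (nat_lit 379) (nat_lit 330) (nat_lit 311))) (XT.nd (nat_lit 78) (nat_lit 152) (nat_lit 0) (XT.lf (nat_lit 0) (nat_lit 135893028238) (nat_lit 76) (nat_lit 6483533023) (nat_lit 76) (nat_lit 4774951491) (nat_lit 4) (nat_lit 4) (nat_lit 5) (nat_lit 5) (nat_lit 5) (nat_lit 4) (nat_lit 380) (nat_lit 330) (nat_lit 310)) (XT.lf (nat_lit 0) (nat_lit 14174706883) (nat_lit 152) (nat_lit 140909232386) (nat_lit 0) (nat_lit 12579258389) (nat_lit 2) (nat_lit 5) (nat_lit 4) (nat_lit 4) (nat_lit 2) (nat_lit 4) (nat_lit 381) (nat_lit 330) (nat_lit 309)))) (XT.nd (nat_lit 156) (nat_lit 0) (nat_lit 0) (XT.nd (nat_lit 78) (nat_lit 0) (nat_lit 0) (XT.lf (nat_lit 0) (nat_lit 35938155909) (nat_lit 152) (nat_lit 120952202435) (nat_lit 0) (nat_lit 34331030409) (nat_lit 2) (nat_lit 5) (nat_lit 4) (nat_lit 4) (nat_lit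 2) (nat_lit 4) (nat_lit 382) (nat_lit 330) (nat_lit 308)) (XT.lf (nat_lit 0) (nat_lit 60731707315) (nat_lit 152) (nat_lit 98485927552) (nat_lit 0) (nat_lit 59114427896) (nat_lit 2) (nat_lit 5) (nat_lit 4) (nat_lit 4) (nat_lit 2) (nat_lit 4) (nat_lit 383) (nat_lit 330) (nat_lit 307))) (XT.nd (nat_lit 78) (nat_lit 0) (nat_lit 0) (XT.lf (nat_lit 0) (nat_lit 89040452324) (nat_lit 152) (nat_lit 73070850186) (nat_lit 0) (nat_lit 87414343410) (nat_lit 2) (nat_lit 5) (nat_lit 4) (nat_lit 4) (nat_lit 2) (nat_lit 4) (nat_lit 384) (nat_lit 330) (nat_lit 306)) (XT.nd (nat_lit 78) (nat_lit 0) (nat_lit 0) (XT.lf (nat_lit 0) (nat_lit 121418257686) (nat_lit 152) (nat_lit 44209718822) (nat_lit 0) (nat_lit 119784470951) (nat_lit 2) (nat_lit 5) (nat_lit 4) (nat_lit 4) (nat_lit 2) (nat_lit 4) (nat_lit 385) (nat_lit 330) (nat_lit 305)) (XT.lf (nat_lit 0) (nat_lit 158498602202) (nat_lit 152) (nat_lit 11337859152)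 (nat_lit 0) (nat_lit 156858139101) (nat_lit 2) (nat_lit 5) (nat_lit 4) (nat_lit 4) (nat_lit 2) (nat_lit 4) (nat_lit 386) (nat_lit 330) (nat_lit 304)))))) (XT.nd (nat_lit 390) (nat_lit 0) (nat_lit 0) (XT.nd (nat_lit 156) (nat_lit 0) (nat_lit 0) (XT.nd (nat_lit 78) (nat_lit 0) (nat_lit 0) (XT.lf (nat_lit 0) (nat_lit 27566880936) (nat_lit 76) (nat_lit 174103074087) (nat_lit 76) (nat_lit 172456805450) (nat_lit 1) (nat_lit 4) (nat_lit 2) (nat_lit 5) (nat_lit 2) (nat_lit 4) (nat_lit 387) (nat_lit 330) (nat_lit 303)) (XT.lf (nat_lit 0) (nat_lit 72740451457) (nat_lit 76) (nat_lit 178784007324) (nat_lit 76) (nat_lit 177132690395) (nat_lit 1) (nat_lit 4) (nat_lit 2) (nat_lit 5) (nat_lit 2) (nat_lit 4) (nat_lit 388) (nat_lit 330) (nat_lit 302))) (XT.nd (nat_lit 78) (nat_lit 0) (nat_lit 0) (XT.lf (nat_lit 0) (nat_lit 124469651568) (nat_lit 76) (nat_lit 184280841704) (nat_lit 76) (nat_lit 182625134956)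 (nat_lit 1) (nat_lit 4) (nat_lit 2) (nat_lit 5) (nat_lit 2) (nat_lit 4) (nat_lit 389) (nat_lit 330) (nat_lit 301)) (XT.nd (nat_lit 78) (nat_lit 0) (nat_lit 0) (XT.lf (nat_lit 0) (nat_lit 183766574314) (nat_lit 76) (nat_lit 190701123985) (nat_lit 76) (nat_lit 189041600003) (nat_lit 1) (nat_lit 4) (nat_lit 2) (nat_lit 5) (nat_lit 2) (nat_lit 4) (nat_lit 390) (nat_lit 330) (nat_lit 300)) (XT.lf (nat_lit 0) (nat_lit 251791376880) (nat_lit 76) (nat_lit 198170468388) (nat_lit 76) (nat_lit 196507625072) (nat_lit 1) (nat_lit 4) (nat_lit 2) (nat_lit 5) (nat_lit 2) (nat_lit 4) (nat_lit 391) (nat_lit 330) (nat_lit 299))))) (XT.nd (nat_lit 156) (nat_lit 0) (nat_lit 0) (XT.nd (nat_lit 78) (nat_lit 0) (nat_lit 0) (XT.lf (nat_lit 0) (nat_lit 329874979315) (nat_lit 76) (nat_lit 206835014258) (nat_lit 76) (nat_lit 205169284565) (nat_lit 1) (nat_lit 4) (nat_lit 2) (nat_lit 5) (nat_lit 2) (nat_lit 4) (nat_lit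 392) (nat_lit 330) (nat_lit 298)) (XT.lf (nat_lit 0) (nat_lit 419545104277) (nat_lit 76) (nat_lit 216864285320) (nat_lit 76) (nat_lit 215196045733) (nat_lit 1) (nat_lit 4) (nat_lit 2) (nat_lit 5) (nat_lit 2) (nat_lit 4) (nat_lit 393) (nat_lit 330) (nat_lit 297))) (XT.nd (nat_lit 78) (nat_lit 0) (nat_lit 0) (XT.lf (nat_lit 0) (nat_lit 522556167253) (nat_lit 76) (nat_lit 228454506442) (nat_lit 76) (nat_lit 226784084339) (nat_lit 1) (nat_lit 4) (nat_lit 2) (nat_lit 5) (nat_lit 2) (nat_lit 4) (nat_lit 394) (nat_lit 330) (nat_lit 296)) (XT.nd (nat_lit 78) (nat_lit 0) (nat_lit 0) (XT.lf (nat_lit 0) (nat_lit 640923602084) (nat_lit 76) (nat_lit 241832442819) (nat_lit 76) (nat_lit 240160122876) (nat_lit 1) (nat_lit 4) (nat_lit 2) (nat_lit 5) (nat_lit 2) (nat_lit 4) (nat_lit 395) (nat_lit 330) (nat_lit 295)) (XT.lf (nat_lit 0) (nat_lit 776963293365) (nat_lit 76) (nat_lit 257259836685) (nat_lit 76)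 (nat_lit 255585866447) (nat_lit 1) (nat_lit 4) (nat_lit 2) (nat_lit 5) (nat_lit 2) (nat_lit 4) (nat_lit 396) (nat_lit 330) (nat_lit 294))))))))
noncomputable def xc27 : XT := (XT.nd (nat_lit 1404) (nat_lit 0) (nat_lit 0) (XT.nd (nat_lit 702) (nat_lit 0) (nat_lit 0) (XT.nd (nat_lit 312) (nat_lit 0) (nat_lit 0) (XT.nd (nat_lit 156) (nat_lit 0) (nat_lit 0) (XT.nd (nat_lit 78) (nat_lit 0) (nat_lit 0) (XT.lf (nat_lit 0) (nat_lit 933336887230) (nat_lit 76) (nat_lit 275038528356) (nat_lit 76) (nat_lit 273363123078) (nat_lit 1) (nat_lit 4) (nat_lit 2) (nat_lit 5) (nat_lit 2) (nat_lit 4) (nat_lit 397) (nat_lit 330) (nat_lit 293)) (XT.lf (nat_lit 0) (nat_lit 1113103867037) (nat_lit 76) (nat_lit 295516361798) (nat_lit 76) (nat_lit 293839708659) (nat_lit 1) (nat_lit 4) (nat_lit 2) (nat_lit 5) (nat_lit 2) (nat_lit 4) (nat_lit 398) (nat_lit 330) (nat_lit 292))) (XT.nd (nat_lit 78) (nat_lit 0) (nat_lit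 0) (XT.lf (nat_lit 0) (nat_lit 1319781412825) (nat_lit 76) (nat_lit 319093990274) (nat_lit 76) (nat_lit 317416252039) (nat_lit 1) (nat_lit 4) (nat_lit 2) (nat_lit 5) (nat_lit 2) (nat_lit 4) (nat_lit 399) (nat_lit 330) (nat_lit 291)) (XT.lf (nat_lit 0) (nat_lit 1557413215707) (nat_lit 76) (nat_lit 346232715212) (nat_lit 76) (nat_lit 344554033415) (nat_lit 1) (nat_lit 4) (nat_lit 2) (nat_lit 5) (nat_lit 2) (nat_lit 4) (nat_lit 400) (nat_lit 330) (nat_lit 290)))) (XT.nd (nat_lit 156) (nat_lit 0) (nat_lit 0) (XT.nd (nat_lit 78) (nat_lit 0) (nat_lit 0) (XT.lf (nat_lit 0) (nat_lit 1830648593567) (nat_lit 76) (nat_lit 377463511663) (nat_lit 76) (nat_lit 375784009378) (nat_lit 1) (nat_lit 4) (nat_lit 2) (nat_lit 5) (nat_lit 2) (nat_lit 4) (nat_lit 401) (nat_lit 330) (nat_lit 289)) (XT.lf (nat_lit 0) (nat_lit 2144833455972) (nat_lit 76) (nat_lit 413397416951) (nat_lit 76) (nat_lit 411717201198) (nat_lit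 1) (nat_lit 4) (nat_lit 2) (nat_lit 5) (nat_lit 2) (nat_lit 4) (nat_lit 402) (nat_lit 330) (nat_lit 288))) (XT.nd (nat_lit 78) (nat_lit 0) (nat_lit 0) (XT.lf (nat_lit 0) (nat_lit 2506114898054) (nat_lit 76) (nat_lit 454737485744) (nat_lit 76) (nat_lit 453056649583) (nat_lit 1) (nat_lit 4) (nat_lit 2) (nat_lit 5) (nat_lit 2) (nat_lit 4) (nat_lit 403) (nat_lit 330) (nat_lit 287)) (XT.nd (nat_lit 78) (nat_lit 0) (nat_lit 0) (XT.lf (nat_lit 0) (nat_lit 2921561469768) (nat_lit 76) (nat_lit 502292545475) (nat_lit 76) (nat_lit 500611169829) (nat_lit 1) (nat_lit 4) (nat_lit 2) (nat_lit 5) (nat_lit 2) (nat_lit 4) (nat_lit 404) (nat_lit 330) (nat_lit 286)) (XT.lf (nat_lit 0) (nat_lit 3399301473604) (nat_lit 76) (nat_lit 556993021225) (nat_lit 76) (nat_lit 555311176462) (nat_lit 1) (nat_lit 4) (nat_lit 2) (nat_lit 5) (nat_lit 2) (nat_lit 4) (nat_lit 405) (nat_lit 330) (nat_lit 285)))))) (XT.nd (nat_lit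 312) (nat_lit 0) (nat_lit 0) (XT.nd (nat_lit 156) (nat_lit 0) (nat_lit 0) (XT.nd (nat_lit 78) (nat_lit 0) (nat_lit 0) (XT.lf (nat_lit 0) (nat_lit 3948681996593) (nat_lit 76) (nat_lit 619909139694) (nat_lit 76) (nat_lit 618226887004) (nat_lit 1) (nat_lit 4) (nat_lit 2) (nat_lit 5) (nat_lit 2) (nat_lit 4) (nat_lit 406) (nat_lit 330) (nat_lit 284)) (XT.lf (nat_lit 0) (nat_lit 4580451788099) (nat_lit 76) (nat_lit 692271868417) (nat_lit 76) (nat_lit 690589261007) (nat_lit 1) (nat_lit 4) (nat_lit 2) (nat_lit 5) (nat_lit 2) (nat_lit 4) (nat_lit 407) (nat_lit 330) (nat_lit 283))) (XT.nd (nat_lit 78) (nat_lit 0) (nat_lit 0) (XT.lf (nat_lit 0) (nat_lit 5306971561433) (nat_lit 76) (nat_lit 775496999913) (nat_lit 76) (nat_lit 773814084051) (nat_lit 1) (nat_lit 4) (nat_lit 2) (nat_lit 5) (nat_lit 2) (nat_lit 4) (nat_lit 408) (nat_lit 330) (nat_lit 282)) (XT.lf (nat_lit 0) (nat_lit 6142455833899) (nat_lit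 76) (nat_lit 871212851971) (nat_lit 76) (nat_lit 869529667890) (nat_lit 1) (nat_lit 4) (nat_lit 2) (nat_lit 5) (nat_lit 2) (nat_lit 4) (nat_lit 409) (nat_lit 330) (nat_lit 281)))) (XT.nd (nat_lit 156) (nat_lit 0) (nat_lit 0) (XT.nd (nat_lit 78) (nat_lit 0) (nat_lit 0) (XT.lf (nat_lit 0) (nat_lit 7103251036917) (nat_lit 76) (nat_lit 981292126046) (nat_lit 76) (nat_lit 979608708731) (nat_lit 1) (nat_lit 4) (nat_lit 2) (nat_lit 5) (nat_lit 2) (nat_lit 4) (nat_lit 410) (nat_lit 330) (nat_lit 280)) (XT.lf (nat_lit 0) (nat_lit 8208155337500) (nat_lit 76) (nat_lit 1107888547064) (nat_lit 76) (nat_lit 1106204926937) (nat_lit 1) (nat_lit 4) (nat_lit 2) (nat_lit 5) (nat_lit 2) (nat_lit 4) (nat_lit 411) (nat_lit 330) (nat_lit 279))) (XT.nd (nat_lit 78) (nat_lit 0) (nat_lit 0) (XT.lf (nat_lit 0) (nat_lit 9478786428487) (nat_lit 76) (nat_lit 1253479001525) (nat_lit 76) (nat_lit 1251795205038) (nat_lit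 1) (nat_lit 4) (nat_lit 2) (nat_lit 5) (nat_lit 2) (nat_lit 4) (nat_lit 412) (nat_lit 330) (nat_lit 278)) (XT.nd (nat_lit 78) (nat_lit 0) (nat_lit 0) (XT.lf (nat_lit 0) (nat_lit 10940004483397) (nat_lit 76) (nat_lit 1420911998318) (nat_lit 76) (nat_lit 1419228048477) (nat_lit 1) (nat_lit 4) (nat_lit 2) (nat_lit 5) (nat_lit 2) (nat_lit 4) (nat_lit 413) (nat_lit 330) (nat_lit 277)) (XT.lf (nat_lit 0) (nat_lit 12620398551130) (nat_lit 76) (nat_lit 1613463400426) (nat_lit 76) (nat_lit 1611779317233) (nat_lit 1) (nat_lit 4) (nat_lit 2) (nat_lit 5) (nat_lit 2) (nat_lit 4) (nat_lit 414) (nat_lit 330) (nat_lit 276))))))) (XT.nd (nat_lit 48828) (nat_lit 0) (nat_lit 912) (XT.nd (nat_lit 312) (nat_lit 0) (nat_lit 0) (XT.nd (nat_lit 156) (nat_lit 0) (nat_lit 0) (XT.nd (nat_lit 78) (nat_lit 0) (nat_lit 0) (XT.lf (nat_lit 0) (nat_lit 14552845906925) (nat_lit 76) (nat_lit 1834900517889) (nat_lit 76) (nat_lit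 1833216318737) (nat_lit 1) (nat_lit 4) (nat_lit 2) (nat_lit 5) (nat_lit 2) (nat_lit 4) (nat_lit 415) (nat_lit 330) (nat_lit 275)) (XT.lf (nat_lit 0) (nat_lit 16775155303395) (nat_lit 76) (nat_lit 2089555816050) (nat_lit 76) (nat_lit 2087871516064) (nat_lit 1) (nat_lit 4) (nat_lit 2) (nat_lit 5) (nat_lit 2) (nat_lit 4) (nat_lit 416) (nat_lit 330) (nat_lit 274))) (XT.nd (nat_lit 78) (nat_lit 0) (nat_lit 0) (XT.lf (nat_lit 0) (nat_lit 19330806706992) (nat_lit 76) (nat_lit 2382411681176) (nat_lit 76) (nat_lit 2380727293509) (nat_lit 1) (nat_lit 4) (nat_lit 2) (nat_lit 5) (nat_lit 2) (nat_lit 4) (nat_lit 417) (nat_lit 330) (nat_lit 273)) (XT.lf (nat_lit 0) (nat_lit 22269801993005) (nat_lit 76) (nat_lit 2719197901933) (nat_lit 76) (nat_lit 2717513438021) (nat_lit 1) (nat_lit 4) (nat_lit 2) (nat_lit 5) (nat_lit 2) (nat_lit 4) (nat_lit 418) (nat_lit 330) (nat_lit 272)))) (XT.nd (nat_lit 156) (nat_lit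 0) (nat_lit 0) (XT.nd (nat_lit 78) (nat_lit 0) (nat_lit 0) (XT.lf (nat_lit 0) (nat_lit 25649643243117) (nat_lit 76) (nat_lit 3106503773944) (nat_lit 76) (nat_lit 3104819243733) (nat_lit 1) (nat_lit 4) (nat_lit 2) (nat_lit 5) (nat_lit 2) (nat_lit 4) (nat_lit 419) (nat_lit 330) (nat_lit 271)) (XT.lf (nat_lit 0) (nat_lit 29536457786133) (nat_lit 76) (nat_lit 3551907020793) (nat_lit 76) (nat_lit 3550222432929) (nat_lit 1) (nat_lit 4) (nat_lit 2) (nat_lit 5) (nat_lit 2) (nat_lit 4) (nat_lit 420) (nat_lit 330) (nat_lit 270))) (XT.nd (nat_lit 48204) (nat_lit 0) (nat_lit 2280) (XT.lf (nat_lit 0) (nat_lit 34006291993547) (nat_lit 76) (nat_lit 4064122053830) (nat_lit 76) (nat_lit 4062437415835) (nat_lit 1) (nat_lit 4) (nat_lit 2) (nat_lit 5) (nat_lit 2) (nat_lit 4) (nat_lit 421) (nat_lit 330) (nat_lit 269)) (XT.nd (nat_lit 78) (nat_lit 76) (nat_lit 0) (XT.lf (nat_lit 0) (nat_lit 588241651) (nat_lit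 152) (nat_lit 6259459959) (nat_lit 0) (nat_lit 588241651) (nat_lit 32) (nat_lit 5) (nat_lit 34) (nat_lit 4) (nat_lit 32) (nat_lit 4) (nat_lit 358) (nat_lit 331) (nat_lit 331)) (XT.lf (nat_lit 0) (nat_lit 12145690483) (nat_lit 76) (nat_lit 2205980379) (nat_lit 76) (nat_lit 1660321085) (nat_lit 31) (nat_lit 4) (nat_lit 32) (nat_lit 5) (nat_lit 32) (nat_lit 4) (nat_lit 359) (nat_lit 331) (nat_lit 330)))))) (XT.nd (nat_lit 390) (nat_lit 532) (nat_lit 0) (XT.nd (nat_lit 156) (nat_lit 456) (nat_lit 0) (XT.nd (nat_lit 78) (nat_lit 152) (nat_lit 0) (XT.lf (nat_lit 0) (nat_lit 5069712559) (nat_lit 76) (nat_lit 6583977154) (nat_lit 76) (nat_lit 5639397862) (nat_lit 28) (nat_lit 4) (nat_lit 29) (nat_lit 5) (nat_lit 29) (nat_lit 4) (nat_lit 360) (nat_lit 331) (nat_lit 329)) (XT.lf (nat_lit 0) (nat_lit 7766330373) (nat_lit 152) (nat_lit 4437579105) (nat_lit 0) (nat_lit 6537984647) (nat_lit 26) (nat_lit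 5) (nat_lit 28) (nat_lit 4) (nat_lit 26) (nat_lit 4) (nat_lit 361) (nat_lit 331) (nat_lit 328))) (XT.nd (nat_lit 78) (nat_lit 228) (nat_lit 0) (XT.lf (nat_lit 0) (nat_lit 2417848714) (nat_lit 152) (nat_lit 16971057252) (nat_lit 0) (nat_lit 995680554) (nat_lit 23) (nat_lit 5) (nat_lit 25) (nat_lit 4) (nat_lit 23) (nat_lit 4) (nat_lit 362) (nat_lit 331) (nat_lit 327)) (XT.nd (nat_lit 78) (nat_lit 152) (nat_lit 0) (XT.lf (nat_lit 0) (nat_lit 11045442367) (nat_lit 76) (nat_lit 6425618290) (nat_lit 76) (nat_lit 4755788386) (nat_lit 22) (nat_lit 4) (nat_lit 23) (nat_lit 5) (nat_lit 23) (nat_lit 4) (nat_lit 363) (nat_lit 331) (nat_lit 326)) (XT.lf (nat_lit 0) (nat_lit 9989982149) (nat_lit 152) (nat_lit 6084949722) (nat_lit 0) (nat_lit 8244437756) (nat_lit 20) (nat_lit 5) (nat_lit 22) (nat_lit 4) (nat_lit 20) (nat_lit 4) (nat_lit 364) (nat_lit 331) (nat_lit 325))))) (XT.nd (nat_lit 156) (nat_lit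 228) (nat_lit 0) (XT.nd (nat_lit 78) (nat_lit 152) (nat_lit 0) (XT.lf (nat_lit 0) (nat_lit 58851559) (nat_lit 152) (nat_lit 1796529315) (nat_lit 76) (nat_lit 24852120210) (nat_lit 18) (nat_lit 5) (nat_lit 20) (nat_lit 5) (nat_lit 19) (nat_lit 4) (nat_lit 365) (nat_lit 331) (nat_lit 324)) (XT.lf (nat_lit 0) (nat_lit 950709448) (nat_lit 76) (nat_lit 15179943173) (nat_lit 76) (nat_lit 13263535918) (nat_lit 16) (nat_lit 4) (nat_lit 17) (nat_lit 5) (nat_lit 17) (nat_lit 4) (nat_lit 366) (nat_lit 331) (nat_lit 323))) (XT.nd (nat_lit 78) (nat_lit 76) (nat_lit 0) (XT.lf (nat_lit 0) (nat_lit 2080699065) (nat_lit 152) (nat_lit 30200624889) (nat_lit 0) (nat_lit 193840142) (nat_lit 14) (nat_lit 5) (nat_lit 16) (nat_lit 4) (nat_lit 14) (nat_lit 4) (nat_lit 367) (nat_lit 331) (nat_lit 322)) (XT.nd (nat_lit 78) (nat_lit 0) (nat_lit 0) (XT.lf (nat_lit 0) (nat_lit 755068582) (nat_lit 76) (nat_lit 18593828785)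 (nat_lit 76) (nat_lit 16609223982) (nat_lit 13) (nat_lit 4) (nat_lit 14) (nat_lit 5) (nat_lit 14) (nat_lit 4) (nat_lit 368) (nat_lit 331) (nat_lit 321)) (XT.lf (nat_lit 0) (nat_lit 36493969742) (nat_lit 76) (nat_lit 2767418724) (nat_lit 76) (nat_lit 697817503) (nat_lit 13) (nat_lit 4) (nat_lit 14) (nat_lit 5) (nat_lit 14) (nat_lit 4) (nat_lit 369) (nat_lit 331) (nat_lit 320))))))))
noncomputable def xc28 : XT := (XT.nd (nat_lit 1404) (nat_lit 76) (nat_lit 0) (XT.nd (nat_lit 702) (nat_lit 152) (nat_lit 0) (XT.nd (nat_lit 312) (nat_lit 304) (nat_lit 0) (XT.nd (nat_lit 156) (nat_lit 152) (nat_lit 0) (XT.nd (nat_lit 78) (nat_lit 76) (nat_lit 0) (XT.lf (nat_lit 0) (nat_lit 17155120269) (nat_lit 152) (nat_lit 12166268697) (nat_lit 0) (nat_lit 15170387724) (nat_lit 11) (nat_lit 5) (nat_lit 13) (nat_lit 4) (nat_lit 11) (nat_lit 4) (nat_lit 370) (nat_lit 331) (nat_lit 319)) (XT.lf (nat_lit 0) (nat_lit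 23667260161) (nat_lit 76) (nat_lit 14037482675) (nat_lit 76) (nat_lit 11993241332) (nat_lit 10) (nat_lit 4) (nat_lit 11) (nat_lit 5) (nat_lit 11) (nat_lit 4) (nat_lit 371) (nat_lit 331) (nat_lit 318))) (XT.nd (nat_lit 78) (nat_lit 0) (nat_lit 0) (XT.lf (nat_lit 0) (nat_lit 5386374039) (nat_lit 152) (nat_lit 46840842895) (nat_lit 0) (nat_lit 3445644294) (nat_lit 8) (nat_lit 5) (nat_lit 10) (nat_lit 4) (nat_lit 8) (nat_lit 4) (nat_lit 372) (nat_lit 331) (nat_lit 317)) (XT.lf (nat_lit 0) (nat_lit 25241028282) (nat_lit 152) (nat_lit 13973131987) (nat_lit 0) (nat_lit 23258634461) (nat_lit 8) (nat_lit 5) (nat_lit 10) (nat_lit 4) (nat_lit 8) (nat_lit 4) (nat_lit 373) (nat_lit 331) (nat_lit 316)))) (XT.nd (nat_lit 156) (nat_lit 228) (nat_lit 0) (XT.nd (nat_lit 78) (nat_lit 0) (nat_lit 0) (XT.lf (nat_lit 0) (nat_lit 23934493055) (nat_lit 76) (nat_lit 24186540107) (nat_lit 76) (nat_lit 22167916656)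 (nat_lit 7) (nat_lit 4) (nat_lit 8) (nat_lit 5) (nat_lit 8) (nat_lit 4) (nat_lit 374) (nat_lit 331) (nat_lit 315)) (XT.lf (nat_lit 0) (nat_lit 67378944577) (nat_lit 76) (nat_lit 6977423979) (nat_lit 76) (nat_lit 4927296501) (nat_lit 7) (nat_lit 4) (nat_lit 8) (nat_lit 5) (nat_lit 8) (nat_lit 4) (nat_lit 375) (nat_lit 331) (nat_lit 314))) (XT.nd (nat_lit 78) (nat_lit 76) (nat_lit 0) (XT.lf (nat_lit 0) (nat_lit 14716638389) (nat_lit 152) (nat_lit 62044274605) (nat_lit 0) (nat_lit 12793006645) (nat_lit 5) (nat_lit 5) (nat_lit 7) (nat_lit 4) (nat_lit 5) (nat_lit 4) (nat_lit 376) (nat_lit 331) (nat_lit 313)) (XT.nd (nat_lit 78) (nat_lit 76) (nat_lit 0) (XT.lf (nat_lit 0) (nat_lit 37167578846) (nat_lit 152) (nat_lit 28952833921) (nat_lit 0) (nat_lit 35221890092) (nat_lit 5) (nat_lit 5) (nat_lit 7) (nat_lit 4) (nat_lit 5) (nat_lit 4) (nat_lit 377) (nat_lit 331) (nat_lit 312)) (XT.lf (nat_lit 0)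 (nat_lit 8817615263) (nat_lit 76) (nat_lit 54028693587) (nat_lit 76) (nat_lit 52063824825) (nat_lit 4) (nat_lit 4) (nat_lit 5) (nat_lit 5) (nat_lit 5) (nat_lit 4) (nat_lit 378) (nat_lit 331) (nat_lit 311)))))) (XT.nd (nat_lit 312) (nat_lit 0) (nat_lit 0) (XT.nd (nat_lit 156) (nat_lit 152) (nat_lit 0) (XT.nd (nat_lit 78) (nat_lit 0) (nat_lit 0) (XT.lf (nat_lit 0) (nat_lit 53342562454) (nat_lit 76) (nat_lit 39555225141) (nat_lit 76) (nat_lit 37573678111) (nat_lit 4) (nat_lit 4) (nat_lit 5) (nat_lit 5) (nat_lit 5) (nat_lit 4) (nat_lit 379) (nat_lit 331) (nat_lit 310)) (XT.lf (nat_lit 0) (nat_lit 103968542995) (nat_lit 76) (nat_lit 23208452662) (nat_lit 76) (nat_lit 21212402790) (nat_lit 4) (nat_lit 4) (nat_lit 5) (nat_lit 5) (nat_lit 5) (nat_lit 4) (nat_lit 380) (nat_lit 331) (nat_lit 309))) (XT.nd (nat_lit 78) (nat_lit 152) (nat_lit 0) (XT.lf (nat_lit 0) (nat_lit 161686065203) (nat_lit 76)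 (nat_lit 4668547991) (nat_lit 76) (nat_lit 2659886953) (nat_lit 4) (nat_lit 4) (nat_lit 5) (nat_lit 5) (nat_lit 5) (nat_lit 4) (nat_lit 381) (nat_lit 331) (nat_lit 308)) (XT.lf (nat_lit 0) (nat_lit 18824962518) (nat_lit 152) (nat_lit 156830842202) (nat_lit 0) (nat_lit 16954937268) (nat_lit 2) (nat_lit 5) (nat_lit 4) (nat_lit 4) (nat_lit 2) (nat_lit 4) (nat_lit 382) (nat_lit 331) (nat_lit 307)))) (XT.nd (nat_lit 156) (nat_lit 0) (nat_lit 0) (XT.nd (nat_lit 78) (nat_lit 0) (nat_lit 0) (XT.lf (nat_lit 0) (nat_lit 43523705037) (nat_lit 152) (nat_lit 134560445807) (nat_lit 0) (nat_lit 41644850292) (nat_lit 2) (nat_lit 5) (nat_lit 4) (nat_lit 4) (nat_lit 2) (nat_lit 4) (nat_lit 383) (nat_lit 331) (nat_lit 306)) (XT.lf (nat_lit 0) (nat_lit 71750007535) (nat_lit 152) (nat_lit 109315697561) (nat_lit 0) (nat_lit 69863474969) (nat_lit 2) (nat_lit 5) (nat_lit 4) (nat_lit 4) (nat_lit 2) (nat_lit 4) (nat_lit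 384) (nat_lit 331) (nat_lit 305))) (XT.nd (nat_lit 78) (nat_lit 0) (nat_lit 0) (XT.lf (nat_lit 0) (nat_lit 104056123758) (nat_lit 152) (nat_lit 80602678475) (nat_lit 0) (nat_lit 102162914825) (nat_lit 2) (nat_lit 5) (nat_lit 4) (nat_lit 4) (nat_lit 2) (nat_lit 4) (nat_lit 385) (nat_lit 331) (nat_lit 304)) (XT.nd (nat_lit 78) (nat_lit 0) (nat_lit 0) (XT.lf (nat_lit 0) (nat_lit 141074129891) (nat_lit 152) (nat_lit 47859612090) (nat_lit 0) (nat_lit 139175115423) (nat_lit 2) (nat_lit 5) (nat_lit 4) (nat_lit 4) (nat_lit 2) (nat_lit 4) (nat_lit 386) (nat_lit 331) (nat_lit 303)) (XT.lf (nat_lit 0) (nat_lit 183528291274) (nat_lit 152) (nat_lit 10445873194) (nat_lit 0) (nat_lit 181624228514) (nat_lit 2) (nat_lit 5) (nat_lit 4) (nat_lit 4) (nat_lit 2) (nat_lit 4) (nat_lit 387) (nat_lit 331) (nat_lit 302))))))) (XT.nd (nat_lit 702) (nat_lit 0) (nat_lit 0) (XT.nd (nat_lit 312) (nat_lit 0) (nat_lit 0)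 (XT.nd (nat_lit 156) (nat_lit 0) (nat_lit 0) (XT.nd (nat_lit 78) (nat_lit 0) (nat_lit 0) (XT.lf (nat_lit 0) (nat_lit 34075121742) (nat_lit 76) (nat_lit 198993618556) (nat_lit 76) (nat_lit 197085165976) (nat_lit 1) (nat_lit 4) (nat_lit 2) (nat_lit 5) (nat_lit 2) (nat_lit 4) (nat_lit 388) (nat_lit 331) (nat_lit 301)) (XT.lf (nat_lit 0) (nat_lit 85715178885) (nat_lit 76) (nat_lit 204536463515) (nat_lit 76) (nat_lit 202624193701) (nat_lit 1) (nat_lit 4) (nat_lit 2) (nat_lit 5) (nat_lit 2) (nat_lit 4) (nat_lit 389) (nat_lit 331) (nat_lit 300))) (XT.nd (nat_lit 78) (nat_lit 0) (nat_lit 0) (XT.lf (nat_lit 0) (nat_lit 144934586007) (nat_lit 76) (nat_lit 210996754996) (nat_lit 76) (nat_lit 209081165848) (nat_lit 1) (nat_lit 4) (nat_lit 2) (nat_lit 5) (nat_lit 2) (nat_lit 4) (nat_lit 390) (nat_lit 331) (nat_lit 299)) (XT.lf (nat_lit 0) (nat_lit 212891983682) (nat_lit 76) (nat_lit 218500890006) (nat_lit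 76) (nat_lit 216582414482) (nat_lit 1) (nat_lit 4) (nat_lit 2) (nat_lit 5) (nat_lit 2) (nat_lit 4) (nat_lit 391) (nat_lit 331) (nat_lit 298)))) (XT.nd (nat_lit 156) (nat_lit 0) (nat_lit 0) (XT.nd (nat_lit 78) (nat_lit 0) (nat_lit 0) (XT.lf (nat_lit 0) (nat_lit 290916973169) (nat_lit 76) (nat_lit 227195688579) (nat_lit 76) (nat_lit 225274703161) (nat_lit 1) (nat_lit 4) (nat_lit 2) (nat_lit 5) (nat_lit 2) (nat_lit 4) (nat_lit 392) (nat_lit 331) (nat_lit 297)) (XT.lf (nat_lit 0) (nat_lit 380536130349) (nat_lit 76) (nat_lit 237251266339) (nat_lit 76) (nat_lit 235328098405) (nat_lit 1) (nat_lit 4) (nat_lit 2) (nat_lit 5) (nat_lit 2) (nat_lit 4) (nat_lit 393) (nat_lit 331) (nat_lit 296))) (XT.nd (nat_lit 78) (nat_lit 0) (nat_lit 0) (XT.lf (nat_lit 0) (nat_lit 483502873516) (nat_lit 76) (nat_lit 248864362850) (nat_lit 76) (nat_lit 246939297076) (nat_lit 1) (nat_lit 4) (nat_lit 2) (nat_lit 5) (nat_lit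 2) (nat_lit 4) (nat_lit 394) (nat_lit 331) (nat_lit 295)) (XT.nd (nat_lit 78) (nat_lit 0) (nat_lit 0) (XT.lf (nat_lit 0) (nat_lit 601831769382) (nat_lit 76) (nat_lit 262262190870) (nat_lit 76) (nat_lit 260335474801) (nat_lit 1) (nat_lit 4) (nat_lit 2) (nat_lit 5) (nat_lit 2) (nat_lit 4) (nat_lit 395) (nat_lit 331) (nat_lit 294)) (XT.lf (nat_lit 0) (nat_lit 737837948520) (nat_lit 76) (nat_lit 277706881818) (nat_lit 76) (nat_lit 275778730708) (nat_lit 1) (nat_lit 4) (nat_lit 2) (nat_lit 5) (nat_lit 2) (nat_lit 4) (nat_lit 396) (nat_lit 331) (nat_lit 293)))))) (XT.nd (nat_lit 390) (nat_lit 0) (nat_lit 0) (XT.nd (nat_lit 156) (nat_lit 0) (nat_lit 0) (XT.nd (nat_lit 78) (nat_lit 0) (nat_lit 0) (XT.lf (nat_lit 0) (nat_lit 894182401390) (nat_lit 76) (nat_lit 295500614428) (nat_lit 76) (nat_lit 293571215458) (nat_lit 1) (nat_lit 4) (nat_lit 2) (nat_lit 5) (nat_lit 2) (nat_lit 4) (nat_lit 397) (nat_lit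 331) (nat_lit 292)) (XT.lf (nat_lit 0) (nat_lit 1073924041201) (nat_lit 76) (nat_lit 315991526948) (nat_lit 76) (nat_lit 314061042882) (nat_lit 1) (nat_lit 4) (nat_lit 2) (nat_lit 5) (nat_lit 2) (nat_lit 4) (nat_lit 398) (nat_lit 331) (nat_lit 291))) (XT.nd (nat_lit 78) (nat_lit 0) (nat_lit 0) (XT.lf (nat_lit 0) (nat_lit 1280579552211) (nat_lit 76) (nat_lit 339580528536) (nat_lit 76) (nat_lit 337649100908) (nat_lit 1) (nat_lit 4) (nat_lit 2) (nat_lit 5) (nat_lit 2) (nat_lit 4) (nat_lit 399) (nat_lit 331) (nat_lit 290)) (XT.nd (nat_lit 78) (nat_lit 0) (nat_lit 0) (XT.lf (nat_lit 0) (nat_lit 1518192194417) (nat_lit 76) (nat_lit 366729143136) (nat_lit 76) (nat_lit 364796895019) (nat_lit 1) (nat_lit 4) (nat_lit 2) (nat_lit 5) (nat_lit 2) (nat_lit 4) (nat_lit 400) (nat_lit 331) (nat_lit 289)) (XT.lf (nat_lit 0) (nat_lit 1791410910819) (nat_lit 76) (nat_lit 397968539294) (nat_lit 76) (nat_lit 396035577709)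 (nat_lit 1) (nat_lit 4) (nat_lit 2) (nat_lit 5) (nat_lit 2) (nat_lit 4) (nat_lit 401) (nat_lit 331) (nat_lit 288))))) (XT.nd (nat_lit 156) (nat_lit 0) (nat_lit 0) (XT.nd (nat_lit 78) (nat_lit 0) (nat_lit 0) (XT.lf (nat_lit 0) (nat_lit 2105581284999) (nat_lit 76) (nat_lit 433909922587) (nat_lit 76) (nat_lit 431976340595) (nat_lit 1) (nat_lit 4) (nat_lit 2) (nat_lit 5) (nat_lit 2) (nat_lit 4) (nat_lit 402) (nat_lit 331) (nat_lit 287)) (XT.lf (nat_lit 0) (nat_lit 2466850128625) (nat_lit 76) (nat_lit 475256493994) (nat_lit 76) (nat_lit 473322372517) (nat_lit 1) (nat_lit 4) (nat_lit 2) (nat_lit 5) (nat_lit 2) (nat_lit 4) (nat_lit 403) (nat_lit 331) (nat_lit 286))) (XT.nd (nat_lit 78) (nat_lit 0) (nat_lit 0) (XT.lf (nat_lit 0) (nat_lit 2882285745160) (nat_lit 76) (nat_lit 522817208171) (nat_lit 76) (nat_lit 520882617577) (nat_lit 1) (nat_lit 4) (nat_lit 2) (nat_lit 5) (nat_lit 2) (nat_lit 4) (nat_lit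 404) (nat_lit 331) (nat_lit 285)) (XT.nd (nat_lit 78) (nat_lit 0) (nat_lit 0) (XT.lf (nat_lit 0) (nat_lit 3360016222753) (nat_lit 76) (nat_lit 577522600831) (nat_lit 76) (nat_lit 575587602309) (nat_lit 1) (nat_lit 4) (nat_lit 2) (nat_lit 5) (nat_lit 2) (nat_lit 4) (nat_lit 405) (nat_lit 331) (nat_lit 284)) (XT.lf (nat_lit 0) (nat_lit 3909388462053) (nat_lit 76) (nat_lit 640442994874) (nat_lit 76) (nat_lit 638507641632) (nat_lit 1) (nat_lit 4) (nat_lit 2) (nat_lit 5) (nat_lit 2) (nat_lit 4) (nat_lit 406) (nat_lit 331) (nat_lit 283))))))))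
noncomputable def xc29 : XT := (XT.nd (nat_lit 49374) (nat_lit 0) (nat_lit 304) (XT.nd (nat_lit 702) (nat_lit 0) (nat_lit 0) (XT.nd (nat_lit 312) (nat_lit 0) (nat_lit 0) (XT.nd (nat_lit 156) (nat_lit 0) (nat_lit 0) (XT.nd (nat_lit 78) (nat_lit 0) (nat_lit 0) (XT.lf (nat_lit 0) (nat_lit 4541151050350) (nat_lit 76) (nat_lit 712809441487) (nat_lit 76) (nat_lit 710873779794) (nat_lit 1) (nat_lit 4) (nat_lit 2) (nat_lit 5) (nat_lit 2) (nat_lit 4) (nat_lit 407) (nat_lit 331) (nat_lit 282)) (XT.lf (nat_lit 0) (nat_lit 5267664560025) (nat_lit 76) (nat_lit 796037805931) (nat_lit 76) (nat_lit 794101876018) (nat_lit 1) (nat_lit 4) (nat_lit 2) (nat_lit 5) (nat_lit 2) (nat_lit 4) (nat_lit 408) (nat_lit 331) (nat_lit 281))) (XT.nd (nat_lit 78) (nat_lit 0) (nat_lit 0) (XT.lf (nat_lit 0) (nat_lit 6103143385831) (nat_lit 76) (nat_lit 891756469249) (nat_lit 76) (nat_lit 889820306102) (nat_lit 1) (nat_lit 4)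 (nat_lit 2) (nat_lit 5) (nat_lit 2) (nat_lit 4) (nat_lit 409) (nat_lit 331) (nat_lit 280)) (XT.lf (nat_lit 0) (nat_lit 7063933852622) (nat_lit 76) (nat_lit 1001838187897) (nat_lit 76) (nat_lit 999901821938) (nat_lit 1) (nat_lit 4) (nat_lit 2) (nat_lit 5) (nat_lit 2) (nat_lit 4) (nat_lit 410) (nat_lit 331) (nat_lit 279)))) (XT.nd (nat_lit 156) (nat_lit 0) (nat_lit 0) (XT.nd (nat_lit 78) (nat_lit 0) (nat_lit 0) (XT.lf (nat_lit 0) (nat_lit 8168834034748) (nat_lit 76) (nat_lit 1128436734631) (nat_lit 76) (nat_lit 1126500192313) (nat_lit 1) (nat_lit 4) (nat_lit 2) (nat_lit 5) (nat_lit 2) (nat_lit 4) (nat_lit 411) (nat_lit 331) (nat_lit 278)) (XT.lf (nat_lit 0) (nat_lit 9439461544468) (nat_lit 76) (nat_lit 1274029037540) (nat_lit 76) (nat_lit 1272092341867) (nat_lit 1) (nat_lit 4) (nat_lit 2) (nat_lit 5) (nat_lit 2) (nat_lit 4) (nat_lit 412) (nat_lit 331) (nat_lit 277))) (XT.nd (nat_lit 78) (nat_lit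 0) (nat_lit 0) (XT.lf (nat_lit 0) (nat_lit 10900676485232) (nat_lit 76) (nat_lit 1441463641680) (nat_lit 76) (nat_lit 1439526812655) (nat_lit 1) (nat_lit 4) (nat_lit 2) (nat_lit 5) (nat_lit 2) (nat_lit 4) (nat_lit 413) (nat_lit 331) (nat_lit 276)) (XT.nd (nat_lit 78) (nat_lit 0) (nat_lit 0) (XT.lf (nat_lit 0) (nat_lit 12581067845013) (nat_lit 76) (nat_lit 1634016441480) (nat_lit 76) (nat_lit 1632079496497) (nat_lit 1) (nat_lit 4) (nat_lit 2) (nat_lit 5) (nat_lit 2) (nat_lit 4) (nat_lit 414) (nat_lit 331) (nat_lit 275)) (XT.lf (nat_lit 0) (nat_lit 14513512846066) (nat_lit 76) (nat_lit 1855454774329) (nat_lit 76) (nat_lit 1853517728512) (nat_lit 1) (nat_lit 4) (nat_lit 2) (nat_lit 5) (nat_lit 2) (nat_lit 4) (nat_lit 415) (nat_lit 331) (nat_lit 274)))))) (XT.nd (nat_lit 312) (nat_lit 0) (nat_lit 0) (XT.nd (nat_lit 156) (nat_lit 0) (nat_lit 0) (XT.nd (nat_lit 78) (nat_lit 0) (nat_lit 0) (XT.lf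 (nat_lit 0) (nat_lit 16735820194935) (nat_lit 76) (nat_lit 2110111129346) (nat_lit 76) (nat_lit 2108173995847) (nat_lit 1) (nat_lit 4) (nat_lit 2) (nat_lit 5) (nat_lit 2) (nat_lit 4) (nat_lit 416) (nat_lit 331) (nat_lit 273)) (XT.lf (nat_lit 0) (nat_lit 19291469818009) (nat_lit 76) (nat_lit 2402967913477) (nat_lit 76) (nat_lit 2401030703734) (nat_lit 1) (nat_lit 4) (nat_lit 2) (nat_lit 5) (nat_lit 2) (nat_lit 4) (nat_lit 417) (nat_lit 331) (nat_lit 272))) (XT.nd (nat_lit 78) (nat_lit 0) (nat_lit 0) (XT.lf (nat_lit 0) (nat_lit 22230463555741) (nat_lit 76) (nat_lit 2739754933369) (nat_lit 76) (nat_lit 2737817657327) (nat_lit 1) (nat_lit 4) (nat_lit 2) (nat_lit 5) (nat_lit 2) (nat_lit 4) (nat_lit 418) (nat_lit 331) (nat_lit 271)) (XT.lf (nat_lit 0) (nat_lit 25610303459521) (nat_lit 76) (nat_lit 3127061500281) (nat_lit 76) (nat_lit 3125124166587) (nat_lit 1) (nat_lit 4) (nat_lit 2) (nat_lit 5)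 (nat_lit 2) (nat_lit 4) (nat_lit 419) (nat_lit 331) (nat_lit 270)))) (XT.nd (nat_lit 48126) (nat_lit 0) (nat_lit 2356) (XT.nd (nat_lit 78) (nat_lit 0) (nat_lit 0) (XT.lf (nat_lit 0) (nat_lit 29497116831815) (nat_lit 76) (nat_lit 3572465351391) (nat_lit 76) (nat_lit 3570527967564) (nat_lit 1) (nat_lit 4) (nat_lit 2) (nat_lit 5) (nat_lit 2) (nat_lit 4) (nat_lit 420) (nat_lit 331) (nat_lit 269)) (XT.lf (nat_lit 0) (nat_lit 33966950021210) (nat_lit 76) (nat_lit 4084680909873) (nat_lit 76) (nat_lit 4082743482453) (nat_lit 1) (nat_lit 4) (nat_lit 2) (nat_lit 5) (nat_lit 2) (nat_lit 4) (nat_lit 421) (nat_lit 331) (nat_lit 268))) (XT.nd (nat_lit 78) (nat_lit 456) (nat_lit 0) (XT.lf (nat_lit 0) (nat_lit 2788268503) (nat_lit 152) (nat_lit 877646814) (nat_lit 0) (nat_lit 2788268503) (nat_lit 38) (nat_lit 5) (nat_lit 40) (nat_lit 4) (nat_lit 38) (nat_lit 4) (nat_lit 356) (nat_lit 332) (nat_lit 332))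 (XT.nd (nat_lit 78) (nat_lit 228) (nat_lit 0) (XT.lf (nat_lit 0) (nat_lit 3809089405) (nat_lit 152) (nat_lit 6911793121) (nat_lit 0) (nat_lit 3131380563) (nat_lit 35) (nat_lit 5) (nat_lit 37) (nat_lit 4) (nat_lit 35) (nat_lit 4) (nat_lit 357) (nat_lit 332) (nat_lit 331)) (XT.lf (nat_lit 0) (nat_lit 1197895167) (nat_lit 152) (nat_lit 13697777726) (nat_lit 0) (nat_lit 24727686) (nat_lit 32) (nat_lit 5) (nat_lit 34) (nat_lit 4) (nat_lit 32) (nat_lit 4) (nat_lit 358) (nat_lit 332) (nat_lit 330))))))) (XT.nd (nat_lit 702) (nat_lit 836) (nat_lit 0) (XT.nd (nat_lit 312) (nat_lit 684) (nat_lit 0) (XT.nd (nat_lit 156) (nat_lit 228) (nat_lit 0) (XT.nd (nat_lit 78) (nat_lit 228) (nat_lit 0) (XT.lf (nat_lit 0) (nat_lit 9825682747) (nat_lit 76) (nat_lit 3964563456) (nat_lit 76) (nat_lit 2316909634) (nat_lit 31) (nat_lit 4) (nat_lit 32) (nat_lit 5) (nat_lit 32) (nat_lit 4) (nat_lit 359) (nat_lit 332) (nat_lit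 329)) (XT.lf (nat_lit 0) (nat_lit 1251388495) (nat_lit 76) (nat_lit 9051956159) (nat_lit 76) (nat_lit 7144316676) (nat_lit 28) (nat_lit 4) (nat_lit 29) (nat_lit 5) (nat_lit 29) (nat_lit 4) (nat_lit 360) (nat_lit 332) (nat_lit 328))) (XT.nd (nat_lit 78) (nat_lit 76) (nat_lit 0) (XT.lf (nat_lit 0) (nat_lit 5640720372) (nat_lit 152) (nat_lit 9747544064) (nat_lit 0) (nat_lit 3566791630) (nat_lit 26) (nat_lit 5) (nat_lit 28) (nat_lit 4) (nat_lit 26) (nat_lit 4) (nat_lit 361) (nat_lit 332) (nat_lit 327)) (XT.lf (nat_lit 0) (nat_lit 17162043550) (nat_lit 76) (nat_lit 2920085586) (nat_lit 76) (nat_lit 578682160) (nat_lit 25) (nat_lit 4) (nat_lit 26) (nat_lit 5) (nat_lit 26) (nat_lit 4) (nat_lit 362) (nat_lit 332) (nat_lit 326)))) (XT.nd (nat_lit 156) (nat_lit 304) (nat_lit 0) (XT.nd (nat_lit 78) (nat_lit 152) (nat_lit 0) (XT.lf (nat_lit 0) (nat_lit 2377821995) (nat_lit 76) (nat_lit 11288342427) (nat_lit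 76) (nat_lit 8905018253) (nat_lit 22) (nat_lit 4) (nat_lit 23) (nat_lit 5) (nat_lit 23) (nat_lit 4) (nat_lit 363) (nat_lit 332) (nat_lit 325)) (XT.lf (nat_lit 0) (nat_lit 5225049601) (nat_lit 152) (nat_lit 16667634483) (nat_lit 0) (nat_lit 2844871791) (nat_lit 20) (nat_lit 5) (nat_lit 22) (nat_lit 4) (nat_lit 20) (nat_lit 4) (nat_lit 364) (nat_lit 332) (nat_lit 324))) (XT.nd (nat_lit 78) (nat_lit 228) (nat_lit 0) (XT.lf (nat_lit 0) (nat_lit 12897317689) (nat_lit 76) (nat_lit 8407710987) (nat_lit 76) (nat_lit 5876753902) (nat_lit 19) (nat_lit 4) (nat_lit 20) (nat_lit 5) (nat_lit 20) (nat_lit 4) (nat_lit 365) (nat_lit 332) (nat_lit 323)) (XT.nd (nat_lit 78) (nat_lit 76) (nat_lit 0) (XT.lf (nat_lit 0) (nat_lit 9569246402) (nat_lit 152) (nat_lit 13279751524) (nat_lit 0) (nat_lit 7104367237) (nat_lit 17) (nat_lit 5) (nat_lit 19) (nat_lit 4) (nat_lit 17) (nat_lit 4) (nat_lit 366) (nat_lit 332)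 (nat_lit 322)) (XT.lf (nat_lit 0) (nat_lit 18997829838) (nat_lit 76) (nat_lit 8336541990) (nat_lit 76) (nat_lit 5766097274) (nat_lit 16) (nat_lit 4) (nat_lit 17) (nat_lit 5) (nat_lit 17) (nat_lit 4) (nat_lit 367) (nat_lit 332) (nat_lit 321)))))) (XT.nd (nat_lit 390) (nat_lit 380) (nat_lit 0) (XT.nd (nat_lit 156) (nat_lit 228) (nat_lit 0) (XT.nd (nat_lit 78) (nat_lit 76) (nat_lit 0) (XT.lf (nat_lit 0) (nat_lit 10840670166) (nat_lit 152) (nat_lit 17454211882) (nat_lit 0) (nat_lit 8375632345) (nat_lit 14) (nat_lit 5) (nat_lit 16) (nat_lit 4) (nat_lit 14) (nat_lit 4) (nat_lit 368) (nat_lit 332) (nat_lit 320)) (XT.lf (nat_lit 0) (nat_lit 16682465364) (nat_lit 76) (nat_lit 13295067615) (nat_lit 76) (nat_lit 10756119867) (nat_lit 13) (nat_lit 4) (nat_lit 14) (nat_lit 5) (nat_lit 14) (nat_lit 4) (nat_lit 369) (nat_lit 332) (nat_lit 319))) (XT.nd (nat_lit 78) (nat_lit 76) (nat_lit 0) (XT.lf (nat_lit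 0) (nat_lit 6490988286) (nat_lit 152) (nat_lit 34802707336) (nat_lit 0) (nat_lit 4080601942) (nat_lit 11) (nat_lit 5) (nat_lit 13) (nat_lit 4) (nat_lit 11) (nat_lit 4) (nat_lit 370) (nat_lit 332) (nat_lit 318)) (XT.nd (nat_lit 78) (nat_lit 76) (nat_lit 0) (XT.lf (nat_lit 0) (nat_lit 26192198418) (nat_lit 152) (nat_lit 726116825) (nat_lit 0) (nat_lit 23730065293) (nat_lit 11) (nat_lit 5) (nat_lit 13) (nat_lit 4) (nat_lit 11) (nat_lit 4) (nat_lit 371) (nat_lit 332) (nat_lit 317)) (XT.lf (nat_lit 0) (nat_lit 39359617379) (nat_lit 76) (nat_lit 9913563168) (nat_lit 76) (nat_lit 7406432841) (nat_lit 10) (nat_lit 4) (nat_lit 11) (nat_lit 5) (nat_lit 11) (nat_lit 4) (nat_lit 372) (nat_lit 332) (nat_lit 316))))) (XT.nd (nat_lit 156) (nat_lit 228) (nat_lit 0) (XT.nd (nat_lit 78) (nat_lit 0) (nat_lit 0) (XT.lf (nat_lit 0) (nat_lit 11884628484) (nat_lit 152) (nat_lit 42156915675) (nat_lit 0) (nat_lit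 9526981885) (nat_lit 8) (nat_lit 5) (nat_lit 10) (nat_lit 4) (nat_lit 8) (nat_lit 4) (nat_lit 373) (nat_lit 332) (nat_lit 315)) (XT.lf (nat_lit 0) (nat_lit 33975268037) (nat_lit 152) (nat_lit 5886446433) (nat_lit 0) (nat_lit 31586117410) (nat_lit 8) (nat_lit 5) (nat_lit 10) (nat_lit 4) (nat_lit 8) (nat_lit 4) (nat_lit 374) (nat_lit 332) (nat_lit 314))) (XT.nd (nat_lit 78) (nat_lit 152) (nat_lit 0) (XT.lf (nat_lit 0) (nat_lit 36845411307) (nat_lit 76) (nat_lit 23020624008) (nat_lit 76) (nat_lit 20604078576) (nat_lit 7) (nat_lit 4) (nat_lit 8) (nat_lit 5) (nat_lit 8) (nat_lit 4) (nat_lit 375) (nat_lit 332) (nat_lit 313)) (XT.nd (nat_lit 78) (nat_lit 152) (nat_lit 0) (XT.lf (nat_lit 0) (nat_lit 85590781301) (nat_lit 76) (nat_lit 3855431389) (nat_lit 76) (nat_lit 1415064387) (nat_lit 7) (nat_lit 4) (nat_lit 8) (nat_lit 5) (nat_lit 8) (nat_lit 4) (nat_lit 376) (nat_lit 332) (nat_lit 312)) (XT.lf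 (nat_lit 0) (nat_lit 20713362537) (nat_lit 152) (nat_lit 63535901884) (nat_lit 0) (nat_lit 18434583452) (nat_lit 5) (nat_lit 5) (nat_lit 7) (nat_lit 4) (nat_lit 5) (nat_lit 4) (nat_lit 377) (nat_lit 332) (nat_lit 311))))))))
noncomputable def xc30 : XT := (XT.nd (nat_lit 1404) (nat_lit 0) (nat_lit 0) (XT.nd (nat_lit 702) (nat_lit 76) (nat_lit 0) (XT.nd (nat_lit 312) (nat_lit 152) (nat_lit 0) (XT.nd (nat_lit 156) (nat_lit 0) (nat_lit 0) (XT.nd (nat_lit 78) (nat_lit 76) (nat_lit 0) (XT.lf (nat_lit 0) (nat_lit 46037696881) (nat_lit 152) (nat_lit 26500094738) (nat_lit 0) (nat_lit 43742239528) (nat_lit 5) (nat_lit 5) (nat_lit 7) (nat_lit 4) (nat_lit 5) (nat_lit 4) (nat_lit 378) (nat_lit 332) (nat_lit 310)) (XT.lf (nat_lit 0) (nat_lit 16360702691) (nat_lit 76) (nat_lit 58927355393) (nat_lit 76) (nat_lit 56617395198) (nat_lit 4) (nat_lit 4) (nat_lit 5) (nat_lit 5) (nat_lit 5) (nat_lit 4) (nat_lit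 379) (nat_lit 332) (nat_lit 309))) (XT.nd (nat_lit 78) (nat_lit 0) (nat_lit 0) (XT.lf (nat_lit 0) (nat_lit 66753029551) (nat_lit 76) (nat_lit 42700993928) (nat_lit 76) (nat_lit 40378422567) (nat_lit 4) (nat_lit 4) (nat_lit 5) (nat_lit 5) (nat_lit 5) (nat_lit 4) (nat_lit 380) (nat_lit 332) (nat_lit 308)) (XT.lf (nat_lit 0) (nat_lit 124267374644) (nat_lit 76) (nat_lit 24265794487) (nat_lit 76) (nat_lit 21932256894) (nat_lit 4) (nat_lit 4) (nat_lit 5) (nat_lit 5) (nat_lit 5) (nat_lit 4) (nat_lit 381) (nat_lit 332) (nat_lit 307)))) (XT.nd (nat_lit 156) (nat_lit 0) (nat_lit 0) (XT.nd (nat_lit 78) (nat_lit 152) (nat_lit 0) (XT.lf (nat_lit 0) (nat_lit 190029018634) (nat_lit 76) (nat_lit 3261068387) (nat_lit 76) (nat_lit 917994940) (nat_lit 4) (nat_lit 4) (nat_lit 5) (nat_lit 5) (nat_lit 5) (nat_lit 4) (nat_lit 382) (nat_lit 332) (nat_lit 306)) (XT.lf (nat_lit 0) (nat_lit 23557251019) (nat_lit 152)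 (nat_lit 176412349408) (nat_lit 0) (nat_lit 21380060747) (nat_lit 2) (nat_lit 5) (nat_lit 4) (nat_lit 4) (nat_lit 2) (nat_lit 4) (nat_lit 383) (nat_lit 332) (nat_lit 305))) (XT.nd (nat_lit 78) (nat_lit 0) (nat_lit 0) (XT.lf (nat_lit 0) (nat_lit 51711864378) (nat_lit 152) (nat_lit 151315713440) (nat_lit 0) (nat_lit 49527997739) (nat_lit 2) (nat_lit 5) (nat_lit 4) (nat_lit 4) (nat_lit 2) (nat_lit 4) (nat_lit 384) (nat_lit 332) (nat_lit 304)) (XT.nd (nat_lit 78) (nat_lit 0) (nat_lit 0) (XT.lf (nat_lit 0) (nat_lit 83955642218) (nat_lit 152) (nat_lit 122731487639) (nat_lit 0) (nat_lit 81765970043) (nat_lit 2) (nat_lit 5) (nat_lit 4) (nat_lit 4) (nat_lit 2) (nat_lit 4) (nat_lit 385) (nat_lit 332) (nat_lit 303)) (XT.lf (nat_lit 0) (nat_lit 120919441062) (nat_lit 152) (nat_lit 90100415416) (nat_lit 0) (nat_lit 118724720596) (nat_lit 2) (nat_lit 5) (nat_lit 4) (nat_lit 4) (nat_lit 2) (nat_lit 4) (nat_lit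 386) (nat_lit 332) (nat_lit 302)))))) (XT.nd (nat_lit 312) (nat_lit 0) (nat_lit 0) (XT.nd (nat_lit 156) (nat_lit 76) (nat_lit 0) (XT.nd (nat_lit 78) (nat_lit 0) (nat_lit 0) (XT.lf (nat_lit 0) (nat_lit 163326465672) (nat_lit 152) (nat_lit 52784062746) (nat_lit 0) (nat_lit 161127355386) (nat_lit 2) (nat_lit 5) (nat_lit 4) (nat_lit 4) (nat_lit 2) (nat_lit 4) (nat_lit 387) (nat_lit 332) (nat_lit 301)) (XT.lf (nat_lit 0) (nat_lit 212006418701) (nat_lit 152) (nat_lit 10052327080) (nat_lit 0) (nat_lit 209803491182) (nat_lit 2) (nat_lit 5) (nat_lit 4) (nat_lit 4) (nat_lit 2) (nat_lit 4) (nat_lit 388) (nat_lit 332) (nat_lit 300))) (XT.nd (nat_lit 78) (nat_lit 0) (nat_lit 0) (XT.lf (nat_lit 0) (nat_lit 40980876708) (nat_lit 76) (nat_lit 227916448376) (nat_lit 76) (nat_lit 225710201522) (nat_lit 1) (nat_lit 4) (nat_lit 2) (nat_lit 5) (nat_lit 2) (nat_lit 4) (nat_lit 389) (nat_lit 332) (nat_lit 299))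 (XT.lf (nat_lit 0) (nat_lit 100132878939) (nat_lit 76) (nat_lit 234411530465) (nat_lit 76) (nat_lit 232202397234) (nat_lit 1) (nat_lit 4) (nat_lit 2) (nat_lit 5) (nat_lit 2) (nat_lit 4) (nat_lit 390) (nat_lit 332) (nat_lit 298)))) (XT.nd (nat_lit 156) (nat_lit 0) (nat_lit 0) (XT.nd (nat_lit 78) (nat_lit 0) (nat_lit 0) (XT.lf (nat_lit 0) (nat_lit 168031663666) (nat_lit 76) (nat_lit 241945918178) (nat_lit 76) (nat_lit 239734275054) (nat_lit 1) (nat_lit 4) (nat_lit 2) (nat_lit 5) (nat_lit 2) (nat_lit 4) (nat_lit 391) (nat_lit 332) (nat_lit 297)) (XT.lf (nat_lit 0) (nat_lit 246005685371) (nat_lit 76) (nat_lit 250667023449) (nat_lit 76) (nat_lit 248453197809) (nat_lit 1) (nat_lit 4) (nat_lit 2) (nat_lit 5) (nat_lit 2) (nat_lit 4) (nat_lit 392) (nat_lit 332) (nat_lit 296))) (XT.nd (nat_lit 78) (nat_lit 0) (nat_lit 0) (XT.lf (nat_lit 0) (nat_lit 335580522742) (nat_lit 76) (nat_lit 260745476598)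 (nat_lit 76) (nat_lit 258529753118) (nat_lit 1) (nat_lit 4) (nat_lit 2) (nat_lit 5) (nat_lit 2) (nat_lit 4) (nat_lit 393) (nat_lit 332) (nat_lit 295)) (XT.nd (nat_lit 78) (nat_lit 0) (nat_lit 0) (XT.lf (nat_lit 0) (nat_lit 438508726943) (nat_lit 76) (nat_lit 272378464753) (nat_lit 76) (nat_lit 270161090977) (nat_lit 1) (nat_lit 4) (nat_lit 2) (nat_lit 5) (nat_lit 2) (nat_lit 4) (nat_lit 394) (nat_lit 332) (nat_lit 294)) (XT.lf (nat_lit 0) (nat_lit 556804110666) (nat_lit 76) (nat_lit 285793589854) (nat_lit 76) (nat_lit 283574781038) (nat_lit 1) (nat_lit 4) (nat_lit 2) (nat_lit 5) (nat_lit 2) (nat_lit 4) (nat_lit 395) (nat_lit 332) (nat_lit 293))))))) (XT.nd (nat_lit 702) (nat_lit 0) (nat_lit 0) (XT.nd (nat_lit 312) (nat_lit 0) (nat_lit 0) (XT.nd (nat_lit 156) (nat_lit 0) (nat_lit 0) (XT.nd (nat_lit 78) (nat_lit 0) (nat_lit 0) (XT.lf (nat_lit 0) (nat_lit 692781148809) (nat_lit 76) (nat_lit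 301253321741) (nat_lit 76) (nat_lit 299033265065) (nat_lit 1) (nat_lit 4) (nat_lit 2) (nat_lit 5) (nat_lit 2) (nat_lit 4) (nat_lit 396) (nat_lit 332) (nat_lit 292)) (XT.lf (nat_lit 0) (nat_lit 849100261684) (nat_lit 76) (nat_lit 319060133430) (nat_lit 76) (nat_lit 316838991658) (nat_lit 1) (nat_lit 4) (nat_lit 2) (nat_lit 5) (nat_lit 2) (nat_lit 4) (nat_lit 397) (nat_lit 332) (nat_lit 291))) (XT.nd (nat_lit 78) (nat_lit 0) (nat_lit 0) (XT.lf (nat_lit 0) (nat_lit 1028819866717) (nat_lit 76) (nat_lit 339562419062) (nat_lit 76) (nat_lit 337340333727) (nat_lit 1) (nat_lit 4) (nat_lit 2) (nat_lit 5) (nat_lit 2) (nat_lit 4) (nat_lit 398) (nat_lit 332) (nat_lit 290)) (XT.lf (nat_lit 0) (nat_lit 1235456217050) (nat_lit 76) (nat_lit 363161310312) (nat_lit 76) (nat_lit 360938404489) (nat_lit 1) (nat_lit 4) (nat_lit 2) (nat_lit 5) (nat_lit 2) (nat_lit 4) (nat_lit 399) (nat_lit 332) (nat_lit 289))))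 (XT.nd (nat_lit 156) (nat_lit 0) (nat_lit 0) (XT.nd (nat_lit 78) (nat_lit 0) (nat_lit 0) (XT.lf (nat_lit 0) (nat_lit 1473052197798) (nat_lit 76) (nat_lit 390318524617) (nat_lit 76) (nat_lit 388094905326) (nat_lit 1) (nat_lit 4) (nat_lit 2) (nat_lit 5) (nat_lit 2) (nat_lit 4) (nat_lit 400) (nat_lit 332) (nat_lit 288)) (XT.lf (nat_lit 0) (nat_lit 1746256425976) (nat_lit 76) (nat_lit 421565398781) (nat_lit 76) (nat_lit 419341159083) (nat_lit 1) (nat_lit 4) (nat_lit 2) (nat_lit 5) (nat_lit 2) (nat_lit 4) (nat_lit 401) (nat_lit 332) (nat_lit 287))) (XT.nd (nat_lit 78) (nat_lit 0) (nat_lit 0) (XT.lf (nat_lit 0) (nat_lit 2060414201699) (nat_lit 76) (nat_lit 457513284688) (nat_lit 76) (nat_lit 455288505505) (nat_lit 1) (nat_lit 4) (nat_lit 2) (nat_lit 5) (nat_lit 2) (nat_lit 4) (nat_lit 402) (nat_lit 332) (nat_lit 286)) (XT.nd (nat_lit 78) (nat_lit 0) (nat_lit 0) (XT.lf (nat_lit 0) (nat_lit 2421672090146)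 (nat_lit 76) (nat_lit 498865510541) (nat_lit 76) (nat_lit 496640262241) (nat_lit 1) (nat_lit 4) (nat_lit 2) (nat_lit 5) (nat_lit 2) (nat_lit 4) (nat_lit 403) (nat_lit 332) (nat_lit 285)) (XT.lf (nat_lit 0) (nat_lit 2837098180438) (nat_lit 76) (nat_lit 546431141628) (nat_lit 76) (nat_lit 544205485400) (nat_lit 1) (nat_lit 4) (nat_lit 2) (nat_lit 5) (nat_lit 2) (nat_lit 4) (nat_lit 404) (nat_lit 332) (nat_lit 284)))))) (XT.nd (nat_lit 390) (nat_lit 0) (nat_lit 0) (XT.nd (nat_lit 156) (nat_lit 0) (nat_lit 0) (XT.nd (nat_lit 78) (nat_lit 0) (nat_lit 0) (XT.lf (nat_lit 0) (nat_lit 3314820374342) (nat_lit 76) (nat_lit 601140809861) (nat_lit 76) (nat_lit 598914798914) (nat_lit 1) (nat_lit 4) (nat_lit 2) (nat_lit 5) (nat_lit 2) (nat_lit 4) (nat_lit 405) (nat_lit 332) (nat_lit 283)) (XT.lf (nat_lit 0) (nat_lit 3864185410434) (nat_lit 76) (nat_lit 664064921795) (nat_lit 76) (nat_lit 661838602395) (nat_lit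 1) (nat_lit 4) (nat_lit 2) (nat_lit 5) (nat_lit 2) (nat_lit 4) (nat_lit 406) (nat_lit 332) (nat_lit 282))) (XT.nd (nat_lit 78) (nat_lit 0) (nat_lit 0) (XT.lf (nat_lit 0) (nat_lit 4495941735072) (nat_lit 76) (nat_lit 736434601356) (nat_lit 76) (nat_lit 734208013737) (nat_lit 1) (nat_lit 4) (nat_lit 2) (nat_lit 5) (nat_lit 2) (nat_lit 4) (nat_lit 407) (nat_lit 332) (nat_lit 281)) (XT.nd (nat_lit 78) (nat_lit 0) (nat_lit 0) (XT.lf (nat_lit 0) (nat_lit 5222449798087) (nat_lit 76) (nat_lit 819665777059) (nat_lit 76) (nat_lit 817438956206) (nat_lit 1) (nat_lit 4) (nat_lit 2) (nat_lit 5) (nat_lit 2) (nat_lit 4) (nat_lit 408) (nat_lit 332) (nat_lit 280)) (XT.lf (nat_lit 0) (nat_lit 6057923887667) (nat_lit 76) (nat_lit 915386884950) (nat_lit 76) (nat_lit 913159861285) (nat_lit 1) (nat_lit 4) (nat_lit 2) (nat_lit 5) (nat_lit 2) (nat_lit 4) (nat_lit 409) (nat_lit 332) (nat_lit 279))))) (XT.nd (nat_lit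 156) (nat_lit 0) (nat_lit 0) (XT.nd (nat_lit 78) (nat_lit 0) (nat_lit 0) (XT.lf (nat_lit 0) (nat_lit 7018710236000) (nat_lit 76) (nat_lit 1025470729314) (nat_lit 76) (nat_lit 1023243529290) (nat_lit 1) (nat_lit 4) (nat_lit 2) (nat_lit 5) (nat_lit 2) (nat_lit 4) (nat_lit 410) (nat_lit 332) (nat_lit 278)) (XT.lf (nat_lit 0) (nat_lit 8123606836859) (nat_lit 76) (nat_lit 1152071124497) (nat_lit 76) (nat_lit 1149843771118) (nat_lit 1) (nat_lit 4) (nat_lit 2) (nat_lit 5) (nat_lit 2) (nat_lit 4) (nat_lit 411) (nat_lit 332) (nat_lit 277))) (XT.nd (nat_lit 78) (nat_lit 0) (nat_lit 0) (XT.lf (nat_lit 0) (nat_lit 9394231232432) (nat_lit 76) (nat_lit 1297665034752) (nat_lit 76) (nat_lit 1295437548021) (nat_lit 1) (nat_lit 4) (nat_lit 2) (nat_lit 5) (nat_lit 2) (nat_lit 4) (nat_lit 412) (nat_lit 332) (nat_lit 276)) (XT.nd (nat_lit 78) (nat_lit 0) (nat_lit 0) (XT.lf (nat_lit 0) (nat_lit 10855443465244)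 (nat_lit 76) (nat_lit 1465101036585) (nat_lit 76) (nat_lit 1462873433895) (nat_lit 1) (nat_lit 4) (nat_lit 2) (nat_lit 5) (nat_lit 2) (nat_lit 4) (nat_lit 413) (nat_lit 332) (nat_lit 275)) (XT.lf (nat_lit 0) (nat_lit 12535832470283) (nat_lit 76) (nat_lit 1657655051771) (nat_lit 76) (nat_lit 1655427348247) (nat_lit 1) (nat_lit 4) (nat_lit 2) (nat_lit 5) (nat_lit 2) (nat_lit 4) (nat_lit 414) (nat_lit 332) (nat_lit 274))))))))
noncomputable def xc31 : XT := (XT.nd (nat_lit 49218) (nat_lit 0) (nat_lit 152) (XT.nd (nat_lit 48516) (nat_lit 0) (nat_lit 1596) (XT.nd (nat_lit 312) (nat_lit 0) (nat_lit 0) (XT.nd (nat_lit 156) (nat_lit 0) (nat_lit 0) (XT.nd (nat_lit 78) (nat_lit 0) (nat_lit 0) (XT.lf (nat_lit 0) (nat_lit 14468275423735) (nat_lit 76) (nat_lit 1879094441475) (nat_lit 76) (nat_lit 1876866650271) (nat_lit 1) (nat_lit 4) (nat_lit 2) (nat_lit 5) (nat_lit 2) (nat_lit 4) (nat_lit 415) (nat_lit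 332) (nat_lit 273)) (XT.lf (nat_lit 0) (nat_lit 16690580992081) (nat_lit 76) (nat_lit 2133751715498) (nat_lit 76) (nat_lit 2131523848049) (nat_lit 1) (nat_lit 4) (nat_lit 2) (nat_lit 5) (nat_lit 2) (nat_lit 4) (nat_lit 416) (nat_lit 332) (nat_lit 272))) (XT.nd (nat_lit 78) (nat_lit 0) (nat_lit 0) (XT.lf (nat_lit 0) (nat_lit 19246229066875) (nat_lit 76) (nat_lit 2426609298765) (nat_lit 76) (nat_lit 2424381365016) (nat_lit 1) (nat_lit 4) (nat_lit 2) (nat_lit 5) (nat_lit 2) (nat_lit 4) (nat_lit 417) (nat_lit 332) (nat_lit 271)) (XT.lf (nat_lit 0) (nat_lit 22185221458276) (nat_lit 76) (nat_lit 2763397013557) (nat_lit 76) (nat_lit 2761169022156) (nat_lit 1) (nat_lit 4) (nat_lit 2) (nat_lit 5) (nat_lit 2) (nat_lit 4) (nat_lit 418) (nat_lit 332) (nat_lit 270)))) (XT.nd (nat_lit 156) (nat_lit 0) (nat_lit 0) (XT.nd (nat_lit 78) (nat_lit 0) (nat_lit 0) (XT.lf (nat_lit 0) (nat_lit 25565060191333) (nat_lit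 76) (nat_lit 3150704184730) (nat_lit 76) (nat_lit 3148476143197) (nat_lit 1) (nat_lit 4) (nat_lit 2) (nat_lit 5) (nat_lit 2) (nat_lit 4) (nat_lit 419) (nat_lit 332) (nat_lit 269)) (XT.lf (nat_lit 0) (nat_lit 29451872545607) (nat_lit 76) (nat_lit 3596108561284) (nat_lit 76) (nat_lit 3593880476158) (nat_lit 1) (nat_lit 4) (nat_lit 2) (nat_lit 5) (nat_lit 2) (nat_lit 4) (nat_lit 420) (nat_lit 332) (nat_lit 268))) (XT.nd (nat_lit 47892) (nat_lit 0) (nat_lit 2964) (XT.lf (nat_lit 0) (nat_lit 33921704849767) (nat_lit 76) (nat_lit 4108324576674) (nat_lit 76) (nat_lit 4106096453641) (nat_lit 1) (nat_lit 4) (nat_lit 2) (nat_lit 5) (nat_lit 2) (nat_lit 4) (nat_lit 421) (nat_lit 332) (nat_lit 267)) (XT.nd (nat_lit 78) (nat_lit 228) (nat_lit 0) (XT.lf (nat_lit 0) (nat_lit 3110555747) (nat_lit 152) (nat_lit 1266176500) (nat_lit 152) (nat_lit 1266176500) (nat_lit 43) (nat_lit 4) (nat_lit 45) (nat_lit 5)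 (nat_lit 45) (nat_lit 4) (nat_lit 354) (nat_lit 333) (nat_lit 333)) (XT.lf (nat_lit 0) (nat_lit 2258734640) (nat_lit 76) (nat_lit 5359610955) (nat_lit 76) (nat_lit 4450559423) (nat_lit 40) (nat_lit 4) (nat_lit 41) (nat_lit 5) (nat_lit 41) (nat_lit 4) (nat_lit 355) (nat_lit 333) (nat_lit 332)))))) (XT.nd (nat_lit 312) (nat_lit 684) (nat_lit 0) (XT.nd (nat_lit 156) (nat_lit 304) (nat_lit 0) (XT.nd (nat_lit 78) (nat_lit 228) (nat_lit 0) (XT.lf (nat_lit 0) (nat_lit 5892802085) (nat_lit 152) (nat_lit 2738474689) (nat_lit 0) (nat_lit 4319162153) (nat_lit 38) (nat_lit 5) (nat_lit 40) (nat_lit 4) (nat_lit 38) (nat_lit 4) (nat_lit 356) (nat_lit 333) (nat_lit 331)) (XT.lf (nat_lit 0) (nat_lit 3458583867) (nat_lit 152) (nat_lit 9071932243) (nat_lit 0) (nat_lit 1412197819) (nat_lit 35) (nat_lit 5) (nat_lit 37) (nat_lit 4) (nat_lit 35) (nat_lit 4) (nat_lit 357) (nat_lit 333) (nat_lit 330))) (XT.nd (nat_lit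 78) (nat_lit 152) (nat_lit 0) (XT.lf (nat_lit 0) (nat_lit 201282696) (nat_lit 152) (nat_lit 2140163288) (nat_lit 76) (nat_lit 12716493910) (nat_lit 33) (nat_lit 5) (nat_lit 35) (nat_lit 5) (nat_lit 34) (nat_lit 4) (nat_lit 358) (nat_lit 333) (nat_lit 329)) (XT.lf (nat_lit 0) (nat_lit 5140275819) (nat_lit 76) (nat_lit 6970477379) (nat_lit 76) (nat_lit 4188592322) (nat_lit 31) (nat_lit 4) (nat_lit 32) (nat_lit 5) (nat_lit 32) (nat_lit 4) (nat_lit 359) (nat_lit 333) (nat_lit 328)))) (XT.nd (nat_lit 156) (nat_lit 304) (nat_lit 0) (XT.nd (nat_lit 78) (nat_lit 228) (nat_lit 0) (XT.lf (nat_lit 0) (nat_lit 7835564026) (nat_lit 152) (nat_lit 4935541345) (nat_lit 0) (nat_lit 4927540971) (nat_lit 29) (nat_lit 5) (nat_lit 31) (nat_lit 4) (nat_lit 29) (nat_lit 4) (nat_lit 360) (nat_lit 333) (nat_lit 327)) (XT.lf (nat_lit 0) (nat_lit 1417089237) (nat_lit 76) (nat_lit 801172758) (nat_lit 152) (nat_lit 17060198622)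 (nat_lit 26) (nat_lit 5) (nat_lit 27) (nat_lit 5) (nat_lit 28) (nat_lit 4) (nat_lit 361) (nat_lit 333) (nat_lit 326))) (XT.nd (nat_lit 78) (nat_lit 228) (nat_lit 0) (XT.lf (nat_lit 0) (nat_lit 7794812958) (nat_lit 76) (nat_lit 8216960602) (nat_lit 76) (nat_lit 5024285295) (nat_lit 25) (nat_lit 4) (nat_lit 26) (nat_lit 5) (nat_lit 26) (nat_lit 4) (nat_lit 362) (nat_lit 333) (nat_lit 325)) (XT.nd (nat_lit 78) (nat_lit 76) (nat_lit 0) (XT.lf (nat_lit 0) (nat_lit 8598579729) (nat_lit 152) (nat_lit 8968831359) (nat_lit 0) (nat_lit 5455131029) (nat_lit 23) (nat_lit 5) (nat_lit 25) (nat_lit 4) (nat_lit 23) (nat_lit 4) (nat_lit 363) (nat_lit 333) (nat_lit 324)) (XT.lf (nat_lit 0) (nat_lit 20067012124) (nat_lit 76) (nat_lit 4253789608) (nat_lit 76) (nat_lit 947499291) (nat_lit 22) (nat_lit 4) (nat_lit 23) (nat_lit 5) (nat_lit 23) (nat_lit 4) (nat_lit 364) (nat_lit 333) (nat_lit 323))))))) (XT.nd (nat_lit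 702) (nat_lit 532) (nat_lit 0) (XT.nd (nat_lit 312) (nat_lit 380) (nat_lit 0) (XT.nd (nat_lit 156) (nat_lit 228) (nat_lit 0) (XT.nd (nat_lit 78) (nat_lit 152) (nat_lit 0) (XT.lf (nat_lit 0) (nat_lit 14275214350) (nat_lit 152) (nat_lit 2428793738) (nat_lit 0) (nat_lit 11082722013) (nat_lit 20) (nat_lit 5) (nat_lit 22) (nat_lit 4) (nat_lit 20) (nat_lit 4) (nat_lit 365) (nat_lit 333) (nat_lit 322)) (XT.lf (nat_lit 0) (nat_lit 1332884794) (nat_lit 152) (nat_lit 534102757) (nat_lit 76) (nat_lit 28784701248) (nat_lit 18) (nat_lit 5) (nat_lit 20) (nat_lit 5) (nat_lit 19) (nat_lit 4) (nat_lit 366) (nat_lit 333) (nat_lit 321))) (XT.nd (nat_lit 78) (nat_lit 152) (nat_lit 0) (XT.lf (nat_lit 0) (nat_lit 18268561469) (nat_lit 152) (nat_lit 481403235) (nat_lit 0) (nat_lit 15115188366) (nat_lit 17) (nat_lit 5) (nat_lit 19) (nat_lit 4) (nat_lit 17) (nat_lit 4) (nat_lit 367) (nat_lit 333) (nat_lit 320)) (XT.lf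 (nat_lit 0) (nat_lit 515361657) (nat_lit 152) (nat_lit 2161243577) (nat_lit 76) (nat_lit 34856436612) (nat_lit 15) (nat_lit 5) (nat_lit 17) (nat_lit 5) (nat_lit 16) (nat_lit 4) (nat_lit 368) (nat_lit 333) (nat_lit 319)))) (XT.nd (nat_lit 156) (nat_lit 228) (nat_lit 0) (XT.nd (nat_lit 78) (nat_lit 76) (nat_lit 0) (XT.lf (nat_lit 0) (nat_lit 18854571251) (nat_lit 152) (nat_lit 7008822499) (nat_lit 0) (nat_lit 15796601910) (nat_lit 14) (nat_lit 5) (nat_lit 16) (nat_lit 4) (nat_lit 14) (nat_lit 4) (nat_lit 369) (nat_lit 333) (nat_lit 318)) (XT.lf (nat_lit 0) (nat_lit 31142594333) (nat_lit 76) (nat_lit 9173762172) (nat_lit 76) (nat_lit 6059906306) (nat_lit 13) (nat_lit 4) (nat_lit 14) (nat_lit 5) (nat_lit 14) (nat_lit 4) (nat_lit 370) (nat_lit 333) (nat_lit 317))) (XT.nd (nat_lit 78) (nat_lit 76) (nat_lit 0) (XT.lf (nat_lit 0) (nat_lit 13085340971) (nat_lit 152) (nat_lit 28488250674) (nat_lit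 0) (nat_lit 10157143895) (nat_lit 11) (nat_lit 5) (nat_lit 13) (nat_lit 4) (nat_lit 11) (nat_lit 4) (nat_lit 371) (nat_lit 333) (nat_lit 316)) (XT.nd (nat_lit 78) (nat_lit 0) (nat_lit 0) (XT.lf (nat_lit 0) (nat_lit 9679488302) (nat_lit 76) (nat_lit 25561900885) (nat_lit 76) (nat_lit 22594575807) (nat_lit 10) (nat_lit 4) (nat_lit 11) (nat_lit 5) (nat_lit 11) (nat_lit 4) (nat_lit 372) (nat_lit 333) (nat_lit 315)) (XT.lf (nat_lit 0) (nat_lit 54444859187) (nat_lit 76) (nat_lit 6690168978) (nat_lit 76) (nat_lit 3688819552) (nat_lit 10) (nat_lit 4) (nat_lit 11) (nat_lit 5) (nat_lit 11) (nat_lit 4) (nat_lit 373) (nat_lit 333) (nat_lit 314)))))) (XT.nd (nat_lit 390) (nat_lit 152) (nat_lit 0) (XT.nd (nat_lit 156) (nat_lit 152) (nat_lit 0) (XT.nd (nat_lit 78) (nat_lit 76) (nat_lit 0) (XT.lf (nat_lit 0) (nat_lit 17970005812) (nat_lit 152) (nat_lit 39625970111) (nat_lit 0) (nat_lit 15163583759) (nat_lit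 8) (nat_lit 5) (nat_lit 10) (nat_lit 4) (nat_lit 8) (nat_lit 4) (nat_lit 374) (nat_lit 333) (nat_lit 313)) (XT.lf (nat_lit 0) (nat_lit 979116326) (nat_lit 76) (nat_lit 41857453212) (nat_lit 76) (nat_lit 39027209589) (nat_lit 7) (nat_lit 4) (nat_lit 8) (nat_lit 5) (nat_lit 8) (nat_lit 4) (nat_lit 375) (nat_lit 333) (nat_lit 312))) (XT.nd (nat_lit 78) (nat_lit 152) (nat_lit 0) (XT.lf (nat_lit 0) (nat_lit 49420044775) (nat_lit 76) (nat_lit 22848842664) (nat_lit 76) (nat_lit 19997884632) (nat_lit 7) (nat_lit 4) (nat_lit 8) (nat_lit 5) (nat_lit 8) (nat_lit 4) (nat_lit 376) (nat_lit 333) (nat_lit 311)) (XT.nd (nat_lit 78) (nat_lit 0) (nat_lit 0) (XT.lf (nat_lit 0) (nat_lit 281516969) (nat_lit 76) (nat_lit 1233140497) (nat_lit 152) (nat_lit 102734077410) (nat_lit 5) (nat_lit 5) (nat_lit 6) (nat_lit 5) (nat_lit 7) (nat_lit 4) (nat_lit 377) (nat_lit 333) (nat_lit 310)) (XT.lf (nat_lit 0) (nat_lit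 26685567968) (nat_lit 152) (nat_lit 67157013888) (nat_lit 0) (nat_lit 24014610902) (nat_lit 5) (nat_lit 5) (nat_lit 7) (nat_lit 4) (nat_lit 5) (nat_lit 4) (nat_lit 378) (nat_lit 333) (nat_lit 309))))) (XT.nd (nat_lit 156) (nat_lit 76) (nat_lit 0) (XT.nd (nat_lit 78) (nat_lit 76) (nat_lit 0) (XT.lf (nat_lit 0) (nat_lit 55434830587) (nat_lit 152) (nat_lit 25336610445) (nat_lit 0) (nat_lit 52751262355) (nat_lit 5) (nat_lit 5) (nat_lit 7) (nat_lit 4) (nat_lit 5) (nat_lit 4) (nat_lit 379) (nat_lit 333) (nat_lit 308)) (XT.lf (nat_lit 0) (nat_lit 23518358293) (nat_lit 76) (nat_lit 65342532628) (nat_lit 76) (nat_lit 62647998164) (nat_lit 4) (nat_lit 4) (nat_lit 5) (nat_lit 5) (nat_lit 5) (nat_lit 4) (nat_lit 380) (nat_lit 333) (nat_lit 307))) (XT.nd (nat_lit 78) (nat_lit 76) (nat_lit 0) (XT.lf (nat_lit 0) (nat_lit 80856027634) (nat_lit 76) (nat_lit 46998381214) (nat_lit 76) (nat_lit 44294310896)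 (nat_lit 4) (nat_lit 4) (nat_lit 5) (nat_lit 5) (nat_lit 5) (nat_lit 4) (nat_lit 381) (nat_lit 333) (nat_lit 306)) (XT.nd (nat_lit 78) (nat_lit 76) (nat_lit 0) (XT.lf (nat_lit 0) (nat_lit 146464040537) (nat_lit 76) (nat_lit 26072827310) (nat_lit 76) (nat_lit 23360464945) (nat_lit 4) (nat_lit 4) (nat_lit 5) (nat_lit 5) (nat_lit 5) (nat_lit 4) (nat_lit 382) (nat_lit 333) (nat_lit 305)) (XT.lf (nat_lit 0) (nat_lit 534945644) (nat_lit 152) (nat_lit 1606885899) (nat_lit 76) (nat_lit 221076460029) (nat_lit 3) (nat_lit 5) (nat_lit 5) (nat_lit 5) (nat_lit 4) (nat_lit 4) (nat_lit 383) (nat_lit 333) (nat_lit 304))))))))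
noncomputable def xc32 : XT := (XT.nd (nat_lit 1404) (nat_lit 0) (nat_lit 0) (XT.nd (nat_lit 702) (nat_lit 0) (nat_lit 0) (XT.nd (nat_lit 312) (nat_lit 76) (nat_lit 0) (XT.nd (nat_lit 156) (nat_lit 0) (nat_lit 0) (XT.nd (nat_lit 78) (nat_lit 0) (nat_lit 0) (XT.lf (nat_lit 0) (nat_lit 28533972224) (nat_lit 152) (nat_lit 199892637264) (nat_lit 0) (nat_lit 26010043688) (nat_lit 2) (nat_lit 5) (nat_lit 4) (nat_lit 4) (nat_lit 2) (nat_lit 4) (nat_lit 384) (nat_lit 333) (nat_lit 303)) (XT.lf (nat_lit 0) (nat_lit 60723542775) (nat_lit 152) (nat_lit 171420405625) (nat_lit 0) (nat_lit 58194565947) (nat_lit 2) (nat_lit 5) (nat_lit 4) (nat_lit 4) (nat_lit 2) (nat_lit 4) (nat_lit 385) (nat_lit 333) (nat_lit 302))) (XT.nd (nat_lit 78) (nat_lit 0) (nat_lit 0) (XT.lf (nat_lit 0) (nat_lit 97640204847) (nat_lit 152) (nat_lit 138886719628) (nat_lit 0) (nat_lit 95106838199) (nat_lit 2) (nat_lit 5) (nat_lit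 4) (nat_lit 4) (nat_lit 2) (nat_lit 4) (nat_lit 386) (nat_lit 333) (nat_lit 301)) (XT.lf (nat_lit 0) (nat_lit 140006240958) (nat_lit 152) (nat_lit 101655050635) (nat_lit 0) (nat_lit 137469057076) (nat_lit 2) (nat_lit 5) (nat_lit 4) (nat_lit 4) (nat_lit 2) (nat_lit 4) (nat_lit 387) (nat_lit 333) (nat_lit 300)))) (XT.nd (nat_lit 156) (nat_lit 76) (nat_lit 0) (XT.nd (nat_lit 78) (nat_lit 0) (nat_lit 0) (XT.lf (nat_lit 0) (nat_lit 188650551815) (nat_lit 152) (nat_lit 58996952947) (nat_lit 0) (nat_lit 186110048599) (nat_lit 2) (nat_lit 5) (nat_lit 4) (nat_lit 4) (nat_lit 2) (nat_lit 4) (nat_lit 388) (nat_lit 333) (nat_lit 299)) (XT.lf (nat_lit 0) (nat_lit 244524873934) (nat_lit 152) (nat_lit 10077811610) (nat_lit 0) (nat_lit 241981484341) (nat_lit 2) (nat_lit 5) (nat_lit 4) (nat_lit 4) (nat_lit 2) (nat_lit 4) (nat_lit 389) (nat_lit 333) (nat_lit 298))) (XT.nd (nat_lit 78) (nat_lit 0) (nat_lit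 0) (XT.lf (nat_lit 0) (nat_lit 48484897972) (nat_lit 76) (nat_lit 261403565565) (nat_lit 76) (nat_lit 258857666079) (nat_lit 1) (nat_lit 4) (nat_lit 2) (nat_lit 5) (nat_lit 2) (nat_lit 4) (nat_lit 390) (nat_lit 333) (nat_lit 297)) (XT.nd (nat_lit 78) (nat_lit 0) (nat_lit 0) (XT.lf (nat_lit 0) (nat_lit 116332714917) (nat_lit 76) (nat_lit 268964259977) (nat_lit 76) (nat_lit 266416177975) (nat_lit 1) (nat_lit 4) (nat_lit 2) (nat_lit 5) (nat_lit 2) (nat_lit 4) (nat_lit 391) (nat_lit 333) (nat_lit 296)) (XT.lf (nat_lit 0) (nat_lit 194262416813) (nat_lit 76) (nat_lit 277708240637) (nat_lit 76) (nat_lit 275158260795) (nat_lit 1) (nat_lit 4) (nat_lit 2) (nat_lit 5) (nat_lit 2) (nat_lit 4) (nat_lit 392) (nat_lit 333) (nat_lit 295)))))) (XT.nd (nat_lit 312) (nat_lit 0) (nat_lit 0) (XT.nd (nat_lit 156) (nat_lit 0) (nat_lit 0) (XT.nd (nat_lit 78) (nat_lit 0) (nat_lit 0) (XT.lf (nat_lit 0) (nat_lit 283798715218)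 (nat_lit 76) (nat_lit 287806585429) (nat_lit 76) (nat_lit 285254955292) (nat_lit 1) (nat_lit 4) (nat_lit 2) (nat_lit 5) (nat_lit 2) (nat_lit 4) (nat_lit 393) (nat_lit 333) (nat_lit 294)) (XT.lf (nat_lit 0) (nat_lit 386693407276) (nat_lit 76) (nat_lit 299456870665) (nat_lit 76) (nat_lit 296903805487) (nat_lit 1) (nat_lit 4) (nat_lit 2) (nat_lit 5) (nat_lit 2) (nat_lit 4) (nat_lit 394) (nat_lit 333) (nat_lit 293))) (XT.nd (nat_lit 78) (nat_lit 0) (nat_lit 0) (XT.lf (nat_lit 0) (nat_lit 504959650004) (nat_lit 76) (nat_lit 312887036706) (nat_lit 76) (nat_lit 310332723668) (nat_lit 1) (nat_lit 4) (nat_lit 2) (nat_lit 5) (nat_lit 2) (nat_lit 4) (nat_lit 395) (nat_lit 333) (nat_lit 292)) (XT.lf (nat_lit 0) (nat_lit 640911348152) (nat_lit 76) (nat_lit 328359847671) (nat_lit 76) (nat_lit 325804449537) (nat_lit 1) (nat_lit 4) (nat_lit 2) (nat_lit 5) (nat_lit 2) (nat_lit 4) (nat_lit 396) (nat_lit 333)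 (nat_lit 291)))) (XT.nd (nat_lit 156) (nat_lit 0) (nat_lit 0) (XT.nd (nat_lit 78) (nat_lit 0) (nat_lit 0) (XT.lf (nat_lit 0) (nat_lit 797208426249) (nat_lit 76) (nat_lit 346178032471) (nat_lit 76) (nat_lit 343621690775) (nat_lit 1) (nat_lit 4) (nat_lit 2) (nat_lit 5) (nat_lit 2) (nat_lit 4) (nat_lit 397) (nat_lit 333) (nat_lit 290)) (XT.lf (nat_lit 0) (nat_lit 976908870606) (nat_lit 76) (nat_lit 366690207765) (nat_lit 76) (nat_lit 364133045581) (nat_lit 1) (nat_lit 4) (nat_lit 2) (nat_lit 5) (nat_lit 2) (nat_lit 4) (nat_lit 398) (nat_lit 333) (nat_lit 289))) (XT.nd (nat_lit 78) (nat_lit 0) (nat_lit 0) (XT.lf (nat_lit 0) (nat_lit 1183528559480) (nat_lit 76) (nat_lit 390297698722) (nat_lit 76) (nat_lit 387739823068) (nat_lit 1) (nat_lit 4) (nat_lit 2) (nat_lit 5) (nat_lit 2) (nat_lit 4) (nat_lit 399) (nat_lit 333) (nat_lit 288)) (XT.nd (nat_lit 78) (nat_lit 0) (nat_lit 0) (XT.lf (nat_lit 0)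 (nat_lit 1421110052004) (nat_lit 76) (nat_lit 417462391033) (nat_lit 76) (nat_lit 414903894973) (nat_lit 1) (nat_lit 4) (nat_lit 2) (nat_lit 5) (nat_lit 2) (nat_lit 4) (nat_lit 400) (nat_lit 333) (nat_lit 287)) (XT.lf (nat_lit 0) (nat_lit 1694301681725) (nat_lit 76) (nat_lit 448715767810) (nat_lit 76) (nat_lit 446156732265) (nat_lit 1) (nat_lit 4) (nat_lit 2) (nat_lit 5) (nat_lit 2) (nat_lit 4) (nat_lit 401) (nat_lit 333) (nat_lit 286))))))) (XT.nd (nat_lit 702) (nat_lit 0) (nat_lit 0) (XT.nd (nat_lit 312) (nat_lit 0) (nat_lit 0) (XT.nd (nat_lit 156) (nat_lit 0) (nat_lit 0) (XT.nd (nat_lit 78) (nat_lit 0) (nat_lit 0) (XT.lf (nat_lit 0) (nat_lit 2008448502270) (nat_lit 76) (nat_lit 484669308163) (nat_lit 76) (nat_lit 482109803501) (nat_lit 1) (nat_lit 4) (nat_lit 2) (nat_lit 5) (nat_lit 2) (nat_lit 4) (nat_lit 402) (nat_lit 333) (nat_lit 285)) (XT.lf (nat_lit 0) (nat_lit 2369696864474) (nat_lit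 76) (nat_lit 526026450926) (nat_lit 76) (nat_lit 523466538336) (nat_lit 1) (nat_lit 4) (nat_lit 2) (nat_lit 5) (nat_lit 2) (nat_lit 4) (nat_lit 403) (nat_lit 333) (nat_lit 284))) (XT.nd (nat_lit 78) (nat_lit 0) (nat_lit 0) (XT.lf (nat_lit 0) (nat_lit 2785114671077) (nat_lit 76) (nat_lit 573596357587) (nat_lit 76) (nat_lit 571036090277) (nat_lit 1) (nat_lit 4) (nat_lit 2) (nat_lit 5) (nat_lit 2) (nat_lit 4) (nat_lit 404) (nat_lit 333) (nat_lit 283)) (XT.lf (nat_lit 0) (nat_lit 3262829661772) (nat_lit 76) (nat_lit 628309743711) (nat_lit 76) (nat_lit 625749167949) (nat_lit 1) (nat_lit 4) (nat_lit 2) (nat_lit 5) (nat_lit 2) (nat_lit 4) (nat_lit 405) (nat_lit 333) (nat_lit 282)))) (XT.nd (nat_lit 156) (nat_lit 0) (nat_lit 0) (XT.nd (nat_lit 78) (nat_lit 0) (nat_lit 0) (XT.lf (nat_lit 0) (nat_lit 3812188434205) (nat_lit 76) (nat_lit 691237088592) (nat_lit 76) (nat_lit 688676244611) (nat_lit 1)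 (nat_lit 4) (nat_lit 2) (nat_lit 5) (nat_lit 2) (nat_lit 4) (nat_lit 406) (nat_lit 333) (nat_lit 281)) (XT.lf (nat_lit 0) (nat_lit 4443939312183) (nat_lit 76) (nat_lit 763609579413) (nat_lit 76) (nat_lit 761048502198) (nat_lit 1) (nat_lit 4) (nat_lit 2) (nat_lit 5) (nat_lit 2) (nat_lit 4) (nat_lit 407) (nat_lit 333) (nat_lit 280))) (XT.nd (nat_lit 78) (nat_lit 0) (nat_lit 0) (XT.lf (nat_lit 0) (nat_lit 5170442638971) (nat_lit 76) (nat_lit 846843199689) (nat_lit 76) (nat_lit 844281919662) (nat_lit 1) (nat_lit 4) (nat_lit 2) (nat_lit 5) (nat_lit 2) (nat_lit 4) (nat_lit 408) (nat_lit 333) (nat_lit 279)) (XT.nd (nat_lit 78) (nat_lit 0) (nat_lit 0) (XT.lf (nat_lit 0) (nat_lit 6005912610094) (nat_lit 76) (nat_lit 942566433296) (nat_lit 76) (nat_lit 940004976911) (nat_lit 1) (nat_lit 4) (nat_lit 2) (nat_lit 5) (nat_lit 2) (nat_lit 4) (nat_lit 409) (nat_lit 333) (nat_lit 278)) (XT.lf (nat_lit 0)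 (nat_lit 6966695377160) (nat_lit 76) (nat_lit 1052652126108) (nat_lit 76) (nat_lit 1050090516368) (nat_lit 1) (nat_lit 4) (nat_lit 2) (nat_lit 5) (nat_lit 2) (nat_lit 4) (nat_lit 410) (nat_lit 333) (nat_lit 277)))))) (XT.nd (nat_lit 312) (nat_lit 0) (nat_lit 0) (XT.nd (nat_lit 156) (nat_lit 0) (nat_lit 0) (XT.nd (nat_lit 78) (nat_lit 0) (nat_lit 0) (XT.lf (nat_lit 0) (nat_lit 8071588863872) (nat_lit 76) (nat_lit 1179254128638) (nat_lit 76) (nat_lit 1176692385545) (nat_lit 1) (nat_lit 4) (nat_lit 2) (nat_lit 5) (nat_lit 2) (nat_lit 4) (nat_lit 411) (nat_lit 333) (nat_lit 276)) (XT.lf (nat_lit 0) (nat_lit 9342210551493) (nat_lit 76) (nat_lit 1324849436586) (nat_lit 76) (nat_lit 1322287577534) (nat_lit 1) (nat_lit 4) (nat_lit 2) (nat_lit 5) (nat_lit 2) (nat_lit 4) (nat_lit 412) (nat_lit 333) (nat_lit 275))) (XT.nd (nat_lit 78) (nat_lit 0) (nat_lit 0) (XT.lf (nat_lit 0) (nat_lit 10803420429563)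 (nat_lit 76) (nat_lit 1492286653804) (nat_lit 76) (nat_lit 1489724693919) (nat_lit 1) (nat_lit 4) (nat_lit 2) (nat_lit 5) (nat_lit 2) (nat_lit 4) (nat_lit 413) (nat_lit 333) (nat_lit 274)) (XT.lf (nat_lit 0) (nat_lit 12483807387001) (nat_lit 76) (nat_lit 1684841725846) (nat_lit 76) (nat_lit 1682279678279) (nat_lit 1) (nat_lit 4) (nat_lit 2) (nat_lit 5) (nat_lit 2) (nat_lit 4) (nat_lit 414) (nat_lit 333) (nat_lit 273)))) (XT.nd (nat_lit 156) (nat_lit 0) (nat_lit 0) (XT.nd (nat_lit 78) (nat_lit 0) (nat_lit 0) (XT.lf (nat_lit 0) (nat_lit 14416248559930) (nat_lit 76) (nat_lit 1906282034556) (nat_lit 76) (nat_lit 1903719910745) (nat_lit 1) (nat_lit 4) (nat_lit 2) (nat_lit 5) (nat_lit 2) (nat_lit 4) (nat_lit 415) (nat_lit 333) (nat_lit 272)) (XT.lf (nat_lit 0) (nat_lit 16638552579995) (nat_lit 76) (nat_lit 2160940107714) (nat_lit 76) (nat_lit 2158377917603) (nat_lit 1) (nat_lit 4) (nat_lit 2) (nat_lit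 5) (nat_lit 2) (nat_lit 4) (nat_lit 416) (nat_lit 333) (nat_lit 271))) (XT.nd (nat_lit 78) (nat_lit 0) (nat_lit 0) (XT.lf (nat_lit 0) (nat_lit 19194199308458) (nat_lit 76) (nat_lit 2453798385881) (nat_lit 76) (nat_lit 2451236138118) (nat_lit 1) (nat_lit 4) (nat_lit 2) (nat_lit 5) (nat_lit 2) (nat_lit 4) (nat_lit 417) (nat_lit 333) (nat_lit 270)) (XT.nd (nat_lit 78) (nat_lit 0) (nat_lit 0) (XT.lf (nat_lit 0) (nat_lit 22133190529136) (nat_lit 76) (nat_lit 2790586704935) (nat_lit 76) (nat_lit 2788024407040) (nat_lit 1) (nat_lit 4) (nat_lit 2) (nat_lit 5) (nat_lit 2) (nat_lit 4) (nat_lit 418) (nat_lit 333) (nat_lit 269)) (XT.lf (nat_lit 0) (nat_lit 25513028244174) (nat_lit 76) (nat_lit 3177894401552) (nat_lit 76) (nat_lit 3175332060064) (nat_lit 1) (nat_lit 4) (nat_lit 2) (nat_lit 5) (nat_lit 2) (nat_lit 4) (nat_lit 419) (nat_lit 333) (nat_lit 268))))))))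
noncomputable def xc33 : XT := (XT.nd (nat_lit 49062) (nat_lit 0) (nat_lit 76) (XT.nd (nat_lit 48360) (nat_lit 0) (nat_lit 1216) (XT.nd (nat_lit 47970) (nat_lit 0) (nat_lit 2508) (XT.nd (nat_lit 47814) (nat_lit 0) (nat_lit 3496) (XT.nd (nat_lit 78) (nat_lit 0) (nat_lit 0) (XT.lf (nat_lit 0) (nat_lit 29399839713213) (nat_lit 76) (nat_lit 3623299235014) (nat_lit 76) (nat_lit 3620736855619) (nat_lit 1) (nat_lit 4) (nat_lit 2) (nat_lit 5) (nat_lit 2) (nat_lit 4) (nat_lit 420) (nat_lit 333) (nat_lit 267)) (XT.lf (nat_lit 0) (nat_lit 33869671247604) (nat_lit 76) (nat_lit 4135515647716) (nat_lit 76) (nat_lit 4132953235358) (nat_lit 1) (nat_lit 4) (nat_lit 2) (nat_lit 5) (nat_lit 2) (nat_lit 4) (nat_lit 421) (nat_lit 333) (nat_lit 266))) (XT.nd (nat_lit 78) (nat_lit 152) (nat_lit 0) (XT.lf (nat_lit 0) (nat_lit 629563929) (nat_lit 152) (nat_lit 3713738860) (nat_lit 0) (nat_lit 629563929) (nat_lit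 49) (nat_lit 5) (nat_lit 51) (nat_lit 4) (nat_lit 49) (nat_lit 4) (nat_lit 352) (nat_lit 334) (nat_lit 334)) (XT.lf (nat_lit 0) (nat_lit 9291449252) (nat_lit 152) (nat_lit 1261805939) (nat_lit 152) (nat_lit 42440575) (nat_lit 47) (nat_lit 4) (nat_lit 49) (nat_lit 5) (nat_lit 49) (nat_lit 4) (nat_lit 353) (nat_lit 334) (nat_lit 333)))) (XT.nd (nat_lit 156) (nat_lit 456) (nat_lit 0) (XT.nd (nat_lit 78) (nat_lit 228) (nat_lit 0) (XT.lf (nat_lit 0) (nat_lit 5365045348) (nat_lit 152) (nat_lit 4035112551) (nat_lit 152) (nat_lit 1924294892) (nat_lit 43) (nat_lit 4) (nat_lit 45) (nat_lit 5) (nat_lit 45) (nat_lit 4) (nat_lit 354) (nat_lit 334) (nat_lit 332)) (XT.lf (nat_lit 0) (nat_lit 369134423) (nat_lit 76) (nat_lit 7263635908) (nat_lit 76) (nat_lit 4518695519) (nat_lit 40) (nat_lit 4) (nat_lit 41) (nat_lit 5) (nat_lit 41) (nat_lit 4) (nat_lit 355) (nat_lit 334) (nat_lit 331))) (XT.nd (nat_lit 78)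 (nat_lit 304) (nat_lit 0) (XT.lf (nat_lit 0) (nat_lit 5274145187) (nat_lit 152) (nat_lit 5707254025) (nat_lit 0) (nat_lit 2096076716) (nat_lit 38) (nat_lit 5) (nat_lit 40) (nat_lit 4) (nat_lit 38) (nat_lit 4) (nat_lit 356) (nat_lit 334) (nat_lit 330)) (XT.nd (nat_lit 78) (nat_lit 76) (nat_lit 0) (XT.lf (nat_lit 0) (nat_lit 653122294) (nat_lit 76) (nat_lit 1454873683) (nat_lit 152) (nat_lit 12014590144) (nat_lit 35) (nat_lit 5) (nat_lit 36) (nat_lit 5) (nat_lit 37) (nat_lit 4) (nat_lit 357) (nat_lit 334) (nat_lit 329)) (XT.lf (nat_lit 0) (nat_lit 7531299972) (nat_lit 76) (nat_lit 5826305012) (nat_lit 76) (nat_lit 1925599206) (nat_lit 34) (nat_lit 4) (nat_lit 35) (nat_lit 5) (nat_lit 35) (nat_lit 4) (nat_lit 358) (nat_lit 334) (nat_lit 328)))))) (XT.nd (nat_lit 312) (nat_lit 684) (nat_lit 0) (XT.nd (nat_lit 156) (nat_lit 228) (nat_lit 0) (XT.nd (nat_lit 78) (nat_lit 228) (nat_lit 0) (XT.lf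 (nat_lit 0) (nat_lit 9328485190) (nat_lit 152) (nat_lit 1902043086) (nat_lit 0) (nat_lit 5357940713) (nat_lit 32) (nat_lit 5) (nat_lit 34) (nat_lit 4) (nat_lit 32) (nat_lit 4) (nat_lit 359) (nat_lit 334) (nat_lit 327)) (XT.lf (nat_lit 0) (nat_lit 4171015060) (nat_lit 152) (nat_lit 13676709808) (nat_lit 0) (nat_lit 205712329) (nat_lit 29) (nat_lit 5) (nat_lit 31) (nat_lit 4) (nat_lit 29) (nat_lit 4) (nat_lit 360) (nat_lit 334) (nat_lit 326))) (XT.nd (nat_lit 78) (nat_lit 152) (nat_lit 0) (XT.lf (nat_lit 0) (nat_lit 10762646415) (nat_lit 76) (nat_lit 6570611823) (nat_lit 76) (nat_lit 2354115475) (nat_lit 28) (nat_lit 4) (nat_lit 29) (nat_lit 5) (nat_lit 29) (nat_lit 4) (nat_lit 361) (nat_lit 334) (nat_lit 325)) (XT.lf (nat_lit 0) (nat_lit 10648390397) (nat_lit 152) (nat_lit 4331844266) (nat_lit 0) (nat_lit 6541977823) (nat_lit 26) (nat_lit 5) (nat_lit 28) (nat_lit 4) (nat_lit 26) (nat_lit 4)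 (nat_lit 362) (nat_lit 334) (nat_lit 324)))) (XT.nd (nat_lit 156) (nat_lit 380) (nat_lit 0) (XT.nd (nat_lit 78) (nat_lit 76) (nat_lit 0) (XT.lf (nat_lit 0) (nat_lit 135666995) (nat_lit 76) (nat_lit 1988346714) (nat_lit 152) (nat_lit 21469356163) (nat_lit 23) (nat_lit 5) (nat_lit 24) (nat_lit 5) (nat_lit 25) (nat_lit 4) (nat_lit 363) (nat_lit 334) (nat_lit 323)) (XT.lf (nat_lit 0) (nat_lit 4214472521) (nat_lit 76) (nat_lit 12895135115) (nat_lit 76) (nat_lit 8788458226) (nat_lit 22) (nat_lit 4) (nat_lit 23) (nat_lit 5) (nat_lit 23) (nat_lit 4) (nat_lit 364) (nat_lit 334) (nat_lit 322))) (XT.nd (nat_lit 78) (nat_lit 228) (nat_lit 0) (XT.lf (nat_lit 0) (nat_lit 5880051018) (nat_lit 152) (nat_lit 20663689097) (nat_lit 0) (nat_lit 1963561624) (nat_lit 20) (nat_lit 5) (nat_lit 22) (nat_lit 4) (nat_lit 20) (nat_lit 4) (nat_lit 365) (nat_lit 334) (nat_lit 321)) (XT.nd (nat_lit 78) (nat_lit 152) (nat_lit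 0) (XT.lf (nat_lit 0) (nat_lit 10383384336) (nat_lit 76) (nat_lit 12533424347) (nat_lit 76) (nat_lit 8517795131) (nat_lit 19) (nat_lit 4) (nat_lit 20) (nat_lit 5) (nat_lit 20) (nat_lit 4) (nat_lit 366) (nat_lit 334) (nat_lit 320)) (XT.lf (nat_lit 0) (nat_lit 7781686758) (nat_lit 152) (nat_lit 22984067750) (nat_lit 0) (nat_lit 3983688836) (nat_lit 17) (nat_lit 5) (nat_lit 19) (nat_lit 4) (nat_lit 17) (nat_lit 4) (nat_lit 367) (nat_lit 334) (nat_lit 319))))))) (XT.nd (nat_lit 702) (nat_lit 380) (nat_lit 0) (XT.nd (nat_lit 312) (nat_lit 456) (nat_lit 0) (XT.nd (nat_lit 156) (nat_lit 76) (nat_lit 0) (XT.nd (nat_lit 78) (nat_lit 152) (nat_lit 0) (XT.lf (nat_lit 0) (nat_lit 11189742532) (nat_lit 76) (nat_lit 15580789972) (nat_lit 76) (nat_lit 11713380987) (nat_lit 16) (nat_lit 4) (nat_lit 17) (nat_lit 5) (nat_lit 17) (nat_lit 4) (nat_lit 368) (nat_lit 334) (nat_lit 318)) (XT.lf (nat_lit 0) (nat_lit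 6008690179) (nat_lit 152) (nat_lit 34349094117) (nat_lit 0) (nat_lit 2371869410) (nat_lit 14) (nat_lit 5) (nat_lit 16) (nat_lit 4) (nat_lit 14) (nat_lit 4) (nat_lit 369) (nat_lit 334) (nat_lit 317))) (XT.nd (nat_lit 78) (nat_lit 0) (nat_lit 0) (XT.lf (nat_lit 0) (nat_lit 1913472574) (nat_lit 76) (nat_lit 24645398368) (nat_lit 76) (nat_lit 20959980621) (nat_lit 13) (nat_lit 4) (nat_lit 14) (nat_lit 5) (nat_lit 14) (nat_lit 4) (nat_lit 370) (nat_lit 334) (nat_lit 316)) (XT.lf (nat_lit 0) (nat_lit 44855767350) (nat_lit 76) (nat_lit 5925580308) (nat_lit 76) (nat_lit 2197904320) (nat_lit 13) (nat_lit 4) (nat_lit 14) (nat_lit 5) (nat_lit 14) (nat_lit 4) (nat_lit 371) (nat_lit 334) (nat_lit 315)))) (XT.nd (nat_lit 156) (nat_lit 228) (nat_lit 0) (XT.nd (nat_lit 78) (nat_lit 76) (nat_lit 0) (XT.lf (nat_lit 0) (nat_lit 19298202187) (nat_lit 152) (nat_lit 24039474845) (nat_lit 0) (nat_lit 15812625998)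 (nat_lit 11) (nat_lit 5) (nat_lit 13) (nat_lit 4) (nat_lit 11) (nat_lit 4) (nat_lit 372) (nat_lit 334) (nat_lit 314)) (XT.lf (nat_lit 0) (nat_lit 19115149984) (nat_lit 76) (nat_lit 25300161092) (nat_lit 76) (nat_lit 21784998512) (nat_lit 10) (nat_lit 4) (nat_lit 11) (nat_lit 5) (nat_lit 11) (nat_lit 4) (nat_lit 373) (nat_lit 334) (nat_lit 313))) (XT.nd (nat_lit 78) (nat_lit 228) (nat_lit 0) (XT.lf (nat_lit 0) (nat_lit 69553969313) (nat_lit 76) (nat_lit 4131933520) (nat_lit 76) (nat_lit 591043645) (nat_lit 10) (nat_lit 4) (nat_lit 11) (nat_lit 5) (nat_lit 11) (nat_lit 4) (nat_lit 374) (nat_lit 334) (nat_lit 312)) (XT.nd (nat_lit 78) (nat_lit 76) (nat_lit 0) (XT.lf (nat_lit 0) (nat_lit 23918953227) (nat_lit 152) (nat_lit 38874604445) (nat_lit 0) (nat_lit 20619637082) (nat_lit 8) (nat_lit 5) (nat_lit 10) (nat_lit 4) (nat_lit 8) (nat_lit 4) (nat_lit 375) (nat_lit 334) (nat_lit 311)) (XT.lf (nat_lit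 0) (nat_lit 7254524447) (nat_lit 76) (nat_lit 44984006025) (nat_lit 76) (nat_lit 41666677349) (nat_lit 7) (nat_lit 4) (nat_lit 8) (nat_lit 5) (nat_lit 8) (nat_lit 4) (nat_lit 376) (nat_lit 334) (nat_lit 310)))))) (XT.nd (nat_lit 390) (nat_lit 152) (nat_lit 0) (XT.nd (nat_lit 156) (nat_lit 76) (nat_lit 0) (XT.nd (nat_lit 78) (nat_lit 152) (nat_lit 0) (XT.lf (nat_lit 0) (nat_lit 62162217293) (nat_lit 76) (nat_lit 23535242830) (nat_lit 76) (nat_lit 20202251085) (nat_lit 7) (nat_lit 4) (nat_lit 8) (nat_lit 5) (nat_lit 8) (nat_lit 4) (nat_lit 377) (nat_lit 334) (nat_lit 309)) (XT.lf (nat_lit 0) (nat_lit 4199229643) (nat_lit 152) (nat_lit 114389696472) (nat_lit 0) (nat_lit 1100515009) (nat_lit 5) (nat_lit 5) (nat_lit 7) (nat_lit 4) (nat_lit 5) (nat_lit 4) (nat_lit 378) (nat_lit 334) (nat_lit 308))) (XT.nd (nat_lit 78) (nat_lit 76) (nat_lit 0) (XT.lf (nat_lit 0) (nat_lit 32854906793) (nat_lit 152)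 (nat_lit 72762306402) (nat_lit 0) (nat_lit 29745225927) (nat_lit 5) (nat_lit 5) (nat_lit 7) (nat_lit 4) (nat_lit 5) (nat_lit 4) (nat_lit 379) (nat_lit 334) (nat_lit 307)) (XT.nd (nat_lit 78) (nat_lit 76) (nat_lit 0) (XT.lf (nat_lit 0) (nat_lit 65633971375) (nat_lit 152) (nat_lit 25251658909) (nat_lit 0) (nat_lit 62514754655) (nat_lit 5) (nat_lit 5) (nat_lit 7) (nat_lit 4) (nat_lit 5) (nat_lit 4) (nat_lit 380) (nat_lit 334) (nat_lit 306)) (XT.lf (nat_lit 0) (nat_lit 30602671734) (nat_lit 76) (nat_lit 73311076172) (nat_lit 76) (nat_lit 70183567405) (nat_lit 4) (nat_lit 4) (nat_lit 5) (nat_lit 5) (nat_lit 5) (nat_lit 4) (nat_lit 381) (nat_lit 334) (nat_lit 305))))) (XT.nd (nat_lit 156) (nat_lit 152) (nat_lit 0) (XT.nd (nat_lit 78) (nat_lit 0) (nat_lit 0) (XT.lf (nat_lit 0) (nat_lit 96077092386) (nat_lit 76) (nat_lit 52454367656) (nat_lit 76) (nat_lit 49319648414) (nat_lit 4) (nat_lit 4) (nat_lit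 5) (nat_lit 5) (nat_lit 5) (nat_lit 4) (nat_lit 382) (nat_lit 334) (nat_lit 304)) (XT.lf (nat_lit 0) (nat_lit 171122916709) (nat_lit 76) (nat_lit 28597863807) (nat_lit 76) (nat_lit 25456874586) (nat_lit 4) (nat_lit 4) (nat_lit 5) (nat_lit 5) (nat_lit 5) (nat_lit 4) (nat_lit 383) (nat_lit 334) (nat_lit 303))) (XT.nd (nat_lit 78) (nat_lit 0) (nat_lit 0) (XT.lf (nat_lit 0) (nat_lit 580872224) (nat_lit 76) (nat_lit 1211105468) (nat_lit 152) (nat_lit 254814908756) (nat_lit 2) (nat_lit 5) (nat_lit 3) (nat_lit 5) (nat_lit 4) (nat_lit 4) (nat_lit 384) (nat_lit 334) (nat_lit 302)) (XT.nd (nat_lit 78) (nat_lit 0) (nat_lit 0) (XT.lf (nat_lit 0) (nat_lit 33905284355) (nat_lit 152) (nat_lit 227622041697) (nat_lit 0) (nat_lit 30987522891) (nat_lit 2) (nat_lit 5) (nat_lit 4) (nat_lit 4) (nat_lit 2) (nat_lit 4) (nat_lit 385) (nat_lit 334) (nat_lit 301)) (XT.lf (nat_lit 0) (nat_lit 70780957928) (nat_lit 152)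 (nat_lit 195173039376) (nat_lit 0) (nat_lit 67859379230) (nat_lit 2) (nat_lit 5) (nat_lit 4) (nat_lit 4) (nat_lit 2) (nat_lit 4) (nat_lit 386) (nat_lit 334) (nat_lit 300))))))))
noncomputable def xc34 : XT := (XT.nd (nat_lit 1404) (nat_lit 0) (nat_lit 0) (XT.nd (nat_lit 702) (nat_lit 0) (nat_lit 0) (XT.nd (nat_lit 312) (nat_lit 76) (nat_lit 0) (XT.nd (nat_lit 156) (nat_lit 0) (nat_lit 0) (XT.nd (nat_lit 78) (nat_lit 0) (nat_lit 0) (XT.lf (nat_lit 0) (nat_lit 113111351866) (nat_lit 152) (nat_lit 158015008361) (nat_lit 0) (nat_lit 110186453835) (nat_lit 2) (nat_lit 5) (nat_lit 4) (nat_lit 4) (nat_lit 2) (nat_lit 4) (nat_lit 387) (nat_lit 334) (nat_lit 299)) (XT.lf (nat_lit 0) (nat_lit 161724669530) (nat_lit 152) (nat_lit 115420943698) (nat_lit 0) (nat_lit 158796885121) (nat_lit 2) (nat_lit 5) (nat_lit 4) (nat_lit 4) (nat_lit 2) (nat_lit 4) (nat_lit 388) (nat_lit 334) (nat_lit 298))) (XT.nd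 (nat_lit 78) (nat_lit 0) (nat_lit 0) (XT.lf (nat_lit 0) (nat_lit 217572041046) (nat_lit 152) (nat_lit 66557483253) (nat_lit 0) (nat_lit 214641746744) (nat_lit 2) (nat_lit 5) (nat_lit 4) (nat_lit 4) (nat_lit 2) (nat_lit 4) (nat_lit 389) (nat_lit 334) (nat_lit 297)) (XT.lf (nat_lit 0) (nat_lit 281746132380) (nat_lit 152) (nat_lit 10468602798) (nat_lit 0) (nat_lit 278813655562) (nat_lit 2) (nat_lit 5) (nat_lit 4) (nat_lit 4) (nat_lit 2) (nat_lit 4) (nat_lit 390) (nat_lit 334) (nat_lit 296)))) (XT.nd (nat_lit 156) (nat_lit 0) (nat_lit 0) (XT.nd (nat_lit 78) (nat_lit 0) (nat_lit 0) (XT.lf (nat_lit 0) (nat_lit 56783636265) (nat_lit 76) (nat_lit 300084535132) (nat_lit 76) (nat_lit 297150160474) (nat_lit 1) (nat_lit 4) (nat_lit 2) (nat_lit 5) (nat_lit 2) (nat_lit 4) (nat_lit 391) (nat_lit 334) (nat_lit 295)) (XT.lf (nat_lit 0) (nat_lit 134674799196) (nat_lit 76) (nat_lit 308848407436) (nat_lit 76)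 (nat_lit 305912382482) (nat_lit 1) (nat_lit 4) (nat_lit 2) (nat_lit 5) (nat_lit 2) (nat_lit 4) (nat_lit 392) (nat_lit 334) (nat_lit 294))) (XT.nd (nat_lit 78) (nat_lit 0) (nat_lit 0) (XT.lf (nat_lit 0) (nat_lit 224177585458) (nat_lit 76) (nat_lit 318964049309) (nat_lit 76) (nat_lit 316026589315) (nat_lit 1) (nat_lit 4) (nat_lit 2) (nat_lit 5) (nat_lit 2) (nat_lit 4) (nat_lit 393) (nat_lit 334) (nat_lit 293)) (XT.nd (nat_lit 78) (nat_lit 0) (nat_lit 0) (XT.lf (nat_lit 0) (nat_lit 327043136521) (nat_lit 76) (nat_lit 330629375484) (nat_lit 76) (nat_lit 327690667630) (nat_lit 1) (nat_lit 4) (nat_lit 2) (nat_lit 5) (nat_lit 2) (nat_lit 4) (nat_lit 394) (nat_lit 334) (nat_lit 292)) (XT.lf (nat_lit 0) (nat_lit 445284039254) (nat_lit 76) (nat_lit 344072620604) (nat_lit 76) (nat_lit 341132827653) (nat_lit 1) (nat_lit 4) (nat_lit 2) (nat_lit 5) (nat_lit 2) (nat_lit 4) (nat_lit 395) (nat_lit 334) (nat_lit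 291)))))) (XT.nd (nat_lit 312) (nat_lit 0) (nat_lit 0) (XT.nd (nat_lit 156) (nat_lit 0) (nat_lit 0) (XT.nd (nat_lit 78) (nat_lit 0) (nat_lit 0) (XT.lf (nat_lit 0) (nat_lit 581213702624) (nat_lit 76) (nat_lit 359556804681) (nat_lit 76) (nat_lit 356616068168) (nat_lit 1) (nat_lit 4) (nat_lit 2) (nat_lit 5) (nat_lit 2) (nat_lit 4) (nat_lit 396) (nat_lit 334) (nat_lit 290)) (XT.lf (nat_lit 0) (nat_lit 737491620044) (nat_lit 76) (nat_lit 377384879143) (nat_lit 76) (nat_lit 374443322142) (nat_lit 1) (nat_lit 4) (nat_lit 2) (nat_lit 5) (nat_lit 2) (nat_lit 4) (nat_lit 397) (nat_lit 334) (nat_lit 289))) (XT.nd (nat_lit 78) (nat_lit 0) (nat_lit 0) (XT.lf (nat_lit 0) (nat_lit 917175402942) (nat_lit 76) (nat_lit 397905654143) (nat_lit 76) (nat_lit 394963383674) (nat_lit 1) (nat_lit 4) (nat_lit 2) (nat_lit 5) (nat_lit 2) (nat_lit 4) (nat_lit 398) (nat_lit 334) (nat_lit 288)) (XT.lf (nat_lit 0) (nat_lit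 1123780603592) (nat_lit 76) (nat_lit 421520623105) (nat_lit 76) (nat_lit 418577732228) (nat_lit 1) (nat_lit 4) (nat_lit 2) (nat_lit 5) (nat_lit 2) (nat_lit 4) (nat_lit 399) (nat_lit 334) (nat_lit 287)))) (XT.nd (nat_lit 156) (nat_lit 0) (nat_lit 0) (XT.nd (nat_lit 78) (nat_lit 0) (nat_lit 0) (XT.lf (nat_lit 0) (nat_lit 1361349497660) (nat_lit 76) (nat_lit 448691818029) (nat_lit 76) (nat_lit 445748387668) (nat_lit 1) (nat_lit 4) (nat_lit 2) (nat_lit 5) (nat_lit 2) (nat_lit 4) (nat_lit 400) (nat_lit 334) (nat_lit 286)) (XT.lf (nat_lit 0) (nat_lit 1634530172202) (nat_lit 76) (nat_lit 479950849253) (nat_lit 76) (nat_lit 477006949775) (nat_lit 1) (nat_lit 4) (nat_lit 2) (nat_lit 5) (nat_lit 2) (nat_lit 4) (nat_lit 401) (nat_lit 334) (nat_lit 285))) (XT.nd (nat_lit 78) (nat_lit 0) (nat_lit 0) (XT.lf (nat_lit 0) (nat_lit 1948667466504) (nat_lit 76) (nat_lit 515909306516) (nat_lit 76) (nat_lit 512964999110)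 (nat_lit 1) (nat_lit 4) (nat_lit 2) (nat_lit 5) (nat_lit 2) (nat_lit 4) (nat_lit 402) (nat_lit 334) (nat_lit 284)) (XT.nd (nat_lit 78) (nat_lit 0) (nat_lit 0) (XT.lf (nat_lit 0) (nat_lit 2309907545019) (nat_lit 76) (nat_lit 557270724853) (nat_lit 76) (nat_lit 554326062727) (nat_lit 1) (nat_lit 4) (nat_lit 2) (nat_lit 5) (nat_lit 2) (nat_lit 4) (nat_lit 403) (nat_lit 334) (nat_lit 283)) (XT.lf (nat_lit 0) (nat_lit 2725318148413) (nat_lit 76) (nat_lit 604844349404) (nat_lit 76) (nat_lit 601899378826) (nat_lit 1) (nat_lit 4) (nat_lit 2) (nat_lit 5) (nat_lit 2) (nat_lit 4) (nat_lit 404) (nat_lit 334) (nat_lit 282))))))) (XT.nd (nat_lit 702) (nat_lit 0) (nat_lit 0) (XT.nd (nat_lit 312) (nat_lit 0) (nat_lit 0) (XT.nd (nat_lit 156) (nat_lit 0) (nat_lit 0) (XT.nd (nat_lit 78) (nat_lit 0) (nat_lit 0) (XT.lf (nat_lit 0) (nat_lit 3203026875450) (nat_lit 76) (nat_lit 659560968476) (nat_lit 76) (nat_lit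 656615729679) (nat_lit 1) (nat_lit 4) (nat_lit 2) (nat_lit 5) (nat_lit 2) (nat_lit 4) (nat_lit 405) (nat_lit 334) (nat_lit 281)) (XT.lf (nat_lit 0) (nat_lit 3752380201222) (nat_lit 76) (nat_lit 722491124617) (nat_lit 76) (nat_lit 719545652585) (nat_lit 1) (nat_lit 4) (nat_lit 2) (nat_lit 5) (nat_lit 2) (nat_lit 4) (nat_lit 406) (nat_lit 334) (nat_lit 280))) (XT.nd (nat_lit 78) (nat_lit 0) (nat_lit 0) (XT.lf (nat_lit 0) (nat_lit 4384126342974) (nat_lit 76) (nat_lit 794866060011) (nat_lit 76) (nat_lit 791920385167) (nat_lit 1) (nat_lit 4) (nat_lit 2) (nat_lit 5) (nat_lit 2) (nat_lit 4) (nat_lit 407) (nat_lit 334) (nat_lit 279)) (XT.lf (nat_lit 0) (nat_lit 5110625551304) (nat_lit 76) (nat_lit 878101806003) (nat_lit 76) (nat_lit 875155954801) (nat_lit 1) (nat_lit 4) (nat_lit 2) (nat_lit 5) (nat_lit 2) (nat_lit 4) (nat_lit 408) (nat_lit 334) (nat_lit 278)))) (XT.nd (nat_lit 156) (nat_lit 0) (nat_lit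 0) (XT.nd (nat_lit 78) (nat_lit 0) (nat_lit 0) (XT.lf (nat_lit 0) (nat_lit 5946091941160) (nat_lit 76) (nat_lit 973826888058) (nat_lit 76) (nat_lit 970880883501) (nat_lit 1) (nat_lit 4) (nat_lit 2) (nat_lit 5) (nat_lit 2) (nat_lit 4) (nat_lit 409) (nat_lit 334) (nat_lit 277)) (XT.lf (nat_lit 0) (nat_lit 6906871594080) (nat_lit 76) (nat_lit 1083914188217) (nat_lit 76) (nat_lit 1080968050308) (nat_lit 1) (nat_lit 4) (nat_lit 2) (nat_lit 5) (nat_lit 2) (nat_lit 4) (nat_lit 410) (nat_lit 334) (nat_lit 276))) (XT.nd (nat_lit 78) (nat_lit 0) (nat_lit 0) (XT.lf (nat_lit 0) (nat_lit 8011762372840) (nat_lit 76) (nat_lit 1210517588439) (nat_lit 76) (nat_lit 1207571334571) (nat_lit 1) (nat_lit 4) (nat_lit 2) (nat_lit 5) (nat_lit 2) (nat_lit 4) (nat_lit 411) (nat_lit 334) (nat_lit 275)) (XT.nd (nat_lit 78) (nat_lit 0) (nat_lit 0) (XT.lf (nat_lit 0) (nat_lit 9282381705719) (nat_lit 76) (nat_lit 1356114111772)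 (nat_lit 76) (nat_lit 1353167757071) (nat_lit 1) (nat_lit 4) (nat_lit 2) (nat_lit 5) (nat_lit 2) (nat_lit 4) (nat_lit 412) (nat_lit 334) (nat_lit 274)) (XT.lf (nat_lit 0) (nat_lit 10743589536188) (nat_lit 76) (nat_lit 1523552385847) (nat_lit 76) (nat_lit 1520605943464) (nat_lit 1) (nat_lit 4) (nat_lit 2) (nat_lit 5) (nat_lit 2) (nat_lit 4) (nat_lit 413) (nat_lit 334) (nat_lit 273)))))) (XT.nd (nat_lit 390) (nat_lit 0) (nat_lit 0) (XT.nd (nat_lit 156) (nat_lit 0) (nat_lit 0) (XT.nd (nat_lit 78) (nat_lit 0) (nat_lit 0) (XT.lf (nat_lit 0) (nat_lit 12423974713103) (nat_lit 76) (nat_lit 1716108376894) (nat_lit 76) (nat_lit 1713161858267) (nat_lit 1) (nat_lit 4) (nat_lit 2) (nat_lit 5) (nat_lit 2) (nat_lit 4) (nat_lit 414) (nat_lit 334) (nat_lit 272)) (XT.lf (nat_lit 0) (nat_lit 14356414337751) (nat_lit 76) (nat_lit 1937549484740) (nat_lit 76) (nat_lit 1934602899813) (nat_lit 1) (nat_lit 4) (nat_lit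 2) (nat_lit 5) (nat_lit 2) (nat_lit 4) (nat_lit 415) (nat_lit 334) (nat_lit 271))) (XT.nd (nat_lit 78) (nat_lit 0) (nat_lit 0) (XT.lf (nat_lit 0) (nat_lit 16578717011485) (nat_lit 76) (nat_lit 2192208252798) (nat_lit 76) (nat_lit 2189261610219) (nat_lit 1) (nat_lit 4) (nat_lit 2) (nat_lit 5) (nat_lit 2) (nat_lit 4) (nat_lit 416) (nat_lit 334) (nat_lit 270)) (XT.nd (nat_lit 78) (nat_lit 0) (nat_lit 0) (XT.lf (nat_lit 0) (nat_lit 19134362569225) (nat_lit 76) (nat_lit 2485067135226) (nat_lit 76) (nat_lit 2482120442515) (nat_lit 1) (nat_lit 4) (nat_lit 2) (nat_lit 5) (nat_lit 2) (nat_lit 4) (nat_lit 417) (nat_lit 334) (nat_lit 269)) (XT.lf (nat_lit 0) (nat_lit 22073352771884) (nat_lit 76) (nat_lit 2821855979724) (nat_lit 76) (nat_lit 2818909243420) (nat_lit 1) (nat_lit 4) (nat_lit 2) (nat_lit 5) (nat_lit 2) (nat_lit 4) (nat_lit 418) (nat_lit 334) (nat_lit 268))))) (XT.nd (nat_lit 156) (nat_lit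 0) (nat_lit 0) (XT.nd (nat_lit 78) (nat_lit 0) (nat_lit 0) (XT.lf (nat_lit 0) (nat_lit 25453189601687) (nat_lit 76) (nat_lit 3209164133250) (nat_lit 76) (nat_lit 3206217359038) (nat_lit 1) (nat_lit 4) (nat_lit 2) (nat_lit 5) (nat_lit 2) (nat_lit 4) (nat_lit 419) (nat_lit 334) (nat_lit 267)) (XT.lf (nat_lit 0) (nat_lit 29340000300957) (nat_lit 76) (nat_lit 3654569364024) (nat_lit 76) (nat_lit 3651622556850) (nat_lit 1) (nat_lit 4) (nat_lit 2) (nat_lit 5) (nat_lit 2) (nat_lit 4) (nat_lit 420) (nat_lit 334) (nat_lit 266))) (XT.nd (nat_lit 47580) (nat_lit 0) (nat_lit 3952) (XT.lf (nat_lit 0) (nat_lit 33809831165983) (nat_lit 76) (nat_lit 4166786122214) (nat_lit 76) (nat_lit 4163839286376) (nat_lit 1) (nat_lit 4) (nat_lit 2) (nat_lit 5) (nat_lit 2) (nat_lit 4) (nat_lit 421) (nat_lit 334) (nat_lit 265)) (XT.nd (nat_lit 78) (nat_lit 228) (nat_lit 0) (XT.lf (nat_lit 0) (nat_lit 77588442) (nat_lit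 152) (nat_lit 2172928762) (nat_lit 152) (nat_lit 2172928762) (nat_lit 56) (nat_lit 4) (nat_lit 58) (nat_lit 5) (nat_lit 58) (nat_lit 4) (nat_lit 350) (nat_lit 335) (nat_lit 335)) (XT.lf (nat_lit 0) (nat_lit 3603383485) (nat_lit 228) (nat_lit 3682198698) (nat_lit 0) (nat_lit 2088931703) (nat_lit 53) (nat_lit 5) (nat_lit 56) (nat_lit 4) (nat_lit 53) (nat_lit 4) (nat_lit 351) (nat_lit 335) (nat_lit 334))))))))
noncomputable def xc35 : XT := (XT.nd (nat_lit 1404) (nat_lit 1064) (nat_lit 0) (XT.nd (nat_lit 702) (nat_lit 1140) (nat_lit 0) (XT.nd (nat_lit 312) (nat_lit 760) (nat_lit 0) (XT.nd (nat_lit 156) (nat_lit 380) (nat_lit 0) (XT.nd (nat_lit 78) (nat_lit 228) (nat_lit 0) (XT.lf (nat_lit 0) (nat_lit 1754551239) (nat_lit 76) (nat_lit 450216844) (nat_lit 152) (nat_lit 7777554634) (nat_lit 49) (nat_lit 5) (nat_lit 50) (nat_lit 5) (nat_lit 51) (nat_lit 4) (nat_lit 352) (nat_lit 335) (nat_lit 333))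 (XT.lf (nat_lit 0) (nat_lit 356721844) (nat_lit 228) (nat_lit 2939971802) (nat_lit 76) (nat_lit 7371294421) (nat_lit 46) (nat_lit 5) (nat_lit 49) (nat_lit 5) (nat_lit 47) (nat_lit 4) (nat_lit 353) (nat_lit 335) (nat_lit 332))) (XT.nd (nat_lit 78) (nat_lit 152) (nat_lit 0) (XT.lf (nat_lit 0) (nat_lit 2780097788) (nat_lit 152) (nat_lit 6461975365) (nat_lit 152) (nat_lit 2199041440) (nat_lit 43) (nat_lit 4) (nat_lit 45) (nat_lit 5) (nat_lit 45) (nat_lit 4) (nat_lit 354) (nat_lit 335) (nat_lit 331)) (XT.lf (nat_lit 0) (nat_lit 6835751803) (nat_lit 152) (nat_lit 3274601725) (nat_lit 0) (nat_lit 2201217202) (nat_lit 41) (nat_lit 5) (nat_lit 43) (nat_lit 4) (nat_lit 41) (nat_lit 4) (nat_lit 355) (nat_lit 335) (nat_lit 330)))) (XT.nd (nat_lit 156) (nat_lit 456) (nat_lit 0) (XT.nd (nat_lit 78) (nat_lit 76) (nat_lit 0) (XT.lf (nat_lit 0) (nat_lit 2541181582) (nat_lit 76) (nat_lit 1196045495) (nat_lit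 152) (nat_lit 9552435875) (nat_lit 38) (nat_lit 5) (nat_lit 39) (nat_lit 5) (nat_lit 40) (nat_lit 4) (nat_lit 356) (nat_lit 335) (nat_lit 329)) (XT.lf (nat_lit 0) (nat_lit 8844591450) (nat_lit 76) (nat_lit 5431515122) (nat_lit 76) (nat_lit 105585581) (nat_lit 37) (nat_lit 4) (nat_lit 38) (nat_lit 5) (nat_lit 38) (nat_lit 4) (nat_lit 357) (nat_lit 335) (nat_lit 328))) (XT.nd (nat_lit 78) (nat_lit 304) (nat_lit 0) (XT.lf (nat_lit 0) (nat_lit 10383179420) (nat_lit 152) (nat_lit 156361778) (nat_lit 0) (nat_lit 5064280949) (nat_lit 35) (nat_lit 5) (nat_lit 37) (nat_lit 4) (nat_lit 35) (nat_lit 4) (nat_lit 358) (nat_lit 335) (nat_lit 327)) (XT.nd (nat_lit 78) (nat_lit 76) (nat_lit 0) (XT.lf (nat_lit 0) (nat_lit 5525988591) (nat_lit 152) (nat_lit 11154135722) (nat_lit 0) (nat_lit 289100127) (nat_lit 32) (nat_lit 5) (nat_lit 34) (nat_lit 4) (nat_lit 32) (nat_lit 4) (nat_lit 359) (nat_lit 335) (nat_lit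 326)) (XT.lf (nat_lit 0) (nat_lit 11980178131) (nat_lit 76) (nat_lit 6011654753) (nat_lit 76) (nat_lit 503477183) (nat_lit 31) (nat_lit 4) (nat_lit 32) (nat_lit 5) (nat_lit 32) (nat_lit 4) (nat_lit 360) (nat_lit 335) (nat_lit 325)))))) (XT.nd (nat_lit 312) (nat_lit 532) (nat_lit 0) (XT.nd (nat_lit 156) (nat_lit 228) (nat_lit 0) (XT.nd (nat_lit 78) (nat_lit 228) (nat_lit 0) (XT.lf (nat_lit 0) (nat_lit 11808421844) (nat_lit 152) (nat_lit 1902018192) (nat_lit 0) (nat_lit 6489828196) (nat_lit 29) (nat_lit 5) (nat_lit 31) (nat_lit 4) (nat_lit 29) (nat_lit 4) (nat_lit 361) (nat_lit 335) (nat_lit 324)) (XT.lf (nat_lit 0) (nat_lit 2951242308) (nat_lit 76) (nat_lit 1115956931) (nat_lit 152) (nat_lit 18047172224) (nat_lit 26) (nat_lit 5) (nat_lit 27) (nat_lit 5) (nat_lit 28) (nat_lit 4) (nat_lit 362) (nat_lit 335) (nat_lit 323))) (XT.nd (nat_lit 78) (nat_lit 152) (nat_lit 0) (XT.lf (nat_lit 0) (nat_lit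 7639935300) (nat_lit 76) (nat_lit 10928998753) (nat_lit 76) (nat_lit 5675576538) (nat_lit 25) (nat_lit 4) (nat_lit 26) (nat_lit 5) (nat_lit 26) (nat_lit 4) (nat_lit 363) (nat_lit 335) (nat_lit 322)) (XT.lf (nat_lit 0) (nat_lit 8578825431) (nat_lit 152) (nat_lit 14471101554) (nat_lit 0) (nat_lit 3591413945) (nat_lit 23) (nat_lit 5) (nat_lit 25) (nat_lit 4) (nat_lit 23) (nat_lit 4) (nat_lit 364) (nat_lit 335) (nat_lit 321)))) (XT.nd (nat_lit 156) (nat_lit 304) (nat_lit 0) (XT.nd (nat_lit 78) (nat_lit 152) (nat_lit 0) (XT.lf (nat_lit 0) (nat_lit 16243054563) (nat_lit 76) (nat_lit 9090732458) (nat_lit 76) (nat_lit 3996249966) (nat_lit 22) (nat_lit 4) (nat_lit 23) (nat_lit 5) (nat_lit 23) (nat_lit 4) (nat_lit 365) (nat_lit 335) (nat_lit 320)) (XT.lf (nat_lit 0) (nat_lit 12197355660) (nat_lit 152) (nat_lit 12757087506) (nat_lit 0) (nat_lit 7394033701) (nat_lit 20) (nat_lit 5) (nat_lit 22) (nat_lit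 4) (nat_lit 20) (nat_lit 4) (nat_lit 366) (nat_lit 335) (nat_lit 319))) (XT.nd (nat_lit 78) (nat_lit 228) (nat_lit 0) (XT.lf (nat_lit 0) (nat_lit 22015430743) (nat_lit 76) (nat_lit 9307537349) (nat_lit 76) (nat_lit 4429251442) (nat_lit 19) (nat_lit 4) (nat_lit 20) (nat_lit 5) (nat_lit 20) (nat_lit 4) (nat_lit 367) (nat_lit 335) (nat_lit 318)) (XT.nd (nat_lit 78) (nat_lit 76) (nat_lit 0) (XT.lf (nat_lit 0) (nat_lit 13725090413) (nat_lit 152) (nat_lit 16706808336) (nat_lit 0) (nat_lit 9147801572) (nat_lit 17) (nat_lit 5) (nat_lit 19) (nat_lit 4) (nat_lit 17) (nat_lit 4) (nat_lit 368) (nat_lit 335) (nat_lit 317)) (XT.lf (nat_lit 0) (nat_lit 21769911716) (nat_lit 76) (nat_lit 13383461421) (nat_lit 76) (nat_lit 8753687844) (nat_lit 16) (nat_lit 4) (nat_lit 17) (nat_lit 5) (nat_lit 17) (nat_lit 4) (nat_lit 369) (nat_lit 335) (nat_lit 316))))))) (XT.nd (nat_lit 702) (nat_lit 380) (nat_lit 0) (XT.nd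 (nat_lit 312) (nat_lit 304) (nat_lit 0) (XT.nd (nat_lit 156) (nat_lit 152) (nat_lit 0) (XT.nd (nat_lit 78) (nat_lit 76) (nat_lit 0) (XT.lf (nat_lit 0) (nat_lit 11110076264) (nat_lit 152) (nat_lit 30911981016) (nat_lit 0) (nat_lit 6780990637) (nat_lit 14) (nat_lit 5) (nat_lit 16) (nat_lit 4) (nat_lit 14) (nat_lit 4) (nat_lit 370) (nat_lit 335) (nat_lit 315)) (XT.lf (nat_lit 0) (nat_lit 10062914214) (nat_lit 76) (nat_lit 24321124480) (nat_lit 76) (nat_lit 19955292555) (nat_lit 13) (nat_lit 4) (nat_lit 14) (nat_lit 5) (nat_lit 14) (nat_lit 4) (nat_lit 371) (nat_lit 335) (nat_lit 314))) (XT.nd (nat_lit 78) (nat_lit 76) (nat_lit 0) (XT.lf (nat_lit 0) (nat_lit 1025938253) (nat_lit 152) (nat_lit 2263833659) (nat_lit 76) (nat_lit 57367030842) (nat_lit 12) (nat_lit 5) (nat_lit 14) (nat_lit 5) (nat_lit 13) (nat_lit 4) (nat_lit 372) (nat_lit 335) (nat_lit 313)) (XT.lf (nat_lit 0) (nat_lit 25406588523)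 (nat_lit 152) (nat_lit 21050300850) (nat_lit 0) (nat_lit 21308837870) (nat_lit 11) (nat_lit 5) (nat_lit 13) (nat_lit 4) (nat_lit 11) (nat_lit 4) (nat_lit 373) (nat_lit 335) (nat_lit 312)))) (XT.nd (nat_lit 156) (nat_lit 152) (nat_lit 0) (XT.nd (nat_lit 78) (nat_lit 76) (nat_lit 0) (XT.lf (nat_lit 0) (nat_lit 28019275741) (nat_lit 76) (nat_lit 25998001948) (nat_lit 76) (nat_lit 21877879733) (nat_lit 10) (nat_lit 4) (nat_lit 11) (nat_lit 5) (nat_lit 11) (nat_lit 4) (nat_lit 374) (nat_lit 335) (nat_lit 311)) (XT.lf (nat_lit 0) (nat_lit 1976952271) (nat_lit 152) (nat_lit 27515022) (nat_lit 76) (nat_lit 83205496677) (nat_lit 9) (nat_lit 5) (nat_lit 11) (nat_lit 5) (nat_lit 10) (nat_lit 4) (nat_lit 375) (nat_lit 335) (nat_lit 310))) (XT.nd (nat_lit 78) (nat_lit 76) (nat_lit 0) (XT.lf (nat_lit 0) (nat_lit 29966869213) (nat_lit 152) (nat_lit 39643215767) (nat_lit 0) (nat_lit 26118265638) (nat_lit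 8) (nat_lit 5) (nat_lit 10) (nat_lit 4) (nat_lit 8) (nat_lit 4) (nat_lit 376) (nat_lit 335) (nat_lit 309)) (XT.nd (nat_lit 78) (nat_lit 0) (nat_lit 0) (XT.lf (nat_lit 0) (nat_lit 12976760332) (nat_lit 76) (nat_lit 49348192811) (nat_lit 76) (nat_lit 45485969176) (nat_lit 7) (nat_lit 4) (nat_lit 8) (nat_lit 5) (nat_lit 8) (nat_lit 4) (nat_lit 377) (nat_lit 335) (nat_lit 308)) (XT.lf (nat_lit 0) (nat_lit 75516164860) (nat_lit 76) (nat_lit 24992995240) (nat_lit 76) (nat_lit 21118928074) (nat_lit 7) (nat_lit 4) (nat_lit 8) (nat_lit 5) (nat_lit 8) (nat_lit 4) (nat_lit 378) (nat_lit 335) (nat_lit 307)))))) (XT.nd (nat_lit 390) (nat_lit 152) (nat_lit 0) (XT.nd (nat_lit 156) (nat_lit 76) (nat_lit 0) (XT.nd (nat_lit 78) (nat_lit 0) (nat_lit 0) (XT.lf (nat_lit 0) (nat_lit 6713030289) (nat_lit 152) (nat_lit 127662707840) (nat_lit 0) (nat_lit 3116395208) (nat_lit 5) (nat_lit 5) (nat_lit 7) (nat_lit 4)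 (nat_lit 5) (nat_lit 4) (nat_lit 379) (nat_lit 335) (nat_lit 306)) (XT.lf (nat_lit 0) (nat_lit 39421330811) (nat_lit 152) (nat_lit 80298006186) (nat_lit 0) (nat_lit 35816403683) (nat_lit 5) (nat_lit 5) (nat_lit 7) (nat_lit 4) (nat_lit 5) (nat_lit 4) (nat_lit 380) (nat_lit 335) (nat_lit 305))) (XT.nd (nat_lit 78) (nat_lit 76) (nat_lit 0) (XT.lf (nat_lit 0) (nat_lit 76903578385) (nat_lit 152) (nat_lit 26101454549) (nat_lit 0) (nat_lit 73291440782) (nat_lit 5) (nat_lit 5) (nat_lit 7) (nat_lit 4) (nat_lit 5) (nat_lit 4) (nat_lit 381) (nat_lit 335) (nat_lit 304)) (XT.nd (nat_lit 78) (nat_lit 0) (nat_lit 0) (XT.lf (nat_lit 0) (nat_lit 37882342586) (nat_lit 76) (nat_lit 82921849998) (nat_lit 76) (nat_lit 79303442415) (nat_lit 4) (nat_lit 4) (nat_lit 5) (nat_lit 5) (nat_lit 5) (nat_lit 4) (nat_lit 382) (nat_lit 335) (nat_lit 303)) (XT.lf (nat_lit 0) (nat_lit 112827151976) (nat_lit 76) (nat_lit 59117403153)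 (nat_lit 76) (nat_lit 55493543415) (nat_lit 4) (nat_lit 4) (nat_lit 5) (nat_lit 5) (nat_lit 5) (nat_lit 4) (nat_lit 383) (nat_lit 335) (nat_lit 302))))) (XT.nd (nat_lit 156) (nat_lit 0) (nat_lit 0) (XT.nd (nat_lit 78) (nat_lit 152) (nat_lit 0) (XT.lf (nat_lit 0) (nat_lit 198824828766) (nat_lit 76) (nat_lit 31839613246) (nat_lit 76) (nat_lit 28211012503) (nat_lit 4) (nat_lit 4) (nat_lit 5) (nat_lit 5) (nat_lit 5) (nat_lit 4) (nat_lit 384) (nat_lit 335) (nat_lit 301)) (XT.lf (nat_lit 0) (nat_lit 2578096923) (nat_lit 76) (nat_lit 407874364) (nat_lit 152) (nat_lit 292037928106) (nat_lit 2) (nat_lit 5) (nat_lit 3) (nat_lit 5) (nat_lit 4) (nat_lit 4) (nat_lit 385) (nat_lit 335) (nat_lit 300))) (XT.nd (nat_lit 78) (nat_lit 0) (nat_lit 0) (XT.lf (nat_lit 0) (nat_lit 39816193300) (nat_lit 152) (nat_lit 260060628740) (nat_lit 0) (nat_lit 36449241229) (nat_lit 2) (nat_lit 5) (nat_lit 4) (nat_lit 4)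 (nat_lit 2) (nat_lit 4) (nat_lit 386) (nat_lit 335) (nat_lit 299)) (XT.nd (nat_lit 78) (nat_lit 0) (nat_lit 0) (XT.lf (nat_lit 0) (nat_lit 82115594045) (nat_lit 152) (nat_lit 222966630750) (nat_lit 0) (nat_lit 78745755597) (nat_lit 2) (nat_lit 5) (nat_lit 4) (nat_lit 4) (nat_lit 2) (nat_lit 4) (nat_lit 387) (nat_lit 335) (nat_lit 298)) (XT.lf (nat_lit 0) (nat_lit 130701961106) (nat_lit 152) (nat_lit 180428246979) (nat_lit 0) (nat_lit 127329612764) (nat_lit 2) (nat_lit 5) (nat_lit 4) (nat_lit 4) (nat_lit 2) (nat_lit 4) (nat_lit 388) (nat_lit 335) (nat_lit 297))))))))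
noncomputable def xc36 : XT := (XT.nd (nat_lit 1404) (nat_lit 0) (nat_lit 0) (XT.nd (nat_lit 702) (nat_lit 0) (nat_lit 0) (XT.nd (nat_lit 312) (nat_lit 0) (nat_lit 0) (XT.nd (nat_lit 156) (nat_lit 76) (nat_lit 0) (XT.nd (nat_lit 78) (nat_lit 0) (nat_lit 0) (XT.lf (nat_lit 0) (nat_lit 186525897315) (nat_lit 152) (nat_lit 131613204700) (nat_lit 0) (nat_lit 183151366458) (nat_lit 2) (nat_lit 5) (nat_lit 4) (nat_lit 4) (nat_lit 2) (nat_lit 4) (nat_lit 389) (nat_lit 335) (nat_lit 296)) (XT.lf (nat_lit 0) (nat_lit 250679610122) (nat_lit 152) (nat_lit 75566426999) (nat_lit 0) (nat_lit 247303181424) (nat_lit 2) (nat_lit 5) (nat_lit 4) (nat_lit 4) (nat_lit 2) (nat_lit 4) (nat_lit 390) (nat_lit 335) (nat_lit 295))) (XT.nd (nat_lit 78) (nat_lit 76) (nat_lit 0) (XT.lf (nat_lit 0) (nat_lit 324418280862) (nat_lit 152) (nat_lit 11191346486) (nat_lit 0) (nat_lit 321040201869) (nat_lit 2) (nat_lit 5) (nat_lit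 4) (nat_lit 4) (nat_lit 2) (nat_lit 4) (nat_lit 391) (nat_lit 335) (nat_lit 294)) (XT.lf (nat_lit 0) (nat_lit 66076987827) (nat_lit 76) (nat_lit 344696787979) (nat_lit 76) (nat_lit 341317273946) (nat_lit 1) (nat_lit 4) (nat_lit 2) (nat_lit 5) (nat_lit 2) (nat_lit 4) (nat_lit 392) (nat_lit 335) (nat_lit 293)))) (XT.nd (nat_lit 156) (nat_lit 0) (nat_lit 0) (XT.nd (nat_lit 78) (nat_lit 0) (nat_lit 0) (XT.lf (nat_lit 0) (nat_lit 155550633095) (nat_lit 76) (nat_lit 354827470792) (nat_lit 76) (nat_lit 351446708898) (nat_lit 1) (nat_lit 4) (nat_lit 2) (nat_lit 5) (nat_lit 2) (nat_lit 4) (nat_lit 393) (nat_lit 335) (nat_lit 292)) (XT.lf (nat_lit 0) (nat_lit 258390844163) (nat_lit 76) (nat_lit 366505876045) (nat_lit 76) (nat_lit 363124029056) (nat_lit 1) (nat_lit 4) (nat_lit 2) (nat_lit 5) (nat_lit 2) (nat_lit 4) (nat_lit 394) (nat_lit 335) (nat_lit 291))) (XT.nd (nat_lit 78) (nat_lit 0) (nat_lit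 0) (XT.lf (nat_lit 0) (nat_lit 376609712118) (nat_lit 76) (nat_lit 379960494276) (nat_lit 76) (nat_lit 376577703725) (nat_lit 1) (nat_lit 4) (nat_lit 2) (nat_lit 5) (nat_lit 2) (nat_lit 4) (nat_lit 395) (nat_lit 335) (nat_lit 290)) (XT.nd (nat_lit 78) (nat_lit 0) (nat_lit 0) (XT.lf (nat_lit 0) (nat_lit 512520214811) (nat_lit 76) (nat_lit 395454568015) (nat_lit 76) (nat_lit 392070956975) (nat_lit 1) (nat_lit 4) (nat_lit 2) (nat_lit 5) (nat_lit 2) (nat_lit 4) (nat_lit 396) (nat_lit 335) (nat_lit 289)) (XT.lf (nat_lit 0) (nat_lit 668781470773) (nat_lit 76) (nat_lit 413291242184) (nat_lit 76) (nat_lit 409906917675) (nat_lit 1) (nat_lit 4) (nat_lit 2) (nat_lit 5) (nat_lit 2) (nat_lit 4) (nat_lit 397) (nat_lit 335) (nat_lit 288)))))) (XT.nd (nat_lit 312) (nat_lit 0) (nat_lit 0) (XT.nd (nat_lit 156) (nat_lit 0) (nat_lit 0) (XT.nd (nat_lit 78) (nat_lit 0) (nat_lit 0) (XT.lf (nat_lit 0) (nat_lit 848450765447)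 (nat_lit 76) (nat_lit 433819495189) (nat_lit 76) (nat_lit 430434550274) (nat_lit 1) (nat_lit 4) (nat_lit 2) (nat_lit 5) (nat_lit 2) (nat_lit 4) (nat_lit 398) (nat_lit 335) (nat_lit 287)) (XT.lf (nat_lit 0) (nat_lit 1055043367641) (nat_lit 76) (nat_lit 457440966764) (nat_lit 76) (nat_lit 454055482364) (nat_lit 1) (nat_lit 4) (nat_lit 2) (nat_lit 5) (nat_lit 2) (nat_lit 4) (nat_lit 399) (nat_lit 335) (nat_lit 286))) (XT.nd (nat_lit 78) (nat_lit 0) (nat_lit 0) (XT.lf (nat_lit 0) (nat_lit 1292601306529) (nat_lit 76) (nat_lit 484617816135) (nat_lit 76) (nat_lit 481231862618) (nat_lit 1) (nat_lit 4) (nat_lit 2) (nat_lit 5) (nat_lit 2) (nat_lit 4) (nat_lit 400) (nat_lit 335) (nat_lit 285)) (XT.lf (nat_lit 0) (nat_lit 1565772454829) (nat_lit 76) (nat_lit 515881764269) (nat_lit 76) (nat_lit 512495402824) (nat_lit 1) (nat_lit 4) (nat_lit 2) (nat_lit 5) (nat_lit 2) (nat_lit 4) (nat_lit 401) (nat_lit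 335) (nat_lit 284)))) (XT.nd (nat_lit 156) (nat_lit 0) (nat_lit 0) (XT.nd (nat_lit 78) (nat_lit 0) (nat_lit 0) (XT.lf (nat_lit 0) (nat_lit 1879901465441) (nat_lit 76) (nat_lit 551844497106) (nat_lit 76) (nat_lit 548457780941) (nat_lit 1) (nat_lit 4) (nat_lit 2) (nat_lit 5) (nat_lit 2) (nat_lit 4) (nat_lit 402) (nat_lit 335) (nat_lit 283)) (XT.lf (nat_lit 0) (nat_lit 2241134340748) (nat_lit 76) (nat_lit 593209633333) (nat_lit 76) (nat_lit 589822608716) (nat_lit 1) (nat_lit 4) (nat_lit 2) (nat_lit 5) (nat_lit 2) (nat_lit 4) (nat_lit 403) (nat_lit 335) (nat_lit 282))) (XT.nd (nat_lit 78) (nat_lit 0) (nat_lit 0) (XT.lf (nat_lit 0) (nat_lit 2656538680483) (nat_lit 76) (nat_lit 640786490832) (nat_lit 76) (nat_lit 637399197996) (nat_lit 1) (nat_lit 4) (nat_lit 2) (nat_lit 5) (nat_lit 2) (nat_lit 4) (nat_lit 404) (nat_lit 335) (nat_lit 281)) (XT.nd (nat_lit 78) (nat_lit 0) (nat_lit 0) (XT.lf (nat_lit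 0) (nat_lit 3134241960859) (nat_lit 76) (nat_lit 695505921163) (nat_lit 76) (nat_lit 692118395093) (nat_lit 1) (nat_lit 4) (nat_lit 2) (nat_lit 5) (nat_lit 2) (nat_lit 4) (nat_lit 405) (nat_lit 335) (nat_lit 280)) (XT.lf (nat_lit 0) (nat_lit 3683590550405) (nat_lit 76) (nat_lit 758438521877) (nat_lit 76) (nat_lit 755050792995) (nat_lit 1) (nat_lit 4) (nat_lit 2) (nat_lit 5) (nat_lit 2) (nat_lit 4) (nat_lit 406) (nat_lit 335) (nat_lit 279))))))) (XT.nd (nat_lit 702) (nat_lit 0) (nat_lit 0) (XT.nd (nat_lit 312) (nat_lit 0) (nat_lit 0) (XT.nd (nat_lit 156) (nat_lit 0) (nat_lit 0) (XT.nd (nat_lit 78) (nat_lit 0) (nat_lit 0) (XT.lf (nat_lit 0) (nat_lit 4315332573699) (nat_lit 76) (nat_lit 830815582987) (nat_lit 76) (nat_lit 827427677746) (nat_lit 1) (nat_lit 4) (nat_lit 2) (nat_lit 5) (nat_lit 2) (nat_lit 4) (nat_lit 407) (nat_lit 335) (nat_lit 278)) (XT.lf (nat_lit 0) (nat_lit 5041828200763)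 (nat_lit 76) (nat_lit 914053177428) (nat_lit 76) (nat_lit 910665118832) (nat_lit 1) (nat_lit 4) (nat_lit 2) (nat_lit 5) (nat_lit 2) (nat_lit 4) (nat_lit 408) (nat_lit 335) (nat_lit 277))) (XT.nd (nat_lit 78) (nat_lit 0) (nat_lit 0) (XT.lf (nat_lit 0) (nat_lit 5877291476472) (nat_lit 76) (nat_lit 1009779866830) (nat_lit 76) (nat_lit 1006391674882) (nat_lit 1) (nat_lit 4) (nat_lit 2) (nat_lit 5) (nat_lit 2) (nat_lit 4) (nat_lit 409) (nat_lit 335) (nat_lit 276)) (XT.lf (nat_lit 0) (nat_lit 6838068421440) (nat_lit 76) (nat_lit 1119868564681) (nat_lit 76) (nat_lit 1116480256775) (nat_lit 1) (nat_lit 4) (nat_lit 2) (nat_lit 5) (nat_lit 2) (nat_lit 4) (nat_lit 410) (nat_lit 335) (nat_lit 275)))) (XT.nd (nat_lit 156) (nat_lit 0) (nat_lit 0) (XT.nd (nat_lit 78) (nat_lit 0) (nat_lit 0) (XT.lf (nat_lit 0) (nat_lit 7942956845458) (nat_lit 76) (nat_lit 1246473180288) (nat_lit 76) (nat_lit 1243084771548)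 (nat_lit 1) (nat_lit 4) (nat_lit 2) (nat_lit 5) (nat_lit 2) (nat_lit 4) (nat_lit 411) (nat_lit 335) (nat_lit 274)) (XT.lf (nat_lit 0) (nat_lit 9213574130736) (nat_lit 76) (nat_lit 1392070760478) (nat_lit 76) (nat_lit 1388682264056) (nat_lit 1) (nat_lit 4) (nat_lit 2) (nat_lit 5) (nat_lit 2) (nat_lit 4) (nat_lit 412) (nat_lit 335) (nat_lit 273))) (XT.nd (nat_lit 78) (nat_lit 0) (nat_lit 0) (XT.lf (nat_lit 0) (nat_lit 10674780180682) (nat_lit 76) (nat_lit 1559509953558) (nat_lit 76) (nat_lit 1556121380892) (nat_lit 1) (nat_lit 4) (nat_lit 2) (nat_lit 5) (nat_lit 2) (nat_lit 4) (nat_lit 413) (nat_lit 335) (nat_lit 272)) (XT.nd (nat_lit 78) (nat_lit 0) (nat_lit 0) (XT.lf (nat_lit 0) (nat_lit 12355163809316) (nat_lit 76) (nat_lit 1752066743741) (nat_lit 76) (nat_lit 1748678104775) (nat_lit 1) (nat_lit 4) (nat_lit 2) (nat_lit 5) (nat_lit 2) (nat_lit 4) (nat_lit 414) (nat_lit 335) (nat_lit 271))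 (XT.lf (nat_lit 0) (nat_lit 14287602087633) (nat_lit 76) (nat_lit 1973508546487) (nat_lit 76) (nat_lit 1970119849869) (nat_lit 1) (nat_lit 4) (nat_lit 2) (nat_lit 5) (nat_lit 2) (nat_lit 4) (nat_lit 415) (nat_lit 335) (nat_lit 270)))))) (XT.nd (nat_lit 390) (nat_lit 0) (nat_lit 0) (XT.nd (nat_lit 156) (nat_lit 0) (nat_lit 0) (XT.nd (nat_lit 78) (nat_lit 0) (nat_lit 0) (XT.lf (nat_lit 0) (nat_lit 16509903590645) (nat_lit 76) (nat_lit 2228167918806) (nat_lit 76) (nat_lit 2224779172056) (nat_lit 1) (nat_lit 4) (nat_lit 2) (nat_lit 5) (nat_lit 2) (nat_lit 4) (nat_lit 416) (nat_lit 335) (nat_lit 269)) (XT.lf (nat_lit 0) (nat_lit 19065548130365) (nat_lit 76) (nat_lit 2521027326679) (nat_lit 76) (nat_lit 2517638536336) (nat_lit 1) (nat_lit 4) (nat_lit 2) (nat_lit 5) (nat_lit 2) (nat_lit 4) (nat_lit 417) (nat_lit 335) (nat_lit 268))) (XT.nd (nat_lit 78) (nat_lit 0) (nat_lit 0) (XT.lf (nat_lit 0)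 (nat_lit 22004537447789) (nat_lit 76) (nat_lit 2857816628085) (nat_lit 76) (nat_lit 2854427799835) (nat_lit 1) (nat_lit 4) (nat_lit 2) (nat_lit 5) (nat_lit 2) (nat_lit 4) (nat_lit 418) (nat_lit 335) (nat_lit 267)) (XT.nd (nat_lit 78) (nat_lit 0) (nat_lit 0) (XT.lf (nat_lit 0) (nat_lit 25384373507823) (nat_lit 76) (nat_lit 3245125178922) (nat_lit 76) (nat_lit 3241736317709) (nat_lit 1) (nat_lit 4) (nat_lit 2) (nat_lit 5) (nat_lit 2) (nat_lit 4) (nat_lit 419) (nat_lit 335) (nat_lit 266)) (XT.lf (nat_lit 0) (nat_lit 29271183537728) (nat_lit 76) (nat_lit 3690530755184) (nat_lit 76) (nat_lit 3687141865308) (nat_lit 1) (nat_lit 4) (nat_lit 2) (nat_lit 5) (nat_lit 2) (nat_lit 4) (nat_lit 420) (nat_lit 335) (nat_lit 265))))) (XT.nd (nat_lit 47502) (nat_lit 0) (nat_lit 3952) (XT.nd (nat_lit 47424) (nat_lit 0) (nat_lit 5016) (XT.lf (nat_lit 0) (nat_lit 33741013820699) (nat_lit 76) (nat_lit 4202747813799)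 (nat_lit 76) (nat_lit 4199358898998) (nat_lit 1) (nat_lit 4) (nat_lit 2) (nat_lit 5) (nat_lit 2) (nat_lit 4) (nat_lit 421) (nat_lit 335) (nat_lit 264)) (XT.lf (nat_lit 0) (nat_lit 3675422848) (nat_lit 228) (nat_lit 155260991) (nat_lit 228) (nat_lit 155260991) (nat_lit 67) (nat_lit 4) (nat_lit 70) (nat_lit 5) (nat_lit 70) (nat_lit 4) (nat_lit 348) (nat_lit 336) (nat_lit 336))) (XT.nd (nat_lit 78) (nat_lit 608) (nat_lit 0) (XT.lf (nat_lit 0) (nat_lit 3657915606) (nat_lit 228) (nat_lit 3381273168) (nat_lit 228) (nat_lit 1349848126) (nat_lit 61) (nat_lit 4) (nat_lit 64) (nat_lit 5) (nat_lit 64) (nat_lit 4) (nat_lit 349) (nat_lit 336) (nat_lit 335)) (XT.nd (nat_lit 78) (nat_lit 380) (nat_lit 0) (XT.lf (nat_lit 0) (nat_lit 5953785609) (nat_lit 228) (nat_lit 490212568) (nat_lit 0) (nat_lit 2437228571) (nat_lit 58) (nat_lit 5) (nat_lit 61) (nat_lit 4) (nat_lit 58) (nat_lit 4) (nat_lit 350) (nat_lit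 336) (nat_lit 334)) (XT.lf (nat_lit 0) (nat_lit 4333875729) (nat_lit 152) (nat_lit 124153370) (nat_lit 228) (nat_lit 4987579427) (nat_lit 53) (nat_lit 5) (nat_lit 55) (nat_lit 5) (nat_lit 56) (nat_lit 4) (nat_lit 351) (nat_lit 336) (nat_lit 333))))))))
noncomputable def xc37 : XT := (XT.nd (nat_lit 1404) (nat_lit 1140) (nat_lit 0) (XT.nd (nat_lit 702) (nat_lit 1140) (nat_lit 0) (XT.nd (nat_lit 312) (nat_lit 684) (nat_lit 0) (XT.nd (nat_lit 156) (nat_lit 380) (nat_lit 0) (XT.nd (nat_lit 78) (nat_lit 304) (nat_lit 0) (XT.lf (nat_lit 0) (nat_lit 2482477873) (nat_lit 228) (nat_lit 554575071) (nat_lit 76) (nat_lit 7052239646) (nat_lit 50) (nat_lit 5) (nat_lit 53) (nat_lit 5) (nat_lit 51) (nat_lit 4) (nat_lit 352) (nat_lit 336) (nat_lit 332)) (XT.lf (nat_lit 0) (nat_lit 200978) (nat_lit 228) (nat_lit 6216161296) (nat_lit 76) (nat_lit 4599805962) (nat_lit 46) (nat_lit 5) (nat_lit 49) (nat_lit 5)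 (nat_lit 47) (nat_lit 4) (nat_lit 353) (nat_lit 336) (nat_lit 331))) (XT.nd (nat_lit 78) (nat_lit 304) (nat_lit 0) (XT.lf (nat_lit 0) (nat_lit 8314219895) (nat_lit 152) (nat_lit 1505052831) (nat_lit 0) (nat_lit 1815764476) (nat_lit 45) (nat_lit 5) (nat_lit 47) (nat_lit 4) (nat_lit 45) (nat_lit 4) (nat_lit 354) (nat_lit 336) (nat_lit 330)) (XT.lf (nat_lit 0) (nat_lit 3714440343) (nat_lit 76) (nat_lit 1505958306) (nat_lit 152) (nat_lit 7331257298) (nat_lit 41) (nat_lit 5) (nat_lit 42) (nat_lit 5) (nat_lit 43) (nat_lit 4) (nat_lit 355) (nat_lit 336) (nat_lit 329)))) (XT.nd (nat_lit 156) (nat_lit 380) (nat_lit 0) (XT.nd (nat_lit 78) (nat_lit 152) (nat_lit 0) (XT.lf (nat_lit 0) (nat_lit 1409277340) (nat_lit 152) (nat_lit 4203260784) (nat_lit 76) (nat_lit 7966029383) (nat_lit 39) (nat_lit 5) (nat_lit 41) (nat_lit 5) (nat_lit 40) (nat_lit 4) (nat_lit 356) (nat_lit 336) (nat_lit 328)) (XT.lf (nat_lit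 0) (nat_lit 721909618) (nat_lit 76) (nat_lit 10515076820) (nat_lit 76) (nat_lit 3490524110) (nat_lit 37) (nat_lit 4) (nat_lit 38) (nat_lit 5) (nat_lit 38) (nat_lit 4) (nat_lit 357) (nat_lit 336) (nat_lit 327))) (XT.nd (nat_lit 78) (nat_lit 228) (nat_lit 0) (XT.lf (nat_lit 0) (nat_lit 6199955723) (nat_lit 76) (nat_lit 332931194) (nat_lit 152) (nat_lit 9474057109) (nat_lit 35) (nat_lit 5) (nat_lit 36) (nat_lit 5) (nat_lit 37) (nat_lit 4) (nat_lit 358) (nat_lit 336) (nat_lit 326)) (XT.nd (nat_lit 78) (nat_lit 76) (nat_lit 0) (XT.lf (nat_lit 0) (nat_lit 798261098) (nat_lit 152) (nat_lit 5473765691) (nat_lit 76) (nat_lit 11163483098) (nat_lit 33) (nat_lit 5) (nat_lit 35) (nat_lit 5) (nat_lit 34) (nat_lit 4) (nat_lit 359) (nat_lit 336) (nat_lit 325)) (XT.lf (nat_lit 0) (nat_lit 12420931526) (nat_lit 152) (nat_lit 1028794645) (nat_lit 0) (nat_lit 5579334644) (nat_lit 32) (nat_lit 5) (nat_lit 34)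 (nat_lit 4) (nat_lit 32) (nat_lit 4) (nat_lit 360) (nat_lit 336) (nat_lit 324)))))) (XT.nd (nat_lit 312) (nat_lit 608) (nat_lit 0) (XT.nd (nat_lit 156) (nat_lit 228) (nat_lit 0) (XT.nd (nat_lit 78) (nat_lit 76) (nat_lit 0) (XT.lf (nat_lit 0) (nat_lit 3811188327) (nat_lit 76) (nat_lit 1408964917) (nat_lit 152) (nat_lit 15588739944) (nat_lit 29) (nat_lit 5) (nat_lit 30) (nat_lit 5) (nat_lit 31) (nat_lit 4) (nat_lit 361) (nat_lit 336) (nat_lit 323)) (XT.lf (nat_lit 0) (nat_lit 8702611055) (nat_lit 76) (nat_lit 10388265851) (nat_lit 76) (nat_lit 3698351580) (nat_lit 28) (nat_lit 4) (nat_lit 29) (nat_lit 5) (nat_lit 29) (nat_lit 4) (nat_lit 362) (nat_lit 336) (nat_lit 322))) (XT.nd (nat_lit 78) (nat_lit 76) (nat_lit 0) (XT.lf (nat_lit 0) (nat_lit 9985148836) (nat_lit 152) (nat_lit 11363798528) (nat_lit 0) (nat_lit 3657801580) (nat_lit 26) (nat_lit 5) (nat_lit 28) (nat_lit 4) (nat_lit 26) (nat_lit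 4) (nat_lit 363) (nat_lit 336) (nat_lit 321)) (XT.lf (nat_lit 0) (nat_lit 18527989516) (nat_lit 76) (nat_lit 7702959186) (nat_lit 76) (nat_lit 1259975243) (nat_lit 25) (nat_lit 4) (nat_lit 26) (nat_lit 5) (nat_lit 26) (nat_lit 4) (nat_lit 364) (nat_lit 336) (nat_lit 320)))) (XT.nd (nat_lit 156) (nat_lit 304) (nat_lit 0) (XT.nd (nat_lit 78) (nat_lit 152) (nat_lit 0) (XT.lf (nat_lit 0) (nat_lit 14547087747) (nat_lit 152) (nat_lit 7227578508) (nat_lit 0) (nat_lit 8488256651) (nat_lit 23) (nat_lit 5) (nat_lit 25) (nat_lit 4) (nat_lit 23) (nat_lit 4) (nat_lit 365) (nat_lit 336) (nat_lit 319)) (XT.lf (nat_lit 0) (nat_lit 23474877) (nat_lit 152) (nat_lit 6090964415) (nat_lit 76) (nat_lit 27272720157) (nat_lit 21) (nat_lit 5) (nat_lit 23) (nat_lit 5) (nat_lit 22) (nat_lit 4) (nat_lit 366) (nat_lit 336) (nat_lit 318))) (XT.nd (nat_lit 78) (nat_lit 228) (nat_lit 0) (XT.lf (nat_lit 0) (nat_lit 18136824408)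 (nat_lit 152) (nat_lit 6348416262) (nat_lit 0) (nat_lit 12386645625) (nat_lit 20) (nat_lit 5) (nat_lit 22) (nat_lit 4) (nat_lit 20) (nat_lit 4) (nat_lit 367) (nat_lit 336) (nat_lit 317)) (XT.nd (nat_lit 78) (nat_lit 152) (nat_lit 0) (XT.lf (nat_lit 0) (nat_lit 32935544037) (nat_lit 76) (nat_lit 6842873509) (nat_lit 76) (nat_lit 1036011212) (nat_lit 19) (nat_lit 4) (nat_lit 20) (nat_lit 5) (nat_lit 20) (nat_lit 4) (nat_lit 368) (nat_lit 336) (nat_lit 316)) (XT.lf (nat_lit 0) (nat_lit 19395310037) (nat_lit 152) (nat_lit 11859431041) (nat_lit 0) (nat_lit 13972946787) (nat_lit 17) (nat_lit 5) (nat_lit 19) (nat_lit 4) (nat_lit 17) (nat_lit 4) (nat_lit 369) (nat_lit 336) (nat_lit 315))))))) (XT.nd (nat_lit 702) (nat_lit 380) (nat_lit 0) (XT.nd (nat_lit 312) (nat_lit 304) (nat_lit 0) (XT.nd (nat_lit 156) (nat_lit 228) (nat_lit 0) (XT.nd (nat_lit 78) (nat_lit 152) (nat_lit 0) (XT.lf (nat_lit 0) (nat_lit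 31766368458) (nat_lit 76) (nat_lit 11962287215) (nat_lit 76) (nat_lit 6500237965) (nat_lit 16) (nat_lit 4) (nat_lit 17) (nat_lit 5) (nat_lit 17) (nat_lit 4) (nat_lit 370) (nat_lit 336) (nat_lit 314)) (XT.lf (nat_lit 0) (nat_lit 15952453532) (nat_lit 152) (nat_lit 29053899364) (nat_lit 0) (nat_lit 10863047221) (nat_lit 14) (nat_lit 5) (nat_lit 16) (nat_lit 4) (nat_lit 14) (nat_lit 4) (nat_lit 371) (nat_lit 336) (nat_lit 313))) (XT.nd (nat_lit 78) (nat_lit 152) (nat_lit 0) (XT.lf (nat_lit 0) (nat_lit 17517471009) (nat_lit 76) (nat_lit 24928776219) (nat_lit 76) (nat_lit 19811584429) (nat_lit 13) (nat_lit 4) (nat_lit 14) (nat_lit 5) (nat_lit 14) (nat_lit 4) (nat_lit 372) (nat_lit 336) (nat_lit 312)) (XT.lf (nat_lit 0) (nat_lit 2845064203) (nat_lit 76) (nat_lit 994559489) (nat_lit 152) (nat_lit 65702890889) (nat_lit 11) (nat_lit 5) (nat_lit 12) (nat_lit 5) (nat_lit 13) (nat_lit 4) (nat_lit 373)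 (nat_lit 336) (nat_lit 311)))) (XT.nd (nat_lit 156) (nat_lit 228) (nat_lit 0) (XT.nd (nat_lit 78) (nat_lit 76) (nat_lit 0) (XT.lf (nat_lit 0) (nat_lit 31647562440) (nat_lit 152) (nat_lit 19221006491) (nat_lit 0) (nat_lit 26867596800) (nat_lit 11) (nat_lit 5) (nat_lit 13) (nat_lit 4) (nat_lit 11) (nat_lit 4) (nat_lit 374) (nat_lit 336) (nat_lit 310)) (XT.lf (nat_lit 0) (nat_lit 36786895464) (nat_lit 76) (nat_lit 27555786694) (nat_lit 76) (nat_lit 22758904939) (nat_lit 10) (nat_lit 4) (nat_lit 11) (nat_lit 5) (nat_lit 11) (nat_lit 4) (nat_lit 375) (nat_lit 336) (nat_lit 309))) (XT.nd (nat_lit 78) (nat_lit 76) (nat_lit 0) (XT.lf (nat_lit 0) (nat_lit 4254979872) (nat_lit 76) (nat_lit 103948633) (nat_lit 152) (nat_lit 93465680163) (nat_lit 8) (nat_lit 5) (nat_lit 9) (nat_lit 5) (nat_lit 10) (nat_lit 4) (nat_lit 376) (nat_lit 336) (nat_lit 308)) (XT.nd (nat_lit 78) (nat_lit 76) (nat_lit 0) (XT.lf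 (nat_lit 0) (nat_lit 36322068216) (nat_lit 152) (nat_lit 41761660820) (nat_lit 0) (nat_lit 31855047444) (nat_lit 8) (nat_lit 5) (nat_lit 10) (nat_lit 4) (nat_lit 8) (nat_lit 4) (nat_lit 377) (nat_lit 336) (nat_lit 307)) (XT.lf (nat_lit 0) (nat_lit 18427287402) (nat_lit 76) (nat_lit 54948218242) (nat_lit 76) (nat_lit 50470898749) (nat_lit 7) (nat_lit 4) (nat_lit 8) (nat_lit 5) (nat_lit 8) (nat_lit 4) (nat_lit 378) (nat_lit 336) (nat_lit 306)))))) (XT.nd (nat_lit 390) (nat_lit 152) (nat_lit 0) (XT.nd (nat_lit 156) (nat_lit 76) (nat_lit 0) (XT.nd (nat_lit 78) (nat_lit 152) (nat_lit 0) (XT.lf (nat_lit 0) (nat_lit 89890557432) (nat_lit 76) (nat_lit 27174811055) (nat_lit 76) (nat_lit 22688536151) (nat_lit 7) (nat_lit 4) (nat_lit 8) (nat_lit 5) (nat_lit 8) (nat_lit 4) (nat_lit 379) (nat_lit 336) (nat_lit 305)) (XT.lf (nat_lit 0) (nat_lit 9144496137) (nat_lit 152) (nat_lit 143874160819) (nat_lit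 0) (nat_lit 4983327417) (nat_lit 5) (nat_lit 5) (nat_lit 7) (nat_lit 4) (nat_lit 5) (nat_lit 4) (nat_lit 380) (nat_lit 336) (nat_lit 304))) (XT.nd (nat_lit 78) (nat_lit 76) (nat_lit 0) (XT.lf (nat_lit 0) (nat_lit 46573235915) (nat_lit 152) (nat_lit 89787965204) (nat_lit 0) (nat_lit 42405797216) (nat_lit 5) (nat_lit 5) (nat_lit 7) (nat_lit 4) (nat_lit 5) (nat_lit 4) (nat_lit 381) (nat_lit 336) (nat_lit 303)) (XT.nd (nat_lit 78) (nat_lit 76) (nat_lit 0) (XT.lf (nat_lit 0) (nat_lit 89516250345) (nat_lit 152) (nat_lit 27795158027) (nat_lit 0) (nat_lit 85343359491) (nat_lit 5) (nat_lit 5) (nat_lit 7) (nat_lit 4) (nat_lit 5) (nat_lit 4) (nat_lit 382) (nat_lit 336) (nat_lit 302)) (XT.lf (nat_lit 0) (nat_lit 45598168524) (nat_lit 76) (nat_lit 94312197365) (nat_lit 76) (nat_lit 90134565506) (nat_lit 4) (nat_lit 4) (nat_lit 5) (nat_lit 5) (nat_lit 5) (nat_lit 4) (nat_lit 383) (nat_lit 336) (nat_lit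 301))))) (XT.nd (nat_lit 156) (nat_lit 152) (nat_lit 0) (XT.nd (nat_lit 78) (nat_lit 0) (nat_lit 0) (XT.lf (nat_lit 0) (nat_lit 131519463511) (nat_lit 76) (nat_lit 67073770032) (nat_lit 76) (nat_lit 62892015561) (nat_lit 4) (nat_lit 4) (nat_lit 5) (nat_lit 5) (nat_lit 5) (nat_lit 4) (nat_lit 384) (nat_lit 336) (nat_lit 300)) (XT.lf (nat_lit 0) (nat_lit 230186151984) (nat_lit 76) (nat_lit 35823169499) (nat_lit 76) (nat_lit 31637830147) (nat_lit 4) (nat_lit 4) (nat_lit 5) (nat_lit 5) (nat_lit 5) (nat_lit 4) (nat_lit 385) (nat_lit 336) (nat_lit 299))) (XT.nd (nat_lit 78) (nat_lit 0) (nat_lit 0) (XT.lf (nat_lit 0) (nat_lit 4140078612) (nat_lit 152) (nat_lit 334819027513) (nat_lit 0) (nat_lit 261878020) (nat_lit 2) (nat_lit 5) (nat_lit 4) (nat_lit 4) (nat_lit 2) (nat_lit 4) (nat_lit 386) (nat_lit 336) (nat_lit 298)) (XT.nd (nat_lit 78) (nat_lit 0) (nat_lit 0) (XT.lf (nat_lit 0) (nat_lit 46412528754)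 (nat_lit 152) (nat_lit 297780710415) (nat_lit 0) (nat_lit 42531818269) (nat_lit 2) (nat_lit 5) (nat_lit 4) (nat_lit 4) (nat_lit 2) (nat_lit 4) (nat_lit 387) (nat_lit 336) (nat_lit 297)) (XT.lf (nat_lit 0) (nat_lit 94975460508) (nat_lit 152) (nat_lit 255290744810) (nat_lit 0) (nat_lit 91092567506) (nat_lit 2) (nat_lit 5) (nat_lit 4) (nat_lit 4) (nat_lit 2) (nat_lit 4) (nat_lit 388) (nat_lit 336) (nat_lit 296))))))))
noncomputable def xc38 : XT := (XT.nd (nat_lit 1404) (nat_lit 0) (nat_lit 0) (XT.nd (nat_lit 702) (nat_lit 0) (nat_lit 0) (XT.nd (nat_lit 312) (nat_lit 76) (nat_lit 0) (XT.nd (nat_lit 156) (nat_lit 0) (nat_lit 0) (XT.nd (nat_lit 78) (nat_lit 0) (nat_lit 0) (XT.lf (nat_lit 0) (nat_lit 150779018190) (nat_lit 152) (nat_lit 206517805284) (nat_lit 0) (nat_lit 146894227348) (nat_lit 2) (nat_lit 5) (nat_lit 4) (nat_lit 4) (nat_lit 2) (nat_lit 4) (nat_lit 389) (nat_lit 336) (nat_lit 295))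 (XT.lf (nat_lit 0) (nat_lit 214915010537) (nat_lit 152) (nat_lit 150507638673) (nat_lit 0) (nat_lit 211028569400) (nat_lit 2) (nat_lit 5) (nat_lit 4) (nat_lit 4) (nat_lit 2) (nat_lit 4) (nat_lit 390) (nat_lit 336) (nat_lit 294))) (XT.nd (nat_lit 78) (nat_lit 0) (nat_lit 0) (XT.lf (nat_lit 0) (nat_lit 288638272183) (nat_lit 152) (nat_lit 86164393890) (nat_lit 0) (nat_lit 284750396006) (nat_lit 2) (nat_lit 5) (nat_lit 4) (nat_lit 4) (nat_lit 2) (nat_lit 4) (nat_lit 391) (nat_lit 336) (nat_lit 293)) (XT.lf (nat_lit 0) (nat_lit 373391214768) (nat_lit 152) (nat_lit 12229181364) (nat_lit 0) (nat_lit 369502090730) (nat_lit 2) (nat_lit 5) (nat_lit 4) (nat_lit 4) (nat_lit 2) (nat_lit 4) (nat_lit 392) (nat_lit 336) (nat_lit 292)))) (XT.nd (nat_lit 156) (nat_lit 0) (nat_lit 0) (XT.nd (nat_lit 78) (nat_lit 0) (nat_lit 0) (XT.lf (nat_lit 0) (nat_lit 76575156888) (nat_lit 76) (nat_lit 396098525515) (nat_lit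 76) (nat_lit 392208316381) (nat_lit 1) (nat_lit 4) (nat_lit 2) (nat_lit 5) (nat_lit 2) (nat_lit 4) (nat_lit 393) (nat_lit 336) (nat_lit 291)) (XT.lf (nat_lit 0) (nat_lit 179393333178) (nat_lit 76) (nat_lit 407788303879) (nat_lit 76) (nat_lit 403897151184) (nat_lit 1) (nat_lit 4) (nat_lit 2) (nat_lit 5) (nat_lit 2) (nat_lit 4) (nat_lit 394) (nat_lit 336) (nat_lit 290))) (XT.nd (nat_lit 78) (nat_lit 0) (nat_lit 0) (XT.lf (nat_lit 0) (nat_lit 297593040456) (nat_lit 76) (nat_lit 421252811772) (nat_lit 76) (nat_lit 417360838588) (nat_lit 1) (nat_lit 4) (nat_lit 2) (nat_lit 5) (nat_lit 2) (nat_lit 4) (nat_lit 395) (nat_lit 336) (nat_lit 289)) (XT.nd (nat_lit 78) (nat_lit 0) (nat_lit 0) (XT.lf (nat_lit 0) (nat_lit 433486881691) (nat_lit 76) (nat_lit 436755485218) (nat_lit 76) (nat_lit 432862798565) (nat_lit 1) (nat_lit 4) (nat_lit 2) (nat_lit 5) (nat_lit 2) (nat_lit 4) (nat_lit 396) (nat_lit 336)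 (nat_lit 288)) (XT.lf (nat_lit 0) (nat_lit 589733649429) (nat_lit 76) (nat_lit 454599637392) (nat_lit 76) (nat_lit 450706330332) (nat_lit 1) (nat_lit 4) (nat_lit 2) (nat_lit 5) (nat_lit 2) (nat_lit 4) (nat_lit 397) (nat_lit 336) (nat_lit 287)))))) (XT.nd (nat_lit 312) (nat_lit 0) (nat_lit 0) (XT.nd (nat_lit 156) (nat_lit 0) (nat_lit 0) (XT.nd (nat_lit 78) (nat_lit 0) (nat_lit 0) (XT.lf (nat_lit 0) (nat_lit 769390345646) (nat_lit 76) (nat_lit 475134393011) (nat_lit 76) (nat_lit 471240546466) (nat_lit 1) (nat_lit 4) (nat_lit 2) (nat_lit 5) (nat_lit 2) (nat_lit 4) (nat_lit 398) (nat_lit 336) (nat_lit 286)) (XT.lf (nat_lit 0) (nat_lit 975971992661) (nat_lit 76) (nat_lit 498761519032) (nat_lit 76) (nat_lit 494867203371) (nat_lit 1) (nat_lit 4) (nat_lit 2) (nat_lit 5) (nat_lit 2) (nat_lit 4) (nat_lit 399) (nat_lit 336) (nat_lit 285))) (XT.nd (nat_lit 78) (nat_lit 0) (nat_lit 0) (XT.lf (nat_lit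 0) (nat_lit 1213520405307) (nat_lit 76) (nat_lit 525943285313) (nat_lit 76) (nat_lit 522048561724) (nat_lit 1) (nat_lit 4) (nat_lit 2) (nat_lit 5) (nat_lit 2) (nat_lit 4) (nat_lit 400) (nat_lit 336) (nat_lit 284)) (XT.lf (nat_lit 0) (nat_lit 1486683269917) (nat_lit 76) (nat_lit 557211509021) (nat_lit 76) (nat_lit 553316430711) (nat_lit 1) (nat_lit 4) (nat_lit 2) (nat_lit 5) (nat_lit 2) (nat_lit 4) (nat_lit 401) (nat_lit 336) (nat_lit 283)))) (XT.nd (nat_lit 156) (nat_lit 0) (nat_lit 0) (XT.nd (nat_lit 78) (nat_lit 0) (nat_lit 0) (XT.lf (nat_lit 0) (nat_lit 1800805077321) (nat_lit 76) (nat_lit 593177959748) (nat_lit 76) (nat_lit 589282572987) (nat_lit 1) (nat_lit 4) (nat_lit 2) (nat_lit 5) (nat_lit 2) (nat_lit 4) (nat_lit 402) (nat_lit 336) (nat_lit 282)) (XT.lf (nat_lit 0) (nat_lit 2162031688969) (nat_lit 76) (nat_lit 634546328923) (nat_lit 76) (nat_lit 630650673943) (nat_lit 1) (nat_lit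 4) (nat_lit 2) (nat_lit 5) (nat_lit 2) (nat_lit 4) (nat_lit 403) (nat_lit 336) (nat_lit 281))) (XT.nd (nat_lit 78) (nat_lit 0) (nat_lit 0) (XT.lf (nat_lit 0) (nat_lit 2577430582044) (nat_lit 76) (nat_lit 682125997682) (nat_lit 76) (nat_lit 678230109467) (nat_lit 1) (nat_lit 4) (nat_lit 2) (nat_lit 5) (nat_lit 2) (nat_lit 4) (nat_lit 404) (nat_lit 336) (nat_lit 280)) (XT.nd (nat_lit 78) (nat_lit 0) (nat_lit 0) (XT.lf (nat_lit 0) (nat_lit 3055129126194) (nat_lit 76) (nat_lit 736847872586) (nat_lit 76) (nat_lit 732951781560) (nat_lit 1) (nat_lit 4) (nat_lit 2) (nat_lit 5) (nat_lit 2) (nat_lit 4) (nat_lit 405) (nat_lit 336) (nat_lit 279)) (XT.lf (nat_lit 0) (nat_lit 3604473597282) (nat_lit 76) (nat_lit 799782599016) (nat_lit 76) (nat_lit 795886331631) (nat_lit 1) (nat_lit 4) (nat_lit 2) (nat_lit 5) (nat_lit 2) (nat_lit 4) (nat_lit 406) (nat_lit 336) (nat_lit 278))))))) (XT.nd (nat_lit 702) (nat_lit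 0) (nat_lit 0) (XT.nd (nat_lit 312) (nat_lit 0) (nat_lit 0) (XT.nd (nat_lit 156) (nat_lit 0) (nat_lit 0) (XT.nd (nat_lit 78) (nat_lit 0) (nat_lit 0) (XT.lf (nat_lit 0) (nat_lit 4236212039309) (nat_lit 76) (nat_lit 872161508574) (nat_lit 76) (nat_lit 868265087834) (nat_lit 1) (nat_lit 4) (nat_lit 2) (nat_lit 5) (nat_lit 2) (nat_lit 4) (nat_lit 407) (nat_lit 336) (nat_lit 277)) (XT.lf (nat_lit 0) (nat_lit 4962704552226) (nat_lit 76) (nat_lit 955400710362) (nat_lit 76) (nat_lit 951504156269) (nat_lit 1) (nat_lit 4) (nat_lit 2) (nat_lit 5) (nat_lit 2) (nat_lit 4) (nat_lit 408) (nat_lit 336) (nat_lit 276))) (XT.nd (nat_lit 78) (nat_lit 0) (nat_lit 0) (XT.lf (nat_lit 0) (nat_lit 5798165119983) (nat_lit 76) (nat_lit 1051128797456) (nat_lit 76) (nat_lit 1047232127405) (nat_lit 1) (nat_lit 4) (nat_lit 2) (nat_lit 5) (nat_lit 2) (nat_lit 4) (nat_lit 409) (nat_lit 336) (nat_lit 275)) (XT.lf (nat_lit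 0) (nat_lit 6758939710209) (nat_lit 76) (nat_lit 1161218710693) (nat_lit 76) (nat_lit 1157321939808) (nat_lit 1) (nat_lit 4) (nat_lit 2) (nat_lit 5) (nat_lit 2) (nat_lit 4) (nat_lit 410) (nat_lit 336) (nat_lit 274)))) (XT.nd (nat_lit 156) (nat_lit 0) (nat_lit 0) (XT.nd (nat_lit 78) (nat_lit 0) (nat_lit 0) (XT.lf (nat_lit 0) (nat_lit 7863826086626) (nat_lit 76) (nat_lit 1287824383156) (nat_lit 76) (nat_lit 1283927524590) (nat_lit 1) (nat_lit 4) (nat_lit 2) (nat_lit 5) (nat_lit 2) (nat_lit 4) (nat_lit 411) (nat_lit 336) (nat_lit 273)) (XT.lf (nat_lit 0) (nat_lit 9134441591382) (nat_lit 76) (nat_lit 1433422882351) (nat_lit 76) (nat_lit 1429525947541) (nat_lit 1) (nat_lit 4) (nat_lit 2) (nat_lit 5) (nat_lit 2) (nat_lit 4) (nat_lit 412) (nat_lit 336) (nat_lit 272))) (XT.nd (nat_lit 78) (nat_lit 0) (nat_lit 0) (XT.lf (nat_lit 0) (nat_lit 10595646093047) (nat_lit 76) (nat_lit 1600862874567) (nat_lit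 76) (nat_lit 1596965873456) (nat_lit 1) (nat_lit 4) (nat_lit 2) (nat_lit 5) (nat_lit 2) (nat_lit 4) (nat_lit 413) (nat_lit 336) (nat_lit 271)) (XT.nd (nat_lit 78) (nat_lit 0) (nat_lit 0) (XT.lf (nat_lit 0) (nat_lit 12276028375350) (nat_lit 76) (nat_lit 1793420359650) (nat_lit 76) (nat_lit 1789523300888) (nat_lit 1) (nat_lit 4) (nat_lit 2) (nat_lit 5) (nat_lit 2) (nat_lit 4) (nat_lit 414) (nat_lit 336) (nat_lit 270)) (XT.lf (nat_lit 0) (nat_lit 14208465482944) (nat_lit 76) (nat_lit 2014862766657) (nat_lit 76) (nat_lit 2010965657763) (nat_lit 1) (nat_lit 4) (nat_lit 2) (nat_lit 5) (nat_lit 2) (nat_lit 4) (nat_lit 415) (nat_lit 336) (nat_lit 269)))))) (XT.nd (nat_lit 390) (nat_lit 0) (nat_lit 0) (XT.nd (nat_lit 156) (nat_lit 0) (nat_lit 0) (XT.nd (nat_lit 78) (nat_lit 0) (nat_lit 0) (XT.lf (nat_lit 0) (nat_lit 16430765967935) (nat_lit 76) (nat_lit 2269522664421) (nat_lit 76) (nat_lit 2265625511933)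 (nat_lit 1) (nat_lit 4) (nat_lit 2) (nat_lit 5) (nat_lit 2) (nat_lit 4) (nat_lit 416) (nat_lit 336) (nat_lit 268)) (XT.lf (nat_lit 0) (nat_lit 18986409622421) (nat_lit 76) (nat_lit 2562382529202) (nat_lit 76) (nat_lit 2558485338807) (nat_lit 1) (nat_lit 4) (nat_lit 2) (nat_lit 5) (nat_lit 2) (nat_lit 4) (nat_lit 417) (nat_lit 336) (nat_lit 267))) (XT.nd (nat_lit 78) (nat_lit 0) (nat_lit 0) (XT.lf (nat_lit 0) (nat_lit 21925398170076) (nat_lit 76) (nat_lit 2899172227919) (nat_lit 76) (nat_lit 2895275004562) (nat_lit 1) (nat_lit 4) (nat_lit 2) (nat_lit 5) (nat_lit 2) (nat_lit 4) (nat_lit 418) (nat_lit 336) (nat_lit 266)) (XT.nd (nat_lit 78) (nat_lit 0) (nat_lit 0) (XT.lf (nat_lit 0) (nat_lit 25305233560746) (nat_lit 76) (nat_lit 3286481124245) (nat_lit 76) (nat_lit 3282583872224) (nat_lit 1) (nat_lit 4) (nat_lit 2) (nat_lit 5) (nat_lit 2) (nat_lit 4) (nat_lit 419) (nat_lit 336) (nat_lit 265))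 (XT.lf (nat_lit 0) (nat_lit 29192043008595) (nat_lit 76) (nat_lit 3731887000931) (nat_lit 76) (nat_lit 3727989723987) (nat_lit 1) (nat_lit 4) (nat_lit 2) (nat_lit 5) (nat_lit 2) (nat_lit 4) (nat_lit 420) (nat_lit 336) (nat_lit 264))))) (XT.nd (nat_lit 47346) (nat_lit 0) (nat_lit 4484) (XT.nd (nat_lit 47268) (nat_lit 0) (nat_lit 6004) (XT.lf (nat_lit 0) (nat_lit 33661872785430) (nat_lit 76) (nat_lit 4244104320785) (nat_lit 76) (nat_lit 4240207022166) (nat_lit 1) (nat_lit 4) (nat_lit 2) (nat_lit 5) (nat_lit 2) (nat_lit 4) (nat_lit 421) (nat_lit 336) (nat_lit 263)) (XT.lf (nat_lit 0) (nat_lit 1822845292) (nat_lit 532) (nat_lit 2298364) (nat_lit 0) (nat_lit 1822845292) (nat_lit 80) (nat_lit 5) (nat_lit 87) (nat_lit 4) (nat_lit 80) (nat_lit 4) (nat_lit 346) (nat_lit 337) (nat_lit 337))) (XT.nd (nat_lit 78) (nat_lit 760) (nat_lit 0) (XT.lf (nat_lit 0) (nat_lit 2864397763) (nat_lit 304) (nat_lit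 4409707586) (nat_lit 0) (nat_lit 341367861) (nat_lit 70) (nat_lit 5) (nat_lit 74) (nat_lit 4) (nat_lit 70) (nat_lit 4) (nat_lit 347) (nat_lit 337) (nat_lit 336)) (XT.nd (nat_lit 78) (nat_lit 456) (nat_lit 0) (XT.lf (nat_lit 0) (nat_lit 1680284519) (nat_lit 304) (nat_lit 1221977148) (nat_lit 76) (nat_lit 5099192807) (nat_lit 66) (nat_lit 5) (nat_lit 70) (nat_lit 5) (nat_lit 67) (nat_lit 4) (nat_lit 348) (nat_lit 337) (nat_lit 335)) (XT.lf (nat_lit 0) (nat_lit 65563985) (nat_lit 304) (nat_lit 5997647310) (nat_lit 76) (nat_lit 2393808868) (nat_lit 60) (nat_lit 5) (nat_lit 64) (nat_lit 5) (nat_lit 61) (nat_lit 4) (nat_lit 349) (nat_lit 337) (nat_lit 334))))))))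
noncomputable def xc39 : XT := (XT.nd (nat_lit 1404) (nat_lit 1292) (nat_lit 0) (XT.nd (nat_lit 702) (nat_lit 1140) (nat_lit 0) (XT.nd (nat_lit 312) (nat_lit 988) (nat_lit 0) (XT.nd (nat_lit 156) (nat_lit 304) (nat_lit 0) (XT.nd (nat_lit 78) (nat_lit 380) (nat_lit 0) (XT.lf (nat_lit 0) (nat_lit 6561139745) (nat_lit 152) (nat_lit 280787815) (nat_lit 228) (nat_lit 2141533644) (nat_lit 58) (nat_lit 5) (nat_lit 60) (nat_lit 5) (nat_lit 61) (nat_lit 4) (nat_lit 350) (nat_lit 337) (nat_lit 333)) (XT.lf (nat_lit 0) (nat_lit 1516478783) (nat_lit 152) (nat_lit 3221573926) (nat_lit 228) (nat_lit 4845659054) (nat_lit 53) (nat_lit 5) (nat_lit 55) (nat_lit 5) (nat_lit 56) (nat_lit 4) (nat_lit 351) (nat_lit 337) (nat_lit 332))) (XT.nd (nat_lit 78) (nat_lit 76) (nat_lit 0) (XT.lf (nat_lit 0) (nat_lit 2131838543) (nat_lit 228) (nat_lit 4282543989) (nat_lit 76) (nat_lit 3851621585) (nat_lit 50) (nat_lit 5)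 (nat_lit 53) (nat_lit 5) (nat_lit 51) (nat_lit 4) (nat_lit 352) (nat_lit 337) (nat_lit 331)) (XT.lf (nat_lit 0) (nat_lit 9869694241) (nat_lit 152) (nat_lit 174048286) (nat_lit 0) (nat_lit 996860091) (nat_lit 49) (nat_lit 5) (nat_lit 51) (nat_lit 4) (nat_lit 49) (nat_lit 4) (nat_lit 353) (nat_lit 337) (nat_lit 330)))) (XT.nd (nat_lit 156) (nat_lit 456) (nat_lit 0) (XT.nd (nat_lit 78) (nat_lit 228) (nat_lit 0) (XT.lf (nat_lit 0) (nat_lit 4421620860) (nat_lit 76) (nat_lit 2305124867) (nat_lit 152) (nat_lit 5173004930) (nat_lit 45) (nat_lit 5) (nat_lit 46) (nat_lit 5) (nat_lit 47) (nat_lit 4) (nat_lit 354) (nat_lit 337) (nat_lit 329)) (XT.lf (nat_lit 0) (nat_lit 2877976051) (nat_lit 228) (nat_lit 3436263836) (nat_lit 76) (nat_lit 6552349339) (nat_lit 42) (nat_lit 5) (nat_lit 45) (nat_lit 5) (nat_lit 43) (nat_lit 4) (nat_lit 355) (nat_lit 337) (nat_lit 328))) (XT.nd (nat_lit 78) (nat_lit 304)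 (nat_lit 0) (XT.lf (nat_lit 0) (nat_lit 978874767) (nat_lit 76) (nat_lit 11073771517) (nat_lit 76) (nat_lit 1897317778) (nat_lit 40) (nat_lit 4) (nat_lit 41) (nat_lit 5) (nat_lit 41) (nat_lit 4) (nat_lit 356) (nat_lit 337) (nat_lit 327)) (XT.nd (nat_lit 78) (nat_lit 152) (nat_lit 0) (XT.lf (nat_lit 0) (nat_lit 5874355269) (nat_lit 76) (nat_lit 1550556784) (nat_lit 152) (nat_lit 7725694329) (nat_lit 38) (nat_lit 5) (nat_lit 39) (nat_lit 5) (nat_lit 40) (nat_lit 4) (nat_lit 357) (nat_lit 337) (nat_lit 326)) (XT.lf (nat_lit 0) (nat_lit 1838113871) (nat_lit 152) (nat_lit 5353767541) (nat_lit 76) (nat_lit 9300038128) (nat_lit 36) (nat_lit 5) (nat_lit 38) (nat_lit 5) (nat_lit 37) (nat_lit 4) (nat_lit 358) (nat_lit 337) (nat_lit 325)))))) (XT.nd (nat_lit 312) (nat_lit 608) (nat_lit 0) (XT.nd (nat_lit 156) (nat_lit 228) (nat_lit 0) (XT.nd (nat_lit 78) (nat_lit 228) (nat_lit 0) (XT.lf (nat_lit 0)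 (nat_lit 12763230380) (nat_lit 152) (nat_lit 1213246403) (nat_lit 0) (nat_lit 4011191197) (nat_lit 35) (nat_lit 5) (nat_lit 37) (nat_lit 4) (nat_lit 35) (nat_lit 4) (nat_lit 359) (nat_lit 337) (nat_lit 324)) (XT.lf (nat_lit 0) (nat_lit 3335758185) (nat_lit 76) (nat_lit 2582194502) (nat_lit 152) (nat_lit 13732658168) (nat_lit 32) (nat_lit 5) (nat_lit 33) (nat_lit 5) (nat_lit 34) (nat_lit 4) (nat_lit 360) (nat_lit 337) (nat_lit 323))) (XT.nd (nat_lit 78) (nat_lit 152) (nat_lit 0) (XT.lf (nat_lit 0) (nat_lit 8145698904) (nat_lit 76) (nat_lit 10921077850) (nat_lit 76) (nat_lit 2433827335) (nat_lit 31) (nat_lit 4) (nat_lit 32) (nat_lit 5) (nat_lit 32) (nat_lit 4) (nat_lit 361) (nat_lit 337) (nat_lit 322)) (XT.lf (nat_lit 0) (nat_lit 10574550162) (nat_lit 152) (nat_lit 10417442430) (nat_lit 0) (nat_lit 2572364105) (nat_lit 29) (nat_lit 5) (nat_lit 31) (nat_lit 4) (nat_lit 29) (nat_lit 4) (nat_lit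 362) (nat_lit 337) (nat_lit 321)))) (XT.nd (nat_lit 156) (nat_lit 380) (nat_lit 0) (XT.nd (nat_lit 78) (nat_lit 76) (nat_lit 0) (XT.lf (nat_lit 0) (nat_lit 278238105) (nat_lit 152) (nat_lit 7548338420) (nat_lit 76) (nat_lit 18043603150) (nat_lit 27) (nat_lit 5) (nat_lit 29) (nat_lit 5) (nat_lit 28) (nat_lit 4) (nat_lit 363) (nat_lit 337) (nat_lit 320)) (XT.lf (nat_lit 0) (nat_lit 15519771310) (nat_lit 152) (nat_lit 5020780109) (nat_lit 0) (nat_lit 7894149447) (nat_lit 26) (nat_lit 5) (nat_lit 28) (nat_lit 4) (nat_lit 26) (nat_lit 4) (nat_lit 364) (nat_lit 337) (nat_lit 319))) (XT.nd (nat_lit 78) (nat_lit 228) (nat_lit 0) (XT.lf (nat_lit 0) (nat_lit 2406849676) (nat_lit 152) (nat_lit 2706812484) (nat_lit 76) (nat_lit 26200930672) (nat_lit 24) (nat_lit 5) (nat_lit 26) (nat_lit 5) (nat_lit 25) (nat_lit 4) (nat_lit 365) (nat_lit 337) (nat_lit 318)) (XT.nd (nat_lit 78) (nat_lit 152) (nat_lit 0)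 (XT.lf (nat_lit 0) (nat_lit 20268990987) (nat_lit 152) (nat_lit 1193236434) (nat_lit 0) (nat_lit 13056868014) (nat_lit 23) (nat_lit 5) (nat_lit 25) (nat_lit 4) (nat_lit 23) (nat_lit 4) (nat_lit 366) (nat_lit 337) (nat_lit 317)) (XT.lf (nat_lit 0) (nat_lit 3345912886) (nat_lit 152) (nat_lit 313842364) (nat_lit 76) (nat_lit 34469901407) (nat_lit 21) (nat_lit 5) (nat_lit 23) (nat_lit 5) (nat_lit 22) (nat_lit 4) (nat_lit 367) (nat_lit 337) (nat_lit 316))))))) (XT.nd (nat_lit 702) (nat_lit 456) (nat_lit 0) (XT.nd (nat_lit 312) (nat_lit 456) (nat_lit 0) (XT.nd (nat_lit 156) (nat_lit 152) (nat_lit 0) (XT.nd (nat_lit 78) (nat_lit 152) (nat_lit 0) (XT.lf (nat_lit 0) (nat_lit 23964996763) (nat_lit 152) (nat_lit 1007873884) (nat_lit 0) (nat_lit 17181131594) (nat_lit 20) (nat_lit 5) (nat_lit 22) (nat_lit 4) (nat_lit 20) (nat_lit 4) (nat_lit 368) (nat_lit 337) (nat_lit 315)) (XT.lf (nat_lit 0) (nat_lit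 1782854806) (nat_lit 152) (nat_lit 3118388051) (nat_lit 76) (nat_lit 41804424658) (nat_lit 18) (nat_lit 5) (nat_lit 20) (nat_lit 5) (nat_lit 19) (nat_lit 4) (nat_lit 369) (nat_lit 337) (nat_lit 314))) (XT.nd (nat_lit 78) (nat_lit 76) (nat_lit 0) (XT.lf (nat_lit 0) (nat_lit 25035386173) (nat_lit 152) (nat_lit 8078119953) (nat_lit 0) (nat_lit 18679833969) (nat_lit 17) (nat_lit 5) (nat_lit 19) (nat_lit 4) (nat_lit 17) (nat_lit 4) (nat_lit 370) (nat_lit 337) (nat_lit 313)) (XT.lf (nat_lit 0) (nat_lit 41620904055) (nat_lit 76) (nat_lit 11164045481) (nat_lit 76) (nat_lit 4778484959) (nat_lit 16) (nat_lit 4) (nat_lit 17) (nat_lit 5) (nat_lit 17) (nat_lit 4) (nat_lit 371) (nat_lit 337) (nat_lit 312)))) (XT.nd (nat_lit 156) (nat_lit 228) (nat_lit 0) (XT.nd (nat_lit 78) (nat_lit 76) (nat_lit 0) (XT.lf (nat_lit 0) (nat_lit 20746732396) (nat_lit 152) (nat_lit 28500922791) (nat_lit 0) (nat_lit 14810015071)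 (nat_lit 14) (nat_lit 5) (nat_lit 16) (nat_lit 4) (nat_lit 14) (nat_lit 4) (nat_lit 372) (nat_lit 337) (nat_lit 311)) (XT.lf (nat_lit 0) (nat_lit 24640456244) (nat_lit 76) (nat_lit 26369025028) (nat_lit 76) (nat_lit 20411297889) (nat_lit 13) (nat_lit 4) (nat_lit 14) (nat_lit 5) (nat_lit 14) (nat_lit 4) (nat_lit 373) (nat_lit 337) (nat_lit 310))) (XT.nd (nat_lit 78) (nat_lit 76) (nat_lit 0) (XT.lf (nat_lit 0) (nat_lit 6501091180) (nat_lit 152) (nat_lit 72338178716) (nat_lit 0) (nat_lit 967761047) (nat_lit 11) (nat_lit 5) (nat_lit 13) (nat_lit 4) (nat_lit 11) (nat_lit 4) (nat_lit 374) (nat_lit 337) (nat_lit 309)) (XT.nd (nat_lit 78) (nat_lit 76) (nat_lit 0) (XT.lf (nat_lit 0) (nat_lit 38232115059) (nat_lit 152) (nat_lit 18333390367) (nat_lit 0) (nat_lit 32684075261) (nat_lit 11) (nat_lit 5) (nat_lit 13) (nat_lit 4) (nat_lit 11) (nat_lit 4) (nat_lit 375) (nat_lit 337) (nat_lit 308)) (XT.lf (nat_lit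 0) (nat_lit 45756520228) (nat_lit 76) (nat_lit 29918330090) (nat_lit 76) (nat_lit 24357499279) (nat_lit 10) (nat_lit 4) (nat_lit 11) (nat_lit 5) (nat_lit 11) (nat_lit 4) (nat_lit 376) (nat_lit 337) (nat_lit 307)))))) (XT.nd (nat_lit 390) (nat_lit 76) (nat_lit 0) (XT.nd (nat_lit 156) (nat_lit 228) (nat_lit 0) (XT.nd (nat_lit 78) (nat_lit 0) (nat_lit 0) (XT.lf (nat_lit 0) (nat_lit 6627430751) (nat_lit 152) (nat_lit 104273470056) (nat_lit 0) (nat_lit 1468214611) (nat_lit 8) (nat_lit 5) (nat_lit 10) (nat_lit 4) (nat_lit 8) (nat_lit 4) (nat_lit 377) (nat_lit 337) (nat_lit 306)) (XT.lf (nat_lit 0) (nat_lit 43176933171) (nat_lit 152) (nat_lit 45131363772) (nat_lit 0) (nat_lit 38008761621) (nat_lit 8) (nat_lit 5) (nat_lit 10) (nat_lit 4) (nat_lit 8) (nat_lit 4) (nat_lit 378) (nat_lit 337) (nat_lit 305))) (XT.nd (nat_lit 78) (nat_lit 152) (nat_lit 0) (XT.lf (nat_lit 0) (nat_lit 23840917767) (nat_lit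 76) (nat_lit 61827726222) (nat_lit 76) (nat_lit 56651767358) (nat_lit 7) (nat_lit 4) (nat_lit 8) (nat_lit 5) (nat_lit 8) (nat_lit 4) (nat_lit 379) (nat_lit 337) (nat_lit 304)) (XT.nd (nat_lit 78) (nat_lit 152) (nat_lit 0) (XT.lf (nat_lit 0) (nat_lit 105678086486) (nat_lit 76) (nat_lit 30066054664) (nat_lit 76) (nat_lit 24883324223) (nat_lit 7) (nat_lit 4) (nat_lit 8) (nat_lit 5) (nat_lit 8) (nat_lit 4) (nat_lit 380) (nat_lit 337) (nat_lit 303)) (XT.lf (nat_lit 0) (nat_lit 11593305759) (nat_lit 152) (nat_lit 163233770238) (nat_lit 0) (nat_lit 6789029121) (nat_lit 5) (nat_lit 5) (nat_lit 7) (nat_lit 4) (nat_lit 5) (nat_lit 4) (nat_lit 381) (nat_lit 337) (nat_lit 302))))) (XT.nd (nat_lit 156) (nat_lit 76) (nat_lit 0) (XT.nd (nat_lit 78) (nat_lit 0) (nat_lit 0) (XT.lf (nat_lit 0) (nat_lit 54495860608) (nat_lit 152) (nat_lit 101324408068) (nat_lit 0) (nat_lit 49686842965) (nat_lit 5) (nat_lit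 5) (nat_lit 7) (nat_lit 4) (nat_lit 5) (nat_lit 4) (nat_lit 382) (nat_lit 337) (nat_lit 301)) (XT.lf (nat_lit 0) (nat_lit 103758156858) (nat_lit 152) (nat_lit 30284647455) (nat_lit 0) (nat_lit 98945016603) (nat_lit 5) (nat_lit 5) (nat_lit 7) (nat_lit 4) (nat_lit 5) (nat_lit 4) (nat_lit 383) (nat_lit 337) (nat_lit 300))) (XT.nd (nat_lit 78) (nat_lit 0) (nat_lit 0) (XT.lf (nat_lit 0) (nat_lit 53975492706) (nat_lit 76) (nat_lit 107666641237) (nat_lit 76) (nat_lit 102849916101) (nat_lit 4) (nat_lit 4) (nat_lit 5) (nat_lit 5) (nat_lit 5) (nat_lit 4) (nat_lit 384) (nat_lit 337) (nat_lit 299)) (XT.nd (nat_lit 78) (nat_lit 0) (nat_lit 0) (XT.lf (nat_lit 0) (nat_lit 152584425562) (nat_lit 76) (nat_lit 76445804465) (nat_lit 76) (nat_lit 71625962042) (nat_lit 4) (nat_lit 4) (nat_lit 5) (nat_lit 5) (nat_lit 5) (nat_lit 4) (nat_lit 385) (nat_lit 337) (nat_lit 298)) (XT.lf (nat_lit 0) (nat_lit 265876720455)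 (nat_lit 76) (nat_lit 40597487470) (nat_lit 76) (nat_lit 35774934362) (nat_lit 4) (nat_lit 4) (nat_lit 5) (nat_lit 5) (nat_lit 5) (nat_lit 4) (nat_lit 386) (nat_lit 337) (nat_lit 297))))))))
noncomputable def xc40 : XT := (XT.nd (nat_lit 1404) (nat_lit 0) (nat_lit 0) (XT.nd (nat_lit 702) (nat_lit 0) (nat_lit 0) (XT.nd (nat_lit 312) (nat_lit 76) (nat_lit 0) (XT.nd (nat_lit 156) (nat_lit 0) (nat_lit 0) (XT.nd (nat_lit 78) (nat_lit 0) (nat_lit 0) (XT.lf (nat_lit 0) (nat_lit 5303617760) (nat_lit 152) (nat_lit 383921001086) (nat_lit 0) (nat_lit 836108292) (nat_lit 2) (nat_lit 5) (nat_lit 4) (nat_lit 4) (nat_lit 2) (nat_lit 4) (nat_lit 387) (nat_lit 337) (nat_lit 296)) (XT.lf (nat_lit 0) (nat_lit 53846170986) (nat_lit 152) (nat_lit 341473138235) (nat_lit 0) (nat_lit 49376763678) (nat_lit 2) (nat_lit 5) (nat_lit 4) (nat_lit 4) (nat_lit 2) (nat_lit 4) (nat_lit 388) (nat_lit 337) (nat_lit 295))) (XT.nd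 (nat_lit 78) (nat_lit 0) (nat_lit 0) (XT.lf (nat_lit 0) (nat_lit 109632008209) (nat_lit 152) (nat_lit 292736809799) (nat_lit 0) (nat_lit 105160950605) (nat_lit 2) (nat_lit 5) (nat_lit 4) (nat_lit 4) (nat_lit 2) (nat_lit 4) (nat_lit 389) (nat_lit 337) (nat_lit 294)) (XT.lf (nat_lit 0) (nat_lit 173752591461) (nat_lit 152) (nat_lit 236758478918) (nat_lit 0) (nat_lit 169280098818) (nat_lit 2) (nat_lit 5) (nat_lit 4) (nat_lit 4) (nat_lit 2) (nat_lit 4) (nat_lit 390) (nat_lit 337) (nat_lit 293)))) (XT.nd (nat_lit 156) (nat_lit 76) (nat_lit 0) (XT.nd (nat_lit 78) (nat_lit 0) (nat_lit 0) (XT.lf (nat_lit 0) (nat_lit 247462453894) (nat_lit 152) (nat_lit 172442917379) (nat_lit 0) (nat_lit 242988713390) (nat_lit 2) (nat_lit 5) (nat_lit 4) (nat_lit 4) (nat_lit 2) (nat_lit 4) (nat_lit 391) (nat_lit 337) (nat_lit 292)) (XT.lf (nat_lit 0) (nat_lit 332203744990) (nat_lit 152) (nat_lit 98531777240) (nat_lit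 0) (nat_lit 327728919390) (nat_lit 2) (nat_lit 5) (nat_lit 4) (nat_lit 4) (nat_lit 2) (nat_lit 4) (nat_lit 392) (nat_lit 337) (nat_lit 291))) (XT.nd (nat_lit 78) (nat_lit 76) (nat_lit 0) (XT.lf (nat_lit 0) (nat_lit 429634446531) (nat_lit 152) (nat_lit 13578970974) (nat_lit 0) (nat_lit 425158677369) (nat_lit 2) (nat_lit 5) (nat_lit 4) (nat_lit 4) (nat_lit 2) (nat_lit 4) (nat_lit 393) (nat_lit 337) (nat_lit 290)) (XT.nd (nat_lit 78) (nat_lit 0) (nat_lit 0) (XT.lf (nat_lit 0) (nat_lit 88505000090) (nat_lit 76) (nat_lit 455284358663) (nat_lit 76) (nat_lit 450807769012) (nat_lit 1) (nat_lit 4) (nat_lit 2) (nat_lit 5) (nat_lit 2) (nat_lit 4) (nat_lit 394) (nat_lit 337) (nat_lit 289)) (XT.lf (nat_lit 0) (nat_lit 206688045910) (nat_lit 76) (nat_lit 468757466262) (nat_lit 76) (nat_lit 464280163143) (nat_lit 1) (nat_lit 4) (nat_lit 2) (nat_lit 5) (nat_lit 2) (nat_lit 4) (nat_lit 395) (nat_lit 337)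 (nat_lit 288)))))) (XT.nd (nat_lit 312) (nat_lit 0) (nat_lit 0) (XT.nd (nat_lit 156) (nat_lit 0) (nat_lit 0) (XT.nd (nat_lit 78) (nat_lit 0) (nat_lit 0) (XT.lf (nat_lit 0) (nat_lit 342567398921) (nat_lit 76) (nat_lit 484267617713) (nat_lit 76) (nat_lit 479789694187) (nat_lit 1) (nat_lit 4) (nat_lit 2) (nat_lit 5) (nat_lit 2) (nat_lit 4) (nat_lit 396) (nat_lit 337) (nat_lit 287)) (XT.lf (nat_lit 0) (nat_lit 498801568202) (nat_lit 76) (nat_lit 502118272500) (nat_lit 76) (nat_lit 497639809490) (nat_lit 1) (nat_lit 4) (nat_lit 2) (nat_lit 5) (nat_lit 2) (nat_lit 4) (nat_lit 397) (nat_lit 337) (nat_lit 286))) (XT.nd (nat_lit 78) (nat_lit 0) (nat_lit 0) (XT.lf (nat_lit 0) (nat_lit 678447309241) (nat_lit 76) (nat_lit 522658682566) (nat_lit 76) (nat_lit 518179750438) (nat_lit 1) (nat_lit 4) (nat_lit 2) (nat_lit 5) (nat_lit 2) (nat_lit 4) (nat_lit 398) (nat_lit 337) (nat_lit 285)) (XT.lf (nat_lit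 0) (nat_lit 885019430013) (nat_lit 76) (nat_lit 546290725497) (nat_lit 76) (nat_lit 541811385442) (nat_lit 1) (nat_lit 4) (nat_lit 2) (nat_lit 5) (nat_lit 2) (nat_lit 4) (nat_lit 399) (nat_lit 337) (nat_lit 284)))) (XT.nd (nat_lit 156) (nat_lit 0) (nat_lit 0) (XT.nd (nat_lit 78) (nat_lit 0) (nat_lit 0) (XT.lf (nat_lit 0) (nat_lit 1122559558969) (nat_lit 76) (nat_lit 573476767352) (nat_lit 76) (nat_lit 568997072577) (nat_lit 1) (nat_lit 4) (nat_lit 2) (nat_lit 5) (nat_lit 2) (nat_lit 4) (nat_lit 400) (nat_lit 337) (nat_lit 283)) (XT.lf (nat_lit 0) (nat_lit 1395715220371) (nat_lit 76) (nat_lit 604748708950) (nat_lit 76) (nat_lit 600268705722) (nat_lit 1) (nat_lit 4) (nat_lit 2) (nat_lit 5) (nat_lit 2) (nat_lit 4) (nat_lit 401) (nat_lit 337) (nat_lit 282))) (XT.nd (nat_lit 78) (nat_lit 0) (nat_lit 0) (XT.lf (nat_lit 0) (nat_lit 1709830764116) (nat_lit 76) (nat_lit 640718392625) (nat_lit 76)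 (nat_lit 636238121178) (nat_lit 1) (nat_lit 4) (nat_lit 2) (nat_lit 5) (nat_lit 2) (nat_lit 4) (nat_lit 402) (nat_lit 337) (nat_lit 281)) (XT.nd (nat_lit 78) (nat_lit 0) (nat_lit 0) (XT.lf (nat_lit 0) (nat_lit 2071051929103) (nat_lit 76) (nat_lit 682089573059) (nat_lit 76) (nat_lit 677609068379) (nat_lit 1) (nat_lit 4) (nat_lit 2) (nat_lit 5) (nat_lit 2) (nat_lit 4) (nat_lit 403) (nat_lit 337) (nat_lit 280)) (XT.lf (nat_lit 0) (nat_lit 2486446085952) (nat_lit 76) (nat_lit 729671686391) (nat_lit 76) (nat_lit 725190978898) (nat_lit 1) (nat_lit 4) (nat_lit 2) (nat_lit 5) (nat_lit 2) (nat_lit 4) (nat_lit 404) (nat_lit 337) (nat_lit 279))))))) (XT.nd (nat_lit 702) (nat_lit 0) (nat_lit 0) (XT.nd (nat_lit 312) (nat_lit 0) (nat_lit 0) (XT.nd (nat_lit 156) (nat_lit 0) (nat_lit 0) (XT.nd (nat_lit 78) (nat_lit 0) (nat_lit 0) (XT.lf (nat_lit 0) (nat_lit 2964140511644) (nat_lit 76) (nat_lit 784395687012)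 (nat_lit 76) (nat_lit 779914803160) (nat_lit 1) (nat_lit 4) (nat_lit 2) (nat_lit 5) (nat_lit 2) (nat_lit 4) (nat_lit 405) (nat_lit 337) (nat_lit 278)) (XT.lf (nat_lit 0) (nat_lit 3513481401465) (nat_lit 76) (nat_lit 847332261890) (nat_lit 76) (nat_lit 842851224683) (nat_lit 1) (nat_lit 4) (nat_lit 2) (nat_lit 5) (nat_lit 2) (nat_lit 4) (nat_lit 406) (nat_lit 337) (nat_lit 277))) (XT.nd (nat_lit 78) (nat_lit 0) (nat_lit 0) (XT.lf (nat_lit 0) (nat_lit 4145216729346) (nat_lit 76) (nat_lit 919712778795) (nat_lit 76) (nat_lit 915231608236) (nat_lit 1) (nat_lit 4) (nat_lit 2) (nat_lit 5) (nat_lit 2) (nat_lit 4) (nat_lit 407) (nat_lit 337) (nat_lit 276)) (XT.lf (nat_lit 0) (nat_lit 4871706534311) (nat_lit 76) (nat_lit 1002953378275) (nat_lit 76) (nat_lit 998472091757) (nat_lit 1) (nat_lit 4) (nat_lit 2) (nat_lit 5) (nat_lit 2) (nat_lit 4) (nat_lit 408) (nat_lit 337) (nat_lit 275)))) (XT.nd (nat_lit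 156) (nat_lit 0) (nat_lit 0) (XT.nd (nat_lit 78) (nat_lit 0) (nat_lit 0) (XT.lf (nat_lit 0) (nat_lit 5707164747326) (nat_lit 76) (nat_lit 1098682680755) (nat_lit 76) (nat_lit 1094201293404) (nat_lit 1) (nat_lit 4) (nat_lit 2) (nat_lit 5) (nat_lit 2) (nat_lit 4) (nat_lit 409) (nat_lit 337) (nat_lit 274)) (XT.lf (nat_lit 0) (nat_lit 6667937289951) (nat_lit 76) (nat_lit 1208773650848) (nat_lit 76) (nat_lit 1204292175815) (nat_lit 1) (nat_lit 4) (nat_lit 2) (nat_lit 5) (nat_lit 2) (nat_lit 4) (nat_lit 410) (nat_lit 337) (nat_lit 273))) (XT.nd (nat_lit 78) (nat_lit 0) (nat_lit 0) (XT.lf (nat_lit 0) (nat_lit 7772821885845) (nat_lit 76) (nat_lit 1335380242317) (nat_lit 76) (nat_lit 1330898691040) (nat_lit 1) (nat_lit 4) (nat_lit 2) (nat_lit 5) (nat_lit 2) (nat_lit 4) (nat_lit 411) (nat_lit 337) (nat_lit 272)) (XT.nd (nat_lit 78) (nat_lit 0) (nat_lit 0) (XT.lf (nat_lit 0) (nat_lit 9043435842320)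 (nat_lit 76) (nat_lit 1480979540647) (nat_lit 76) (nat_lit 1476497923070) (nat_lit 1) (nat_lit 4) (nat_lit 2) (nat_lit 5) (nat_lit 2) (nat_lit 4) (nat_lit 412) (nat_lit 337) (nat_lit 271)) (XT.lf (nat_lit 0) (nat_lit 10504638997654) (nat_lit 76) (nat_lit 1648420227763) (nat_lit 76) (nat_lit 1643938552534) (nat_lit 1) (nat_lit 4) (nat_lit 2) (nat_lit 5) (nat_lit 2) (nat_lit 4) (nat_lit 413) (nat_lit 337) (nat_lit 270)))))) (XT.nd (nat_lit 312) (nat_lit 0) (nat_lit 0) (XT.nd (nat_lit 156) (nat_lit 0) (nat_lit 0) (XT.nd (nat_lit 78) (nat_lit 0) (nat_lit 0) (XT.lf (nat_lit 0) (nat_lit 12185020109234) (nat_lit 76) (nat_lit 1840978317107) (nat_lit 76) (nat_lit 1836496591746) (nat_lit 1) (nat_lit 4) (nat_lit 2) (nat_lit 5) (nat_lit 2) (nat_lit 4) (nat_lit 414) (nat_lit 337) (nat_lit 269)) (XT.lf (nat_lit 0) (nat_lit 14117456198809) (nat_lit 76) (nat_lit 2062421249559) (nat_lit 76) (nat_lit 2057939480605)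 (nat_lit 1) (nat_lit 4) (nat_lit 2) (nat_lit 5) (nat_lit 2) (nat_lit 4) (nat_lit 415) (nat_lit 337) (nat_lit 268))) (XT.nd (nat_lit 78) (nat_lit 0) (nat_lit 0) (XT.lf (nat_lit 0) (nat_lit 16339755798566) (nat_lit 76) (nat_lit 2317081604230) (nat_lit 76) (nat_lit 2312599797370) (nat_lit 1) (nat_lit 4) (nat_lit 2) (nat_lit 5) (nat_lit 2) (nat_lit 4) (nat_lit 416) (nat_lit 337) (nat_lit 267)) (XT.lf (nat_lit 0) (nat_lit 18895398683282) (nat_lit 76) (nat_lit 2609941866323) (nat_lit 76) (nat_lit 2605460026499) (nat_lit 1) (nat_lit 4) (nat_lit 2) (nat_lit 5) (nat_lit 2) (nat_lit 4) (nat_lit 417) (nat_lit 337) (nat_lit 266)))) (XT.nd (nat_lit 156) (nat_lit 0) (nat_lit 0) (XT.nd (nat_lit 78) (nat_lit 0) (nat_lit 0) (XT.lf (nat_lit 0) (nat_lit 21834386561573) (nat_lit 76) (nat_lit 2946731910529) (nat_lit 76) (nat_lit 2942250042042) (nat_lit 1) (nat_lit 4) (nat_lit 2) (nat_lit 5) (nat_lit 2) (nat_lit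 4) (nat_lit 418) (nat_lit 337) (nat_lit 265)) (XT.lf (nat_lit 0) (nat_lit 25214221370186) (nat_lit 76) (nat_lit 3334041107279) (nat_lit 76) (nat_lit 3329559213868) (nat_lit 1) (nat_lit 4) (nat_lit 2) (nat_lit 5) (nat_lit 2) (nat_lit 4) (nat_lit 419) (nat_lit 337) (nat_lit 264))) (XT.nd (nat_lit 78) (nat_lit 0) (nat_lit 0) (XT.lf (nat_lit 0) (nat_lit 29101030311900) (nat_lit 76) (nat_lit 3779447245204) (nat_lit 76) (nat_lit 3774965330120) (nat_lit 1) (nat_lit 4) (nat_lit 2) (nat_lit 5) (nat_lit 2) (nat_lit 4) (nat_lit 420) (nat_lit 337) (nat_lit 263)) (XT.nd (nat_lit 47112) (nat_lit 0) (nat_lit 6916) (XT.lf (nat_lit 0) (nat_lit 33570859648616) (nat_lit 76) (nat_lit 4291664792222) (nat_lit 76) (nat_lit 4287182858290) (nat_lit 1) (nat_lit 4) (nat_lit 2) (nat_lit 5) (nat_lit 2) (nat_lit 4) (nat_lit 421) (nat_lit 337) (nat_lit 262)) (XT.lf (nat_lit 0) (nat_lit 587396595) (nat_lit 380) (nat_lit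 2234686383) (nat_lit 0) (nat_lit 587396595) (nat_lit 92) (nat_lit 5) (nat_lit 97) (nat_lit 4) (nat_lit 92) (nat_lit 4) (nat_lit 344) (nat_lit 338) (nat_lit 338))))))))
noncomputable def xc41 : XT := (XT.nd (nat_lit 1404) (nat_lit 1748) (nat_lit 0) (XT.nd (nat_lit 702) (nat_lit 1444) (nat_lit 0) (XT.nd (nat_lit 312) (nat_lit 1292) (nat_lit 0) (XT.nd (nat_lit 156) (nat_lit 1064) (nat_lit 0) (XT.nd (nat_lit 78) (nat_lit 456) (nat_lit 0) (XT.lf (nat_lit 0) (nat_lit 354205111) (nat_lit 456) (nat_lit 2647544758) (nat_lit 76) (nat_lit 4039296874) (nat_lit 86) (nat_lit 5) (nat_lit 92) (nat_lit 5) (nat_lit 87) (nat_lit 4) (nat_lit 345) (nat_lit 338) (nat_lit 337)) (XT.lf (nat_lit 0) (nat_lit 6359512981) (nat_lit 532) (nat_lit 469141414) (nat_lit 0) (nat_lit 501037548) (nat_lit 80) (nat_lit 5) (nat_lit 87) (nat_lit 4) (nat_lit 80) (nat_lit 4) (nat_lit 346) (nat_lit 338) (nat_lit 336))) (XT.nd (nat_lit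 78) (nat_lit 304) (nat_lit 0) (XT.lf (nat_lit 0) (nat_lit 2127259830) (nat_lit 228) (nat_lit 2851196628) (nat_lit 304) (nat_lit 2700238589) (nat_lit 70) (nat_lit 5) (nat_lit 73) (nat_lit 5) (nat_lit 74) (nat_lit 4) (nat_lit 347) (nat_lit 338) (nat_lit 335)) (XT.lf (nat_lit 0) (nat_lit 3163742910) (nat_lit 304) (nat_lit 2945641164) (nat_lit 76) (nat_lit 1988614707) (nat_lit 66) (nat_lit 5) (nat_lit 70) (nat_lit 5) (nat_lit 67) (nat_lit 4) (nat_lit 348) (nat_lit 338) (nat_lit 334)))) (XT.nd (nat_lit 156) (nat_lit 684) (nat_lit 0) (XT.nd (nat_lit 78) (nat_lit 380) (nat_lit 0) (XT.lf (nat_lit 0) (nat_lit 879148295) (nat_lit 228) (nat_lit 1989418) (nat_lit 76) (nat_lit 7710143070) (nat_lit 63) (nat_lit 5) (nat_lit 66) (nat_lit 5) (nat_lit 64) (nat_lit 5) (nat_lit 349) (nat_lit 338) (nat_lit 333)) (XT.lf (nat_lit 0) (nat_lit 3390925588) (nat_lit 152) (nat_lit 3860636780) (nat_lit 228) (nat_lit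 1898535139) (nat_lit 58) (nat_lit 5) (nat_lit 60) (nat_lit 5) (nat_lit 61) (nat_lit 4) (nat_lit 350) (nat_lit 338) (nat_lit 332))) (XT.nd (nat_lit 78) (nat_lit 456) (nat_lit 0) (XT.lf (nat_lit 0) (nat_lit 4462375857) (nat_lit 228) (nat_lit 2619923032) (nat_lit 76) (nat_lit 2708151301) (nat_lit 55) (nat_lit 5) (nat_lit 58) (nat_lit 5) (nat_lit 56) (nat_lit 4) (nat_lit 351) (nat_lit 338) (nat_lit 331)) (XT.nd (nat_lit 78) (nat_lit 76) (nat_lit 0) (XT.lf (nat_lit 0) (nat_lit 924453715) (nat_lit 152) (nat_lit 183758438) (nat_lit 228) (nat_lit 9410724754) (nat_lit 50) (nat_lit 5) (nat_lit 52) (nat_lit 5) (nat_lit 53) (nat_lit 5) (nat_lit 352) (nat_lit 338) (nat_lit 330)) (XT.lf (nat_lit 0) (nat_lit 4872393052) (nat_lit 76) (nat_lit 3546499246) (nat_lit 152) (nat_lit 2908850821) (nat_lit 49) (nat_lit 5) (nat_lit 50) (nat_lit 5) (nat_lit 51) (nat_lit 4) (nat_lit 353) (nat_lit 338) (nat_lit 329))))))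 (XT.nd (nat_lit 312) (nat_lit 684) (nat_lit 0) (XT.nd (nat_lit 156) (nat_lit 304) (nat_lit 0) (XT.nd (nat_lit 78) (nat_lit 228) (nat_lit 0) (XT.lf (nat_lit 0) (nat_lit 4472289627) (nat_lit 228) (nat_lit 3006565562) (nat_lit 76) (nat_lit 4759683086) (nat_lit 46) (nat_lit 5) (nat_lit 49) (nat_lit 5) (nat_lit 47) (nat_lit 4) (nat_lit 354) (nat_lit 338) (nat_lit 328)) (XT.lf (nat_lit 0) (nat_lit 867423521) (nat_lit 152) (nat_lit 12140135746) (nat_lit 152) (nat_lit 254864186) (nat_lit 43) (nat_lit 4) (nat_lit 45) (nat_lit 5) (nat_lit 45) (nat_lit 4) (nat_lit 355) (nat_lit 338) (nat_lit 327))) (XT.nd (nat_lit 78) (nat_lit 152) (nat_lit 0) (XT.lf (nat_lit 0) (nat_lit 5134246051) (nat_lit 76) (nat_lit 3252276217) (nat_lit 152) (nat_lit 6003468010) (nat_lit 41) (nat_lit 5) (nat_lit 42) (nat_lit 5) (nat_lit 43) (nat_lit 4) (nat_lit 356) (nat_lit 338) (nat_lit 326)) (XT.lf (nat_lit 0) (nat_lit 2851549955)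 (nat_lit 152) (nat_lit 5808411371) (nat_lit 76) (nat_lit 6992396242) (nat_lit 39) (nat_lit 5) (nat_lit 41) (nat_lit 5) (nat_lit 40) (nat_lit 4) (nat_lit 357) (nat_lit 338) (nat_lit 325)))) (XT.nd (nat_lit 156) (nat_lit 380) (nat_lit 0) (XT.nd (nat_lit 78) (nat_lit 228) (nat_lit 0) (XT.lf (nat_lit 0) (nat_lit 13068719348) (nat_lit 152) (nat_lit 2068235994) (nat_lit 0) (nat_lit 1923528758) (nat_lit 38) (nat_lit 5) (nat_lit 40) (nat_lit 4) (nat_lit 38) (nat_lit 4) (nat_lit 358) (nat_lit 338) (nat_lit 324)) (XT.lf (nat_lit 0) (nat_lit 2000825143) (nat_lit 76) (nat_lit 4434407305) (nat_lit 152) (nat_lit 12184515236) (nat_lit 35) (nat_lit 5) (nat_lit 36) (nat_lit 5) (nat_lit 37) (nat_lit 4) (nat_lit 359) (nat_lit 338) (nat_lit 323))) (XT.nd (nat_lit 78) (nat_lit 304) (nat_lit 0) (XT.lf (nat_lit 0) (nat_lit 6535145817) (nat_lit 76) (nat_lit 12276766740) (nat_lit 76) (nat_lit 1542954449) (nat_lit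 34) (nat_lit 4) (nat_lit 35) (nat_lit 5) (nat_lit 35) (nat_lit 4) (nat_lit 360) (nat_lit 338) (nat_lit 322)) (XT.nd (nat_lit 78) (nat_lit 152) (nat_lit 0) (XT.lf (nat_lit 0) (nat_lit 10722751297) (nat_lit 152) (nat_lit 10932983545) (nat_lit 0) (nat_lit 628925787) (nat_lit 32) (nat_lit 5) (nat_lit 34) (nat_lit 4) (nat_lit 32) (nat_lit 4) (nat_lit 361) (nat_lit 338) (nat_lit 321)) (XT.lf (nat_lit 0) (nat_lit 1074835925) (nat_lit 152) (nat_lit 7993045418) (nat_lit 76) (nat_lit 15364360842) (nat_lit 30) (nat_lit 5) (nat_lit 32) (nat_lit 5) (nat_lit 31) (nat_lit 4) (nat_lit 362) (nat_lit 338) (nat_lit 320))))))) (XT.nd (nat_lit 702) (nat_lit 760) (nat_lit 0) (XT.nd (nat_lit 312) (nat_lit 456) (nat_lit 0) (XT.nd (nat_lit 156) (nat_lit 304) (nat_lit 0) (XT.nd (nat_lit 78) (nat_lit 152) (nat_lit 0) (XT.lf (nat_lit 0) (nat_lit 15646813910) (nat_lit 152) (nat_lit 5105994768) (nat_lit 0) (nat_lit 6067193624)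 (nat_lit 29) (nat_lit 5) (nat_lit 31) (nat_lit 4) (nat_lit 29) (nat_lit 4) (nat_lit 363) (nat_lit 338) (nat_lit 319)) (XT.lf (nat_lit 0) (nat_lit 3585444459) (nat_lit 152) (nat_lit 2216328794) (nat_lit 76) (nat_lit 23687597975) (nat_lit 27) (nat_lit 5) (nat_lit 29) (nat_lit 5) (nat_lit 28) (nat_lit 4) (nat_lit 364) (nat_lit 338) (nat_lit 318))) (XT.nd (nat_lit 78) (nat_lit 152) (nat_lit 0) (XT.lf (nat_lit 0) (nat_lit 327624849) (nat_lit 76) (nat_lit 20580430217) (nat_lit 76) (nat_lit 11546940486) (nat_lit 25) (nat_lit 4) (nat_lit 26) (nat_lit 5) (nat_lit 26) (nat_lit 4) (nat_lit 365) (nat_lit 338) (nat_lit 317)) (XT.lf (nat_lit 0) (nat_lit 2745261716) (nat_lit 76) (nat_lit 2949385927) (nat_lit 152) (nat_lit 30082924037) (nat_lit 23) (nat_lit 5) (nat_lit 24) (nat_lit 5) (nat_lit 25) (nat_lit 4) (nat_lit 366) (nat_lit 338) (nat_lit 316)))) (XT.nd (nat_lit 156) (nat_lit 228) (nat_lit 0) (XT.nd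 (nat_lit 78) (nat_lit 152) (nat_lit 0) (XT.lf (nat_lit 0) (nat_lit 4221549823) (nat_lit 76) (nat_lit 21865945844) (nat_lit 76) (nat_lit 13387152090) (nat_lit 22) (nat_lit 4) (nat_lit 23) (nat_lit 5) (nat_lit 23) (nat_lit 4) (nat_lit 367) (nat_lit 338) (nat_lit 315)) (XT.lf (nat_lit 0) (nat_lit 4945664320) (nat_lit 76) (nat_lit 1530656748) (nat_lit 152) (nat_lit 37162454472) (nat_lit 20) (nat_lit 5) (nat_lit 21) (nat_lit 5) (nat_lit 22) (nat_lit 4) (nat_lit 368) (nat_lit 338) (nat_lit 314))) (XT.nd (nat_lit 78) (nat_lit 152) (nat_lit 0) (XT.lf (nat_lit 0) (nat_lit 3788737541) (nat_lit 76) (nat_lit 26211956846) (nat_lit 76) (nat_lit 18281090678) (nat_lit 19) (nat_lit 4) (nat_lit 20) (nat_lit 5) (nat_lit 20) (nat_lit 4) (nat_lit 369) (nat_lit 338) (nat_lit 313)) (XT.nd (nat_lit 78) (nat_lit 0) (nat_lit 0) (XT.lf (nat_lit 0) (nat_lit 932068123) (nat_lit 76) (nat_lit 3344539220) (nat_lit 152)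 (nat_lit 49256770809) (nat_lit 17) (nat_lit 5) (nat_lit 18) (nat_lit 5) (nat_lit 19) (nat_lit 4) (nat_lit 370) (nat_lit 338) (nat_lit 312)) (XT.lf (nat_lit 0) (nat_lit 30855555824) (nat_lit 152) (nat_lit 5085508462) (nat_lit 0) (nat_lit 23456058716) (nat_lit 17) (nat_lit 5) (nat_lit 19) (nat_lit 4) (nat_lit 17) (nat_lit 4) (nat_lit 371) (nat_lit 338) (nat_lit 311)))))) (XT.nd (nat_lit 390) (nat_lit 304) (nat_lit 0) (XT.nd (nat_lit 156) (nat_lit 228) (nat_lit 0) (XT.nd (nat_lit 78) (nat_lit 152) (nat_lit 0) (XT.lf (nat_lit 0) (nat_lit 51712493598) (nat_lit 76) (nat_lit 10878285713) (nat_lit 76) (nat_lit 3456098006) (nat_lit 16) (nat_lit 4) (nat_lit 17) (nat_lit 5) (nat_lit 17) (nat_lit 4) (nat_lit 372) (nat_lit 338) (nat_lit 310)) (XT.lf (nat_lit 0) (nat_lit 25674553851) (nat_lit 152) (nat_lit 29062593173) (nat_lit 0) (nat_lit 18783888422) (nat_lit 14) (nat_lit 5) (nat_lit 16) (nat_lit 4)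 (nat_lit 14) (nat_lit 4) (nat_lit 373) (nat_lit 338) (nat_lit 309))) (XT.nd (nat_lit 78) (nat_lit 152) (nat_lit 0) (XT.lf (nat_lit 0) (nat_lit 31735666144) (nat_lit 76) (nat_lit 28585953358) (nat_lit 76) (nat_lit 21679401491) (nat_lit 13) (nat_lit 4) (nat_lit 14) (nat_lit 5) (nat_lit 14) (nat_lit 4) (nat_lit 374) (nat_lit 338) (nat_lit 308)) (XT.nd (nat_lit 78) (nat_lit 0) (nat_lit 0) (XT.lf (nat_lit 0) (nat_lit 9074009859) (nat_lit 152) (nat_lit 79909977612) (nat_lit 0) (nat_lit 2666263414) (nat_lit 11) (nat_lit 5) (nat_lit 13) (nat_lit 4) (nat_lit 11) (nat_lit 4) (nat_lit 375) (nat_lit 338) (nat_lit 307)) (XT.lf (nat_lit 0) (nat_lit 45356284494) (nat_lit 152) (nat_lit 18232157260) (nat_lit 0) (nat_lit 38937415428) (nat_lit 11) (nat_lit 5) (nat_lit 13) (nat_lit 4) (nat_lit 11) (nat_lit 4) (nat_lit 376) (nat_lit 338) (nat_lit 306))))) (XT.nd (nat_lit 156) (nat_lit 76) (nat_lit 0) (XT.nd (nat_lit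 78) (nat_lit 152) (nat_lit 0) (XT.lf (nat_lit 0) (nat_lit 55229896519) (nat_lit 76) (nat_lit 33067081790) (nat_lit 76) (nat_lit 26638540881) (nat_lit 10) (nat_lit 4) (nat_lit 11) (nat_lit 5) (nat_lit 11) (nat_lit 4) (nat_lit 377) (nat_lit 338) (nat_lit 305)) (XT.lf (nat_lit 0) (nat_lit 8844636427) (nat_lit 152) (nat_lit 117397493894) (nat_lit 0) (nat_lit 2884496420) (nat_lit 8) (nat_lit 5) (nat_lit 10) (nat_lit 4) (nat_lit 8) (nat_lit 4) (nat_lit 378) (nat_lit 338) (nat_lit 304))) (XT.nd (nat_lit 78) (nat_lit 76) (nat_lit 0) (XT.lf (nat_lit 0) (nat_lit 50717030593) (nat_lit 152) (nat_lit 49712375581) (nat_lit 0) (nat_lit 44750119009) (nat_lit 8) (nat_lit 5) (nat_lit 10) (nat_lit 4) (nat_lit 8) (nat_lit 4) (nat_lit 379) (nat_lit 338) (nat_lit 303)) (XT.nd (nat_lit 78) (nat_lit 0) (nat_lit 0) (XT.lf (nat_lit 0) (nat_lit 29420486249) (nat_lit 76) (nat_lit 70071469460) (nat_lit 76) (nat_lit 64098669548)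 (nat_lit 7) (nat_lit 4) (nat_lit 8) (nat_lit 5) (nat_lit 8) (nat_lit 4) (nat_lit 380) (nat_lit 338) (nat_lit 302)) (XT.lf (nat_lit 0) (nat_lit 123271913212) (nat_lit 76) (nat_lit 33679949216) (nat_lit 76) (nat_lit 27702029019) (nat_lit 7) (nat_lit 4) (nat_lit 8) (nat_lit 5) (nat_lit 8) (nat_lit 4) (nat_lit 381) (nat_lit 338) (nat_lit 301))))))))
noncomputable def xc42 : XT := (XT.nd (nat_lit 1404) (nat_lit 0) (nat_lit 0) (XT.nd (nat_lit 702) (nat_lit 76) (nat_lit 0) (XT.nd (nat_lit 312) (nat_lit 152) (nat_lit 0) (XT.nd (nat_lit 156) (nat_lit 76) (nat_lit 0) (XT.nd (nat_lit 78) (nat_lit 0) (nat_lit 0) (XT.lf (nat_lit 0) (nat_lit 14146770584) (nat_lit 152) (nat_lit 186039051498) (nat_lit 0) (nat_lit 8607536678) (nat_lit 5) (nat_lit 5) (nat_lit 7) (nat_lit 4) (nat_lit 5) (nat_lit 4) (nat_lit 382) (nat_lit 338) (nat_lit 300)) (XT.lf (nat_lit 0) (nat_lit 63378473579) (nat_lit 152) (nat_lit 115062387299)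 (nat_lit 0) (nat_lit 57835654792) (nat_lit 5) (nat_lit 5) (nat_lit 7) (nat_lit 4) (nat_lit 5) (nat_lit 4) (nat_lit 383) (nat_lit 338) (nat_lit 299))) (XT.nd (nat_lit 78) (nat_lit 76) (nat_lit 0) (XT.lf (nat_lit 0) (nat_lit 119937735935) (nat_lit 152) (nat_lit 33557186331) (nat_lit 0) (nat_lit 114391799860) (nat_lit 5) (nat_lit 5) (nat_lit 7) (nat_lit 4) (nat_lit 5) (nat_lit 4) (nat_lit 384) (nat_lit 338) (nat_lit 298)) (XT.lf (nat_lit 0) (nat_lit 63234462285) (nat_lit 76) (nat_lit 123217479968) (nat_lit 76) (nat_lit 117668833209) (nat_lit 4) (nat_lit 4) (nat_lit 5) (nat_lit 5) (nat_lit 5) (nat_lit 4) (nat_lit 385) (nat_lit 338) (nat_lit 297)))) (XT.nd (nat_lit 156) (nat_lit 152) (nat_lit 0) (XT.nd (nat_lit 78) (nat_lit 0) (nat_lit 0) (XT.lf (nat_lit 0) (nat_lit 176483085635) (nat_lit 76) (nat_lit 87391668653) (nat_lit 76) (nat_lit 81840664776) (nat_lit 4) (nat_lit 4) (nat_lit 5) (nat_lit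 5) (nat_lit 5) (nat_lit 4) (nat_lit 386) (nat_lit 338) (nat_lit 296)) (XT.lf (nat_lit 0) (nat_lit 306637355687) (nat_lit 76) (nat_lit 46234061476) (nat_lit 76) (nat_lit 40681007932) (nat_lit 4) (nat_lit 4) (nat_lit 5) (nat_lit 5) (nat_lit 5) (nat_lit 4) (nat_lit 387) (nat_lit 338) (nat_lit 295))) (XT.nd (nat_lit 78) (nat_lit 0) (nat_lit 0) (XT.lf (nat_lit 0) (nat_lit 6509389048) (nat_lit 152) (nat_lit 440661604517) (nat_lit 0) (nat_lit 1366022509) (nat_lit 2) (nat_lit 5) (nat_lit 4) (nat_lit 4) (nat_lit 2) (nat_lit 4) (nat_lit 388) (nat_lit 338) (nat_lit 294)) (XT.nd (nat_lit 78) (nat_lit 0) (nat_lit 0) (XT.lf (nat_lit 0) (nat_lit 62279817177) (nat_lit 152) (nat_lit 391957111812) (nat_lit 0) (nat_lit 57135015597) (nat_lit 2) (nat_lit 5) (nat_lit 4) (nat_lit 4) (nat_lit 2) (nat_lit 4) (nat_lit 389) (nat_lit 338) (nat_lit 293)) (XT.lf (nat_lit 0) (nat_lit 126387001216) (nat_lit 152) (nat_lit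 336006464175) (nat_lit 0) (nat_lit 121240951776) (nat_lit 2) (nat_lit 5) (nat_lit 4) (nat_lit 4) (nat_lit 2) (nat_lit 4) (nat_lit 390) (nat_lit 338) (nat_lit 292)))))) (XT.nd (nat_lit 312) (nat_lit 76) (nat_lit 0) (XT.nd (nat_lit 156) (nat_lit 0) (nat_lit 0) (XT.nd (nat_lit 78) (nat_lit 0) (nat_lit 0) (XT.lf (nat_lit 0) (nat_lit 200085212160) (nat_lit 152) (nat_lit 271714975022) (nat_lit 0) (nat_lit 194938077624) (nat_lit 2) (nat_lit 5) (nat_lit 4) (nat_lit 4) (nat_lit 2) (nat_lit 4) (nat_lit 391) (nat_lit 338) (nat_lit 291)) (XT.lf (nat_lit 0) (nat_lit 284816371526) (nat_lit 152) (nat_lit 197824767392) (nat_lit 0) (nat_lit 279668293428) (nat_lit 2) (nat_lit 5) (nat_lit 4) (nat_lit 4) (nat_lit 2) (nat_lit 4) (nat_lit 392) (nat_lit 338) (nat_lit 290))) (XT.nd (nat_lit 78) (nat_lit 0) (nat_lit 0) (XT.lf (nat_lit 0) (nat_lit 382238262867) (nat_lit 152) (nat_lit 112890163308) (nat_lit 0) (nat_lit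 377089364280) (nat_lit 2) (nat_lit 5) (nat_lit 4) (nat_lit 4) (nat_lit 2) (nat_lit 4) (nat_lit 393) (nat_lit 338) (nat_lit 289)) (XT.lf (nat_lit 0) (nat_lit 494256966665) (nat_lit 152) (nat_lit 15249398779) (nat_lit 0) (nat_lit 489107354610) (nat_lit 2) (nat_lit 5) (nat_lit 4) (nat_lit 4) (nat_lit 2) (nat_lit 4) (nat_lit 394) (nat_lit 338) (nat_lit 288)))) (XT.nd (nat_lit 156) (nat_lit 0) (nat_lit 0) (XT.nd (nat_lit 78) (nat_lit 0) (nat_lit 0) (XT.lf (nat_lit 0) (nat_lit 102116152500) (nat_lit 76) (nat_lit 523403896637) (nat_lit 76) (nat_lit 518253664174) (nat_lit 1) (nat_lit 4) (nat_lit 2) (nat_lit 5) (nat_lit 2) (nat_lit 4) (nat_lit 395) (nat_lit 338) (nat_lit 287)) (XT.lf (nat_lit 0) (nat_lit 237982907054) (nat_lit 76) (nat_lit 538920550701) (nat_lit 76) (nat_lit 533769778754) (nat_lit 1) (nat_lit 4) (nat_lit 2) (nat_lit 5) (nat_lit 2) (nat_lit 4) (nat_lit 396) (nat_lit 338) (nat_lit 286)))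 (XT.nd (nat_lit 78) (nat_lit 0) (nat_lit 0) (XT.lf (nat_lit 0) (nat_lit 394206121156) (nat_lit 76) (nat_lit 556776859935) (nat_lit 76) (nat_lit 551625618871) (nat_lit 1) (nat_lit 4) (nat_lit 2) (nat_lit 5) (nat_lit 2) (nat_lit 4) (nat_lit 397) (nat_lit 338) (nat_lit 285)) (XT.nd (nat_lit 78) (nat_lit 0) (nat_lit 0) (XT.lf (nat_lit 0) (nat_lit 573842335952) (nat_lit 76) (nat_lit 577322186910) (nat_lit 76) (nat_lit 572170537918) (nat_lit 1) (nat_lit 4) (nat_lit 2) (nat_lit 5) (nat_lit 2) (nat_lit 4) (nat_lit 398) (nat_lit 338) (nat_lit 284)) (XT.lf (nat_lit 0) (nat_lit 780406173035) (nat_lit 76) (nat_lit 600958505415) (nat_lit 76) (nat_lit 595806501704) (nat_lit 1) (nat_lit 4) (nat_lit 2) (nat_lit 5) (nat_lit 2) (nat_lit 4) (nat_lit 399) (nat_lit 338) (nat_lit 283))))))) (XT.nd (nat_lit 702) (nat_lit 0) (nat_lit 0) (XT.nd (nat_lit 312) (nat_lit 0) (nat_lit 0) (XT.nd (nat_lit 156) (nat_lit 0)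 (nat_lit 0) (XT.nd (nat_lit 78) (nat_lit 0) (nat_lit 0) (XT.lf (nat_lit 0) (nat_lit 1017939098783) (nat_lit 76) (nat_lit 628148265161) (nat_lit 76) (nat_lit 622995952997) (nat_lit 1) (nat_lit 4) (nat_lit 2) (nat_lit 5) (nat_lit 2) (nat_lit 4) (nat_lit 400) (nat_lit 338) (nat_lit 282)) (XT.lf (nat_lit 0) (nat_lit 1291088496526) (nat_lit 76) (nat_lit 659423439706) (nat_lit 76) (nat_lit 654270859324) (nat_lit 1) (nat_lit 4) (nat_lit 2) (nat_lit 5) (nat_lit 2) (nat_lit 4) (nat_lit 401) (nat_lit 338) (nat_lit 281))) (XT.nd (nat_lit 78) (nat_lit 0) (nat_lit 0) (XT.lf (nat_lit 0) (nat_lit 1605198593611) (nat_lit 76) (nat_lit 695395934641) (nat_lit 76) (nat_lit 690243121024) (nat_lit 1) (nat_lit 4) (nat_lit 2) (nat_lit 5) (nat_lit 2) (nat_lit 4) (nat_lit 402) (nat_lit 338) (nat_lit 280)) (XT.lf (nat_lit 0) (nat_lit 1966415022372) (nat_lit 76) (nat_lit 736769559649) (nat_lit 76) (nat_lit 731616543219)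 (nat_lit 1) (nat_lit 4) (nat_lit 2) (nat_lit 5) (nat_lit 2) (nat_lit 4) (nat_lit 403) (nat_lit 338) (nat_lit 279)))) (XT.nd (nat_lit 156) (nat_lit 0) (nat_lit 0) (XT.nd (nat_lit 78) (nat_lit 0) (nat_lit 0) (XT.lf (nat_lit 0) (nat_lit 2381805060763) (nat_lit 76) (nat_lit 784353798696) (nat_lit 76) (nat_lit 779200605909) (nat_lit 1) (nat_lit 4) (nat_lit 2) (nat_lit 5) (nat_lit 2) (nat_lit 4) (nat_lit 404) (nat_lit 338) (nat_lit 278)) (XT.lf (nat_lit 0) (nat_lit 2859495905188) (nat_lit 76) (nat_lit 839079647765) (nat_lit 76) (nat_lit 833926301623) (nat_lit 1) (nat_lit 4) (nat_lit 2) (nat_lit 5) (nat_lit 2) (nat_lit 4) (nat_lit 405) (nat_lit 338) (nat_lit 277))) (XT.nd (nat_lit 78) (nat_lit 0) (nat_lit 0) (XT.lf (nat_lit 0) (nat_lit 3408833680863) (nat_lit 76) (nat_lit 902017829990) (nat_lit 76) (nat_lit 896864350495) (nat_lit 1) (nat_lit 4) (nat_lit 2) (nat_lit 5) (nat_lit 2) (nat_lit 4) (nat_lit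 406) (nat_lit 338) (nat_lit 276)) (XT.nd (nat_lit 78) (nat_lit 0) (nat_lit 0) (XT.lf (nat_lit 0) (nat_lit 4040566300791) (nat_lit 76) (nat_lit 974399744588) (nat_lit 76) (nat_lit 969246149134) (nat_lit 1) (nat_lit 4) (nat_lit 2) (nat_lit 5) (nat_lit 2) (nat_lit 4) (nat_lit 407) (nat_lit 338) (nat_lit 275)) (XT.lf (nat_lit 0) (nat_lit 4767053751015) (nat_lit 76) (nat_lit 1057641559453) (nat_lit 76) (nat_lit 1052487863166) (nat_lit 1) (nat_lit 4) (nat_lit 2) (nat_lit 5) (nat_lit 2) (nat_lit 4) (nat_lit 408) (nat_lit 338) (nat_lit 274)))))) (XT.nd (nat_lit 390) (nat_lit 0) (nat_lit 0) (XT.nd (nat_lit 156) (nat_lit 0) (nat_lit 0) (XT.nd (nat_lit 78) (nat_lit 0) (nat_lit 0) (XT.lf (nat_lit 0) (nat_lit 5602509916428) (nat_lit 76) (nat_lit 1153371918789) (nat_lit 76) (nat_lit 1148218134820) (nat_lit 1) (nat_lit 4) (nat_lit 2) (nat_lit 5) (nat_lit 2) (nat_lit 4) (nat_lit 409) (nat_lit 338) (nat_lit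 273)) (XT.lf (nat_lit 0) (nat_lit 6563280678530) (nat_lit 76) (nat_lit 1263463807888) (nat_lit 76) (nat_lit 1258309947674) (nat_lit 1) (nat_lit 4) (nat_lit 2) (nat_lit 5) (nat_lit 2) (nat_lit 4) (nat_lit 410) (nat_lit 338) (nat_lit 272))) (XT.nd (nat_lit 78) (nat_lit 0) (nat_lit 0) (XT.lf (nat_lit 0) (nat_lit 7668163726144) (nat_lit 76) (nat_lit 1390071198492) (nat_lit 76) (nat_lit 1384917271979) (nat_lit 1) (nat_lit 4) (nat_lit 2) (nat_lit 5) (nat_lit 2) (nat_lit 4) (nat_lit 411) (nat_lit 338) (nat_lit 271)) (XT.nd (nat_lit 78) (nat_lit 0) (nat_lit 0) (XT.lf (nat_lit 0) (nat_lit 8938776336287) (nat_lit 76) (nat_lit 1535671191723) (nat_lit 76) (nat_lit 1530517207558) (nat_lit 1) (nat_lit 4) (nat_lit 2) (nat_lit 5) (nat_lit 2) (nat_lit 4) (nat_lit 412) (nat_lit 338) (nat_lit 270)) (XT.lf (nat_lit 0) (nat_lit 10399978320898) (nat_lit 76) (nat_lit 1703112483099) (nat_lit 76) (nat_lit 1697958448803)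 (nat_lit 1) (nat_lit 4) (nat_lit 2) (nat_lit 5) (nat_lit 2) (nat_lit 4) (nat_lit 413) (nat_lit 338) (nat_lit 269))))) (XT.nd (nat_lit 156) (nat_lit 0) (nat_lit 0) (XT.nd (nat_lit 78) (nat_lit 0) (nat_lit 0) (XT.lf (nat_lit 0) (nat_lit 12080358414459) (nat_lit 76) (nat_lit 1895671097888) (nat_lit 76) (nat_lit 1890517019998) (nat_lit 1) (nat_lit 4) (nat_lit 2) (nat_lit 5) (nat_lit 2) (nat_lit 4) (nat_lit 414) (nat_lit 338) (nat_lit 268)) (XT.lf (nat_lit 0) (nat_lit 14012793618799) (nat_lit 76) (nat_lit 2117114487248) (nat_lit 76) (nat_lit 2111960371451) (nat_lit 1) (nat_lit 4) (nat_lit 2) (nat_lit 5) (nat_lit 2) (nat_lit 4) (nat_lit 415) (nat_lit 338) (nat_lit 267))) (XT.nd (nat_lit 78) (nat_lit 0) (nat_lit 0) (XT.lf (nat_lit 0) (nat_lit 16235092448787) (nat_lit 76) (nat_lit 2371775239231) (nat_lit 76) (nat_lit 2366621090472) (nat_lit 1) (nat_lit 4) (nat_lit 2) (nat_lit 5) (nat_lit 2) (nat_lit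 4) (nat_lit 416) (nat_lit 338) (nat_lit 266)) (XT.nd (nat_lit 78) (nat_lit 0) (nat_lit 0) (XT.lf (nat_lit 0) (nat_lit 18790734664139) (nat_lit 76) (nat_lit 2664635846812) (nat_lit 76) (nat_lit 2659481669389) (nat_lit 1) (nat_lit 4) (nat_lit 2) (nat_lit 5) (nat_lit 2) (nat_lit 4) (nat_lit 417) (nat_lit 338) (nat_lit 265)) (XT.lf (nat_lit 0) (nat_lit 21729721960373) (nat_lit 76) (nat_lit 3001426191443) (nat_lit 76) (nat_lit 2996271989095) (nat_lit 1) (nat_lit 4) (nat_lit 2) (nat_lit 5) (nat_lit 2) (nat_lit 4) (nat_lit 418) (nat_lit 338) (nat_lit 264))))))))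
noncomputable def xc43 : XT := (XT.nd (nat_lit 48282) (nat_lit 0) (nat_lit 912) (XT.nd (nat_lit 47580) (nat_lit 0) (nat_lit 3116) (XT.nd (nat_lit 47190) (nat_lit 0) (nat_lit 5472) (XT.nd (nat_lit 156) (nat_lit 0) (nat_lit 0) (XT.nd (nat_lit 78) (nat_lit 0) (nat_lit 0) (XT.lf (nat_lit 0) (nat_lit 25109556262851) (nat_lit 76) (nat_lit 3388735649431) (nat_lit 76) (nat_lit 3383581425410) (nat_lit 1) (nat_lit 4) (nat_lit 2) (nat_lit 5) (nat_lit 2) (nat_lit 4) (nat_lit 419) (nat_lit 338) (nat_lit 263)) (XT.lf (nat_lit 0) (nat_lit 28996364764446) (nat_lit 76) (nat_lit 3834142014521) (nat_lit 76) (nat_lit 3828987771654) (nat_lit 1) (nat_lit 4) (nat_lit 2) (nat_lit 5) (nat_lit 2) (nat_lit 4) (nat_lit 420) (nat_lit 338) (nat_lit 262))) (XT.nd (nat_lit 46956) (nat_lit 0) (nat_lit 7752) (XT.lf (nat_lit 0) (nat_lit 33466193718452) (nat_lit 76) (nat_lit 4346359759072) (nat_lit 76) (nat_lit 4341205499817)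 (nat_lit 1) (nat_lit 4) (nat_lit 2) (nat_lit 5) (nat_lit 2) (nat_lit 4) (nat_lit 421) (nat_lit 338) (nat_lit 261)) (XT.lf (nat_lit 0) (nat_lit 3244056237) (nat_lit 76) (nat_lit 12273276) (nat_lit 76) (nat_lit 12273276) (nat_lit 103) (nat_lit 4) (nat_lit 104) (nat_lit 5) (nat_lit 104) (nat_lit 4) (nat_lit 342) (nat_lit 339) (nat_lit 339)))) (XT.nd (nat_lit 156) (nat_lit 1444) (nat_lit 0) (XT.nd (nat_lit 78) (nat_lit 380) (nat_lit 0) (XT.lf (nat_lit 0) (nat_lit 715522724) (nat_lit 228) (nat_lit 5074544539) (nat_lit 228) (nat_lit 871254633) (nat_lit 97) (nat_lit 4) (nat_lit 100) (nat_lit 5) (nat_lit 100) (nat_lit 4) (nat_lit 343) (nat_lit 339) (nat_lit 338)) (XT.lf (nat_lit 0) (nat_lit 1889154801) (nat_lit 304) (nat_lit 2797133376) (nat_lit 380) (nat_lit 2163269609) (nat_lit 92) (nat_lit 5) (nat_lit 96) (nat_lit 5) (nat_lit 97) (nat_lit 4) (nat_lit 344) (nat_lit 339) (nat_lit 337))) (XT.nd (nat_lit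 78) (nat_lit 988) (nat_lit 0) (XT.lf (nat_lit 0) (nat_lit 3171815526) (nat_lit 456) (nat_lit 3621712271) (nat_lit 76) (nat_lit 310684505) (nat_lit 86) (nat_lit 5) (nat_lit 92) (nat_lit 5) (nat_lit 87) (nat_lit 4) (nat_lit 345) (nat_lit 339) (nat_lit 336)) (XT.nd (nat_lit 78) (nat_lit 456) (nat_lit 0) (XT.lf (nat_lit 0) (nat_lit 1282325603) (nat_lit 532) (nat_lit 1983720019) (nat_lit 76) (nat_lit 4156499621) (nat_lit 79) (nat_lit 5) (nat_lit 86) (nat_lit 5) (nat_lit 80) (nat_lit 5) (nat_lit 346) (nat_lit 339) (nat_lit 335)) (XT.lf (nat_lit 0) (nat_lit 6678502607) (nat_lit 532) (nat_lit 682718) (nat_lit 76) (nat_lit 1130902612) (nat_lit 73) (nat_lit 5) (nat_lit 80) (nat_lit 5) (nat_lit 74) (nat_lit 4) (nat_lit 347) (nat_lit 339) (nat_lit 334)))))) (XT.nd (nat_lit 312) (nat_lit 988) (nat_lit 0) (XT.nd (nat_lit 156) (nat_lit 608) (nat_lit 0) (XT.nd (nat_lit 78) (nat_lit 228) (nat_lit 0) (XT.lf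 (nat_lit 0) (nat_lit 2398178159) (nat_lit 228) (nat_lit 1830250350) (nat_lit 304) (nat_lit 4032059028) (nat_lit 66) (nat_lit 5) (nat_lit 69) (nat_lit 5) (nat_lit 70) (nat_lit 5) (nat_lit 348) (nat_lit 339) (nat_lit 333)) (XT.lf (nat_lit 0) (nat_lit 1322651123) (nat_lit 228) (nat_lit 3611033014) (nat_lit 76) (nat_lit 3851494295) (nat_lit 63) (nat_lit 5) (nat_lit 66) (nat_lit 5) (nat_lit 64) (nat_lit 5) (nat_lit 349) (nat_lit 339) (nat_lit 332))) (XT.nd (nat_lit 78) (nat_lit 380) (nat_lit 0) (XT.lf (nat_lit 0) (nat_lit 7155818803) (nat_lit 304) (nat_lit 1059238451) (nat_lit 76) (nat_lit 1172129546) (nat_lit 60) (nat_lit 5) (nat_lit 64) (nat_lit 5) (nat_lit 61) (nat_lit 4) (nat_lit 350) (nat_lit 339) (nat_lit 331)) (XT.lf (nat_lit 0) (nat_lit 1878757252) (nat_lit 152) (nat_lit 1795937765) (nat_lit 228) (nat_lit 6391246460) (nat_lit 55) (nat_lit 5) (nat_lit 57) (nat_lit 5) (nat_lit 58) (nat_lit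 5) (nat_lit 351) (nat_lit 339) (nat_lit 330)))) (XT.nd (nat_lit 156) (nat_lit 608) (nat_lit 0) (XT.nd (nat_lit 78) (nat_lit 228) (nat_lit 0) (XT.lf (nat_lit 0) (nat_lit 5249882928) (nat_lit 152) (nat_lit 5211937539) (nat_lit 228) (nat_lit 369948464) (nat_lit 53) (nat_lit 5) (nat_lit 55) (nat_lit 5) (nat_lit 56) (nat_lit 4) (nat_lit 352) (nat_lit 339) (nat_lit 329)) (XT.lf (nat_lit 0) (nat_lit 6356402371) (nat_lit 228) (nat_lit 2721110926) (nat_lit 76) (nat_lit 2612029754) (nat_lit 50) (nat_lit 5) (nat_lit 53) (nat_lit 5) (nat_lit 51) (nat_lit 4) (nat_lit 353) (nat_lit 339) (nat_lit 328))) (XT.nd (nat_lit 78) (nat_lit 304) (nat_lit 0) (XT.lf (nat_lit 0) (nat_lit 537399271) (nat_lit 152) (nat_lit 1024289330) (nat_lit 228) (nat_lit 11091944233) (nat_lit 46) (nat_lit 5) (nat_lit 48) (nat_lit 5) (nat_lit 49) (nat_lit 5) (nat_lit 354) (nat_lit 339) (nat_lit 327)) (XT.nd (nat_lit 78) (nat_lit 228)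 (nat_lit 0) (XT.lf (nat_lit 0) (nat_lit 4215489663) (nat_lit 76) (nat_lit 5381898241) (nat_lit 152) (nat_lit 4120116232) (nat_lit 45) (nat_lit 5) (nat_lit 46) (nat_lit 5) (nat_lit 47) (nat_lit 4) (nat_lit 355) (nat_lit 339) (nat_lit 326)) (XT.lf (nat_lit 0) (nat_lit 4028847115) (nat_lit 228) (nat_lit 6569710851) (nat_lit 76) (nat_lit 4308828544) (nat_lit 42) (nat_lit 5) (nat_lit 45) (nat_lit 5) (nat_lit 43) (nat_lit 4) (nat_lit 356) (nat_lit 339) (nat_lit 325))))))) (XT.nd (nat_lit 702) (nat_lit 988) (nat_lit 0) (XT.nd (nat_lit 312) (nat_lit 684) (nat_lit 0) (XT.nd (nat_lit 156) (nat_lit 228) (nat_lit 0) (XT.nd (nat_lit 78) (nat_lit 228) (nat_lit 0) (XT.lf (nat_lit 0) (nat_lit 12932011815) (nat_lit 76) (nat_lit 626963602) (nat_lit 152) (nat_lit 2676023209) (nat_lit 41) (nat_lit 5) (nat_lit 42) (nat_lit 5) (nat_lit 43) (nat_lit 4) (nat_lit 357) (nat_lit 339) (nat_lit 324)) (XT.lf (nat_lit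 0) (nat_lit 176702159) (nat_lit 76) (nat_lit 6830321212) (nat_lit 152) (nat_lit 10694701081) (nat_lit 38) (nat_lit 5) (nat_lit 39) (nat_lit 5) (nat_lit 40) (nat_lit 4) (nat_lit 358) (nat_lit 339) (nat_lit 323))) (XT.nd (nat_lit 78) (nat_lit 152) (nat_lit 0) (XT.lf (nat_lit 0) (nat_lit 4306975855) (nat_lit 76) (nat_lit 14283445273) (nat_lit 76) (nat_lit 743991486) (nat_lit 37) (nat_lit 4) (nat_lit 38) (nat_lit 5) (nat_lit 38) (nat_lit 4) (nat_lit 359) (nat_lit 339) (nat_lit 322)) (XT.lf (nat_lit 0) (nat_lit 8714457962) (nat_lit 76) (nat_lit 2071519225) (nat_lit 152) (nat_lit 10355708590) (nat_lit 35) (nat_lit 5) (nat_lit 36) (nat_lit 5) (nat_lit 37) (nat_lit 4) (nat_lit 360) (nat_lit 339) (nat_lit 321)))) (XT.nd (nat_lit 156) (nat_lit 456) (nat_lit 0) (XT.nd (nat_lit 78) (nat_lit 76) (nat_lit 0) (XT.lf (nat_lit 0) (nat_lit 1549165536) (nat_lit 152) (nat_lit 9627455151) (nat_lit 76) (nat_lit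 11975955485) (nat_lit 33) (nat_lit 5) (nat_lit 35) (nat_lit 5) (nat_lit 34) (nat_lit 4) (nat_lit 361) (nat_lit 339) (nat_lit 320)) (XT.lf (nat_lit 0) (nat_lit 15347060266) (nat_lit 152) (nat_lit 6707010538) (nat_lit 0) (nat_lit 3331886103) (nat_lit 32) (nat_lit 5) (nat_lit 34) (nat_lit 4) (nat_lit 32) (nat_lit 4) (nat_lit 362) (nat_lit 339) (nat_lit 319))) (XT.nd (nat_lit 78) (nat_lit 304) (nat_lit 0) (XT.lf (nat_lit 0) (nat_lit 4059293809) (nat_lit 152) (nat_lit 3673830662) (nat_lit 76) (nat_lit 20137989874) (nat_lit 30) (nat_lit 5) (nat_lit 32) (nat_lit 5) (nat_lit 31) (nat_lit 4) (nat_lit 363) (nat_lit 339) (nat_lit 318)) (XT.nd (nat_lit 78) (nat_lit 228) (nat_lit 0) (XT.lf (nat_lit 0) (nat_lit 20629814237) (nat_lit 152) (nat_lit 674114001) (nat_lit 0) (nat_lit 9328104352) (nat_lit 29) (nat_lit 5) (nat_lit 31) (nat_lit 4) (nat_lit 29) (nat_lit 4) (nat_lit 364) (nat_lit 339) (nat_lit 317))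 (XT.lf (nat_lit 0) (nat_lit 2462305959) (nat_lit 76) (nat_lit 4189338631) (nat_lit 152) (nat_lit 27058787735) (nat_lit 26) (nat_lit 5) (nat_lit 27) (nat_lit 5) (nat_lit 28) (nat_lit 4) (nat_lit 365) (nat_lit 339) (nat_lit 316)))))) (XT.nd (nat_lit 390) (nat_lit 456) (nat_lit 0) (XT.nd (nat_lit 156) (nat_lit 304) (nat_lit 0) (XT.nd (nat_lit 78) (nat_lit 152) (nat_lit 0) (XT.lf (nat_lit 0) (nat_lit 5220296112) (nat_lit 76) (nat_lit 21248536342) (nat_lit 76) (nat_lit 10660382630) (nat_lit 25) (nat_lit 4) (nat_lit 26) (nat_lit 5) (nat_lit 26) (nat_lit 4) (nat_lit 366) (nat_lit 339) (nat_lit 315)) (XT.lf (nat_lit 0) (nat_lit 7710557525) (nat_lit 76) (nat_lit 1110934863) (nat_lit 152) (nat_lit 32140851488) (nat_lit 23) (nat_lit 5) (nat_lit 24) (nat_lit 5) (nat_lit 25) (nat_lit 4) (nat_lit 367) (nat_lit 339) (nat_lit 314))) (XT.nd (nat_lit 78) (nat_lit 228) (nat_lit 0) (XT.lf (nat_lit 0) (nat_lit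 9139115376) (nat_lit 76) (nat_lit 22988458008) (nat_lit 76) (nat_lit 13098070270) (nat_lit 22) (nat_lit 4) (nat_lit 23) (nat_lit 5) (nat_lit 23) (nat_lit 4) (nat_lit 368) (nat_lit 339) (nat_lit 313)) (XT.nd (nat_lit 78) (nat_lit 76) (nat_lit 0) (XT.lf (nat_lit 0) (nat_lit 9448764510) (nat_lit 152) (nat_lit 40317122408) (nat_lit 0) (nat_lit 258589102) (nat_lit 20) (nat_lit 5) (nat_lit 22) (nat_lit 4) (nat_lit 20) (nat_lit 4) (nat_lit 369) (nat_lit 339) (nat_lit 312)) (XT.lf (nat_lit 0) (nat_lit 8144440451) (nat_lit 76) (nat_lit 28224253197) (nat_lit 76) (nat_lit 19005896064) (nat_lit 19) (nat_lit 4) (nat_lit 20) (nat_lit 5) (nat_lit 20) (nat_lit 4) (nat_lit 370) (nat_lit 339) (nat_lit 311))))) (XT.nd (nat_lit 156) (nat_lit 304) (nat_lit 0) (XT.nd (nat_lit 78) (nat_lit 0) (nat_lit 0) (XT.lf (nat_lit 0) (nat_lit 4631087784) (nat_lit 76) (nat_lit 2039080851) (nat_lit 152) (nat_lit 54753025257)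 (nat_lit 17) (nat_lit 5) (nat_lit 18) (nat_lit 5) (nat_lit 19) (nat_lit 4) (nat_lit 371) (nat_lit 339) (nat_lit 310)) (XT.lf (nat_lit 0) (nat_lit 37045221314) (nat_lit 152) (nat_lit 2669257616) (nat_lit 0) (nat_lit 28467283895) (nat_lit 17) (nat_lit 5) (nat_lit 19) (nat_lit 4) (nat_lit 17) (nat_lit 4) (nat_lit 372) (nat_lit 339) (nat_lit 309))) (XT.nd (nat_lit 78) (nat_lit 228) (nat_lit 0) (XT.lf (nat_lit 0) (nat_lit 62379351709) (nat_lit 76) (nat_lit 11027709787) (nat_lit 76) (nat_lit 2432615015) (nat_lit 16) (nat_lit 4) (nat_lit 17) (nat_lit 5) (nat_lit 17) (nat_lit 4) (nat_lit 373) (nat_lit 339) (nat_lit 308)) (XT.nd (nat_lit 78) (nat_lit 76) (nat_lit 0) (XT.lf (nat_lit 0) (nat_lit 30898751367) (nat_lit 152) (nat_lit 30614066810) (nat_lit 0) (nat_lit 22926515987) (nat_lit 14) (nat_lit 5) (nat_lit 16) (nat_lit 4) (nat_lit 14) (nat_lit 4) (nat_lit 374) (nat_lit 339) (nat_lit 307)) (XT.lf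 (nat_lit 0) (nat_lit 39066255357) (nat_lit 76) (nat_lit 31559346986) (nat_lit 76) (nat_lit 23575099177) (nat_lit 13) (nat_lit 4) (nat_lit 14) (nat_lit 5) (nat_lit 14) (nat_lit 4) (nat_lit 375) (nat_lit 339) (nat_lit 306))))))))
noncomputable def xc44 : XT := (XT.nd (nat_lit 1404) (nat_lit 76) (nat_lit 0) (XT.nd (nat_lit 702) (nat_lit 228) (nat_lit 0) (XT.nd (nat_lit 312) (nat_lit 228) (nat_lit 0) (XT.nd (nat_lit 156) (nat_lit 228) (nat_lit 0) (XT.nd (nat_lit 78) (nat_lit 0) (nat_lit 0) (XT.lf (nat_lit 0) (nat_lit 11643243665) (nat_lit 152) (nat_lit 89417133679) (nat_lit 0) (nat_lit 4240749776) (nat_lit 11) (nat_lit 5) (nat_lit 13) (nat_lit 4) (nat_lit 11) (nat_lit 4) (nat_lit 376) (nat_lit 339) (nat_lit 305)) (XT.lf (nat_lit 0) (nat_lit 53210277017) (nat_lit 152) (nat_lit 18811032522) (nat_lit 0) (nat_lit 45799372830) (nat_lit 11) (nat_lit 5) (nat_lit 13) (nat_lit 4) (nat_lit 11) (nat_lit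 4) (nat_lit 377) (nat_lit 339) (nat_lit 304))) (XT.nd (nat_lit 78) (nat_lit 152) (nat_lit 0) (XT.lf (nat_lit 0) (nat_lit 65487839036) (nat_lit 76) (nat_lit 37014669341) (nat_lit 76) (nat_lit 29596451850) (nat_lit 10) (nat_lit 4) (nat_lit 11) (nat_lit 5) (nat_lit 11) (nat_lit 4) (nat_lit 378) (nat_lit 339) (nat_lit 303)) (XT.lf (nat_lit 0) (nat_lit 11096164453) (nat_lit 152) (nat_lit 133103906885) (nat_lit 0) (nat_lit 4221556226) (nat_lit 8) (nat_lit 5) (nat_lit 10) (nat_lit 4) (nat_lit 8) (nat_lit 4) (nat_lit 379) (nat_lit 339) (nat_lit 302)))) (XT.nd (nat_lit 156) (nat_lit 152) (nat_lit 0) (XT.nd (nat_lit 78) (nat_lit 76) (nat_lit 0) (XT.lf (nat_lit 0) (nat_lit 59128787410) (nat_lit 152) (nat_lit 55514265750) (nat_lit 0) (nat_lit 52249058898) (nat_lit 8) (nat_lit 5) (nat_lit 10) (nat_lit 4) (nat_lit 8) (nat_lit 4) (nat_lit 380) (nat_lit 339) (nat_lit 301)) (XT.lf (nat_lit 0) (nat_lit 35348440711)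 (nat_lit 76) (nat_lit 79803047576) (nat_lit 76) (nat_lit 72918866643) (nat_lit 7) (nat_lit 4) (nat_lit 8) (nat_lit 5) (nat_lit 8) (nat_lit 4) (nat_lit 381) (nat_lit 339) (nat_lit 300))) (XT.nd (nat_lit 78) (nat_lit 152) (nat_lit 0) (XT.lf (nat_lit 0) (nat_lit 143079988477) (nat_lit 76) (nat_lit 38054426552) (nat_lit 76) (nat_lit 31166373948) (nat_lit 7) (nat_lit 4) (nat_lit 8) (nat_lit 5) (nat_lit 8) (nat_lit 4) (nat_lit 382) (nat_lit 339) (nat_lit 299)) (XT.nd (nat_lit 78) (nat_lit 0) (nat_lit 0) (XT.lf (nat_lit 0) (nat_lit 16884641720) (nat_lit 152) (nat_lit 212674750980) (nat_lit 0) (nat_lit 10503697946) (nat_lit 5) (nat_lit 5) (nat_lit 7) (nat_lit 4) (nat_lit 5) (nat_lit 4) (nat_lit 383) (nat_lit 339) (nat_lit 298)) (XT.lf (nat_lit 0) (nat_lit 73420771179) (nat_lit 152) (nat_lit 131217259965) (nat_lit 0) (nat_lit 67037116721) (nat_lit 5) (nat_lit 5) (nat_lit 7) (nat_lit 4) (nat_lit 5)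 (nat_lit 4) (nat_lit 384) (nat_lit 339) (nat_lit 297)))))) (XT.nd (nat_lit 312) (nat_lit 152) (nat_lit 0) (XT.nd (nat_lit 156) (nat_lit 0) (nat_lit 0) (XT.nd (nat_lit 78) (nat_lit 76) (nat_lit 0) (XT.lf (nat_lit 0) (nat_lit 138394071597) (nat_lit 152) (nat_lit 37630342169) (nat_lit 0) (nat_lit 132008060022) (nat_lit 5) (nat_lit 5) (nat_lit 7) (nat_lit 4) (nat_lit 5) (nat_lit 4) (nat_lit 385) (nat_lit 339) (nat_lit 296)) (XT.lf (nat_lit 0) (nat_lit 73598758792) (nat_lit 76) (nat_lit 141247052849) (nat_lit 76) (nat_lit 134858991607) (nat_lit 4) (nat_lit 4) (nat_lit 5) (nat_lit 5) (nat_lit 5) (nat_lit 4) (nat_lit 386) (nat_lit 339) (nat_lit 295))) (XT.nd (nat_lit 78) (nat_lit 0) (nat_lit 0) (XT.lf (nat_lit 0) (nat_lit 203720006883) (nat_lit 76) (nat_lit 100106463199) (nat_lit 76) (nat_lit 93716619637) (nat_lit 4) (nat_lit 4) (nat_lit 5) (nat_lit 5) (nat_lit 5) (nat_lit 4) (nat_lit 387) (nat_lit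 339) (nat_lit 294)) (XT.lf (nat_lit 0) (nat_lit 353297705477) (nat_lit 76) (nat_lit 52826600479) (nat_lit 76) (nat_lit 46435207074) (nat_lit 4) (nat_lit 4) (nat_lit 5) (nat_lit 5) (nat_lit 5) (nat_lit 4) (nat_lit 388) (nat_lit 339) (nat_lit 293)))) (XT.nd (nat_lit 156) (nat_lit 0) (nat_lit 0) (XT.nd (nat_lit 78) (nat_lit 0) (nat_lit 0) (XT.lf (nat_lit 0) (nat_lit 7795989182) (nat_lit 152) (nat_lit 506119978100) (nat_lit 0) (nat_lit 1876784466) (nat_lit 2) (nat_lit 5) (nat_lit 4) (nat_lit 4) (nat_lit 2) (nat_lit 4) (nat_lit 389) (nat_lit 339) (nat_lit 292)) (XT.lf (nat_lit 0) (nat_lit 71891521733) (nat_lit 152) (nat_lit 450193402849) (nat_lit 0) (nat_lit 65971231920) (nat_lit 2) (nat_lit 5) (nat_lit 4) (nat_lit 4) (nat_lit 2) (nat_lit 4) (nat_lit 390) (nat_lit 339) (nat_lit 291))) (XT.nd (nat_lit 78) (nat_lit 0) (nat_lit 0) (XT.lf (nat_lit 0) (nat_lit 145579600946) (nat_lit 152) (nat_lit 385922846206)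 (nat_lit 0) (nat_lit 139658367572) (nat_lit 2) (nat_lit 5) (nat_lit 4) (nat_lit 4) (nat_lit 2) (nat_lit 4) (nat_lit 391) (nat_lit 339) (nat_lit 290)) (XT.nd (nat_lit 78) (nat_lit 0) (nat_lit 0) (XT.lf (nat_lit 0) (nat_lit 230301950112) (nat_lit 152) (nat_lit 312050840758) (nat_lit 0) (nat_lit 224379896249) (nat_lit 2) (nat_lit 5) (nat_lit 4) (nat_lit 4) (nat_lit 2) (nat_lit 4) (nat_lit 392) (nat_lit 339) (nat_lit 289)) (XT.lf (nat_lit 0) (nat_lit 327716180410) (nat_lit 152) (nat_lit 227132064659) (nat_lit 0) (nat_lit 321793413078) (nat_lit 2) (nat_lit 5) (nat_lit 4) (nat_lit 4) (nat_lit 2) (nat_lit 4) (nat_lit 393) (nat_lit 339) (nat_lit 288))))))) (XT.nd (nat_lit 702) (nat_lit 0) (nat_lit 0) (XT.nd (nat_lit 312) (nat_lit 0) (nat_lit 0) (XT.nd (nat_lit 156) (nat_lit 76) (nat_lit 0) (XT.nd (nat_lit 78) (nat_lit 0) (nat_lit 0) (XT.lf (nat_lit 0) (nat_lit 439728222432) (nat_lit 152) (nat_lit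 129505063595) (nat_lit 0) (nat_lit 433804834693) (nat_lit 2) (nat_lit 5) (nat_lit 4) (nat_lit 4) (nat_lit 2) (nat_lit 4) (nat_lit 394) (nat_lit 339) (nat_lit 287)) (XT.lf (nat_lit 0) (nat_lit 568529616130) (nat_lit 152) (nat_lit 17259744066) (nat_lit 0) (nat_lit 562605688907) (nat_lit 2) (nat_lit 5) (nat_lit 4) (nat_lit 4) (nat_lit 2) (nat_lit 4) (nat_lit 395) (nat_lit 339) (nat_lit 286))) (XT.nd (nat_lit 78) (nat_lit 0) (nat_lit 0) (XT.lf (nat_lit 0) (nat_lit 117687187772) (nat_lit 76) (nat_lit 601783580697) (nat_lit 76) (nat_lit 595859184357) (nat_lit 1) (nat_lit 4) (nat_lit 2) (nat_lit 5) (nat_lit 2) (nat_lit 4) (nat_lit 396) (nat_lit 339) (nat_lit 285)) (XT.lf (nat_lit 0) (nat_lit 273900875632) (nat_lit 76) (nat_lit 619644806841) (nat_lit 76) (nat_lit 613720002573) (nat_lit 1) (nat_lit 4) (nat_lit 2) (nat_lit 5) (nat_lit 2) (nat_lit 4) (nat_lit 397) (nat_lit 339) (nat_lit 284)))) (XT.nd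 (nat_lit 156) (nat_lit 0) (nat_lit 0) (XT.nd (nat_lit 78) (nat_lit 0) (nat_lit 0) (XT.lf (nat_lit 0) (nat_lit 453528806738) (nat_lit 76) (nat_lit 640194409390) (nat_lit 76) (nat_lit 634269250402) (nat_lit 1) (nat_lit 4) (nat_lit 2) (nat_lit 5) (nat_lit 2) (nat_lit 4) (nat_lit 398) (nat_lit 339) (nat_lit 283)) (XT.lf (nat_lit 0) (nat_lit 660085440613) (nat_lit 76) (nat_lit 663834445786) (nat_lit 76) (nat_lit 657908978346) (nat_lit 1) (nat_lit 4) (nat_lit 2) (nat_lit 5) (nat_lit 2) (nat_lit 4) (nat_lit 399) (nat_lit 339) (nat_lit 282))) (XT.nd (nat_lit 78) (nat_lit 0) (nat_lit 0) (XT.lf (nat_lit 0) (nat_lit 897612102702) (nat_lit 76) (nat_lit 691027438479) (nat_lit 76) (nat_lit 685101702820) (nat_lit 1) (nat_lit 4) (nat_lit 2) (nat_lit 5) (nat_lit 2) (nat_lit 4) (nat_lit 400) (nat_lit 339) (nat_lit 281)) (XT.nd (nat_lit 78) (nat_lit 0) (nat_lit 0) (XT.lf (nat_lit 0) (nat_lit 1170756053785)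 (nat_lit 76) (nat_lit 722305424284) (nat_lit 76) (nat_lit 716379455391) (nat_lit 1) (nat_lit 4) (nat_lit 2) (nat_lit 5) (nat_lit 2) (nat_lit 4) (nat_lit 401) (nat_lit 339) (nat_lit 280)) (XT.lf (nat_lit 0) (nat_lit 1484861414643) (nat_lit 76) (nat_lit 758280363792) (nat_lit 76) (nat_lit 752354192086) (nat_lit 1) (nat_lit 4) (nat_lit 2) (nat_lit 5) (nat_lit 2) (nat_lit 4) (nat_lit 402) (nat_lit 339) (nat_lit 279)))))) (XT.nd (nat_lit 390) (nat_lit 0) (nat_lit 0) (XT.nd (nat_lit 156) (nat_lit 0) (nat_lit 0) (XT.nd (nat_lit 78) (nat_lit 0) (nat_lit 0) (XT.lf (nat_lit 0) (nat_lit 1846073724946) (nat_lit 76) (nat_lit 799656114515) (nat_lit 76) (nat_lit 793729766451) (nat_lit 1) (nat_lit 4) (nat_lit 2) (nat_lit 5) (nat_lit 2) (nat_lit 4) (nat_lit 403) (nat_lit 339) (nat_lit 278)) (XT.lf (nat_lit 0) (nat_lit 2261460182070) (nat_lit 76) (nat_lit 847242202011) (nat_lit 76) (nat_lit 841315700592) (nat_lit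 1) (nat_lit 4) (nat_lit 2) (nat_lit 5) (nat_lit 2) (nat_lit 4) (nat_lit 404) (nat_lit 339) (nat_lit 277))) (XT.nd (nat_lit 78) (nat_lit 0) (nat_lit 0) (XT.lf (nat_lit 0) (nat_lit 2739147912349) (nat_lit 76) (nat_lit 901969658427) (nat_lit 76) (nat_lit 896043023656) (nat_lit 1) (nat_lit 4) (nat_lit 2) (nat_lit 5) (nat_lit 2) (nat_lit 4) (nat_lit 405) (nat_lit 339) (nat_lit 276)) (XT.nd (nat_lit 78) (nat_lit 0) (nat_lit 0) (XT.lf (nat_lit 0) (nat_lit 3288482980072) (nat_lit 76) (nat_lit 964909238345) (nat_lit 76) (nat_lit 958982487614) (nat_lit 1) (nat_lit 4) (nat_lit 2) (nat_lit 5) (nat_lit 2) (nat_lit 4) (nat_lit 406) (nat_lit 339) (nat_lit 275)) (XT.lf (nat_lit 0) (nat_lit 3920213245259) (nat_lit 76) (nat_lit 1037292368327) (nat_lit 76) (nat_lit 1031365516764) (nat_lit 1) (nat_lit 4) (nat_lit 2) (nat_lit 5) (nat_lit 2) (nat_lit 4) (nat_lit 407) (nat_lit 339) (nat_lit 274))))) (XT.nd (nat_lit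 156) (nat_lit 0) (nat_lit 0) (XT.nd (nat_lit 78) (nat_lit 0) (nat_lit 0) (XT.lf (nat_lit 0) (nat_lit 4646698647881) (nat_lit 76) (nat_lit 1120535240049) (nat_lit 76) (nat_lit 1114608300804) (nat_lit 1) (nat_lit 4) (nat_lit 2) (nat_lit 5) (nat_lit 2) (nat_lit 4) (nat_lit 408) (nat_lit 339) (nat_lit 273)) (XT.lf (nat_lit 0) (nat_lit 5482153032772) (nat_lit 76) (nat_lit 1216266518391) (nat_lit 76) (nat_lit 1210339502901) (nat_lit 1) (nat_lit 4) (nat_lit 2) (nat_lit 5) (nat_lit 2) (nat_lit 4) (nat_lit 409) (nat_lit 339) (nat_lit 272))) (XT.nd (nat_lit 78) (nat_lit 0) (nat_lit 0) (XT.lf (nat_lit 0) (nat_lit 6442922246593) (nat_lit 76) (nat_lit 1326359206625) (nat_lit 76) (nat_lit 1320432124835) (nat_lit 1) (nat_lit 4) (nat_lit 2) (nat_lit 5) (nat_lit 2) (nat_lit 4) (nat_lit 410) (nat_lit 339) (nat_lit 271)) (XT.nd (nat_lit 78) (nat_lit 0) (nat_lit 0) (XT.lf (nat_lit 0) (nat_lit 7547803947875)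 (nat_lit 76) (nat_lit 1452967292129) (nat_lit 76) (nat_lit 1447040152688) (nat_lit 1) (nat_lit 4) (nat_lit 2) (nat_lit 5) (nat_lit 2) (nat_lit 4) (nat_lit 411) (nat_lit 339) (nat_lit 270)) (XT.lf (nat_lit 0) (nat_lit 8818415387296) (nat_lit 76) (nat_lit 1598567889621) (nat_lit 76) (nat_lit 1592640700048) (nat_lit 1) (nat_lit 4) (nat_lit 2) (nat_lit 5) (nat_lit 2) (nat_lit 4) (nat_lit 412) (nat_lit 339) (nat_lit 269))))))))
noncomputable def xc45 : XT := (XT.nd (nat_lit 48126) (nat_lit 0) (nat_lit 1824) (XT.nd (nat_lit 47424) (nat_lit 0) (nat_lit 5168) (XT.nd (nat_lit 312) (nat_lit 0) (nat_lit 0) (XT.nd (nat_lit 156) (nat_lit 0) (nat_lit 0) (XT.nd (nat_lit 78) (nat_lit 0) (nat_lit 0) (XT.lf (nat_lit 0) (nat_lit 10279616353887) (nat_lit 76) (nat_lit 1766009706442) (nat_lit 76) (nat_lit 1760082473276) (nat_lit 1) (nat_lit 4) (nat_lit 2) (nat_lit 5) (nat_lit 2) (nat_lit 4) (nat_lit 413) (nat_lit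 339) (nat_lit 268)) (XT.lf (nat_lit 0) (nat_lit 11959995562213) (nat_lit 76) (nat_lit 1958568778139) (nat_lit 76) (nat_lit 1952641507066) (nat_lit 1) (nat_lit 4) (nat_lit 2) (nat_lit 5) (nat_lit 2) (nat_lit 4) (nat_lit 414) (nat_lit 339) (nat_lit 267))) (XT.nd (nat_lit 78) (nat_lit 0) (nat_lit 0) (XT.lf (nat_lit 0) (nat_lit 13892429996784) (nat_lit 76) (nat_lit 2180012564810) (nat_lit 76) (nat_lit 2174085260774) (nat_lit 1) (nat_lit 4) (nat_lit 2) (nat_lit 5) (nat_lit 2) (nat_lit 4) (nat_lit 415) (nat_lit 339) (nat_lit 266)) (XT.lf (nat_lit 0) (nat_lit 16114728157408) (nat_lit 76) (nat_lit 2434673662282) (nat_lit 76) (nat_lit 2428746329583) (nat_lit 1) (nat_lit 4) (nat_lit 2) (nat_lit 5) (nat_lit 2) (nat_lit 4) (nat_lit 416) (nat_lit 339) (nat_lit 265)))) (XT.nd (nat_lit 156) (nat_lit 0) (nat_lit 0) (XT.nd (nat_lit 78) (nat_lit 0) (nat_lit 0) (XT.lf (nat_lit 0) (nat_lit 18670369790703) (nat_lit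 76) (nat_lit 2727534570287) (nat_lit 76) (nat_lit 2721607212663) (nat_lit 1) (nat_lit 4) (nat_lit 2) (nat_lit 5) (nat_lit 2) (nat_lit 4) (nat_lit 417) (nat_lit 339) (nat_lit 264)) (XT.lf (nat_lit 0) (nat_lit 21609356580802) (nat_lit 76) (nat_lit 3064325176157) (nat_lit 76) (nat_lit 3058397796859) (nat_lit 1) (nat_lit 4) (nat_lit 2) (nat_lit 5) (nat_lit 2) (nat_lit 4) (nat_lit 418) (nat_lit 339) (nat_lit 263))) (XT.nd (nat_lit 78) (nat_lit 0) (nat_lit 0) (XT.lf (nat_lit 0) (nat_lit 24989190443162) (nat_lit 76) (nat_lit 3451634861309) (nat_lit 76) (nat_lit 3445707463165) (nat_lit 1) (nat_lit 4) (nat_lit 2) (nat_lit 5) (nat_lit 2) (nat_lit 4) (nat_lit 419) (nat_lit 339) (nat_lit 262)) (XT.nd (nat_lit 78) (nat_lit 0) (nat_lit 0) (XT.lf (nat_lit 0) (nat_lit 28875998562046) (nat_lit 76) (nat_lit 3897041423933) (nat_lit 76) (nat_lit 3891114009401) (nat_lit 1) (nat_lit 4) (nat_lit 2) (nat_lit 5)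 (nat_lit 2) (nat_lit 4) (nat_lit 420) (nat_lit 339) (nat_lit 261)) (XT.lf (nat_lit 0) (nat_lit 33345827183259) (nat_lit 76) (nat_lit 4409259340253) (nat_lit 76) (nat_lit 4403331911470) (nat_lit 1) (nat_lit 4) (nat_lit 2) (nat_lit 5) (nat_lit 2) (nat_lit 4) (nat_lit 421) (nat_lit 339) (nat_lit 260)))))) (XT.nd (nat_lit 312) (nat_lit 2280) (nat_lit 0) (XT.nd (nat_lit 156) (nat_lit 380) (nat_lit 0) (XT.nd (nat_lit 78) (nat_lit 76) (nat_lit 0) (XT.lf (nat_lit 0) (nat_lit 0) (nat_lit 0) (nat_lit 0) (nat_lit 0) (nat_lit 1073741823) (nat_lit 1) (nat_lit 0) (nat_lit 1) (nat_lit 0) (nat_lit 105) (nat_lit 0) (nat_lit 340) (nat_lit 340) (nat_lit 340)) (XT.lf (nat_lit 0) (nat_lit 5630667111) (nat_lit 76) (nat_lit 431686229) (nat_lit 0) (nat_lit 410181047) (nat_lit 104) (nat_lit 5) (nat_lit 105) (nat_lit 0) (nat_lit 104) (nat_lit 4) (nat_lit 341) (nat_lit 340) (nat_lit 339))) (XT.nd (nat_lit 78) (nat_lit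 228) (nat_lit 0) (XT.lf (nat_lit 0) (nat_lit 4456851301) (nat_lit 152) (nat_lit 489788455) (nat_lit 76) (nat_lit 1619105104) (nat_lit 102) (nat_lit 5) (nat_lit 104) (nat_lit 5) (nat_lit 103) (nat_lit 4) (nat_lit 342) (nat_lit 340) (nat_lit 338)) (XT.lf (nat_lit 0) (nat_lit 2896643004) (nat_lit 228) (nat_lit 170849764) (nat_lit 76) (nat_lit 3655969703) (nat_lit 99) (nat_lit 5) (nat_lit 102) (nat_lit 5) (nat_lit 100) (nat_lit 5) (nat_lit 343) (nat_lit 340) (nat_lit 337)))) (XT.nd (nat_lit 156) (nat_lit 1292) (nat_lit 0) (XT.nd (nat_lit 78) (nat_lit 380) (nat_lit 0) (XT.lf (nat_lit 0) (nat_lit 566188459) (nat_lit 304) (nat_lit 363404687) (nat_lit 380) (nat_lit 6017347130) (nat_lit 91) (nat_lit 5) (nat_lit 95) (nat_lit 5) (nat_lit 96) (nat_lit 5) (nat_lit 344) (nat_lit 340) (nat_lit 336)) (XT.lf (nat_lit 0) (nat_lit 1623489273) (nat_lit 380) (nat_lit 4122833048) (nat_lit 456) (nat_lit 1484035993)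 (nat_lit 86) (nat_lit 5) (nat_lit 91) (nat_lit 5) (nat_lit 92) (nat_lit 5) (nat_lit 345) (nat_lit 340) (nat_lit 335))) (XT.nd (nat_lit 78) (nat_lit 760) (nat_lit 0) (XT.lf (nat_lit 0) (nat_lit 3075434374) (nat_lit 456) (nat_lit 57914609) (nat_lit 532) (nat_lit 4448712586) (nat_lit 79) (nat_lit 5) (nat_lit 85) (nat_lit 5) (nat_lit 86) (nat_lit 5) (nat_lit 346) (nat_lit 340) (nat_lit 334)) (XT.nd (nat_lit 78) (nat_lit 228) (nat_lit 0) (XT.lf (nat_lit 0) (nat_lit 137358888) (nat_lit 532) (nat_lit 3132067433) (nat_lit 76) (nat_lit 4730739089) (nat_lit 72) (nat_lit 5) (nat_lit 79) (nat_lit 5) (nat_lit 73) (nat_lit 5) (nat_lit 347) (nat_lit 340) (nat_lit 333)) (XT.lf (nat_lit 0) (nat_lit 4955656752) (nat_lit 304) (nat_lit 1483583861) (nat_lit 76) (nat_lit 2048020486) (nat_lit 69) (nat_lit 5) (nat_lit 73) (nat_lit 5) (nat_lit 70) (nat_lit 5) (nat_lit 348) (nat_lit 340) (nat_lit 332))))))) (XT.nd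 (nat_lit 702) (nat_lit 1292) (nat_lit 0) (XT.nd (nat_lit 312) (nat_lit 988) (nat_lit 0) (XT.nd (nat_lit 156) (nat_lit 380) (nat_lit 0) (XT.nd (nat_lit 78) (nat_lit 228) (nat_lit 0) (XT.lf (nat_lit 0) (nat_lit 533020826) (nat_lit 152) (nat_lit 768896008) (nat_lit 228) (nat_lit 7748816552) (nat_lit 63) (nat_lit 5) (nat_lit 65) (nat_lit 5) (nat_lit 66) (nat_lit 5) (nat_lit 349) (nat_lit 340) (nat_lit 331)) (XT.lf (nat_lit 0) (nat_lit 2900295151) (nat_lit 228) (nat_lit 3833171879) (nat_lit 304) (nat_lit 2951449281) (nat_lit 60) (nat_lit 5) (nat_lit 63) (nat_lit 5) (nat_lit 64) (nat_lit 5) (nat_lit 350) (nat_lit 340) (nat_lit 330))) (XT.nd (nat_lit 78) (nat_lit 152) (nat_lit 0) (XT.lf (nat_lit 0) (nat_lit 2490311710) (nat_lit 228) (nat_lit 4751995590) (nat_lit 76) (nat_lit 3162811358) (nat_lit 57) (nat_lit 5) (nat_lit 60) (nat_lit 5) (nat_lit 58) (nat_lit 5) (nat_lit 351) (nat_lit 340) (nat_lit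 329)) (XT.lf (nat_lit 0) (nat_lit 8701296265) (nat_lit 228) (nat_lit 2408917610) (nat_lit 76) (nat_lit 106855127) (nat_lit 55) (nat_lit 5) (nat_lit 58) (nat_lit 5) (nat_lit 56) (nat_lit 4) (nat_lit 352) (nat_lit 340) (nat_lit 328)))) (XT.nd (nat_lit 156) (nat_lit 532) (nat_lit 0) (XT.nd (nat_lit 78) (nat_lit 76) (nat_lit 0) (XT.lf (nat_lit 0) (nat_lit 189864796) (nat_lit 152) (nat_lit 3605317392) (nat_lit 228) (nat_lit 8325634058) (nat_lit 50) (nat_lit 5) (nat_lit 52) (nat_lit 5) (nat_lit 53) (nat_lit 5) (nat_lit 353) (nat_lit 340) (nat_lit 327)) (XT.lf (nat_lit 0) (nat_lit 3318355112) (nat_lit 76) (nat_lit 7917847744) (nat_lit 152) (nat_lit 1892151989) (nat_lit 49) (nat_lit 5) (nat_lit 50) (nat_lit 5) (nat_lit 51) (nat_lit 4) (nat_lit 354) (nat_lit 340) (nat_lit 326))) (XT.nd (nat_lit 78) (nat_lit 304) (nat_lit 0) (XT.lf (nat_lit 0) (nat_lit 5552718847) (nat_lit 228) (nat_lit 7416500858)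 (nat_lit 76) (nat_lit 1281503294) (nat_lit 46) (nat_lit 5) (nat_lit 49) (nat_lit 5) (nat_lit 47) (nat_lit 4) (nat_lit 355) (nat_lit 340) (nat_lit 325)) (XT.nd (nat_lit 78) (nat_lit 228) (nat_lit 0) (XT.lf (nat_lit 0) (nat_lit 10787403688) (nat_lit 76) (nat_lit 3683836450) (nat_lit 152) (nat_lit 1028791308) (nat_lit 45) (nat_lit 5) (nat_lit 46) (nat_lit 5) (nat_lit 47) (nat_lit 4) (nat_lit 356) (nat_lit 340) (nat_lit 324)) (XT.lf (nat_lit 0) (nat_lit 7890096065) (nat_lit 228) (nat_lit 1749881914) (nat_lit 76) (nat_lit 7242673878) (nat_lit 42) (nat_lit 5) (nat_lit 45) (nat_lit 5) (nat_lit 43) (nat_lit 4) (nat_lit 357) (nat_lit 340) (nat_lit 323)))))) (XT.nd (nat_lit 390) (nat_lit 608) (nat_lit 0) (XT.nd (nat_lit 156) (nat_lit 380) (nat_lit 0) (XT.nd (nat_lit 78) (nat_lit 76) (nat_lit 0) (XT.lf (nat_lit 0) (nat_lit 198336209) (nat_lit 152) (nat_lit 16628165922) (nat_lit 76) (nat_lit 1599689269)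 (nat_lit 39) (nat_lit 5) (nat_lit 41) (nat_lit 5) (nat_lit 40) (nat_lit 4) (nat_lit 358) (nat_lit 340) (nat_lit 322)) (XT.lf (nat_lit 0) (nat_lit 5653577981) (nat_lit 76) (nat_lit 5351074752) (nat_lit 152) (nat_lit 9116402065) (nat_lit 38) (nat_lit 5) (nat_lit 39) (nat_lit 5) (nat_lit 40) (nat_lit 4) (nat_lit 359) (nat_lit 340) (nat_lit 321))) (XT.nd (nat_lit 78) (nat_lit 228) (nat_lit 0) (XT.lf (nat_lit 0) (nat_lit 1996961898) (nat_lit 152) (nat_lit 11962993266) (nat_lit 76) (nat_lit 8051322494) (nat_lit 36) (nat_lit 5) (nat_lit 38) (nat_lit 5) (nat_lit 37) (nat_lit 4) (nat_lit 360) (nat_lit 340) (nat_lit 320)) (XT.nd (nat_lit 78) (nat_lit 152) (nat_lit 0) (XT.lf (nat_lit 0) (nat_lit 14871160907) (nat_lit 76) (nat_lit 92606900) (nat_lit 152) (nat_lit 9144237709) (nat_lit 35) (nat_lit 5) (nat_lit 36) (nat_lit 5) (nat_lit 37) (nat_lit 4) (nat_lit 361) (nat_lit 340) (nat_lit 319)) (XT.lf (nat_lit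 0) (nat_lit 4227514354) (nat_lit 152) (nat_lit 6366431713) (nat_lit 76) (nat_lit 15835724598) (nat_lit 33) (nat_lit 5) (nat_lit 35) (nat_lit 5) (nat_lit 34) (nat_lit 4) (nat_lit 362) (nat_lit 340) (nat_lit 318))))) (XT.nd (nat_lit 156) (nat_lit 380) (nat_lit 0) (XT.nd (nat_lit 78) (nat_lit 152) (nat_lit 0) (XT.lf (nat_lit 0) (nat_lit 19929570174) (nat_lit 152) (nat_lit 3277583452) (nat_lit 0) (nat_lit 5804161606) (nat_lit 32) (nat_lit 5) (nat_lit 34) (nat_lit 4) (nat_lit 32) (nat_lit 4) (nat_lit 363) (nat_lit 340) (nat_lit 317)) (XT.lf (nat_lit 0) (nat_lit 6802957253) (nat_lit 152) (nat_lit 52374775) (nat_lit 76) (nat_lit 25025588095) (nat_lit 30) (nat_lit 5) (nat_lit 32) (nat_lit 5) (nat_lit 31) (nat_lit 4) (nat_lit 364) (nat_lit 340) (nat_lit 316))) (XT.nd (nat_lit 78) (nat_lit 228) (nat_lit 0) (XT.lf (nat_lit 0) (nat_lit 3321175990) (nat_lit 76) (nat_lit 22476162999) (nat_lit 76) (nat_lit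 9263584868) (nat_lit 28) (nat_lit 4) (nat_lit 29) (nat_lit 5) (nat_lit 29) (nat_lit 4) (nat_lit 365) (nat_lit 340) (nat_lit 315)) (XT.nd (nat_lit 78) (nat_lit 76) (nat_lit 0) (XT.lf (nat_lit 0) (nat_lit 6722236512) (nat_lit 76) (nat_lit 2887766857) (nat_lit 152) (nat_lit 29000088950) (nat_lit 26) (nat_lit 5) (nat_lit 27) (nat_lit 5) (nat_lit 28) (nat_lit 4) (nat_lit 366) (nat_lit 340) (nat_lit 314)) (XT.lf (nat_lit 0) (nat_lit 9665743202) (nat_lit 76) (nat_lit 22606736713) (nat_lit 76) (nat_lit 10279403028) (nat_lit 25) (nat_lit 4) (nat_lit 26) (nat_lit 5) (nat_lit 26) (nat_lit 4) (nat_lit 367) (nat_lit 340) (nat_lit 313))))))))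
noncomputable def xc46 : XT := (XT.nd (nat_lit 1404) (nat_lit 304) (nat_lit 0) (XT.nd (nat_lit 702) (nat_lit 608) (nat_lit 0) (XT.nd (nat_lit 312) (nat_lit 456) (nat_lit 0) (XT.nd (nat_lit 156) (nat_lit 228) (nat_lit 0) (XT.nd (nat_lit 78) (nat_lit 76) (nat_lit 0) (XT.lf (nat_lit 0) (nat_lit 11873916668) (nat_lit 152) (nat_lit 34669686518) (nat_lit 0) (nat_lit 424717110) (nat_lit 23) (nat_lit 5) (nat_lit 25) (nat_lit 4) (nat_lit 23) (nat_lit 4) (nat_lit 368) (nat_lit 340) (nat_lit 312)) (XT.lf (nat_lit 0) (nat_lit 13749554008) (nat_lit 76) (nat_lit 24805437702) (nat_lit 76) (nat_lit 13325801881) (nat_lit 22) (nat_lit 4) (nat_lit 23) (nat_lit 5) (nat_lit 23) (nat_lit 4) (nat_lit 369) (nat_lit 340) (nat_lit 311))) (XT.nd (nat_lit 78) (nat_lit 76) (nat_lit 0) (XT.lf (nat_lit 0) (nat_lit 12411129818) (nat_lit 152) (nat_lit 43236054615) (nat_lit 0) (nat_lit 1757331544) (nat_lit 20) (nat_lit 5)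 (nat_lit 22) (nat_lit 4) (nat_lit 20) (nat_lit 4) (nat_lit 370) (nat_lit 340) (nat_lit 310)) (XT.lf (nat_lit 0) (nat_lit 12229919206) (nat_lit 76) (nat_lit 31006475542) (nat_lit 76) (nat_lit 20331367835) (nat_lit 19) (nat_lit 4) (nat_lit 20) (nat_lit 5) (nat_lit 20) (nat_lit 4) (nat_lit 371) (nat_lit 340) (nat_lit 309)))) (XT.nd (nat_lit 156) (nat_lit 304) (nat_lit 0) (XT.nd (nat_lit 78) (nat_lit 0) (nat_lit 0) (XT.lf (nat_lit 0) (nat_lit 8017024634) (nat_lit 76) (nat_lit 978486078) (nat_lit 152) (nat_lit 61535157742) (nat_lit 17) (nat_lit 5) (nat_lit 18) (nat_lit 5) (nat_lit 19) (nat_lit 4) (nat_lit 372) (nat_lit 340) (nat_lit 308)) (XT.lf (nat_lit 0) (nat_lit 43782595904) (nat_lit 152) (nat_lit 665807230) (nat_lit 0) (nat_lit 33866160125) (nat_lit 17) (nat_lit 5) (nat_lit 19) (nat_lit 4) (nat_lit 17) (nat_lit 4) (nat_lit 373) (nat_lit 340) (nat_lit 307))) (XT.nd (nat_lit 78) (nat_lit 228)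 (nat_lit 0) (XT.lf (nat_lit 0) (nat_lit 73936620493) (nat_lit 76) (nat_lit 11561020294) (nat_lit 76) (nat_lit 1631611092) (nat_lit 16) (nat_lit 4) (nat_lit 17) (nat_lit 5) (nat_lit 17) (nat_lit 4) (nat_lit 374) (nat_lit 340) (nat_lit 306)) (XT.nd (nat_lit 78) (nat_lit 76) (nat_lit 0) (XT.lf (nat_lit 0) (nat_lit 36571760245) (nat_lit 152) (nat_lit 33082989430) (nat_lit 0) (nat_lit 27367417244) (nat_lit 14) (nat_lit 5) (nat_lit 16) (nat_lit 4) (nat_lit 14) (nat_lit 4) (nat_lit 375) (nat_lit 340) (nat_lit 305)) (XT.lf (nat_lit 0) (nat_lit 46869663824) (nat_lit 76) (nat_lit 35299298656) (nat_lit 76) (nat_lit 26085872532) (nat_lit 13) (nat_lit 4) (nat_lit 14) (nat_lit 5) (nat_lit 14) (nat_lit 4) (nat_lit 376) (nat_lit 340) (nat_lit 304)))))) (XT.nd (nat_lit 312) (nat_lit 228) (nat_lit 0) (XT.nd (nat_lit 156) (nat_lit 228) (nat_lit 0) (XT.nd (nat_lit 78) (nat_lit 0) (nat_lit 0) (XT.lf (nat_lit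 0) (nat_lit 14303251823) (nat_lit 152) (nat_lit 100954966055) (nat_lit 0) (nat_lit 5764988405) (nat_lit 11) (nat_lit 5) (nat_lit 13) (nat_lit 4) (nat_lit 11) (nat_lit 4) (nat_lit 377) (nat_lit 340) (nat_lit 303)) (XT.lf (nat_lit 0) (nat_lit 61986185186) (nat_lit 152) (nat_lit 20002480727) (nat_lit 0) (nat_lit 53441562375) (nat_lit 11) (nat_lit 5) (nat_lit 13) (nat_lit 4) (nat_lit 11) (nat_lit 4) (nat_lit 378) (nat_lit 340) (nat_lit 302))) (XT.nd (nat_lit 78) (nat_lit 152) (nat_lit 0) (XT.lf (nat_lit 0) (nat_lit 76803232691) (nat_lit 76) (nat_lit 41801293396) (nat_lit 76) (nat_lit 33251140677) (nat_lit 10) (nat_lit 4) (nat_lit 11) (nat_lit 5) (nat_lit 11) (nat_lit 4) (nat_lit 379) (nat_lit 340) (nat_lit 301)) (XT.lf (nat_lit 0) (nat_lit 13459895406) (nat_lit 152) (nat_lit 151630391902) (nat_lit 0) (nat_lit 5538634911) (nat_lit 8) (nat_lit 5) (nat_lit 10) (nat_lit 4) (nat_lit 8) (nat_lit 4)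 (nat_lit 380) (nat_lit 340) (nat_lit 300)))) (XT.nd (nat_lit 156) (nat_lit 152) (nat_lit 0) (XT.nd (nat_lit 78) (nat_lit 76) (nat_lit 0) (XT.lf (nat_lit 0) (nat_lit 68606197943) (nat_lit 152) (nat_lit 62590013425) (nat_lit 0) (nat_lit 60681065777) (nat_lit 8) (nat_lit 5) (nat_lit 10) (nat_lit 4) (nat_lit 8) (nat_lit 4) (nat_lit 381) (nat_lit 340) (nat_lit 299)) (XT.lf (nat_lit 0) (nat_lit 41796174890) (nat_lit 76) (nat_lit 91184361195) (nat_lit 76) (nat_lit 83255862358) (nat_lit 7) (nat_lit 4) (nat_lit 8) (nat_lit 5) (nat_lit 8) (nat_lit 4) (nat_lit 382) (nat_lit 340) (nat_lit 298))) (XT.nd (nat_lit 78) (nat_lit 152) (nat_lit 0) (XT.lf (nat_lit 0) (nat_lit 165538045941) (nat_lit 76) (nat_lit 43250291824) (nat_lit 76) (nat_lit 35318865447) (nat_lit 7) (nat_lit 4) (nat_lit 8) (nat_lit 5) (nat_lit 8) (nat_lit 4) (nat_lit 383) (nat_lit 340) (nat_lit 297)) (XT.nd (nat_lit 78) (nat_lit 0) (nat_lit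 0) (XT.lf (nat_lit 0) (nat_lit 19883013250) (nat_lit 152) (nat_lit 243615541515) (nat_lit 0) (nat_lit 12536742821) (nat_lit 5) (nat_lit 5) (nat_lit 7) (nat_lit 4) (nat_lit 5) (nat_lit 4) (nat_lit 384) (nat_lit 340) (nat_lit 296)) (XT.lf (nat_lit 0) (nat_lit 84838821875) (nat_lit 152) (nat_lit 150064699298) (nat_lit 0) (nat_lit 77490501779) (nat_lit 5) (nat_lit 5) (nat_lit 7) (nat_lit 4) (nat_lit 5) (nat_lit 4) (nat_lit 385) (nat_lit 340) (nat_lit 295))))))) (XT.nd (nat_lit 702) (nat_lit 76) (nat_lit 0) (XT.nd (nat_lit 312) (nat_lit 152) (nat_lit 0) (XT.nd (nat_lit 156) (nat_lit 0) (nat_lit 0) (XT.nd (nat_lit 78) (nat_lit 76) (nat_lit 0) (XT.lf (nat_lit 0) (nat_lit 159505299745) (nat_lit 152) (nat_lit 42548676397) (nat_lit 0) (nat_lit 152155197329) (nat_lit 5) (nat_lit 5) (nat_lit 7) (nat_lit 4) (nat_lit 5) (nat_lit 4) (nat_lit 386) (nat_lit 340) (nat_lit 294)) (XT.lf (nat_lit 0) (nat_lit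 85303319048) (nat_lit 76) (nat_lit 162091540557) (nat_lit 76) (nat_lit 154739888299) (nat_lit 4) (nat_lit 4) (nat_lit 5) (nat_lit 5) (nat_lit 5) (nat_lit 4) (nat_lit 387) (nat_lit 340) (nat_lit 293))) (XT.nd (nat_lit 78) (nat_lit 0) (nat_lit 0) (XT.lf (nat_lit 0) (nat_lit 234856048296) (nat_lit 76) (nat_lit 114824545532) (nat_lit 76) (nat_lit 107471545584) (nat_lit 4) (nat_lit 4) (nat_lit 5) (nat_lit 5) (nat_lit 5) (nat_lit 4) (nat_lit 388) (nat_lit 340) (nat_lit 292)) (XT.lf (nat_lit 0) (nat_lit 406795005108) (nat_lit 76) (nat_lit 60491558249) (nat_lit 76) (nat_lit 53137386397) (nat_lit 4) (nat_lit 4) (nat_lit 5) (nat_lit 5) (nat_lit 5) (nat_lit 4) (nat_lit 389) (nat_lit 340) (nat_lit 291)))) (XT.nd (nat_lit 156) (nat_lit 0) (nat_lit 0) (XT.nd (nat_lit 78) (nat_lit 0) (nat_lit 0) (XT.lf (nat_lit 0) (nat_lit 9199937107) (nat_lit 152) (nat_lit 581553387221) (nat_lit 0) (nat_lit 2389575164)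 (nat_lit 2) (nat_lit 5) (nat_lit 4) (nat_lit 4) (nat_lit 2) (nat_lit 4) (nat_lit 390) (nat_lit 340) (nat_lit 290)) (XT.lf (nat_lit 0) (nat_lit 82879206121) (nat_lit 152) (nat_lit 517301032760) (nat_lit 0) (nat_lit 76068023690) (nat_lit 2) (nat_lit 5) (nat_lit 4) (nat_lit 4) (nat_lit 2) (nat_lit 4) (nat_lit 391) (nat_lit 340) (nat_lit 289))) (XT.nd (nat_lit 78) (nat_lit 0) (nat_lit 0) (XT.lf (nat_lit 0) (nat_lit 167593894243) (nat_lit 152) (nat_lit 443444855296) (nat_lit 0) (nat_lit 160781998344) (nat_lit 2) (nat_lit 5) (nat_lit 4) (nat_lit 4) (nat_lit 2) (nat_lit 4) (nat_lit 392) (nat_lit 340) (nat_lit 288)) (XT.nd (nat_lit 78) (nat_lit 0) (nat_lit 0) (XT.lf (nat_lit 0) (nat_lit 265001462764) (nat_lit 152) (nat_lit 358539842662) (nat_lit 0) (nat_lit 258188946457) (nat_lit 2) (nat_lit 5) (nat_lit 4) (nat_lit 4) (nat_lit 2) (nat_lit 4) (nat_lit 393) (nat_lit 340) (nat_lit 287)) (XT.lf (nat_lit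 0) (nat_lit 377007711936) (nat_lit 152) (nat_lit 260924809828) (nat_lit 0) (nat_lit 370194656145) (nat_lit 2) (nat_lit 5) (nat_lit 4) (nat_lit 4) (nat_lit 2) (nat_lit 4) (nat_lit 394) (nat_lit 340) (nat_lit 286)))))) (XT.nd (nat_lit 390) (nat_lit 0) (nat_lit 0) (XT.nd (nat_lit 156) (nat_lit 76) (nat_lit 0) (XT.nd (nat_lit 78) (nat_lit 0) (nat_lit 0) (XT.lf (nat_lit 0) (nat_lit 505804068375) (nat_lit 152) (nat_lit 148689897456) (nat_lit 0) (nat_lit 498990543466) (nat_lit 2) (nat_lit 5) (nat_lit 4) (nat_lit 4) (nat_lit 2) (nat_lit 4) (nat_lit 395) (nat_lit 340) (nat_lit 285)) (XT.lf (nat_lit 0) (nat_lit 653910460792) (nat_lit 152) (nat_lit 19639205086) (nat_lit 0) (nat_lit 647096527955) (nat_lit 2) (nat_lit 5) (nat_lit 4) (nat_lit 4) (nat_lit 2) (nat_lit 4) (nat_lit 396) (nat_lit 340) (nat_lit 284))) (XT.nd (nat_lit 78) (nat_lit 0) (nat_lit 0) (XT.lf (nat_lit 0) (nat_lit 135532033347) (nat_lit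 76) (nat_lit 691952138267) (nat_lit 76) (nat_lit 685137850711) (nat_lit 1) (nat_lit 4) (nat_lit 2) (nat_lit 5) (nat_lit 2) (nat_lit 4) (nat_lit 397) (nat_lit 340) (nat_lit 283)) (XT.nd (nat_lit 78) (nat_lit 0) (nat_lit 0) (XT.lf (nat_lit 0) (nat_lit 315152761245) (nat_lit 76) (nat_lit 712505458706) (nat_lit 76) (nat_lit 705690862698) (nat_lit 1) (nat_lit 4) (nat_lit 2) (nat_lit 5) (nat_lit 2) (nat_lit 4) (nat_lit 398) (nat_lit 340) (nat_lit 282)) (XT.lf (nat_lit 0) (nat_lit 521703131461) (nat_lit 76) (nat_lit 736148728050) (nat_lit 76) (nat_lit 729333863823) (nat_lit 1) (nat_lit 4) (nat_lit 2) (nat_lit 5) (nat_lit 2) (nat_lit 4) (nat_lit 399) (nat_lit 340) (nat_lit 281))))) (XT.nd (nat_lit 156) (nat_lit 0) (nat_lit 0) (XT.nd (nat_lit 78) (nat_lit 0) (nat_lit 0) (XT.lf (nat_lit 0) (nat_lit 759224346889) (nat_lit 76) (nat_lit 763344532003) (nat_lit 76) (nat_lit 756529434541) (nat_lit 1) (nat_lit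 4) (nat_lit 2) (nat_lit 5) (nat_lit 2) (nat_lit 4) (nat_lit 400) (nat_lit 340) (nat_lit 280)) (XT.lf (nat_lit 0) (nat_lit 1032363561746) (nat_lit 76) (nat_lit 794624962381) (nat_lit 76) (nat_lit 787809662107) (nat_lit 1) (nat_lit 4) (nat_lit 2) (nat_lit 5) (nat_lit 2) (nat_lit 4) (nat_lit 401) (nat_lit 340) (nat_lit 279))) (XT.nd (nat_lit 78) (nat_lit 0) (nat_lit 0) (XT.lf (nat_lit 0) (nat_lit 1346464804146) (nat_lit 76) (nat_lit 830602027605) (nat_lit 76) (nat_lit 823786550972) (nat_lit 1) (nat_lit 4) (nat_lit 2) (nat_lit 5) (nat_lit 2) (nat_lit 4) (nat_lit 402) (nat_lit 340) (nat_lit 278)) (XT.nd (nat_lit 78) (nat_lit 0) (nat_lit 0) (XT.lf (nat_lit 0) (nat_lit 1707673533182) (nat_lit 76) (nat_lit 871979626776) (nat_lit 76) (nat_lit 865163996789) (nat_lit 1) (nat_lit 4) (nat_lit 2) (nat_lit 5) (nat_lit 2) (nat_lit 4) (nat_lit 403) (nat_lit 340) (nat_lit 277)) (XT.lf (nat_lit 0) (nat_lit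 2123056876160) (nat_lit 76) (nat_lit 919567321619) (nat_lit 76) (nat_lit 912751558279) (nat_lit 1) (nat_lit 4) (nat_lit 2) (nat_lit 5) (nat_lit 2) (nat_lit 4) (nat_lit 404) (nat_lit 340) (nat_lit 276))))))))
noncomputable def xc47 : XT := (XT.nd (nat_lit 48204) (nat_lit 0) (nat_lit 2812) (XT.nd (nat_lit 702) (nat_lit 0) (nat_lit 0) (XT.nd (nat_lit 312) (nat_lit 0) (nat_lit 0) (XT.nd (nat_lit 156) (nat_lit 0) (nat_lit 0) (XT.nd (nat_lit 78) (nat_lit 0) (nat_lit 0) (XT.lf (nat_lit 0) (nat_lit 2600741898487) (nat_lit 76) (nat_lit 974296175728) (nat_lit 76) (nat_lit 967480296429) (nat_lit 1) (nat_lit 4) (nat_lit 2) (nat_lit 5) (nat_lit 2) (nat_lit 4) (nat_lit 405) (nat_lit 340) (nat_lit 275)) (XT.lf (nat_lit 0) (nat_lit 3150074611468) (nat_lit 76) (nat_lit 1037236971030) (nat_lit 76) (nat_lit 1030420990898) (nat_lit 1) (nat_lit 4) (nat_lit 2) (nat_lit 5) (nat_lit 2) (nat_lit 4) (nat_lit 406)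 (nat_lit 340) (nat_lit 274))) (XT.nd (nat_lit 78) (nat_lit 0) (nat_lit 0) (XT.lf (nat_lit 0) (nat_lit 3781802829053) (nat_lit 76) (nat_lit 1109621157869) (nat_lit 76) (nat_lit 1102805090056) (nat_lit 1) (nat_lit 4) (nat_lit 2) (nat_lit 5) (nat_lit 2) (nat_lit 4) (nat_lit 407) (nat_lit 340) (nat_lit 273)) (XT.lf (nat_lit 0) (nat_lit 4508286451152) (nat_lit 76) (nat_lit 1192864948596) (nat_lit 76) (nat_lit 1186048804538) (nat_lit 1) (nat_lit 4) (nat_lit 2) (nat_lit 5) (nat_lit 2) (nat_lit 4) (nat_lit 408) (nat_lit 340) (nat_lit 272)))) (XT.nd (nat_lit 156) (nat_lit 0) (nat_lit 0) (XT.nd (nat_lit 78) (nat_lit 0) (nat_lit 0) (XT.lf (nat_lit 0) (nat_lit 5343739287763) (nat_lit 76) (nat_lit 1288597026073) (nat_lit 76) (nat_lit 1281780815716) (nat_lit 1) (nat_lit 4) (nat_lit 2) (nat_lit 5) (nat_lit 2) (nat_lit 4) (nat_lit 409) (nat_lit 340) (nat_lit 271)) (XT.lf (nat_lit 0) (nat_lit 6304507155252)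 (nat_lit 76) (nat_lit 1398690409208) (nat_lit 76) (nat_lit 1391874141198) (nat_lit 1) (nat_lit 4) (nat_lit 2) (nat_lit 5) (nat_lit 2) (nat_lit 4) (nat_lit 410) (nat_lit 340) (nat_lit 270))) (XT.nd (nat_lit 78) (nat_lit 0) (nat_lit 0) (XT.lf (nat_lit 0) (nat_lit 7409387685812) (nat_lit 76) (nat_lit 1525299098973) (nat_lit 76) (nat_lit 1518482780832) (nat_lit 1) (nat_lit 4) (nat_lit 2) (nat_lit 5) (nat_lit 2) (nat_lit 4) (nat_lit 411) (nat_lit 340) (nat_lit 269)) (XT.nd (nat_lit 78) (nat_lit 0) (nat_lit 0) (XT.lf (nat_lit 0) (nat_lit 8679998107213) (nat_lit 76) (nat_lit 1670900221910) (nat_lit 76) (nat_lit 1664083860175) (nat_lit 1) (nat_lit 4) (nat_lit 2) (nat_lit 5) (nat_lit 2) (nat_lit 4) (nat_lit 412) (nat_lit 340) (nat_lit 268)) (XT.lf (nat_lit 0) (nat_lit 10141198188570) (nat_lit 76) (nat_lit 1838342495639) (nat_lit 76) (nat_lit 1831526095997) (nat_lit 1) (nat_lit 4) (nat_lit 2) (nat_lit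 5) (nat_lit 2) (nat_lit 4) (nat_lit 413) (nat_lit 340) (nat_lit 267)))))) (XT.nd (nat_lit 312) (nat_lit 0) (nat_lit 0) (XT.nd (nat_lit 156) (nat_lit 0) (nat_lit 0) (XT.nd (nat_lit 78) (nat_lit 0) (nat_lit 0) (XT.lf (nat_lit 0) (nat_lit 11821576627127) (nat_lit 76) (nat_lit 2030901964648) (nat_lit 76) (nat_lit 2024085532043) (nat_lit 1) (nat_lit 4) (nat_lit 2) (nat_lit 5) (nat_lit 2) (nat_lit 4) (nat_lit 414) (nat_lit 340) (nat_lit 266)) (XT.lf (nat_lit 0) (nat_lit 13754010392334) (nat_lit 76) (nat_lit 2252346096807) (nat_lit 76) (nat_lit 2245529635540) (nat_lit 1) (nat_lit 4) (nat_lit 2) (nat_lit 5) (nat_lit 2) (nat_lit 4) (nat_lit 415) (nat_lit 340) (nat_lit 265))) (XT.nd (nat_lit 78) (nat_lit 0) (nat_lit 0) (XT.lf (nat_lit 0) (nat_lit 15976307970901) (nat_lit 76) (nat_lit 2507007494703) (nat_lit 76) (nat_lit 2500191008511) (nat_lit 1) (nat_lit 4) (nat_lit 2) (nat_lit 5) (nat_lit 2) (nat_lit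 4) (nat_lit 416) (nat_lit 340) (nat_lit 264)) (XT.lf (nat_lit 0) (nat_lit 18531949098061) (nat_lit 76) (nat_lit 2799868663947) (nat_lit 76) (nat_lit 2793052156082) (nat_lit 1) (nat_lit 4) (nat_lit 2) (nat_lit 5) (nat_lit 2) (nat_lit 4) (nat_lit 417) (nat_lit 340) (nat_lit 263)))) (XT.nd (nat_lit 156) (nat_lit 0) (nat_lit 0) (XT.nd (nat_lit 78) (nat_lit 0) (nat_lit 0) (XT.lf (nat_lit 0) (nat_lit 21470935448041) (nat_lit 76) (nat_lit 3136659496981) (nat_lit 76) (nat_lit 3129842970269) (nat_lit 1) (nat_lit 4) (nat_lit 2) (nat_lit 5) (nat_lit 2) (nat_lit 4) (nat_lit 418) (nat_lit 340) (nat_lit 262)) (XT.lf (nat_lit 0) (nat_lit 24850768927690) (nat_lit 76) (nat_lit 3523969379667) (nat_lit 76) (nat_lit 3517152836567) (nat_lit 1) (nat_lit 4) (nat_lit 2) (nat_lit 5) (nat_lit 2) (nat_lit 4) (nat_lit 419) (nat_lit 340) (nat_lit 261))) (XT.nd (nat_lit 78) (nat_lit 0) (nat_lit 0) (XT.lf (nat_lit 0) (nat_lit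 28737576713781) (nat_lit 76) (nat_lit 3969376114060) (nat_lit 76) (nat_lit 3962559556709) (nat_lit 1) (nat_lit 4) (nat_lit 2) (nat_lit 5) (nat_lit 2) (nat_lit 4) (nat_lit 420) (nat_lit 340) (nat_lit 260)) (XT.nd (nat_lit 46878) (nat_lit 0) (nat_lit 7600) (XT.lf (nat_lit 0) (nat_lit 33207405045610) (nat_lit 76) (nat_lit 4481594179744) (nat_lit 76) (nat_lit 4474777610001) (nat_lit 1) (nat_lit 4) (nat_lit 2) (nat_lit 5) (nat_lit 2) (nat_lit 4) (nat_lit 421) (nat_lit 340) (nat_lit 259)) (XT.lf (nat_lit 0) (nat_lit 2010806182) (nat_lit 228) (nat_lit 627994241) (nat_lit 228) (nat_lit 627994241) (nat_lit 101) (nat_lit 3) (nat_lit 104) (nat_lit 3) (nat_lit 104) (nat_lit 5) (nat_lit 341) (nat_lit 341) (nat_lit 338))))))) (XT.nd (nat_lit 702) (nat_lit 1900) (nat_lit 0) (XT.nd (nat_lit 312) (nat_lit 2052) (nat_lit 0) (XT.nd (nat_lit 156) (nat_lit 608) (nat_lit 0) (XT.nd (nat_lit 78) (nat_lit 0) (nat_lit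 0) (XT.lf (nat_lit 0) (nat_lit 2034766440) (nat_lit 228) (nat_lit 1730967277) (nat_lit 304) (nat_lit 2893349722) (nat_lit 98) (nat_lit 5) (nat_lit 101) (nat_lit 3) (nat_lit 102) (nat_lit 5) (nat_lit 342) (nat_lit 341) (nat_lit 337)) (XT.lf (nat_lit 76) (nat_lit 5011152275) (nat_lit 0) (nat_lit 1457835681) (nat_lit 304) (nat_lit 381163261) (nat_lit 99) (nat_lit 5) (nat_lit 98) (nat_lit 5) (nat_lit 102) (nat_lit 5) (nat_lit 343) (nat_lit 341) (nat_lit 336))) (XT.nd (nat_lit 78) (nat_lit 380) (nat_lit 0) (XT.lf (nat_lit 0) (nat_lit 3767329675) (nat_lit 304) (nat_lit 1661500560) (nat_lit 76) (nat_lit 1673128078) (nat_lit 95) (nat_lit 5) (nat_lit 99) (nat_lit 5) (nat_lit 96) (nat_lit 5) (nat_lit 344) (nat_lit 341) (nat_lit 335)) (XT.lf (nat_lit 0) (nat_lit 663191402) (nat_lit 380) (nat_lit 1138894003) (nat_lit 76) (nat_lit 5619119057) (nat_lit 90) (nat_lit 5) (nat_lit 95) (nat_lit 5) (nat_lit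 91) (nat_lit 5) (nat_lit 345) (nat_lit 341) (nat_lit 334)))) (XT.nd (nat_lit 156) (nat_lit 684) (nat_lit 0) (XT.nd (nat_lit 78) (nat_lit 988) (nat_lit 0) (XT.lf (nat_lit 0) (nat_lit 4782818346) (nat_lit 456) (nat_lit 347274419) (nat_lit 76) (nat_lit 2673921414) (nat_lit 85) (nat_lit 5) (nat_lit 91) (nat_lit 5) (nat_lit 86) (nat_lit 5) (nat_lit 346) (nat_lit 341) (nat_lit 333)) (XT.lf (nat_lit 0) (nat_lit 838679235) (nat_lit 456) (nat_lit 173204249) (nat_lit 532) (nat_lit 7246079052) (nat_lit 72) (nat_lit 5) (nat_lit 78) (nat_lit 5) (nat_lit 79) (nat_lit 5) (nat_lit 347) (nat_lit 341) (nat_lit 332))) (XT.nd (nat_lit 78) (nat_lit 456) (nat_lit 0) (XT.lf (nat_lit 0) (nat_lit 2288450757) (nat_lit 228) (nat_lit 3145443776) (nat_lit 304) (nat_lit 3342922724) (nat_lit 69) (nat_lit 5) (nat_lit 72) (nat_lit 5) (nat_lit 73) (nat_lit 5) (nat_lit 348) (nat_lit 341) (nat_lit 331)) (XT.nd (nat_lit 78)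 (nat_lit 152) (nat_lit 0) (XT.lf (nat_lit 0) (nat_lit 1048818685) (nat_lit 304) (nat_lit 5255322464) (nat_lit 76) (nat_lit 3070417822) (nat_lit 65) (nat_lit 5) (nat_lit 69) (nat_lit 5) (nat_lit 66) (nat_lit 5) (nat_lit 349) (nat_lit 341) (nat_lit 330)) (XT.lf (nat_lit 0) (nat_lit 5947822137) (nat_lit 228) (nat_lit 3767235326) (nat_lit 76) (nat_lit 336327442) (nat_lit 63) (nat_lit 5) (nat_lit 66) (nat_lit 5) (nat_lit 64) (nat_lit 5) (nat_lit 350) (nat_lit 341) (nat_lit 329)))))) (XT.nd (nat_lit 390) (nat_lit 760) (nat_lit 0) (XT.nd (nat_lit 156) (nat_lit 532) (nat_lit 0) (XT.nd (nat_lit 78) (nat_lit 304) (nat_lit 0) (XT.lf (nat_lit 0) (nat_lit 901642860) (nat_lit 304) (nat_lit 2004266860) (nat_lit 76) (nat_lit 7907460918) (nat_lit 59) (nat_lit 5) (nat_lit 63) (nat_lit 5) (nat_lit 60) (nat_lit 5) (nat_lit 351) (nat_lit 341) (nat_lit 328)) (XT.lf (nat_lit 0) (nat_lit 30484011) (nat_lit 152)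 (nat_lit 6584322435) (nat_lit 228) (nat_lit 5050367706) (nat_lit 55) (nat_lit 5) (nat_lit 57) (nat_lit 5) (nat_lit 58) (nat_lit 5) (nat_lit 352) (nat_lit 341) (nat_lit 327))) (XT.nd (nat_lit 78) (nat_lit 304) (nat_lit 0) (XT.lf (nat_lit 0) (nat_lit 827263096) (nat_lit 228) (nat_lit 10020140693) (nat_lit 76) (nat_lit 1771225495) (nat_lit 52) (nat_lit 5) (nat_lit 55) (nat_lit 5) (nat_lit 53) (nat_lit 5) (nat_lit 353) (nat_lit 341) (nat_lit 326)) (XT.nd (nat_lit 78) (nat_lit 152) (nat_lit 0) (XT.lf (nat_lit 0) (nat_lit 5463172575) (nat_lit 152) (nat_lit 2199277281) (nat_lit 228) (nat_lit 6012203988) (nat_lit 50) (nat_lit 5) (nat_lit 52) (nat_lit 5) (nat_lit 53) (nat_lit 5) (nat_lit 354) (nat_lit 341) (nat_lit 325)) (XT.lf (nat_lit 0) (nat_lit 1040694617) (nat_lit 152) (nat_lit 6065220812) (nat_lit 76) (nat_lit 7746894969) (nat_lit 48) (nat_lit 5) (nat_lit 50) (nat_lit 5) (nat_lit 49) (nat_lit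 5) (nat_lit 355) (nat_lit 341) (nat_lit 324))))) (XT.nd (nat_lit 156) (nat_lit 456) (nat_lit 0) (XT.nd (nat_lit 78) (nat_lit 152) (nat_lit 0) (XT.lf (nat_lit 0) (nat_lit 9247710807) (nat_lit 228) (nat_lit 3622481900) (nat_lit 76) (nat_lit 3288860024) (nat_lit 46) (nat_lit 5) (nat_lit 49) (nat_lit 5) (nat_lit 47) (nat_lit 4) (nat_lit 356) (nat_lit 341) (nat_lit 323)) (XT.lf (nat_lit 0) (nat_lit 1540562441) (nat_lit 152) (nat_lit 759325858) (nat_lit 76) (nat_lit 15314013894) (nat_lit 44) (nat_lit 5) (nat_lit 46) (nat_lit 5) (nat_lit 45) (nat_lit 5) (nat_lit 357) (nat_lit 341) (nat_lit 322))) (XT.nd (nat_lit 78) (nat_lit 228) (nat_lit 0) (XT.lf (nat_lit 0) (nat_lit 2502448313) (nat_lit 76) (nat_lit 9094046960) (nat_lit 152) (nat_lit 7616505146) (nat_lit 41) (nat_lit 5) (nat_lit 42) (nat_lit 5) (nat_lit 43) (nat_lit 4) (nat_lit 358) (nat_lit 341) (nat_lit 321)) (XT.nd (nat_lit 78) (nat_lit 76)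 (nat_lit 0) (XT.lf (nat_lit 0) (nat_lit 2676342567) (nat_lit 152) (nat_lit 14620024818) (nat_lit 76) (nat_lit 3697716380) (nat_lit 39) (nat_lit 5) (nat_lit 41) (nat_lit 5) (nat_lit 40) (nat_lit 4) (nat_lit 359) (nat_lit 341) (nat_lit 320)) (XT.lf (nat_lit 0) (nat_lit 10622877815) (nat_lit 76) (nat_lit 4260507502) (nat_lit 152) (nat_lit 8077431995) (nat_lit 38) (nat_lit 5) (nat_lit 39) (nat_lit 5) (nat_lit 40) (nat_lit 4) (nat_lit 360) (nat_lit 341) (nat_lit 319))))))))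
noncomputable def xc48 : XT := (XT.nd (nat_lit 1404) (nat_lit 684) (nat_lit 0) (XT.nd (nat_lit 702) (nat_lit 912) (nat_lit 0) (XT.nd (nat_lit 312) (nat_lit 684) (nat_lit 0) (XT.nd (nat_lit 156) (nat_lit 228) (nat_lit 0) (XT.nd (nat_lit 78) (nat_lit 76) (nat_lit 0) (XT.lf (nat_lit 0) (nat_lit 4421082380) (nat_lit 152) (nat_lit 9751406684) (nat_lit 76) (nat_lit 10970391012) (nat_lit 36) (nat_lit 5) (nat_lit 38) (nat_lit 5) (nat_lit 37) (nat_lit 4) (nat_lit 361) (nat_lit 341) (nat_lit 318)) (XT.lf (nat_lit 0) (nat_lit 19183057104) (nat_lit 152) (nat_lit 6839544257) (nat_lit 0) (nat_lit 1543519981) (nat_lit 35) (nat_lit 5) (nat_lit 37) (nat_lit 4) (nat_lit 35) (nat_lit 4) (nat_lit 362) (nat_lit 341) (nat_lit 317))) (XT.nd (nat_lit 78) (nat_lit 76) (nat_lit 0) (XT.lf (nat_lit 0) (nat_lit 6711149249) (nat_lit 152) (nat_lit 3763633362) (nat_lit 76) (nat_lit 19771291825) (nat_lit 33) (nat_lit 5)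 (nat_lit 35) (nat_lit 5) (nat_lit 34) (nat_lit 4) (nat_lit 363) (nat_lit 341) (nat_lit 316)) (XT.lf (nat_lit 0) (nat_lit 24643354183) (nat_lit 152) (nat_lit 415361864) (nat_lit 0) (nat_lit 8166273627) (nat_lit 32) (nat_lit 5) (nat_lit 34) (nat_lit 4) (nat_lit 32) (nat_lit 4) (nat_lit 364) (nat_lit 341) (nat_lit 315)))) (XT.nd (nat_lit 156) (nat_lit 380) (nat_lit 0) (XT.nd (nat_lit 78) (nat_lit 76) (nat_lit 0) (XT.lf (nat_lit 0) (nat_lit 3257768274) (nat_lit 76) (nat_lit 6258174314) (nat_lit 152) (nat_lit 27011651855) (nat_lit 29) (nat_lit 5) (nat_lit 30) (nat_lit 5) (nat_lit 31) (nat_lit 4) (nat_lit 365) (nat_lit 341) (nat_lit 314)) (XT.lf (nat_lit 0) (nat_lit 6947692190) (nat_lit 76) (nat_lit 24301613410) (nat_lit 76) (nat_lit 8944115090) (nat_lit 28) (nat_lit 4) (nat_lit 29) (nat_lit 5) (nat_lit 29) (nat_lit 4) (nat_lit 366) (nat_lit 341) (nat_lit 313))) (XT.nd (nat_lit 78) (nat_lit 228)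 (nat_lit 0) (XT.lf (nat_lit 0) (nat_lit 10672412941) (nat_lit 76) (nat_lit 1861595349) (nat_lit 152) (nat_lit 31748955264) (nat_lit 26) (nat_lit 5) (nat_lit 27) (nat_lit 5) (nat_lit 28) (nat_lit 4) (nat_lit 367) (nat_lit 341) (nat_lit 312)) (XT.nd (nat_lit 78) (nat_lit 152) (nat_lit 0) (XT.lf (nat_lit 0) (nat_lit 13884907270) (nat_lit 76) (nat_lit 24614699899) (nat_lit 76) (nat_lit 10324121046) (nat_lit 25) (nat_lit 4) (nat_lit 26) (nat_lit 5) (nat_lit 26) (nat_lit 4) (nat_lit 368) (nat_lit 341) (nat_lit 311)) (XT.lf (nat_lit 0) (nat_lit 14985761168) (nat_lit 152) (nat_lit 37194039628) (nat_lit 0) (nat_lit 1727277396) (nat_lit 23) (nat_lit 5) (nat_lit 25) (nat_lit 4) (nat_lit 23) (nat_lit 4) (nat_lit 369) (nat_lit 341) (nat_lit 310)))))) (XT.nd (nat_lit 312) (nat_lit 456) (nat_lit 0) (XT.nd (nat_lit 156) (nat_lit 228) (nat_lit 0) (XT.nd (nat_lit 78) (nat_lit 152) (nat_lit 0) (XT.lf (nat_lit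 0) (nat_lit 18261568452) (nat_lit 76) (nat_lit 27292764505) (nat_lit 76) (nat_lit 14011266546) (nat_lit 22) (nat_lit 4) (nat_lit 23) (nat_lit 5) (nat_lit 23) (nat_lit 4) (nat_lit 370) (nat_lit 341) (nat_lit 309)) (XT.lf (nat_lit 0) (nat_lit 15441079542) (nat_lit 152) (nat_lit 47355764391) (nat_lit 0) (nat_lit 3124866305) (nat_lit 20) (nat_lit 5) (nat_lit 22) (nat_lit 4) (nat_lit 20) (nat_lit 4) (nat_lit 371) (nat_lit 341) (nat_lit 308))) (XT.nd (nat_lit 78) (nat_lit 152) (nat_lit 0) (XT.lf (nat_lit 0) (nat_lit 16229860914) (nat_lit 76) (nat_lit 34559968133) (nat_lit 76) (nat_lit 22227641903) (nat_lit 19) (nat_lit 4) (nat_lit 20) (nat_lit 5) (nat_lit 20) (nat_lit 4) (nat_lit 372) (nat_lit 341) (nat_lit 307)) (XT.lf (nat_lit 0) (nat_lit 11254567880) (nat_lit 76) (nat_lit 92021258) (nat_lit 152) (nat_lit 69683524937) (nat_lit 17) (nat_lit 5) (nat_lit 18) (nat_lit 5) (nat_lit 19) (nat_lit 4)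 (nat_lit 373) (nat_lit 341) (nat_lit 306)))) (XT.nd (nat_lit 156) (nat_lit 380) (nat_lit 0) (XT.nd (nat_lit 78) (nat_lit 0) (nat_lit 0) (XT.lf (nat_lit 0) (nat_lit 1107364184) (nat_lit 76) (nat_lit 50161949946) (nat_lit 76) (nat_lit 38718874700) (nat_lit 16) (nat_lit 4) (nat_lit 17) (nat_lit 5) (nat_lit 17) (nat_lit 4) (nat_lit 374) (nat_lit 341) (nat_lit 305)) (XT.lf (nat_lit 0) (nat_lit 86690906405) (nat_lit 76) (nat_lit 12447652763) (nat_lit 76) (nat_lit 994767746) (nat_lit 16) (nat_lit 4) (nat_lit 17) (nat_lit 5) (nat_lit 17) (nat_lit 4) (nat_lit 375) (nat_lit 341) (nat_lit 304))) (XT.nd (nat_lit 78) (nat_lit 228) (nat_lit 0) (XT.lf (nat_lit 0) (nat_lit 42842549743) (nat_lit 152) (nat_lit 36440003136) (nat_lit 0) (nat_lit 32230128211) (nat_lit 14) (nat_lit 5) (nat_lit 16) (nat_lit 4) (nat_lit 14) (nat_lit 4) (nat_lit 376) (nat_lit 341) (nat_lit 303)) (XT.nd (nat_lit 78) (nat_lit 152)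 (nat_lit 0) (XT.lf (nat_lit 0) (nat_lit 55369656054) (nat_lit 76) (nat_lit 39842624170) (nat_lit 76) (nat_lit 29223334492) (nat_lit 13) (nat_lit 4) (nat_lit 14) (nat_lit 5) (nat_lit 14) (nat_lit 4) (nat_lit 377) (nat_lit 341) (nat_lit 302)) (XT.lf (nat_lit 0) (nat_lit 17139493175) (nat_lit 152) (nat_lit 114680639943) (nat_lit 0) (nat_lit 7301287640) (nat_lit 11) (nat_lit 5) (nat_lit 13) (nat_lit 4) (nat_lit 11) (nat_lit 4) (nat_lit 378) (nat_lit 341) (nat_lit 301))))))) (XT.nd (nat_lit 702) (nat_lit 228) (nat_lit 0) (XT.nd (nat_lit 312) (nat_lit 228) (nat_lit 0) (XT.nd (nat_lit 156) (nat_lit 152) (nat_lit 0) (XT.nd (nat_lit 78) (nat_lit 76) (nat_lit 0) (XT.lf (nat_lit 0) (nat_lit 71884768250) (nat_lit 152) (nat_lit 21770182383) (nat_lit 0) (nat_lit 62041754099) (nat_lit 11) (nat_lit 5) (nat_lit 13) (nat_lit 4) (nat_lit 11) (nat_lit 4) (nat_lit 379) (nat_lit 341) (nat_lit 300)) (XT.lf (nat_lit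 0) (nat_lit 89452048633) (nat_lit 76) (nat_lit 47492601699) (nat_lit 76) (nat_lit 37645406144) (nat_lit 10) (nat_lit 4) (nat_lit 11) (nat_lit 5) (nat_lit 11) (nat_lit 4) (nat_lit 380) (nat_lit 341) (nat_lit 299))) (XT.nd (nat_lit 78) (nat_lit 0) (nat_lit 0) (XT.lf (nat_lit 0) (nat_lit 16007655736) (nat_lit 152) (nat_lit 173286783568) (nat_lit 0) (nat_lit 6886515403) (nat_lit 8) (nat_lit 5) (nat_lit 10) (nat_lit 4) (nat_lit 8) (nat_lit 4) (nat_lit 381) (nat_lit 341) (nat_lit 298)) (XT.lf (nat_lit 0) (nat_lit 79356932869) (nat_lit 152) (nat_lit 71032283161) (nat_lit 0) (nat_lit 70232864996) (nat_lit 8) (nat_lit 5) (nat_lit 10) (nat_lit 4) (nat_lit 8) (nat_lit 4) (nat_lit 382) (nat_lit 341) (nat_lit 297)))) (XT.nd (nat_lit 156) (nat_lit 152) (nat_lit 0) (XT.nd (nat_lit 78) (nat_lit 0) (nat_lit 0) (XT.lf (nat_lit 0) (nat_lit 48931739552) (nat_lit 76) (nat_lit 104416538234) (nat_lit 76) (nat_lit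 95289924674) (nat_lit 7) (nat_lit 4) (nat_lit 8) (nat_lit 5) (nat_lit 8) (nat_lit 4) (nat_lit 383) (nat_lit 341) (nat_lit 296)) (XT.lf (nat_lit 0) (nat_lit 191121916683) (nat_lit 76) (nat_lit 49350464171) (nat_lit 76) (nat_lit 40221636971) (nat_lit 7) (nat_lit 4) (nat_lit 8) (nat_lit 5) (nat_lit 8) (nat_lit 4) (nat_lit 384) (nat_lit 341) (nat_lit 295))) (XT.nd (nat_lit 78) (nat_lit 0) (nat_lit 0) (XT.lf (nat_lit 0) (nat_lit 23217582646) (nat_lit 152) (nat_lit 279431655645) (nat_lit 0) (nat_lit 14763182549) (nat_lit 5) (nat_lit 5) (nat_lit 7) (nat_lit 4) (nat_lit 5) (nat_lit 4) (nat_lit 385) (nat_lit 341) (nat_lit 294)) (XT.nd (nat_lit 78) (nat_lit 0) (nat_lit 0) (XT.lf (nat_lit 0) (nat_lit 97870834207) (nat_lit 152) (nat_lit 171942911065) (nat_lit 0) (nat_lit 89414884267) (nat_lit 5) (nat_lit 5) (nat_lit 7) (nat_lit 4) (nat_lit 5) (nat_lit 4) (nat_lit 386) (nat_lit 341) (nat_lit 293)) (XT.lf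 (nat_lit 0) (nat_lit 183697346055) (nat_lit 152) (nat_lit 48381853397) (nat_lit 0) (nat_lit 175240048426) (nat_lit 5) (nat_lit 5) (nat_lit 7) (nat_lit 4) (nat_lit 5) (nat_lit 4) (nat_lit 387) (nat_lit 341) (nat_lit 292)))))) (XT.nd (nat_lit 312) (nat_lit 0) (nat_lit 0) (XT.nd (nat_lit 156) (nat_lit 152) (nat_lit 0) (XT.nd (nat_lit 78) (nat_lit 0) (nat_lit 0) (XT.lf (nat_lit 0) (nat_lit 98601460714) (nat_lit 76) (nat_lit 186146239339) (nat_lit 76) (nat_lit 177687769806) (nat_lit 4) (nat_lit 4) (nat_lit 5) (nat_lit 5) (nat_lit 5) (nat_lit 4) (nat_lit 388) (nat_lit 341) (nat_lit 291)) (XT.lf (nat_lit 0) (nat_lit 270521537113) (nat_lit 76) (nat_lit 131822981882) (nat_lit 76) (nat_lit 123363493302) (nat_lit 4) (nat_lit 4) (nat_lit 5) (nat_lit 5) (nat_lit 5) (nat_lit 4) (nat_lit 389) (nat_lit 341) (nat_lit 290))) (XT.nd (nat_lit 78) (nat_lit 152) (nat_lit 0) (XT.lf (nat_lit 0) (nat_lit 468194326808)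 (nat_lit 76) (nat_lit 69369426351) (nat_lit 76) (nat_lit 60909051644) (nat_lit 4) (nat_lit 4) (nat_lit 5) (nat_lit 5) (nat_lit 5) (nat_lit 4) (nat_lit 390) (nat_lit 341) (nat_lit 289)) (XT.lf (nat_lit 0) (nat_lit 10757280828) (nat_lit 152) (nat_lit 668419977463) (nat_lit 0) (nat_lit 2922887075) (nat_lit 2) (nat_lit 5) (nat_lit 4) (nat_lit 4) (nat_lit 2) (nat_lit 4) (nat_lit 391) (nat_lit 341) (nat_lit 288)))) (XT.nd (nat_lit 156) (nat_lit 0) (nat_lit 0) (XT.nd (nat_lit 78) (nat_lit 0) (nat_lit 0) (XT.lf (nat_lit 0) (nat_lit 95465307174) (nat_lit 152) (nat_lit 594577563464) (nat_lit 0) (nat_lit 87630293014) (nat_lit 2) (nat_lit 5) (nat_lit 4) (nat_lit 4) (nat_lit 2) (nat_lit 4) (nat_lit 392) (nat_lit 341) (nat_lit 287)) (XT.lf (nat_lit 0) (nat_lit 192867082845) (nat_lit 152) (nat_lit 509684519060) (nat_lit 0) (nat_lit 185031529200) (nat_lit 2) (nat_lit 5) (nat_lit 4) (nat_lit 4) (nat_lit 2)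 (nat_lit 4) (nat_lit 393) (nat_lit 341) (nat_lit 286))) (XT.nd (nat_lit 78) (nat_lit 0) (nat_lit 0) (XT.lf (nat_lit 0) (nat_lit 304868294757) (nat_lit 152) (nat_lit 412079893383) (nat_lit 0) (nat_lit 297032271995) (nat_lit 2) (nat_lit 5) (nat_lit 4) (nat_lit 4) (nat_lit 2) (nat_lit 4) (nat_lit 394) (nat_lit 341) (nat_lit 285)) (XT.nd (nat_lit 78) (nat_lit 0) (nat_lit 0) (XT.lf (nat_lit 0) (nat_lit 433660270969) (nat_lit 152) (nat_lit 299854030712) (nat_lit 0) (nat_lit 425823840279) (nat_lit 2) (nat_lit 5) (nat_lit 4) (nat_lit 4) (nat_lit 2) (nat_lit 4) (nat_lit 395) (nat_lit 341) (nat_lit 284)) (XT.lf (nat_lit 0) (nat_lit 581762854493) (nat_lit 152) (nat_lit 170811207648) (nat_lit 0) (nat_lit 573926069084) (nat_lit 2) (nat_lit 5) (nat_lit 4) (nat_lit 4) (nat_lit 2) (nat_lit 4) (nat_lit 396) (nat_lit 341) (nat_lit 283))))))))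
noncomputable def xc49 : XT := (XT.nd (nat_lit 1404) (nat_lit 0) (nat_lit 0) (XT.nd (nat_lit 702) (nat_lit 0) (nat_lit 0) (XT.nd (nat_lit 312) (nat_lit 0) (nat_lit 0) (XT.nd (nat_lit 156) (nat_lit 0) (nat_lit 0) (XT.nd (nat_lit 78) (nat_lit 76) (nat_lit 0) (XT.lf (nat_lit 0) (nat_lit 752073704574) (nat_lit 152) (nat_lit 22426673305) (nat_lit 0) (nat_lit 744236610712) (nat_lit 2) (nat_lit 5) (nat_lit 4) (nat_lit 4) (nat_lit 2) (nat_lit 4) (nat_lit 397) (nat_lit 341) (nat_lit 282)) (XT.lf (nat_lit 0) (nat_lit 156006842060) (nat_lit 76) (nat_lit 795670116258) (nat_lit 76) (nat_lit 787832754177) (nat_lit 1) (nat_lit 4) (nat_lit 2) (nat_lit 5) (nat_lit 2) (nat_lit 4) (nat_lit 398) (nat_lit 341) (nat_lit 281))) (XT.nd (nat_lit 78) (nat_lit 0) (nat_lit 0) (XT.lf (nat_lit 0) (nat_lit 362551765616) (nat_lit 76) (nat_lit 819316196861) (nat_lit 76) (nat_lit 811478601546) (nat_lit 1) (nat_lit 4) (nat_lit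 2) (nat_lit 5) (nat_lit 2) (nat_lit 4) (nat_lit 399) (nat_lit 341) (nat_lit 280)) (XT.lf (nat_lit 0) (nat_lit 600068244818) (nat_lit 76) (nat_lit 846514445387) (nat_lit 76) (nat_lit 838676647260) (nat_lit 1) (nat_lit 4) (nat_lit 2) (nat_lit 5) (nat_lit 2) (nat_lit 4) (nat_lit 400) (nat_lit 341) (nat_lit 279)))) (XT.nd (nat_lit 156) (nat_lit 0) (nat_lit 0) (XT.nd (nat_lit 78) (nat_lit 0) (nat_lit 0) (XT.lf (nat_lit 0) (nat_lit 873203341217) (nat_lit 76) (nat_lit 877797001481) (nat_lit 76) (nat_lit 869959026996) (nat_lit 1) (nat_lit 4) (nat_lit 2) (nat_lit 5) (nat_lit 2) (nat_lit 4) (nat_lit 401) (nat_lit 341) (nat_lit 278)) (XT.lf (nat_lit 0) (nat_lit 1187301002350) (nat_lit 76) (nat_lit 913775915154) (nat_lit 76) (nat_lit 905937787313) (nat_lit 1) (nat_lit 4) (nat_lit 2) (nat_lit 5) (nat_lit 2) (nat_lit 4) (nat_lit 402) (nat_lit 341) (nat_lit 277))) (XT.nd (nat_lit 78) (nat_lit 0) (nat_lit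 0) (XT.lf (nat_lit 0) (nat_lit 1548506617240) (nat_lit 76) (nat_lit 955155121672) (nat_lit 76) (nat_lit 947316860479) (nat_lit 1) (nat_lit 4) (nat_lit 2) (nat_lit 5) (nat_lit 2) (nat_lit 4) (nat_lit 403) (nat_lit 341) (nat_lit 276)) (XT.nd (nat_lit 78) (nat_lit 0) (nat_lit 0) (XT.lf (nat_lit 0) (nat_lit 1963887252266) (nat_lit 76) (nat_lit 1002744214207) (nat_lit 76) (nat_lit 994905837056) (nat_lit 1) (nat_lit 4) (nat_lit 2) (nat_lit 5) (nat_lit 2) (nat_lit 4) (nat_lit 404) (nat_lit 341) (nat_lit 275)) (XT.lf (nat_lit 0) (nat_lit 2441569919851) (nat_lit 76) (nat_lit 1057474283701) (nat_lit 76) (nat_lit 1049635805716) (nat_lit 1) (nat_lit 4) (nat_lit 2) (nat_lit 5) (nat_lit 2) (nat_lit 4) (nat_lit 405) (nat_lit 341) (nat_lit 274)))))) (XT.nd (nat_lit 312) (nat_lit 0) (nat_lit 0) (XT.nd (nat_lit 156) (nat_lit 0) (nat_lit 0) (XT.nd (nat_lit 78) (nat_lit 0) (nat_lit 0) (XT.lf (nat_lit 0) (nat_lit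 2990900585230) (nat_lit 76) (nat_lit 1120416135860) (nat_lit 76) (nat_lit 1112577570193) (nat_lit 1) (nat_lit 4) (nat_lit 2) (nat_lit 5) (nat_lit 2) (nat_lit 4) (nat_lit 406) (nat_lit 341) (nat_lit 273)) (XT.lf (nat_lit 0) (nat_lit 3622627022293) (nat_lit 76) (nat_lit 1192801241704) (nat_lit 76) (nat_lit 1184962599793) (nat_lit 1) (nat_lit 4) (nat_lit 2) (nat_lit 5) (nat_lit 2) (nat_lit 4) (nat_lit 407) (nat_lit 341) (nat_lit 272))) (XT.nd (nat_lit 78) (nat_lit 0) (nat_lit 0) (XT.lf (nat_lit 0) (nat_lit 4349109096111) (nat_lit 76) (nat_lit 1276045831567) (nat_lit 76) (nat_lit 1268207123356) (nat_lit 1) (nat_lit 4) (nat_lit 2) (nat_lit 5) (nat_lit 2) (nat_lit 4) (nat_lit 408) (nat_lit 341) (nat_lit 271)) (XT.lf (nat_lit 0) (nat_lit 5184560586390) (nat_lit 76) (nat_lit 1371778603944) (nat_lit 76) (nat_lit 1363939838081) (nat_lit 1) (nat_lit 4) (nat_lit 2) (nat_lit 5) (nat_lit 2) (nat_lit 4)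 (nat_lit 409) (nat_lit 341) (nat_lit 270)))) (XT.nd (nat_lit 156) (nat_lit 0) (nat_lit 0) (XT.nd (nat_lit 78) (nat_lit 0) (nat_lit 0) (XT.lf (nat_lit 0) (nat_lit 6145327283158) (nat_lit 76) (nat_lit 1481872591340) (nat_lit 76) (nat_lit 1474033775345) (nat_lit 1) (nat_lit 4) (nat_lit 2) (nat_lit 5) (nat_lit 2) (nat_lit 4) (nat_lit 410) (nat_lit 341) (nat_lit 269)) (XT.lf (nat_lit 0) (nat_lit 7250206795697) (nat_lit 76) (nat_lit 1608481806550) (nat_lit 76) (nat_lit 1600642946962) (nat_lit 1) (nat_lit 4) (nat_lit 2) (nat_lit 5) (nat_lit 2) (nat_lit 4) (nat_lit 411) (nat_lit 341) (nat_lit 268))) (XT.nd (nat_lit 78) (nat_lit 0) (nat_lit 0) (XT.lf (nat_lit 0) (nat_lit 8520816331864) (nat_lit 76) (nat_lit 1754083386394) (nat_lit 76) (nat_lit 1746244488899) (nat_lit 1) (nat_lit 4) (nat_lit 2) (nat_lit 5) (nat_lit 2) (nat_lit 4) (nat_lit 412) (nat_lit 341) (nat_lit 267)) (XT.nd (nat_lit 78) (nat_lit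 0) (nat_lit 0) (XT.lf (nat_lit 0) (nat_lit 9982015643452) (nat_lit 76) (nat_lit 1921526057435) (nat_lit 76) (nat_lit 1913687126978) (nat_lit 1) (nat_lit 4) (nat_lit 2) (nat_lit 5) (nat_lit 2) (nat_lit 4) (nat_lit 413) (nat_lit 341) (nat_lit 266)) (XT.lf (nat_lit 0) (nat_lit 11662393412644) (nat_lit 76) (nat_lit 2114085871932) (nat_lit 76) (nat_lit 2106246912811) (nat_lit 1) (nat_lit 4) (nat_lit 2) (nat_lit 5) (nat_lit 2) (nat_lit 4) (nat_lit 414) (nat_lit 341) (nat_lit 265))))))) (XT.nd (nat_lit 47580) (nat_lit 0) (nat_lit 4104) (XT.nd (nat_lit 312) (nat_lit 0) (nat_lit 0) (XT.nd (nat_lit 156) (nat_lit 0) (nat_lit 0) (XT.nd (nat_lit 78) (nat_lit 0) (nat_lit 0) (XT.lf (nat_lit 0) (nat_lit 13594826595794) (nat_lit 76) (nat_lit 2335530304516) (nat_lit 76) (nat_lit 2327691320471) (nat_lit 1) (nat_lit 4) (nat_lit 2) (nat_lit 5) (nat_lit 2) (nat_lit 4) (nat_lit 415) (nat_lit 341) (nat_lit 264))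 (XT.lf (nat_lit 0) (nat_lit 15817123668226) (nat_lit 76) (nat_lit 2590191963651) (nat_lit 76) (nat_lit 2582352957932) (nat_lit 1) (nat_lit 4) (nat_lit 2) (nat_lit 5) (nat_lit 2) (nat_lit 4) (nat_lit 416) (nat_lit 341) (nat_lit 263))) (XT.nd (nat_lit 78) (nat_lit 0) (nat_lit 0) (XT.lf (nat_lit 0) (nat_lit 18372764355268) (nat_lit 76) (nat_lit 2883053360059) (nat_lit 76) (nat_lit 2875214335494) (nat_lit 1) (nat_lit 4) (nat_lit 2) (nat_lit 5) (nat_lit 2) (nat_lit 4) (nat_lit 417) (nat_lit 341) (nat_lit 262)) (XT.lf (nat_lit 0) (nat_lit 21311750322537) (nat_lit 76) (nat_lit 3219844390627) (nat_lit 76) (nat_lit 3212005349673) (nat_lit 1) (nat_lit 4) (nat_lit 2) (nat_lit 5) (nat_lit 2) (nat_lit 4) (nat_lit 418) (nat_lit 341) (nat_lit 261)))) (XT.nd (nat_lit 156) (nat_lit 0) (nat_lit 0) (XT.nd (nat_lit 78) (nat_lit 0) (nat_lit 0) (XT.lf (nat_lit 0) (nat_lit 24691583469393) (nat_lit 76) (nat_lit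 3607154445082) (nat_lit 76) (nat_lit 3599315389878) (nat_lit 1) (nat_lit 4) (nat_lit 2) (nat_lit 5) (nat_lit 2) (nat_lit 4) (nat_lit 419) (nat_lit 341) (nat_lit 260)) (XT.lf (nat_lit 0) (nat_lit 28578390966100) (nat_lit 76) (nat_lit 4052561328839) (nat_lit 76) (nat_lit 4044722261242) (nat_lit 1) (nat_lit 4) (nat_lit 2) (nat_lit 5) (nat_lit 2) (nat_lit 4) (nat_lit 420) (nat_lit 341) (nat_lit 259))) (XT.nd (nat_lit 46956) (nat_lit 0) (nat_lit 6992) (XT.lf (nat_lit 0) (nat_lit 33048219046289) (nat_lit 76) (nat_lit 4564779524405) (nat_lit 76) (nat_lit 4556940446033) (nat_lit 1) (nat_lit 4) (nat_lit 2) (nat_lit 5) (nat_lit 2) (nat_lit 4) (nat_lit 421) (nat_lit 341) (nat_lit 258)) (XT.nd (nat_lit 78) (nat_lit 380) (nat_lit 0) (XT.lf (nat_lit 0) (nat_lit 1497750086) (nat_lit 0) (nat_lit 1497750086) (nat_lit 228) (nat_lit 413037143) (nat_lit 98) (nat_lit 5) (nat_lit 98) (nat_lit 3) (nat_lit 101)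 (nat_lit 3) (nat_lit 342) (nat_lit 342) (nat_lit 336)) (XT.lf (nat_lit 76) (nat_lit 2599227534) (nat_lit 0) (nat_lit 184494297) (nat_lit 380) (nat_lit 4254954248) (nat_lit 94) (nat_lit 5) (nat_lit 93) (nat_lit 3) (nat_lit 98) (nat_lit 5) (nat_lit 343) (nat_lit 342) (nat_lit 335)))))) (XT.nd (nat_lit 390) (nat_lit 1292) (nat_lit 0) (XT.nd (nat_lit 156) (nat_lit 1368) (nat_lit 0) (XT.nd (nat_lit 78) (nat_lit 304) (nat_lit 0) (XT.lf (nat_lit 76) (nat_lit 2538500606) (nat_lit 0) (nat_lit 3960859534) (nat_lit 380) (nat_lit 823592154) (nat_lit 95) (nat_lit 5) (nat_lit 94) (nat_lit 5) (nat_lit 99) (nat_lit 5) (nat_lit 344) (nat_lit 342) (nat_lit 334)) (XT.lf (nat_lit 0) (nat_lit 2600404434) (nat_lit 380) (nat_lit 4843287072) (nat_lit 76) (nat_lit 229612707) (nat_lit 90) (nat_lit 5) (nat_lit 95) (nat_lit 5) (nat_lit 91) (nat_lit 5) (nat_lit 345) (nat_lit 342) (nat_lit 333))) (XT.nd (nat_lit 78) (nat_lit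 988) (nat_lit 0) (XT.lf (nat_lit 0) (nat_lit 3422974109) (nat_lit 380) (nat_lit 2894212728) (nat_lit 456) (nat_lit 1771224318) (nat_lit 85) (nat_lit 5) (nat_lit 90) (nat_lit 5) (nat_lit 91) (nat_lit 5) (nat_lit 346) (nat_lit 342) (nat_lit 332)) (XT.nd (nat_lit 78) (nat_lit 456) (nat_lit 0) (XT.lf (nat_lit 0) (nat_lit 1777583273) (nat_lit 532) (nat_lit 4219559209) (nat_lit 76) (nat_lit 2576607617) (nat_lit 78) (nat_lit 5) (nat_lit 85) (nat_lit 5) (nat_lit 79) (nat_lit 5) (nat_lit 347) (nat_lit 342) (nat_lit 331)) (XT.lf (nat_lit 0) (nat_lit 5625871429) (nat_lit 456) (nat_lit 74709211) (nat_lit 532) (nat_lit 3431994046) (nat_lit 72) (nat_lit 5) (nat_lit 78) (nat_lit 5) (nat_lit 79) (nat_lit 5) (nat_lit 348) (nat_lit 342) (nat_lit 330))))) (XT.nd (nat_lit 156) (nat_lit 760) (nat_lit 0) (XT.nd (nat_lit 78) (nat_lit 228) (nat_lit 0) (XT.lf (nat_lit 0) (nat_lit 512605509) (nat_lit 304) (nat_lit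 2551600946) (nat_lit 76) (nat_lit 6702448391) (nat_lit 68) (nat_lit 5) (nat_lit 72) (nat_lit 5) (nat_lit 69) (nat_lit 5) (nat_lit 349) (nat_lit 342) (nat_lit 329)) (XT.lf (nat_lit 0) (nat_lit 4950045914) (nat_lit 304) (nat_lit 1351258892) (nat_lit 76) (nat_lit 4179135165) (nat_lit 65) (nat_lit 5) (nat_lit 69) (nat_lit 5) (nat_lit 66) (nat_lit 5) (nat_lit 350) (nat_lit 342) (nat_lit 328))) (XT.nd (nat_lit 78) (nat_lit 380) (nat_lit 0) (XT.lf (nat_lit 0) (nat_lit 220779107) (nat_lit 228) (nat_lit 10005912513) (nat_lit 304) (nat_lit 1060777943) (nat_lit 60) (nat_lit 5) (nat_lit 63) (nat_lit 5) (nat_lit 64) (nat_lit 5) (nat_lit 351) (nat_lit 342) (nat_lit 327)) (XT.nd (nat_lit 78) (nat_lit 152) (nat_lit 0) (XT.lf (nat_lit 0) (nat_lit 2123765493) (nat_lit 152) (nat_lit 2084063975) (nat_lit 228) (nat_lit 7973318100) (nat_lit 57) (nat_lit 5) (nat_lit 59) (nat_lit 5) (nat_lit 60) (nat_lit 5) (nat_lit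 352) (nat_lit 342) (nat_lit 326)) (XT.lf (nat_lit 0) (nat_lit 4407869737) (nat_lit 152) (nat_lit 6140025137) (nat_lit 228) (nat_lit 2631304742) (nat_lit 55) (nat_lit 5) (nat_lit 57) (nat_lit 5) (nat_lit 58) (nat_lit 5) (nat_lit 353) (nat_lit 342) (nat_lit 325))))))))
noncomputable def xc50 : XT := (XT.nd (nat_lit 1404) (nat_lit 1368) (nat_lit 0) (XT.nd (nat_lit 702) (nat_lit 1064) (nat_lit 0) (XT.nd (nat_lit 312) (nat_lit 760) (nat_lit 0) (XT.nd (nat_lit 156) (nat_lit 304) (nat_lit 0) (XT.nd (nat_lit 78) (nat_lit 152) (nat_lit 0) (XT.lf (nat_lit 0) (nat_lit 3709484821) (nat_lit 228) (nat_lit 7190587433) (nat_lit 76) (nat_lit 3390313353) (nat_lit 52) (nat_lit 5) (nat_lit 55) (nat_lit 5) (nat_lit 53) (nat_lit 5) (nat_lit 354) (nat_lit 342) (nat_lit 324)) (XT.lf (nat_lit 0) (nat_lit 10248491984) (nat_lit 152) (nat_lit 1057079861) (nat_lit 228) (nat_lit 4220442768) (nat_lit 50) (nat_lit 5) (nat_lit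 52) (nat_lit 5) (nat_lit 53) (nat_lit 5) (nat_lit 355) (nat_lit 342) (nat_lit 323))) (XT.nd (nat_lit 78) (nat_lit 152) (nat_lit 0) (XT.lf (nat_lit 0) (nat_lit 3546755961) (nat_lit 152) (nat_lit 3070318387) (nat_lit 76) (nat_lit 10275389744) (nat_lit 48) (nat_lit 5) (nat_lit 50) (nat_lit 5) (nat_lit 49) (nat_lit 5) (nat_lit 356) (nat_lit 342) (nat_lit 322)) (XT.lf (nat_lit 0) (nat_lit 12799014220) (nat_lit 228) (nat_lit 455839753) (nat_lit 76) (nat_lit 5154689017) (nat_lit 46) (nat_lit 5) (nat_lit 49) (nat_lit 5) (nat_lit 47) (nat_lit 4) (nat_lit 357) (nat_lit 342) (nat_lit 321)))) (XT.nd (nat_lit 156) (nat_lit 380) (nat_lit 0) (XT.nd (nat_lit 78) (nat_lit 76) (nat_lit 0) (XT.lf (nat_lit 0) (nat_lit 2767478298) (nat_lit 152) (nat_lit 1085462527) (nat_lit 228) (nat_lit 16236353232) (nat_lit 42) (nat_lit 5) (nat_lit 44) (nat_lit 5) (nat_lit 45) (nat_lit 5) (nat_lit 358) (nat_lit 342) (nat_lit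 320)) (XT.lf (nat_lit 0) (nat_lit 6371789132) (nat_lit 76) (nat_lit 8910366239) (nat_lit 152) (nat_lit 6656935081) (nat_lit 41) (nat_lit 5) (nat_lit 42) (nat_lit 5) (nat_lit 43) (nat_lit 4) (nat_lit 359) (nat_lit 342) (nat_lit 319))) (XT.nd (nat_lit 78) (nat_lit 228) (nat_lit 0) (XT.lf (nat_lit 0) (nat_lit 4929027166) (nat_lit 152) (nat_lit 13408593007) (nat_lit 76) (nat_lit 5657344514) (nat_lit 39) (nat_lit 5) (nat_lit 41) (nat_lit 5) (nat_lit 40) (nat_lit 4) (nat_lit 360) (nat_lit 342) (nat_lit 318)) (XT.nd (nat_lit 78) (nat_lit 152) (nat_lit 0) (XT.lf (nat_lit 0) (nat_lit 15332576509) (nat_lit 76) (nat_lit 3468030915) (nat_lit 152) (nat_lit 7469439702) (nat_lit 38) (nat_lit 5) (nat_lit 39) (nat_lit 5) (nat_lit 40) (nat_lit 4) (nat_lit 361) (nat_lit 342) (nat_lit 317)) (XT.lf (nat_lit 0) (nat_lit 6690729575) (nat_lit 152) (nat_lit 8184979259) (nat_lit 76) (nat_lit 13909991361) (nat_lit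 36) (nat_lit 5) (nat_lit 38) (nat_lit 5) (nat_lit 37) (nat_lit 4) (nat_lit 362) (nat_lit 342) (nat_lit 316)))))) (XT.nd (nat_lit 312) (nat_lit 532) (nat_lit 0) (XT.nd (nat_lit 156) (nat_lit 304) (nat_lit 0) (XT.nd (nat_lit 78) (nat_lit 152) (nat_lit 0) (XT.lf (nat_lit 0) (nat_lit 23555627505) (nat_lit 152) (nat_lit 5007051876) (nat_lit 0) (nat_lit 3018670254) (nat_lit 35) (nat_lit 5) (nat_lit 37) (nat_lit 4) (nat_lit 35) (nat_lit 4) (nat_lit 363) (nat_lit 342) (nat_lit 315)) (XT.lf (nat_lit 0) (nat_lit 9116315202) (nat_lit 152) (nat_lit 1637998323) (nat_lit 76) (nat_lit 23916727404) (nat_lit 33) (nat_lit 5) (nat_lit 35) (nat_lit 5) (nat_lit 34) (nat_lit 4) (nat_lit 364) (nat_lit 342) (nat_lit 314))) (XT.nd (nat_lit 78) (nat_lit 152) (nat_lit 0) (XT.lf (nat_lit 0) (nat_lit 2166721357) (nat_lit 76) (nat_lit 27529100839) (nat_lit 76) (nat_lit 8404382053) (nat_lit 31) (nat_lit 4) (nat_lit 32)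 (nat_lit 5) (nat_lit 32) (nat_lit 4) (nat_lit 365) (nat_lit 342) (nat_lit 313)) (XT.lf (nat_lit 0) (nat_lit 6257715878) (nat_lit 76) (nat_lit 5966575818) (nat_lit 152) (nat_lit 29679919657) (nat_lit 29) (nat_lit 5) (nat_lit 30) (nat_lit 5) (nat_lit 31) (nat_lit 4) (nat_lit 366) (nat_lit 342) (nat_lit 312)))) (XT.nd (nat_lit 156) (nat_lit 304) (nat_lit 0) (XT.nd (nat_lit 78) (nat_lit 152) (nat_lit 0) (XT.lf (nat_lit 0) (nat_lit 10355320348) (nat_lit 76) (nat_lit 26777876941) (nat_lit 76) (nat_lit 8993477149) (nat_lit 28) (nat_lit 4) (nat_lit 29) (nat_lit 5) (nat_lit 29) (nat_lit 4) (nat_lit 367) (nat_lit 342) (nat_lit 311)) (XT.lf (nat_lit 0) (nat_lit 14497729289) (nat_lit 76) (nat_lit 1037366572) (nat_lit 152) (nat_lit 35300601367) (nat_lit 26) (nat_lit 5) (nat_lit 27) (nat_lit 5) (nat_lit 28) (nat_lit 4) (nat_lit 368) (nat_lit 342) (nat_lit 310))) (XT.nd (nat_lit 78) (nat_lit 228) (nat_lit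 0) (XT.lf (nat_lit 0) (nat_lit 18061633976) (nat_lit 76) (nat_lit 27261122411) (nat_lit 76) (nat_lit 10740646623) (nat_lit 25) (nat_lit 4) (nat_lit 26) (nat_lit 5) (nat_lit 26) (nat_lit 4) (nat_lit 369) (nat_lit 342) (nat_lit 309)) (XT.nd (nat_lit 78) (nat_lit 76) (nat_lit 0) (XT.lf (nat_lit 0) (nat_lit 18239868822) (nat_lit 152) (nat_lit 40749629604) (nat_lit 0) (nat_lit 2923119645) (nat_lit 23) (nat_lit 5) (nat_lit 25) (nat_lit 4) (nat_lit 23) (nat_lit 4) (nat_lit 370) (nat_lit 342) (nat_lit 308)) (XT.lf (nat_lit 0) (nat_lit 22853039140) (nat_lit 76) (nat_lit 30453984397) (nat_lit 76) (nat_lit 15119833188) (nat_lit 22) (nat_lit 4) (nat_lit 23) (nat_lit 5) (nat_lit 23) (nat_lit 4) (nat_lit 371) (nat_lit 342) (nat_lit 307))))))) (XT.nd (nat_lit 702) (nat_lit 532) (nat_lit 0) (XT.nd (nat_lit 312) (nat_lit 380) (nat_lit 0) (XT.nd (nat_lit 156) (nat_lit 228) (nat_lit 0) (XT.nd (nat_lit 78) (nat_lit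 76) (nat_lit 0) (XT.lf (nat_lit 0) (nat_lit 18640629187) (nat_lit 152) (nat_lit 52670321174) (nat_lit 0) (nat_lit 4428329733) (nat_lit 20) (nat_lit 5) (nat_lit 22) (nat_lit 4) (nat_lit 20) (nat_lit 4) (nat_lit 372) (nat_lit 342) (nat_lit 306)) (XT.lf (nat_lit 0) (nat_lit 20301734250) (nat_lit 76) (nat_lit 38914111753) (nat_lit 76) (nat_lit 24689628561) (nat_lit 19) (nat_lit 4) (nat_lit 20) (nat_lit 5) (nat_lit 20) (nat_lit 4) (nat_lit 373) (nat_lit 342) (nat_lit 305))) (XT.nd (nat_lit 78) (nat_lit 76) (nat_lit 0) (XT.lf (nat_lit 0) (nat_lit 13822290433) (nat_lit 152) (nat_lit 78658769862) (nat_lit 0) (nat_lit 641662890) (nat_lit 17) (nat_lit 5) (nat_lit 19) (nat_lit 4) (nat_lit 17) (nat_lit 4) (nat_lit 374) (nat_lit 342) (nat_lit 304)) (XT.lf (nat_lit 0) (nat_lit 2720245192) (nat_lit 76) (nat_lit 56949268024) (nat_lit 76) (nat_lit 43760110245) (nat_lit 16) (nat_lit 4) (nat_lit 17) (nat_lit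 5) (nat_lit 17) (nat_lit 4) (nat_lit 375) (nat_lit 342) (nat_lit 303)))) (XT.nd (nat_lit 156) (nat_lit 228) (nat_lit 0) (XT.nd (nat_lit 78) (nat_lit 152) (nat_lit 0) (XT.lf (nat_lit 0) (nat_lit 100952608784) (nat_lit 76) (nat_lit 13673953362) (nat_lit 76) (nat_lit 477377986) (nat_lit 16) (nat_lit 4) (nat_lit 17) (nat_lit 5) (nat_lit 17) (nat_lit 4) (nat_lit 376) (nat_lit 342) (nat_lit 302)) (XT.lf (nat_lit 0) (nat_lit 49862524236) (nat_lit 152) (nat_lit 40692064318) (nat_lit 0) (nat_lit 37637500660) (nat_lit 14) (nat_lit 5) (nat_lit 16) (nat_lit 4) (nat_lit 14) (nat_lit 4) (nat_lit 377) (nat_lit 342) (nat_lit 301))) (XT.nd (nat_lit 78) (nat_lit 152) (nat_lit 0) (XT.lf (nat_lit 0) (nat_lit 64786289836) (nat_lit 76) (nat_lit 45250723440) (nat_lit 76) (nat_lit 33020506560) (nat_lit 13) (nat_lit 4) (nat_lit 14) (nat_lit 5) (nat_lit 14) (nat_lit 4) (nat_lit 378) (nat_lit 342) (nat_lit 300)) (XT.nd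 (nat_lit 78) (nat_lit 0) (nat_lit 0) (XT.lf (nat_lit 0) (nat_lit 20232726096) (nat_lit 152) (nat_lit 130810848584) (nat_lit 0) (nat_lit 8904269802) (nat_lit 11) (nat_lit 5) (nat_lit 13) (nat_lit 4) (nat_lit 11) (nat_lit 4) (nat_lit 379) (nat_lit 342) (nat_lit 299)) (XT.lf (nat_lit 0) (nat_lit 83121665178) (nat_lit 152) (nat_lit 24103633783) (nat_lit 0) (nat_lit 71789572881) (nat_lit 11) (nat_lit 5) (nat_lit 13) (nat_lit 4) (nat_lit 11) (nat_lit 4) (nat_lit 380) (nat_lit 342) (nat_lit 298)))))) (XT.nd (nat_lit 390) (nat_lit 228) (nat_lit 0) (XT.nd (nat_lit 156) (nat_lit 76) (nat_lit 0) (XT.nd (nat_lit 78) (nat_lit 152) (nat_lit 0) (XT.lf (nat_lit 0) (nat_lit 103723036298) (nat_lit 76) (nat_lit 54178771194) (nat_lit 76) (nat_lit 42843517153) (nat_lit 10) (nat_lit 4) (nat_lit 11) (nat_lit 5) (nat_lit 11) (nat_lit 4) (nat_lit 381) (nat_lit 342) (nat_lit 297)) (XT.lf (nat_lit 0) (nat_lit 18808634734)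 (nat_lit 152) (nat_lit 198456990427) (nat_lit 0) (nat_lit 8310483455) (nat_lit 8) (nat_lit 5) (nat_lit 10) (nat_lit 4) (nat_lit 8) (nat_lit 4) (nat_lit 382) (nat_lit 342) (nat_lit 296))) (XT.nd (nat_lit 78) (nat_lit 76) (nat_lit 0) (XT.lf (nat_lit 0) (nat_lit 91608151615) (nat_lit 152) (nat_lit 80971638090) (nat_lit 0) (nat_lit 81107786695) (nat_lit 8) (nat_lit 5) (nat_lit 10) (nat_lit 4) (nat_lit 8) (nat_lit 4) (nat_lit 383) (nat_lit 342) (nat_lit 295)) (XT.nd (nat_lit 78) (nat_lit 0) (nat_lit 0) (XT.lf (nat_lit 0) (nat_lit 56926425572) (nat_lit 76) (nat_lit 119742174250) (nat_lit 76) (nat_lit 109239884425) (nat_lit 7) (nat_lit 4) (nat_lit 8) (nat_lit 5) (nat_lit 8) (nat_lit 4) (nat_lit 384) (nat_lit 342) (nat_lit 294)) (XT.lf (nat_lit 0) (nat_lit 220359704262) (nat_lit 76) (nat_lit 56460125346) (nat_lit 76) (nat_lit 45956161690) (nat_lit 7) (nat_lit 4) (nat_lit 8) (nat_lit 5) (nat_lit 8)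 (nat_lit 4) (nat_lit 385) (nat_lit 342) (nat_lit 293))))) (XT.nd (nat_lit 156) (nat_lit 76) (nat_lit 0) (XT.nd (nat_lit 78) (nat_lit 0) (nat_lit 0) (XT.lf (nat_lit 0) (nat_lit 26966471391) (nat_lit 152) (nat_lit 320797279532) (nat_lit 0) (nat_lit 17239231428) (nat_lit 5) (nat_lit 5) (nat_lit 7) (nat_lit 4) (nat_lit 5) (nat_lit 4) (nat_lit 386) (nat_lit 342) (nat_lit 292)) (XT.lf (nat_lit 0) (nat_lit 112782982249) (nat_lit 152) (nat_lit 197256848194) (nat_lit 0) (nat_lit 103054570382) (nat_lit 5) (nat_lit 5) (nat_lit 7) (nat_lit 4) (nat_lit 5) (nat_lit 4) (nat_lit 387) (nat_lit 342) (nat_lit 291))) (XT.nd (nat_lit 78) (nat_lit 76) (nat_lit 0) (XT.lf (nat_lit 0) (nat_lit 211453272234) (nat_lit 152) (nat_lit 55223914424) (nat_lit 0) (nat_lit 201723841320) (nat_lit 5) (nat_lit 5) (nat_lit 7) (nat_lit 4) (nat_lit 5) (nat_lit 4) (nat_lit 388) (nat_lit 342) (nat_lit 290)) (XT.nd (nat_lit 78) (nat_lit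 0) (nat_lit 0) (XT.lf (nat_lit 0) (nat_lit 113771750754) (nat_lit 76) (nat_lit 213872309606) (nat_lit 76) (nat_lit 204141992564) (nat_lit 4) (nat_lit 4) (nat_lit 5) (nat_lit 5) (nat_lit 5) (nat_lit 4) (nat_lit 389) (nat_lit 342) (nat_lit 289)) (XT.lf (nat_lit 0) (nat_lit 311430264144) (nat_lit 76) (nat_lit 151426111221) (nat_lit 76) (nat_lit 141695023634) (nat_lit 4) (nat_lit 4) (nat_lit 5) (nat_lit 5) (nat_lit 5) (nat_lit 4) (nat_lit 390) (nat_lit 342) (nat_lit 288))))))))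
noncomputable def xc51 : XT := (XT.nd (nat_lit 1404) (nat_lit 0) (nat_lit 0) (XT.nd (nat_lit 702) (nat_lit 0) (nat_lit 0) (XT.nd (nat_lit 312) (nat_lit 76) (nat_lit 0) (XT.nd (nat_lit 156) (nat_lit 0) (nat_lit 0) (XT.nd (nat_lit 78) (nat_lit 152) (nat_lit 0) (XT.lf (nat_lit 0) (nat_lit 538710864058) (nat_lit 76) (nat_lit 79626737745) (nat_lit 76) (nat_lit 69894980118) (nat_lit 4) (nat_lit 4) (nat_lit 5) (nat_lit 5) (nat_lit 5) (nat_lit 4) (nat_lit 391) (nat_lit 342) (nat_lit 287)) (XT.lf (nat_lit 0) (nat_lit 12504977418) (nat_lit 152) (nat_lit 768405909552) (nat_lit 0) (nat_lit 3493551242) (nat_lit 2) (nat_lit 5) (nat_lit 4) (nat_lit 4) (nat_lit 2) (nat_lit 4) (nat_lit 392) (nat_lit 342) (nat_lit 286))) (XT.nd (nat_lit 78) (nat_lit 0) (nat_lit 0) (XT.lf (nat_lit 0) (nat_lit 109901715828) (nat_lit 152) (nat_lit 683523272305) (nat_lit 0) (nat_lit 100889820535) (nat_lit 2) (nat_lit 5) (nat_lit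 4) (nat_lit 4) (nat_lit 2) (nat_lit 4) (nat_lit 393) (nat_lit 342) (nat_lit 285)) (XT.lf (nat_lit 0) (nat_lit 221898547514) (nat_lit 152) (nat_lit 585927696329) (nat_lit 0) (nat_lit 212886244293) (nat_lit 2) (nat_lit 5) (nat_lit 4) (nat_lit 4) (nat_lit 2) (nat_lit 4) (nat_lit 394) (nat_lit 342) (nat_lit 284)))) (XT.nd (nat_lit 156) (nat_lit 76) (nat_lit 0) (XT.nd (nat_lit 78) (nat_lit 0) (nat_lit 0) (XT.lf (nat_lit 0) (nat_lit 350686714833) (nat_lit 152) (nat_lit 473709702964) (nat_lit 0) (nat_lit 341674056892) (nat_lit 2) (nat_lit 5) (nat_lit 4) (nat_lit 4) (nat_lit 2) (nat_lit 4) (nat_lit 395) (nat_lit 342) (nat_lit 283)) (XT.lf (nat_lit 0) (nat_lit 498785986277) (nat_lit 152) (nat_lit 344673722775) (nat_lit 0) (nat_lit 489773019884) (nat_lit 2) (nat_lit 5) (nat_lit 4) (nat_lit 4) (nat_lit 2) (nat_lit 4) (nat_lit 396) (nat_lit 342) (nat_lit 282))) (XT.nd (nat_lit 78) (nat_lit 76) (nat_lit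 0) (XT.lf (nat_lit 0) (nat_lit 669093956288) (nat_lit 152) (nat_lit 196295138757) (nat_lit 0) (nat_lit 660080721676) (nat_lit 2) (nat_lit 5) (nat_lit 4) (nat_lit 4) (nat_lit 2) (nat_lit 4) (nat_lit 397) (nat_lit 342) (nat_lit 281)) (XT.nd (nat_lit 78) (nat_lit 76) (nat_lit 0) (XT.lf (nat_lit 0) (nat_lit 864942737321) (nat_lit 152) (nat_lit 25670891658) (nat_lit 0) (nat_lit 855929269475) (nat_lit 2) (nat_lit 5) (nat_lit 4) (nat_lit 4) (nat_lit 2) (nat_lit 4) (nat_lit 398) (nat_lit 342) (nat_lit 280)) (XT.lf (nat_lit 0) (nat_lit 179517512008) (nat_lit 76) (nat_lit 914964041827) (nat_lit 76) (nat_lit 905950371168) (nat_lit 1) (nat_lit 4) (nat_lit 2) (nat_lit 5) (nat_lit 2) (nat_lit 4) (nat_lit 399) (nat_lit 342) (nat_lit 279)))))) (XT.nd (nat_lit 312) (nat_lit 0) (nat_lit 0) (XT.nd (nat_lit 156) (nat_lit 0) (nat_lit 0) (XT.nd (nat_lit 78) (nat_lit 0) (nat_lit 0) (XT.lf (nat_lit 0) (nat_lit 417029872752)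 (nat_lit 76) (nat_lit 942164416068) (nat_lit 76) (nat_lit 933150569052) (nat_lit 1) (nat_lit 4) (nat_lit 2) (nat_lit 5) (nat_lit 2) (nat_lit 4) (nat_lit 400) (nat_lit 342) (nat_lit 278)) (XT.lf (nat_lit 0) (nat_lit 690161387884) (nat_lit 76) (nat_lit 973448820611) (nat_lit 76) (nat_lit 964434820239) (nat_lit 1) (nat_lit 4) (nat_lit 2) (nat_lit 5) (nat_lit 2) (nat_lit 4) (nat_lit 401) (nat_lit 342) (nat_lit 277))) (XT.nd (nat_lit 78) (nat_lit 0) (nat_lit 0) (XT.lf (nat_lit 0) (nat_lit 1004255934871) (nat_lit 76) (nat_lit 1009429341630) (nat_lit 76) (nat_lit 1000415207905) (nat_lit 1) (nat_lit 4) (nat_lit 2) (nat_lit 5) (nat_lit 2) (nat_lit 4) (nat_lit 402) (nat_lit 342) (nat_lit 276)) (XT.lf (nat_lit 0) (nat_lit 1365458841809) (nat_lit 76) (nat_lit 1050809945841) (nat_lit 76) (nat_lit 1041795696158) (nat_lit 1) (nat_lit 4) (nat_lit 2) (nat_lit 5) (nat_lit 2) (nat_lit 4) (nat_lit 403) (nat_lit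 342) (nat_lit 275)))) (XT.nd (nat_lit 156) (nat_lit 0) (nat_lit 0) (XT.nd (nat_lit 78) (nat_lit 0) (nat_lit 0) (XT.lf (nat_lit 0) (nat_lit 1780837122093) (nat_lit 76) (nat_lit 1098400253761) (nat_lit 76) (nat_lit 1089385903245) (nat_lit 1) (nat_lit 4) (nat_lit 2) (nat_lit 5) (nat_lit 2) (nat_lit 4) (nat_lit 404) (nat_lit 342) (nat_lit 274)) (XT.lf (nat_lit 0) (nat_lit 2258517742076) (nat_lit 76) (nat_lit 1153131380111) (nat_lit 76) (nat_lit 1144116941913) (nat_lit 1) (nat_lit 4) (nat_lit 2) (nat_lit 5) (nat_lit 2) (nat_lit 4) (nat_lit 405) (nat_lit 342) (nat_lit 273))) (XT.nd (nat_lit 78) (nat_lit 0) (nat_lit 0) (XT.lf (nat_lit 0) (nat_lit 2807846626933) (nat_lit 76) (nat_lit 1216074151276) (nat_lit 76) (nat_lit 1207059636833) (nat_lit 1) (nat_lit 4) (nat_lit 2) (nat_lit 5) (nat_lit 2) (nat_lit 4) (nat_lit 406) (nat_lit 342) (nat_lit 272)) (XT.nd (nat_lit 78) (nat_lit 0) (nat_lit 0) (XT.lf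 (nat_lit 0) (nat_lit 3439571515715) (nat_lit 76) (nat_lit 1288460056256) (nat_lit 76) (nat_lit 1279445475514) (nat_lit 1) (nat_lit 4) (nat_lit 2) (nat_lit 5) (nat_lit 2) (nat_lit 4) (nat_lit 407) (nat_lit 342) (nat_lit 271)) (XT.lf (nat_lit 0) (nat_lit 4166052243202) (nat_lit 76) (nat_lit 1371705341019) (nat_lit 76) (nat_lit 1362690702625) (nat_lit 1) (nat_lit 4) (nat_lit 2) (nat_lit 5) (nat_lit 2) (nat_lit 4) (nat_lit 408) (nat_lit 342) (nat_lit 270))))))) (XT.nd (nat_lit 702) (nat_lit 0) (nat_lit 0) (XT.nd (nat_lit 312) (nat_lit 0) (nat_lit 0) (XT.nd (nat_lit 156) (nat_lit 0) (nat_lit 0) (XT.nd (nat_lit 78) (nat_lit 0) (nat_lit 0) (XT.lf (nat_lit 0) (nat_lit 5001502562758) (nat_lit 76) (nat_lit 1467438717657) (nat_lit 76) (nat_lit 1458424029131) (nat_lit 1) (nat_lit 4) (nat_lit 2) (nat_lit 5) (nat_lit 2) (nat_lit 4) (nat_lit 409) (nat_lit 342) (nat_lit 269)) (XT.lf (nat_lit 0) (nat_lit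 5962268241506) (nat_lit 76) (nat_lit 1577533230497) (nat_lit 76) (nat_lit 1568518498378) (nat_lit 1) (nat_lit 4) (nat_lit 2) (nat_lit 5) (nat_lit 2) (nat_lit 4) (nat_lit 410) (nat_lit 342) (nat_lit 268))) (XT.nd (nat_lit 78) (nat_lit 0) (nat_lit 0) (XT.lf (nat_lit 0) (nat_lit 7067146868811) (nat_lit 76) (nat_lit 1704142902615) (nat_lit 76) (nat_lit 1695128132589) (nat_lit 1) (nat_lit 4) (nat_lit 2) (nat_lit 5) (nat_lit 2) (nat_lit 4) (nat_lit 411) (nat_lit 342) (nat_lit 267)) (XT.lf (nat_lit 0) (nat_lit 8337755635209) (nat_lit 76) (nat_lit 1849744879771) (nat_lit 76) (nat_lit 1840730076782) (nat_lit 1) (nat_lit 4) (nat_lit 2) (nat_lit 5) (nat_lit 2) (nat_lit 4) (nat_lit 412) (nat_lit 342) (nat_lit 266)))) (XT.nd (nat_lit 156) (nat_lit 0) (nat_lit 0) (XT.nd (nat_lit 78) (nat_lit 0) (nat_lit 0) (XT.lf (nat_lit 0) (nat_lit 9798954277432) (nat_lit 76) (nat_lit 2017187896300) (nat_lit 76) (nat_lit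 2008173064648) (nat_lit 1) (nat_lit 4) (nat_lit 2) (nat_lit 5) (nat_lit 2) (nat_lit 4) (nat_lit 413) (nat_lit 342) (nat_lit 265)) (XT.lf (nat_lit 0) (nat_lit 11479331464568) (nat_lit 76) (nat_lit 2209748011222) (nat_lit 76) (nat_lit 2200733154645) (nat_lit 1) (nat_lit 4) (nat_lit 2) (nat_lit 5) (nat_lit 2) (nat_lit 4) (nat_lit 414) (nat_lit 342) (nat_lit 264))) (XT.nd (nat_lit 78) (nat_lit 0) (nat_lit 0) (XT.lf (nat_lit 0) (nat_lit 13411764141583) (nat_lit 76) (nat_lit 2431192705045) (nat_lit 76) (nat_lit 2422177826794) (nat_lit 1) (nat_lit 4) (nat_lit 2) (nat_lit 5) (nat_lit 2) (nat_lit 4) (nat_lit 415) (nat_lit 342) (nat_lit 263)) (XT.nd (nat_lit 78) (nat_lit 0) (nat_lit 0) (XT.lf (nat_lit 0) (nat_lit 15634060773896) (nat_lit 76) (nat_lit 2685854591344) (nat_lit 76) (nat_lit 2676839694247) (nat_lit 1) (nat_lit 4) (nat_lit 2) (nat_lit 5) (nat_lit 2) (nat_lit 4) (nat_lit 416) (nat_lit 342)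 (nat_lit 262)) (XT.lf (nat_lit 0) (nat_lit 18189701078227) (nat_lit 76) (nat_lit 2978716185286) (nat_lit 76) (nat_lit 2969701271801) (nat_lit 1) (nat_lit 4) (nat_lit 2) (nat_lit 5) (nat_lit 2) (nat_lit 4) (nat_lit 417) (nat_lit 342) (nat_lit 261)))))) (XT.nd (nat_lit 47346) (nat_lit 0) (nat_lit 5852) (XT.nd (nat_lit 156) (nat_lit 0) (nat_lit 0) (XT.nd (nat_lit 78) (nat_lit 0) (nat_lit 0) (XT.lf (nat_lit 0) (nat_lit 21128686712704) (nat_lit 76) (nat_lit 3315507387622) (nat_lit 76) (nat_lit 3306492459887) (nat_lit 1) (nat_lit 4) (nat_lit 2) (nat_lit 5) (nat_lit 2) (nat_lit 4) (nat_lit 418) (nat_lit 342) (nat_lit 260)) (XT.lf (nat_lit 0) (nat_lit 24508519570175) (nat_lit 76) (nat_lit 3702817591442) (nat_lit 76) (nat_lit 3693802651314) (nat_lit 1) (nat_lit 4) (nat_lit 2) (nat_lit 5) (nat_lit 2) (nat_lit 4) (nat_lit 419) (nat_lit 342) (nat_lit 259))) (XT.nd (nat_lit 78) (nat_lit 0) (nat_lit 0)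 (XT.lf (nat_lit 0) (nat_lit 28395326815243) (nat_lit 76) (nat_lit 4148224605080) (nat_lit 76) (nat_lit 4139209654177) (nat_lit 1) (nat_lit 4) (nat_lit 2) (nat_lit 5) (nat_lit 2) (nat_lit 4) (nat_lit 420) (nat_lit 342) (nat_lit 258)) (XT.nd (nat_lit 47034) (nat_lit 0) (nat_lit 6992) (XT.lf (nat_lit 0) (nat_lit 32865154676616) (nat_lit 76) (nat_lit 4660442913587) (nat_lit 76) (nat_lit 4651427953314) (nat_lit 1) (nat_lit 4) (nat_lit 2) (nat_lit 5) (nat_lit 2) (nat_lit 4) (nat_lit 421) (nat_lit 342) (nat_lit 257)) (XT.lf (nat_lit 0) (nat_lit 2965974214) (nat_lit 380) (nat_lit 340114725) (nat_lit 380) (nat_lit 340114725) (nat_lit 93) (nat_lit 3) (nat_lit 98) (nat_lit 3) (nat_lit 98) (nat_lit 5) (nat_lit 343) (nat_lit 343) (nat_lit 334))))) (XT.nd (nat_lit 156) (nat_lit 760) (nat_lit 0) (XT.nd (nat_lit 78) (nat_lit 0) (nat_lit 76) (XT.lf (nat_lit 0) (nat_lit 1534194281) (nat_lit 380) (nat_lit 1281017166)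 (nat_lit 456) (nat_lit 4792216902) (nat_lit 88) (nat_lit 5) (nat_lit 93) (nat_lit 3) (nat_lit 94) (nat_lit 5) (nat_lit 344) (nat_lit 343) (nat_lit 333)) (XT.lf (nat_lit 0) (nat_lit 4508374089) (nat_lit 380) (nat_lit 1598529009) (nat_lit 456) (nat_lit 1882051625) (nat_lit 89) (nat_lit 5) (nat_lit 94) (nat_lit 5) (nat_lit 95) (nat_lit 5) (nat_lit 345) (nat_lit 343) (nat_lit 332))) (XT.nd (nat_lit 78) (nat_lit 836) (nat_lit 0) (XT.lf (nat_lit 76) (nat_lit 6814059945) (nat_lit 0) (nat_lit 957871655) (nat_lit 456) (nat_lit 668448631) (nat_lit 90) (nat_lit 5) (nat_lit 89) (nat_lit 5) (nat_lit 95) (nat_lit 5) (nat_lit 346) (nat_lit 343) (nat_lit 331)) (XT.nd (nat_lit 78) (nat_lit 456) (nat_lit 0) (XT.lf (nat_lit 0) (nat_lit 2400971875) (nat_lit 456) (nat_lit 1456058052) (nat_lit 76) (nat_lit 5100554019) (nat_lit 84) (nat_lit 5) (nat_lit 90) (nat_lit 5) (nat_lit 85) (nat_lit 5) (nat_lit 347) (nat_lit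 343) (nat_lit 330)) (XT.lf (nat_lit 0) (nat_lit 5891879966) (nat_lit 532) (nat_lit 1001876842) (nat_lit 76) (nat_lit 2657261277) (nat_lit 78) (nat_lit 5) (nat_lit 85) (nat_lit 5) (nat_lit 79) (nat_lit 5) (nat_lit 348) (nat_lit 343) (nat_lit 329))))))))
noncomputable def xc52 : XT := (XT.nd (nat_lit 1404) (nat_lit 1824) (nat_lit 0) (XT.nd (nat_lit 702) (nat_lit 1292) (nat_lit 0) (XT.nd (nat_lit 312) (nat_lit 836) (nat_lit 0) (XT.nd (nat_lit 156) (nat_lit 456) (nat_lit 0) (XT.nd (nat_lit 78) (nat_lit 532) (nat_lit 0) (XT.lf (nat_lit 0) (nat_lit 9986424356) (nat_lit 532) (nat_lit 232926861) (nat_lit 76) (nat_lit 7795408) (nat_lit 72) (nat_lit 5) (nat_lit 79) (nat_lit 5) (nat_lit 73) (nat_lit 5) (nat_lit 349) (nat_lit 343) (nat_lit 328)) (XT.lf (nat_lit 0) (nat_lit 745733703) (nat_lit 228) (nat_lit 3010775905) (nat_lit 304) (nat_lit 7221095019) (nat_lit 65) (nat_lit 5) (nat_lit 68) (nat_lit 5)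 (nat_lit 69) (nat_lit 5) (nat_lit 350) (nat_lit 343) (nat_lit 327))) (XT.nd (nat_lit 78) (nat_lit 304) (nat_lit 0) (XT.lf (nat_lit 0) (nat_lit 2099160553) (nat_lit 152) (nat_lit 6474806732) (nat_lit 228) (nat_lit 3247427797) (nat_lit 63) (nat_lit 5) (nat_lit 65) (nat_lit 5) (nat_lit 66) (nat_lit 5) (nat_lit 351) (nat_lit 343) (nat_lit 326)) (XT.lf (nat_lit 0) (nat_lit 1554054278) (nat_lit 304) (nat_lit 8938718111) (nat_lit 76) (nat_lit 2272649440) (nat_lit 59) (nat_lit 5) (nat_lit 63) (nat_lit 5) (nat_lit 60) (nat_lit 5) (nat_lit 352) (nat_lit 343) (nat_lit 325)))) (XT.nd (nat_lit 156) (nat_lit 532) (nat_lit 0) (XT.nd (nat_lit 78) (nat_lit 152) (nat_lit 0) (XT.lf (nat_lit 0) (nat_lit 5882817800) (nat_lit 152) (nat_lit 1397994976) (nat_lit 228) (nat_lit 6531743729) (nat_lit 57) (nat_lit 5) (nat_lit 59) (nat_lit 5) (nat_lit 60) (nat_lit 5) (nat_lit 353) (nat_lit 343) (nat_lit 324)) (XT.lf (nat_lit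 0) (nat_lit 8375525151) (nat_lit 152) (nat_lit 5978272263) (nat_lit 228) (nat_lit 624020778) (nat_lit 55) (nat_lit 5) (nat_lit 57) (nat_lit 5) (nat_lit 58) (nat_lit 5) (nat_lit 354) (nat_lit 343) (nat_lit 323))) (XT.nd (nat_lit 78) (nat_lit 304) (nat_lit 0) (XT.lf (nat_lit 0) (nat_lit 6351451787) (nat_lit 228) (nat_lit 4993126880) (nat_lit 76) (nat_lit 4922228245) (nat_lit 52) (nat_lit 5) (nat_lit 55) (nat_lit 5) (nat_lit 53) (nat_lit 5) (nat_lit 355) (nat_lit 343) (nat_lit 322)) (XT.nd (nat_lit 78) (nat_lit 152) (nat_lit 0) (XT.lf (nat_lit 0) (nat_lit 14784513247) (nat_lit 152) (nat_lit 102531056) (nat_lit 228) (nat_lit 2816766787) (nat_lit 50) (nat_lit 5) (nat_lit 52) (nat_lit 5) (nat_lit 53) (nat_lit 5) (nat_lit 356) (nat_lit 343) (nat_lit 321)) (XT.lf (nat_lit 0) (nat_lit 5855674575) (nat_lit 152) (nat_lit 578362896) (nat_lit 76) (nat_lit 12849938681) (nat_lit 48) (nat_lit 5) (nat_lit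 50) (nat_lit 5) (nat_lit 49) (nat_lit 5) (nat_lit 357) (nat_lit 343) (nat_lit 320)))))) (XT.nd (nat_lit 312) (nat_lit 608) (nat_lit 0) (XT.nd (nat_lit 156) (nat_lit 228) (nat_lit 0) (XT.nd (nat_lit 78) (nat_lit 228) (nat_lit 0) (XT.lf (nat_lit 0) (nat_lit 2401206264) (nat_lit 76) (nat_lit 14011815049) (nat_lit 152) (nat_lit 4622242348) (nat_lit 45) (nat_lit 5) (nat_lit 46) (nat_lit 5) (nat_lit 47) (nat_lit 4) (nat_lit 358) (nat_lit 343) (nat_lit 319)) (XT.lf (nat_lit 0) (nat_lit 5970263940) (nat_lit 152) (nat_lit 51091337) (nat_lit 228) (nat_lit 16953951401) (nat_lit 42) (nat_lit 5) (nat_lit 44) (nat_lit 5) (nat_lit 45) (nat_lit 5) (nat_lit 359) (nat_lit 343) (nat_lit 318))) (XT.nd (nat_lit 78) (nat_lit 152) (nat_lit 0) (XT.lf (nat_lit 0) (nat_lit 9969503491) (nat_lit 76) (nat_lit 9076571257) (nat_lit 152) (nat_lit 6066026696) (nat_lit 41) (nat_lit 5) (nat_lit 42) (nat_lit 5) (nat_lit 43)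 (nat_lit 4) (nat_lit 360) (nat_lit 343) (nat_lit 317)) (XT.lf (nat_lit 0) (nat_lit 7068179513) (nat_lit 152) (nat_lit 12845639589) (nat_lit 76) (nat_lit 7568305872) (nat_lit 39) (nat_lit 5) (nat_lit 41) (nat_lit 5) (nat_lit 40) (nat_lit 4) (nat_lit 361) (nat_lit 343) (nat_lit 316)))) (XT.nd (nat_lit 156) (nat_lit 380) (nat_lit 0) (XT.nd (nat_lit 78) (nat_lit 152) (nat_lit 0) (XT.lf (nat_lit 0) (nat_lit 19988808560) (nat_lit 76) (nat_lit 2905776034) (nat_lit 152) (nat_lit 7213971277) (nat_lit 38) (nat_lit 5) (nat_lit 39) (nat_lit 5) (nat_lit 40) (nat_lit 4) (nat_lit 362) (nat_lit 343) (nat_lit 315)) (XT.lf (nat_lit 0) (nat_lit 8909072347) (nat_lit 152) (nat_lit 7122262308) (nat_lit 76) (nat_lit 16974971500) (nat_lit 36) (nat_lit 5) (nat_lit 38) (nat_lit 5) (nat_lit 37) (nat_lit 4) (nat_lit 363) (nat_lit 343) (nat_lit 314))) (XT.nd (nat_lit 78) (nat_lit 304) (nat_lit 0) (XT.lf (nat_lit 0) (nat_lit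 28219490976) (nat_lit 152) (nat_lit 3596730436) (nat_lit 0) (nat_lit 4411827900) (nat_lit 35) (nat_lit 5) (nat_lit 37) (nat_lit 4) (nat_lit 35) (nat_lit 4) (nat_lit 364) (nat_lit 343) (nat_lit 313)) (XT.nd (nat_lit 78) (nat_lit 76) (nat_lit 0) (XT.lf (nat_lit 0) (nat_lit 158387727) (nat_lit 76) (nat_lit 11386646038) (nat_lit 152) (nat_lit 28241712311) (nat_lit 32) (nat_lit 5) (nat_lit 33) (nat_lit 5) (nat_lit 34) (nat_lit 4) (nat_lit 365) (nat_lit 343) (nat_lit 312)) (XT.lf (nat_lit 0) (nat_lit 4510285745) (nat_lit 76) (nat_lit 30674357947) (nat_lit 76) (nat_lit 8547792480) (nat_lit 31) (nat_lit 4) (nat_lit 32) (nat_lit 5) (nat_lit 32) (nat_lit 4) (nat_lit 366) (nat_lit 343) (nat_lit 311))))))) (XT.nd (nat_lit 702) (nat_lit 760) (nat_lit 0) (XT.nd (nat_lit 312) (nat_lit 608) (nat_lit 0) (XT.nd (nat_lit 156) (nat_lit 228) (nat_lit 0) (XT.nd (nat_lit 78) (nat_lit 76) (nat_lit 0) (XT.lf (nat_lit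 0) (nat_lit 9095263515) (nat_lit 76) (nat_lit 5931260002) (nat_lit 152) (nat_lit 33085797983) (nat_lit 29) (nat_lit 5) (nat_lit 30) (nat_lit 5) (nat_lit 31) (nat_lit 4) (nat_lit 367) (nat_lit 343) (nat_lit 310)) (XT.lf (nat_lit 0) (nat_lit 13697256835) (nat_lit 76) (nat_lit 29910642808) (nat_lit 76) (nat_lit 9365368132) (nat_lit 28) (nat_lit 4) (nat_lit 29) (nat_lit 5) (nat_lit 29) (nat_lit 4) (nat_lit 368) (nat_lit 343) (nat_lit 309))) (XT.nd (nat_lit 78) (nat_lit 76) (nat_lit 0) (XT.lf (nat_lit 0) (nat_lit 18354395795) (nat_lit 76) (nat_lit 358591157) (nat_lit 152) (nat_lit 39680230562) (nat_lit 26) (nat_lit 5) (nat_lit 27) (nat_lit 5) (nat_lit 28) (nat_lit 4) (nat_lit 369) (nat_lit 343) (nat_lit 308)) (XT.lf (nat_lit 0) (nat_lit 22354236816) (nat_lit 76) (nat_lit 30559528978) (nat_lit 76) (nat_lit 11495718982) (nat_lit 25) (nat_lit 4) (nat_lit 26) (nat_lit 5) (nat_lit 26) (nat_lit 4) (nat_lit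 370) (nat_lit 343) (nat_lit 307)))) (XT.nd (nat_lit 156) (nat_lit 380) (nat_lit 0) (XT.nd (nat_lit 78) (nat_lit 76) (nat_lit 0) (XT.lf (nat_lit 0) (nat_lit 21736713780) (nat_lit 152) (nat_lit 45332005260) (nat_lit 0) (nat_lit 4069905656) (nat_lit 23) (nat_lit 5) (nat_lit 25) (nat_lit 4) (nat_lit 23) (nat_lit 4) (nat_lit 371) (nat_lit 343) (nat_lit 306)) (XT.lf (nat_lit 0) (nat_lit 27681551095) (nat_lit 76) (nat_lit 34316830802) (nat_lit 76) (nat_lit 16636864241) (nat_lit 22) (nat_lit 4) (nat_lit 23) (nat_lit 5) (nat_lit 23) (nat_lit 4) (nat_lit 372) (nat_lit 343) (nat_lit 305))) (XT.nd (nat_lit 78) (nat_lit 228) (nat_lit 0) (XT.lf (nat_lit 0) (nat_lit 22104691591) (nat_lit 152) (nat_lit 59218273603) (nat_lit 0) (nat_lit 5723757629) (nat_lit 20) (nat_lit 5) (nat_lit 22) (nat_lit 4) (nat_lit 20) (nat_lit 4) (nat_lit 373) (nat_lit 343) (nat_lit 304)) (XT.nd (nat_lit 78) (nat_lit 152) (nat_lit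 0) (XT.lf (nat_lit 0) (nat_lit 24585099642) (nat_lit 76) (nat_lit 44123741484) (nat_lit 76) (nat_lit 27733594867) (nat_lit 19) (nat_lit 4) (nat_lit 20) (nat_lit 5) (nat_lit 20) (nat_lit 4) (nat_lit 374) (nat_lit 343) (nat_lit 303)) (XT.lf (nat_lit 0) (nat_lit 16482596572) (nat_lit 152) (nat_lit 89262452501) (nat_lit 0) (nat_lit 1299117292) (nat_lit 17) (nat_lit 5) (nat_lit 19) (nat_lit 4) (nat_lit 17) (nat_lit 4) (nat_lit 375) (nat_lit 343) (nat_lit 302)))))) (XT.nd (nat_lit 390) (nat_lit 304) (nat_lit 0) (XT.nd (nat_lit 156) (nat_lit 380) (nat_lit 0) (XT.nd (nat_lit 78) (nat_lit 0) (nat_lit 0) (XT.lf (nat_lit 0) (nat_lit 4222252769) (nat_lit 76) (nat_lit 64934399692) (nat_lit 76) (nat_lit 49744470328) (nat_lit 16) (nat_lit 4) (nat_lit 17) (nat_lit 5) (nat_lit 17) (nat_lit 4) (nat_lit 376) (nat_lit 343) (nat_lit 301)) (XT.lf (nat_lit 0) (nat_lit 117046779056) (nat_lit 76) (nat_lit 15240473727)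 (nat_lit 76) (nat_lit 44935593) (nat_lit 16) (nat_lit 4) (nat_lit 17) (nat_lit 5) (nat_lit 17) (nat_lit 4) (nat_lit 377) (nat_lit 343) (nat_lit 300))) (XT.nd (nat_lit 78) (nat_lit 228) (nat_lit 0) (XT.lf (nat_lit 0) (nat_lit 57790743726) (nat_lit 152) (nat_lit 45877961461) (nat_lit 0) (nat_lit 43716285093) (nat_lit 14) (nat_lit 5) (nat_lit 16) (nat_lit 4) (nat_lit 14) (nat_lit 4) (nat_lit 378) (nat_lit 343) (nat_lit 299)) (XT.nd (nat_lit 78) (nat_lit 152) (nat_lit 0) (XT.lf (nat_lit 0) (nat_lit 75344449095) (nat_lit 76) (nat_lit 51608619779) (nat_lit 76) (nat_lit 37530234260) (nat_lit 13) (nat_lit 4) (nat_lit 14) (nat_lit 5) (nat_lit 14) (nat_lit 4) (nat_lit 379) (nat_lit 343) (nat_lit 298)) (XT.lf (nat_lit 0) (nat_lit 23662575611) (nat_lit 152) (nat_lit 149621975039) (nat_lit 0) (nat_lit 10623871722) (nat_lit 11) (nat_lit 5) (nat_lit 13) (nat_lit 4) (nat_lit 11) (nat_lit 4) (nat_lit 380)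 (nat_lit 343) (nat_lit 297))))) (XT.nd (nat_lit 156) (nat_lit 228) (nat_lit 0) (XT.nd (nat_lit 78) (nat_lit 76) (nat_lit 0) (XT.lf (nat_lit 0) (nat_lit 95933341565) (nat_lit 152) (nat_lit 27014395518) (nat_lit 0) (nat_lit 82891888334) (nat_lit 11) (nat_lit 5) (nat_lit 13) (nat_lit 4) (nat_lit 11) (nat_lit 4) (nat_lit 381) (nat_lit 343) (nat_lit 296)) (XT.lf (nat_lit 0) (nat_lit 119926618676) (nat_lit 76) (nat_lit 61974607092) (nat_lit 76) (nat_lit 48930763129) (nat_lit 10) (nat_lit 4) (nat_lit 11) (nat_lit 5) (nat_lit 11) (nat_lit 4) (nat_lit 382) (nat_lit 343) (nat_lit 295))) (XT.nd (nat_lit 78) (nat_lit 76) (nat_lit 0) (XT.lf (nat_lit 0) (nat_lit 21932259350) (nat_lit 152) (nat_lit 227603375909) (nat_lit 0) (nat_lit 9852701146) (nat_lit 8) (nat_lit 5) (nat_lit 10) (nat_lit 4) (nat_lit 8) (nat_lit 4) (nat_lit 383) (nat_lit 343) (nat_lit 294)) (XT.nd (nat_lit 78) (nat_lit 76) (nat_lit 0)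 (XT.lf (nat_lit 0) (nat_lit 105612269492) (nat_lit 152) (nat_lit 92576372428) (nat_lit 0) (nat_lit 93531037458) (nat_lit 8) (nat_lit 5) (nat_lit 10) (nat_lit 4) (nat_lit 8) (nat_lit 4) (nat_lit 384) (nat_lit 343) (nat_lit 293)) (XT.lf (nat_lit 0) (nat_lit 65960606866) (nat_lit 76) (nat_lit 137448797387) (nat_lit 76) (nat_lit 125366109848) (nat_lit 7) (nat_lit 4) (nat_lit 8) (nat_lit 5) (nat_lit 8) (nat_lit 4) (nat_lit 385) (nat_lit 343) (nat_lit 292))))))))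
noncomputable def xc53 : XT := (XT.nd (nat_lit 1404) (nat_lit 0) (nat_lit 0) (XT.nd (nat_lit 702) (nat_lit 76) (nat_lit 0) (XT.nd (nat_lit 312) (nat_lit 228) (nat_lit 0) (XT.nd (nat_lit 156) (nat_lit 0) (nat_lit 0) (XT.nd (nat_lit 78) (nat_lit 152) (nat_lit 0) (XT.lf (nat_lit 0) (nat_lit 253844283778) (nat_lit 76) (nat_lit 64707663278) (nat_lit 76) (nat_lit 52623710083) (nat_lit 7) (nat_lit 4) (nat_lit 8) (nat_lit 5) (nat_lit 8) (nat_lit 4) (nat_lit 386) (nat_lit 343) (nat_lit 291)) (XT.lf (nat_lit 0) (nat_lit 31212766370) (nat_lit 152) (nat_lit 368501654480) (nat_lit 0) (nat_lit 20022901773) (nat_lit 5) (nat_lit 5) (nat_lit 7) (nat_lit 4) (nat_lit 5) (nat_lit 4) (nat_lit 387) (nat_lit 343) (nat_lit 290))) (XT.nd (nat_lit 78) (nat_lit 0) (nat_lit 0) (XT.lf (nat_lit 0) (nat_lit 129875494170) (nat_lit 152) (nat_lit 226484317178) (nat_lit 0) (nat_lit 118684743445) (nat_lit 5) (nat_lit 5) (nat_lit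 7) (nat_lit 4) (nat_lit 5) (nat_lit 4) (nat_lit 388) (nat_lit 343) (nat_lit 289)) (XT.lf (nat_lit 0) (nat_lit 243323493142) (nat_lit 152) (nat_lit 63193537896) (nat_lit 0) (nat_lit 232131971871) (nat_lit 5) (nat_lit 5) (nat_lit 7) (nat_lit 4) (nat_lit 5) (nat_lit 4) (nat_lit 389) (nat_lit 343) (nat_lit 288)))) (XT.nd (nat_lit 156) (nat_lit 152) (nat_lit 0) (XT.nd (nat_lit 78) (nat_lit 0) (nat_lit 0) (XT.lf (nat_lit 0) (nat_lit 131124901597) (nat_lit 76) (nat_lit 245805053487) (nat_lit 76) (nat_lit 234612862176) (nat_lit 4) (nat_lit 4) (nat_lit 5) (nat_lit 5) (nat_lit 5) (nat_lit 4) (nat_lit 390) (nat_lit 343) (nat_lit 287)) (XT.lf (nat_lit 0) (nat_lit 358394706573) (nat_lit 76) (nat_lit 174011243071) (nat_lit 76) (nat_lit 162818469116) (nat_lit 4) (nat_lit 4) (nat_lit 5) (nat_lit 5) (nat_lit 5) (nat_lit 4) (nat_lit 391) (nat_lit 343) (nat_lit 286))) (XT.nd (nat_lit 78) (nat_lit 152) (nat_lit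 0) (XT.lf (nat_lit 0) (nat_lit 619734800456) (nat_lit 76) (nat_lit 91458761594) (nat_lit 76) (nat_lit 80265480994) (nat_lit 4) (nat_lit 4) (nat_lit 5) (nat_lit 5) (nat_lit 5) (nat_lit 4) (nat_lit 392) (nat_lit 343) (nat_lit 285)) (XT.nd (nat_lit 78) (nat_lit 0) (nat_lit 0) (XT.lf (nat_lit 0) (nat_lit 14482126272) (nat_lit 152) (nat_lit 883457295395) (nat_lit 0) (nat_lit 4117569640) (nat_lit 2) (nat_lit 5) (nat_lit 4) (nat_lit 4) (nat_lit 2) (nat_lit 4) (nat_lit 393) (nat_lit 343) (nat_lit 284)) (XT.lf (nat_lit 0) (nat_lit 126475149065) (nat_lit 152) (nat_lit 785869588725) (nat_lit 0) (nat_lit 116110237713) (nat_lit 2) (nat_lit 5) (nat_lit 4) (nat_lit 4) (nat_lit 2) (nat_lit 4) (nat_lit 394) (nat_lit 343) (nat_lit 283)))))) (XT.nd (nat_lit 312) (nat_lit 76) (nat_lit 0) (XT.nd (nat_lit 156) (nat_lit 0) (nat_lit 0) (XT.nd (nat_lit 78) (nat_lit 0) (nat_lit 0) (XT.lf (nat_lit 0) (nat_lit 255260004304)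 (nat_lit 152) (nat_lit 673658438234) (nat_lit 0) (nat_lit 244894784500) (nat_lit 2) (nat_lit 5) (nat_lit 4) (nat_lit 4) (nat_lit 2) (nat_lit 4) (nat_lit 395) (nat_lit 343) (nat_lit 282)) (XT.lf (nat_lit 0) (nat_lit 403356395678) (nat_lit 152) (nat_lit 544628408371) (nat_lit 0) (nat_lit 392990907655) (nat_lit 2) (nat_lit 5) (nat_lit 4) (nat_lit 4) (nat_lit 2) (nat_lit 4) (nat_lit 396) (nat_lit 343) (nat_lit 281))) (XT.nd (nat_lit 78) (nat_lit 0) (nat_lit 0) (XT.lf (nat_lit 0) (nat_lit 573661861280) (nat_lit 152) (nat_lit 396254998549) (nat_lit 0) (nat_lit 563296140023) (nat_lit 2) (nat_lit 5) (nat_lit 4) (nat_lit 4) (nat_lit 2) (nat_lit 4) (nat_lit 397) (nat_lit 343) (nat_lit 280)) (XT.lf (nat_lit 0) (nat_lit 769508464567) (nat_lit 152) (nat_lit 225635250751) (nat_lit 0) (nat_lit 759142540497) (nat_lit 2) (nat_lit 5) (nat_lit 4) (nat_lit 4) (nat_lit 2) (nat_lit 4) (nat_lit 398) (nat_lit 343)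 (nat_lit 279)))) (XT.nd (nat_lit 156) (nat_lit 0) (nat_lit 0) (XT.nd (nat_lit 78) (nat_lit 76) (nat_lit 0) (XT.lf (nat_lit 0) (nat_lit 994727986907) (nat_lit 152) (nat_lit 29430952521) (nat_lit 0) (nat_lit 984361886479) (nat_lit 2) (nat_lit 5) (nat_lit 4) (nat_lit 4) (nat_lit 2) (nat_lit 4) (nat_lit 399) (nat_lit 343) (nat_lit 278)) (XT.lf (nat_lit 0) (nat_lit 206528045152) (nat_lit 76) (nat_lit 1052165856516) (nat_lit 76) (nat_lit 1041799602733) (nat_lit 1) (nat_lit 4) (nat_lit 2) (nat_lit 5) (nat_lit 2) (nat_lit 4) (nat_lit 400) (nat_lit 343) (nat_lit 277))) (XT.nd (nat_lit 78) (nat_lit 0) (nat_lit 0) (XT.lf (nat_lit 0) (nat_lit 479656446137) (nat_lit 76) (nat_lit 1083451868405) (nat_lit 76) (nat_lit 1073085481270) (nat_lit 1) (nat_lit 4) (nat_lit 2) (nat_lit 5) (nat_lit 2) (nat_lit 4) (nat_lit 401) (nat_lit 343) (nat_lit 276)) (XT.nd (nat_lit 78) (nat_lit 0) (nat_lit 0) (XT.lf (nat_lit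 0) (nat_lit 793748285172) (nat_lit 76) (nat_lit 1119433787117) (nat_lit 76) (nat_lit 1109067284023) (nat_lit 1) (nat_lit 4) (nat_lit 2) (nat_lit 5) (nat_lit 2) (nat_lit 4) (nat_lit 402) (nat_lit 343) (nat_lit 275)) (XT.lf (nat_lit 0) (nat_lit 1154948837368) (nat_lit 76) (nat_lit 1160815606713) (nat_lit 76) (nat_lit 1150449002786) (nat_lit 1) (nat_lit 4) (nat_lit 2) (nat_lit 5) (nat_lit 2) (nat_lit 4) (nat_lit 403) (nat_lit 343) (nat_lit 274))))))) (XT.nd (nat_lit 702) (nat_lit 0) (nat_lit 0) (XT.nd (nat_lit 312) (nat_lit 0) (nat_lit 0) (XT.nd (nat_lit 156) (nat_lit 0) (nat_lit 0) (XT.nd (nat_lit 78) (nat_lit 0) (nat_lit 0) (XT.lf (nat_lit 0) (nat_lit 1570325070051) (nat_lit 76) (nat_lit 1208406971490) (nat_lit 76) (nat_lit 1198040279881) (nat_lit 1) (nat_lit 4) (nat_lit 2) (nat_lit 5) (nat_lit 2) (nat_lit 4) (nat_lit 404) (nat_lit 343) (nat_lit 273)) (XT.lf (nat_lit 0) (nat_lit 2048003909511)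 (nat_lit 76) (nat_lit 1263139016845) (nat_lit 76) (nat_lit 1252772248992) (nat_lit 1) (nat_lit 4) (nat_lit 2) (nat_lit 5) (nat_lit 2) (nat_lit 4) (nat_lit 405) (nat_lit 343) (nat_lit 272))) (XT.nd (nat_lit 78) (nat_lit 0) (nat_lit 0) (XT.lf (nat_lit 0) (nat_lit 2597331246087) (nat_lit 76) (nat_lit 1326082587145) (nat_lit 76) (nat_lit 1315715752992) (nat_lit 1) (nat_lit 4) (nat_lit 2) (nat_lit 5) (nat_lit 2) (nat_lit 4) (nat_lit 406) (nat_lit 343) (nat_lit 271)) (XT.lf (nat_lit 0) (nat_lit 3229054788538) (nat_lit 76) (nat_lit 1398469187026) (nat_lit 76) (nat_lit 1388102295221) (nat_lit 1) (nat_lit 4) (nat_lit 2) (nat_lit 5) (nat_lit 2) (nat_lit 4) (nat_lit 407) (nat_lit 343) (nat_lit 270)))) (XT.nd (nat_lit 156) (nat_lit 0) (nat_lit 0) (XT.nd (nat_lit 78) (nat_lit 0) (nat_lit 0) (XT.lf (nat_lit 0) (nat_lit 3955534345303) (nat_lit 76) (nat_lit 1481715076049) (nat_lit 76) (nat_lit 1471348134112)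 (nat_lit 1) (nat_lit 4) (nat_lit 2) (nat_lit 5) (nat_lit 2) (nat_lit 4) (nat_lit 408) (nat_lit 343) (nat_lit 269)) (XT.lf (nat_lit 0) (nat_lit 4790983646839) (nat_lit 76) (nat_lit 1577448978132) (nat_lit 76) (nat_lit 1567081992602) (nat_lit 1) (nat_lit 4) (nat_lit 2) (nat_lit 5) (nat_lit 2) (nat_lit 4) (nat_lit 409) (nat_lit 343) (nat_lit 268))) (XT.nd (nat_lit 78) (nat_lit 0) (nat_lit 0) (XT.lf (nat_lit 0) (nat_lit 5751748440352) (nat_lit 76) (nat_lit 1687543947880) (nat_lit 76) (nat_lit 1677176924443) (nat_lit 1) (nat_lit 4) (nat_lit 2) (nat_lit 5) (nat_lit 2) (nat_lit 4) (nat_lit 410) (nat_lit 343) (nat_lit 267)) (XT.nd (nat_lit 78) (nat_lit 0) (nat_lit 0) (XT.lf (nat_lit 0) (nat_lit 6856626297888) (nat_lit 76) (nat_lit 1814154017310) (nat_lit 76) (nat_lit 1803786960910) (nat_lit 1) (nat_lit 4) (nat_lit 2) (nat_lit 5) (nat_lit 2) (nat_lit 4) (nat_lit 411) (nat_lit 343) (nat_lit 266)) (XT.lf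 (nat_lit 0) (nat_lit 8127234394921) (nat_lit 76) (nat_lit 1959756339955) (nat_lit 76) (nat_lit 1949389254892) (nat_lit 1) (nat_lit 4) (nat_lit 2) (nat_lit 5) (nat_lit 2) (nat_lit 4) (nat_lit 412) (nat_lit 343) (nat_lit 265)))))) (XT.nd (nat_lit 390) (nat_lit 0) (nat_lit 0) (XT.nd (nat_lit 156) (nat_lit 0) (nat_lit 0) (XT.nd (nat_lit 78) (nat_lit 0) (nat_lit 0) (XT.lf (nat_lit 0) (nat_lit 9588432455088) (nat_lit 76) (nat_lit 2127199656908) (nat_lit 76) (nat_lit 2116832546921) (nat_lit 1) (nat_lit 4) (nat_lit 2) (nat_lit 5) (nat_lit 2) (nat_lit 4) (nat_lit 413) (nat_lit 343) (nat_lit 264)) (XT.lf (nat_lit 0) (nat_lit 11268809136089) (nat_lit 76) (nat_lit 2319760033068) (nat_lit 76) (nat_lit 2309392901407) (nat_lit 1) (nat_lit 4) (nat_lit 2) (nat_lit 5) (nat_lit 2) (nat_lit 4) (nat_lit 414) (nat_lit 343) (nat_lit 263))) (XT.nd (nat_lit 78) (nat_lit 0) (nat_lit 0) (XT.lf (nat_lit 0) (nat_lit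 13201241372986) (nat_lit 76) (nat_lit 2541204954055) (nat_lit 76) (nat_lit 2530837803548) (nat_lit 1) (nat_lit 4) (nat_lit 2) (nat_lit 5) (nat_lit 2) (nat_lit 4) (nat_lit 415) (nat_lit 343) (nat_lit 262)) (XT.nd (nat_lit 78) (nat_lit 0) (nat_lit 0) (XT.lf (nat_lit 0) (nat_lit 15423537622588) (nat_lit 76) (nat_lit 2795867037888) (nat_lit 76) (nat_lit 2785499870993) (nat_lit 1) (nat_lit 4) (nat_lit 2) (nat_lit 5) (nat_lit 2) (nat_lit 4) (nat_lit 416) (nat_lit 343) (nat_lit 261)) (XT.lf (nat_lit 0) (nat_lit 17979177594126) (nat_lit 76) (nat_lit 3088728803599) (nat_lit 76) (nat_lit 3078361622453) (nat_lit 1) (nat_lit 4) (nat_lit 2) (nat_lit 5) (nat_lit 2) (nat_lit 4) (nat_lit 417) (nat_lit 343) (nat_lit 260))))) (XT.nd (nat_lit 156) (nat_lit 0) (nat_lit 0) (XT.nd (nat_lit 78) (nat_lit 0) (nat_lit 0) (XT.lf (nat_lit 0) (nat_lit 20918162939218) (nat_lit 76) (nat_lit 3425520155300) (nat_lit 76)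 (nat_lit 3415152961761) (nat_lit 1) (nat_lit 4) (nat_lit 2) (nat_lit 5) (nat_lit 2) (nat_lit 4) (nat_lit 418) (nat_lit 343) (nat_lit 259)) (XT.lf (nat_lit 0) (nat_lit 24297995545050) (nat_lit 76) (nat_lit 3812830489001) (nat_lit 76) (nat_lit 3802463284687) (nat_lit 1) (nat_lit 4) (nat_lit 2) (nat_lit 5) (nat_lit 2) (nat_lit 4) (nat_lit 419) (nat_lit 343) (nat_lit 258))) (XT.nd (nat_lit 78) (nat_lit 0) (nat_lit 0) (XT.lf (nat_lit 0) (nat_lit 28184802571302) (nat_lit 76) (nat_lit 4258237615580) (nat_lit 76) (nat_lit 4247870401896) (nat_lit 1) (nat_lit 4) (nat_lit 2) (nat_lit 5) (nat_lit 2) (nat_lit 4) (nat_lit 420) (nat_lit 343) (nat_lit 257)) (XT.nd (nat_lit 47112) (nat_lit 0) (nat_lit 6612) (XT.lf (nat_lit 0) (nat_lit 32654630242399) (nat_lit 76) (nat_lit 4770456022296) (nat_lit 76) (nat_lit 4760088800464) (nat_lit 1) (nat_lit 4) (nat_lit 2) (nat_lit 5) (nat_lit 2) (nat_lit 4) (nat_lit 421)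 (nat_lit 343) (nat_lit 256)) (XT.lf (nat_lit 0) (nat_lit 979175579) (nat_lit 0) (nat_lit 979175579) (nat_lit 380) (nat_lit 2019363173) (nat_lit 88) (nat_lit 5) (nat_lit 88) (nat_lit 3) (nat_lit 93) (nat_lit 3) (nat_lit 344) (nat_lit 344) (nat_lit 332))))))))
noncomputable def xc54 : XT := (XT.nd (nat_lit 1404) (nat_lit 2128) (nat_lit 0) (XT.nd (nat_lit 702) (nat_lit 1520) (nat_lit 0) (XT.nd (nat_lit 312) (nat_lit 1444) (nat_lit 0) (XT.nd (nat_lit 156) (nat_lit 380) (nat_lit 0) (XT.nd (nat_lit 78) (nat_lit 380) (nat_lit 0) (XT.lf (nat_lit 76) (nat_lit 1399617693) (nat_lit 0) (nat_lit 5073311080) (nat_lit 456) (nat_lit 1897523106) (nat_lit 89) (nat_lit 5) (nat_lit 88) (nat_lit 5) (nat_lit 94) (nat_lit 5) (nat_lit 345) (nat_lit 344) (nat_lit 331)) (XT.lf (nat_lit 0) (nat_lit 422727688) (nat_lit 456) (nat_lit 7713550940) (nat_lit 532) (nat_lit 719578123) (nat_lit 83) (nat_lit 5) (nat_lit 89)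 (nat_lit 5) (nat_lit 90) (nat_lit 5) (nat_lit 346) (nat_lit 344) (nat_lit 330))) (XT.nd (nat_lit 78) (nat_lit 380) (nat_lit 0) (XT.lf (nat_lit 76) (nat_lit 1085207978) (nat_lit 0) (nat_lit 1926207082) (nat_lit 532) (nat_lit 6396185289) (nat_lit 84) (nat_lit 5) (nat_lit 83) (nat_lit 5) (nat_lit 90) (nat_lit 5) (nat_lit 347) (nat_lit 344) (nat_lit 329)) (XT.lf (nat_lit 0) (nat_lit 1309932336) (nat_lit 456) (nat_lit 4761317168) (nat_lit 532) (nat_lit 3964307753) (nat_lit 78) (nat_lit 5) (nat_lit 84) (nat_lit 5) (nat_lit 85) (nat_lit 5) (nat_lit 348) (nat_lit 344) (nat_lit 328)))) (XT.nd (nat_lit 156) (nat_lit 684) (nat_lit 0) (XT.nd (nat_lit 78) (nat_lit 304) (nat_lit 0) (XT.lf (nat_lit 0) (nat_lit 1852110806) (nat_lit 456) (nat_lit 7877477604) (nat_lit 532) (nat_lit 1017025896) (nat_lit 72) (nat_lit 5) (nat_lit 78) (nat_lit 5) (nat_lit 79) (nat_lit 5) (nat_lit 349) (nat_lit 344) (nat_lit 327))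 (XT.lf (nat_lit 0) (nat_lit 2468389028) (nat_lit 304) (nat_lit 8869272209) (nat_lit 76) (nat_lit 204982563) (nat_lit 68) (nat_lit 5) (nat_lit 72) (nat_lit 5) (nat_lit 69) (nat_lit 5) (nat_lit 350) (nat_lit 344) (nat_lit 326))) (XT.nd (nat_lit 78) (nat_lit 456) (nat_lit 0) (XT.lf (nat_lit 0) (nat_lit 3757096211) (nat_lit 228) (nat_lit 3013778601) (nat_lit 304) (nat_lit 5656779647) (nat_lit 65) (nat_lit 5) (nat_lit 68) (nat_lit 5) (nat_lit 69) (nat_lit 5) (nat_lit 351) (nat_lit 344) (nat_lit 325)) (XT.nd (nat_lit 78) (nat_lit 304) (nat_lit 0) (XT.lf (nat_lit 0) (nat_lit 5238183152) (nat_lit 152) (nat_lit 6830389571) (nat_lit 228) (nat_lit 1348898825) (nat_lit 63) (nat_lit 5) (nat_lit 65) (nat_lit 5) (nat_lit 66) (nat_lit 5) (nat_lit 352) (nat_lit 344) (nat_lit 324)) (XT.lf (nat_lit 0) (nat_lit 3838523359) (nat_lit 304) (nat_lit 7437455945) (nat_lit 76) (nat_lit 3239783021) (nat_lit 59) (nat_lit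 5) (nat_lit 63) (nat_lit 5) (nat_lit 60) (nat_lit 5) (nat_lit 353) (nat_lit 344) (nat_lit 323)))))) (XT.nd (nat_lit 312) (nat_lit 836) (nat_lit 0) (XT.nd (nat_lit 156) (nat_lit 304) (nat_lit 0) (XT.nd (nat_lit 78) (nat_lit 228) (nat_lit 0) (XT.lf (nat_lit 0) (nat_lit 9366743292) (nat_lit 152) (nat_lit 852549728) (nat_lit 228) (nat_lit 5517121859) (nat_lit 57) (nat_lit 5) (nat_lit 59) (nat_lit 5) (nat_lit 60) (nat_lit 5) (nat_lit 354) (nat_lit 344) (nat_lit 322)) (XT.lf (nat_lit 0) (nat_lit 1043660511) (nat_lit 228) (nat_lit 4984097482) (nat_lit 76) (nat_lit 11059827980) (nat_lit 54) (nat_lit 5) (nat_lit 57) (nat_lit 5) (nat_lit 55) (nat_lit 5) (nat_lit 355) (nat_lit 344) (nat_lit 321))) (XT.nd (nat_lit 78) (nat_lit 152) (nat_lit 0) (XT.lf (nat_lit 0) (nat_lit 8881140626) (nat_lit 228) (nat_lit 3264932457) (nat_lit 76) (nat_lit 6434375631) (nat_lit 52) (nat_lit 5) (nat_lit 55) (nat_lit 5)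 (nat_lit 53) (nat_lit 5) (nat_lit 356) (nat_lit 344) (nat_lit 320)) (XT.lf (nat_lit 0) (nat_lit 18563319653) (nat_lit 228) (nat_lit 992857453) (nat_lit 76) (nat_lit 687555501) (nat_lit 50) (nat_lit 5) (nat_lit 53) (nat_lit 5) (nat_lit 51) (nat_lit 4) (nat_lit 357) (nat_lit 344) (nat_lit 319)))) (XT.nd (nat_lit 156) (nat_lit 456) (nat_lit 0) (XT.nd (nat_lit 78) (nat_lit 76) (nat_lit 0) (XT.lf (nat_lit 0) (nat_lit 1649935773) (nat_lit 152) (nat_lit 6467366611) (nat_lit 228) (nat_lit 13948452948) (nat_lit 46) (nat_lit 5) (nat_lit 48) (nat_lit 5) (nat_lit 49) (nat_lit 5) (nat_lit 358) (nat_lit 344) (nat_lit 318)) (XT.lf (nat_lit 0) (nat_lit 4994299304) (nat_lit 76) (nat_lit 15171734748) (nat_lit 152) (nat_lit 3921099514) (nat_lit 45) (nat_lit 5) (nat_lit 46) (nat_lit 5) (nat_lit 47) (nat_lit 4) (nat_lit 359) (nat_lit 344) (nat_lit 317))) (XT.nd (nat_lit 78) (nat_lit 228) (nat_lit 0) (XT.lf (nat_lit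 0) (nat_lit 8147543081) (nat_lit 228) (nat_lit 17371964218) (nat_lit 76) (nat_lit 804148020) (nat_lit 42) (nat_lit 5) (nat_lit 45) (nat_lit 5) (nat_lit 43) (nat_lit 4) (nat_lit 360) (nat_lit 344) (nat_lit 316)) (XT.nd (nat_lit 78) (nat_lit 152) (nat_lit 0) (XT.lf (nat_lit 0) (nat_lit 13462619745) (nat_lit 76) (nat_lit 9553104267) (nat_lit 152) (nat_lit 5774079170) (nat_lit 41) (nat_lit 5) (nat_lit 42) (nat_lit 5) (nat_lit 43) (nat_lit 4) (nat_lit 361) (nat_lit 344) (nat_lit 315)) (XT.lf (nat_lit 0) (nat_lit 9186855039) (nat_lit 152) (nat_lit 12825988462) (nat_lit 76) (nat_lit 9506848298) (nat_lit 39) (nat_lit 5) (nat_lit 41) (nat_lit 5) (nat_lit 40) (nat_lit 4) (nat_lit 362) (nat_lit 344) (nat_lit 314))))))) (XT.nd (nat_lit 702) (nat_lit 1064) (nat_lit 0) (XT.nd (nat_lit 312) (nat_lit 532) (nat_lit 0) (XT.nd (nat_lit 156) (nat_lit 304) (nat_lit 0) (XT.nd (nat_lit 78) (nat_lit 152) (nat_lit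 0) (XT.lf (nat_lit 0) (nat_lit 24768865628) (nat_lit 76) (nat_lit 2523147530) (nat_lit 152) (nat_lit 7255700707) (nat_lit 38) (nat_lit 5) (nat_lit 39) (nat_lit 5) (nat_lit 40) (nat_lit 4) (nat_lit 363) (nat_lit 344) (nat_lit 313)) (XT.lf (nat_lit 0) (nat_lit 11163946119) (nat_lit 152) (nat_lit 6458681926) (nat_lit 76) (nat_lit 20261089766) (nat_lit 36) (nat_lit 5) (nat_lit 38) (nat_lit 5) (nat_lit 37) (nat_lit 4) (nat_lit 364) (nat_lit 344) (nat_lit 312))) (XT.nd (nat_lit 78) (nat_lit 228) (nat_lit 0) (XT.lf (nat_lit 0) (nat_lit 33307249667) (nat_lit 152) (nat_lit 2501926791) (nat_lit 0) (nat_lit 5784647158) (nat_lit 35) (nat_lit 5) (nat_lit 37) (nat_lit 4) (nat_lit 35) (nat_lit 4) (nat_lit 365) (nat_lit 344) (nat_lit 311)) (XT.lf (nat_lit 0) (nat_lit 1801259687) (nat_lit 76) (nat_lit 12314062104) (nat_lit 152) (nat_lit 31572316289) (nat_lit 32) (nat_lit 5) (nat_lit 33) (nat_lit 5) (nat_lit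 34) (nat_lit 4) (nat_lit 366) (nat_lit 344) (nat_lit 310)))) (XT.nd (nat_lit 156) (nat_lit 304) (nat_lit 0) (XT.nd (nat_lit 78) (nat_lit 152) (nat_lit 0) (XT.lf (nat_lit 0) (nat_lit 6713147083) (nat_lit 76) (nat_lit 34531384593) (nat_lit 76) (nat_lit 8985162198) (nat_lit 31) (nat_lit 4) (nat_lit 32) (nat_lit 5) (nat_lit 32) (nat_lit 4) (nat_lit 367) (nat_lit 344) (nat_lit 309)) (XT.lf (nat_lit 0) (nat_lit 11895386884) (nat_lit 76) (nat_lit 6117506894) (nat_lit 152) (nat_lit 37257658514) (nat_lit 29) (nat_lit 5) (nat_lit 30) (nat_lit 5) (nat_lit 31) (nat_lit 4) (nat_lit 368) (nat_lit 344) (nat_lit 308))) (XT.nd (nat_lit 78) (nat_lit 228) (nat_lit 0) (XT.lf (nat_lit 0) (nat_lit 17104312986) (nat_lit 76) (nat_lit 33728871989) (nat_lit 76) (nat_lit 10031322244) (nat_lit 28) (nat_lit 4) (nat_lit 29) (nat_lit 5) (nat_lit 29) (nat_lit 4) (nat_lit 369) (nat_lit 344) (nat_lit 307)) (XT.nd (nat_lit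 78) (nat_lit 76) (nat_lit 0) (XT.lf (nat_lit 0) (nat_lit 22166118256) (nat_lit 152) (nat_lit 44726769166) (nat_lit 0) (nat_lit 207599788) (nat_lit 26) (nat_lit 5) (nat_lit 28) (nat_lit 4) (nat_lit 26) (nat_lit 4) (nat_lit 370) (nat_lit 344) (nat_lit 306)) (XT.lf (nat_lit 0) (nat_lit 26904618268) (nat_lit 76) (nat_lit 34545528802) (nat_lit 76) (nat_lit 12572799223) (nat_lit 25) (nat_lit 4) (nat_lit 26) (nat_lit 5) (nat_lit 26) (nat_lit 4) (nat_lit 371) (nat_lit 344) (nat_lit 305)))))) (XT.nd (nat_lit 390) (nat_lit 456) (nat_lit 0) (XT.nd (nat_lit 156) (nat_lit 380) (nat_lit 0) (XT.nd (nat_lit 78) (nat_lit 76) (nat_lit 0) (XT.lf (nat_lit 0) (nat_lit 25572543822) (nat_lit 152) (nat_lit 50974854227) (nat_lit 0) (nat_lit 5215981723) (nat_lit 23) (nat_lit 5) (nat_lit 25) (nat_lit 4) (nat_lit 23) (nat_lit 4) (nat_lit 372) (nat_lit 344) (nat_lit 304)) (XT.lf (nat_lit 0) (nat_lit 32892805372) (nat_lit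 76) (nat_lit 38931084152) (nat_lit 76) (nat_lit 18564572385) (nat_lit 22) (nat_lit 4) (nat_lit 23) (nat_lit 5) (nat_lit 23) (nat_lit 4) (nat_lit 373) (nat_lit 344) (nat_lit 303))) (XT.nd (nat_lit 78) (nat_lit 228) (nat_lit 0) (XT.lf (nat_lit 0) (nat_lit 25925475122) (nat_lit 152) (nat_lit 67078257935) (nat_lit 0) (nat_lit 7059582851) (nat_lit 20) (nat_lit 5) (nat_lit 22) (nat_lit 4) (nat_lit 20) (nat_lit 4) (nat_lit 374) (nat_lit 344) (nat_lit 302)) (XT.nd (nat_lit 78) (nat_lit 152) (nat_lit 0) (XT.lf (nat_lit 0) (nat_lit 29209050036) (nat_lit 76) (nat_lit 50267832362) (nat_lit 76) (nat_lit 31394973999) (nat_lit 19) (nat_lit 4) (nat_lit 20) (nat_lit 5) (nat_lit 20) (nat_lit 4) (nat_lit 375) (nat_lit 344) (nat_lit 301)) (XT.lf (nat_lit 0) (nat_lit 19398814091) (nat_lit 152) (nat_lit 101748128248) (nat_lit 0) (nat_lit 1918336468) (nat_lit 17) (nat_lit 5) (nat_lit 19) (nat_lit 4) (nat_lit 17)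 (nat_lit 4) (nat_lit 376) (nat_lit 344) (nat_lit 300))))) (XT.nd (nat_lit 156) (nat_lit 304) (nat_lit 0) (XT.nd (nat_lit 78) (nat_lit 76) (nat_lit 0) (XT.lf (nat_lit 0) (nat_lit 5682789776) (nat_lit 76) (nat_lit 74253192134) (nat_lit 76) (nat_lit 56767837320) (nat_lit 16) (nat_lit 4) (nat_lit 17) (nat_lit 5) (nat_lit 17) (nat_lit 4) (nat_lit 377) (nat_lit 344) (nat_lit 299)) (XT.lf (nat_lit 0) (nat_lit 312976791) (nat_lit 152) (nat_lit 16838604121) (nat_lit 76) (nat_lit 135001565340) (nat_lit 15) (nat_lit 5) (nat_lit 17) (nat_lit 5) (nat_lit 16) (nat_lit 4) (nat_lit 378) (nat_lit 344) (nat_lit 298))) (XT.nd (nat_lit 78) (nat_lit 228) (nat_lit 0) (XT.lf (nat_lit 0) (nat_lit 66798743456) (nat_lit 152) (nat_lit 52065581952) (nat_lit 0) (nat_lit 50601258543) (nat_lit 14) (nat_lit 5) (nat_lit 16) (nat_lit 4) (nat_lit 14) (nat_lit 4) (nat_lit 379) (nat_lit 344) (nat_lit 297)) (XT.nd (nat_lit 78)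 (nat_lit 152) (nat_lit 0) (XT.lf (nat_lit 0) (nat_lit 87281440303) (nat_lit 76) (nat_lit 59024988604) (nat_lit 76) (nat_lit 42824534402) (nat_lit 13) (nat_lit 4) (nat_lit 14) (nat_lit 5) (nat_lit 14) (nat_lit 4) (nat_lit 380) (nat_lit 344) (nat_lit 296)) (XT.lf (nat_lit 0) (nat_lit 27510593787) (nat_lit 152) (nat_lit 171452416223) (nat_lit 0) (nat_lit 12507782498) (nat_lit 11) (nat_lit 5) (nat_lit 13) (nat_lit 4) (nat_lit 11) (nat_lit 4) (nat_lit 381) (nat_lit 344) (nat_lit 295))))))))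
noncomputable def xc55 : XT := (XT.nd (nat_lit 1404) (nat_lit 76) (nat_lit 0) (XT.nd (nat_lit 702) (nat_lit 228) (nat_lit 0) (XT.nd (nat_lit 312) (nat_lit 228) (nat_lit 0) (XT.nd (nat_lit 156) (nat_lit 152) (nat_lit 0) (XT.nd (nat_lit 78) (nat_lit 76) (nat_lit 0) (XT.lf (nat_lit 0) (nat_lit 110583022655) (nat_lit 152) (nat_lit 30533637393) (nat_lit 0) (nat_lit 95578132469) (nat_lit 11) (nat_lit 5) (nat_lit 13) (nat_lit 4) (nat_lit 11) (nat_lit 4) (nat_lit 382) (nat_lit 344) (nat_lit 294)) (XT.lf (nat_lit 0) (nat_lit 138403420123) (nat_lit 76) (nat_lit 71020529890) (nat_lit 76) (nat_lit 56013831967) (nat_lit 10) (nat_lit 4) (nat_lit 11) (nat_lit 5) (nat_lit 11) (nat_lit 4) (nat_lit 383) (nat_lit 344) (nat_lit 293))) (XT.nd (nat_lit 78) (nat_lit 0) (nat_lit 0) (XT.lf (nat_lit 0) (nat_lit 25450702717) (nat_lit 152) (nat_lit 261273437620) (nat_lit 0) (nat_lit 11554156543) (nat_lit 8) (nat_lit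 5) (nat_lit 10) (nat_lit 4) (nat_lit 8) (nat_lit 4) (nat_lit 384) (nat_lit 344) (nat_lit 292)) (XT.lf (nat_lit 0) (nat_lit 121652896407) (nat_lit 152) (nat_lit 106053745966) (nat_lit 0) (nat_lit 107755084577) (nat_lit 8) (nat_lit 5) (nat_lit 10) (nat_lit 4) (nat_lit 8) (nat_lit 4) (nat_lit 385) (nat_lit 344) (nat_lit 291)))) (XT.nd (nat_lit 156) (nat_lit 152) (nat_lit 0) (XT.nd (nat_lit 78) (nat_lit 0) (nat_lit 0) (XT.lf (nat_lit 0) (nat_lit 76229153440) (nat_lit 76) (nat_lit 157873524934) (nat_lit 76) (nat_lit 143974612533) (nat_lit 7) (nat_lit 4) (nat_lit 8) (nat_lit 5) (nat_lit 8) (nat_lit 4) (nat_lit 386) (nat_lit 344) (nat_lit 290)) (XT.lf (nat_lit 0) (nat_lit 292246539861) (nat_lit 76) (nat_lit 74246341412) (nat_lit 76) (nat_lit 60346471993) (nat_lit 7) (nat_lit 4) (nat_lit 8) (nat_lit 5) (nat_lit 8) (nat_lit 4) (nat_lit 387) (nat_lit 344) (nat_lit 289))) (XT.nd (nat_lit 78) (nat_lit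 0) (nat_lit 0) (XT.lf (nat_lit 0) (nat_lit 36046911398) (nat_lit 152) (nat_lit 423462938960) (nat_lit 0) (nat_lit 23175891391) (nat_lit 5) (nat_lit 5) (nat_lit 7) (nat_lit 4) (nat_lit 5) (nat_lit 4) (nat_lit 388) (nat_lit 344) (nat_lit 288)) (XT.nd (nat_lit 78) (nat_lit 0) (nat_lit 0) (XT.lf (nat_lit 0) (nat_lit 149489192272) (nat_lit 152) (nat_lit 260183952849) (nat_lit 0) (nat_lit 136617502224) (nat_lit 5) (nat_lit 5) (nat_lit 7) (nat_lit 4) (nat_lit 5) (nat_lit 4) (nat_lit 389) (nat_lit 344) (nat_lit 287)) (XT.lf (nat_lit 0) (nat_lit 279937124918) (nat_lit 152) (nat_lit 72435166923) (nat_lit 0) (nat_lit 267064852228) (nat_lit 5) (nat_lit 5) (nat_lit 7) (nat_lit 4) (nat_lit 5) (nat_lit 4) (nat_lit 390) (nat_lit 344) (nat_lit 286)))))) (XT.nd (nat_lit 312) (nat_lit 0) (nat_lit 0) (XT.nd (nat_lit 156) (nat_lit 152) (nat_lit 0) (XT.nd (nat_lit 78) (nat_lit 0) (nat_lit 0) (XT.lf (nat_lit 0)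 (nat_lit 151010943626) (nat_lit 76) (nat_lit 282563824698) (nat_lit 76) (nat_lit 269691045361) (nat_lit 4) (nat_lit 4) (nat_lit 5) (nat_lit 5) (nat_lit 5) (nat_lit 4) (nat_lit 391) (nat_lit 344) (nat_lit 285)) (XT.lf (nat_lit 0) (nat_lit 412342874985) (nat_lit 76) (nat_lit 200015549695) (nat_lit 76) (nat_lit 187142329795) (nat_lit 4) (nat_lit 4) (nat_lit 5) (nat_lit 5) (nat_lit 5) (nat_lit 4) (nat_lit 392) (nat_lit 344) (nat_lit 284))) (XT.nd (nat_lit 78) (nat_lit 152) (nat_lit 0) (XT.lf (nat_lit 0) (nat_lit 712859335677) (nat_lit 76) (nat_lit 105092897715) (nat_lit 76) (nat_lit 92219294718) (nat_lit 4) (nat_lit 4) (nat_lit 5) (nat_lit 5) (nat_lit 5) (nat_lit 4) (nat_lit 393) (nat_lit 344) (nat_lit 283)) (XT.lf (nat_lit 0) (nat_lit 16731119877) (nat_lit 152) (nat_lit 1015817477160) (nat_lit 0) (nat_lit 4810808650) (nat_lit 2) (nat_lit 5) (nat_lit 4) (nat_lit 4) (nat_lit 2) (nat_lit 4) (nat_lit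 394) (nat_lit 344) (nat_lit 282)))) (XT.nd (nat_lit 156) (nat_lit 0) (nat_lit 0) (XT.nd (nat_lit 78) (nat_lit 0) (nat_lit 0) (XT.lf (nat_lit 0) (nat_lit 145513095045) (nat_lit 152) (nat_lit 903612276995) (nat_lit 0) (nat_lit 133592515600) (nat_lit 2) (nat_lit 5) (nat_lit 4) (nat_lit 4) (nat_lit 2) (nat_lit 4) (nat_lit 395) (nat_lit 344) (nat_lit 281)) (XT.lf (nat_lit 0) (nat_lit 293606982011) (nat_lit 152) (nat_lit 774587421328) (nat_lit 0) (nat_lit 281686169331) (nat_lit 2) (nat_lit 5) (nat_lit 4) (nat_lit 4) (nat_lit 2) (nat_lit 4) (nat_lit 396) (nat_lit 344) (nat_lit 280))) (XT.nd (nat_lit 78) (nat_lit 0) (nat_lit 0) (XT.lf (nat_lit 0) (nat_lit 463910269866) (nat_lit 152) (nat_lit 626218510807) (nat_lit 0) (nat_lit 451989254374) (nat_lit 2) (nat_lit 5) (nat_lit 4) (nat_lit 4) (nat_lit 2) (nat_lit 4) (nat_lit 397) (nat_lit 344) (nat_lit 279)) (XT.nd (nat_lit 78) (nat_lit 0) (nat_lit 0)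 (XT.lf (nat_lit 0) (nat_lit 659754979460) (nat_lit 152) (nat_lit 455602675445) (nat_lit 0) (nat_lit 647833787609) (nat_lit 2) (nat_lit 5) (nat_lit 4) (nat_lit 4) (nat_lit 2) (nat_lit 4) (nat_lit 398) (nat_lit 344) (nat_lit 278)) (XT.lf (nat_lit 0) (nat_lit 884972855110) (nat_lit 152) (nat_lit 259401779332) (nat_lit 0) (nat_lit 873051509905) (nat_lit 2) (nat_lit 5) (nat_lit 4) (nat_lit 4) (nat_lit 2) (nat_lit 4) (nat_lit 399) (nat_lit 344) (nat_lit 277))))))) (XT.nd (nat_lit 702) (nat_lit 0) (nat_lit 0) (XT.nd (nat_lit 312) (nat_lit 0) (nat_lit 0) (XT.nd (nat_lit 156) (nat_lit 0) (nat_lit 0) (XT.nd (nat_lit 78) (nat_lit 76) (nat_lit 0) (XT.lf (nat_lit 0) (nat_lit 1143970333515) (nat_lit 152) (nat_lit 33777109285) (nat_lit 0) (nat_lit 1132048854957) (nat_lit 2) (nat_lit 5) (nat_lit 4) (nat_lit 4) (nat_lit 2) (nat_lit 4) (nat_lit 400) (nat_lit 344) (nat_lit 276)) (XT.lf (nat_lit 0) (nat_lit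 237569941030) (nat_lit 76) (nat_lit 1209958378408) (nat_lit 76) (nat_lit 1198036783892) (nat_lit 1) (nat_lit 4) (nat_lit 2) (nat_lit 5) (nat_lit 2) (nat_lit 4) (nat_lit 401) (nat_lit 344) (nat_lit 275))) (XT.nd (nat_lit 78) (nat_lit 0) (nat_lit 0) (XT.lf (nat_lit 0) (nat_lit 551659425324) (nat_lit 76) (nat_lit 1245941512505) (nat_lit 76) (nat_lit 1234019817155) (nat_lit 1) (nat_lit 4) (nat_lit 2) (nat_lit 5) (nat_lit 2) (nat_lit 4) (nat_lit 402) (nat_lit 344) (nat_lit 274)) (XT.lf (nat_lit 0) (nat_lit 912857929919) (nat_lit 76) (nat_lit 1287324388957) (nat_lit 76) (nat_lit 1275402605926) (nat_lit 1) (nat_lit 4) (nat_lit 2) (nat_lit 5) (nat_lit 2) (nat_lit 4) (nat_lit 403) (nat_lit 344) (nat_lit 273)))) (XT.nd (nat_lit 156) (nat_lit 0) (nat_lit 0) (XT.nd (nat_lit 78) (nat_lit 0) (nat_lit 0) (XT.lf (nat_lit 0) (nat_lit 1328232382078) (nat_lit 76) (nat_lit 1334916672740) (nat_lit 76) (nat_lit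 1322994813464) (nat_lit 1) (nat_lit 4) (nat_lit 2) (nat_lit 5) (nat_lit 2) (nat_lit 4) (nat_lit 404) (nat_lit 344) (nat_lit 272)) (XT.lf (nat_lit 0) (nat_lit 1805909673258) (nat_lit 76) (nat_lit 1389649517231) (nat_lit 76) (nat_lit 1377727591655) (nat_lit 1) (nat_lit 4) (nat_lit 2) (nat_lit 5) (nat_lit 2) (nat_lit 4) (nat_lit 405) (nat_lit 344) (nat_lit 271))) (XT.nd (nat_lit 78) (nat_lit 0) (nat_lit 0) (XT.lf (nat_lit 0) (nat_lit 2355235663503) (nat_lit 76) (nat_lit 1452593782431) (nat_lit 76) (nat_lit 1440671799203) (nat_lit 1) (nat_lit 4) (nat_lit 2) (nat_lit 5) (nat_lit 2) (nat_lit 4) (nat_lit 406) (nat_lit 344) (nat_lit 270)) (XT.nd (nat_lit 78) (nat_lit 0) (nat_lit 0) (XT.lf (nat_lit 0) (nat_lit 2986958035231) (nat_lit 76) (nat_lit 1524980986572) (nat_lit 76) (nat_lit 1513058953212) (nat_lit 1) (nat_lit 4) (nat_lit 2) (nat_lit 5) (nat_lit 2) (nat_lit 4) (nat_lit 407) (nat_lit 344) (nat_lit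 269)) (XT.lf (nat_lit 0) (nat_lit 3713436573976) (nat_lit 76) (nat_lit 1608227401040) (nat_lit 76) (nat_lit 1596305324088) (nat_lit 1) (nat_lit 4) (nat_lit 2) (nat_lit 5) (nat_lit 2) (nat_lit 4) (nat_lit 408) (nat_lit 344) (nat_lit 268)))))) (XT.nd (nat_lit 390) (nat_lit 0) (nat_lit 0) (XT.nd (nat_lit 156) (nat_lit 0) (nat_lit 0) (XT.nd (nat_lit 78) (nat_lit 0) (nat_lit 0) (XT.lf (nat_lit 0) (nat_lit 4548884990278) (nat_lit 76) (nat_lit 1703961760032) (nat_lit 76) (nat_lit 1692039645172) (nat_lit 1) (nat_lit 4) (nat_lit 2) (nat_lit 5) (nat_lit 2) (nat_lit 4) (nat_lit 409) (nat_lit 344) (nat_lit 267)) (XT.lf (nat_lit 0) (nat_lit 5509649014022) (nat_lit 76) (nat_lit 1814057127091) (nat_lit 76) (nat_lit 1802134979269) (nat_lit 1) (nat_lit 4) (nat_lit 2) (nat_lit 5) (nat_lit 2) (nat_lit 4) (nat_lit 410) (nat_lit 344) (nat_lit 266))) (XT.nd (nat_lit 78) (nat_lit 0) (nat_lit 0) (XT.lf (nat_lit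 0) (nat_lit 6614526202193) (nat_lit 76) (nat_lit 1940667542009) (nat_lit 76) (nat_lit 1928745365524) (nat_lit 1) (nat_lit 4) (nat_lit 2) (nat_lit 5) (nat_lit 2) (nat_lit 4) (nat_lit 411) (nat_lit 344) (nat_lit 265)) (XT.nd (nat_lit 78) (nat_lit 0) (nat_lit 0) (XT.lf (nat_lit 0) (nat_lit 7885133717170) (nat_lit 76) (nat_lit 2086270165078) (nat_lit 76) (nat_lit 2074347963668) (nat_lit 1) (nat_lit 4) (nat_lit 2) (nat_lit 5) (nat_lit 2) (nat_lit 4) (nat_lit 412) (nat_lit 344) (nat_lit 264)) (XT.lf (nat_lit 0) (nat_lit 9346331271202) (nat_lit 76) (nat_lit 2253713743271) (nat_lit 76) (nat_lit 2241791520187) (nat_lit 1) (nat_lit 4) (nat_lit 2) (nat_lit 5) (nat_lit 2) (nat_lit 4) (nat_lit 413) (nat_lit 344) (nat_lit 263))))) (XT.nd (nat_lit 156) (nat_lit 0) (nat_lit 0) (XT.nd (nat_lit 78) (nat_lit 0) (nat_lit 0) (XT.lf (nat_lit 0) (nat_lit 11026707512084) (nat_lit 76) (nat_lit 2446274346595) (nat_lit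 76) (nat_lit 2434352104665) (nat_lit 1) (nat_lit 4) (nat_lit 2) (nat_lit 5) (nat_lit 2) (nat_lit 4) (nat_lit 414) (nat_lit 344) (nat_lit 262)) (XT.lf (nat_lit 0) (nat_lit 12959139366269) (nat_lit 76) (nat_lit 2667719465116) (nat_lit 76) (nat_lit 2655797206797) (nat_lit 1) (nat_lit 4) (nat_lit 2) (nat_lit 5) (nat_lit 2) (nat_lit 4) (nat_lit 415) (nat_lit 344) (nat_lit 261))) (XT.nd (nat_lit 78) (nat_lit 0) (nat_lit 0) (XT.lf (nat_lit 0) (nat_lit 15181435283079) (nat_lit 76) (nat_lit 2922381720718) (nat_lit 76) (nat_lit 2910459448149) (nat_lit 1) (nat_lit 4) (nat_lit 2) (nat_lit 5) (nat_lit 2) (nat_lit 4) (nat_lit 416) (nat_lit 344) (nat_lit 260)) (XT.nd (nat_lit 78) (nat_lit 0) (nat_lit 0) (XT.lf (nat_lit 0) (nat_lit 17737074965233) (nat_lit 76) (nat_lit 3215243635793) (nat_lit 76) (nat_lit 3203321350832) (nat_lit 1) (nat_lit 4) (nat_lit 2) (nat_lit 5) (nat_lit 2) (nat_lit 4) (nat_lit 417)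 (nat_lit 344) (nat_lit 259)) (XT.lf (nat_lit 0) (nat_lit 20676060058686) (nat_lit 76) (nat_lit 3552035117375) (nat_lit 76) (nat_lit 3540112821638) (nat_lit 1) (nat_lit 4) (nat_lit 2) (nat_lit 5) (nat_lit 2) (nat_lit 4) (nat_lit 418) (nat_lit 344) (nat_lit 258))))))))
noncomputable def xc56 : XT := (XT.nd (nat_lit 48516) (nat_lit 0) (nat_lit 1140) (XT.nd (nat_lit 47814) (nat_lit 0) (nat_lit 3420) (XT.nd (nat_lit 47424) (nat_lit 0) (nat_lit 5320) (XT.nd (nat_lit 156) (nat_lit 0) (nat_lit 0) (XT.nd (nat_lit 78) (nat_lit 0) (nat_lit 0) (XT.lf (nat_lit 0) (nat_lit 24055892445701) (nat_lit 76) (nat_lit 3939345564017) (nat_lit 76) (nat_lit 3927423258910) (nat_lit 1) (nat_lit 4) (nat_lit 2) (nat_lit 5) (nat_lit 2) (nat_lit 4) (nat_lit 419) (nat_lit 344) (nat_lit 257)) (XT.lf (nat_lit 0) (nat_lit 27942699281678) (nat_lit 76) (nat_lit 4384752788805) (nat_lit 76) (nat_lit 4372830475551) (nat_lit 1)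 (nat_lit 4) (nat_lit 2) (nat_lit 5) (nat_lit 2) (nat_lit 4) (nat_lit 420) (nat_lit 344) (nat_lit 256))) (XT.nd (nat_lit 47190) (nat_lit 0) (nat_lit 6612) (XT.lf (nat_lit 0) (nat_lit 32412526787319) (nat_lit 76) (nat_lit 4896971280921) (nat_lit 76) (nat_lit 4885048960581) (nat_lit 1) (nat_lit 4) (nat_lit 2) (nat_lit 5) (nat_lit 2) (nat_lit 4) (nat_lit 421) (nat_lit 344) (nat_lit 255)) (XT.lf (nat_lit 0) (nat_lit 2154713873) (nat_lit 0) (nat_lit 2154713873) (nat_lit 380) (nat_lit 99748127) (nat_lit 88) (nat_lit 5) (nat_lit 88) (nat_lit 3) (nat_lit 93) (nat_lit 3) (nat_lit 345) (nat_lit 345) (nat_lit 330)))) (XT.nd (nat_lit 156) (nat_lit 836) (nat_lit 0) (XT.nd (nat_lit 78) (nat_lit 0) (nat_lit 0) (XT.lf (nat_lit 0) (nat_lit 1609808549) (nat_lit 456) (nat_lit 5538169500) (nat_lit 532) (nat_lit 2186634279) (nat_lit 82) (nat_lit 5) (nat_lit 88) (nat_lit 5) (nat_lit 89) (nat_lit 5) (nat_lit 346)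 (nat_lit 345) (nat_lit 329)) (XT.lf (nat_lit 76) (nat_lit 3556753771) (nat_lit 0) (nat_lit 164270674) (nat_lit 532) (nat_lit 6203566077) (nat_lit 83) (nat_lit 5) (nat_lit 82) (nat_lit 5) (nat_lit 89) (nat_lit 5) (nat_lit 347) (nat_lit 345) (nat_lit 328))) (XT.nd (nat_lit 78) (nat_lit 912) (nat_lit 0) (XT.lf (nat_lit 76) (nat_lit 3542507255) (nat_lit 0) (nat_lit 2785313618) (nat_lit 532) (nat_lit 4261001667) (nat_lit 84) (nat_lit 5) (nat_lit 83) (nat_lit 5) (nat_lit 90) (nat_lit 5) (nat_lit 348) (nat_lit 345) (nat_lit 327)) (XT.nd (nat_lit 78) (nat_lit 532) (nat_lit 0) (XT.lf (nat_lit 0) (nat_lit 3829729218) (nat_lit 456) (nat_lit 5687197060) (nat_lit 532) (nat_lit 1820519876) (nat_lit 78) (nat_lit 5) (nat_lit 84) (nat_lit 5) (nat_lit 85) (nat_lit 5) (nat_lit 349) (nat_lit 345) (nat_lit 326)) (XT.lf (nat_lit 0) (nat_lit 1203697274) (nat_lit 532) (nat_lit 7760604343) (nat_lit 76) (nat_lit 3210853752)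 (nat_lit 71) (nat_lit 5) (nat_lit 78) (nat_lit 5) (nat_lit 72) (nat_lit 5) (nat_lit 350) (nat_lit 345) (nat_lit 325)))))) (XT.nd (nat_lit 312) (nat_lit 988) (nat_lit 0) (XT.nd (nat_lit 156) (nat_lit 456) (nat_lit 0) (XT.nd (nat_lit 78) (nat_lit 228) (nat_lit 0) (XT.lf (nat_lit 0) (nat_lit 4909217521) (nat_lit 304) (nat_lit 7804482521) (nat_lit 76) (nat_lit 394242751) (nat_lit 68) (nat_lit 5) (nat_lit 72) (nat_lit 5) (nat_lit 69) (nat_lit 5) (nat_lit 351) (nat_lit 345) (nat_lit 324)) (XT.lf (nat_lit 0) (nat_lit 6513101060) (nat_lit 228) (nat_lit 3126628990) (nat_lit 304) (nat_lit 4503421641) (nat_lit 65) (nat_lit 5) (nat_lit 68) (nat_lit 5) (nat_lit 69) (nat_lit 5) (nat_lit 352) (nat_lit 345) (nat_lit 323))) (XT.nd (nat_lit 78) (nat_lit 228) (nat_lit 0) (XT.lf (nat_lit 0) (nat_lit 240016461) (nat_lit 228) (nat_lit 7142858166) (nat_lit 76) (nat_lit 7912793704) (nat_lit 62) (nat_lit 5) (nat_lit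 65) (nat_lit 5) (nat_lit 63) (nat_lit 5) (nat_lit 353) (nat_lit 345) (nat_lit 322)) (XT.lf (nat_lit 0) (nat_lit 5965425447) (nat_lit 304) (nat_lit 6404061194) (nat_lit 76) (nat_lit 4199274984) (nat_lit 59) (nat_lit 5) (nat_lit 63) (nat_lit 5) (nat_lit 60) (nat_lit 5) (nat_lit 354) (nat_lit 345) (nat_lit 321)))) (XT.nd (nat_lit 156) (nat_lit 608) (nat_lit 0) (XT.nd (nat_lit 78) (nat_lit 228) (nat_lit 0) (XT.lf (nat_lit 0) (nat_lit 12738864670) (nat_lit 152) (nat_lit 409434459) (nat_lit 228) (nat_lit 4836649737) (nat_lit 57) (nat_lit 5) (nat_lit 59) (nat_lit 5) (nat_lit 60) (nat_lit 5) (nat_lit 355) (nat_lit 345) (nat_lit 320)) (XT.lf (nat_lit 0) (nat_lit 2504849250) (nat_lit 228) (nat_lit 3772331656) (nat_lit 76) (nat_lit 13268979140) (nat_lit 54) (nat_lit 5) (nat_lit 57) (nat_lit 5) (nat_lit 55) (nat_lit 5) (nat_lit 356) (nat_lit 345) (nat_lit 319))) (XT.nd (nat_lit 78) (nat_lit 456) (nat_lit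 0) (XT.lf (nat_lit 0) (nat_lit 11405728409) (nat_lit 228) (nat_lit 1881580867) (nat_lit 76) (nat_lit 7984645888) (nat_lit 52) (nat_lit 5) (nat_lit 55) (nat_lit 5) (nat_lit 53) (nat_lit 5) (nat_lit 357) (nat_lit 345) (nat_lit 318)) (XT.nd (nat_lit 78) (nat_lit 228) (nat_lit 0) (XT.lf (nat_lit 0) (nat_lit 677750502) (nat_lit 76) (nat_lit 21779791936) (nat_lit 152) (nat_lit 733826402) (nat_lit 49) (nat_lit 5) (nat_lit 50) (nat_lit 5) (nat_lit 51) (nat_lit 4) (nat_lit 358) (nat_lit 345) (nat_lit 317)) (XT.lf (nat_lit 0) (nat_lit 3674421983) (nat_lit 152) (nat_lit 6719163878) (nat_lit 228) (nat_lit 14897220434) (nat_lit 46) (nat_lit 5) (nat_lit 48) (nat_lit 5) (nat_lit 49) (nat_lit 5) (nat_lit 359) (nat_lit 345) (nat_lit 316))))))) (XT.nd (nat_lit 702) (nat_lit 1140) (nat_lit 0) (XT.nd (nat_lit 312) (nat_lit 608) (nat_lit 0) (XT.nd (nat_lit 156) (nat_lit 228) (nat_lit 0) (XT.nd (nat_lit 78) (nat_lit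 228) (nat_lit 0) (XT.lf (nat_lit 0) (nat_lit 7431846543) (nat_lit 76) (nat_lit 16735319114) (nat_lit 152) (nat_lit 3454837836) (nat_lit 45) (nat_lit 5) (nat_lit 46) (nat_lit 5) (nat_lit 47) (nat_lit 4) (nat_lit 360) (nat_lit 345) (nat_lit 315)) (XT.lf (nat_lit 0) (nat_lit 10295495013) (nat_lit 228) (nat_lit 18327534374) (nat_lit 76) (nat_lit 1575026475) (nat_lit 42) (nat_lit 5) (nat_lit 45) (nat_lit 5) (nat_lit 43) (nat_lit 4) (nat_lit 361) (nat_lit 345) (nat_lit 314))) (XT.nd (nat_lit 78) (nat_lit 152) (nat_lit 0) (XT.lf (nat_lit 0) (nat_lit 16992553901) (nat_lit 76) (nat_lit 10316918543) (nat_lit 152) (nat_lit 5731418623) (nat_lit 41) (nat_lit 5) (nat_lit 42) (nat_lit 5) (nat_lit 43) (nat_lit 4) (nat_lit 362) (nat_lit 345) (nat_lit 313)) (XT.lf (nat_lit 0) (nat_lit 11365222500) (nat_lit 152) (nat_lit 13278055301) (nat_lit 76) (nat_lit 11540283138) (nat_lit 39) (nat_lit 5) (nat_lit 41) (nat_lit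 5) (nat_lit 40) (nat_lit 4) (nat_lit 363) (nat_lit 345) (nat_lit 312)))) (XT.nd (nat_lit 156) (nat_lit 380) (nat_lit 0) (XT.nd (nat_lit 78) (nat_lit 152) (nat_lit 0) (XT.lf (nat_lit 0) (nat_lit 29831443702) (nat_lit 76) (nat_lit 2282719917) (nat_lit 152) (nat_lit 7557389453) (nat_lit 38) (nat_lit 5) (nat_lit 39) (nat_lit 5) (nat_lit 40) (nat_lit 4) (nat_lit 364) (nat_lit 345) (nat_lit 311)) (XT.lf (nat_lit 0) (nat_lit 13533065765) (nat_lit 152) (nat_lit 6117904081) (nat_lit 76) (nat_lit 23859703166) (nat_lit 36) (nat_lit 5) (nat_lit 38) (nat_lit 5) (nat_lit 37) (nat_lit 4) (nat_lit 365) (nat_lit 345) (nat_lit 310))) (XT.nd (nat_lit 78) (nat_lit 304) (nat_lit 0) (XT.lf (nat_lit 0) (nat_lit 38949715223) (nat_lit 152) (nat_lit 1641440225) (nat_lit 0) (nat_lit 7189996460) (nat_lit 35) (nat_lit 5) (nat_lit 37) (nat_lit 4) (nat_lit 35) (nat_lit 4) (nat_lit 366) (nat_lit 345) (nat_lit 309)) (XT.nd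 (nat_lit 78) (nat_lit 76) (nat_lit 0) (XT.lf (nat_lit 0) (nat_lit 3295731288) (nat_lit 76) (nat_lit 13570940161) (nat_lit 152) (nat_lit 35623360051) (nat_lit 32) (nat_lit 5) (nat_lit 33) (nat_lit 5) (nat_lit 34) (nat_lit 4) (nat_lit 367) (nat_lit 345) (nat_lit 308)) (XT.lf (nat_lit 0) (nat_lit 8874235196) (nat_lit 76) (nat_lit 39148425329) (nat_lit 76) (nat_lit 9694146997) (nat_lit 31) (nat_lit 4) (nat_lit 32) (nat_lit 5) (nat_lit 32) (nat_lit 4) (nat_lit 368) (nat_lit 345) (nat_lit 307)))))) (XT.nd (nat_lit 390) (nat_lit 532) (nat_lit 0) (XT.nd (nat_lit 156) (nat_lit 380) (nat_lit 0) (XT.nd (nat_lit 78) (nat_lit 76) (nat_lit 0) (XT.lf (nat_lit 0) (nat_lit 14765391583) (nat_lit 76) (nat_lit 6503229633) (nat_lit 152) (nat_lit 42248190720) (nat_lit 29) (nat_lit 5) (nat_lit 30) (nat_lit 5) (nat_lit 31) (nat_lit 4) (nat_lit 369) (nat_lit 345) (nat_lit 306)) (XT.lf (nat_lit 0) (nat_lit 20692619764)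 (nat_lit 76) (nat_lit 38282821132) (nat_lit 76) (nat_lit 10977342994) (nat_lit 28) (nat_lit 4) (nat_lit 29) (nat_lit 5) (nat_lit 29) (nat_lit 4) (nat_lit 370) (nat_lit 345) (nat_lit 305))) (XT.nd (nat_lit 78) (nat_lit 228) (nat_lit 0) (XT.lf (nat_lit 0) (nat_lit 25987142615) (nat_lit 152) (nat_lit 50446780333) (nat_lit 0) (nat_lit 691935000) (nat_lit 26) (nat_lit 5) (nat_lit 28) (nat_lit 4) (nat_lit 26) (nat_lit 4) (nat_lit 371) (nat_lit 345) (nat_lit 304)) (XT.nd (nat_lit 78) (nat_lit 152) (nat_lit 0) (XT.lf (nat_lit 0) (nat_lit 31845600937) (nat_lit 76) (nat_lit 39275237500) (nat_lit 76) (nat_lit 13969284243) (nat_lit 25) (nat_lit 4) (nat_lit 26) (nat_lit 5) (nat_lit 26) (nat_lit 4) (nat_lit 372) (nat_lit 345) (nat_lit 303)) (XT.lf (nat_lit 0) (nat_lit 29843452219) (nat_lit 152) (nat_lit 57746260567) (nat_lit 0) (nat_lit 6403362133) (nat_lit 23) (nat_lit 5) (nat_lit 25) (nat_lit 4) (nat_lit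 23) (nat_lit 4) (nat_lit 373) (nat_lit 345) (nat_lit 302))))) (XT.nd (nat_lit 156) (nat_lit 304) (nat_lit 0) (XT.nd (nat_lit 78) (nat_lit 152) (nat_lit 0) (XT.lf (nat_lit 0) (nat_lit 38627498664) (nat_lit 76) (nat_lit 44367517081) (nat_lit 76) (nat_lit 20919903616) (nat_lit 22) (nat_lit 4) (nat_lit 23) (nat_lit 5) (nat_lit 23) (nat_lit 4) (nat_lit 374) (nat_lit 345) (nat_lit 301)) (XT.lf (nat_lit 0) (nat_lit 30196209277) (nat_lit 152) (nat_lit 76366645617) (nat_lit 0) (nat_lit 8479398598) (nat_lit 20) (nat_lit 5) (nat_lit 22) (nat_lit 4) (nat_lit 20) (nat_lit 4) (nat_lit 375) (nat_lit 345) (nat_lit 300))) (XT.nd (nat_lit 78) (nat_lit 228) (nat_lit 0) (XT.lf (nat_lit 0) (nat_lit 34298298239) (nat_lit 76) (nat_lit 57449239469) (nat_lit 76) (nat_lit 35727161424) (nat_lit 19) (nat_lit 4) (nat_lit 20) (nat_lit 5) (nat_lit 20) (nat_lit 4) (nat_lit 376) (nat_lit 345) (nat_lit 299)) (XT.nd (nat_lit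 78) (nat_lit 76) (nat_lit 0) (XT.lf (nat_lit 0) (nat_lit 22644233962) (nat_lit 152) (nat_lit 116327026404) (nat_lit 0) (nat_lit 2526957700) (nat_lit 17) (nat_lit 5) (nat_lit 19) (nat_lit 4) (nat_lit 17) (nat_lit 4) (nat_lit 377) (nat_lit 345) (nat_lit 298)) (XT.lf (nat_lit 0) (nat_lit 7160689597) (nat_lit 76) (nat_lit 85072556578) (nat_lit 76) (nat_lit 64951592459) (nat_lit 16) (nat_lit 4) (nat_lit 17) (nat_lit 5) (nat_lit 17) (nat_lit 4) (nat_lit 378) (nat_lit 345) (nat_lit 297))))))))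
noncomputable def xc57 : XT := (XT.nd (nat_lit 1404) (nat_lit 76) (nat_lit 0) (XT.nd (nat_lit 702) (nat_lit 380) (nat_lit 0) (XT.nd (nat_lit 312) (nat_lit 304) (nat_lit 0) (XT.nd (nat_lit 156) (nat_lit 228) (nat_lit 0) (XT.nd (nat_lit 78) (nat_lit 76) (nat_lit 0) (XT.lf (nat_lit 0) (nat_lit 633698498) (nat_lit 152) (nat_lit 18806078074) (nat_lit 76) (nat_lit 155514436285) (nat_lit 15) (nat_lit 5) (nat_lit 17) (nat_lit 5) (nat_lit 16) (nat_lit 4) (nat_lit 379) (nat_lit 345) (nat_lit 296)) (XT.lf (nat_lit 0) (nat_lit 77075181190) (nat_lit 152) (nat_lit 59350599791) (nat_lit 0) (nat_lit 58439107579) (nat_lit 14) (nat_lit 5) (nat_lit 16) (nat_lit 4) (nat_lit 14) (nat_lit 4) (nat_lit 380) (nat_lit 345) (nat_lit 295))) (XT.nd (nat_lit 78) (nat_lit 152) (nat_lit 0) (XT.lf (nat_lit 0) (nat_lit 100854052450) (nat_lit 76) (nat_lit 67633047562) (nat_lit 76) (nat_lit 48994728742) (nat_lit 13) (nat_lit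 4) (nat_lit 14) (nat_lit 5) (nat_lit 14) (nat_lit 4) (nat_lit 381) (nat_lit 345) (nat_lit 294)) (XT.lf (nat_lit 0) (nat_lit 31862991425) (nat_lit 152) (nat_lit 196706872176) (nat_lit 0) (nat_lit 14603481077) (nat_lit 11) (nat_lit 5) (nat_lit 13) (nat_lit 4) (nat_lit 11) (nat_lit 4) (nat_lit 382) (nat_lit 345) (nat_lit 293)))) (XT.nd (nat_lit 156) (nat_lit 228) (nat_lit 0) (XT.nd (nat_lit 78) (nat_lit 76) (nat_lit 0) (XT.lf (nat_lit 0) (nat_lit 127366831332) (nat_lit 152) (nat_lit 34710720844) (nat_lit 0) (nat_lit 110105749039) (nat_lit 11) (nat_lit 5) (nat_lit 13) (nat_lit 4) (nat_lit 11) (nat_lit 4) (nat_lit 383) (nat_lit 345) (nat_lit 292)) (XT.lf (nat_lit 0) (nat_lit 159532786559) (nat_lit 76) (nat_lit 81484370610) (nat_lit 76) (nat_lit 64221921408) (nat_lit 10) (nat_lit 4) (nat_lit 11) (nat_lit 5) (nat_lit 11) (nat_lit 4) (nat_lit 384) (nat_lit 345) (nat_lit 291))) (XT.nd (nat_lit 78)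 (nat_lit 76) (nat_lit 0) (XT.lf (nat_lit 0) (nat_lit 29441165943) (nat_lit 152) (nat_lit 300108729502) (nat_lit 0) (nat_lit 13456316112) (nat_lit 8) (nat_lit 5) (nat_lit 10) (nat_lit 4) (nat_lit 8) (nat_lit 4) (nat_lit 385) (nat_lit 345) (nat_lit 290)) (XT.nd (nat_lit 78) (nat_lit 76) (nat_lit 0) (XT.lf (nat_lit 0) (nat_lit 140051142015) (nat_lit 152) (nat_lit 121652482851) (nat_lit 0) (nat_lit 124065335166) (nat_lit 8) (nat_lit 5) (nat_lit 10) (nat_lit 4) (nat_lit 8) (nat_lit 4) (nat_lit 386) (nat_lit 345) (nat_lit 289)) (XT.lf (nat_lit 0) (nat_lit 87946668645) (nat_lit 76) (nat_lit 181408926407) (nat_lit 76) (nat_lit 165422287368) (nat_lit 7) (nat_lit 4) (nat_lit 8) (nat_lit 5) (nat_lit 8) (nat_lit 4) (nat_lit 387) (nat_lit 345) (nat_lit 288)))))) (XT.nd (nat_lit 312) (nat_lit 228) (nat_lit 0) (XT.nd (nat_lit 156) (nat_lit 0) (nat_lit 0) (XT.nd (nat_lit 78) (nat_lit 152) (nat_lit 0) (XT.lf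 (nat_lit 0) (nat_lit 336329731439) (nat_lit 76) (nat_lit 85256660217) (nat_lit 76) (nat_lit 69269297535) (nat_lit 7) (nat_lit 4) (nat_lit 8) (nat_lit 5) (nat_lit 8) (nat_lit 4) (nat_lit 388) (nat_lit 345) (nat_lit 287)) (XT.lf (nat_lit 0) (nat_lit 41569055914) (nat_lit 152) (nat_lit 486744978146) (nat_lit 0) (nat_lit 26765359676) (nat_lit 5) (nat_lit 5) (nat_lit 7) (nat_lit 4) (nat_lit 5) (nat_lit 4) (nat_lit 389) (nat_lit 345) (nat_lit 286))) (XT.nd (nat_lit 78) (nat_lit 0) (nat_lit 0) (XT.lf (nat_lit 0) (nat_lit 172012664856) (nat_lit 152) (nat_lit 299005109552) (nat_lit 0) (nat_lit 157208461972) (nat_lit 5) (nat_lit 5) (nat_lit 7) (nat_lit 4) (nat_lit 5) (nat_lit 4) (nat_lit 390) (nat_lit 345) (nat_lit 285)) (XT.lf (nat_lit 0) (nat_lit 322014731694) (nat_lit 152) (nat_lit 83120932202) (nat_lit 0) (nat_lit 307210088248) (nat_lit 5) (nat_lit 5) (nat_lit 7) (nat_lit 4) (nat_lit 5) (nat_lit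 4) (nat_lit 391) (nat_lit 345) (nat_lit 284)))) (XT.nd (nat_lit 156) (nat_lit 152) (nat_lit 0) (XT.nd (nat_lit 78) (nat_lit 0) (nat_lit 0) (XT.lf (nat_lit 0) (nat_lit 173826900323) (nat_lit 76) (nat_lit 324863720284) (nat_lit 76) (nat_lit 310058693741) (nat_lit 4) (nat_lit 4) (nat_lit 5) (nat_lit 5) (nat_lit 5) (nat_lit 4) (nat_lit 392) (nat_lit 345) (nat_lit 283)) (XT.lf (nat_lit 0) (nat_lit 474337188974) (nat_lit 76) (nat_lit 229944249002) (nat_lit 76) (nat_lit 215138889330) (nat_lit 4) (nat_lit 4) (nat_lit 5) (nat_lit 5) (nat_lit 5) (nat_lit 4) (nat_lit 393) (nat_lit 345) (nat_lit 282))) (XT.nd (nat_lit 78) (nat_lit 152) (nat_lit 0) (XT.lf (nat_lit 0) (nat_lit 819912481891) (nat_lit 76) (nat_lit 120792803549) (nat_lit 76) (nat_lit 105987154200) (nat_lit 4) (nat_lit 4) (nat_lit 5) (nat_lit 5) (nat_lit 5) (nat_lit 4) (nat_lit 394) (nat_lit 345) (nat_lit 281)) (XT.nd (nat_lit 78) (nat_lit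 0) (nat_lit 0) (XT.lf (nat_lit 0) (nat_lit 19298764919) (nat_lit 152) (nat_lit 1168070316092) (nat_lit 0) (nat_lit 5589597103) (nat_lit 2) (nat_lit 5) (nat_lit 4) (nat_lit 4) (nat_lit 2) (nat_lit 4) (nat_lit 395) (nat_lit 345) (nat_lit 280)) (XT.lf (nat_lit 0) (nat_lit 167390474138) (nat_lit 152) (nat_lit 1039049959725) (nat_lit 0) (nat_lit 153681103510) (nat_lit 2) (nat_lit 5) (nat_lit 4) (nat_lit 4) (nat_lit 2) (nat_lit 4) (nat_lit 396) (nat_lit 345) (nat_lit 279))))))) (XT.nd (nat_lit 702) (nat_lit 0) (nat_lit 0) (XT.nd (nat_lit 312) (nat_lit 76) (nat_lit 0) (XT.nd (nat_lit 156) (nat_lit 0) (nat_lit 0) (XT.nd (nat_lit 78) (nat_lit 0) (nat_lit 0) (XT.lf (nat_lit 0) (nat_lit 337691868300) (nat_lit 152) (nat_lit 890684961640) (nat_lit 0) (nat_lit 323982321313) (nat_lit 2) (nat_lit 5) (nat_lit 4) (nat_lit 4) (nat_lit 2) (nat_lit 4) (nat_lit 397) (nat_lit 345) (nat_lit 278)) (XT.lf (nat_lit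 0) (nat_lit 533534931204) (nat_lit 152) (nat_lit 720072528396) (nat_lit 0) (nat_lit 519825230863) (nat_lit 2) (nat_lit 5) (nat_lit 4) (nat_lit 4) (nat_lit 2) (nat_lit 4) (nat_lit 398) (nat_lit 345) (nat_lit 277))) (XT.nd (nat_lit 78) (nat_lit 0) (nat_lit 0) (XT.lf (nat_lit 0) (nat_lit 758751374951) (nat_lit 152) (nat_lit 523874590647) (nat_lit 0) (nat_lit 745041541257) (nat_lit 2) (nat_lit 5) (nat_lit 4) (nat_lit 4) (nat_lit 2) (nat_lit 4) (nat_lit 399) (nat_lit 345) (nat_lit 276)) (XT.lf (nat_lit 0) (nat_lit 1017747608223) (nat_lit 152) (nat_lit 298252493089) (nat_lit 0) (nat_lit 1004037658570) (nat_lit 2) (nat_lit 5) (nat_lit 4) (nat_lit 4) (nat_lit 2) (nat_lit 4) (nat_lit 400) (nat_lit 345) (nat_lit 275)))) (XT.nd (nat_lit 156) (nat_lit 0) (nat_lit 0) (XT.nd (nat_lit 78) (nat_lit 76) (nat_lit 0) (XT.lf (nat_lit 0) (nat_lit 1315590948626) (nat_lit 152) (nat_lit 38791890336) (nat_lit 0)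 (nat_lit 1301880898140) (nat_lit 2) (nat_lit 5) (nat_lit 4) (nat_lit 4) (nat_lit 2) (nat_lit 4) (nat_lit 401) (nat_lit 345) (nat_lit 274)) (XT.lf (nat_lit 0) (nat_lit 273252834156) (nat_lit 76) (nat_lit 1391427668942) (nat_lit 76) (nat_lit 1377717530775) (nat_lit 1) (nat_lit 4) (nat_lit 2) (nat_lit 5) (nat_lit 2) (nat_lit 4) (nat_lit 402) (nat_lit 345) (nat_lit 273))) (XT.nd (nat_lit 78) (nat_lit 0) (nat_lit 0) (XT.lf (nat_lit 0) (nat_lit 634449558227) (nat_lit 76) (nat_lit 1432811464400) (nat_lit 76) (nat_lit 1419101249988) (nat_lit 1) (nat_lit 4) (nat_lit 2) (nat_lit 5) (nat_lit 2) (nat_lit 4) (nat_lit 403) (nat_lit 345) (nat_lit 272)) (XT.nd (nat_lit 78) (nat_lit 0) (nat_lit 0) (XT.lf (nat_lit 0) (nat_lit 1049822462106) (nat_lit 76) (nat_lit 1480404547318) (nat_lit 76) (nat_lit 1466694266606) (nat_lit 1) (nat_lit 4) (nat_lit 2) (nat_lit 5) (nat_lit 2) (nat_lit 4) (nat_lit 404) (nat_lit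 345) (nat_lit 271)) (XT.lf (nat_lit 0) (nat_lit 1527498406955) (nat_lit 76) (nat_lit 1535138086709) (nat_lit 76) (nat_lit 1521427748346) (nat_lit 1) (nat_lit 4) (nat_lit 2) (nat_lit 5) (nat_lit 2) (nat_lit 4) (nat_lit 405) (nat_lit 345) (nat_lit 270)))))) (XT.nd (nat_lit 390) (nat_lit 0) (nat_lit 0) (XT.nd (nat_lit 156) (nat_lit 0) (nat_lit 0) (XT.nd (nat_lit 78) (nat_lit 0) (nat_lit 0) (XT.lf (nat_lit 0) (nat_lit 2076823226477) (nat_lit 76) (nat_lit 1598082956171) (nat_lit 76) (nat_lit 1584372567675) (nat_lit 1) (nat_lit 4) (nat_lit 2) (nat_lit 5) (nat_lit 2) (nat_lit 4) (nat_lit 406) (nat_lit 345) (nat_lit 269)) (XT.lf (nat_lit 0) (nat_lit 2708544580186) (nat_lit 76) (nat_lit 1670470685756) (nat_lit 76) (nat_lit 1656760253668) (nat_lit 1) (nat_lit 4) (nat_lit 2) (nat_lit 5) (nat_lit 2) (nat_lit 4) (nat_lit 407) (nat_lit 345) (nat_lit 268))) (XT.nd (nat_lit 78) (nat_lit 0) (nat_lit 0) (XT.lf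 (nat_lit 0) (nat_lit 3435022233696) (nat_lit 76) (nat_lit 1753717557133) (nat_lit 76) (nat_lit 1740007087137) (nat_lit 1) (nat_lit 4) (nat_lit 2) (nat_lit 5) (nat_lit 2) (nat_lit 4) (nat_lit 408) (nat_lit 345) (nat_lit 267)) (XT.nd (nat_lit 78) (nat_lit 0) (nat_lit 0) (XT.lf (nat_lit 0) (nat_lit 4270469880229) (nat_lit 76) (nat_lit 1849452313436) (nat_lit 76) (nat_lit 1835741810477) (nat_lit 1) (nat_lit 4) (nat_lit 2) (nat_lit 5) (nat_lit 2) (nat_lit 4) (nat_lit 409) (nat_lit 345) (nat_lit 266)) (XT.lf (nat_lit 0) (nat_lit 5231233234608) (nat_lit 76) (nat_lit 1959548025983) (nat_lit 76) (nat_lit 1945837494362) (nat_lit 1) (nat_lit 4) (nat_lit 2) (nat_lit 5) (nat_lit 2) (nat_lit 4) (nat_lit 410) (nat_lit 345) (nat_lit 265))))) (XT.nd (nat_lit 156) (nat_lit 0) (nat_lit 0) (XT.nd (nat_lit 78) (nat_lit 0) (nat_lit 0) (XT.lf (nat_lit 0) (nat_lit 6336109840723) (nat_lit 76) (nat_lit 2086158741326)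 (nat_lit 76) (nat_lit 2072448184780) (nat_lit 1) (nat_lit 4) (nat_lit 2) (nat_lit 5) (nat_lit 2) (nat_lit 4) (nat_lit 411) (nat_lit 345) (nat_lit 264)) (XT.lf (nat_lit 0) (nat_lit 7606716849565) (nat_lit 76) (nat_lit 2231761625634) (nat_lit 76) (nat_lit 2218051047414) (nat_lit 1) (nat_lit 4) (nat_lit 2) (nat_lit 5) (nat_lit 2) (nat_lit 4) (nat_lit 412) (nat_lit 345) (nat_lit 263))) (XT.nd (nat_lit 78) (nat_lit 0) (nat_lit 0) (XT.lf (nat_lit 0) (nat_lit 9067913963478) (nat_lit 76) (nat_lit 2399205430990) (nat_lit 76) (nat_lit 2385494833924) (nat_lit 1) (nat_lit 4) (nat_lit 2) (nat_lit 5) (nat_lit 2) (nat_lit 4) (nat_lit 413) (nat_lit 345) (nat_lit 262)) (XT.nd (nat_lit 78) (nat_lit 0) (nat_lit 0) (XT.lf (nat_lit 0) (nat_lit 10748289821649) (nat_lit 76) (nat_lit 2591766231849) (nat_lit 76) (nat_lit 2578055618394) (nat_lit 1) (nat_lit 4) (nat_lit 2) (nat_lit 5) (nat_lit 2) (nat_lit 4) (nat_lit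 414) (nat_lit 345) (nat_lit 261)) (XT.lf (nat_lit 0) (nat_lit 12680721343042) (nat_lit 76) (nat_lit 2813211522138) (nat_lit 76) (nat_lit 2799500894433) (nat_lit 1) (nat_lit 4) (nat_lit 2) (nat_lit 5) (nat_lit 2) (nat_lit 4) (nat_lit 415) (nat_lit 345) (nat_lit 260))))))))
noncomputable def xc58 : XT := (XT.nd (nat_lit 48594) (nat_lit 0) (nat_lit 1444) (XT.nd (nat_lit 47892) (nat_lit 0) (nat_lit 4028) (XT.nd (nat_lit 312) (nat_lit 0) (nat_lit 0) (XT.nd (nat_lit 156) (nat_lit 0) (nat_lit 0) (XT.nd (nat_lit 78) (nat_lit 0) (nat_lit 0) (XT.lf (nat_lit 0) (nat_lit 14903016970467) (nat_lit 76) (nat_lit 3067873927104) (nat_lit 76) (nat_lit 3054163287007) (nat_lit 1) (nat_lit 4) (nat_lit 2) (nat_lit 5) (nat_lit 2) (nat_lit 4) (nat_lit 416) (nat_lit 345) (nat_lit 259)) (XT.lf (nat_lit 0) (nat_lit 17458656400982) (nat_lit 76) (nat_lit 3360735972061) (nat_lit 76) (nat_lit 3347025321188) (nat_lit 1)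 (nat_lit 4) (nat_lit 2) (nat_lit 5) (nat_lit 2) (nat_lit 4) (nat_lit 417) (nat_lit 345) (nat_lit 258))) (XT.nd (nat_lit 78) (nat_lit 0) (nat_lit 0) (XT.lf (nat_lit 0) (nat_lit 20397641275618) (nat_lit 76) (nat_lit 3697527566584) (nat_lit 76) (nat_lit 3683816906341) (nat_lit 1) (nat_lit 4) (nat_lit 2) (nat_lit 5) (nat_lit 2) (nat_lit 4) (nat_lit 418) (nat_lit 345) (nat_lit 257)) (XT.lf (nat_lit 0) (nat_lit 23777473472359) (nat_lit 76) (nat_lit 4084838111435) (nat_lit 76) (nat_lit 4071127443045) (nat_lit 1) (nat_lit 4) (nat_lit 2) (nat_lit 5) (nat_lit 2) (nat_lit 4) (nat_lit 419) (nat_lit 345) (nat_lit 256)))) (XT.nd (nat_lit 47346) (nat_lit 0) (nat_lit 6080) (XT.nd (nat_lit 78) (nat_lit 0) (nat_lit 0) (XT.lf (nat_lit 0) (nat_lit 27664280142879) (nat_lit 76) (nat_lit 4530245421623) (nat_lit 76) (nat_lit 4516534746148) (nat_lit 1) (nat_lit 4) (nat_lit 2) (nat_lit 5) (nat_lit 2) (nat_lit 4) (nat_lit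 420) (nat_lit 345) (nat_lit 255)) (XT.lf (nat_lit 0) (nat_lit 32134107504644) (nat_lit 76) (nat_lit 5042463987999) (nat_lit 76) (nat_lit 5028753306362) (nat_lit 1) (nat_lit 4) (nat_lit 2) (nat_lit 5) (nat_lit 2) (nat_lit 4) (nat_lit 421) (nat_lit 345) (nat_lit 254))) (XT.nd (nat_lit 78) (nat_lit 0) (nat_lit 76) (XT.lf (nat_lit 0) (nat_lit 1487504370) (nat_lit 532) (nat_lit 1727561803) (nat_lit 532) (nat_lit 1727561803) (nat_lit 81) (nat_lit 3) (nat_lit 88) (nat_lit 3) (nat_lit 88) (nat_lit 5) (nat_lit 346) (nat_lit 346) (nat_lit 328)) (XT.nd (nat_lit 78) (nat_lit 0) (nat_lit 0) (XT.lf (nat_lit 0) (nat_lit 4636005778) (nat_lit 456) (nat_lit 4534634799) (nat_lit 532) (nat_lit 1340643149) (nat_lit 82) (nat_lit 5) (nat_lit 88) (nat_lit 5) (nat_lit 89) (nat_lit 5) (nat_lit 347) (nat_lit 346) (nat_lit 327)) (XT.lf (nat_lit 76) (nat_lit 5769265979) (nat_lit 0) (nat_lit 971792925) (nat_lit 532) (nat_lit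 4474624189) (nat_lit 83) (nat_lit 5) (nat_lit 82) (nat_lit 5) (nat_lit 89) (nat_lit 5) (nat_lit 348) (nat_lit 346) (nat_lit 326)))))) (XT.nd (nat_lit 312) (nat_lit 1064) (nat_lit 0) (XT.nd (nat_lit 156) (nat_lit 760) (nat_lit 0) (XT.nd (nat_lit 78) (nat_lit 380) (nat_lit 0) (XT.lf (nat_lit 76) (nat_lit 5808868660) (nat_lit 0) (nat_lit 3634245235) (nat_lit 532) (nat_lit 2560181093) (nat_lit 84) (nat_lit 5) (nat_lit 83) (nat_lit 5) (nat_lit 90) (nat_lit 5) (nat_lit 349) (nat_lit 346) (nat_lit 325)) (XT.lf (nat_lit 0) (nat_lit 6160942500) (nat_lit 456) (nat_lit 6700338861) (nat_lit 532) (nat_lit 22948301) (nat_lit 78) (nat_lit 5) (nat_lit 84) (nat_lit 5) (nat_lit 85) (nat_lit 5) (nat_lit 350) (nat_lit 346) (nat_lit 324))) (XT.nd (nat_lit 78) (nat_lit 228) (nat_lit 0) (XT.lf (nat_lit 0) (nat_lit 3134550495) (nat_lit 532) (nat_lit 7079745081) (nat_lit 76) (nat_lit 3646716193) (nat_lit 71) (nat_lit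 5) (nat_lit 78) (nat_lit 5) (nat_lit 72) (nat_lit 5) (nat_lit 351) (nat_lit 346) (nat_lit 323)) (XT.lf (nat_lit 0) (nat_lit 7211248646) (nat_lit 304) (nat_lit 7164054318) (nat_lit 76) (nat_lit 573237615) (nat_lit 68) (nat_lit 5) (nat_lit 72) (nat_lit 5) (nat_lit 69) (nat_lit 5) (nat_lit 352) (nat_lit 346) (nat_lit 322)))) (XT.nd (nat_lit 156) (nat_lit 608) (nat_lit 0) (XT.nd (nat_lit 78) (nat_lit 228) (nat_lit 0) (XT.lf (nat_lit 0) (nat_lit 9147866157) (nat_lit 228) (nat_lit 3339127005) (nat_lit 304) (nat_lit 3665229818) (nat_lit 65) (nat_lit 5) (nat_lit 68) (nat_lit 5) (nat_lit 69) (nat_lit 5) (nat_lit 353) (nat_lit 346) (nat_lit 321)) (XT.lf (nat_lit 0) (nat_lit 1571785375) (nat_lit 228) (nat_lit 6531098774) (nat_lit 76) (nat_lit 9383233845) (nat_lit 62) (nat_lit 5) (nat_lit 65) (nat_lit 5) (nat_lit 63) (nat_lit 5) (nat_lit 354) (nat_lit 346) (nat_lit 320))) (XT.nd (nat_lit 78) (nat_lit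 380) (nat_lit 0) (XT.lf (nat_lit 0) (nat_lit 8033111539) (nat_lit 304) (nat_lit 5739707694) (nat_lit 76) (nat_lit 5187218791) (nat_lit 59) (nat_lit 5) (nat_lit 63) (nat_lit 5) (nat_lit 60) (nat_lit 5) (nat_lit 355) (nat_lit 346) (nat_lit 319)) (XT.nd (nat_lit 78) (nat_lit 228) (nat_lit 0) (XT.lf (nat_lit 0) (nat_lit 16137112052) (nat_lit 152) (nat_lit 39093312) (nat_lit 228) (nat_lit 4421851999) (nat_lit 57) (nat_lit 5) (nat_lit 59) (nat_lit 5) (nat_lit 60) (nat_lit 5) (nat_lit 356) (nat_lit 346) (nat_lit 318)) (XT.lf (nat_lit 0) (nat_lit 3867071657) (nat_lit 228) (nat_lit 2856608287) (nat_lit 76) (nat_lit 15675338838) (nat_lit 54) (nat_lit 5) (nat_lit 57) (nat_lit 5) (nat_lit 55) (nat_lit 5) (nat_lit 357) (nat_lit 346) (nat_lit 317))))))) (XT.nd (nat_lit 702) (nat_lit 1216) (nat_lit 0) (XT.nd (nat_lit 312) (nat_lit 684) (nat_lit 0) (XT.nd (nat_lit 156) (nat_lit 228) (nat_lit 0) (XT.nd (nat_lit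 78) (nat_lit 304) (nat_lit 0) (XT.lf (nat_lit 0) (nat_lit 14018225999) (nat_lit 228) (nat_lit 747491753) (nat_lit 76) (nat_lit 9624772951) (nat_lit 52) (nat_lit 5) (nat_lit 55) (nat_lit 5) (nat_lit 53) (nat_lit 5) (nat_lit 358) (nat_lit 346) (nat_lit 316)) (XT.lf (nat_lit 0) (nat_lit 81750886) (nat_lit 152) (nat_lit 24402449339) (nat_lit 76) (nat_lit 2116720743) (nat_lit 48) (nat_lit 5) (nat_lit 50) (nat_lit 5) (nat_lit 49) (nat_lit 5) (nat_lit 359) (nat_lit 346) (nat_lit 315))) (XT.nd (nat_lit 78) (nat_lit 76) (nat_lit 0) (XT.lf (nat_lit 0) (nat_lit 5569249435) (nat_lit 152) (nat_lit 7183894622) (nat_lit 228) (nat_lit 16267152871) (nat_lit 46) (nat_lit 5) (nat_lit 48) (nat_lit 5) (nat_lit 49) (nat_lit 5) (nat_lit 360) (nat_lit 346) (nat_lit 314)) (XT.lf (nat_lit 0) (nat_lit 9823298264) (nat_lit 76) (nat_lit 18707109725) (nat_lit 152) (nat_lit 3175765510) (nat_lit 45) (nat_lit 5) (nat_lit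 46) (nat_lit 5) (nat_lit 47) (nat_lit 4) (nat_lit 361) (nat_lit 346) (nat_lit 313)))) (XT.nd (nat_lit 156) (nat_lit 380) (nat_lit 0) (XT.nd (nat_lit 78) (nat_lit 76) (nat_lit 0) (XT.lf (nat_lit 0) (nat_lit 12539872551) (nat_lit 228) (nat_lit 19828857742) (nat_lit 76) (nat_lit 2302967594) (nat_lit 42) (nat_lit 5) (nat_lit 45) (nat_lit 5) (nat_lit 43) (nat_lit 4) (nat_lit 362) (nat_lit 346) (nat_lit 312)) (XT.lf (nat_lit 0) (nat_lit 20683623144) (nat_lit 76) (nat_lit 11358481759) (nat_lit 152) (nat_lit 5903968904) (nat_lit 41) (nat_lit 5) (nat_lit 42) (nat_lit 5) (nat_lit 43) (nat_lit 4) (nat_lit 363) (nat_lit 346) (nat_lit 311))) (XT.nd (nat_lit 78) (nat_lit 228) (nat_lit 0) (XT.lf (nat_lit 0) (nat_lit 13675177296) (nat_lit 152) (nat_lit 14156847582) (nat_lit 76) (nat_lit 13730613015) (nat_lit 39) (nat_lit 5) (nat_lit 41) (nat_lit 5) (nat_lit 40) (nat_lit 4) (nat_lit 364) (nat_lit 346) (nat_lit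 310)) (XT.nd (nat_lit 78) (nat_lit 152) (nat_lit 0) (XT.lf (nat_lit 0) (nat_lit 35324873474) (nat_lit 76) (nat_lit 2157150783) (nat_lit 152) (nat_lit 8096165085) (nat_lit 38) (nat_lit 5) (nat_lit 39) (nat_lit 5) (nat_lit 40) (nat_lit 4) (nat_lit 365) (nat_lit 346) (nat_lit 309)) (XT.lf (nat_lit 0) (nat_lit 16088188372) (nat_lit 152) (nat_lit 6045358968) (nat_lit 76) (nat_lit 27861683168) (nat_lit 36) (nat_lit 5) (nat_lit 38) (nat_lit 5) (nat_lit 37) (nat_lit 4) (nat_lit 366) (nat_lit 346) (nat_lit 308)))))) (XT.nd (nat_lit 390) (nat_lit 608) (nat_lit 0) (XT.nd (nat_lit 156) (nat_lit 304) (nat_lit 0) (XT.nd (nat_lit 78) (nat_lit 228) (nat_lit 0) (XT.lf (nat_lit 0) (nat_lit 45280927217) (nat_lit 152) (nat_lit 953232376) (nat_lit 0) (nat_lit 8675038257) (nat_lit 35) (nat_lit 5) (nat_lit 37) (nat_lit 4) (nat_lit 35) (nat_lit 4) (nat_lit 367) (nat_lit 346) (nat_lit 307)) (XT.lf (nat_lit 0) (nat_lit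 4715824552) (nat_lit 76) (nat_lit 15160281556) (nat_lit 152) (nat_lit 40449054091) (nat_lit 32) (nat_lit 5) (nat_lit 33) (nat_lit 5) (nat_lit 34) (nat_lit 4) (nat_lit 368) (nat_lit 346) (nat_lit 306))) (XT.nd (nat_lit 78) (nat_lit 228) (nat_lit 0) (XT.lf (nat_lit 0) (nat_lit 11078048018) (nat_lit 76) (nat_lit 44595232075) (nat_lit 76) (nat_lit 10665252388) (nat_lit 31) (nat_lit 4) (nat_lit 32) (nat_lit 5) (nat_lit 32) (nat_lit 4) (nat_lit 369) (nat_lit 346) (nat_lit 305)) (XT.nd (nat_lit 78) (nat_lit 76) (nat_lit 0) (XT.lf (nat_lit 0) (nat_lit 17801142979) (nat_lit 76) (nat_lit 7076518770) (nat_lit 152) (nat_lit 48133157270) (nat_lit 29) (nat_lit 5) (nat_lit 30) (nat_lit 5) (nat_lit 31) (nat_lit 4) (nat_lit 370) (nat_lit 346) (nat_lit 304)) (XT.lf (nat_lit 0) (nat_lit 24569790483) (nat_lit 76) (nat_lit 43643103163) (nat_lit 76) (nat_lit 12201503925) (nat_lit 28) (nat_lit 4) (nat_lit 29) (nat_lit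 5) (nat_lit 29) (nat_lit 4) (nat_lit 371) (nat_lit 346) (nat_lit 303))))) (XT.nd (nat_lit 156) (nat_lit 380) (nat_lit 0) (XT.nd (nat_lit 78) (nat_lit 76) (nat_lit 0) (XT.lf (nat_lit 0) (nat_lit 30260341887) (nat_lit 152) (nat_lit 57265968113) (nat_lit 0) (nat_lit 1138405964) (nat_lit 26) (nat_lit 5) (nat_lit 28) (nat_lit 4) (nat_lit 26) (nat_lit 4) (nat_lit 372) (nat_lit 346) (nat_lit 302)) (XT.lf (nat_lit 0) (nat_lit 37306970324) (nat_lit 76) (nat_lit 44824654980) (nat_lit 76) (nat_lit 15694593808) (nat_lit 25) (nat_lit 4) (nat_lit 26) (nat_lit 5) (nat_lit 26) (nat_lit 4) (nat_lit 373) (nat_lit 346) (nat_lit 301))) (XT.nd (nat_lit 78) (nat_lit 228) (nat_lit 0) (XT.lf (nat_lit 0) (nat_lit 34648912830) (nat_lit 152) (nat_lit 65746708693) (nat_lit 0) (nat_lit 7670091899) (nat_lit 23) (nat_lit 5) (nat_lit 25) (nat_lit 4) (nat_lit 23) (nat_lit 4) (nat_lit 374) (nat_lit 346) (nat_lit 300)) (XT.nd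 (nat_lit 78) (nat_lit 152) (nat_lit 0) (XT.lf (nat_lit 0) (nat_lit 45027122508) (nat_lit 76) (nat_lit 50717745064) (nat_lit 76) (nat_lit 23733235377) (nat_lit 22) (nat_lit 4) (nat_lit 23) (nat_lit 5) (nat_lit 23) (nat_lit 4) (nat_lit 375) (nat_lit 346) (nat_lit 299)) (XT.lf (nat_lit 0) (nat_lit 35014421679) (nat_lit 152) (nat_lit 87236877992) (nat_lit 0) (nat_lit 10024184244) (nat_lit 20) (nat_lit 5) (nat_lit 22) (nat_lit 4) (nat_lit 20) (nat_lit 4) (nat_lit 376) (nat_lit 346) (nat_lit 298))))))))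
noncomputable def xc59 : XT := (XT.nd (nat_lit 1404) (nat_lit 228) (nat_lit 0) (XT.nd (nat_lit 702) (nat_lit 456) (nat_lit 0) (XT.nd (nat_lit 312) (nat_lit 380) (nat_lit 0) (XT.nd (nat_lit 156) (nat_lit 152) (nat_lit 0) (XT.nd (nat_lit 78) (nat_lit 152) (nat_lit 0) (XT.lf (nat_lit 0) (nat_lit 39978310043) (nat_lit 76) (nat_lit 65795345429) (nat_lit 76) (nat_lit 40801125109) (nat_lit 19) (nat_lit 4) (nat_lit 20) (nat_lit 5) (nat_lit 20) (nat_lit 4) (nat_lit 377) (nat_lit 346) (nat_lit 297)) (XT.lf (nat_lit 0) (nat_lit 26294629175) (nat_lit 152) (nat_lit 133259391457) (nat_lit 0) (nat_lit 3148625750) (nat_lit 17) (nat_lit 5) (nat_lit 19) (nat_lit 4) (nat_lit 17) (nat_lit 4) (nat_lit 378) (nat_lit 346) (nat_lit 296))) (XT.nd (nat_lit 78) (nat_lit 76) (nat_lit 0) (XT.lf (nat_lit 0) (nat_lit 8707746801) (nat_lit 76) (nat_lit 97592521821) (nat_lit 76) (nat_lit 74443729847) (nat_lit 16) (nat_lit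 4) (nat_lit 17) (nat_lit 5) (nat_lit 17) (nat_lit 4) (nat_lit 379) (nat_lit 346) (nat_lit 295)) (XT.lf (nat_lit 0) (nat_lit 935766646) (nat_lit 152) (nat_lit 21204822175) (nat_lit 76) (nat_lit 179040192385) (nat_lit 15) (nat_lit 5) (nat_lit 17) (nat_lit 5) (nat_lit 16) (nat_lit 4) (nat_lit 380) (nat_lit 346) (nat_lit 294)))) (XT.nd (nat_lit 156) (nat_lit 228) (nat_lit 0) (XT.nd (nat_lit 78) (nat_lit 76) (nat_lit 0) (XT.lf (nat_lit 0) (nat_lit 88830504657) (nat_lit 152) (nat_lit 67856350853) (nat_lit 0) (nat_lit 67392240449) (nat_lit 14) (nat_lit 5) (nat_lit 16) (nat_lit 4) (nat_lit 14) (nat_lit 4) (nat_lit 381) (nat_lit 346) (nat_lit 293)) (XT.lf (nat_lit 0) (nat_lit 116345408787) (nat_lit 76) (nat_lit 77592228264) (nat_lit 76) (nat_lit 56152266355) (nat_lit 13) (nat_lit 4) (nat_lit 14) (nat_lit 5) (nat_lit 14) (nat_lit 4) (nat_lit 382) (nat_lit 346) (nat_lit 292))) (XT.nd (nat_lit 78) (nat_lit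 76) (nat_lit 0) (XT.lf (nat_lit 0) (nat_lit 36813183860) (nat_lit 152) (nat_lit 225862501126) (nat_lit 0) (nat_lit 16960000369) (nat_lit 11) (nat_lit 5) (nat_lit 13) (nat_lit 4) (nat_lit 11) (nat_lit 4) (nat_lit 383) (nat_lit 346) (nat_lit 291)) (XT.nd (nat_lit 78) (nat_lit 76) (nat_lit 0) (XT.lf (nat_lit 0) (nat_lit 146620328832) (nat_lit 152) (nat_lit 39612631687) (nat_lit 0) (nat_lit 126765956725) (nat_lit 11) (nat_lit 5) (nat_lit 13) (nat_lit 4) (nat_lit 11) (nat_lit 4) (nat_lit 384) (nat_lit 346) (nat_lit 290)) (XT.lf (nat_lit 0) (nat_lit 183741610720) (nat_lit 76) (nat_lit 93563934508) (nat_lit 76) (nat_lit 73708528822) (nat_lit 10) (nat_lit 4) (nat_lit 11) (nat_lit 5) (nat_lit 11) (nat_lit 4) (nat_lit 385) (nat_lit 346) (nat_lit 289)))))) (XT.nd (nat_lit 312) (nat_lit 228) (nat_lit 0) (XT.nd (nat_lit 156) (nat_lit 76) (nat_lit 0) (XT.nd (nat_lit 78) (nat_lit 0) (nat_lit 0) (XT.lf (nat_lit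 0) (nat_lit 33988046180) (nat_lit 152) (nat_lit 344856060657) (nat_lit 0) (nat_lit 15602579096) (nat_lit 8) (nat_lit 5) (nat_lit 10) (nat_lit 4) (nat_lit 8) (nat_lit 4) (nat_lit 386) (nat_lit 346) (nat_lit 288)) (XT.lf (nat_lit 0) (nat_lit 161172470139) (nat_lit 152) (nat_lit 139666461131) (nat_lit 0) (nat_lit 142786279412) (nat_lit 8) (nat_lit 5) (nat_lit 10) (nat_lit 4) (nat_lit 8) (nat_lit 4) (nat_lit 387) (nat_lit 346) (nat_lit 287))) (XT.nd (nat_lit 78) (nat_lit 0) (nat_lit 0) (XT.lf (nat_lit 0) (nat_lit 101352765115) (nat_lit 76) (nat_lit 208510150232) (nat_lit 76) (nat_lit 190123330250) (nat_lit 7) (nat_lit 4) (nat_lit 8) (nat_lit 5) (nat_lit 8) (nat_lit 4) (nat_lit 388) (nat_lit 346) (nat_lit 286)) (XT.lf (nat_lit 0) (nat_lit 386965361741) (nat_lit 76) (nat_lit 97949406958) (nat_lit 76) (nat_lit 79562039798) (nat_lit 7) (nat_lit 4) (nat_lit 8) (nat_lit 5) (nat_lit 8) (nat_lit 4) (nat_lit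 389) (nat_lit 346) (nat_lit 285)))) (XT.nd (nat_lit 156) (nat_lit 76) (nat_lit 0) (XT.nd (nat_lit 78) (nat_lit 0) (nat_lit 0) (XT.lf (nat_lit 0) (nat_lit 47891452339) (nat_lit 152) (nat_lit 559577215109) (nat_lit 0) (nat_lit 30865671814) (nat_lit 5) (nat_lit 5) (nat_lit 7) (nat_lit 4) (nat_lit 5) (nat_lit 4) (nat_lit 390) (nat_lit 346) (nat_lit 284)) (XT.lf (nat_lit 0) (nat_lit 197890249835) (nat_lit 152) (nat_lit 343699780542) (nat_lit 0) (nat_lit 180864086213) (nat_lit 5) (nat_lit 5) (nat_lit 7) (nat_lit 4) (nat_lit 5) (nat_lit 4) (nat_lit 391) (nat_lit 346) (nat_lit 283))) (XT.nd (nat_lit 78) (nat_lit 76) (nat_lit 0) (XT.lf (nat_lit 0) (nat_lit 370382754710) (nat_lit 152) (nat_lit 95453336864) (nat_lit 0) (nat_lit 353356257959) (nat_lit 5) (nat_lit 5) (nat_lit 7) (nat_lit 4) (nat_lit 5) (nat_lit 4) (nat_lit 392) (nat_lit 346) (nat_lit 282)) (XT.nd (nat_lit 78) (nat_lit 0) (nat_lit 0) (XT.lf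 (nat_lit 0) (nat_lit 200025181233) (nat_lit 76) (nat_lit 373529249503) (nat_lit 76) (nat_lit 356502463076) (nat_lit 4) (nat_lit 4) (nat_lit 5) (nat_lit 5) (nat_lit 5) (nat_lit 4) (nat_lit 393) (nat_lit 346) (nat_lit 281)) (XT.lf (nat_lit 0) (nat_lit 545595807201) (nat_lit 76) (nat_lit 264380209114) (nat_lit 76) (nat_lit 247353170794) (nat_lit 4) (nat_lit 4) (nat_lit 5) (nat_lit 5) (nat_lit 5) (nat_lit 4) (nat_lit 394) (nat_lit 346) (nat_lit 280))))))) (XT.nd (nat_lit 702) (nat_lit 0) (nat_lit 0) (XT.nd (nat_lit 312) (nat_lit 76) (nat_lit 0) (XT.nd (nat_lit 156) (nat_lit 0) (nat_lit 0) (XT.nd (nat_lit 78) (nat_lit 152) (nat_lit 0) (XT.lf (nat_lit 0) (nat_lit 942993301897) (nat_lit 76) (nat_lit 138863309092) (nat_lit 76) (nat_lit 121836051734) (nat_lit 4) (nat_lit 4) (nat_lit 5) (nat_lit 5) (nat_lit 5) (nat_lit 4) (nat_lit 395) (nat_lit 346) (nat_lit 279)) (XT.lf (nat_lit 0) (nat_lit 22237418644)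 (nat_lit 152) (nat_lit 1343190290619) (nat_lit 0) (nat_lit 6471263251) (nat_lit 2) (nat_lit 5) (nat_lit 4) (nat_lit 4) (nat_lit 2) (nat_lit 4) (nat_lit 396) (nat_lit 346) (nat_lit 278))) (XT.nd (nat_lit 78) (nat_lit 0) (nat_lit 0) (XT.lf (nat_lit 0) (nat_lit 192537166117) (nat_lit 152) (nat_lit 1194828694652) (nat_lit 0) (nat_lit 176770857369) (nat_lit 2) (nat_lit 5) (nat_lit 4) (nat_lit 4) (nat_lit 2) (nat_lit 4) (nat_lit 397) (nat_lit 346) (nat_lit 277)) (XT.lf (nat_lit 0) (nat_lit 388378797118) (nat_lit 152) (nat_lit 1024219219772) (nat_lit 0) (nat_lit 372612355017) (nat_lit 2) (nat_lit 5) (nat_lit 4) (nat_lit 4) (nat_lit 2) (nat_lit 4) (nat_lit 398) (nat_lit 346) (nat_lit 276)))) (XT.nd (nat_lit 156) (nat_lit 76) (nat_lit 0) (XT.nd (nat_lit 78) (nat_lit 0) (nat_lit 0) (XT.lf (nat_lit 0) (nat_lit 613593995731) (nat_lit 152) (nat_lit 828023854513) (nat_lit 0) (nat_lit 597827437672) (nat_lit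 2) (nat_lit 5) (nat_lit 4) (nat_lit 4) (nat_lit 2) (nat_lit 4) (nat_lit 399) (nat_lit 346) (nat_lit 275)) (XT.lf (nat_lit 0) (nat_lit 872589146278) (nat_lit 152) (nat_lit 602403993903) (nat_lit 0) (nat_lit 856822487385) (nat_lit 2) (nat_lit 5) (nat_lit 4) (nat_lit 4) (nat_lit 2) (nat_lit 4) (nat_lit 400) (nat_lit 346) (nat_lit 274))) (XT.nd (nat_lit 78) (nat_lit 76) (nat_lit 0) (XT.lf (nat_lit 0) (nat_lit 1170431545181) (nat_lit 152) (nat_lit 342945336321) (nat_lit 0) (nat_lit 1154664798607) (nat_lit 2) (nat_lit 5) (nat_lit 4) (nat_lit 4) (nat_lit 2) (nat_lit 4) (nat_lit 401) (nat_lit 346) (nat_lit 273)) (XT.nd (nat_lit 78) (nat_lit 76) (nat_lit 0) (XT.lf (nat_lit 0) (nat_lit 1512948543724) (nat_lit 152) (nat_lit 44571516728) (nat_lit 0) (nat_lit 1497181720906) (nat_lit 2) (nat_lit 5) (nat_lit 4) (nat_lit 4) (nat_lit 2) (nat_lit 4) (nat_lit 402) (nat_lit 346) (nat_lit 272)) (XT.lf (nat_lit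 0) (nat_lit 314276601979) (nat_lit 76) (nat_lit 1600123319301) (nat_lit 76) (nat_lit 1584356430183) (nat_lit 1) (nat_lit 4) (nat_lit 2) (nat_lit 5) (nat_lit 2) (nat_lit 4) (nat_lit 403) (nat_lit 346) (nat_lit 271)))))) (XT.nd (nat_lit 390) (nat_lit 0) (nat_lit 0) (XT.nd (nat_lit 156) (nat_lit 0) (nat_lit 0) (XT.nd (nat_lit 78) (nat_lit 0) (nat_lit 0) (XT.lf (nat_lit 0) (nat_lit 729648159527) (nat_lit 76) (nat_lit 1647717097119) (nat_lit 76) (nat_lit 1631950150349) (nat_lit 1) (nat_lit 4) (nat_lit 2) (nat_lit 5) (nat_lit 2) (nat_lit 4) (nat_lit 404) (nat_lit 346) (nat_lit 270)) (XT.lf (nat_lit 0) (nat_lit 1207322933653) (nat_lit 76) (nat_lit 1702451240771) (nat_lit 76) (nat_lit 1686684243869) (nat_lit 1) (nat_lit 4) (nat_lit 2) (nat_lit 5) (nat_lit 2) (nat_lit 4) (nat_lit 405) (nat_lit 346) (nat_lit 269))) (XT.nd (nat_lit 78) (nat_lit 0) (nat_lit 0) (XT.lf (nat_lit 0) (nat_lit 1756646735155)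 (nat_lit 76) (nat_lit 1765396635677) (nat_lit 76) (nat_lit 1749629595181) (nat_lit 1) (nat_lit 4) (nat_lit 2) (nat_lit 5) (nat_lit 2) (nat_lit 4) (nat_lit 406) (nat_lit 346) (nat_lit 268)) (XT.nd (nat_lit 78) (nat_lit 0) (nat_lit 0) (XT.lf (nat_lit 0) (nat_lit 2388367203629) (nat_lit 76) (nat_lit 1837784822171) (nat_lit 76) (nat_lit 1822017743769) (nat_lit 1) (nat_lit 4) (nat_lit 2) (nat_lit 5) (nat_lit 2) (nat_lit 4) (nat_lit 407) (nat_lit 346) (nat_lit 267)) (XT.lf (nat_lit 0) (nat_lit 3114844087370) (nat_lit 76) (nat_lit 1921032090859) (nat_lit 76) (nat_lit 1905264979494) (nat_lit 1) (nat_lit 4) (nat_lit 2) (nat_lit 5) (nat_lit 2) (nat_lit 4) (nat_lit 408) (nat_lit 346) (nat_lit 266))))) (XT.nd (nat_lit 156) (nat_lit 0) (nat_lit 0) (XT.nd (nat_lit 78) (nat_lit 0) (nat_lit 0) (XT.lf (nat_lit 0) (nat_lit 3950291064538) (nat_lit 76) (nat_lit 2016767192650) (nat_lit 76) (nat_lit 2001000052622)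 (nat_lit 1) (nat_lit 4) (nat_lit 2) (nat_lit 5) (nat_lit 2) (nat_lit 4) (nat_lit 409) (nat_lit 346) (nat_lit 265)) (XT.lf (nat_lit 0) (nat_lit 4911053836862) (nat_lit 76) (nat_lit 2126863205622) (nat_lit 76) (nat_lit 2111096040669) (nat_lit 1) (nat_lit 4) (nat_lit 2) (nat_lit 5) (nat_lit 2) (nat_lit 4) (nat_lit 410) (nat_lit 346) (nat_lit 264))) (XT.nd (nat_lit 78) (nat_lit 0) (nat_lit 0) (XT.lf (nat_lit 0) (nat_lit 6015929936841) (nat_lit 76) (nat_lit 2253474182204) (nat_lit 76) (nat_lit 2237706995578) (nat_lit 1) (nat_lit 4) (nat_lit 2) (nat_lit 5) (nat_lit 2) (nat_lit 4) (nat_lit 411) (nat_lit 346) (nat_lit 263)) (XT.nd (nat_lit 78) (nat_lit 0) (nat_lit 0) (XT.lf (nat_lit 0) (nat_lit 7286536505564) (nat_lit 76) (nat_lit 2399077293675) (nat_lit 76) (nat_lit 2383310088203) (nat_lit 1) (nat_lit 4) (nat_lit 2) (nat_lit 5) (nat_lit 2) (nat_lit 4) (nat_lit 412) (nat_lit 346) (nat_lit 262)) (XT.lf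 (nat_lit 0) (nat_lit 8747733236767) (nat_lit 76) (nat_lit 2566521296566) (nat_lit 76) (nat_lit 2550754074705) (nat_lit 1) (nat_lit 4) (nat_lit 2) (nat_lit 5) (nat_lit 2) (nat_lit 4) (nat_lit 413) (nat_lit 346) (nat_lit 261))))))))
noncomputable def xc60 : XT := (XT.nd (nat_lit 48672) (nat_lit 0) (nat_lit 1672) (XT.nd (nat_lit 47970) (nat_lit 0) (nat_lit 4408) (XT.nd (nat_lit 312) (nat_lit 0) (nat_lit 0) (XT.nd (nat_lit 156) (nat_lit 0) (nat_lit 0) (XT.nd (nat_lit 78) (nat_lit 0) (nat_lit 0) (XT.lf (nat_lit 0) (nat_lit 10428108762145) (nat_lit 76) (nat_lit 2759082269193) (nat_lit 76) (nat_lit 2743315033081) (nat_lit 1) (nat_lit 4) (nat_lit 2) (nat_lit 5) (nat_lit 2) (nat_lit 4) (nat_lit 414) (nat_lit 346) (nat_lit 260)) (XT.lf (nat_lit 0) (nat_lit 12360539994153) (nat_lit 76) (nat_lit 2980527708847) (nat_lit 76) (nat_lit 2964760460343) (nat_lit 1) (nat_lit 4) (nat_lit 2) (nat_lit 5) (nat_lit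 2) (nat_lit 4) (nat_lit 415) (nat_lit 346) (nat_lit 259))) (XT.nd (nat_lit 78) (nat_lit 0) (nat_lit 0) (XT.lf (nat_lit 0) (nat_lit 14582835369939) (nat_lit 76) (nat_lit 3235190243695) (nat_lit 76) (nat_lit 3219422984416) (nat_lit 1) (nat_lit 4) (nat_lit 2) (nat_lit 5) (nat_lit 2) (nat_lit 4) (nat_lit 416) (nat_lit 346) (nat_lit 258)) (XT.lf (nat_lit 0) (nat_lit 17138474581638) (nat_lit 76) (nat_lit 3528052401592) (nat_lit 76) (nat_lit 3512285132943) (nat_lit 1) (nat_lit 4) (nat_lit 2) (nat_lit 5) (nat_lit 2) (nat_lit 4) (nat_lit 417) (nat_lit 346) (nat_lit 257)))) (XT.nd (nat_lit 156) (nat_lit 0) (nat_lit 0) (XT.nd (nat_lit 78) (nat_lit 0) (nat_lit 0) (XT.lf (nat_lit 0) (nat_lit 20077459265999) (nat_lit 76) (nat_lit 3864844094324) (nat_lit 76) (nat_lit 3849076817527) (nat_lit 1) (nat_lit 4) (nat_lit 2) (nat_lit 5) (nat_lit 2) (nat_lit 4) (nat_lit 418) (nat_lit 346) (nat_lit 256)) (XT.lf (nat_lit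 0) (nat_lit 23457291297283) (nat_lit 76) (nat_lit 4252154724575) (nat_lit 76) (nat_lit 4236387440693) (nat_lit 1) (nat_lit 4) (nat_lit 2) (nat_lit 5) (nat_lit 2) (nat_lit 4) (nat_lit 419) (nat_lit 346) (nat_lit 255))) (XT.nd (nat_lit 78) (nat_lit 0) (nat_lit 0) (XT.lf (nat_lit 0) (nat_lit 27344097823927) (nat_lit 76) (nat_lit 4697562109023) (nat_lit 76) (nat_lit 4681794818980) (nat_lit 1) (nat_lit 4) (nat_lit 2) (nat_lit 5) (nat_lit 2) (nat_lit 4) (nat_lit 420) (nat_lit 346) (nat_lit 254)) (XT.nd (nat_lit 47346) (nat_lit 0) (nat_lit 6080) (XT.lf (nat_lit 0) (nat_lit 31813925060584) (nat_lit 76) (nat_lit 5209780739974) (nat_lit 76) (nat_lit 5194013444573) (nat_lit 1) (nat_lit 4) (nat_lit 2) (nat_lit 5) (nat_lit 2) (nat_lit 4) (nat_lit 421) (nat_lit 346) (nat_lit 253)) (XT.lf (nat_lit 0) (nat_lit 2917795577) (nat_lit 532) (nat_lit 1334665290) (nat_lit 532) (nat_lit 1334665290) (nat_lit 81)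 (nat_lit 3) (nat_lit 88) (nat_lit 3) (nat_lit 88) (nat_lit 5) (nat_lit 347) (nat_lit 347) (nat_lit 326)))))) (XT.nd (nat_lit 312) (nat_lit 1368) (nat_lit 0) (XT.nd (nat_lit 156) (nat_lit 380) (nat_lit 0) (XT.nd (nat_lit 78) (nat_lit 0) (nat_lit 0) (XT.lf (nat_lit 0) (nat_lit 7437059533) (nat_lit 456) (nat_lit 3827865840) (nat_lit 532) (nat_lit 654037337) (nat_lit 82) (nat_lit 5) (nat_lit 88) (nat_lit 5) (nat_lit 89) (nat_lit 5) (nat_lit 348) (nat_lit 347) (nat_lit 325)) (XT.lf (nat_lit 76) (nat_lit 7904220445) (nat_lit 0) (nat_lit 1709532866) (nat_lit 532) (nat_lit 3134871277) (nat_lit 83) (nat_lit 5) (nat_lit 82) (nat_lit 5) (nat_lit 89) (nat_lit 5) (nat_lit 349) (nat_lit 347) (nat_lit 324))) (XT.nd (nat_lit 78) (nat_lit 456) (nat_lit 0) (XT.lf (nat_lit 76) (nat_lit 7992097119) (nat_lit 0) (nat_lit 4505381698) (nat_lit 532) (nat_lit 1174854137) (nat_lit 84) (nat_lit 5) (nat_lit 83) (nat_lit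 5) (nat_lit 90) (nat_lit 5) (nat_lit 350) (nat_lit 347) (nat_lit 323)) (XT.lf (nat_lit 0) (nat_lit 1462315082) (nat_lit 532) (nat_lit 6324122373) (nat_lit 76) (nat_lit 6911144842) (nat_lit 77) (nat_lit 5) (nat_lit 84) (nat_lit 5) (nat_lit 78) (nat_lit 5) (nat_lit 351) (nat_lit 347) (nat_lit 322)))) (XT.nd (nat_lit 156) (nat_lit 684) (nat_lit 0) (XT.nd (nat_lit 78) (nat_lit 228) (nat_lit 0) (XT.lf (nat_lit 0) (nat_lit 4928210294) (nat_lit 532) (nat_lit 6746659650) (nat_lit 76) (nat_lit 4159118237) (nat_lit 71) (nat_lit 5) (nat_lit 78) (nat_lit 5) (nat_lit 72) (nat_lit 5) (nat_lit 352) (nat_lit 347) (nat_lit 321)) (XT.lf (nat_lit 0) (nat_lit 9476791140) (nat_lit 304) (nat_lit 6869210231) (nat_lit 76) (nat_lit 749853467) (nat_lit 68) (nat_lit 5) (nat_lit 72) (nat_lit 5) (nat_lit 69) (nat_lit 5) (nat_lit 353) (nat_lit 347) (nat_lit 320))) (XT.nd (nat_lit 78) (nat_lit 456) (nat_lit 0) (XT.lf (nat_lit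 0) (nat_lit 11773581005) (nat_lit 228) (nat_lit 3646047978) (nat_lit 304) (nat_lit 3070435789) (nat_lit 65) (nat_lit 5) (nat_lit 68) (nat_lit 5) (nat_lit 69) (nat_lit 5) (nat_lit 354) (nat_lit 347) (nat_lit 319)) (XT.nd (nat_lit 78) (nat_lit 228) (nat_lit 0) (XT.lf (nat_lit 0) (nat_lit 2787338772) (nat_lit 228) (nat_lit 6238031554) (nat_lit 76) (nat_lit 11005101595) (nat_lit 62) (nat_lit 5) (nat_lit 65) (nat_lit 5) (nat_lit 63) (nat_lit 5) (nat_lit 355) (nat_lit 347) (nat_lit 318)) (XT.lf (nat_lit 0) (nat_lit 10124938213) (nat_lit 304) (nat_lit 5371958609) (nat_lit 76) (nat_lit 6236040786) (nat_lit 59) (nat_lit 5) (nat_lit 63) (nat_lit 5) (nat_lit 60) (nat_lit 5) (nat_lit 356) (nat_lit 347) (nat_lit 317))))))) (XT.nd (nat_lit 702) (nat_lit 1216) (nat_lit 0) (XT.nd (nat_lit 312) (nat_lit 684) (nat_lit 0) (XT.nd (nat_lit 156) (nat_lit 456) (nat_lit 0) (XT.nd (nat_lit 78) (nat_lit 228) (nat_lit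 0) (XT.lf (nat_lit 0) (nat_lit 19407638208) (nat_lit 228) (nat_lit 3948160692) (nat_lit 76) (nat_lit 267430099) (nat_lit 57) (nat_lit 5) (nat_lit 60) (nat_lit 5) (nat_lit 58) (nat_lit 5) (nat_lit 357) (nat_lit 347) (nat_lit 316)) (XT.lf (nat_lit 0) (nat_lit 5193064367) (nat_lit 228) (nat_lit 2164817399) (nat_lit 76) (nat_lit 18341205128) (nat_lit 54) (nat_lit 5) (nat_lit 57) (nat_lit 5) (nat_lit 55) (nat_lit 5) (nat_lit 358) (nat_lit 347) (nat_lit 315))) (XT.nd (nat_lit 78) (nat_lit 152) (nat_lit 0) (XT.lf (nat_lit 0) (nat_lit 222458899) (nat_lit 152) (nat_lit 16585619254) (nat_lit 228) (nat_lit 11185920914) (nat_lit 50) (nat_lit 5) (nat_lit 52) (nat_lit 5) (nat_lit 53) (nat_lit 5) (nat_lit 359) (nat_lit 347) (nat_lit 314)) (XT.lf (nat_lit 0) (nat_lit 762018007) (nat_lit 152) (nat_lit 26952861408) (nat_lit 76) (nat_lit 2822662221) (nat_lit 48) (nat_lit 5) (nat_lit 50) (nat_lit 5) (nat_lit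 49) (nat_lit 5) (nat_lit 360) (nat_lit 347) (nat_lit 313)))) (XT.nd (nat_lit 156) (nat_lit 456) (nat_lit 0) (XT.nd (nat_lit 78) (nat_lit 76) (nat_lit 0) (XT.lf (nat_lit 0) (nat_lit 7420639991) (nat_lit 152) (nat_lit 7850784042) (nat_lit 228) (nat_lit 18053425704) (nat_lit 46) (nat_lit 5) (nat_lit 48) (nat_lit 5) (nat_lit 49) (nat_lit 5) (nat_lit 361) (nat_lit 347) (nat_lit 312)) (XT.lf (nat_lit 0) (nat_lit 12262142524) (nat_lit 76) (nat_lit 21105987332) (nat_lit 152) (nat_lit 3049258503) (nat_lit 45) (nat_lit 5) (nat_lit 46) (nat_lit 5) (nat_lit 47) (nat_lit 4) (nat_lit 362) (nat_lit 347) (nat_lit 311))) (XT.nd (nat_lit 78) (nat_lit 228) (nat_lit 0) (XT.lf (nat_lit 0) (nat_lit 14950194293) (nat_lit 228) (nat_lit 21859665203) (nat_lit 76) (nat_lit 3020198855) (nat_lit 42) (nat_lit 5) (nat_lit 45) (nat_lit 5) (nat_lit 43) (nat_lit 4) (nat_lit 363) (nat_lit 347) (nat_lit 310)) (XT.nd (nat_lit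 78) (nat_lit 152) (nat_lit 0) (XT.lf (nat_lit 0) (nat_lit 24649823446) (nat_lit 76) (nat_lit 12679664558) (nat_lit 152) (nat_lit 6269970657) (nat_lit 41) (nat_lit 5) (nat_lit 42) (nat_lit 5) (nat_lit 43) (nat_lit 4) (nat_lit 364) (nat_lit 347) (nat_lit 309)) (XT.lf (nat_lit 0) (nat_lit 16184050429) (nat_lit 152) (nat_lit 15438850323) (nat_lit 76) (nat_lit 16137492231) (nat_lit 39) (nat_lit 5) (nat_lit 41) (nat_lit 5) (nat_lit 40) (nat_lit 4) (nat_lit 365) (nat_lit 347) (nat_lit 308)))))) (XT.nd (nat_lit 390) (nat_lit 608) (nat_lit 0) (XT.nd (nat_lit 156) (nat_lit 380) (nat_lit 0) (XT.nd (nat_lit 78) (nat_lit 152) (nat_lit 0) (XT.lf (nat_lit 0) (nat_lit 41393898044) (nat_lit 76) (nat_lit 2126865464) (nat_lit 152) (nat_lit 8860810804) (nat_lit 38) (nat_lit 5) (nat_lit 39) (nat_lit 5) (nat_lit 40) (nat_lit 4) (nat_lit 366) (nat_lit 347) (nat_lit 307)) (XT.lf (nat_lit 0) (nat_lit 18898515111)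 (nat_lit 152) (nat_lit 6203406121) (nat_lit 76) (nat_lit 32360802960) (nat_lit 36) (nat_lit 5) (nat_lit 38) (nat_lit 5) (nat_lit 37) (nat_lit 4) (nat_lit 367) (nat_lit 347) (nat_lit 306))) (XT.nd (nat_lit 78) (nat_lit 304) (nat_lit 0) (XT.lf (nat_lit 0) (nat_lit 52442635080) (nat_lit 152) (nat_lit 389658531) (nat_lit 0) (nat_lit 10283698402) (nat_lit 35) (nat_lit 5) (nat_lit 37) (nat_lit 4) (nat_lit 35) (nat_lit 4) (nat_lit 368) (nat_lit 347) (nat_lit 305)) (XT.nd (nat_lit 78) (nat_lit 76) (nat_lit 0) (XT.lf (nat_lit 0) (nat_lit 6123185812) (nat_lit 76) (nat_lit 17096857152) (nat_lit 152) (nat_lit 46124873477) (nat_lit 32) (nat_lit 5) (nat_lit 33) (nat_lit 5) (nat_lit 34) (nat_lit 4) (nat_lit 369) (nat_lit 347) (nat_lit 304)) (XT.lf (nat_lit 0) (nat_lit 13399624818) (nat_lit 76) (nat_lit 50962810229) (nat_lit 76) (nat_lit 11899810259) (nat_lit 31) (nat_lit 4) (nat_lit 32) (nat_lit 5) (nat_lit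 32) (nat_lit 4) (nat_lit 370) (nat_lit 347) (nat_lit 303))))) (XT.nd (nat_lit 156) (nat_lit 380) (nat_lit 0) (XT.nd (nat_lit 78) (nat_lit 76) (nat_lit 0) (XT.lf (nat_lit 0) (nat_lit 21092065019) (nat_lit 76) (nat_lit 7833879150) (nat_lit 152) (nat_lit 55011155769) (nat_lit 29) (nat_lit 5) (nat_lit 30) (nat_lit 5) (nat_lit 31) (nat_lit 4) (nat_lit 371) (nat_lit 347) (nat_lit 302)) (XT.lf (nat_lit 0) (nat_lit 28839968133) (nat_lit 76) (nat_lit 49900615035) (nat_lit 76) (nat_lit 13712303791) (nat_lit 28) (nat_lit 4) (nat_lit 29) (nat_lit 5) (nat_lit 29) (nat_lit 4) (nat_lit 372) (nat_lit 347) (nat_lit 301))) (XT.nd (nat_lit 78) (nat_lit 228) (nat_lit 0) (XT.lf (nat_lit 0) (nat_lit 35083043741) (nat_lit 152) (nat_lit 65290396964) (nat_lit 0) (nat_lit 1568282710) (nat_lit 26) (nat_lit 5) (nat_lit 28) (nat_lit 4) (nat_lit 26) (nat_lit 4) (nat_lit 373) (nat_lit 347) (nat_lit 300)) (XT.nd (nat_lit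 78) (nat_lit 152) (nat_lit 0) (XT.lf (nat_lit 0) (nat_lit 43420618328) (nat_lit 76) (nat_lit 51289851794) (nat_lit 76) (nat_lit 17768946907) (nat_lit 25) (nat_lit 4) (nat_lit 26) (nat_lit 5) (nat_lit 26) (nat_lit 4) (nat_lit 374) (nat_lit 347) (nat_lit 299)) (XT.lf (nat_lit 0) (nat_lit 40094977753) (nat_lit 152) (nat_lit 75108532797) (nat_lit 0) (nat_lit 9052156115) (nat_lit 23) (nat_lit 5) (nat_lit 25) (nat_lit 4) (nat_lit 23) (nat_lit 4) (nat_lit 375) (nat_lit 347) (nat_lit 298))))))))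
noncomputable def xc61 : XT := (XT.nd (nat_lit 1404) (nat_lit 304) (nat_lit 0) (XT.nd (nat_lit 702) (nat_lit 456) (nat_lit 0) (XT.nd (nat_lit 312) (nat_lit 456) (nat_lit 0) (XT.nd (nat_lit 156) (nat_lit 228) (nat_lit 0) (XT.nd (nat_lit 78) (nat_lit 152) (nat_lit 0) (XT.lf (nat_lit 0) (nat_lit 52239035152) (nat_lit 76) (nat_lit 58094858937) (nat_lit 76) (nat_lit 27047735783) (nat_lit 22) (nat_lit 4) (nat_lit 23) (nat_lit 5) (nat_lit 23) (nat_lit 4) (nat_lit 376) (nat_lit 347) (nat_lit 297)) (XT.lf (nat_lit 0) (nat_lit 40484944864) (nat_lit 152) (nat_lit 99880243741) (nat_lit 0) (nat_lit 11734145231) (nat_lit 20) (nat_lit 5) (nat_lit 22) (nat_lit 4) (nat_lit 20) (nat_lit 4) (nat_lit 377) (nat_lit 347) (nat_lit 296))) (XT.nd (nat_lit 78) (nat_lit 152) (nat_lit 0) (XT.lf (nat_lit 0) (nat_lit 46379795353) (nat_lit 76) (nat_lit 75459520620) (nat_lit 76) (nat_lit 46705709354) (nat_lit 19) (nat_lit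 4) (nat_lit 20) (nat_lit 5) (nat_lit 20) (nat_lit 4) (nat_lit 378) (nat_lit 347) (nat_lit 295)) (XT.lf (nat_lit 0) (nat_lit 30430702658) (nat_lit 152) (nat_lit 152857609131) (nat_lit 0) (nat_lit 3804378512) (nat_lit 17) (nat_lit 5) (nat_lit 19) (nat_lit 4) (nat_lit 17) (nat_lit 4) (nat_lit 379) (nat_lit 347) (nat_lit 294)))) (XT.nd (nat_lit 156) (nat_lit 304) (nat_lit 0) (XT.nd (nat_lit 78) (nat_lit 76) (nat_lit 0) (XT.lf (nat_lit 0) (nat_lit 10371529816) (nat_lit 76) (nat_lit 112049231291) (nat_lit 76) (nat_lit 85420798601) (nat_lit 16) (nat_lit 4) (nat_lit 17) (nat_lit 5) (nat_lit 17) (nat_lit 4) (nat_lit 380) (nat_lit 347) (nat_lit 293)) (XT.lf (nat_lit 0) (nat_lit 1232663495) (nat_lit 152) (nat_lit 24066326135) (nat_lit 76) (nat_lit 206046384310) (nat_lit 15) (nat_lit 5) (nat_lit 17) (nat_lit 5) (nat_lit 16) (nat_lit 4) (nat_lit 381) (nat_lit 347) (nat_lit 292))) (XT.nd (nat_lit 78) (nat_lit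 228) (nat_lit 0) (XT.lf (nat_lit 0) (nat_lit 102301807227) (nat_lit 152) (nat_lit 77734736255) (nat_lit 0) (nat_lit 77642677071) (nat_lit 14) (nat_lit 5) (nat_lit 16) (nat_lit 4) (nat_lit 14) (nat_lit 4) (nat_lit 382) (nat_lit 347) (nat_lit 291)) (XT.nd (nat_lit 78) (nat_lit 152) (nat_lit 0) (XT.lf (nat_lit 0) (nat_lit 134071888135) (nat_lit 76) (nat_lit 89090588830) (nat_lit 76) (nat_lit 64430174968) (nat_lit 13) (nat_lit 4) (nat_lit 14) (nat_lit 5) (nat_lit 14) (nat_lit 4) (nat_lit 383) (nat_lit 347) (nat_lit 290)) (XT.lf (nat_lit 0) (nat_lit 42464268222) (nat_lit 152) (nat_lit 259476922135) (nat_lit 0) (nat_lit 19629518103) (nat_lit 11) (nat_lit 5) (nat_lit 13) (nat_lit 4) (nat_lit 11) (nat_lit 4) (nat_lit 384) (nat_lit 347) (nat_lit 289)))))) (XT.nd (nat_lit 312) (nat_lit 228) (nat_lit 0) (XT.nd (nat_lit 156) (nat_lit 152) (nat_lit 0) (XT.nd (nat_lit 78) (nat_lit 76) (nat_lit 0) (XT.lf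 (nat_lit 0) (nat_lit 168725644925) (nat_lit 152) (nat_lit 45324131518) (nat_lit 0) (nat_lit 145889996042) (nat_lit 11) (nat_lit 5) (nat_lit 13) (nat_lit 4) (nat_lit 11) (nat_lit 4) (nat_lit 385) (nat_lit 347) (nat_lit 288)) (XT.lf (nat_lit 0) (nat_lit 211513745467) (nat_lit 76) (nat_lit 107490326807) (nat_lit 76) (nat_lit 84653896390) (nat_lit 10) (nat_lit 4) (nat_lit 11) (nat_lit 5) (nat_lit 11) (nat_lit 4) (nat_lit 386) (nat_lit 347) (nat_lit 287))) (XT.nd (nat_lit 78) (nat_lit 0) (nat_lit 0) (XT.lf (nat_lit 0) (nat_lit 39185085126) (nat_lit 152) (nat_lit 396381083541) (nat_lit 0) (nat_lit 18039612892) (nat_lit 8) (nat_lit 5) (nat_lit 10) (nat_lit 4) (nat_lit 8) (nat_lit 4) (nat_lit 387) (nat_lit 347) (nat_lit 286)) (XT.lf (nat_lit 0) (nat_lit 185434281546) (nat_lit 152) (nat_lit 160439572722) (nat_lit 0) (nat_lit 164288262134) (nat_lit 8) (nat_lit 5) (nat_lit 10) (nat_lit 4) (nat_lit 8)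 (nat_lit 4) (nat_lit 388) (nat_lit 347) (nat_lit 285)))) (XT.nd (nat_lit 156) (nat_lit 152) (nat_lit 0) (XT.nd (nat_lit 78) (nat_lit 0) (nat_lit 0) (XT.lf (nat_lit 0) (nat_lit 116717567347) (nat_lit 76) (nat_lit 239703409904) (nat_lit 76) (nat_lit 218556914685) (nat_lit 7) (nat_lit 4) (nat_lit 8) (nat_lit 5) (nat_lit 8) (nat_lit 4) (nat_lit 389) (nat_lit 347) (nat_lit 284)) (XT.lf (nat_lit 0) (nat_lit 445150937711) (nat_lit 76) (nat_lit 112569415512) (nat_lit 76) (nat_lit 91422506548) (nat_lit 7) (nat_lit 4) (nat_lit 8) (nat_lit 5) (nat_lit 8) (nat_lit 4) (nat_lit 390) (nat_lit 347) (nat_lit 283))) (XT.nd (nat_lit 78) (nat_lit 0) (nat_lit 0) (XT.lf (nat_lit 0) (nat_lit 55140983451) (nat_lit 152) (nat_lit 643378062207) (nat_lit 0) (nat_lit 35560179059) (nat_lit 5) (nat_lit 5) (nat_lit 7) (nat_lit 4) (nat_lit 5) (nat_lit 4) (nat_lit 391) (nat_lit 347) (nat_lit 282)) (XT.nd (nat_lit 78) (nat_lit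 0) (nat_lit 0) (XT.lf (nat_lit 0) (nat_lit 227631016234) (nat_lit 152) (nat_lit 395136717042) (nat_lit 0) (nat_lit 208049922165) (nat_lit 5) (nat_lit 5) (nat_lit 7) (nat_lit 4) (nat_lit 5) (nat_lit 4) (nat_lit 392) (nat_lit 347) (nat_lit 281)) (XT.lf (nat_lit 0) (nat_lit 425989932197) (nat_lit 152) (nat_lit 109668702106) (nat_lit 0) (nat_lit 406408586236) (nat_lit 5) (nat_lit 5) (nat_lit 7) (nat_lit 4) (nat_lit 5) (nat_lit 4) (nat_lit 393) (nat_lit 347) (nat_lit 280))))))) (XT.nd (nat_lit 702) (nat_lit 76) (nat_lit 0) (XT.nd (nat_lit 312) (nat_lit 0) (nat_lit 0) (XT.nd (nat_lit 156) (nat_lit 152) (nat_lit 0) (XT.nd (nat_lit 78) (nat_lit 0) (nat_lit 0) (XT.lf (nat_lit 0) (nat_lit 230122906140) (nat_lit 76) (nat_lit 429510221940) (nat_lit 76) (nat_lit 409928656942) (nat_lit 4) (nat_lit 4) (nat_lit 5) (nat_lit 5) (nat_lit 5) (nat_lit 4) (nat_lit 394) (nat_lit 347) (nat_lit 279)) (XT.lf (nat_lit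 0) (nat_lit 627516871952) (nat_lit 76) (nat_lit 303995140491) (nat_lit 76) (nat_lit 284413385026) (nat_lit 4) (nat_lit 4) (nat_lit 5) (nat_lit 5) (nat_lit 5) (nat_lit 4) (nat_lit 395) (nat_lit 347) (nat_lit 278))) (XT.nd (nat_lit 78) (nat_lit 152) (nat_lit 0) (XT.lf (nat_lit 0) (nat_lit 1084513335157) (nat_lit 76) (nat_lit 159656196768) (nat_lit 76) (nat_lit 140074275679) (nat_lit 4) (nat_lit 4) (nat_lit 5) (nat_lit 5) (nat_lit 5) (nat_lit 4) (nat_lit 396) (nat_lit 347) (nat_lit 277)) (XT.lf (nat_lit 0) (nat_lit 25606180014) (nat_lit 152) (nat_lit 1544600348098) (nat_lit 0) (nat_lit 7474638246) (nat_lit 2) (nat_lit 5) (nat_lit 4) (nat_lit 4) (nat_lit 2) (nat_lit 4) (nat_lit 397) (nat_lit 347) (nat_lit 276)))) (XT.nd (nat_lit 156) (nat_lit 0) (nat_lit 0) (XT.nd (nat_lit 78) (nat_lit 0) (nat_lit 0) (XT.lf (nat_lit 0) (nat_lit 221446565881) (nat_lit 152) (nat_lit 1373993445707) (nat_lit 0) (nat_lit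 203314908154) (nat_lit 2) (nat_lit 5) (nat_lit 4) (nat_lit 4) (nat_lit 2) (nat_lit 4) (nat_lit 398) (nat_lit 347) (nat_lit 275)) (XT.lf (nat_lit 0) (nat_lit 446660681769) (nat_lit 152) (nat_lit 1177800317396) (nat_lit 0) (nat_lit 428528923209) (nat_lit 2) (nat_lit 5) (nat_lit 4) (nat_lit 4) (nat_lit 2) (nat_lit 4) (nat_lit 399) (nat_lit 347) (nat_lit 274))) (XT.nd (nat_lit 78) (nat_lit 0) (nat_lit 0) (XT.lf (nat_lit 0) (nat_lit 705654890816) (nat_lit 152) (nat_lit 952182401958) (nat_lit 0) (nat_lit 687523044574) (nat_lit 2) (nat_lit 5) (nat_lit 4) (nat_lit 4) (nat_lit 2) (nat_lit 4) (nat_lit 400) (nat_lit 347) (nat_lit 273)) (XT.nd (nat_lit 78) (nat_lit 0) (nat_lit 0) (XT.lf (nat_lit 0) (nat_lit 1003496471023) (nat_lit 152) (nat_lit 692725435830) (nat_lit 0) (nat_lit 985364548537) (nat_lit 2) (nat_lit 5) (nat_lit 4) (nat_lit 4) (nat_lit 2) (nat_lit 4) (nat_lit 401) (nat_lit 347) (nat_lit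 272)) (XT.lf (nat_lit 0) (nat_lit 1346012757657) (nat_lit 152) (nat_lit 394353087066) (nat_lit 0) (nat_lit 1327880768872) (nat_lit 2) (nat_lit 5) (nat_lit 4) (nat_lit 4) (nat_lit 2) (nat_lit 4) (nat_lit 402) (nat_lit 347) (nat_lit 271)))))) (XT.nd (nat_lit 390) (nat_lit 0) (nat_lit 0) (XT.nd (nat_lit 156) (nat_lit 0) (nat_lit 0) (XT.nd (nat_lit 78) (nat_lit 76) (nat_lit 0) (XT.lf (nat_lit 0) (nat_lit 1739905156326) (nat_lit 152) (nat_lit 51227635800) (nat_lit 0) (nat_lit 1721773109888) (nat_lit 2) (nat_lit 5) (nat_lit 4) (nat_lit 4) (nat_lit 2) (nat_lit 4) (nat_lit 403) (nat_lit 347) (nat_lit 270)) (XT.lf (nat_lit 0) (nat_lit 361445194506) (nat_lit 76) (nat_lit 1840127828551) (nat_lit 76) (nat_lit 1821995731982) (nat_lit 1) (nat_lit 4) (nat_lit 2) (nat_lit 5) (nat_lit 2) (nat_lit 4) (nat_lit 404) (nat_lit 347) (nat_lit 269))) (XT.nd (nat_lit 78) (nat_lit 0) (nat_lit 0) (XT.lf (nat_lit 0)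 (nat_lit 839118950613) (nat_lit 76) (nat_lit 1894862497648) (nat_lit 76) (nat_lit 1876730357485) (nat_lit 1) (nat_lit 4) (nat_lit 2) (nat_lit 5) (nat_lit 2) (nat_lit 4) (nat_lit 405) (nat_lit 347) (nat_lit 268)) (XT.nd (nat_lit 78) (nat_lit 0) (nat_lit 0) (XT.lf (nat_lit 0) (nat_lit 1388441866881) (nat_lit 76) (nat_lit 1957808349462) (nat_lit 76) (nat_lit 1939676171392) (nat_lit 1) (nat_lit 4) (nat_lit 2) (nat_lit 5) (nat_lit 2) (nat_lit 4) (nat_lit 406) (nat_lit 347) (nat_lit 267)) (XT.lf (nat_lit 0) (nat_lit 2020161565585) (nat_lit 76) (nat_lit 2030196933267) (nat_lit 76) (nat_lit 2012064722235) (nat_lit 1) (nat_lit 4) (nat_lit 2) (nat_lit 5) (nat_lit 2) (nat_lit 4) (nat_lit 407) (nat_lit 347) (nat_lit 266))))) (XT.nd (nat_lit 156) (nat_lit 0) (nat_lit 0) (XT.nd (nat_lit 78) (nat_lit 0) (nat_lit 0) (XT.lf (nat_lit 0) (nat_lit 2746637779962) (nat_lit 76) (nat_lit 2113444547444) (nat_lit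 76) (nat_lit 2095312307748) (nat_lit 1) (nat_lit 4) (nat_lit 2) (nat_lit 5) (nat_lit 2) (nat_lit 4) (nat_lit 408) (nat_lit 347) (nat_lit 265)) (XT.lf (nat_lit 0) (nat_lit 3582084175074) (nat_lit 76) (nat_lit 2209179949659) (nat_lit 76) (nat_lit 2191047685039) (nat_lit 1) (nat_lit 4) (nat_lit 2) (nat_lit 5) (nat_lit 2) (nat_lit 4) (nat_lit 409) (nat_lit 347) (nat_lit 264))) (XT.nd (nat_lit 78) (nat_lit 0) (nat_lit 0) (XT.lf (nat_lit 0) (nat_lit 4542846441261) (nat_lit 76) (nat_lit 2319276223870) (nat_lit 76) (nat_lit 2301143937577) (nat_lit 1) (nat_lit 4) (nat_lit 2) (nat_lit 5) (nat_lit 2) (nat_lit 4) (nat_lit 410) (nat_lit 347) (nat_lit 263)) (XT.nd (nat_lit 78) (nat_lit 0) (nat_lit 0) (XT.lf (nat_lit 0) (nat_lit 5647722101123) (nat_lit 76) (nat_lit 2445887427616) (nat_lit 76) (nat_lit 2427755122476) (nat_lit 1) (nat_lit 4) (nat_lit 2) (nat_lit 5) (nat_lit 2) (nat_lit 4) (nat_lit 411) (nat_lit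 347) (nat_lit 262)) (XT.lf (nat_lit 0) (nat_lit 6918328287135) (nat_lit 76) (nat_lit 2591490736622) (nat_lit 76) (nat_lit 2573358415093) (nat_lit 1) (nat_lit 4) (nat_lit 2) (nat_lit 5) (nat_lit 2) (nat_lit 4) (nat_lit 412) (nat_lit 347) (nat_lit 261))))))))
noncomputable def xc62 : XT := (XT.nd (nat_lit 48750) (nat_lit 0) (nat_lit 1824) (XT.nd (nat_lit 48048) (nat_lit 0) (nat_lit 4636) (XT.nd (nat_lit 312) (nat_lit 0) (nat_lit 0) (XT.nd (nat_lit 156) (nat_lit 0) (nat_lit 0) (XT.nd (nat_lit 78) (nat_lit 0) (nat_lit 0) (XT.lf (nat_lit 0) (nat_lit 8379524685545) (nat_lit 76) (nat_lit 2758934911281) (nat_lit 76) (nat_lit 2740802575502) (nat_lit 1) (nat_lit 4) (nat_lit 2) (nat_lit 5) (nat_lit 2) (nat_lit 4) (nat_lit 413) (nat_lit 347) (nat_lit 260)) (XT.lf (nat_lit 0) (nat_lit 10059899921538) (nat_lit 76) (nat_lit 2951496033272) (nat_lit 76) (nat_lit 2933363685101) (nat_lit 1) (nat_lit 4) (nat_lit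 2) (nat_lit 5) (nat_lit 2) (nat_lit 4) (nat_lit 414) (nat_lit 347) (nat_lit 259))) (XT.nd (nat_lit 78) (nat_lit 0) (nat_lit 0) (XT.lf (nat_lit 0) (nat_lit 11992330901908) (nat_lit 76) (nat_lit 3172941602808) (nat_lit 76) (nat_lit 3154809243861) (nat_lit 1) (nat_lit 4) (nat_lit 2) (nat_lit 5) (nat_lit 2) (nat_lit 4) (nat_lit 415) (nat_lit 347) (nat_lit 258)) (XT.lf (nat_lit 0) (nat_lit 14214626058877) (nat_lit 76) (nat_lit 3427604250596) (nat_lit 76) (nat_lit 3409471882280) (nat_lit 1) (nat_lit 4) (nat_lit 2) (nat_lit 5) (nat_lit 2) (nat_lit 4) (nat_lit 416) (nat_lit 347) (nat_lit 257)))) (XT.nd (nat_lit 156) (nat_lit 0) (nat_lit 0) (XT.nd (nat_lit 78) (nat_lit 0) (nat_lit 0) (XT.lf (nat_lit 0) (nat_lit 16770265080300) (nat_lit 76) (nat_lit 3720466506703) (nat_lit 76) (nat_lit 3702334130239) (nat_lit 1) (nat_lit 4) (nat_lit 2) (nat_lit 5) (nat_lit 2) (nat_lit 4) (nat_lit 417) (nat_lit 347)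 (nat_lit 256)) (XT.lf (nat_lit 0) (nat_lit 19709249599205) (nat_lit 76) (nat_lit 4057258284835) (nat_lit 76) (nat_lit 4039125901285) (nat_lit 1) (nat_lit 4) (nat_lit 2) (nat_lit 5) (nat_lit 2) (nat_lit 4) (nat_lit 418) (nat_lit 347) (nat_lit 255))) (XT.nd (nat_lit 78) (nat_lit 0) (nat_lit 0) (XT.lf (nat_lit 0) (nat_lit 23089081486614) (nat_lit 76) (nat_lit 4444568989346) (nat_lit 76) (nat_lit 4426436599635) (nat_lit 1) (nat_lit 4) (nat_lit 2) (nat_lit 5) (nat_lit 2) (nat_lit 4) (nat_lit 419) (nat_lit 347) (nat_lit 254)) (XT.nd (nat_lit 78) (nat_lit 0) (nat_lit 0) (XT.lf (nat_lit 0) (nat_lit 26975887888149) (nat_lit 76) (nat_lit 4889976438368) (nat_lit 76) (nat_lit 4871844043300) (nat_lit 1) (nat_lit 4) (nat_lit 2) (nat_lit 5) (nat_lit 2) (nat_lit 4) (nat_lit 420) (nat_lit 347) (nat_lit 253)) (XT.lf (nat_lit 0) (nat_lit 31445715016015) (nat_lit 76) (nat_lit 5402195125470) (nat_lit 76) (nat_lit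 5384062725743) (nat_lit 1) (nat_lit 4) (nat_lit 2) (nat_lit 5) (nat_lit 2) (nat_lit 4) (nat_lit 421) (nat_lit 347) (nat_lit 252)))))) (XT.nd (nat_lit 312) (nat_lit 1444) (nat_lit 0) (XT.nd (nat_lit 156) (nat_lit 0) (nat_lit 76) (XT.nd (nat_lit 78) (nat_lit 0) (nat_lit 76) (XT.lf (nat_lit 0) (nat_lit 4268255500) (nat_lit 532) (nat_lit 1041836136) (nat_lit 532) (nat_lit 1041836136) (nat_lit 81) (nat_lit 3) (nat_lit 88) (nat_lit 3) (nat_lit 88) (nat_lit 5) (nat_lit 348) (nat_lit 348) (nat_lit 324)) (XT.lf (nat_lit 0) (nat_lit 10144794561) (nat_lit 456) (nat_lit 3353301536) (nat_lit 532) (nat_lit 80912477) (nat_lit 82) (nat_lit 5) (nat_lit 88) (nat_lit 5) (nat_lit 89) (nat_lit 5) (nat_lit 349) (nat_lit 348) (nat_lit 323))) (XT.nd (nat_lit 78) (nat_lit 0) (nat_lit 76) (XT.lf (nat_lit 76) (nat_lit 10049826721) (nat_lit 0) (nat_lit 2413577920) (nat_lit 532) (nat_lit 2084537477) (nat_lit 83) (nat_lit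 5) (nat_lit 82) (nat_lit 5) (nat_lit 89) (nat_lit 5) (nat_lit 350) (nat_lit 348) (nat_lit 322)) (XT.lf (nat_lit 76) (nat_lit 10182895172) (nat_lit 0) (nat_lit 5427691545) (nat_lit 532) (nat_lit 13196344) (nat_lit 84) (nat_lit 5) (nat_lit 83) (nat_lit 5) (nat_lit 90) (nat_lit 5) (nat_lit 351) (nat_lit 348) (nat_lit 321)))) (XT.nd (nat_lit 156) (nat_lit 684) (nat_lit 0) (XT.nd (nat_lit 78) (nat_lit 456) (nat_lit 0) (XT.lf (nat_lit 0) (nat_lit 2806339447) (nat_lit 532) (nat_lit 6208829069) (nat_lit 76) (nat_lit 7796818545) (nat_lit 77) (nat_lit 5) (nat_lit 84) (nat_lit 5) (nat_lit 78) (nat_lit 5) (nat_lit 352) (nat_lit 348) (nat_lit 320)) (XT.lf (nat_lit 0) (nat_lit 6668180760) (nat_lit 532) (nat_lit 6703802497) (nat_lit 76) (nat_lit 4756819330) (nat_lit 71) (nat_lit 5) (nat_lit 78) (nat_lit 5) (nat_lit 72) (nat_lit 5) (nat_lit 353) (nat_lit 348) (nat_lit 319))) (XT.nd (nat_lit 78) (nat_lit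 456) (nat_lit 0) (XT.lf (nat_lit 0) (nat_lit 11793474421) (nat_lit 304) (nat_lit 6864089130) (nat_lit 76) (nat_lit 930860946) (nat_lit 68) (nat_lit 5) (nat_lit 72) (nat_lit 5) (nat_lit 69) (nat_lit 5) (nat_lit 354) (nat_lit 348) (nat_lit 318)) (XT.nd (nat_lit 78) (nat_lit 228) (nat_lit 0) (XT.lf (nat_lit 0) (nat_lit 14487470651) (nat_lit 228) (nat_lit 4046302564) (nat_lit 304) (nat_lit 2665535372) (nat_lit 65) (nat_lit 5) (nat_lit 68) (nat_lit 5) (nat_lit 69) (nat_lit 5) (nat_lit 355) (nat_lit 348) (nat_lit 317)) (XT.lf (nat_lit 0) (nat_lit 3946298258) (nat_lit 228) (nat_lit 6211368019) (nat_lit 76) (nat_lit 12817970936) (nat_lit 62) (nat_lit 5) (nat_lit 65) (nat_lit 5) (nat_lit 63) (nat_lit 5) (nat_lit 356) (nat_lit 348) (nat_lit 316))))))) (XT.nd (nat_lit 702) (nat_lit 1216) (nat_lit 0) (XT.nd (nat_lit 312) (nat_lit 684) (nat_lit 0) (XT.nd (nat_lit 156) (nat_lit 532) (nat_lit 0) (XT.nd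 (nat_lit 78) (nat_lit 152) (nat_lit 0) (XT.lf (nat_lit 0) (nat_lit 12314272475) (nat_lit 304) (nat_lit 5248674714) (nat_lit 76) (nat_lit 7376164617) (nat_lit 59) (nat_lit 5) (nat_lit 63) (nat_lit 5) (nat_lit 60) (nat_lit 5) (nat_lit 357) (nat_lit 348) (nat_lit 315)) (XT.lf (nat_lit 0) (nat_lit 22928298695) (nat_lit 228) (nat_lit 3647496183) (nat_lit 76) (nat_lit 542053848) (nat_lit 57) (nat_lit 5) (nat_lit 60) (nat_lit 5) (nat_lit 58) (nat_lit 5) (nat_lit 358) (nat_lit 348) (nat_lit 314))) (XT.nd (nat_lit 78) (nat_lit 304) (nat_lit 0) (XT.lf (nat_lit 0) (nat_lit 6536055751) (nat_lit 228) (nat_lit 1642445770) (nat_lit 76) (nat_lit 21330242581) (nat_lit 54) (nat_lit 5) (nat_lit 57) (nat_lit 5) (nat_lit 55) (nat_lit 5) (nat_lit 359) (nat_lit 348) (nat_lit 313)) (XT.lf (nat_lit 0) (nat_lit 1108258922) (nat_lit 152) (nat_lit 18757046585) (nat_lit 228) (nat_lit 12284839745) (nat_lit 50) (nat_lit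 5) (nat_lit 52) (nat_lit 5) (nat_lit 53) (nat_lit 5) (nat_lit 360) (nat_lit 348) (nat_lit 312)))) (XT.nd (nat_lit 156) (nat_lit 380) (nat_lit 0) (XT.nd (nat_lit 78) (nat_lit 152) (nat_lit 0) (XT.lf (nat_lit 0) (nat_lit 1381428072) (nat_lit 152) (nat_lit 30156504924) (nat_lit 76) (nat_lit 3539772984) (nat_lit 48) (nat_lit 5) (nat_lit 50) (nat_lit 5) (nat_lit 49) (nat_lit 5) (nat_lit 361) (nat_lit 348) (nat_lit 311)) (XT.lf (nat_lit 0) (nat_lit 9301980331) (nat_lit 152) (nat_lit 8717857396) (nat_lit 228) (nat_lit 20267072757) (nat_lit 46) (nat_lit 5) (nat_lit 48) (nat_lit 5) (nat_lit 49) (nat_lit 5) (nat_lit 362) (nat_lit 348) (nat_lit 310))) (XT.nd (nat_lit 78) (nat_lit 304) (nat_lit 0) (XT.lf (nat_lit 0) (nat_lit 14831406829) (nat_lit 76) (nat_lit 23963992160) (nat_lit 152) (nat_lit 3050789559) (nat_lit 45) (nat_lit 5) (nat_lit 46) (nat_lit 5) (nat_lit 47) (nat_lit 4) (nat_lit 363) (nat_lit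 348) (nat_lit 309)) (XT.nd (nat_lit 78) (nat_lit 76) (nat_lit 0) (XT.lf (nat_lit 0) (nat_lit 17592981175) (nat_lit 228) (nat_lit 24425177402) (nat_lit 76) (nat_lit 3754352406) (nat_lit 42) (nat_lit 5) (nat_lit 45) (nat_lit 5) (nat_lit 43) (nat_lit 4) (nat_lit 364) (nat_lit 348) (nat_lit 308)) (XT.lf (nat_lit 0) (nat_lit 29000345607) (nat_lit 76) (nat_lit 14292321642) (nat_lit 152) (nat_lit 6817578858) (nat_lit 41) (nat_lit 5) (nat_lit 42) (nat_lit 5) (nat_lit 43) (nat_lit 4) (nat_lit 365) (nat_lit 348) (nat_lit 307)))))) (XT.nd (nat_lit 390) (nat_lit 532) (nat_lit 0) (XT.nd (nat_lit 156) (nat_lit 456) (nat_lit 0) (XT.nd (nat_lit 78) (nat_lit 76) (nat_lit 0) (XT.lf (nat_lit 0) (nat_lit 18957666718) (nat_lit 152) (nat_lit 17118364527) (nat_lit 76) (nat_lit 18820715131) (nat_lit 39) (nat_lit 5) (nat_lit 41) (nat_lit 5) (nat_lit 40) (nat_lit 4) (nat_lit 366) (nat_lit 348) (nat_lit 306)) (XT.lf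 (nat_lit 0) (nat_lit 48185435339) (nat_lit 76) (nat_lit 2178327846) (nat_lit 152) (nat_lit 9849834848) (nat_lit 38) (nat_lit 5) (nat_lit 39) (nat_lit 5) (nat_lit 40) (nat_lit 4) (nat_lit 367) (nat_lit 348) (nat_lit 305))) (XT.nd (nat_lit 78) (nat_lit 304) (nat_lit 0) (XT.lf (nat_lit 0) (nat_lit 22033555880) (nat_lit 152) (nat_lit 6567749408) (nat_lit 76) (nat_lit 37456789049) (nat_lit 36) (nat_lit 5) (nat_lit 38) (nat_lit 5) (nat_lit 37) (nat_lit 4) (nat_lit 368) (nat_lit 348) (nat_lit 304)) (XT.nd (nat_lit 78) (nat_lit 152) (nat_lit 0) (XT.lf (nat_lit 0) (nat_lit 90689218) (nat_lit 76) (nat_lit 60499969294) (nat_lit 76) (nat_lit 11970186917) (nat_lit 34) (nat_lit 4) (nat_lit 35) (nat_lit 5) (nat_lit 35) (nat_lit 4) (nat_lit 369) (nat_lit 348) (nat_lit 303)) (XT.lf (nat_lit 0) (nat_lit 7570954857) (nat_lit 76) (nat_lit 19406212463) (nat_lit 152) (nat_lit 52747544969) (nat_lit 32) (nat_lit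 5) (nat_lit 33) (nat_lit 5) (nat_lit 34) (nat_lit 4) (nat_lit 370) (nat_lit 348) (nat_lit 302))))) (XT.nd (nat_lit 156) (nat_lit 304) (nat_lit 0) (XT.nd (nat_lit 78) (nat_lit 152) (nat_lit 0) (XT.lf (nat_lit 0) (nat_lit 15908524758) (nat_lit 76) (nat_lit 58363975312) (nat_lit 76) (nat_lit 13408615456) (nat_lit 31) (nat_lit 4) (nat_lit 32) (nat_lit 5) (nat_lit 32) (nat_lit 4) (nat_lit 371) (nat_lit 348) (nat_lit 301)) (XT.lf (nat_lit 0) (nat_lit 24725251401) (nat_lit 76) (nat_lit 8779004550) (nat_lit 152) (nat_lit 63004246835) (nat_lit 29) (nat_lit 5) (nat_lit 30) (nat_lit 5) (nat_lit 31) (nat_lit 4) (nat_lit 372) (nat_lit 348) (nat_lit 300))) (XT.nd (nat_lit 78) (nat_lit 228) (nat_lit 0) (XT.lf (nat_lit 0) (nat_lit 33608087419) (nat_lit 76) (nat_lit 57167216854) (nat_lit 76) (nat_lit 15527617622) (nat_lit 28) (nat_lit 4) (nat_lit 29) (nat_lit 5) (nat_lit 29) (nat_lit 4) (nat_lit 373) (nat_lit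 348) (nat_lit 299)) (XT.nd (nat_lit 78) (nat_lit 76) (nat_lit 0) (XT.lf (nat_lit 0) (nat_lit 40559980885) (nat_lit 152) (nat_lit 74656382697) (nat_lit 0) (nat_lit 1999453927) (nat_lit 26) (nat_lit 5) (nat_lit 28) (nat_lit 4) (nat_lit 26) (nat_lit 4) (nat_lit 374) (nat_lit 348) (nat_lit 298)) (XT.lf (nat_lit 0) (nat_lit 50325092896) (nat_lit 76) (nat_lit 58787865341) (nat_lit 76) (nat_lit 20222692746) (nat_lit 25) (nat_lit 4) (nat_lit 26) (nat_lit 5) (nat_lit 26) (nat_lit 4) (nat_lit 375) (nat_lit 348) (nat_lit 297))))))))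
noncomputable def xc63 : XT := (XT.nd (nat_lit 1404) (nat_lit 304) (nat_lit 0) (XT.nd (nat_lit 702) (nat_lit 608) (nat_lit 0) (XT.nd (nat_lit 312) (nat_lit 456) (nat_lit 0) (XT.nd (nat_lit 156) (nat_lit 228) (nat_lit 0) (XT.nd (nat_lit 78) (nat_lit 76) (nat_lit 0) (XT.lf (nat_lit 0) (nat_lit 46297298517) (nat_lit 152) (nat_lit 85996603113) (nat_lit 0) (nat_lit 10585064925) (nat_lit 23) (nat_lit 5) (nat_lit 25) (nat_lit 4) (nat_lit 23) (nat_lit 4) (nat_lit 376) (nat_lit 348) (nat_lit 296)) (XT.lf (nat_lit 0) (nat_lit 60421086469) (nat_lit 76) (nat_lit 66634760454) (nat_lit 76) (nat_lit 30919274297) (nat_lit 22) (nat_lit 4) (nat_lit 23) (nat_lit 5) (nat_lit 23) (nat_lit 4) (nat_lit 377) (nat_lit 348) (nat_lit 295))) (XT.nd (nat_lit 78) (nat_lit 76) (nat_lit 0) (XT.lf (nat_lit 0) (nat_lit 46722798073) (nat_lit 152) (nat_lit 114527939320) (nat_lit 0) (nat_lit 13650284672) (nat_lit 20) (nat_lit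 5) (nat_lit 22) (nat_lit 4) (nat_lit 20) (nat_lit 4) (nat_lit 378) (nat_lit 348) (nat_lit 294)) (XT.lf (nat_lit 0) (nat_lit 53642805340) (nat_lit 76) (nat_lit 86623343516) (nat_lit 76) (nat_lit 53548552887) (nat_lit 19) (nat_lit 4) (nat_lit 20) (nat_lit 5) (nat_lit 20) (nat_lit 4) (nat_lit 379) (nat_lit 348) (nat_lit 293)))) (XT.nd (nat_lit 156) (nat_lit 228) (nat_lit 0) (XT.nd (nat_lit 78) (nat_lit 76) (nat_lit 0) (XT.lf (nat_lit 0) (nat_lit 35140396228) (nat_lit 152) (nat_lit 175490831940) (nat_lit 0) (nat_lit 4513756574) (nat_lit 17) (nat_lit 5) (nat_lit 19) (nat_lit 4) (nat_lit 17) (nat_lit 4) (nat_lit 380) (nat_lit 348) (nat_lit 292)) (XT.lf (nat_lit 0) (nat_lit 12197672139) (nat_lit 76) (nat_lit 128718870197) (nat_lit 76) (nat_lit 98090636180) (nat_lit 16) (nat_lit 4) (nat_lit 17) (nat_lit 5) (nat_lit 17) (nat_lit 4) (nat_lit 381) (nat_lit 348) (nat_lit 291))) (XT.nd (nat_lit 78) (nat_lit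 152) (nat_lit 0) (XT.lf (nat_lit 0) (nat_lit 1535923588) (nat_lit 152) (nat_lit 27434899354) (nat_lit 76) (nat_lit 237066886809) (nat_lit 15) (nat_lit 5) (nat_lit 17) (nat_lit 5) (nat_lit 16) (nat_lit 4) (nat_lit 382) (nat_lit 348) (nat_lit 290)) (XT.nd (nat_lit 78) (nat_lit 76) (nat_lit 0) (XT.lf (nat_lit 0) (nat_lit 117758024906) (nat_lit 152) (nat_lit 89168052760) (nat_lit 0) (nat_lit 89396148994) (nat_lit 14) (nat_lit 5) (nat_lit 16) (nat_lit 4) (nat_lit 14) (nat_lit 4) (nat_lit 383) (nat_lit 348) (nat_lit 289)) (XT.lf (nat_lit 0) (nat_lit 154390359847) (nat_lit 76) (nat_lit 102347958877) (nat_lit 76) (nat_lit 73985112298) (nat_lit 13) (nat_lit 4) (nat_lit 14) (nat_lit 5) (nat_lit 14) (nat_lit 4) (nat_lit 384) (nat_lit 348) (nat_lit 288)))))) (XT.nd (nat_lit 312) (nat_lit 228) (nat_lit 0) (XT.nd (nat_lit 156) (nat_lit 228) (nat_lit 0) (XT.nd (nat_lit 78) (nat_lit 0) (nat_lit 0) (XT.lf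 (nat_lit 0) (nat_lit 48931531731) (nat_lit 152) (nat_lit 298198117046) (nat_lit 0) (nat_lit 22668855217) (nat_lit 11) (nat_lit 5) (nat_lit 13) (nat_lit 4) (nat_lit 11) (nat_lit 4) (nat_lit 385) (nat_lit 348) (nat_lit 287)) (XT.lf (nat_lit 0) (nat_lit 194119381469) (nat_lit 152) (nat_lit 51948539585) (nat_lit 0) (nat_lit 167856025359) (nat_lit 11) (nat_lit 5) (nat_lit 13) (nat_lit 4) (nat_lit 11) (nat_lit 4) (nat_lit 386) (nat_lit 348) (nat_lit 286))) (XT.nd (nat_lit 78) (nat_lit 152) (nat_lit 0) (XT.lf (nat_lit 0) (nat_lit 243400272798) (nat_lit 76) (nat_lit 123532062688) (nat_lit 76) (nat_lit 97268115626) (nat_lit 10) (nat_lit 4) (nat_lit 11) (nat_lit 5) (nat_lit 11) (nat_lit 4) (nat_lit 387) (nat_lit 348) (nat_lit 285)) (XT.lf (nat_lit 0) (nat_lit 45137579100) (nat_lit 152) (nat_lit 455684456873) (nat_lit 0) (nat_lit 20818633791) (nat_lit 8) (nat_lit 5) (nat_lit 10) (nat_lit 4) (nat_lit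 8) (nat_lit 4) (nat_lit 388) (nat_lit 348) (nat_lit 284)))) (XT.nd (nat_lit 156) (nat_lit 152) (nat_lit 0) (XT.nd (nat_lit 78) (nat_lit 76) (nat_lit 0) (XT.lf (nat_lit 0) (nat_lit 213314407434) (nat_lit 152) (nat_lit 184371778893) (nat_lit 0) (nat_lit 188995048380) (nat_lit 8) (nat_lit 5) (nat_lit 10) (nat_lit 4) (nat_lit 8) (nat_lit 4) (nat_lit 389) (nat_lit 348) (nat_lit 283)) (XT.lf (nat_lit 0) (nat_lit 134347612631) (nat_lit 76) (nat_lit 275595962703) (nat_lit 76) (nat_lit 251276243871) (nat_lit 7) (nat_lit 4) (nat_lit 8) (nat_lit 5) (nat_lit 8) (nat_lit 4) (nat_lit 390) (nat_lit 348) (nat_lit 282))) (XT.nd (nat_lit 78) (nat_lit 152) (nat_lit 0) (XT.lf (nat_lit 0) (nat_lit 512030022004) (nat_lit 76) (nat_lit 129400081155) (nat_lit 76) (nat_lit 105080049472) (nat_lit 7) (nat_lit 4) (nat_lit 8) (nat_lit 5) (nat_lit 8) (nat_lit 4) (nat_lit 391) (nat_lit 348) (nat_lit 281)) (XT.nd (nat_lit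 78) (nat_lit 0) (nat_lit 0) (XT.lf (nat_lit 0) (nat_lit 63461895249) (nat_lit 152) (nat_lit 739782136250) (nat_lit 0) (nat_lit 40943095501) (nat_lit 5) (nat_lit 5) (nat_lit 7) (nat_lit 4) (nat_lit 5) (nat_lit 4) (nat_lit 392) (nat_lit 348) (nat_lit 280)) (XT.lf (nat_lit 0) (nat_lit 261818941956) (nat_lit 152) (nat_lit 454317976522) (nat_lit 0) (nat_lit 239299923171) (nat_lit 5) (nat_lit 5) (nat_lit 7) (nat_lit 4) (nat_lit 5) (nat_lit 4) (nat_lit 393) (nat_lit 348) (nat_lit 279))))))) (XT.nd (nat_lit 702) (nat_lit 76) (nat_lit 0) (XT.nd (nat_lit 312) (nat_lit 152) (nat_lit 0) (XT.nd (nat_lit 156) (nat_lit 0) (nat_lit 0) (XT.nd (nat_lit 78) (nat_lit 76) (nat_lit 0) (XT.lf (nat_lit 0) (nat_lit 489926050972) (nat_lit 152) (nat_lit 126041400399) (nat_lit 0) (nat_lit 467406841720) (nat_lit 5) (nat_lit 5) (nat_lit 7) (nat_lit 4) (nat_lit 5) (nat_lit 4) (nat_lit 394) (nat_lit 348) (nat_lit 278))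 (XT.lf (nat_lit 0) (nat_lit 264712380037) (nat_lit 76) (nat_lit 493900146543) (nat_lit 76) (nat_lit 471380771667) (nat_lit 4) (nat_lit 4) (nat_lit 5) (nat_lit 5) (nat_lit 5) (nat_lit 4) (nat_lit 395) (nat_lit 348) (nat_lit 277))) (XT.nd (nat_lit 78) (nat_lit 0) (nat_lit 0) (XT.lf (nat_lit 0) (nat_lit 721706174897) (nat_lit 76) (nat_lit 349562577923) (nat_lit 76) (nat_lit 327043059027) (nat_lit 4) (nat_lit 4) (nat_lit 5) (nat_lit 5) (nat_lit 5) (nat_lit 4) (nat_lit 396) (nat_lit 348) (nat_lit 276)) (XT.lf (nat_lit 0) (nat_lit 1247244050345) (nat_lit 76) (nat_lit 183576944856) (nat_lit 76) (nat_lit 161057300724) (nat_lit 4) (nat_lit 4) (nat_lit 5) (nat_lit 5) (nat_lit 5) (nat_lit 4) (nat_lit 397) (nat_lit 348) (nat_lit 275)))) (XT.nd (nat_lit 156) (nat_lit 0) (nat_lit 0) (XT.nd (nat_lit 78) (nat_lit 0) (nat_lit 0) (XT.lf (nat_lit 0) (nat_lit 29472172100) (nat_lit 152) (nat_lit 1776238614971)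 (nat_lit 0) (nat_lit 8620548922) (nat_lit 2) (nat_lit 5) (nat_lit 4) (nat_lit 4) (nat_lit 2) (nat_lit 4) (nat_lit 398) (nat_lit 348) (nat_lit 274)) (XT.lf (nat_lit 0) (nat_lit 254685346488) (nat_lit 152) (nat_lit 1580047431832) (nat_lit 0) (nat_lit 233833635629) (nat_lit 2) (nat_lit 5) (nat_lit 4) (nat_lit 4) (nat_lit 2) (nat_lit 4) (nat_lit 399) (nat_lit 348) (nat_lit 273))) (XT.nd (nat_lit 78) (nat_lit 0) (nat_lit 0) (XT.lf (nat_lit 0) (nat_lit 513678736839) (nat_lit 152) (nat_lit 1354431207847) (nat_lit 0) (nat_lit 492826949735) (nat_lit 2) (nat_lit 5) (nat_lit 4) (nat_lit 4) (nat_lit 2) (nat_lit 4) (nat_lit 400) (nat_lit 348) (nat_lit 272)) (XT.nd (nat_lit 78) (nat_lit 0) (nat_lit 0) (XT.lf (nat_lit 0) (nat_lit 811519605137) (nat_lit 152) (nat_lit 1094975712549) (nat_lit 0) (nat_lit 790667751734) (nat_lit 2) (nat_lit 5) (nat_lit 4) (nat_lit 4) (nat_lit 2) (nat_lit 4) (nat_lit 401) (nat_lit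 348) (nat_lit 271)) (XT.lf (nat_lit 0) (nat_lit 1154035272720) (nat_lit 152) (nat_lit 796604642767) (nat_lit 0) (nat_lit 1133183361665) (nat_lit 2) (nat_lit 5) (nat_lit 4) (nat_lit 4) (nat_lit 2) (nat_lit 4) (nat_lit 402) (nat_lit 348) (nat_lit 270)))))) (XT.nd (nat_lit 390) (nat_lit 0) (nat_lit 0) (XT.nd (nat_lit 156) (nat_lit 76) (nat_lit 0) (XT.nd (nat_lit 78) (nat_lit 0) (nat_lit 0) (XT.lf (nat_lit 0) (nat_lit 1547927133082) (nat_lit 152) (nat_lit 453480303659) (nat_lit 0) (nat_lit 1527075171895) (nat_lit 2) (nat_lit 5) (nat_lit 4) (nat_lit 4) (nat_lit 2) (nat_lit 4) (nat_lit 403) (nat_lit 348) (nat_lit 269)) (XT.lf (nat_lit 0) (nat_lit 2000901766102) (nat_lit 152) (nat_lit 58889392937) (nat_lit 0) (nat_lit 1980049761322) (nat_lit 2) (nat_lit 5) (nat_lit 4) (nat_lit 4) (nat_lit 2) (nat_lit 4) (nat_lit 404) (nat_lit 348) (nat_lit 268))) (XT.nd (nat_lit 78) (nat_lit 0) (nat_lit 0) (XT.lf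 (nat_lit 0) (nat_lit 415682466862) (nat_lit 76) (nat_lit 2116136425409) (nat_lit 76) (nat_lit 2095284382721) (nat_lit 1) (nat_lit 4) (nat_lit 2) (nat_lit 5) (nat_lit 2) (nat_lit 4) (nat_lit 405) (nat_lit 348) (nat_lit 267)) (XT.nd (nat_lit 78) (nat_lit 0) (nat_lit 0) (XT.lf (nat_lit 0) (nat_lit 965004613361) (nat_lit 76) (nat_lit 2179082674534) (nat_lit 76) (nat_lit 2158230598884) (nat_lit 1) (nat_lit 4) (nat_lit 2) (nat_lit 5) (nat_lit 2) (nat_lit 4) (nat_lit 406) (nat_lit 348) (nat_lit 266)) (XT.lf (nat_lit 0) (nat_lit 1596723642701) (nat_lit 76) (nat_lit 2251471603828) (nat_lit 76) (nat_lit 2230619499515) (nat_lit 1) (nat_lit 4) (nat_lit 2) (nat_lit 5) (nat_lit 2) (nat_lit 4) (nat_lit 407) (nat_lit 348) (nat_lit 265))))) (XT.nd (nat_lit 156) (nat_lit 0) (nat_lit 0) (XT.nd (nat_lit 78) (nat_lit 0) (nat_lit 0) (XT.lf (nat_lit 0) (nat_lit 2323199275021) (nat_lit 76) (nat_lit 2334719518429)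 (nat_lit 76) (nat_lit 2313867389191) (nat_lit 1) (nat_lit 4) (nat_lit 2) (nat_lit 5) (nat_lit 2) (nat_lit 4) (nat_lit 408) (nat_lit 348) (nat_lit 264)) (XT.lf (nat_lit 0) (nat_lit 3158645163998) (nat_lit 76) (nat_lit 2430455181883) (nat_lit 76) (nat_lit 2409603030972) (nat_lit 1) (nat_lit 4) (nat_lit 2) (nat_lit 5) (nat_lit 2) (nat_lit 4) (nat_lit 409) (nat_lit 348) (nat_lit 263))) (XT.nd (nat_lit 78) (nat_lit 0) (nat_lit 0) (XT.lf (nat_lit 0) (nat_lit 4119406990067) (nat_lit 76) (nat_lit 2540551683258) (nat_lit 76) (nat_lit 2519699513501) (nat_lit 1) (nat_lit 4) (nat_lit 2) (nat_lit 5) (nat_lit 2) (nat_lit 4) (nat_lit 410) (nat_lit 348) (nat_lit 262)) (XT.nd (nat_lit 78) (nat_lit 0) (nat_lit 0) (XT.lf (nat_lit 0) (nat_lit 5224282267218) (nat_lit 76) (nat_lit 2667163084538) (nat_lit 76) (nat_lit 2646310898392) (nat_lit 1) (nat_lit 4) (nat_lit 2) (nat_lit 5) (nat_lit 2) (nat_lit 4) (nat_lit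 411) (nat_lit 348) (nat_lit 261)) (XT.lf (nat_lit 0) (nat_lit 6494888120437) (nat_lit 76) (nat_lit 2812766565312) (nat_lit 76) (nat_lit 2791914364916) (nat_lit 1) (nat_lit 4) (nat_lit 2) (nat_lit 5) (nat_lit 2) (nat_lit 4) (nat_lit 412) (nat_lit 348) (nat_lit 260))))))))
noncomputable def xc64 : XT := (XT.nd (nat_lit 48828) (nat_lit 0) (nat_lit 1900) (XT.nd (nat_lit 48126) (nat_lit 0) (nat_lit 4636) (XT.nd (nat_lit 312) (nat_lit 0) (nat_lit 0) (XT.nd (nat_lit 156) (nat_lit 0) (nat_lit 0) (XT.nd (nat_lit 78) (nat_lit 0) (nat_lit 0) (XT.lf (nat_lit 0) (nat_lit 7956084229462) (nat_lit 76) (nat_lit 2980210889336) (nat_lit 76) (nat_lit 2959358676547) (nat_lit 1) (nat_lit 4) (nat_lit 2) (nat_lit 5) (nat_lit 2) (nat_lit 4) (nat_lit 413) (nat_lit 348) (nat_lit 259)) (XT.lf (nat_lit 0) (nat_lit 9636459213817) (nat_lit 76) (nat_lit 3172772141209) (nat_lit 76) (nat_lit 3151919917645) (nat_lit 1) (nat_lit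 4) (nat_lit 2) (nat_lit 5) (nat_lit 2) (nat_lit 4) (nat_lit 414) (nat_lit 348) (nat_lit 258))) (XT.nd (nat_lit 78) (nat_lit 0) (nat_lit 0) (XT.lf (nat_lit 0) (nat_lit 11568889975370) (nat_lit 76) (nat_lit 3394217823685) (nat_lit 76) (nat_lit 3373365590751) (nat_lit 1) (nat_lit 4) (nat_lit 2) (nat_lit 5) (nat_lit 2) (nat_lit 4) (nat_lit 415) (nat_lit 348) (nat_lit 257)) (XT.lf (nat_lit 0) (nat_lit 13791184942064) (nat_lit 76) (nat_lit 3648880569683) (nat_lit 76) (nat_lit 3628028328601) (nat_lit 1) (nat_lit 4) (nat_lit 2) (nat_lit 5) (nat_lit 2) (nat_lit 4) (nat_lit 416) (nat_lit 348) (nat_lit 256)))) (XT.nd (nat_lit 156) (nat_lit 0) (nat_lit 0) (XT.nd (nat_lit 78) (nat_lit 0) (nat_lit 0) (XT.lf (nat_lit 0) (nat_lit 16346823798031) (nat_lit 76) (nat_lit 3941742911189) (nat_lit 76) (nat_lit 3920890663022) (nat_lit 1) (nat_lit 4) (nat_lit 2) (nat_lit 5) (nat_lit 2) (nat_lit 4) (nat_lit 417) (nat_lit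 348) (nat_lit 255)) (XT.lf (nat_lit 0) (nat_lit 19285808173060) (nat_lit 76) (nat_lit 4278534763581) (nat_lit 76) (nat_lit 4257682509253) (nat_lit 1) (nat_lit 4) (nat_lit 2) (nat_lit 5) (nat_lit 2) (nat_lit 4) (nat_lit 418) (nat_lit 348) (nat_lit 254))) (XT.nd (nat_lit 78) (nat_lit 0) (nat_lit 0) (XT.lf (nat_lit 0) (nat_lit 22665639935360) (nat_lit 76) (nat_lit 4665845532667) (nat_lit 76) (nat_lit 4644993272981) (nat_lit 1) (nat_lit 4) (nat_lit 2) (nat_lit 5) (nat_lit 2) (nat_lit 4) (nat_lit 419) (nat_lit 348) (nat_lit 253)) (XT.nd (nat_lit 78) (nat_lit 0) (nat_lit 0) (XT.lf (nat_lit 0) (nat_lit 26552446228105) (nat_lit 76) (nat_lit 5111253037841) (nat_lit 76) (nat_lit 5090400773497) (nat_lit 1) (nat_lit 4) (nat_lit 2) (nat_lit 5) (nat_lit 2) (nat_lit 4) (nat_lit 420) (nat_lit 348) (nat_lit 252)) (XT.lf (nat_lit 0) (nat_lit 31022273261370) (nat_lit 76) (nat_lit 5623471773770) (nat_lit 76)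 (nat_lit 5602619505375) (nat_lit 1) (nat_lit 4) (nat_lit 2) (nat_lit 5) (nat_lit 2) (nat_lit 4) (nat_lit 421) (nat_lit 348) (nat_lit 251)))))) (XT.nd (nat_lit 312) (nat_lit 1064) (nat_lit 0) (XT.nd (nat_lit 156) (nat_lit 380) (nat_lit 0) (XT.nd (nat_lit 78) (nat_lit 0) (nat_lit 0) (XT.lf (nat_lit 0) (nat_lit 5598694647) (nat_lit 532) (nat_lit 825310839) (nat_lit 532) (nat_lit 825310839) (nat_lit 81) (nat_lit 3) (nat_lit 88) (nat_lit 3) (nat_lit 88) (nat_lit 5) (nat_lit 349) (nat_lit 349) (nat_lit 322)) (XT.lf (nat_lit 76) (nat_lit 12444597214) (nat_lit 0) (nat_lit 436324006) (nat_lit 532) (nat_lit 2637465092) (nat_lit 82) (nat_lit 5) (nat_lit 81) (nat_lit 3) (nat_lit 88) (nat_lit 5) (nat_lit 350) (nat_lit 349) (nat_lit 321))) (XT.nd (nat_lit 78) (nat_lit 456) (nat_lit 0) (XT.lf (nat_lit 76) (nat_lit 12283178392) (nat_lit 0) (nat_lit 3114075949) (nat_lit 532) (nat_lit 1247452887) (nat_lit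 83) (nat_lit 5) (nat_lit 82) (nat_lit 5) (nat_lit 89) (nat_lit 5) (nat_lit 351) (nat_lit 349) (nat_lit 320)) (XT.lf (nat_lit 0) (nat_lit 946611292) (nat_lit 532) (nat_lit 5455743329) (nat_lit 608) (nat_lit 11487918156) (nat_lit 76) (nat_lit 5) (nat_lit 83) (nat_lit 5) (nat_lit 84) (nat_lit 5) (nat_lit 352) (nat_lit 349) (nat_lit 319)))) (XT.nd (nat_lit 156) (nat_lit 684) (nat_lit 0) (XT.nd (nat_lit 78) (nat_lit 456) (nat_lit 0) (XT.lf (nat_lit 0) (nat_lit 4077707832) (nat_lit 532) (nat_lit 6335683365) (nat_lit 76) (nat_lit 8852165128) (nat_lit 77) (nat_lit 5) (nat_lit 84) (nat_lit 5) (nat_lit 78) (nat_lit 5) (nat_lit 353) (nat_lit 349) (nat_lit 318)) (XT.lf (nat_lit 0) (nat_lit 8425110273) (nat_lit 532) (nat_lit 6911750111) (nat_lit 76) (nat_lit 5450556488) (nat_lit 71) (nat_lit 5) (nat_lit 78) (nat_lit 5) (nat_lit 72) (nat_lit 5) (nat_lit 354) (nat_lit 349) (nat_lit 317))) (XT.nd (nat_lit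 78) (nat_lit 456) (nat_lit 0) (XT.lf (nat_lit 0) (nat_lit 14239368635) (nat_lit 304) (nat_lit 7110713739) (nat_lit 76) (nat_lit 1122308205) (nat_lit 68) (nat_lit 5) (nat_lit 72) (nat_lit 5) (nat_lit 69) (nat_lit 5) (nat_lit 355) (nat_lit 349) (nat_lit 316)) (XT.nd (nat_lit 78) (nat_lit 228) (nat_lit 0) (XT.lf (nat_lit 0) (nat_lit 17377303910) (nat_lit 228) (nat_lit 4542357505) (nat_lit 304) (nat_lit 2410949205) (nat_lit 65) (nat_lit 5) (nat_lit 68) (nat_lit 5) (nat_lit 69) (nat_lit 5) (nat_lit 356) (nat_lit 349) (nat_lit 315)) (XT.lf (nat_lit 0) (nat_lit 5098438588) (nat_lit 228) (nat_lit 6415384550) (nat_lit 76) (nat_lit 14863240565) (nat_lit 62) (nat_lit 5) (nat_lit 65) (nat_lit 5) (nat_lit 63) (nat_lit 5) (nat_lit 357) (nat_lit 349) (nat_lit 314))))))) (XT.nd (nat_lit 702) (nat_lit 1140) (nat_lit 0) (XT.nd (nat_lit 312) (nat_lit 684) (nat_lit 0) (XT.nd (nat_lit 156) (nat_lit 532) (nat_lit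 0) (XT.nd (nat_lit 78) (nat_lit 152) (nat_lit 0) (XT.lf (nat_lit 0) (nat_lit 14668478397) (nat_lit 304) (nat_lit 5333459713) (nat_lit 76) (nat_lit 8637385311) (nat_lit 59) (nat_lit 5) (nat_lit 63) (nat_lit 5) (nat_lit 60) (nat_lit 5) (nat_lit 358) (nat_lit 349) (nat_lit 313)) (XT.lf (nat_lit 0) (nat_lit 26828424221) (nat_lit 228) (nat_lit 3519468540) (nat_lit 76) (nat_lit 800684598) (nat_lit 57) (nat_lit 5) (nat_lit 60) (nat_lit 5) (nat_lit 58) (nat_lit 5) (nat_lit 359) (nat_lit 349) (nat_lit 312))) (XT.nd (nat_lit 78) (nat_lit 304) (nat_lit 0) (XT.lf (nat_lit 0) (nat_lit 7942953133) (nat_lit 228) (nat_lit 1248287691) (nat_lit 76) (nat_lit 24709632793) (nat_lit 54) (nat_lit 5) (nat_lit 57) (nat_lit 5) (nat_lit 55) (nat_lit 5) (nat_lit 360) (nat_lit 349) (nat_lit 311)) (XT.lf (nat_lit 0) (nat_lit 1919058205) (nat_lit 152) (nat_lit 21331347954) (nat_lit 228) (nat_lit 13689781733) (nat_lit 50)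 (nat_lit 5) (nat_lit 52) (nat_lit 5) (nat_lit 53) (nat_lit 5) (nat_lit 361) (nat_lit 349) (nat_lit 310)))) (XT.nd (nat_lit 156) (nat_lit 380) (nat_lit 0) (XT.nd (nat_lit 78) (nat_lit 152) (nat_lit 0) (XT.lf (nat_lit 0) (nat_lit 1970576017) (nat_lit 152) (nat_lit 34045360099) (nat_lit 76) (nat_lit 4292826969) (nat_lit 48) (nat_lit 5) (nat_lit 50) (nat_lit 5) (nat_lit 49) (nat_lit 5) (nat_lit 362) (nat_lit 349) (nat_lit 309)) (XT.lf (nat_lit 0) (nat_lit 11278180475) (nat_lit 152) (nat_lit 9790719936) (nat_lit 228) (nat_lit 22933321343) (nat_lit 46) (nat_lit 5) (nat_lit 48) (nat_lit 5) (nat_lit 49) (nat_lit 5) (nat_lit 363) (nat_lit 349) (nat_lit 308))) (XT.nd (nat_lit 78) (nat_lit 304) (nat_lit 0) (XT.lf (nat_lit 0) (nat_lit 17608059574) (nat_lit 76) (nat_lit 27325779436) (nat_lit 152) (nat_lit 3163714065) (nat_lit 45) (nat_lit 5) (nat_lit 46) (nat_lit 5) (nat_lit 47) (nat_lit 4) (nat_lit 364)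 (nat_lit 349) (nat_lit 307)) (XT.nd (nat_lit 78) (nat_lit 76) (nat_lit 0) (XT.lf (nat_lit 0) (nat_lit 20534580705) (nat_lit 228) (nat_lit 27549492704) (nat_lit 76) (nat_lit 4530075189) (nat_lit 42) (nat_lit 5) (nat_lit 45) (nat_lit 5) (nat_lit 43) (nat_lit 4) (nat_lit 365) (nat_lit 349) (nat_lit 306)) (XT.lf (nat_lit 0) (nat_lit 33844196044) (nat_lit 76) (nat_lit 16217423121) (nat_lit 152) (nat_lit 7543136370) (nat_lit 41) (nat_lit 5) (nat_lit 42) (nat_lit 5) (nat_lit 43) (nat_lit 4) (nat_lit 366) (nat_lit 349) (nat_lit 305)))))) (XT.nd (nat_lit 312) (nat_lit 608) (nat_lit 0) (XT.nd (nat_lit 156) (nat_lit 304) (nat_lit 0) (XT.nd (nat_lit 78) (nat_lit 76) (nat_lit 0) (XT.lf (nat_lit 0) (nat_lit 22062949031) (nat_lit 152) (nat_lit 19204974902) (nat_lit 76) (nat_lit 21842385022) (nat_lit 39) (nat_lit 5) (nat_lit 41) (nat_lit 5) (nat_lit 40) (nat_lit 4) (nat_lit 367) (nat_lit 349) (nat_lit 304))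 (XT.lf (nat_lit 0) (nat_lit 55853668476) (nat_lit 76) (nat_lit 2302757599) (nat_lit 152) (nat_lit 11070147447) (nat_lit 38) (nat_lit 5) (nat_lit 39) (nat_lit 5) (nat_lit 40) (nat_lit 4) (nat_lit 368) (nat_lit 349) (nat_lit 303))) (XT.nd (nat_lit 78) (nat_lit 152) (nat_lit 0) (XT.lf (nat_lit 0) (nat_lit 25565631608) (nat_lit 152) (nat_lit 7124807750) (nat_lit 76) (nat_lit 43258192583) (nat_lit 36) (nat_lit 5) (nat_lit 38) (nat_lit 5) (nat_lit 37) (nat_lit 4) (nat_lit 369) (nat_lit 349) (nat_lit 302)) (XT.lf (nat_lit 0) (nat_lit 529542556) (nat_lit 76) (nat_lit 69371244153) (nat_lit 76) (nat_lit 13526451738) (nat_lit 34) (nat_lit 4) (nat_lit 35) (nat_lit 5) (nat_lit 35) (nat_lit 4) (nat_lit 370) (nat_lit 349) (nat_lit 301)))) (XT.nd (nat_lit 156) (nat_lit 380) (nat_lit 0) (XT.nd (nat_lit 78) (nat_lit 76) (nat_lit 0) (XT.lf (nat_lit 0) (nat_lit 9106818255) (nat_lit 76) (nat_lit 22124196688)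 (nat_lit 152) (nat_lit 60435813176) (nat_lit 32) (nat_lit 5) (nat_lit 33) (nat_lit 5) (nat_lit 34) (nat_lit 4) (nat_lit 371) (nat_lit 349) (nat_lit 300)) (XT.lf (nat_lit 0) (nat_lit 18672086056) (nat_lit 76) (nat_lit 66934634784) (nat_lit 76) (nat_lit 15211086344) (nat_lit 31) (nat_lit 4) (nat_lit 32) (nat_lit 5) (nat_lit 32) (nat_lit 4) (nat_lit 372) (nat_lit 349) (nat_lit 299))) (XT.nd (nat_lit 78) (nat_lit 228) (nat_lit 0) (XT.lf (nat_lit 0) (nat_lit 28788955278) (nat_lit 76) (nat_lit 9921975101) (nat_lit 152) (nat_lit 72259358491) (nat_lit 29) (nat_lit 5) (nat_lit 30) (nat_lit 5) (nat_lit 31) (nat_lit 4) (nat_lit 373) (nat_lit 349) (nat_lit 298)) (XT.nd (nat_lit 78) (nat_lit 152) (nat_lit 0) (XT.lf (nat_lit 0) (nat_lit 38983609845) (nat_lit 76) (nat_lit 65577089223) (nat_lit 76) (nat_lit 17674127571) (nat_lit 28) (nat_lit 4) (nat_lit 29) (nat_lit 5) (nat_lit 29) (nat_lit 4) (nat_lit 374)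 (nat_lit 349) (nat_lit 297)) (XT.lf (nat_lit 0) (nat_lit 46806156152) (nat_lit 152) (nat_lit 85531532871) (nat_lit 0) (nat_lit 2447522345) (nat_lit 26) (nat_lit 5) (nat_lit 28) (nat_lit 4) (nat_lit 26) (nat_lit 4) (nat_lit 375) (nat_lit 349) (nat_lit 296))))))))
noncomputable def xc65 : XT := (XT.nd (nat_lit 1404) (nat_lit 304) (nat_lit 0) (XT.nd (nat_lit 702) (nat_lit 684) (nat_lit 0) (XT.nd (nat_lit 312) (nat_lit 456) (nat_lit 0) (XT.nd (nat_lit 156) (nat_lit 228) (nat_lit 0) (XT.nd (nat_lit 78) (nat_lit 152) (nat_lit 0) (XT.lf (nat_lit 0) (nat_lit 58169797714) (nat_lit 76) (nat_lit 67458246109) (nat_lit 76) (nat_lit 23096099533) (nat_lit 25) (nat_lit 4) (nat_lit 26) (nat_lit 5) (nat_lit 26) (nat_lit 4) (nat_lit 376) (nat_lit 349) (nat_lit 295)) (XT.lf (nat_lit 0) (nat_lit 53384104335) (nat_lit 152) (nat_lit 98610112784) (nat_lit 0) (nat_lit 12305214374) (nat_lit 23) (nat_lit 5) (nat_lit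 25) (nat_lit 4) (nat_lit 23) (nat_lit 4) (nat_lit 377) (nat_lit 349) (nat_lit 294))) (XT.nd (nat_lit 78) (nat_lit 152) (nat_lit 0) (XT.lf (nat_lit 0) (nat_lit 69746023386) (nat_lit 76) (nat_lit 76498158020) (nat_lit 76) (nat_lit 35416808653) (nat_lit 22) (nat_lit 4) (nat_lit 23) (nat_lit 5) (nat_lit 23) (nat_lit 4) (nat_lit 378) (nat_lit 349) (nat_lit 293)) (XT.lf (nat_lit 0) (nat_lit 53856065784) (nat_lit 152) (nat_lit 131454320402) (nat_lit 0) (nat_lit 15815799136) (nat_lit 20) (nat_lit 5) (nat_lit 22) (nat_lit 4) (nat_lit 20) (nat_lit 4) (nat_lit 379) (nat_lit 349) (nat_lit 292)))) (XT.nd (nat_lit 156) (nat_lit 228) (nat_lit 0) (XT.nd (nat_lit 78) (nat_lit 152) (nat_lit 0) (XT.lf (nat_lit 0) (nat_lit 61920636866) (nat_lit 76) (nat_lit 99499563230) (nat_lit 76) (nat_lit 61457574670) (nat_lit 19) (nat_lit 4) (nat_lit 20) (nat_lit 5) (nat_lit 20) (nat_lit 4) (nat_lit 380) (nat_lit 349) (nat_lit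 291)) (XT.lf (nat_lit 0) (nat_lit 40521163164) (nat_lit 152) (nat_lit 201591077858) (nat_lit 0) (nat_lit 5295713281) (nat_lit 17) (nat_lit 5) (nat_lit 19) (nat_lit 4) (nat_lit 17) (nat_lit 4) (nat_lit 381) (nat_lit 349) (nat_lit 290))) (XT.nd (nat_lit 78) (nat_lit 152) (nat_lit 0) (XT.lf (nat_lit 0) (nat_lit 14231793924) (nat_lit 76) (nat_lit 147922545122) (nat_lit 76) (nat_lit 112695889672) (nat_lit 16) (nat_lit 4) (nat_lit 17) (nat_lit 5) (nat_lit 17) (nat_lit 4) (nat_lit 382) (nat_lit 349) (nat_lit 289)) (XT.nd (nat_lit 78) (nat_lit 76) (nat_lit 0) (XT.lf (nat_lit 0) (nat_lit 1855809721) (nat_lit 152) (nat_lit 31367619549) (nat_lit 76) (nat_lit 272712776052) (nat_lit 15) (nat_lit 5) (nat_lit 17) (nat_lit 5) (nat_lit 16) (nat_lit 4) (nat_lit 383) (nat_lit 349) (nat_lit 288)) (XT.lf (nat_lit 0) (nat_lit 135505620208) (nat_lit 152) (nat_lit 102371696264) (nat_lit 0) (nat_lit 102886531919)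 (nat_lit 14) (nat_lit 5) (nat_lit 16) (nat_lit 4) (nat_lit 14) (nat_lit 4) (nat_lit 384) (nat_lit 349) (nat_lit 287)))))) (XT.nd (nat_lit 312) (nat_lit 380) (nat_lit 0) (XT.nd (nat_lit 156) (nat_lit 76) (nat_lit 0) (XT.nd (nat_lit 78) (nat_lit 152) (nat_lit 0) (XT.lf (nat_lit 0) (nat_lit 177705956162) (nat_lit 76) (nat_lit 117619836430) (nat_lit 76) (nat_lit 85000014179) (nat_lit 13) (nat_lit 4) (nat_lit 14) (nat_lit 5) (nat_lit 14) (nat_lit 4) (nat_lit 385) (nat_lit 349) (nat_lit 286)) (XT.lf (nat_lit 0) (nat_lit 56345078713) (nat_lit 152) (nat_lit 342776346202) (nat_lit 0) (nat_lit 26140948639) (nat_lit 11) (nat_lit 5) (nat_lit 13) (nat_lit 4) (nat_lit 11) (nat_lit 4) (nat_lit 386) (nat_lit 349) (nat_lit 285))) (XT.nd (nat_lit 78) (nat_lit 76) (nat_lit 0) (XT.lf (nat_lit 0) (nat_lit 223301477578) (nat_lit 152) (nat_lit 59609091479) (nat_lit 0) (nat_lit 193096833633) (nat_lit 11) (nat_lit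 5) (nat_lit 13) (nat_lit 4) (nat_lit 11) (nat_lit 4) (nat_lit 387) (nat_lit 349) (nat_lit 284)) (XT.lf (nat_lit 0) (nat_lit 280030892555) (nat_lit 76) (nat_lit 142000009604) (nat_lit 76) (nat_lit 111794918814) (nat_lit 10) (nat_lit 4) (nat_lit 11) (nat_lit 5) (nat_lit 11) (nat_lit 4) (nat_lit 388) (nat_lit 349) (nat_lit 283)))) (XT.nd (nat_lit 156) (nat_lit 228) (nat_lit 0) (XT.nd (nat_lit 78) (nat_lit 0) (nat_lit 0) (XT.lf (nat_lit 0) (nat_lit 51964723492) (nat_lit 152) (nat_lit 523920838675) (nat_lit 0) (nat_lit 23996687056) (nat_lit 8) (nat_lit 5) (nat_lit 10) (nat_lit 4) (nat_lit 8) (nat_lit 4) (nat_lit 389) (nat_lit 349) (nat_lit 282)) (XT.lf (nat_lit 0) (nat_lit 245360705530) (nat_lit 152) (nat_lit 211926426832) (nat_lit 0) (nat_lit 217392356243) (nat_lit 8) (nat_lit 5) (nat_lit 10) (nat_lit 4) (nat_lit 8) (nat_lit 4) (nat_lit 390) (nat_lit 349) (nat_lit 281))) (XT.nd (nat_lit 78) (nat_lit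 152) (nat_lit 0) (XT.lf (nat_lit 0) (nat_lit 154592314210) (nat_lit 76) (nat_lit 316887751297) (nat_lit 76) (nat_lit 288919129966) (nat_lit 7) (nat_lit 4) (nat_lit 8) (nat_lit 5) (nat_lit 8) (nat_lit 4) (nat_lit 391) (nat_lit 349) (nat_lit 280)) (XT.nd (nat_lit 78) (nat_lit 152) (nat_lit 0) (XT.lf (nat_lit 0) (nat_lit 588915011986) (nat_lit 76) (nat_lit 148768696970) (nat_lit 76) (nat_lit 120799839079) (nat_lit 7) (nat_lit 4) (nat_lit 8) (nat_lit 5) (nat_lit 8) (nat_lit 4) (nat_lit 392) (nat_lit 349) (nat_lit 279)) (XT.lf (nat_lit 0) (nat_lit 73018808482) (nat_lit 152) (nat_lit 850671849665) (nat_lit 0) (nat_lit 47121527375) (nat_lit 5) (nat_lit 5) (nat_lit 7) (nat_lit 4) (nat_lit 5) (nat_lit 4) (nat_lit 393) (nat_lit 349) (nat_lit 278))))))) (XT.nd (nat_lit 702) (nat_lit 76) (nat_lit 0) (XT.nd (nat_lit 312) (nat_lit 152) (nat_lit 0) (XT.nd (nat_lit 156) (nat_lit 76) (nat_lit 0) (XT.nd (nat_lit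 78) (nat_lit 0) (nat_lit 0) (XT.lf (nat_lit 0) (nat_lit 301124504072) (nat_lit 152) (nat_lit 522398188633) (nat_lit 0) (nat_lit 275227057341) (nat_lit 5) (nat_lit 5) (nat_lit 7) (nat_lit 4) (nat_lit 5) (nat_lit 4) (nat_lit 394) (nat_lit 349) (nat_lit 277)) (XT.lf (nat_lit 0) (nat_lit 563443411507) (nat_lit 152) (nat_lit 144888928400) (nat_lit 0) (nat_lit 537545820756) (nat_lit 5) (nat_lit 5) (nat_lit 7) (nat_lit 4) (nat_lit 5) (nat_lit 4) (nat_lit 395) (nat_lit 349) (nat_lit 276))) (XT.nd (nat_lit 78) (nat_lit 0) (nat_lit 0) (XT.lf (nat_lit 0) (nat_lit 304472951957) (nat_lit 76) (nat_lit 567957487097) (nat_lit 76) (nat_lit 542059771111) (nat_lit 4) (nat_lit 4) (nat_lit 5) (nat_lit 5) (nat_lit 5) (nat_lit 4) (nat_lit 396) (nat_lit 349) (nat_lit 275)) (XT.lf (nat_lit 0) (nat_lit 830008809754) (nat_lit 76) (nat_lit 401972893806) (nat_lit 76) (nat_lit 376075068919) (nat_lit 4) (nat_lit 4) (nat_lit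 5) (nat_lit 5) (nat_lit 5) (nat_lit 4) (nat_lit 397) (nat_lit 349) (nat_lit 274)))) (XT.nd (nat_lit 156) (nat_lit 0) (nat_lit 0) (XT.nd (nat_lit 78) (nat_lit 152) (nat_lit 0) (XT.lf (nat_lit 0) (nat_lit 1434371274090) (nat_lit 76) (nat_lit 211092555449) (nat_lit 76) (nat_lit 185194635866) (nat_lit 4) (nat_lit 4) (nat_lit 5) (nat_lit 5) (nat_lit 5) (nat_lit 4) (nat_lit 398) (nat_lit 349) (nat_lit 273)) (XT.lf (nat_lit 0) (nat_lit 33911950719) (nat_lit 152) (nat_lit 2042635250058) (nat_lit 0) (nat_lit 9932319305) (nat_lit 2) (nat_lit 5) (nat_lit 4) (nat_lit 4) (nat_lit 2) (nat_lit 4) (nat_lit 399) (nat_lit 349) (nat_lit 272))) (XT.nd (nat_lit 78) (nat_lit 0) (nat_lit 0) (XT.lf (nat_lit 0) (nat_lit 292904629160) (nat_lit 152) (nat_lit 1817020496904) (nat_lit 0) (nat_lit 268924931447) (nat_lit 2) (nat_lit 5) (nat_lit 4) (nat_lit 4) (nat_lit 2) (nat_lit 4) (nat_lit 400) (nat_lit 349) (nat_lit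 271)) (XT.nd (nat_lit 78) (nat_lit 0) (nat_lit 0) (XT.lf (nat_lit 0) (nat_lit 590744878407) (nat_lit 152) (nat_lit 1557566280587) (nat_lit 0) (nat_lit 566765123042) (nat_lit 2) (nat_lit 5) (nat_lit 4) (nat_lit 4) (nat_lit 2) (nat_lit 4) (nat_lit 401) (nat_lit 349) (nat_lit 270)) (XT.lf (nat_lit 0) (nat_lit 933260007684) (nat_lit 152) (nat_lit 1259196322964) (nat_lit 0) (nat_lit 909280202187) (nat_lit 2) (nat_lit 5) (nat_lit 4) (nat_lit 4) (nat_lit 2) (nat_lit 4) (nat_lit 402) (nat_lit 349) (nat_lit 269)))))) (XT.nd (nat_lit 390) (nat_lit 0) (nat_lit 0) (XT.nd (nat_lit 156) (nat_lit 76) (nat_lit 0) (XT.nd (nat_lit 78) (nat_lit 0) (nat_lit 0) (XT.lf (nat_lit 0) (nat_lit 1327151399955) (nat_lit 152) (nat_lit 916072950950) (nat_lit 0) (nat_lit 1303171550864) (nat_lit 2) (nat_lit 5) (nat_lit 4) (nat_lit 4) (nat_lit 2) (nat_lit 4) (nat_lit 403) (nat_lit 349) (nat_lit 268)) (XT.lf (nat_lit 0) (nat_lit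 1780125625938) (nat_lit 152) (nat_lit 521482881180) (nat_lit 0) (nat_lit 1756145738941) (nat_lit 2) (nat_lit 5) (nat_lit 4) (nat_lit 4) (nat_lit 2) (nat_lit 4) (nat_lit 404) (nat_lit 349) (nat_lit 267))) (XT.nd (nat_lit 78) (nat_lit 76) (nat_lit 0) (XT.lf (nat_lit 0) (nat_lit 2301045224838) (nat_lit 152) (nat_lit 67705873158) (nat_lit 0) (nat_lit 2277065304877) (nat_lit 2) (nat_lit 5) (nat_lit 4) (nat_lit 4) (nat_lit 2) (nat_lit 4) (nat_lit 405) (nat_lit 349) (nat_lit 266)) (XT.nd (nat_lit 78) (nat_lit 0) (nat_lit 0) (XT.lf (nat_lit 0) (nat_lit 478050332680) (nat_lit 76) (nat_lit 2433548891167) (nat_lit 76) (nat_lit 2409568942544) (nat_lit 1) (nat_lit 4) (nat_lit 2) (nat_lit 5) (nat_lit 2) (nat_lit 4) (nat_lit 406) (nat_lit 349) (nat_lit 265)) (XT.lf (nat_lit 0) (nat_lit 1109768779964) (nat_lit 76) (nat_lit 2505938120885) (nat_lit 76) (nat_lit 2481958147338) (nat_lit 1) (nat_lit 4) (nat_lit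 2) (nat_lit 5) (nat_lit 2) (nat_lit 4) (nat_lit 407) (nat_lit 349) (nat_lit 264))))) (XT.nd (nat_lit 156) (nat_lit 0) (nat_lit 0) (XT.nd (nat_lit 78) (nat_lit 0) (nat_lit 0) (XT.lf (nat_lit 0) (nat_lit 1836243906148) (nat_lit 76) (nat_lit 2589186296725) (nat_lit 76) (nat_lit 2565206301504) (nat_lit 1) (nat_lit 4) (nat_lit 2) (nat_lit 5) (nat_lit 2) (nat_lit 4) (nat_lit 408) (nat_lit 349) (nat_lit 263)) (XT.lf (nat_lit 0) (nat_lit 2671689355007) (nat_lit 76) (nat_lit 2684922187343) (nat_lit 76) (nat_lit 2660942173276) (nat_lit 1) (nat_lit 4) (nat_lit 2) (nat_lit 5) (nat_lit 2) (nat_lit 4) (nat_lit 409) (nat_lit 349) (nat_lit 262))) (XT.nd (nat_lit 78) (nat_lit 0) (nat_lit 0) (XT.lf (nat_lit 0) (nat_lit 3632450798365) (nat_lit 76) (nat_lit 2795018886253) (nat_lit 76) (nat_lit 2771038855797) (nat_lit 1) (nat_lit 4) (nat_lit 2) (nat_lit 5) (nat_lit 2) (nat_lit 4) (nat_lit 410) (nat_lit 349) (nat_lit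 261)) (XT.nd (nat_lit 78) (nat_lit 0) (nat_lit 0) (XT.lf (nat_lit 0) (nat_lit 4737325742723) (nat_lit 76) (nat_lit 2921630459301) (nat_lit 76) (nat_lit 2897650414594) (nat_lit 1) (nat_lit 4) (nat_lit 2) (nat_lit 5) (nat_lit 2) (nat_lit 4) (nat_lit 411) (nat_lit 349) (nat_lit 260)) (XT.lf (nat_lit 0) (nat_lit 6007931306558) (nat_lit 76) (nat_lit 3067234089440) (nat_lit 76) (nat_lit 3043254032341) (nat_lit 1) (nat_lit 4) (nat_lit 2) (nat_lit 5) (nat_lit 2) (nat_lit 4) (nat_lit 412) (nat_lit 349) (nat_lit 259))))))))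
noncomputable def xc66 : XT := (XT.nd (nat_lit 48906) (nat_lit 0) (nat_lit 1824) (XT.nd (nat_lit 48204) (nat_lit 0) (nat_lit 4636) (XT.nd (nat_lit 312) (nat_lit 0) (nat_lit 0) (XT.nd (nat_lit 156) (nat_lit 0) (nat_lit 0) (XT.nd (nat_lit 78) (nat_lit 0) (nat_lit 0) (XT.lf (nat_lit 0) (nat_lit 7469127163944) (nat_lit 76) (nat_lit 3234678543345) (nat_lit 76) (nat_lit 3210698475471) (nat_lit 1) (nat_lit 4) (nat_lit 2) (nat_lit 5) (nat_lit 2) (nat_lit 4) (nat_lit 413) (nat_lit 349) (nat_lit 258)) (XT.lf (nat_lit 0) (nat_lit 9149501929482) (nat_lit 76) (nat_lit 3427239908159) (nat_lit 76) (nat_lit 3403259830914) (nat_lit 1) (nat_lit 4) (nat_lit 2) (nat_lit 5) (nat_lit 2) (nat_lit 4) (nat_lit 414) (nat_lit 349) (nat_lit 257))) (XT.nd (nat_lit 78) (nat_lit 0) (nat_lit 0) (XT.lf (nat_lit 0) (nat_lit 11081932500760) (nat_lit 76) (nat_lit 3648685688844) (nat_lit 76) (nat_lit 3624705603452) (nat_lit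 1) (nat_lit 4) (nat_lit 2) (nat_lit 5) (nat_lit 2) (nat_lit 4) (nat_lit 415) (nat_lit 349) (nat_lit 256)) (XT.lf (nat_lit 0) (nat_lit 13304227301997) (nat_lit 76) (nat_lit 3903348520242) (nat_lit 76) (nat_lit 3879368427764) (nat_lit 1) (nat_lit 4) (nat_lit 2) (nat_lit 5) (nat_lit 2) (nat_lit 4) (nat_lit 416) (nat_lit 349) (nat_lit 255)))) (XT.nd (nat_lit 156) (nat_lit 0) (nat_lit 0) (XT.nd (nat_lit 78) (nat_lit 0) (nat_lit 0) (XT.lf (nat_lit 0) (nat_lit 15859866014088) (nat_lit 76) (nat_lit 4196210936008) (nat_lit 76) (nat_lit 4172230837370) (nat_lit 1) (nat_lit 4) (nat_lit 2) (nat_lit 5) (nat_lit 2) (nat_lit 4) (nat_lit 417) (nat_lit 349) (nat_lit 254)) (XT.lf (nat_lit 0) (nat_lit 18798850264009) (nat_lit 76) (nat_lit 4533002852974) (nat_lit 76) (nat_lit 4509022748979) (nat_lit 1) (nat_lit 4) (nat_lit 2) (nat_lit 5) (nat_lit 2) (nat_lit 4) (nat_lit 418) (nat_lit 349) (nat_lit 253))) (XT.nd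 (nat_lit 78) (nat_lit 0) (nat_lit 0) (XT.lf (nat_lit 0) (nat_lit 22178681917518) (nat_lit 76) (nat_lit 4920313678211) (nat_lit 76) (nat_lit 4896333569557) (nat_lit 1) (nat_lit 4) (nat_lit 2) (nat_lit 5) (nat_lit 2) (nat_lit 4) (nat_lit 419) (nat_lit 349) (nat_lit 252)) (XT.nd (nat_lit 78) (nat_lit 0) (nat_lit 0) (XT.lf (nat_lit 0) (nat_lit 26065488115663) (nat_lit 76) (nat_lit 5365721232213) (nat_lit 76) (nat_lit 5341741119508) (nat_lit 1) (nat_lit 4) (nat_lit 2) (nat_lit 5) (nat_lit 2) (nat_lit 4) (nat_lit 420) (nat_lit 349) (nat_lit 251)) (XT.lf (nat_lit 0) (nat_lit 30535315066667) (nat_lit 76) (nat_lit 5877940010600) (nat_lit 76) (nat_lit 5853959894373) (nat_lit 1) (nat_lit 4) (nat_lit 2) (nat_lit 5) (nat_lit 2) (nat_lit 4) (nat_lit 421) (nat_lit 349) (nat_lit 250)))))) (XT.nd (nat_lit 312) (nat_lit 1064) (nat_lit 0) (XT.nd (nat_lit 156) (nat_lit 380) (nat_lit 0) (XT.nd (nat_lit 78) (nat_lit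 0) (nat_lit 0) (XT.lf (nat_lit 0) (nat_lit 6960389824) (nat_lit 532) (nat_lit 667216564) (nat_lit 532) (nat_lit 667216564) (nat_lit 81) (nat_lit 3) (nat_lit 88) (nat_lit 3) (nat_lit 88) (nat_lit 5) (nat_lit 350) (nat_lit 350) (nat_lit 320)) (XT.lf (nat_lit 76) (nat_lit 14827347277) (nat_lit 0) (nat_lit 905759881) (nat_lit 532) (nat_lit 2039190597) (nat_lit 82) (nat_lit 5) (nat_lit 81) (nat_lit 3) (nat_lit 88) (nat_lit 5) (nat_lit 351) (nat_lit 350) (nat_lit 319))) (XT.nd (nat_lit 78) (nat_lit 456) (nat_lit 0) (XT.lf (nat_lit 76) (nat_lit 14674522949) (nat_lit 0) (nat_lit 3837112741) (nat_lit 532) (nat_lit 565183137) (nat_lit 83) (nat_lit 5) (nat_lit 82) (nat_lit 5) (nat_lit 89) (nat_lit 5) (nat_lit 352) (nat_lit 350) (nat_lit 318)) (XT.lf (nat_lit 0) (nat_lit 1815278171) (nat_lit 532) (nat_lit 5668499712) (nat_lit 608) (nat_lit 13031731884) (nat_lit 76) (nat_lit 5) (nat_lit 83) (nat_lit 5)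 (nat_lit 84) (nat_lit 5) (nat_lit 353) (nat_lit 350) (nat_lit 317)))) (XT.nd (nat_lit 156) (nat_lit 684) (nat_lit 0) (XT.nd (nat_lit 78) (nat_lit 456) (nat_lit 0) (XT.lf (nat_lit 0) (nat_lit 5332401790) (nat_lit 532) (nat_lit 6677740925) (nat_lit 76) (nat_lit 10093656287) (nat_lit 77) (nat_lit 5) (nat_lit 84) (nat_lit 5) (nat_lit 78) (nat_lit 5) (nat_lit 354) (nat_lit 350) (nat_lit 316)) (XT.lf (nat_lit 0) (nat_lit 10261052541) (nat_lit 532) (nat_lit 7345395229) (nat_lit 76) (nat_lit 6253179099) (nat_lit 71) (nat_lit 5) (nat_lit 78) (nat_lit 5) (nat_lit 72) (nat_lit 5) (nat_lit 355) (nat_lit 350) (nat_lit 315))) (XT.nd (nat_lit 78) (nat_lit 456) (nat_lit 0) (XT.lf (nat_lit 0) (nat_lit 16887087202) (nat_lit 304) (nat_lit 7585268807) (nat_lit 76) (nat_lit 1329836376) (nat_lit 68) (nat_lit 5) (nat_lit 72) (nat_lit 5) (nat_lit 69) (nat_lit 5) (nat_lit 356) (nat_lit 350) (nat_lit 314)) (XT.nd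 (nat_lit 78) (nat_lit 228) (nat_lit 0) (XT.lf (nat_lit 0) (nat_lit 20525837237) (nat_lit 228) (nat_lit 5139862025) (nat_lit 304) (nat_lit 2277758714) (nat_lit 65) (nat_lit 5) (nat_lit 68) (nat_lit 5) (nat_lit 69) (nat_lit 5) (nat_lit 357) (nat_lit 350) (nat_lit 313)) (XT.lf (nat_lit 0) (nat_lit 6286792725) (nat_lit 228) (nat_lit 6827455051) (nat_lit 76) (nat_lit 17185410196) (nat_lit 62) (nat_lit 5) (nat_lit 65) (nat_lit 5) (nat_lit 63) (nat_lit 5) (nat_lit 358) (nat_lit 350) (nat_lit 312))))))) (XT.nd (nat_lit 702) (nat_lit 1216) (nat_lit 0) (XT.nd (nat_lit 312) (nat_lit 684) (nat_lit 0) (XT.nd (nat_lit 156) (nat_lit 532) (nat_lit 0) (XT.nd (nat_lit 78) (nat_lit 152) (nat_lit 0) (XT.lf (nat_lit 0) (nat_lit 17252164184) (nat_lit 304) (nat_lit 5602275488) (nat_lit 76) (nat_lit 10050041125) (nat_lit 59) (nat_lit 5) (nat_lit 63) (nat_lit 5) (nat_lit 60) (nat_lit 5) (nat_lit 359) (nat_lit 350)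 (nat_lit 311)) (XT.lf (nat_lit 0) (nat_lit 31201179893) (nat_lit 228) (nat_lit 3536876858) (nat_lit 76) (nat_lit 1054868704) (nat_lit 57) (nat_lit 5) (nat_lit 60) (nat_lit 5) (nat_lit 58) (nat_lit 5) (nat_lit 360) (nat_lit 350) (nat_lit 310))) (XT.nd (nat_lit 78) (nat_lit 304) (nat_lit 0) (XT.lf (nat_lit 0) (nat_lit 9456883075) (nat_lit 228) (nat_lit 951201965) (nat_lit 76) (nat_lit 28552073043) (nat_lit 54) (nat_lit 5) (nat_lit 57) (nat_lit 5) (nat_lit 55) (nat_lit 5) (nat_lit 361) (nat_lit 350) (nat_lit 309)) (XT.lf (nat_lit 0) (nat_lit 2694297234) (nat_lit 152) (nat_lit 24350138526) (nat_lit 228) (nat_lit 15412221413) (nat_lit 50) (nat_lit 5) (nat_lit 52) (nat_lit 5) (nat_lit 53) (nat_lit 5) (nat_lit 362) (nat_lit 350) (nat_lit 308)))) (XT.nd (nat_lit 156) (nat_lit 380) (nat_lit 0) (XT.nd (nat_lit 78) (nat_lit 152) (nat_lit 0) (XT.lf (nat_lit 0) (nat_lit 2554959194) (nat_lit 152) (nat_lit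 38672299794) (nat_lit 76) (nat_lit 5104681478) (nat_lit 48) (nat_lit 5) (nat_lit 50) (nat_lit 5) (nat_lit 49) (nat_lit 5) (nat_lit 363) (nat_lit 350) (nat_lit 307)) (XT.lf (nat_lit 0) (nat_lit 13409153742) (nat_lit 152) (nat_lit 11081773242) (nat_lit 228) (nat_lit 26090663721) (nat_lit 46) (nat_lit 5) (nat_lit 48) (nat_lit 5) (nat_lit 49) (nat_lit 5) (nat_lit 364) (nat_lit 350) (nat_lit 306))) (XT.nd (nat_lit 78) (nat_lit 304) (nat_lit 0) (XT.lf (nat_lit 0) (nat_lit 20666615747) (nat_lit 76) (nat_lit 31248607374) (nat_lit 152) (nat_lit 3377633044) (nat_lit 45) (nat_lit 5) (nat_lit 46) (nat_lit 5) (nat_lit 47) (nat_lit 4) (nat_lit 365) (nat_lit 350) (nat_lit 305)) (XT.nd (nat_lit 78) (nat_lit 76) (nat_lit 0) (XT.lf (nat_lit 0) (nat_lit 23843616472) (nat_lit 228) (nat_lit 31274006357) (nat_lit 76) (nat_lit 5370319868) (nat_lit 42) (nat_lit 5) (nat_lit 45) (nat_lit 5) (nat_lit 43) (nat_lit 4)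 (nat_lit 366) (nat_lit 350) (nat_lit 304)) (XT.lf (nat_lit 0) (nat_lit 39294208131) (nat_lit 76) (nat_lit 18484632605) (nat_lit 152) (nat_lit 8449972181) (nat_lit 41) (nat_lit 5) (nat_lit 42) (nat_lit 5) (nat_lit 43) (nat_lit 4) (nat_lit 367) (nat_lit 350) (nat_lit 303)))))) (XT.nd (nat_lit 390) (nat_lit 532) (nat_lit 0) (XT.nd (nat_lit 156) (nat_lit 456) (nat_lit 0) (XT.nd (nat_lit 78) (nat_lit 76) (nat_lit 0) (XT.lf (nat_lit 0) (nat_lit 25570222997) (nat_lit 152) (nat_lit 21721906917) (nat_lit 76) (nat_lit 25268884643) (nat_lit 39) (nat_lit 5) (nat_lit 41) (nat_lit 5) (nat_lit 40) (nat_lit 4) (nat_lit 368) (nat_lit 350) (nat_lit 302)) (XT.lf (nat_lit 0) (nat_lit 64564737905) (nat_lit 76) (nat_lit 2495188688) (nat_lit 152) (nat_lit 12536217671) (nat_lit 38) (nat_lit 5) (nat_lit 39) (nat_lit 5) (nat_lit 40) (nat_lit 4) (nat_lit 369) (nat_lit 350) (nat_lit 301))) (XT.nd (nat_lit 78) (nat_lit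 304) (nat_lit 0) (XT.lf (nat_lit 0) (nat_lit 29572152982) (nat_lit 152) (nat_lit 7869820732) (nat_lit 76) (nat_lit 49885208939) (nat_lit 36) (nat_lit 5) (nat_lit 38) (nat_lit 5) (nat_lit 37) (nat_lit 4) (nat_lit 370) (nat_lit 350) (nat_lit 300)) (XT.nd (nat_lit 78) (nat_lit 152) (nat_lit 0) (XT.lf (nat_lit 0) (nat_lit 930524001) (nat_lit 76) (nat_lit 79622888784) (nat_lit 76) (nat_lit 15374502133) (nat_lit 34) (nat_lit 4) (nat_lit 35) (nat_lit 5) (nat_lit 35) (nat_lit 4) (nat_lit 371) (nat_lit 350) (nat_lit 299)) (XT.lf (nat_lit 0) (nat_lit 10775464939) (nat_lit 76) (nat_lit 25296930051) (nat_lit 152) (nat_lit 69331912156) (nat_lit 32) (nat_lit 5) (nat_lit 33) (nat_lit 5) (nat_lit 34) (nat_lit 4) (nat_lit 372) (nat_lit 350) (nat_lit 298))))) (XT.nd (nat_lit 156) (nat_lit 304) (nat_lit 0) (XT.nd (nat_lit 78) (nat_lit 152) (nat_lit 0) (XT.lf (nat_lit 0) (nat_lit 21758178801) (nat_lit 76) (nat_lit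 76835747336) (nat_lit 76) (nat_lit 17334850293) (nat_lit 31) (nat_lit 4) (nat_lit 32) (nat_lit 5) (nat_lit 32) (nat_lit 4) (nat_lit 373) (nat_lit 350) (nat_lit 297)) (XT.lf (nat_lit 0) (nat_lit 33375666181) (nat_lit 76) (nat_lit 11278793007) (nat_lit 152) (nat_lit 82950416996) (nat_lit 29) (nat_lit 5) (nat_lit 30) (nat_lit 5) (nat_lit 31) (nat_lit 4) (nat_lit 374) (nat_lit 350) (nat_lit 296))) (XT.nd (nat_lit 78) (nat_lit 228) (nat_lit 0) (XT.lf (nat_lit 0) (nat_lit 45083937191) (nat_lit 76) (nat_lit 75288729990) (nat_lit 76) (nat_lit 20187150152) (nat_lit 28) (nat_lit 4) (nat_lit 29) (nat_lit 5) (nat_lit 29) (nat_lit 4) (nat_lit 375) (nat_lit 350) (nat_lit 295)) (XT.nd (nat_lit 78) (nat_lit 76) (nat_lit 0) (XT.lf (nat_lit 0) (nat_lit 53949709544) (nat_lit 152) (nat_lit 98116796087) (nat_lit 0) (nat_lit 2926673630) (nat_lit 26) (nat_lit 5) (nat_lit 28) (nat_lit 4) (nat_lit 26) (nat_lit 4)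 (nat_lit 376) (nat_lit 350) (nat_lit 294)) (XT.lf (nat_lit 0) (nat_lit 67119041196) (nat_lit 76) (nat_lit 77465225722) (nat_lit 76) (nat_lit 26439533650) (nat_lit 25) (nat_lit 4) (nat_lit 26) (nat_lit 5) (nat_lit 26) (nat_lit 4) (nat_lit 377) (nat_lit 350) (nat_lit 293))))))))
noncomputable def xc67 : XT := (XT.nd (nat_lit 1404) (nat_lit 304) (nat_lit 0) (XT.nd (nat_lit 702) (nat_lit 608) (nat_lit 0) (XT.nd (nat_lit 312) (nat_lit 456) (nat_lit 0) (XT.nd (nat_lit 156) (nat_lit 228) (nat_lit 0) (XT.nd (nat_lit 78) (nat_lit 76) (nat_lit 0) (XT.lf (nat_lit 0) (nat_lit 61499251963) (nat_lit 152) (nat_lit 113185387134) (nat_lit 0) (nat_lit 14251102172) (nat_lit 23) (nat_lit 5) (nat_lit 25) (nat_lit 4) (nat_lit 23) (nat_lit 4) (nat_lit 378) (nat_lit 350) (nat_lit 292)) (XT.lf (nat_lit 0) (nat_lit 80405865605) (nat_lit 76) (nat_lit 87873209509) (nat_lit 76) (nat_lit 40623200054) (nat_lit 22) (nat_lit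 4) (nat_lit 23) (nat_lit 5) (nat_lit 23) (nat_lit 4) (nat_lit 379) (nat_lit 350) (nat_lit 291))) (XT.nd (nat_lit 78) (nat_lit 76) (nat_lit 0) (XT.lf (nat_lit 0) (nat_lit 62028878677) (nat_lit 152) (nat_lit 150981307921) (nat_lit 0) (nat_lit 18277372607) (nat_lit 20) (nat_lit 5) (nat_lit 22) (nat_lit 4) (nat_lit 20) (nat_lit 4) (nat_lit 380) (nat_lit 350) (nat_lit 290)) (XT.lf (nat_lit 0) (nat_lit 71383712149) (nat_lit 76) (nat_lit 114335815815) (nat_lit 76) (nat_lit 70583007733) (nat_lit 19) (nat_lit 4) (nat_lit 20) (nat_lit 5) (nat_lit 20) (nat_lit 4) (nat_lit 381) (nat_lit 350) (nat_lit 289)))) (XT.nd (nat_lit 156) (nat_lit 228) (nat_lit 0) (XT.nd (nat_lit 78) (nat_lit 76) (nat_lit 0) (XT.lf (nat_lit 0) (nat_lit 46682292272) (nat_lit 152) (nat_lit 231660833017) (nat_lit 0) (nat_lit 6169384618) (nat_lit 17) (nat_lit 5) (nat_lit 19) (nat_lit 4) (nat_lit 17) (nat_lit 4) (nat_lit 382) (nat_lit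 350) (nat_lit 288)) (XT.lf (nat_lit 0) (nat_lit 16521172437) (nat_lit 76) (nat_lit 170032170290) (nat_lit 76) (nat_lit 129518351054) (nat_lit 16) (nat_lit 4) (nat_lit 17) (nat_lit 5) (nat_lit 17) (nat_lit 4) (nat_lit 383) (nat_lit 350) (nat_lit 287))) (XT.nd (nat_lit 78) (nat_lit 152) (nat_lit 0) (XT.lf (nat_lit 0) (nat_lit 2201854218) (nat_lit 152) (nat_lit 35934755140) (nat_lit 76) (nat_lit 313684612098) (nat_lit 15) (nat_lit 5) (nat_lit 17) (nat_lit 5) (nat_lit 16) (nat_lit 4) (nat_lit 384) (nat_lit 350) (nat_lit 286)) (XT.nd (nat_lit 78) (nat_lit 76) (nat_lit 0) (XT.lf (nat_lit 0) (nat_lit 155894897315) (nat_lit 152) (nat_lit 117597723361) (nat_lit 0) (nat_lit 118380729535) (nat_lit 14) (nat_lit 5) (nat_lit 16) (nat_lit 4) (nat_lit 14) (nat_lit 4) (nat_lit 385) (nat_lit 350) (nat_lit 285)) (XT.lf (nat_lit 0) (nat_lit 204480596155) (nat_lit 76) (nat_lit 135202081249) (nat_lit 76) (nat_lit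 97687358488) (nat_lit 13) (nat_lit 4) (nat_lit 14) (nat_lit 5) (nat_lit 14) (nat_lit 4) (nat_lit 386) (nat_lit 350) (nat_lit 284)))))) (XT.nd (nat_lit 312) (nat_lit 228) (nat_lit 0) (XT.nd (nat_lit 156) (nat_lit 228) (nat_lit 0) (XT.nd (nat_lit 78) (nat_lit 0) (nat_lit 0) (XT.lf (nat_lit 0) (nat_lit 64852656945) (nat_lit 152) (nat_lit 394078251137) (nat_lit 0) (nat_lit 30116355692) (nat_lit 11) (nat_lit 5) (nat_lit 13) (nat_lit 4) (nat_lit 11) (nat_lit 4) (nat_lit 387) (nat_lit 350) (nat_lit 283)) (XT.lf (nat_lit 0) (nat_lit 256845235237) (nat_lit 152) (nat_lit 68450849118) (nat_lit 0) (nat_lit 222108545423) (nat_lit 11) (nat_lit 5) (nat_lit 13) (nat_lit 4) (nat_lit 11) (nat_lit 4) (nat_lit 388) (nat_lit 350) (nat_lit 282))) (XT.nd (nat_lit 78) (nat_lit 152) (nat_lit 0) (XT.lf (nat_lit 0) (nat_lit 322126701362) (nat_lit 76) (nat_lit 163253234116) (nat_lit 76) (nat_lit 128516206423) (nat_lit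 10) (nat_lit 4) (nat_lit 11) (nat_lit 5) (nat_lit 11) (nat_lit 4) (nat_lit 389) (nat_lit 350) (nat_lit 281)) (XT.lf (nat_lit 0) (nat_lit 59802159825) (nat_lit 152) (nat_lit 602421035003) (nat_lit 0) (nat_lit 27637973250) (nat_lit 8) (nat_lit 5) (nat_lit 10) (nat_lit 4) (nat_lit 8) (nat_lit 4) (nat_lit 390) (nat_lit 350) (nat_lit 280)))) (XT.nd (nat_lit 156) (nat_lit 152) (nat_lit 0) (XT.nd (nat_lit 78) (nat_lit 76) (nat_lit 0) (XT.lf (nat_lit 0) (nat_lit 282201965976) (nat_lit 152) (nat_lit 243638930445) (nat_lit 0) (nat_lit 250037542841) (nat_lit 8) (nat_lit 5) (nat_lit 10) (nat_lit 4) (nat_lit 8) (nat_lit 4) (nat_lit 391) (nat_lit 350) (nat_lit 279)) (XT.lf (nat_lit 0) (nat_lit 177851149760) (nat_lit 76) (nat_lit 364384917158) (nat_lit 76) (nat_lit 332220288318) (nat_lit 7) (nat_lit 4) (nat_lit 8) (nat_lit 5) (nat_lit 8) (nat_lit 4) (nat_lit 392) (nat_lit 350) (nat_lit 278))) (XT.nd (nat_lit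 78) (nat_lit 152) (nat_lit 0) (XT.lf (nat_lit 0) (nat_lit 677313123278) (nat_lit 76) (nat_lit 171052699922) (nat_lit 76) (nat_lit 138887892208) (nat_lit 7) (nat_lit 4) (nat_lit 8) (nat_lit 5) (nat_lit 8) (nat_lit 4) (nat_lit 393) (nat_lit 350) (nat_lit 277)) (XT.nd (nat_lit 78) (nat_lit 0) (nat_lit 0) (XT.lf (nat_lit 0) (nat_lit 84000082644) (nat_lit 152) (nat_lit 978213945056) (nat_lit 0) (nat_lit 54217709259) (nat_lit 5) (nat_lit 5) (nat_lit 7) (nat_lit 4) (nat_lit 5) (nat_lit 4) (nat_lit 394) (nat_lit 350) (nat_lit 276)) (XT.lf (nat_lit 0) (nat_lit 346317921326) (nat_lit 152) (nat_lit 600706889051) (nat_lit 0) (nat_lit 316535422706) (nat_lit 5) (nat_lit 5) (nat_lit 7) (nat_lit 4) (nat_lit 5) (nat_lit 4) (nat_lit 395) (nat_lit 350) (nat_lit 275))))))) (XT.nd (nat_lit 702) (nat_lit 76) (nat_lit 0) (XT.nd (nat_lit 312) (nat_lit 152) (nat_lit 0) (XT.nd (nat_lit 156) (nat_lit 0) (nat_lit 0)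 (XT.nd (nat_lit 78) (nat_lit 76) (nat_lit 0) (XT.lf (nat_lit 0) (nat_lit 647981437705) (nat_lit 152) (nat_lit 166577895592) (nat_lit 0) (nat_lit 618198830185) (nat_lit 5) (nat_lit 5) (nat_lit 7) (nat_lit 4) (nat_lit 5) (nat_lit 4) (nat_lit 396) (nat_lit 350) (nat_lit 274)) (XT.lf (nat_lit 0) (nat_lit 350184510943) (nat_lit 76) (nat_lit 653130179026) (nat_lit 76) (nat_lit 623347476810) (nat_lit 4) (nat_lit 4) (nat_lit 5) (nat_lit 5) (nat_lit 5) (nat_lit 4) (nat_lit 397) (nat_lit 350) (nat_lit 273))) (XT.nd (nat_lit 78) (nat_lit 0) (nat_lit 0) (XT.lf (nat_lit 0) (nat_lit 954545449645) (nat_lit 76) (nat_lit 462250626889) (nat_lit 76) (nat_lit 432467842329) (nat_lit 4) (nat_lit 4) (nat_lit 5) (nat_lit 5) (nat_lit 5) (nat_lit 4) (nat_lit 398) (nat_lit 350) (nat_lit 272)) (XT.lf (nat_lit 0) (nat_lit 1649557676880) (nat_lit 76) (nat_lit 242740611820) (nat_lit 76) (nat_lit 212957755656) (nat_lit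 4) (nat_lit 4) (nat_lit 5) (nat_lit 5) (nat_lit 5) (nat_lit 4) (nat_lit 399) (nat_lit 350) (nat_lit 271)))) (XT.nd (nat_lit 156) (nat_lit 0) (nat_lit 0) (XT.nd (nat_lit 78) (nat_lit 0) (nat_lit 0) (XT.lf (nat_lit 0) (nat_lit 39013074369) (nat_lit 152) (nat_lit 2349000929130) (nat_lit 0) (nat_lit 11436298047) (nat_lit 2) (nat_lit 5) (nat_lit 4) (nat_lit 4) (nat_lit 2) (nat_lit 4) (nat_lit 400) (nat_lit 350) (nat_lit 270)) (XT.lf (nat_lit 0) (nat_lit 336852785311) (nat_lit 152) (nat_lit 2089547824972) (nat_lit 0) (nat_lit 309275958857) (nat_lit 2) (nat_lit 5) (nat_lit 4) (nat_lit 4) (nat_lit 2) (nat_lit 4) (nat_lit 401) (nat_lit 350) (nat_lit 269))) (XT.nd (nat_lit 78) (nat_lit 0) (nat_lit 0) (XT.lf (nat_lit 0) (nat_lit 679367446496) (nat_lit 152) (nat_lit 1791178834443) (nat_lit 0) (nat_lit 651790576448) (nat_lit 2) (nat_lit 5) (nat_lit 4) (nat_lit 4) (nat_lit 2) (nat_lit 4) (nat_lit 402)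 (nat_lit 350) (nat_lit 268)) (XT.nd (nat_lit 78) (nat_lit 0) (nat_lit 0) (XT.lf (nat_lit 0) (nat_lit 1073258431730) (nat_lit 152) (nat_lit 1448056303381) (nat_lit 0) (nat_lit 1045681523776) (nat_lit 2) (nat_lit 5) (nat_lit 4) (nat_lit 4) (nat_lit 2) (nat_lit 4) (nat_lit 403) (nat_lit 350) (nat_lit 267)) (XT.lf (nat_lit 0) (nat_lit 1526232303768) (nat_lit 152) (nat_lit 1053466964873) (nat_lit 0) (nat_lit 1498655362852) (nat_lit 2) (nat_lit 5) (nat_lit 4) (nat_lit 4) (nat_lit 2) (nat_lit 4) (nat_lit 404) (nat_lit 350) (nat_lit 266)))))) (XT.nd (nat_lit 390) (nat_lit 0) (nat_lit 0) (XT.nd (nat_lit 156) (nat_lit 76) (nat_lit 0) (XT.nd (nat_lit 78) (nat_lit 0) (nat_lit 0) (XT.lf (nat_lit 0) (nat_lit 2047151594890) (nat_lit 152) (nat_lit 599690592731) (nat_lit 0) (nat_lit 2019574625310) (nat_lit 2) (nat_lit 5) (nat_lit 4) (nat_lit 4) (nat_lit 2) (nat_lit 4) (nat_lit 405) (nat_lit 350) (nat_lit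 265)) (XT.lf (nat_lit 0) (nat_lit 2646208204269) (nat_lit 152) (nat_lit 77848953587) (nat_lit 0) (nat_lit 2618631209764) (nat_lit 2) (nat_lit 5) (nat_lit 4) (nat_lit 4) (nat_lit 2) (nat_lit 4) (nat_lit 406) (nat_lit 350) (nat_lit 264))) (XT.nd (nat_lit 78) (nat_lit 0) (nat_lit 0) (XT.lf (nat_lit 0) (nat_lit 549769599624) (nat_lit 76) (nat_lit 2798575177165) (nat_lit 76) (nat_lit 2770998160987) (nat_lit 1) (nat_lit 4) (nat_lit 2) (nat_lit 5) (nat_lit 2) (nat_lit 4) (nat_lit 407) (nat_lit 350) (nat_lit 263)) (XT.nd (nat_lit 78) (nat_lit 0) (nat_lit 0) (XT.lf (nat_lit 0) (nat_lit 1276244285691) (nat_lit 76) (nat_lit 2881823580169) (nat_lit 76) (nat_lit 2854246545144) (nat_lit 1) (nat_lit 4) (nat_lit 2) (nat_lit 5) (nat_lit 2) (nat_lit 4) (nat_lit 408) (nat_lit 350) (nat_lit 262)) (XT.lf (nat_lit 0) (nat_lit 2111689351838) (nat_lit 76) (nat_lit 2977559668321) (nat_lit 76) (nat_lit 2949982616908)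 (nat_lit 1) (nat_lit 4) (nat_lit 2) (nat_lit 5) (nat_lit 2) (nat_lit 4) (nat_lit 409) (nat_lit 350) (nat_lit 261))))) (XT.nd (nat_lit 156) (nat_lit 0) (nat_lit 0) (XT.nd (nat_lit 78) (nat_lit 0) (nat_lit 0) (XT.lf (nat_lit 0) (nat_lit 3072450462404) (nat_lit 76) (nat_lit 3087656538999) (nat_lit 76) (nat_lit 3060079473336) (nat_lit 1) (nat_lit 4) (nat_lit 2) (nat_lit 5) (nat_lit 2) (nat_lit 4) (nat_lit 410) (nat_lit 350) (nat_lit 260)) (XT.lf (nat_lit 0) (nat_lit 4177325117377) (nat_lit 76) (nat_lit 3214268261412) (nat_lit 76) (nat_lit 3186691183356) (nat_lit 1) (nat_lit 4) (nat_lit 2) (nat_lit 5) (nat_lit 2) (nat_lit 4) (nat_lit 411) (nat_lit 350) (nat_lit 259))) (XT.nd (nat_lit 78) (nat_lit 0) (nat_lit 0) (XT.lf (nat_lit 0) (nat_lit 5447930429572) (nat_lit 76) (nat_lit 3359872021432) (nat_lit 76) (nat_lit 3332294932601) (nat_lit 1) (nat_lit 4) (nat_lit 2) (nat_lit 5) (nat_lit 2) (nat_lit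 4) (nat_lit 412) (nat_lit 350) (nat_lit 258)) (XT.nd (nat_lit 78) (nat_lit 0) (nat_lit 0) (XT.lf (nat_lit 0) (nat_lit 6909126068142) (nat_lit 76) (nat_lit 3527316588278) (nat_lit 76) (nat_lit 3499739490077) (nat_lit 1) (nat_lit 4) (nat_lit 2) (nat_lit 5) (nat_lit 2) (nat_lit 4) (nat_lit 413) (nat_lit 350) (nat_lit 257)) (XT.lf (nat_lit 0) (nat_lit 8589500643405) (nat_lit 76) (nat_lit 3719878051301) (nat_lit 76) (nat_lit 3692300944952) (nat_lit 1) (nat_lit 4) (nat_lit 2) (nat_lit 5) (nat_lit 2) (nat_lit 4) (nat_lit 414) (nat_lit 350) (nat_lit 256))))))))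
noncomputable def xc68 : XT := (XT.nd (nat_lit 49062) (nat_lit 0) (nat_lit 1444) (XT.nd (nat_lit 48360) (nat_lit 0) (nat_lit 4028) (XT.nd (nat_lit 312) (nat_lit 0) (nat_lit 0) (XT.nd (nat_lit 156) (nat_lit 0) (nat_lit 0) (XT.nd (nat_lit 78) (nat_lit 0) (nat_lit 0) (XT.lf (nat_lit 0) (nat_lit 10521931049226) (nat_lit 76) (nat_lit 3941323917386) (nat_lit 76) (nat_lit 3913746803952) (nat_lit 1) (nat_lit 4) (nat_lit 2) (nat_lit 5) (nat_lit 2) (nat_lit 4) (nat_lit 415) (nat_lit 350) (nat_lit 255)) (XT.lf (nat_lit 0) (nat_lit 12744225706589) (nat_lit 76) (nat_lit 4195986823044) (nat_lit 76) (nat_lit 4168409703449) (nat_lit 1) (nat_lit 4) (nat_lit 2) (nat_lit 5) (nat_lit 2) (nat_lit 4) (nat_lit 416) (nat_lit 350) (nat_lit 254))) (XT.nd (nat_lit 78) (nat_lit 0) (nat_lit 0) (XT.lf (nat_lit 0) (nat_lit 15299864293571) (nat_lit 76) (nat_lit 4488849303385) (nat_lit 76) (nat_lit 4461272178432) (nat_lit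 1) (nat_lit 4) (nat_lit 2) (nat_lit 5) (nat_lit 2) (nat_lit 4) (nat_lit 417) (nat_lit 350) (nat_lit 253)) (XT.lf (nat_lit 0) (nat_lit 18238848434701) (nat_lit 76) (nat_lit 4825641276502) (nat_lit 76) (nat_lit 4798064146892) (nat_lit 1) (nat_lit 4) (nat_lit 2) (nat_lit 5) (nat_lit 2) (nat_lit 4) (nat_lit 418) (nat_lit 350) (nat_lit 252)))) (XT.nd (nat_lit 47814) (nat_lit 0) (nat_lit 5624) (XT.nd (nat_lit 78) (nat_lit 0) (nat_lit 0) (XT.lf (nat_lit 0) (nat_lit 21618679993609) (nat_lit 76) (nat_lit 5212952150567) (nat_lit 76) (nat_lit 5185375016905) (nat_lit 1) (nat_lit 4) (nat_lit 2) (nat_lit 5) (nat_lit 2) (nat_lit 4) (nat_lit 419) (nat_lit 350) (nat_lit 251)) (XT.lf (nat_lit 0) (nat_lit 25505486109493) (nat_lit 76) (nat_lit 5658359747027) (nat_lit 76) (nat_lit 5630782609842) (nat_lit 1) (nat_lit 4) (nat_lit 2) (nat_lit 5) (nat_lit 2) (nat_lit 4) (nat_lit 420) (nat_lit 350) (nat_lit 250)))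 (XT.nd (nat_lit 78) (nat_lit 456) (nat_lit 0) (XT.lf (nat_lit 0) (nat_lit 8399072858) (nat_lit 532) (nat_lit 554149029) (nat_lit 532) (nat_lit 554149029) (nat_lit 81) (nat_lit 3) (nat_lit 88) (nat_lit 3) (nat_lit 88) (nat_lit 5) (nat_lit 351) (nat_lit 351) (nat_lit 318)) (XT.nd (nat_lit 78) (nat_lit 456) (nat_lit 0) (XT.lf (nat_lit 76) (nat_lit 17441665233) (nat_lit 0) (nat_lit 1347096282) (nat_lit 532) (nat_lit 1593542336) (nat_lit 82) (nat_lit 5) (nat_lit 81) (nat_lit 3) (nat_lit 88) (nat_lit 5) (nat_lit 352) (nat_lit 351) (nat_lit 317)) (XT.lf (nat_lit 0) (nat_lit 7050135) (nat_lit 532) (nat_lit 4598953125) (nat_lit 608) (nat_lit 17283481402) (nat_lit 75) (nat_lit 5) (nat_lit 82) (nat_lit 5) (nat_lit 83) (nat_lit 5) (nat_lit 353) (nat_lit 351) (nat_lit 316)))))) (XT.nd (nat_lit 312) (nat_lit 1064) (nat_lit 0) (XT.nd (nat_lit 156) (nat_lit 608) (nat_lit 0) (XT.nd (nat_lit 78) (nat_lit 0)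 (nat_lit 76) (XT.lf (nat_lit 0) (nat_lit 2637040737) (nat_lit 532) (nat_lit 6060850195) (nat_lit 608) (nat_lit 14850859156) (nat_lit 76) (nat_lit 5) (nat_lit 83) (nat_lit 5) (nat_lit 84) (nat_lit 5) (nat_lit 354) (nat_lit 351) (nat_lit 315)) (XT.lf (nat_lit 0) (nat_lit 6618491006) (nat_lit 532) (nat_lit 7219443694) (nat_lit 76) (nat_lit 11542424118) (nat_lit 77) (nat_lit 5) (nat_lit 84) (nat_lit 5) (nat_lit 78) (nat_lit 5) (nat_lit 355) (nat_lit 351) (nat_lit 314))) (XT.nd (nat_lit 78) (nat_lit 228) (nat_lit 0) (XT.lf (nat_lit 0) (nat_lit 12232857474) (nat_lit 532) (nat_lit 7991161111) (nat_lit 76) (nat_lit 7179843402) (nat_lit 71) (nat_lit 5) (nat_lit 78) (nat_lit 5) (nat_lit 72) (nat_lit 5) (nat_lit 356) (nat_lit 351) (nat_lit 313)) (XT.lf (nat_lit 0) (nat_lit 19807154646) (nat_lit 304) (nat_lit 8275382764) (nat_lit 76) (nat_lit 1558939009) (nat_lit 68) (nat_lit 5) (nat_lit 72) (nat_lit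 5) (nat_lit 69) (nat_lit 5) (nat_lit 357) (nat_lit 351) (nat_lit 312)))) (XT.nd (nat_lit 156) (nat_lit 608) (nat_lit 0) (XT.nd (nat_lit 78) (nat_lit 228) (nat_lit 0) (XT.lf (nat_lit 0) (nat_lit 24014495614) (nat_lit 228) (nat_lit 5847439358) (nat_lit 304) (nat_lit 2245257778) (nat_lit 65) (nat_lit 5) (nat_lit 68) (nat_lit 5) (nat_lit 69) (nat_lit 5) (nat_lit 358) (nat_lit 351) (nat_lit 311)) (XT.lf (nat_lit 0) (nat_lit 7550105282) (nat_lit 228) (nat_lit 7435514949) (nat_lit 76) (nat_lit 19833303802) (nat_lit 62) (nat_lit 5) (nat_lit 65) (nat_lit 5) (nat_lit 63) (nat_lit 5) (nat_lit 359) (nat_lit 351) (nat_lit 310))) (XT.nd (nat_lit 78) (nat_lit 380) (nat_lit 0) (XT.lf (nat_lit 0) (nat_lit 20129904901) (nat_lit 304) (nat_lit 6040950889) (nat_lit 76) (nat_lit 11646052411) (nat_lit 59) (nat_lit 5) (nat_lit 63) (nat_lit 5) (nat_lit 60) (nat_lit 5) (nat_lit 360) (nat_lit 351) (nat_lit 309)) (XT.nd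 (nat_lit 78) (nat_lit 228) (nat_lit 0) (XT.lf (nat_lit 0) (nat_lit 36144866926) (nat_lit 228) (nat_lit 3681388000) (nat_lit 76) (nat_lit 1314483823) (nat_lit 57) (nat_lit 5) (nat_lit 60) (nat_lit 5) (nat_lit 58) (nat_lit 5) (nat_lit 361) (nat_lit 351) (nat_lit 308)) (XT.lf (nat_lit 0) (nat_lit 11119262017) (nat_lit 228) (nat_lit 727660044) (nat_lit 76) (nat_lit 32937716007) (nat_lit 54) (nat_lit 5) (nat_lit 57) (nat_lit 5) (nat_lit 55) (nat_lit 5) (nat_lit 362) (nat_lit 351) (nat_lit 307))))))) (XT.nd (nat_lit 702) (nat_lit 1216) (nat_lit 0) (XT.nd (nat_lit 312) (nat_lit 684) (nat_lit 0) (XT.nd (nat_lit 156) (nat_lit 228) (nat_lit 0) (XT.nd (nat_lit 78) (nat_lit 152) (nat_lit 0) (XT.lf (nat_lit 0) (nat_lit 3466971345) (nat_lit 152) (nat_lit 27865864128) (nat_lit 228) (nat_lit 17473750217) (nat_lit 50) (nat_lit 5) (nat_lit 52) (nat_lit 5) (nat_lit 53) (nat_lit 5) (nat_lit 363) (nat_lit 351)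 (nat_lit 306)) (XT.lf (nat_lit 0) (nat_lit 3156574925) (nat_lit 152) (nat_lit 44110298397) (nat_lit 76) (nat_lit 5997363256) (nat_lit 48) (nat_lit 5) (nat_lit 50) (nat_lit 5) (nat_lit 49) (nat_lit 5) (nat_lit 364) (nat_lit 351) (nat_lit 305))) (XT.nd (nat_lit 78) (nat_lit 76) (nat_lit 0) (XT.lf (nat_lit 0) (nat_lit 15752660032) (nat_lit 152) (nat_lit 12609782378) (nat_lit 228) (nat_lit 29790534867) (nat_lit 46) (nat_lit 5) (nat_lit 48) (nat_lit 5) (nat_lit 49) (nat_lit 5) (nat_lit 365) (nat_lit 351) (nat_lit 304)) (XT.lf (nat_lit 0) (nat_lit 24082182580) (nat_lit 76) (nat_lit 35802787722) (nat_lit 152) (nat_lit 3687198129) (nat_lit 45) (nat_lit 5) (nat_lit 46) (nat_lit 5) (nat_lit 47) (nat_lit 4) (nat_lit 366) (nat_lit 351) (nat_lit 303)))) (XT.nd (nat_lit 156) (nat_lit 380) (nat_lit 0) (XT.nd (nat_lit 78) (nat_lit 76) (nat_lit 0) (XT.lf (nat_lit 0) (nat_lit 27593201408) (nat_lit 228) (nat_lit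 35656668556) (nat_lit 76) (nat_lit 6297405391) (nat_lit 42) (nat_lit 5) (nat_lit 45) (nat_lit 5) (nat_lit 43) (nat_lit 4) (nat_lit 367) (nat_lit 351) (nat_lit 302)) (XT.lf (nat_lit 0) (nat_lit 45470670301) (nat_lit 76) (nat_lit 21132258322) (nat_lit 152) (nat_lit 9547611945) (nat_lit 41) (nat_lit 5) (nat_lit 42) (nat_lit 5) (nat_lit 43) (nat_lit 4) (nat_lit 368) (nat_lit 351) (nat_lit 301))) (XT.nd (nat_lit 78) (nat_lit 228) (nat_lit 0) (XT.lf (nat_lit 0) (nat_lit 29555345567) (nat_lit 152) (nat_lit 24705097137) (nat_lit 76) (nat_lit 29172746162) (nat_lit 39) (nat_lit 5) (nat_lit 41) (nat_lit 5) (nat_lit 40) (nat_lit 4) (nat_lit 369) (nat_lit 351) (nat_lit 300)) (XT.nd (nat_lit 78) (nat_lit 152) (nat_lit 0) (XT.lf (nat_lit 0) (nat_lit 74501258918) (nat_lit 76) (nat_lit 2753790204) (nat_lit 152) (nat_lit 14269616754) (nat_lit 38) (nat_lit 5) (nat_lit 39) (nat_lit 5) (nat_lit 40) (nat_lit 4)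 (nat_lit 370) (nat_lit 351) (nat_lit 299)) (XT.lf (nat_lit 0) (nat_lit 34137788127) (nat_lit 152) (nat_lit 8805523951) (nat_lit 76) (nat_lit 57472555473) (nat_lit 36) (nat_lit 5) (nat_lit 38) (nat_lit 5) (nat_lit 37) (nat_lit 4) (nat_lit 371) (nat_lit 351) (nat_lit 298)))))) (XT.nd (nat_lit 390) (nat_lit 608) (nat_lit 0) (XT.nd (nat_lit 156) (nat_lit 304) (nat_lit 0) (XT.nd (nat_lit 78) (nat_lit 152) (nat_lit 0) (XT.lf (nat_lit 0) (nat_lit 1313240643) (nat_lit 76) (nat_lit 91449844224) (nat_lit 76) (nat_lit 17543877932) (nat_lit 34) (nat_lit 4) (nat_lit 35) (nat_lit 5) (nat_lit 35) (nat_lit 4) (nat_lit 372) (nat_lit 351) (nat_lit 297)) (XT.lf (nat_lit 0) (nat_lit 12620611861) (nat_lit 76) (nat_lit 28981151116) (nat_lit 152) (nat_lit 79603704275) (nat_lit 32) (nat_lit 5) (nat_lit 33) (nat_lit 5) (nat_lit 34) (nat_lit 4) (nat_lit 373) (nat_lit 351) (nat_lit 296))) (XT.nd (nat_lit 78) (nat_lit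 228) (nat_lit 0) (XT.lf (nat_lit 0) (nat_lit 25237618163) (nat_lit 76) (nat_lit 88255942960) (nat_lit 76) (nat_lit 19815683506) (nat_lit 31) (nat_lit 4) (nat_lit 32) (nat_lit 5) (nat_lit 32) (nat_lit 4) (nat_lit 374) (nat_lit 351) (nat_lit 295)) (XT.nd (nat_lit 78) (nat_lit 76) (nat_lit 0) (XT.lf (nat_lit 0) (nat_lit 38584940578) (nat_lit 76) (nat_lit 12871195429) (nat_lit 152) (nat_lit 95281187282) (nat_lit 29) (nat_lit 5) (nat_lit 30) (nat_lit 5) (nat_lit 31) (nat_lit 4) (nat_lit 375) (nat_lit 351) (nat_lit 294)) (XT.lf (nat_lit 0) (nat_lit 52037670204) (nat_lit 76) (nat_lit 86487580044) (nat_lit 76) (nat_lit 23110801839) (nat_lit 28) (nat_lit 4) (nat_lit 29) (nat_lit 5) (nat_lit 29) (nat_lit 4) (nat_lit 376) (nat_lit 351) (nat_lit 293))))) (XT.nd (nat_lit 156) (nat_lit 380) (nat_lit 0) (XT.nd (nat_lit 78) (nat_lit 76) (nat_lit 0) (XT.lf (nat_lit 0) (nat_lit 62134891851) (nat_lit 152) (nat_lit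 112649463542) (nat_lit 0) (nat_lit 3450380107) (nat_lit 26) (nat_lit 5) (nat_lit 28) (nat_lit 4) (nat_lit 26) (nat_lit 4) (nat_lit 377) (nat_lit 351) (nat_lit 292)) (XT.lf (nat_lit 0) (nat_lit 77356102536) (nat_lit 76) (nat_lit 89000505003) (nat_lit 76) (nat_lit 30313984822) (nat_lit 25) (nat_lit 4) (nat_lit 26) (nat_lit 5) (nat_lit 26) (nat_lit 4) (nat_lit 378) (nat_lit 351) (nat_lit 291))) (XT.nd (nat_lit 78) (nat_lit 228) (nat_lit 0) (XT.lf (nat_lit 0) (nat_lit 70805449382) (nat_lit 152) (nat_lit 129999684756) (nat_lit 0) (nat_lit 16464461744) (nat_lit 23) (nat_lit 5) (nat_lit 25) (nat_lit 4) (nat_lit 23) (nat_lit 4) (nat_lit 379) (nat_lit 351) (nat_lit 290)) (XT.nd (nat_lit 78) (nat_lit 152) (nat_lit 0) (XT.lf (nat_lit 0) (nat_lit 92616415549) (nat_lit 76) (nat_lit 100978824423) (nat_lit 76) (nat_lit 46636430612) (nat_lit 22) (nat_lit 4) (nat_lit 23) (nat_lit 5) (nat_lit 23) (nat_lit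 4) (nat_lit 380) (nat_lit 351) (nat_lit 289)) (XT.lf (nat_lit 0) (nat_lit 71404592728) (nat_lit 152) (nat_lit 173483959276) (nat_lit 0) (nat_lit 21086429237) (nat_lit 20) (nat_lit 5) (nat_lit 22) (nat_lit 4) (nat_lit 20) (nat_lit 4) (nat_lit 381) (nat_lit 351) (nat_lit 288))))))))
noncomputable def xc69 : XT := (XT.nd (nat_lit 1404) (nat_lit 228) (nat_lit 0) (XT.nd (nat_lit 702) (nat_lit 456) (nat_lit 0) (XT.nd (nat_lit 312) (nat_lit 380) (nat_lit 0) (XT.nd (nat_lit 156) (nat_lit 152) (nat_lit 0) (XT.nd (nat_lit 78) (nat_lit 152) (nat_lit 0) (XT.lf (nat_lit 0) (nat_lit 82223578805) (nat_lit 76) (nat_lit 131419131930) (nat_lit 76) (nat_lit 81099983930) (nat_lit 19) (nat_lit 4) (nat_lit 20) (nat_lit 5) (nat_lit 20) (nat_lit 4) (nat_lit 382) (nat_lit 351) (nat_lit 287)) (XT.lf (nat_lit 0) (nat_lit 53747361733) (nat_lit 152) (nat_lit 266282240373) (nat_lit 0) (nat_lit 7154765351) (nat_lit 17)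 (nat_lit 5) (nat_lit 19) (nat_lit 4) (nat_lit 17) (nat_lit 4) (nat_lit 383) (nat_lit 351) (nat_lit 286))) (XT.nd (nat_lit 78) (nat_lit 76) (nat_lit 0) (XT.lf (nat_lit 0) (nat_lit 19116255240) (nat_lit 76) (nat_lit 195477444528) (nat_lit 76) (nat_lit 148884158858) (nat_lit 16) (nat_lit 4) (nat_lit 17) (nat_lit 5) (nat_lit 17) (nat_lit 4) (nat_lit 384) (nat_lit 351) (nat_lit 285)) (XT.lf (nat_lit 0) (nat_lit 2583302891) (nat_lit 152) (nat_lit 41220615034) (nat_lit 76) (nat_lit 360786392486) (nat_lit 15) (nat_lit 5) (nat_lit 17) (nat_lit 5) (nat_lit 16) (nat_lit 4) (nat_lit 385) (nat_lit 351) (nat_lit 284)))) (XT.nd (nat_lit 156) (nat_lit 228) (nat_lit 0) (XT.nd (nat_lit 78) (nat_lit 76) (nat_lit 0) (XT.lf (nat_lit 0) (nat_lit 179327097186) (nat_lit 152) (nat_lit 135139289356) (nat_lit 0) (nat_lit 136184128437) (nat_lit 14) (nat_lit 5) (nat_lit 16) (nat_lit 4) (nat_lit 14) (nat_lit 4) (nat_lit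 386) (nat_lit 351) (nat_lit 283)) (XT.lf (nat_lit 0) (nat_lit 235242475045) (nat_lit 76) (nat_lit 155436472343) (nat_lit 76) (nat_lit 112293083948) (nat_lit 13) (nat_lit 4) (nat_lit 14) (nat_lit 5) (nat_lit 14) (nat_lit 4) (nat_lit 387) (nat_lit 351) (nat_lit 282))) (XT.nd (nat_lit 78) (nat_lit 76) (nat_lit 0) (XT.lf (nat_lit 0) (nat_lit 74622760723) (nat_lit 152) (nat_lit 453103374823) (nat_lit 0) (nat_lit 34674840997) (nat_lit 11) (nat_lit 5) (nat_lit 13) (nat_lit 4) (nat_lit 11) (nat_lit 4) (nat_lit 388) (nat_lit 351) (nat_lit 281)) (XT.nd (nat_lit 78) (nat_lit 76) (nat_lit 0) (XT.lf (nat_lit 0) (nat_lit 295408720728) (nat_lit 152) (nat_lit 78643159978) (nat_lit 0) (nat_lit 255460507194) (nat_lit 11) (nat_lit 5) (nat_lit 13) (nat_lit 4) (nat_lit 11) (nat_lit 4) (nat_lit 389) (nat_lit 351) (nat_lit 280)) (XT.lf (nat_lit 0) (nat_lit 370514647907) (nat_lit 76) (nat_lit 187705849156) (nat_lit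 76) (nat_lit 147757380137) (nat_lit 10) (nat_lit 4) (nat_lit 11) (nat_lit 5) (nat_lit 11) (nat_lit 4) (nat_lit 390) (nat_lit 351) (nat_lit 279)))))) (XT.nd (nat_lit 312) (nat_lit 228) (nat_lit 0) (XT.nd (nat_lit 156) (nat_lit 76) (nat_lit 0) (XT.nd (nat_lit 78) (nat_lit 0) (nat_lit 0) (XT.lf (nat_lit 0) (nat_lit 68804792161) (nat_lit 152) (nat_lit 692717702939) (nat_lit 0) (nat_lit 31815263291) (nat_lit 8) (nat_lit 5) (nat_lit 10) (nat_lit 4) (nat_lit 8) (nat_lit 4) (nat_lit 391) (nat_lit 351) (nat_lit 278)) (XT.lf (nat_lit 0) (nat_lit 324560355101) (nat_lit 152) (nat_lit 280126954956) (nat_lit 0) (nat_lit 287570647357) (nat_lit 8) (nat_lit 5) (nat_lit 10) (nat_lit 4) (nat_lit 8) (nat_lit 4) (nat_lit 392) (nat_lit 351) (nat_lit 277))) (XT.nd (nat_lit 78) (nat_lit 0) (nat_lit 0) (XT.lf (nat_lit 0) (nat_lit 204581743523) (nat_lit 76) (nat_lit 419015435954) (nat_lit 76) (nat_lit 382025572668)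 (nat_lit 7) (nat_lit 4) (nat_lit 8) (nat_lit 5) (nat_lit 8) (nat_lit 4) (nat_lit 393) (nat_lit 351) (nat_lit 276)) (XT.lf (nat_lit 0) (nat_lit 778956110291) (nat_lit 76) (nat_lit 196686936408) (nat_lit 76) (nat_lit 159696937868) (nat_lit 7) (nat_lit 4) (nat_lit 8) (nat_lit 5) (nat_lit 8) (nat_lit 4) (nat_lit 394) (nat_lit 351) (nat_lit 275)))) (XT.nd (nat_lit 156) (nat_lit 76) (nat_lit 0) (XT.nd (nat_lit 78) (nat_lit 0) (nat_lit 0) (XT.lf (nat_lit 0) (nat_lit 96621609512) (nat_lit 152) (nat_lit 1124901664747) (nat_lit 0) (nat_lit 62371501964) (nat_lit 5) (nat_lit 5) (nat_lit 7) (nat_lit 4) (nat_lit 5) (nat_lit 4) (nat_lit 395) (nat_lit 351) (nat_lit 274)) (XT.lf (nat_lit 0) (nat_lit 398284317761) (nat_lit 152) (nat_lit 690774338002) (nat_lit 0) (nat_lit 364034115517) (nat_lit 5) (nat_lit 5) (nat_lit 7) (nat_lit 4) (nat_lit 5) (nat_lit 4) (nat_lit 396) (nat_lit 351) (nat_lit 273))) (XT.nd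 (nat_lit 78) (nat_lit 76) (nat_lit 0) (XT.lf (nat_lit 0) (nat_lit 745194921393) (nat_lit 152) (nat_lit 191531028274) (nat_lit 0) (nat_lit 710944636805) (nat_lit 5) (nat_lit 5) (nat_lit 7) (nat_lit 4) (nat_lit 5) (nat_lit 4) (nat_lit 397) (nat_lit 351) (nat_lit 272)) (XT.nd (nat_lit 78) (nat_lit 0) (nat_lit 0) (XT.lf (nat_lit 0) (nat_lit 402742899262) (nat_lit 76) (nat_lit 751083878934) (nat_lit 76) (nat_lit 716833522742) (nat_lit 4) (nat_lit 4) (nat_lit 5) (nat_lit 5) (nat_lit 5) (nat_lit 4) (nat_lit 398) (nat_lit 351) (nat_lit 271)) (XT.lf (nat_lit 0) (nat_lit 1097753972898) (nat_lit 76) (nat_lit 531574458361) (nat_lit 76) (nat_lit 497324039905) (nat_lit 4) (nat_lit 4) (nat_lit 5) (nat_lit 5) (nat_lit 5) (nat_lit 4) (nat_lit 399) (nat_lit 351) (nat_lit 270))))))) (XT.nd (nat_lit 702) (nat_lit 0) (nat_lit 0) (XT.nd (nat_lit 312) (nat_lit 76) (nat_lit 0) (XT.nd (nat_lit 156) (nat_lit 0) (nat_lit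 0) (XT.nd (nat_lit 78) (nat_lit 152) (nat_lit 0) (XT.lf (nat_lit 0) (nat_lit 1897014550852) (nat_lit 76) (nat_lit 279139736148) (nat_lit 76) (nat_lit 244889263550) (nat_lit 4) (nat_lit 4) (nat_lit 5) (nat_lit 5) (nat_lit 5) (nat_lit 4) (nat_lit 400) (nat_lit 351) (nat_lit 269)) (XT.lf (nat_lit 0) (nat_lit 44875871852) (nat_lit 152) (nat_lit 2701328680267) (nat_lit 0) (nat_lit 13162427705) (nat_lit 2) (nat_lit 5) (nat_lit 4) (nat_lit 4) (nat_lit 2) (nat_lit 4) (nat_lit 401) (nat_lit 351) (nat_lit 268))) (XT.nd (nat_lit 78) (nat_lit 0) (nat_lit 0) (XT.lf (nat_lit 0) (nat_lit 387390126001) (nat_lit 152) (nat_lit 2402960530690) (nat_lit 0) (nat_lit 355676643946) (nat_lit 2) (nat_lit 5) (nat_lit 4) (nat_lit 4) (nat_lit 2) (nat_lit 4) (nat_lit 402) (nat_lit 351) (nat_lit 267)) (XT.lf (nat_lit 0) (nat_lit 781280757290) (nat_lit 152) (nat_lit 2059838730890) (nat_lit 0) (nat_lit 749567242273) (nat_lit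 2) (nat_lit 5) (nat_lit 4) (nat_lit 4) (nat_lit 2) (nat_lit 4) (nat_lit 403) (nat_lit 351) (nat_lit 266)))) (XT.nd (nat_lit 156) (nat_lit 76) (nat_lit 0) (XT.nd (nat_lit 78) (nat_lit 0) (nat_lit 0) (XT.lf (nat_lit 0) (nat_lit 1234254321551) (nat_lit 152) (nat_lit 1665250028262) (nat_lit 0) (nat_lit 1202540777870) (nat_lit 2) (nat_lit 5) (nat_lit 4) (nat_lit 4) (nat_lit 2) (nat_lit 4) (nat_lit 404) (nat_lit 351) (nat_lit 265)) (XT.lf (nat_lit 0) (nat_lit 1755173345039) (nat_lit 152) (nat_lit 1211474209059) (nat_lit 0) (nat_lit 1723459776434) (nat_lit 2) (nat_lit 5) (nat_lit 4) (nat_lit 4) (nat_lit 2) (nat_lit 4) (nat_lit 405) (nat_lit 351) (nat_lit 264))) (XT.nd (nat_lit 78) (nat_lit 76) (nat_lit 0) (XT.lf (nat_lit 0) (nat_lit 2354229721693) (nat_lit 152) (nat_lit 689633050733) (nat_lit 0) (nat_lit 2322516131415) (nat_lit 2) (nat_lit 5) (nat_lit 4) (nat_lit 4) (nat_lit 2) (nat_lit 4) (nat_lit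 406) (nat_lit 351) (nat_lit 263)) (XT.nd (nat_lit 78) (nat_lit 76) (nat_lit 0) (XT.lf (nat_lit 0) (nat_lit 3043144119752) (nat_lit 152) (nat_lit 89516617575) (nat_lit 0) (nat_lit 3011430510627) (nat_lit 2) (nat_lit 5) (nat_lit 4) (nat_lit 4) (nat_lit 2) (nat_lit 4) (nat_lit 407) (nat_lit 351) (nat_lit 262)) (XT.lf (nat_lit 0) (nat_lit 632243899335) (nat_lit 76) (nat_lit 3218356880827) (nat_lit 76) (nat_lit 3186643255314) (nat_lit 1) (nat_lit 4) (nat_lit 2) (nat_lit 5) (nat_lit 2) (nat_lit 4) (nat_lit 408) (nat_lit 351) (nat_lit 261)))))) (XT.nd (nat_lit 390) (nat_lit 0) (nat_lit 0) (XT.nd (nat_lit 156) (nat_lit 0) (nat_lit 0) (XT.nd (nat_lit 78) (nat_lit 0) (nat_lit 0) (XT.lf (nat_lit 0) (nat_lit 1467688632690) (nat_lit 76) (nat_lit 3314093140748) (nat_lit 76) (nat_lit 3282379500984) (nat_lit 1) (nat_lit 4) (nat_lit 2) (nat_lit 5) (nat_lit 2) (nat_lit 4) (nat_lit 409) (nat_lit 351) (nat_lit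 260)) (XT.lf (nat_lit 0) (nat_lit 2428449453871) (nat_lit 76) (nat_lit 3424190160790) (nat_lit 76) (nat_lit 3392476508635) (nat_lit 1) (nat_lit 4) (nat_lit 2) (nat_lit 5) (nat_lit 2) (nat_lit 4) (nat_lit 410) (nat_lit 351) (nat_lit 259))) (XT.nd (nat_lit 78) (nat_lit 0) (nat_lit 0) (XT.lf (nat_lit 0) (nat_lit 3533323857205) (nat_lit 76) (nat_lit 3550802013085) (nat_lit 76) (nat_lit 3519088350153) (nat_lit 1) (nat_lit 4) (nat_lit 2) (nat_lit 5) (nat_lit 2) (nat_lit 4) (nat_lit 411) (nat_lit 351) (nat_lit 258)) (XT.nd (nat_lit 78) (nat_lit 0) (nat_lit 0) (XT.lf (nat_lit 0) (nat_lit 4803928950584) (nat_lit 76) (nat_lit 3696405886046) (nat_lit 76) (nat_lit 3664692213745) (nat_lit 1) (nat_lit 4) (nat_lit 2) (nat_lit 5) (nat_lit 2) (nat_lit 4) (nat_lit 412) (nat_lit 351) (nat_lit 257)) (XT.lf (nat_lit 0) (nat_lit 6265124398878) (nat_lit 76) (nat_lit 3863850551101) (nat_lit 76) (nat_lit 3832136870652)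 (nat_lit 1) (nat_lit 4) (nat_lit 2) (nat_lit 5) (nat_lit 2) (nat_lit 4) (nat_lit 413) (nat_lit 351) (nat_lit 256))))) (XT.nd (nat_lit 156) (nat_lit 0) (nat_lit 0) (XT.nd (nat_lit 78) (nat_lit 0) (nat_lit 0) (XT.lf (nat_lit 0) (nat_lit 7945498808685) (nat_lit 76) (nat_lit 4056412099523) (nat_lit 76) (nat_lit 4024698411989) (nat_lit 1) (nat_lit 4) (nat_lit 2) (nat_lit 5) (nat_lit 2) (nat_lit 4) (nat_lit 414) (nat_lit 351) (nat_lit 255)) (XT.lf (nat_lit 0) (nat_lit 9877929070631) (nat_lit 76) (nat_lit 4277858039869) (nat_lit 76) (nat_lit 4246144346174) (nat_lit 1) (nat_lit 4) (nat_lit 2) (nat_lit 5) (nat_lit 2) (nat_lit 4) (nat_lit 415) (nat_lit 351) (nat_lit 254))) (XT.nd (nat_lit 78) (nat_lit 0) (nat_lit 0) (XT.lf (nat_lit 0) (nat_lit 12100223602884) (nat_lit 76) (nat_lit 4532521010101) (nat_lit 76) (nat_lit 4500807311048) (nat_lit 1) (nat_lit 4) (nat_lit 2) (nat_lit 5) (nat_lit 2) (nat_lit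 4) (nat_lit 416) (nat_lit 351) (nat_lit 253)) (XT.nd (nat_lit 78) (nat_lit 0) (nat_lit 0) (XT.lf (nat_lit 0) (nat_lit 14655862081076) (nat_lit 76) (nat_lit 4825383546593) (nat_lit 76) (nat_lit 4793669842882) (nat_lit 1) (nat_lit 4) (nat_lit 2) (nat_lit 5) (nat_lit 2) (nat_lit 4) (nat_lit 417) (nat_lit 351) (nat_lit 252)) (XT.lf (nat_lit 0) (nat_lit 17594846127605) (nat_lit 76) (nat_lit 5162175568538) (nat_lit 76) (nat_lit 5130461860776) (nat_lit 1) (nat_lit 4) (nat_lit 2) (nat_lit 5) (nat_lit 2) (nat_lit 4) (nat_lit 418) (nat_lit 351) (nat_lit 251))))))))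
noncomputable def xc70 : XT := (XT.nd (nat_lit 49140) (nat_lit 0) (nat_lit 1064) (XT.nd (nat_lit 48438) (nat_lit 0) (nat_lit 3344) (XT.nd (nat_lit 48048) (nat_lit 0) (nat_lit 5092) (XT.nd (nat_lit 47892) (nat_lit 0) (nat_lit 6080) (XT.nd (nat_lit 78) (nat_lit 0) (nat_lit 0) (XT.lf (nat_lit 0) (nat_lit 20974677604253) (nat_lit 76) (nat_lit 5549486485061) (nat_lit 76) (nat_lit 5517772773777) (nat_lit 1) (nat_lit 4) (nat_lit 2) (nat_lit 5) (nat_lit 2) (nat_lit 4) (nat_lit 419) (nat_lit 351) (nat_lit 250)) (XT.lf (nat_lit 0) (nat_lit 24861483648605) (nat_lit 76) (nat_lit 5994894118442) (nat_lit 76) (nat_lit 5963180404094) (nat_lit 1) (nat_lit 4) (nat_lit 2) (nat_lit 5) (nat_lit 2) (nat_lit 4) (nat_lit 420) (nat_lit 351) (nat_lit 249))) (XT.nd (nat_lit 78) (nat_lit 0) (nat_lit 0) (XT.lf (nat_lit 0) (nat_lit 9957326649) (nat_lit 532) (nat_lit 476099346) (nat_lit 532) (nat_lit 476099346) (nat_lit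 81) (nat_lit 3) (nat_lit 88) (nat_lit 3) (nat_lit 88) (nat_lit 5) (nat_lit 352) (nat_lit 352) (nat_lit 316)) (XT.lf (nat_lit 76) (nat_lit 20352974273) (nat_lit 0) (nat_lit 1780141760) (nat_lit 532) (nat_lit 1264311418) (nat_lit 82) (nat_lit 5) (nat_lit 81) (nat_lit 3) (nat_lit 88) (nat_lit 5) (nat_lit 353) (nat_lit 352) (nat_lit 315)))) (XT.nd (nat_lit 156) (nat_lit 532) (nat_lit 0) (XT.nd (nat_lit 78) (nat_lit 0) (nat_lit 76) (XT.lf (nat_lit 0) (nat_lit 480317169) (nat_lit 532) (nat_lit 4950001713) (nat_lit 608) (nat_lit 19704699999) (nat_lit 75) (nat_lit 5) (nat_lit 82) (nat_lit 5) (nat_lit 83) (nat_lit 5) (nat_lit 354) (nat_lit 352) (nat_lit 314)) (XT.lf (nat_lit 0) (nat_lit 3448075743) (nat_lit 532) (nat_lit 6623721034) (nat_lit 608) (nat_lit 16975930366) (nat_lit 76) (nat_lit 5) (nat_lit 83) (nat_lit 5) (nat_lit 84) (nat_lit 5) (nat_lit 355) (nat_lit 352) (nat_lit 313))) (XT.nd (nat_lit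 78) (nat_lit 684) (nat_lit 0) (XT.lf (nat_lit 0) (nat_lit 7978923597) (nat_lit 532) (nat_lit 7954565639) (nat_lit 76) (nat_lit 13224426214) (nat_lit 77) (nat_lit 5) (nat_lit 84) (nat_lit 5) (nat_lit 78) (nat_lit 5) (nat_lit 356) (nat_lit 352) (nat_lit 312)) (XT.nd (nat_lit 78) (nat_lit 228) (nat_lit 0) (XT.lf (nat_lit 0) (nat_lit 14394929424) (nat_lit 532) (nat_lit 8845000947) (nat_lit 76) (nat_lit 8248265990) (nat_lit 71) (nat_lit 5) (nat_lit 78) (nat_lit 5) (nat_lit 72) (nat_lit 5) (nat_lit 357) (nat_lit 352) (nat_lit 311)) (XT.lf (nat_lit 0) (nat_lit 23070858741) (nat_lit 304) (nat_lit 9178182530) (nat_lit 76) (nat_lit 1815182262) (nat_lit 68) (nat_lit 5) (nat_lit 72) (nat_lit 5) (nat_lit 69) (nat_lit 5) (nat_lit 358) (nat_lit 352) (nat_lit 310)))))) (XT.nd (nat_lit 312) (nat_lit 912) (nat_lit 0) (XT.nd (nat_lit 156) (nat_lit 380) (nat_lit 0) (XT.nd (nat_lit 78) (nat_lit 228) (nat_lit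 0) (XT.lf (nat_lit 0) (nat_lit 27926524618) (nat_lit 228) (nat_lit 6676614263) (nat_lit 304) (nat_lit 2299124145) (nat_lit 65) (nat_lit 5) (nat_lit 68) (nat_lit 5) (nat_lit 69) (nat_lit 5) (nat_lit 359) (nat_lit 352) (nat_lit 309)) (XT.lf (nat_lit 0) (nat_lit 8924809087) (nat_lit 228) (nat_lit 8236242297) (nat_lit 76) (nat_lit 22861291490) (nat_lit 62) (nat_lit 5) (nat_lit 65) (nat_lit 5) (nat_lit 63) (nat_lit 5) (nat_lit 360) (nat_lit 352) (nat_lit 308))) (XT.nd (nat_lit 78) (nat_lit 152) (nat_lit 0) (XT.lf (nat_lit 0) (nat_lit 23368608850) (nat_lit 304) (nat_lit 6643376378) (nat_lit 76) (nat_lit 13459882856) (nat_lit 59) (nat_lit 5) (nat_lit 63) (nat_lit 5) (nat_lit 60) (nat_lit 5) (nat_lit 361) (nat_lit 352) (nat_lit 307)) (XT.lf (nat_lit 0) (nat_lit 41765848420) (nat_lit 228) (nat_lit 3941709328) (nat_lit 76) (nat_lit 1588317881) (nat_lit 57) (nat_lit 5) (nat_lit 60) (nat_lit 5) (nat_lit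 58) (nat_lit 5) (nat_lit 362) (nat_lit 352) (nat_lit 306)))) (XT.nd (nat_lit 156) (nat_lit 380) (nat_lit 0) (XT.nd (nat_lit 78) (nat_lit 304) (nat_lit 0) (XT.lf (nat_lit 0) (nat_lit 12971534292) (nat_lit 228) (nat_lit 559892441) (nat_lit 76) (nat_lit 37956129180) (nat_lit 54) (nat_lit 5) (nat_lit 57) (nat_lit 5) (nat_lit 55) (nat_lit 5) (nat_lit 363) (nat_lit 352) (nat_lit 305)) (XT.lf (nat_lit 0) (nat_lit 4265678314) (nat_lit 152) (nat_lit 31942306940) (nat_lit 228) (nat_lit 19905546656) (nat_lit 50) (nat_lit 5) (nat_lit 52) (nat_lit 5) (nat_lit 53) (nat_lit 5) (nat_lit 364) (nat_lit 352) (nat_lit 304))) (XT.nd (nat_lit 78) (nat_lit 228) (nat_lit 0) (XT.lf (nat_lit 0) (nat_lit 3795181657) (nat_lit 152) (nat_lit 50452479174) (nat_lit 76) (nat_lit 6992982532) (nat_lit 48) (nat_lit 5) (nat_lit 50) (nat_lit 5) (nat_lit 49) (nat_lit 5) (nat_lit 365) (nat_lit 352) (nat_lit 303)) (XT.nd (nat_lit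 78) (nat_lit 76) (nat_lit 0) (XT.lf (nat_lit 0) (nat_lit 18366699475) (nat_lit 152) (nat_lit 14399732268) (nat_lit 228) (nat_lit 34097505713) (nat_lit 46) (nat_lit 5) (nat_lit 48) (nat_lit 5) (nat_lit 49) (nat_lit 5) (nat_lit 366) (nat_lit 352) (nat_lit 302)) (XT.lf (nat_lit 0) (nat_lit 27933129604) (nat_lit 76) (nat_lit 41072555024) (nat_lit 152) (nat_lit 4091257151) (nat_lit 45) (nat_lit 5) (nat_lit 46) (nat_lit 5) (nat_lit 47) (nat_lit 4) (nat_lit 367) (nat_lit 352) (nat_lit 301))))))) (XT.nd (nat_lit 702) (nat_lit 1064) (nat_lit 0) (XT.nd (nat_lit 312) (nat_lit 684) (nat_lit 0) (XT.nd (nat_lit 156) (nat_lit 228) (nat_lit 0) (XT.nd (nat_lit 78) (nat_lit 76) (nat_lit 0) (XT.lf (nat_lit 0) (nat_lit 31863026584) (nat_lit 228) (nat_lit 40771944829) (nat_lit 76) (nat_lit 7333916044) (nat_lit 42) (nat_lit 5) (nat_lit 45) (nat_lit 5) (nat_lit 43) (nat_lit 4) (nat_lit 368) (nat_lit 352) (nat_lit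 300)) (XT.lf (nat_lit 0) (nat_lit 52504753606) (nat_lit 76) (nat_lit 24207526806) (nat_lit 152) (nat_lit 10851318150) (nat_lit 41) (nat_lit 5) (nat_lit 42) (nat_lit 5) (nat_lit 43) (nat_lit 4) (nat_lit 369) (nat_lit 352) (nat_lit 299))) (XT.nd (nat_lit 78) (nat_lit 76) (nat_lit 0) (XT.lf (nat_lit 0) (nat_lit 34101758268) (nat_lit 152) (nat_lit 28202849747) (nat_lit 76) (nat_lit 33634502187) (nat_lit 39) (nat_lit 5) (nat_lit 41) (nat_lit 5) (nat_lit 40) (nat_lit 4) (nat_lit 370) (nat_lit 352) (nat_lit 298)) (XT.lf (nat_lit 0) (nat_lit 85866852540) (nat_lit 76) (nat_lit 3079390465) (nat_lit 152) (nat_lit 16298880767) (nat_lit 38) (nat_lit 5) (nat_lit 39) (nat_lit 5) (nat_lit 40) (nat_lit 4) (nat_lit 371) (nat_lit 352) (nat_lit 297)))) (XT.nd (nat_lit 156) (nat_lit 380) (nat_lit 0) (XT.nd (nat_lit 78) (nat_lit 152) (nat_lit 0) (XT.lf (nat_lit 0) (nat_lit 39356613018) (nat_lit 152) (nat_lit 9941271341)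 (nat_lit 76) (nat_lit 66172505103) (nat_lit 36) (nat_lit 5) (nat_lit 38) (nat_lit 5) (nat_lit 37) (nat_lit 4) (nat_lit 372) (nat_lit 352) (nat_lit 296)) (XT.lf (nat_lit 0) (nat_lit 1694074031) (nat_lit 76) (nat_lit 105079246849) (nat_lit 76) (nat_lit 20072019530) (nat_lit 34) (nat_lit 4) (nat_lit 35) (nat_lit 5) (nat_lit 35) (nat_lit 4) (nat_lit 373) (nat_lit 352) (nat_lit 295))) (XT.nd (nat_lit 78) (nat_lit 228) (nat_lit 0) (XT.lf (nat_lit 0) (nat_lit 14686729864) (nat_lit 76) (nat_lit 33244907191) (nat_lit 152) (nat_lit 91447477531) (nat_lit 32) (nat_lit 5) (nat_lit 33) (nat_lit 5) (nat_lit 34) (nat_lit 4) (nat_lit 374) (nat_lit 352) (nat_lit 294)) (XT.nd (nat_lit 78) (nat_lit 152) (nat_lit 0) (XT.lf (nat_lit 0) (nat_lit 29186370560) (nat_lit 76) (nat_lit 101414813438) (nat_lit 76) (nat_lit 22697756765) (nat_lit 31) (nat_lit 4) (nat_lit 32) (nat_lit 5) (nat_lit 32) (nat_lit 4) (nat_lit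 375) (nat_lit 352) (nat_lit 293)) (XT.lf (nat_lit 0) (nat_lit 44526121718) (nat_lit 76) (nat_lit 14726701564) (nat_lit 152) (nat_lit 109488834362) (nat_lit 29) (nat_lit 5) (nat_lit 30) (nat_lit 5) (nat_lit 31) (nat_lit 4) (nat_lit 376) (nat_lit 352) (nat_lit 292)))))) (XT.nd (nat_lit 390) (nat_lit 532) (nat_lit 0) (XT.nd (nat_lit 156) (nat_lit 304) (nat_lit 0) (XT.nd (nat_lit 78) (nat_lit 152) (nat_lit 0) (XT.lf (nat_lit 0) (nat_lit 59987851876) (nat_lit 76) (nat_lit 99389292139) (nat_lit 76) (nat_lit 26498464962) (nat_lit 28) (nat_lit 4) (nat_lit 29) (nat_lit 5) (nat_lit 29) (nat_lit 4) (nat_lit 377) (nat_lit 352) (nat_lit 291)) (XT.lf (nat_lit 0) (nat_lit 71525239711) (nat_lit 152) (nat_lit 129407108436) (nat_lit 0) (nat_lit 4031986598) (nat_lit 26) (nat_lit 5) (nat_lit 28) (nat_lit 4) (nat_lit 26) (nat_lit 4) (nat_lit 378) (nat_lit 352) (nat_lit 290))) (XT.nd (nat_lit 78) (nat_lit 228)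 (nat_lit 0) (XT.lf (nat_lit 0) (nat_lit 89087461327) (nat_lit 76) (nat_lit 102286683153) (nat_lit 76) (nat_lit 34791911373) (nat_lit 25) (nat_lit 4) (nat_lit 26) (nat_lit 5) (nat_lit 26) (nat_lit 4) (nat_lit 379) (nat_lit 352) (nat_lit 289)) (XT.nd (nat_lit 78) (nat_lit 76) (nat_lit 0) (XT.lf (nat_lit 0) (nat_lit 81487748547) (nat_lit 152) (nat_lit 149376000079) (nat_lit 0) (nat_lit 18991366732) (nat_lit 23) (nat_lit 5) (nat_lit 25) (nat_lit 4) (nat_lit 23) (nat_lit 4) (nat_lit 380) (nat_lit 352) (nat_lit 288)) (XT.lf (nat_lit 0) (nat_lit 106622049983) (nat_lit 76) (nat_lit 116068660175) (nat_lit 76) (nat_lit 53571215091) (nat_lit 22) (nat_lit 4) (nat_lit 23) (nat_lit 5) (nat_lit 23) (nat_lit 4) (nat_lit 381) (nat_lit 352) (nat_lit 287))))) (XT.nd (nat_lit 156) (nat_lit 304) (nat_lit 0) (XT.nd (nat_lit 78) (nat_lit 76) (nat_lit 0) (XT.lf (nat_lit 0) (nat_lit 82169256873) (nat_lit 152) (nat_lit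 199397256507) (nat_lit 0) (nat_lit 24300396071) (nat_lit 20) (nat_lit 5) (nat_lit 22) (nat_lit 4) (nat_lit 20) (nat_lit 4) (nat_lit 382) (nat_lit 352) (nat_lit 286)) (XT.lf (nat_lit 0) (nat_lit 94657160868) (nat_lit 76) (nat_lit 151081297555) (nat_lit 76) (nat_lit 93211692324) (nat_lit 19) (nat_lit 4) (nat_lit 20) (nat_lit 5) (nat_lit 20) (nat_lit 4) (nat_lit 383) (nat_lit 352) (nat_lit 285))) (XT.nd (nat_lit 78) (nat_lit 152) (nat_lit 0) (XT.lf (nat_lit 0) (nat_lit 61856895574) (nat_lit 152) (nat_lit 306128003578) (nat_lit 0) (nat_lit 8273328387) (nat_lit 17) (nat_lit 5) (nat_lit 19) (nat_lit 4) (nat_lit 17) (nat_lit 4) (nat_lit 384) (nat_lit 352) (nat_lit 284)) (XT.nd (nat_lit 78) (nat_lit 76) (nat_lit 0) (XT.lf (nat_lit 0) (nat_lit 22072091967) (nat_lit 76) (nat_lit 224754031865) (nat_lit 76) (nat_lit 171169943479) (nat_lit 16) (nat_lit 4) (nat_lit 17) (nat_lit 5) (nat_lit 17) (nat_lit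 4) (nat_lit 385) (nat_lit 352) (nat_lit 283)) (XT.lf (nat_lit 0) (nat_lit 3009490605) (nat_lit 152) (nat_lit 47324801145) (nat_lit 76) (nat_lit 414941469373) (nat_lit 15) (nat_lit 5) (nat_lit 17) (nat_lit 5) (nat_lit 16) (nat_lit 4) (nat_lit 386) (nat_lit 352) (nat_lit 282))))))))
noncomputable def xc71 : XT := (XT.nd (nat_lit 1404) (nat_lit 76) (nat_lit 0) (XT.nd (nat_lit 702) (nat_lit 380) (nat_lit 0) (XT.nd (nat_lit 312) (nat_lit 304) (nat_lit 0) (XT.nd (nat_lit 156) (nat_lit 152) (nat_lit 0) (XT.nd (nat_lit 78) (nat_lit 76) (nat_lit 0) (XT.lf (nat_lit 0) (nat_lit 206262430403) (nat_lit 152) (nat_lit 155336010731) (nat_lit 0) (nat_lit 156646749194) (nat_lit 14) (nat_lit 5) (nat_lit 16) (nat_lit 4) (nat_lit 14) (nat_lit 4) (nat_lit 387) (nat_lit 352) (nat_lit 281)) (XT.lf (nat_lit 0) (nat_lit 270596740038) (nat_lit 76) (nat_lit 178717220251) (nat_lit 76) (nat_lit 129101221730) (nat_lit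 13) (nat_lit 4) (nat_lit 14) (nat_lit 5) (nat_lit 14) (nat_lit 4) (nat_lit 388) (nat_lit 352) (nat_lit 280))) (XT.nd (nat_lit 78) (nat_lit 0) (nat_lit 0) (XT.lf (nat_lit 0) (nat_lit 85848088054) (nat_lit 152) (nat_lit 521003388430) (nat_lit 0) (nat_lit 39907093198) (nat_lit 11) (nat_lit 5) (nat_lit 13) (nat_lit 4) (nat_lit 11) (nat_lit 4) (nat_lit 389) (nat_lit 352) (nat_lit 279)) (XT.lf (nat_lit 0) (nat_lit 339747779465) (nat_lit 152) (nat_lit 90382683874) (nat_lit 0) (nat_lit 293806562448) (nat_lit 11) (nat_lit 5) (nat_lit 13) (nat_lit 4) (nat_lit 11) (nat_lit 4) (nat_lit 390) (nat_lit 352) (nat_lit 278)))) (XT.nd (nat_lit 156) (nat_lit 76) (nat_lit 0) (XT.nd (nat_lit 78) (nat_lit 152) (nat_lit 0) (XT.lf (nat_lit 0) (nat_lit 426143974652) (nat_lit 76) (nat_lit 215834981669) (nat_lit 76) (nat_lit 169893571468) (nat_lit 10) (nat_lit 4) (nat_lit 11) (nat_lit 5) (nat_lit 11) (nat_lit 4) (nat_lit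 391) (nat_lit 352) (nat_lit 277)) (XT.lf (nat_lit 0) (nat_lit 79149940749) (nat_lit 152) (nat_lit 796575084419) (nat_lit 0) (nat_lit 36611442428) (nat_lit 8) (nat_lit 5) (nat_lit 10) (nat_lit 4) (nat_lit 8) (nat_lit 4) (nat_lit 392) (nat_lit 352) (nat_lit 276))) (XT.nd (nat_lit 78) (nat_lit 76) (nat_lit 0) (XT.lf (nat_lit 0) (nat_lit 373265651639) (nat_lit 152) (nat_lit 322102281711) (nat_lit 0) (nat_lit 330727018064) (nat_lit 8) (nat_lit 5) (nat_lit 10) (nat_lit 4) (nat_lit 8) (nat_lit 4) (nat_lit 393) (nat_lit 352) (nat_lit 275)) (XT.nd (nat_lit 78) (nat_lit 0) (nat_lit 0) (XT.lf (nat_lit 0) (nat_lit 235309021158) (nat_lit 76) (nat_lit 481847170041) (nat_lit 76) (nat_lit 439308418854) (nat_lit 7) (nat_lit 4) (nat_lit 8) (nat_lit 5) (nat_lit 8) (nat_lit 4) (nat_lit 394) (nat_lit 352) (nat_lit 274)) (XT.lf (nat_lit 0) (nat_lit 895834323449) (nat_lit 76) (nat_lit 226172080081) (nat_lit 76)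 (nat_lit 183633226622) (nat_lit 7) (nat_lit 4) (nat_lit 8) (nat_lit 5) (nat_lit 8) (nat_lit 4) (nat_lit 395) (nat_lit 352) (nat_lit 273)))))) (XT.nd (nat_lit 312) (nat_lit 152) (nat_lit 0) (XT.nd (nat_lit 156) (nat_lit 76) (nat_lit 0) (XT.nd (nat_lit 78) (nat_lit 0) (nat_lit 0) (XT.lf (nat_lit 0) (nat_lit 111131118971) (nat_lit 152) (nat_lit 1293603362801) (nat_lit 0) (nat_lit 71743209350) (nat_lit 5) (nat_lit 5) (nat_lit 7) (nat_lit 4) (nat_lit 5) (nat_lit 4) (nat_lit 396) (nat_lit 352) (nat_lit 272)) (XT.lf (nat_lit 0) (nat_lit 458041111540) (nat_lit 152) (nat_lit 794361313348) (nat_lit 0) (nat_lit 418653130315) (nat_lit 5) (nat_lit 5) (nat_lit 7) (nat_lit 4) (nat_lit 5) (nat_lit 4) (nat_lit 397) (nat_lit 352) (nat_lit 271))) (XT.nd (nat_lit 78) (nat_lit 76) (nat_lit 0) (XT.lf (nat_lit 0) (nat_lit 856986460571) (nat_lit 152) (nat_lit 220235312641) (nat_lit 0) (nat_lit 817598417083) (nat_lit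 5) (nat_lit 5) (nat_lit 7) (nat_lit 4) (nat_lit 5) (nat_lit 4) (nat_lit 398) (nat_lit 352) (nat_lit 270)) (XT.lf (nat_lit 0) (nat_lit 463177556591) (nat_lit 76) (nat_lit 863734493329) (nat_lit 76) (nat_lit 824346395699) (nat_lit 4) (nat_lit 4) (nat_lit 5) (nat_lit 5) (nat_lit 5) (nat_lit 4) (nat_lit 399) (nat_lit 352) (nat_lit 269)))) (XT.nd (nat_lit 156) (nat_lit 152) (nat_lit 0) (XT.nd (nat_lit 78) (nat_lit 0) (nat_lit 0) (XT.lf (nat_lit 0) (nat_lit 1262437262259) (nat_lit 76) (nat_lit 611300220641) (nat_lit 76) (nat_lit 571912075929) (nat_lit 4) (nat_lit 4) (nat_lit 5) (nat_lit 5) (nat_lit 5) (nat_lit 4) (nat_lit 400) (nat_lit 352) (nat_lit 268)) (XT.lf (nat_lit 0) (nat_lit 2181584292981) (nat_lit 76) (nat_lit 321001647463) (nat_lit 76) (nat_lit 281613461812) (nat_lit 4) (nat_lit 4) (nat_lit 5) (nat_lit 5) (nat_lit 5) (nat_lit 4) (nat_lit 401) (nat_lit 352) (nat_lit 267))) (XT.nd (nat_lit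 78) (nat_lit 0) (nat_lit 0) (XT.lf (nat_lit 0) (nat_lit 51615446450) (nat_lit 152) (nat_lit 3106511053587) (nat_lit 0) (nat_lit 15144871218) (nat_lit 2) (nat_lit 5) (nat_lit 4) (nat_lit 4) (nat_lit 2) (nat_lit 4) (nat_lit 402) (nat_lit 352) (nat_lit 266)) (XT.nd (nat_lit 78) (nat_lit 0) (nat_lit 0) (XT.lf (nat_lit 0) (nat_lit 445505769962) (nat_lit 152) (nat_lit 2763389889667) (nat_lit 0) (nat_lit 409035166066) (nat_lit 2) (nat_lit 5) (nat_lit 4) (nat_lit 4) (nat_lit 2) (nat_lit 4) (nat_lit 403) (nat_lit 352) (nat_lit 265)) (XT.lf (nat_lit 0) (nat_lit 898479066589) (nat_lit 152) (nat_lit 2368801739979) (nat_lit 0) (nat_lit 862008437769) (nat_lit 2) (nat_lit 5) (nat_lit 4) (nat_lit 4) (nat_lit 2) (nat_lit 4) (nat_lit 404) (nat_lit 352) (nat_lit 264))))))) (XT.nd (nat_lit 702) (nat_lit 0) (nat_lit 0) (XT.nd (nat_lit 312) (nat_lit 76) (nat_lit 0) (XT.nd (nat_lit 156) (nat_lit 0) (nat_lit 0)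 (XT.nd (nat_lit 78) (nat_lit 0) (nat_lit 0) (XT.lf (nat_lit 0) (nat_lit 1419397857353) (nat_lit 152) (nat_lit 1915026401593) (nat_lit 0) (nat_lit 1382927206860) (nat_lit 2) (nat_lit 5) (nat_lit 4) (nat_lit 4) (nat_lit 2) (nat_lit 4) (nat_lit 405) (nat_lit 352) (nat_lit 263)) (XT.lf (nat_lit 0) (nat_lit 2018454031638) (nat_lit 152) (nat_lit 1393185661368) (nat_lit 0) (nat_lit 1981983362298) (nat_lit 2) (nat_lit 5) (nat_lit 4) (nat_lit 4) (nat_lit 2) (nat_lit 4) (nat_lit 406) (nat_lit 352) (nat_lit 262))) (XT.nd (nat_lit 78) (nat_lit 0) (nat_lit 0) (XT.lf (nat_lit 0) (nat_lit 2707368253724) (nat_lit 152) (nat_lit 793069591777) (nat_lit 0) (nat_lit 2670897567996) (nat_lit 2) (nat_lit 5) (nat_lit 4) (nat_lit 4) (nat_lit 2) (nat_lit 4) (nat_lit 407) (nat_lit 352) (nat_lit 261)) (XT.lf (nat_lit 0) (nat_lit 3499619280130) (nat_lit 152) (nat_lit 102936791458) (nat_lit 0) (nat_lit 3463148580151) (nat_lit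 2) (nat_lit 5) (nat_lit 4) (nat_lit 4) (nat_lit 2) (nat_lit 4) (nat_lit 408) (nat_lit 352) (nat_lit 260)))) (XT.nd (nat_lit 156) (nat_lit 0) (nat_lit 0) (XT.nd (nat_lit 78) (nat_lit 0) (nat_lit 0) (XT.lf (nat_lit 0) (nat_lit 727087183492) (nat_lit 76) (nat_lit 3701106955172) (nat_lit 76) (nat_lit 3664636242801) (nat_lit 1) (nat_lit 4) (nat_lit 2) (nat_lit 5) (nat_lit 2) (nat_lit 4) (nat_lit 409) (nat_lit 352) (nat_lit 259)) (XT.lf (nat_lit 0) (nat_lit 1687847753034) (nat_lit 76) (nat_lit 3811204105096) (nat_lit 76) (nat_lit 3774733381950) (nat_lit 1) (nat_lit 4) (nat_lit 2) (nat_lit 5) (nat_lit 2) (nat_lit 4) (nat_lit 410) (nat_lit 352) (nat_lit 258))) (XT.nd (nat_lit 78) (nat_lit 0) (nat_lit 0) (XT.lf (nat_lit 0) (nat_lit 2792721937552) (nat_lit 76) (nat_lit 3937816070331) (nat_lit 76) (nat_lit 3901345337815) (nat_lit 1) (nat_lit 4) (nat_lit 2) (nat_lit 5) (nat_lit 2) (nat_lit 4) (nat_lit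 411) (nat_lit 352) (nat_lit 257)) (XT.nd (nat_lit 78) (nat_lit 0) (nat_lit 0) (XT.lf (nat_lit 0) (nat_lit 4063326840656) (nat_lit 76) (nat_lit 4083420041501) (nat_lit 76) (nat_lit 4046949300837) (nat_lit 1) (nat_lit 4) (nat_lit 2) (nat_lit 5) (nat_lit 2) (nat_lit 4) (nat_lit 412) (nat_lit 352) (nat_lit 256)) (XT.lf (nat_lit 0) (nat_lit 5524522123494) (nat_lit 76) (nat_lit 4250864791956) (nat_lit 76) (nat_lit 4214394044207) (nat_lit 1) (nat_lit 4) (nat_lit 2) (nat_lit 5) (nat_lit 2) (nat_lit 4) (nat_lit 413) (nat_lit 352) (nat_lit 255)))))) (XT.nd (nat_lit 390) (nat_lit 0) (nat_lit 0) (XT.nd (nat_lit 156) (nat_lit 0) (nat_lit 0) (XT.nd (nat_lit 78) (nat_lit 0) (nat_lit 0) (XT.lf (nat_lit 0) (nat_lit 7204896389425) (nat_lit 76) (nat_lit 4443426414639) (nat_lit 76) (nat_lit 4406955660729) (nat_lit 1) (nat_lit 4) (nat_lit 2) (nat_lit 5) (nat_lit 2) (nat_lit 4) (nat_lit 414) (nat_lit 352) (nat_lit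 254)) (XT.lf (nat_lit 0) (nat_lit 9137326526262) (nat_lit 76) (nat_lit 4664872419559) (nat_lit 76) (nat_lit 4628401660291) (nat_lit 1) (nat_lit 4) (nat_lit 2) (nat_lit 5) (nat_lit 2) (nat_lit 4) (nat_lit 415) (nat_lit 352) (nat_lit 253))) (XT.nd (nat_lit 78) (nat_lit 0) (nat_lit 0) (XT.lf (nat_lit 0) (nat_lit 11359620949724) (nat_lit 76) (nat_lit 4919535445942) (nat_lit 76) (nat_lit 4883064682016) (nat_lit 1) (nat_lit 4) (nat_lit 2) (nat_lit 5) (nat_lit 2) (nat_lit 4) (nat_lit 416) (nat_lit 352) (nat_lit 252)) (XT.nd (nat_lit 78) (nat_lit 0) (nat_lit 0) (XT.lf (nat_lit 0) (nat_lit 13915259333316) (nat_lit 76) (nat_lit 5212398031262) (nat_lit 76) (nat_lit 5175927263285) (nat_lit 1) (nat_lit 4) (nat_lit 2) (nat_lit 5) (nat_lit 2) (nat_lit 4) (nat_lit 417) (nat_lit 352) (nat_lit 251)) (XT.lf (nat_lit 0) (nat_lit 16854243297584) (nat_lit 76) (nat_lit 5549190095665) (nat_lit 76) (nat_lit 5512719324166)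 (nat_lit 1) (nat_lit 4) (nat_lit 2) (nat_lit 5) (nat_lit 2) (nat_lit 4) (nat_lit 418) (nat_lit 352) (nat_lit 250))))) (XT.nd (nat_lit 47970) (nat_lit 0) (nat_lit 5624) (XT.nd (nat_lit 78) (nat_lit 0) (nat_lit 0) (XT.lf (nat_lit 0) (nat_lit 20234074702700) (nat_lit 76) (nat_lit 5936501049109) (nat_lit 76) (nat_lit 5900030274546) (nat_lit 1) (nat_lit 4) (nat_lit 2) (nat_lit 5) (nat_lit 2) (nat_lit 4) (nat_lit 419) (nat_lit 352) (nat_lit 249)) (XT.lf (nat_lit 0) (nat_lit 24120880684851) (nat_lit 76) (nat_lit 6381908714594) (nat_lit 76) (nat_lit 6345437937368) (nat_lit 1) (nat_lit 4) (nat_lit 2) (nat_lit 5) (nat_lit 2) (nat_lit 4) (nat_lit 420) (nat_lit 352) (nat_lit 248))) (XT.nd (nat_lit 78) (nat_lit 456) (nat_lit 0) (XT.lf (nat_lit 0) (nat_lit 11676553519) (nat_lit 532) (nat_lit 425645032) (nat_lit 532) (nat_lit 425645032) (nat_lit 81) (nat_lit 3) (nat_lit 88) (nat_lit 3) (nat_lit 88) (nat_lit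 5) (nat_lit 353) (nat_lit 353) (nat_lit 314)) (XT.nd (nat_lit 78) (nat_lit 456) (nat_lit 0) (XT.lf (nat_lit 76) (nat_lit 23629027601) (nat_lit 0) (nat_lit 2221817871) (nat_lit 532) (nat_lit 1024270215) (nat_lit 82) (nat_lit 5) (nat_lit 81) (nat_lit 3) (nat_lit 88) (nat_lit 5) (nat_lit 354) (nat_lit 353) (nat_lit 313)) (XT.lf (nat_lit 0) (nat_lit 909422977) (nat_lit 532) (nat_lit 5436324745) (nat_lit 608) (nat_lit 22530874857) (nat_lit 75) (nat_lit 5) (nat_lit 82) (nat_lit 5) (nat_lit 83) (nat_lit 5) (nat_lit 355) (nat_lit 353) (nat_lit 312))))))))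
noncomputable def xc72 : XT := (XT.nd (nat_lit 1404) (nat_lit 1900) (nat_lit 0) (XT.nd (nat_lit 702) (nat_lit 1368) (nat_lit 0) (XT.nd (nat_lit 312) (nat_lit 1064) (nat_lit 0) (XT.nd (nat_lit 156) (nat_lit 608) (nat_lit 0) (XT.nd (nat_lit 78) (nat_lit 0) (nat_lit 76) (XT.lf (nat_lit 0) (nat_lit 4279448841) (nat_lit 532) (nat_lit 7355459385) (nat_lit 608) (nat_lit 19444771592) (nat_lit 76) (nat_lit 5) (nat_lit 83) (nat_lit 5) (nat_lit 84) (nat_lit 5) (nat_lit 356) (nat_lit 353) (nat_lit 311)) (XT.lf (nat_lit 0) (nat_lit 9453765115) (nat_lit 532) (nat_lit 8884767794) (nat_lit 76) (nat_lit 15170765744) (nat_lit 77) (nat_lit 5) (nat_lit 84) (nat_lit 5) (nat_lit 78) (nat_lit 5) (nat_lit 357) (nat_lit 353) (nat_lit 310))) (XT.nd (nat_lit 78) (nat_lit 228) (nat_lit 0) (XT.lf (nat_lit 0) (nat_lit 16801536194) (nat_lit 532) (nat_lit 9911006794) (nat_lit 76) (nat_lit 9479037895) (nat_lit 71) (nat_lit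 5) (nat_lit 78) (nat_lit 5) (nat_lit 72) (nat_lit 5) (nat_lit 358) (nat_lit 353) (nat_lit 309)) (XT.lf (nat_lit 0) (nat_lit 26752758554) (nat_lit 304) (nat_lit 10298949495) (nat_lit 76) (nat_lit 2104399036) (nat_lit 68) (nat_lit 5) (nat_lit 72) (nat_lit 5) (nat_lit 69) (nat_lit 5) (nat_lit 359) (nat_lit 353) (nat_lit 308)))) (XT.nd (nat_lit 156) (nat_lit 608) (nat_lit 0) (XT.nd (nat_lit 78) (nat_lit 228) (nat_lit 0) (XT.lf (nat_lit 0) (nat_lit 32349797951) (nat_lit 228) (nat_lit 7641856120) (nat_lit 304) (nat_lit 2430062861) (nat_lit 65) (nat_lit 5) (nat_lit 68) (nat_lit 5) (nat_lit 69) (nat_lit 5) (nat_lit 360) (nat_lit 353) (nat_lit 307)) (XT.lf (nat_lit 0) (nat_lit 10446659383) (nat_lit 228) (nat_lit 9233795924) (nat_lit 76) (nat_lit 26330554868) (nat_lit 62) (nat_lit 5) (nat_lit 65) (nat_lit 5) (nat_lit 63) (nat_lit 5) (nat_lit 361) (nat_lit 353) (nat_lit 306))) (XT.nd (nat_lit 78) (nat_lit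 380) (nat_lit 0) (XT.lf (nat_lit 0) (nat_lit 27039660642) (nat_lit 304) (nat_lit 7410229040) (nat_lit 76) (nat_lit 15529468372) (nat_lit 59) (nat_lit 5) (nat_lit 63) (nat_lit 5) (nat_lit 60) (nat_lit 5) (nat_lit 362) (nat_lit 353) (nat_lit 305)) (XT.nd (nat_lit 78) (nat_lit 228) (nat_lit 0) (XT.lf (nat_lit 0) (nat_lit 48181388408) (nat_lit 228) (nat_lit 4312257318) (nat_lit 76) (nat_lit 1884532660) (nat_lit 57) (nat_lit 5) (nat_lit 60) (nat_lit 5) (nat_lit 58) (nat_lit 5) (nat_lit 363) (nat_lit 353) (nat_lit 304)) (XT.lf (nat_lit 0) (nat_lit 15056684454) (nat_lit 228) (nat_lit 434487567) (nat_lit 76) (nat_lit 43708343092) (nat_lit 54) (nat_lit 5) (nat_lit 57) (nat_lit 5) (nat_lit 55) (nat_lit 5) (nat_lit 364) (nat_lit 353) (nat_lit 303)))))) (XT.nd (nat_lit 312) (nat_lit 684) (nat_lit 0) (XT.nd (nat_lit 156) (nat_lit 228) (nat_lit 0) (XT.nd (nat_lit 78) (nat_lit 152) (nat_lit 0) (XT.lf (nat_lit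 0) (nat_lit 5116238014) (nat_lit 152) (nat_lit 36655439895) (nat_lit 228) (nat_lit 22748266297) (nat_lit 50) (nat_lit 5) (nat_lit 52) (nat_lit 5) (nat_lit 53) (nat_lit 5) (nat_lit 365) (nat_lit 353) (nat_lit 302)) (XT.lf (nat_lit 0) (nat_lit 4489313721) (nat_lit 152) (nat_lit 57812892462) (nat_lit 76) (nat_lit 8114530885) (nat_lit 48) (nat_lit 5) (nat_lit 50) (nat_lit 5) (nat_lit 49) (nat_lit 5) (nat_lit 366) (nat_lit 353) (nat_lit 301))) (XT.nd (nat_lit 78) (nat_lit 76) (nat_lit 0) (XT.lf (nat_lit 0) (nat_lit 21311602648) (nat_lit 152) (nat_lit 16482930319) (nat_lit 228) (nat_lit 39089931657) (nat_lit 46) (nat_lit 5) (nat_lit 48) (nat_lit 5) (nat_lit 49) (nat_lit 5) (nat_lit 367) (nat_lit 353) (nat_lit 300)) (XT.lf (nat_lit 0) (nat_lit 32303529773) (nat_lit 76) (nat_lit 47157331770) (nat_lit 152) (nat_lit 4592264667) (nat_lit 45) (nat_lit 5) (nat_lit 46) (nat_lit 5) (nat_lit 47) (nat_lit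 4) (nat_lit 368) (nat_lit 353) (nat_lit 299)))) (XT.nd (nat_lit 156) (nat_lit 380) (nat_lit 0) (XT.nd (nat_lit 78) (nat_lit 76) (nat_lit 0) (XT.lf (nat_lit 0) (nat_lit 36741418163) (nat_lit 228) (nat_lit 46711385695) (nat_lit 76) (nat_lit 8503492935) (nat_lit 42) (nat_lit 5) (nat_lit 45) (nat_lit 5) (nat_lit 43) (nat_lit 4) (nat_lit 369) (nat_lit 353) (nat_lit 298)) (XT.lf (nat_lit 0) (nat_lit 60541890284) (nat_lit 76) (nat_lit 27767147121) (nat_lit 152) (nat_lit 12381900116) (nat_lit 41) (nat_lit 5) (nat_lit 42) (nat_lit 5) (nat_lit 43) (nat_lit 4) (nat_lit 370) (nat_lit 353) (nat_lit 297))) (XT.nd (nat_lit 78) (nat_lit 228) (nat_lit 0) (XT.lf (nat_lit 0) (nat_lit 39302550073) (nat_lit 152) (nat_lit 32275990282) (nat_lit 76) (nat_lit 38744587987) (nat_lit 39) (nat_lit 5) (nat_lit 41) (nat_lit 5) (nat_lit 40) (nat_lit 4) (nat_lit 371) (nat_lit 353) (nat_lit 296)) (XT.nd (nat_lit 78) (nat_lit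 152) (nat_lit 0) (XT.lf (nat_lit 0) (nat_lit 98890853793) (nat_lit 76) (nat_lit 3475160456) (nat_lit 152) (nat_lit 18659645962) (nat_lit 38) (nat_lit 5) (nat_lit 39) (nat_lit 5) (nat_lit 40) (nat_lit 4) (nat_lit 372) (nat_lit 353) (nat_lit 295)) (XT.lf (nat_lit 0) (nat_lit 45334325517) (nat_lit 152) (nat_lit 11292514063) (nat_lit 76) (nat_lit 76158166357) (nat_lit 36) (nat_lit 5) (nat_lit 38) (nat_lit 5) (nat_lit 37) (nat_lit 4) (nat_lit 373) (nat_lit 353) (nat_lit 294))))))) (XT.nd (nat_lit 702) (nat_lit 836) (nat_lit 0) (XT.nd (nat_lit 312) (nat_lit 532) (nat_lit 0) (XT.nd (nat_lit 156) (nat_lit 228) (nat_lit 0) (XT.nd (nat_lit 78) (nat_lit 152) (nat_lit 0) (XT.lf (nat_lit 0) (nat_lit 2087200101) (nat_lit 76) (nat_lit 120774537272) (nat_lit 76) (nat_lit 23004606890) (nat_lit 34) (nat_lit 4) (nat_lit 35) (nat_lit 5) (nat_lit 35) (nat_lit 4) (nat_lit 374) (nat_lit 353) (nat_lit 293)) (XT.lf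 (nat_lit 0) (nat_lit 17020572027) (nat_lit 76) (nat_lit 38168568343) (nat_lit 152) (nat_lit 105091417773) (nat_lit 32) (nat_lit 5) (nat_lit 33) (nat_lit 5) (nat_lit 34) (nat_lit 4) (nat_lit 375) (nat_lit 353) (nat_lit 292))) (XT.nd (nat_lit 78) (nat_lit 152) (nat_lit 0) (XT.lf (nat_lit 0) (nat_lit 33687660490) (nat_lit 76) (nat_lit 116566906180) (nat_lit 76) (nat_lit 26034156184) (nat_lit 31) (nat_lit 4) (nat_lit 32) (nat_lit 5) (nat_lit 32) (nat_lit 4) (nat_lit 376) (nat_lit 353) (nat_lit 291)) (XT.lf (nat_lit 0) (nat_lit 51321062700) (nat_lit 76) (nat_lit 16878865076) (nat_lit 152) (nat_lit 125848241926) (nat_lit 29) (nat_lit 5) (nat_lit 30) (nat_lit 5) (nat_lit 31) (nat_lit 4) (nat_lit 377) (nat_lit 353) (nat_lit 290)))) (XT.nd (nat_lit 156) (nat_lit 304) (nat_lit 0) (XT.nd (nat_lit 78) (nat_lit 152) (nat_lit 0) (XT.lf (nat_lit 0) (nat_lit 69095315965) (nat_lit 76) (nat_lit 114243678466)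 (nat_lit 76) (nat_lit 30413531755) (nat_lit 28) (nat_lit 4) (nat_lit 29) (nat_lit 5) (nat_lit 29) (nat_lit 4) (nat_lit 378) (nat_lit 353) (nat_lit 289)) (XT.lf (nat_lit 0) (nat_lit 82307041988) (nat_lit 152) (nat_lit 148712484994) (nat_lit 0) (nat_lit 4685215193) (nat_lit 26) (nat_lit 5) (nat_lit 28) (nat_lit 4) (nat_lit 26) (nat_lit 4) (nat_lit 379) (nat_lit 353) (nat_lit 288))) (XT.nd (nat_lit 78) (nat_lit 228) (nat_lit 0) (XT.lf (nat_lit 0) (nat_lit 102547324126) (nat_lit 76) (nat_lit 117581369860) (nat_lit 76) (nat_lit 39958394735) (nat_lit 25) (nat_lit 4) (nat_lit 26) (nat_lit 5) (nat_lit 26) (nat_lit 4) (nat_lit 380) (nat_lit 353) (nat_lit 287)) (XT.nd (nat_lit 78) (nat_lit 76) (nat_lit 0) (XT.lf (nat_lit 0) (nat_lit 93757399870) (nat_lit 152) (nat_lit 171688912461) (nat_lit 0) (nat_lit 21883350173) (nat_lit 23) (nat_lit 5) (nat_lit 25) (nat_lit 4) (nat_lit 23) (nat_lit 4) (nat_lit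 381) (nat_lit 353) (nat_lit 286)) (XT.lf (nat_lit 0) (nat_lit 122700931847) (nat_lit 76) (nat_lit 133435868153) (nat_lit 76) (nat_lit 61561014471) (nat_lit 22) (nat_lit 4) (nat_lit 23) (nat_lit 5) (nat_lit 23) (nat_lit 4) (nat_lit 382) (nat_lit 353) (nat_lit 285)))))) (XT.nd (nat_lit 312) (nat_lit 380) (nat_lit 0) (XT.nd (nat_lit 156) (nat_lit 228) (nat_lit 0) (XT.nd (nat_lit 78) (nat_lit 76) (nat_lit 0) (XT.lf (nat_lit 0) (nat_lit 94535458436) (nat_lit 152) (nat_lit 229224201006) (nat_lit 0) (nat_lit 27984020660) (nat_lit 20) (nat_lit 5) (nat_lit 22) (nat_lit 4) (nat_lit 20) (nat_lit 4) (nat_lit 383) (nat_lit 353) (nat_lit 284)) (XT.lf (nat_lit 0) (nat_lit 108931383575) (nat_lit 76) (nat_lit 173705152556) (nat_lit 76) (nat_lit 107153151884) (nat_lit 19) (nat_lit 4) (nat_lit 20) (nat_lit 5) (nat_lit 20) (nat_lit 4) (nat_lit 384) (nat_lit 353) (nat_lit 283))) (XT.nd (nat_lit 78) (nat_lit 76)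 (nat_lit 0) (XT.lf (nat_lit 0) (nat_lit 71171293487) (nat_lit 152) (nat_lit 351974181165) (nat_lit 0) (nat_lit 9548617426) (nat_lit 17) (nat_lit 5) (nat_lit 19) (nat_lit 4) (nat_lit 17) (nat_lit 4) (nat_lit 385) (nat_lit 353) (nat_lit 282)) (XT.lf (nat_lit 0) (nat_lit 25449747683) (nat_lit 76) (nat_lit 258433087993) (nat_lit 76) (nat_lit 196810017829) (nat_lit 16) (nat_lit 4) (nat_lit 17) (nat_lit 5) (nat_lit 17) (nat_lit 4) (nat_lit 386) (nat_lit 353) (nat_lit 281)))) (XT.nd (nat_lit 156) (nat_lit 228) (nat_lit 0) (XT.nd (nat_lit 78) (nat_lit 76) (nat_lit 0) (XT.lf (nat_lit 0) (nat_lit 3490171118) (nat_lit 152) (nat_lit 54363856934) (nat_lit 76) (nat_lit 477210756330) (nat_lit 15) (nat_lit 5) (nat_lit 17) (nat_lit 5) (nat_lit 16) (nat_lit 4) (nat_lit 387) (nat_lit 353) (nat_lit 280)) (XT.lf (nat_lit 0) (nat_lit 237229219265) (nat_lit 152) (nat_lit 178580327631) (nat_lit 0) (nat_lit 180170227729)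 (nat_lit 14) (nat_lit 5) (nat_lit 16) (nat_lit 4) (nat_lit 14) (nat_lit 4) (nat_lit 388) (nat_lit 353) (nat_lit 279))) (XT.nd (nat_lit 78) (nat_lit 152) (nat_lit 0) (XT.lf (nat_lit 0) (nat_lit 311237588462) (nat_lit 76) (nat_lit 205498547755) (nat_lit 76) (nat_lit 148439316286) (nat_lit 13) (nat_lit 4) (nat_lit 14) (nat_lit 5) (nat_lit 14) (nat_lit 4) (nat_lit 389) (nat_lit 353) (nat_lit 278)) (XT.nd (nat_lit 78) (nat_lit 0) (nat_lit 0) (XT.lf (nat_lit 0) (nat_lit 98749432243) (nat_lit 152) (nat_lit 599104374868) (nat_lit 0) (nat_lit 45916617329) (nat_lit 11) (nat_lit 5) (nat_lit 13) (nat_lit 4) (nat_lit 11) (nat_lit 4) (nat_lit 390) (nat_lit 353) (nat_lit 277)) (XT.lf (nat_lit 0) (nat_lit 390730929847) (nat_lit 152) (nat_lit 103897023996) (nat_lit 0) (nat_lit 337897946947) (nat_lit 11) (nat_lit 5) (nat_lit 13) (nat_lit 4) (nat_lit 11) (nat_lit 4) (nat_lit 391) (nat_lit 353) (nat_lit 276))))))))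
noncomputable def xc73 : XT := (XT.nd (nat_lit 1404) (nat_lit 76) (nat_lit 0) (XT.nd (nat_lit 702) (nat_lit 152) (nat_lit 0) (XT.nd (nat_lit 312) (nat_lit 228) (nat_lit 0) (XT.nd (nat_lit 156) (nat_lit 76) (nat_lit 0) (XT.nd (nat_lit 78) (nat_lit 152) (nat_lit 0) (XT.lf (nat_lit 0) (nat_lit 490104988285) (nat_lit 76) (nat_lit 248190005962) (nat_lit 76) (nat_lit 195356876988) (nat_lit 10) (nat_lit 4) (nat_lit 11) (nat_lit 5) (nat_lit 11) (nat_lit 4) (nat_lit 392) (nat_lit 353) (nat_lit 275)) (XT.lf (nat_lit 0) (nat_lit 91040904272) (nat_lit 152) (nat_lit 916023332744) (nat_lit 0) (nat_lit 42121222795) (nat_lit 8) (nat_lit 5) (nat_lit 10) (nat_lit 4) (nat_lit 8) (nat_lit 4) (nat_lit 393) (nat_lit 353) (nat_lit 274))) (XT.nd (nat_lit 78) (nat_lit 76) (nat_lit 0) (XT.lf (nat_lit 0) (nat_lit 429271562350) (nat_lit 152) (nat_lit 370384568022) (nat_lit 0) (nat_lit 380351778602) (nat_lit 8) (nat_lit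 5) (nat_lit 10) (nat_lit 4) (nat_lit 8) (nat_lit 4) (nat_lit 394) (nat_lit 353) (nat_lit 273)) (XT.lf (nat_lit 0) (nat_lit 270635632256) (nat_lit 76) (nat_lit 554108683123) (nat_lit 76) (nat_lit 505188810442) (nat_lit 7) (nat_lit 4) (nat_lit 8) (nat_lit 5) (nat_lit 8) (nat_lit 4) (nat_lit 395) (nat_lit 353) (nat_lit 272)))) (XT.nd (nat_lit 156) (nat_lit 76) (nat_lit 0) (XT.nd (nat_lit 78) (nat_lit 152) (nat_lit 0) (XT.lf (nat_lit 0) (nat_lit 1030235783205) (nat_lit 76) (nat_lit 260084359550) (nat_lit 76) (nat_lit 211164409538) (nat_lit 7) (nat_lit 4) (nat_lit 8) (nat_lit 5) (nat_lit 8) (nat_lit 4) (nat_lit 396) (nat_lit 353) (nat_lit 271)) (XT.lf (nat_lit 0) (nat_lit 127813087786) (nat_lit 152) (nat_lit 1487618497348) (nat_lit 0) (nat_lit 82516775510) (nat_lit 5) (nat_lit 5) (nat_lit 7) (nat_lit 4) (nat_lit 5) (nat_lit 4) (nat_lit 397) (nat_lit 353) (nat_lit 270))) (XT.nd (nat_lit 78) (nat_lit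 76) (nat_lit 0) (XT.lf (nat_lit 0) (nat_lit 526757974766) (nat_lit 152) (nat_lit 913493449590) (nat_lit 0) (nat_lit 481461608347) (nat_lit 5) (nat_lit 5) (nat_lit 7) (nat_lit 4) (nat_lit 5) (nat_lit 4) (nat_lit 398) (nat_lit 353) (nat_lit 269)) (XT.nd (nat_lit 78) (nat_lit 76) (nat_lit 0) (XT.lf (nat_lit 0) (nat_lit 985543730957) (nat_lit 152) (nat_lit 253251426269) (nat_lit 0) (nat_lit 940247317458) (nat_lit 5) (nat_lit 5) (nat_lit 7) (nat_lit 4) (nat_lit 5) (nat_lit 4) (nat_lit 399) (nat_lit 353) (nat_lit 268)) (XT.lf (nat_lit 0) (nat_lit 532671749581) (nat_lit 76) (nat_lit 993285618221) (nat_lit 76) (nat_lit 947989163783) (nat_lit 4) (nat_lit 4) (nat_lit 5) (nat_lit 5) (nat_lit 5) (nat_lit 4) (nat_lit 400) (nat_lit 353) (nat_lit 267)))))) (XT.nd (nat_lit 312) (nat_lit 0) (nat_lit 0) (XT.nd (nat_lit 156) (nat_lit 152) (nat_lit 0) (XT.nd (nat_lit 78) (nat_lit 0) (nat_lit 0) (XT.lf (nat_lit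 0) (nat_lit 1451818120729) (nat_lit 76) (nat_lit 702987384948) (nat_lit 76) (nat_lit 657690894910) (nat_lit 4) (nat_lit 4) (nat_lit 5) (nat_lit 5) (nat_lit 5) (nat_lit 4) (nat_lit 401) (nat_lit 353) (nat_lit 266)) (XT.lf (nat_lit 0) (nat_lit 2508835214434) (nat_lit 76) (nat_lit 369145052157) (nat_lit 76) (nat_lit 323848531162) (nat_lit 4) (nat_lit 4) (nat_lit 5) (nat_lit 5) (nat_lit 5) (nat_lit 4) (nat_lit 402) (nat_lit 353) (nat_lit 265))) (XT.nd (nat_lit 78) (nat_lit 0) (nat_lit 0) (XT.lf (nat_lit 0) (nat_lit 59363959123) (nat_lit 152) (nat_lit 3572474911081) (nat_lit 0) (nat_lit 17422711056) (nat_lit 2) (nat_lit 5) (nat_lit 4) (nat_lit 4) (nat_lit 2) (nat_lit 4) (nat_lit 403) (nat_lit 353) (nat_lit 264)) (XT.lf (nat_lit 0) (nat_lit 512337023026) (nat_lit 152) (nat_lit 3177887242209) (nat_lit 0) (nat_lit 470395753285) (nat_lit 2) (nat_lit 5) (nat_lit 4) (nat_lit 4) (nat_lit 2) (nat_lit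 4) (nat_lit 404) (nat_lit 353) (nat_lit 263)))) (XT.nd (nat_lit 156) (nat_lit 0) (nat_lit 0) (XT.nd (nat_lit 78) (nat_lit 0) (nat_lit 0) (XT.lf (nat_lit 0) (nat_lit 1033255611421) (nat_lit 152) (nat_lit 2724112321925) (nat_lit 0) (nat_lit 991314322833) (nat_lit 2) (nat_lit 5) (nat_lit 4) (nat_lit 4) (nat_lit 2) (nat_lit 4) (nat_lit 405) (nat_lit 353) (nat_lit 262)) (XT.lf (nat_lit 0) (nat_lit 1632311609733) (nat_lit 152) (nat_lit 2202271945266) (nat_lit 0) (nat_lit 1590370304757) (nat_lit 2) (nat_lit 5) (nat_lit 4) (nat_lit 4) (nat_lit 2) (nat_lit 4) (nat_lit 406) (nat_lit 353) (nat_lit 261))) (XT.nd (nat_lit 78) (nat_lit 0) (nat_lit 0) (XT.lf (nat_lit 0) (nat_lit 2321225678799) (nat_lit 152) (nat_lit 1602156191820) (nat_lit 0) (nat_lit 2279284359572) (nat_lit 2) (nat_lit 5) (nat_lit 4) (nat_lit 4) (nat_lit 2) (nat_lit 4) (nat_lit 407) (nat_lit 353) (nat_lit 260)) (XT.nd (nat_lit 78) (nat_lit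 0) (nat_lit 0) (XT.lf (nat_lit 0) (nat_lit 3113476572143) (nat_lit 152) (nat_lit 912023666410) (nat_lit 0) (nat_lit 3071535240525) (nat_lit 2) (nat_lit 5) (nat_lit 4) (nat_lit 4) (nat_lit 2) (nat_lit 4) (nat_lit 408) (nat_lit 353) (nat_lit 259)) (XT.lf (nat_lit 0) (nat_lit 4024564850724) (nat_lit 152) (nat_lit 118371776149) (nat_lit 0) (nat_lit 3982623508330) (nat_lit 2) (nat_lit 5) (nat_lit 4) (nat_lit 4) (nat_lit 2) (nat_lit 4) (nat_lit 409) (nat_lit 353) (nat_lit 258))))))) (XT.nd (nat_lit 702) (nat_lit 0) (nat_lit 0) (XT.nd (nat_lit 312) (nat_lit 0) (nat_lit 0) (XT.nd (nat_lit 156) (nat_lit 0) (nat_lit 0) (XT.nd (nat_lit 78) (nat_lit 0) (nat_lit 0) (XT.lf (nat_lit 0) (nat_lit 836155326617) (nat_lit 76) (nat_lit 4256270383870) (nat_lit 76) (nat_lit 4214329032106) (nat_lit 1) (nat_lit 4) (nat_lit 2) (nat_lit 5) (nat_lit 2) (nat_lit 4) (nat_lit 410) (nat_lit 353) (nat_lit 257)) (XT.lf (nat_lit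 0) (nat_lit 1941029320859) (nat_lit 76) (nat_lit 4382882447315) (nat_lit 76) (nat_lit 4340941087403) (nat_lit 1) (nat_lit 4) (nat_lit 2) (nat_lit 5) (nat_lit 2) (nat_lit 4) (nat_lit 411) (nat_lit 353) (nat_lit 256))) (XT.nd (nat_lit 78) (nat_lit 0) (nat_lit 0) (XT.lf (nat_lit 0) (nat_lit 3211634058507) (nat_lit 76) (nat_lit 4528486503884) (nat_lit 76) (nat_lit 4486545136888) (nat_lit 1) (nat_lit 4) (nat_lit 2) (nat_lit 5) (nat_lit 2) (nat_lit 4) (nat_lit 412) (nat_lit 353) (nat_lit 255)) (XT.lf (nat_lit 0) (nat_lit 4672829197469) (nat_lit 76) (nat_lit 4695931328599) (nat_lit 76) (nat_lit 4653989955442) (nat_lit 1) (nat_lit 4) (nat_lit 2) (nat_lit 5) (nat_lit 2) (nat_lit 4) (nat_lit 413) (nat_lit 353) (nat_lit 254)))) (XT.nd (nat_lit 156) (nat_lit 0) (nat_lit 0) (XT.nd (nat_lit 78) (nat_lit 0) (nat_lit 0) (XT.lf (nat_lit 0) (nat_lit 6353203338291) (nat_lit 76) (nat_lit 4888493015856) (nat_lit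 76) (nat_lit 4846551637341) (nat_lit 1) (nat_lit 4) (nat_lit 2) (nat_lit 5) (nat_lit 2) (nat_lit 4) (nat_lit 414) (nat_lit 353) (nat_lit 253)) (XT.lf (nat_lit 0) (nat_lit 8285633366338) (nat_lit 76) (nat_lit 5109939076928) (nat_lit 76) (nat_lit 5067997693754) (nat_lit 1) (nat_lit 4) (nat_lit 2) (nat_lit 5) (nat_lit 2) (nat_lit 4) (nat_lit 415) (nat_lit 353) (nat_lit 252))) (XT.nd (nat_lit 78) (nat_lit 0) (nat_lit 0) (XT.lf (nat_lit 0) (nat_lit 10507927695200) (nat_lit 76) (nat_lit 5364602152138) (nat_lit 76) (nat_lit 5322660764914) (nat_lit 1) (nat_lit 4) (nat_lit 2) (nat_lit 5) (nat_lit 2) (nat_lit 4) (nat_lit 416) (nat_lit 353) (nat_lit 251)) (XT.nd (nat_lit 78) (nat_lit 0) (nat_lit 0) (XT.lf (nat_lit 0) (nat_lit 13063565996530) (nat_lit 76) (nat_lit 5657464779917) (nat_lit 76) (nat_lit 5615523389170) (nat_lit 1) (nat_lit 4) (nat_lit 2) (nat_lit 5) (nat_lit 2) (nat_lit 4) (nat_lit 417)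 (nat_lit 353) (nat_lit 250)) (XT.lf (nat_lit 0) (nat_lit 16002549889267) (nat_lit 76) (nat_lit 5994256881241) (nat_lit 76) (nat_lit 5952315487431) (nat_lit 1) (nat_lit 4) (nat_lit 2) (nat_lit 5) (nat_lit 2) (nat_lit 4) (nat_lit 418) (nat_lit 353) (nat_lit 249)))))) (XT.nd (nat_lit 48282) (nat_lit 0) (nat_lit 4864) (XT.nd (nat_lit 48048) (nat_lit 0) (nat_lit 5624) (XT.nd (nat_lit 78) (nat_lit 0) (nat_lit 0) (XT.lf (nat_lit 0) (nat_lit 19382381232182) (nat_lit 76) (nat_lit 6381567866789) (nat_lit 76) (nat_lit 6339626470315) (nat_lit 1) (nat_lit 4) (nat_lit 2) (nat_lit 5) (nat_lit 2) (nat_lit 4) (nat_lit 419) (nat_lit 353) (nat_lit 248)) (XT.lf (nat_lit 0) (nat_lit 23269187160244) (nat_lit 76) (nat_lit 6826975560192) (nat_lit 76) (nat_lit 6785034161402) (nat_lit 1) (nat_lit 4) (nat_lit 2) (nat_lit 5) (nat_lit 2) (nat_lit 4) (nat_lit 420) (nat_lit 353) (nat_lit 247))) (XT.nd (nat_lit 78) (nat_lit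 456) (nat_lit 0) (XT.lf (nat_lit 0) (nat_lit 13598643635) (nat_lit 532) (nat_lit 397341152) (nat_lit 532) (nat_lit 397341152) (nat_lit 81) (nat_lit 3) (nat_lit 88) (nat_lit 3) (nat_lit 88) (nat_lit 5) (nat_lit 354) (nat_lit 354) (nat_lit 312)) (XT.nd (nat_lit 78) (nat_lit 456) (nat_lit 0) (XT.lf (nat_lit 76) (nat_lit 27342082828) (nat_lit 0) (nat_lit 2687154708) (nat_lit 532) (nat_lit 853004951) (nat_lit 82) (nat_lit 5) (nat_lit 81) (nat_lit 3) (nat_lit 88) (nat_lit 5) (nat_lit 355) (nat_lit 354) (nat_lit 311)) (XT.lf (nat_lit 0) (nat_lit 1315823746) (nat_lit 532) (nat_lit 6058066670) (nat_lit 608) (nat_lit 25812562688) (nat_lit 75) (nat_lit 5) (nat_lit 82) (nat_lit 5) (nat_lit 83) (nat_lit 5) (nat_lit 356) (nat_lit 354) (nat_lit 310))))) (XT.nd (nat_lit 156) (nat_lit 836) (nat_lit 0) (XT.nd (nat_lit 78) (nat_lit 0) (nat_lit 76) (XT.lf (nat_lit 0) (nat_lit 5158917574) (nat_lit 532) (nat_lit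 8260804906) (nat_lit 608) (nat_lit 22302849654) (nat_lit 76) (nat_lit 5) (nat_lit 83) (nat_lit 5) (nat_lit 84) (nat_lit 5) (nat_lit 357) (nat_lit 354) (nat_lit 309)) (XT.lf (nat_lit 0) (nat_lit 11082040075) (nat_lit 532) (nat_lit 10018630266) (nat_lit 76) (nat_lit 17418157996) (nat_lit 77) (nat_lit 5) (nat_lit 84) (nat_lit 5) (nat_lit 78) (nat_lit 5) (nat_lit 358) (nat_lit 354) (nat_lit 308))) (XT.nd (nat_lit 78) (nat_lit 456) (nat_lit 0) (XT.lf (nat_lit 0) (nat_lit 19508811884) (nat_lit 532) (nat_lit 11200497666) (nat_lit 76) (nat_lit 10896002846) (nat_lit 71) (nat_lit 5) (nat_lit 78) (nat_lit 5) (nat_lit 72) (nat_lit 5) (nat_lit 359) (nat_lit 354) (nat_lit 307)) (XT.nd (nat_lit 78) (nat_lit 228) (nat_lit 0) (XT.lf (nat_lit 0) (nat_lit 30932985003) (nat_lit 304) (nat_lit 11650249073) (nat_lit 76) (nat_lit 2432867537) (nat_lit 68) (nat_lit 5) (nat_lit 72) (nat_lit 5) (nat_lit 69) (nat_lit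 5) (nat_lit 360) (nat_lit 354) (nat_lit 306)) (XT.lf (nat_lit 0) (nat_lit 37379428052) (nat_lit 228) (nat_lit 8760724116) (nat_lit 304) (nat_lit 2632810546) (nat_lit 65) (nat_lit 5) (nat_lit 68) (nat_lit 5) (nat_lit 69) (nat_lit 5) (nat_lit 361) (nat_lit 354) (nat_lit 305))))))))
noncomputable def xc74 : XT := (XT.nd (nat_lit 1404) (nat_lit 1748) (nat_lit 0) (XT.nd (nat_lit 702) (nat_lit 1064) (nat_lit 0) (XT.nd (nat_lit 312) (nat_lit 912) (nat_lit 0) (XT.nd (nat_lit 156) (nat_lit 380) (nat_lit 0) (XT.nd (nat_lit 78) (nat_lit 228) (nat_lit 0) (XT.lf (nat_lit 0) (nat_lit 12152130074) (nat_lit 228) (nat_lit 10438991803) (nat_lit 76) (nat_lit 30310436514) (nat_lit 62) (nat_lit 5) (nat_lit 65) (nat_lit 5) (nat_lit 63) (nat_lit 5) (nat_lit 362) (nat_lit 354) (nat_lit 304)) (XT.lf (nat_lit 0) (nat_lit 31220948465) (nat_lit 304) (nat_lit 8348112134) (nat_lit 76) (nat_lit 17897151832) (nat_lit 59)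 (nat_lit 5) (nat_lit 63) (nat_lit 5) (nat_lit 60) (nat_lit 5) (nat_lit 363) (nat_lit 354) (nat_lit 303))) (XT.nd (nat_lit 78) (nat_lit 228) (nat_lit 0) (XT.lf (nat_lit 0) (nat_lit 55522519335) (nat_lit 228) (nat_lit 4792208650) (nat_lit 76) (nat_lit 2211044011) (nat_lit 57) (nat_lit 5) (nat_lit 60) (nat_lit 5) (nat_lit 58) (nat_lit 5) (nat_lit 364) (nat_lit 354) (nat_lit 302)) (XT.lf (nat_lit 0) (nat_lit 17420608685) (nat_lit 228) (nat_lit 341332732) (nat_lit 76) (nat_lit 50309051671) (nat_lit 54) (nat_lit 5) (nat_lit 57) (nat_lit 5) (nat_lit 55) (nat_lit 5) (nat_lit 365) (nat_lit 354) (nat_lit 301)))) (XT.nd (nat_lit 156) (nat_lit 456) (nat_lit 0) (XT.nd (nat_lit 78) (nat_lit 152) (nat_lit 0) (XT.lf (nat_lit 0) (nat_lit 6042999200) (nat_lit 152) (nat_lit 42094615549) (nat_lit 228) (nat_lit 26052292738) (nat_lit 50) (nat_lit 5) (nat_lit 52) (nat_lit 5) (nat_lit 53) (nat_lit 5) (nat_lit 366)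 (nat_lit 354) (nat_lit 300)) (XT.lf (nat_lit 0) (nat_lit 5257118957) (nat_lit 152) (nat_lit 66327957834) (nat_lit 76) (nat_lit 9386607284) (nat_lit 48) (nat_lit 5) (nat_lit 50) (nat_lit 5) (nat_lit 49) (nat_lit 5) (nat_lit 367) (nat_lit 354) (nat_lit 299))) (XT.nd (nat_lit 78) (nat_lit 304) (nat_lit 0) (XT.lf (nat_lit 0) (nat_lit 24651933406) (nat_lit 152) (nat_lit 18897326926) (nat_lit 228) (nat_lit 44861020715) (nat_lit 46) (nat_lit 5) (nat_lit 48) (nat_lit 5) (nat_lit 49) (nat_lit 5) (nat_lit 368) (nat_lit 354) (nat_lit 298)) (XT.nd (nat_lit 78) (nat_lit 228) (nat_lit 0) (XT.lf (nat_lit 0) (nat_lit 37285490791) (nat_lit 76) (nat_lit 54173384081) (nat_lit 152) (nat_lit 5195901300) (nat_lit 45) (nat_lit 5) (nat_lit 46) (nat_lit 5) (nat_lit 47) (nat_lit 4) (nat_lit 369) (nat_lit 354) (nat_lit 297)) (XT.lf (nat_lit 0) (nat_lit 42327441921) (nat_lit 228) (nat_lit 53584746964) (nat_lit 76) (nat_lit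 9831560909) (nat_lit 42) (nat_lit 5) (nat_lit 45) (nat_lit 5) (nat_lit 43) (nat_lit 4) (nat_lit 370) (nat_lit 354) (nat_lit 296)))))) (XT.nd (nat_lit 312) (nat_lit 608) (nat_lit 0) (XT.nd (nat_lit 156) (nat_lit 228) (nat_lit 0) (XT.nd (nat_lit 78) (nat_lit 152) (nat_lit 0) (XT.lf (nat_lit 0) (nat_lit 69745233288) (nat_lit 76) (nat_lit 31878148333) (nat_lit 152) (nat_lit 14165751670) (nat_lit 41) (nat_lit 5) (nat_lit 42) (nat_lit 5) (nat_lit 43) (nat_lit 4) (nat_lit 371) (nat_lit 354) (nat_lit 295)) (XT.lf (nat_lit 0) (nat_lit 45262604089) (nat_lit 152) (nat_lit 36998457311) (nat_lit 76) (nat_lit 44605357829) (nat_lit 39) (nat_lit 5) (nat_lit 41) (nat_lit 5) (nat_lit 40) (nat_lit 4) (nat_lit 372) (nat_lit 354) (nat_lit 294))) (XT.nd (nat_lit 78) (nat_lit 152) (nat_lit 0) (XT.lf (nat_lit 0) (nat_lit 113833346415) (nat_lit 76) (nat_lit 3946424257) (nat_lit 152) (nat_lit 21395026188) (nat_lit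 38) (nat_lit 5) (nat_lit 39) (nat_lit 5) (nat_lit 40) (nat_lit 4) (nat_lit 373) (nat_lit 354) (nat_lit 293)) (XT.lf (nat_lit 0) (nat_lit 52190595740) (nat_lit 152) (nat_lit 12880570394) (nat_lit 76) (nat_lit 87627097729) (nat_lit 36) (nat_lit 5) (nat_lit 38) (nat_lit 5) (nat_lit 37) (nat_lit 4) (nat_lit 374) (nat_lit 354) (nat_lit 292)))) (XT.nd (nat_lit 156) (nat_lit 304) (nat_lit 0) (XT.nd (nat_lit 78) (nat_lit 152) (nat_lit 0) (XT.lf (nat_lit 0) (nat_lit 2505395401) (nat_lit 76) (nat_lit 138840361263) (nat_lit 76) (nat_lit 26396155716) (nat_lit 34) (nat_lit 4) (nat_lit 35) (nat_lit 5) (nat_lit 35) (nat_lit 4) (nat_lit 375) (nat_lit 354) (nat_lit 291)) (XT.lf (nat_lit 0) (nat_lit 19672586135) (nat_lit 76) (nat_lit 43846159887) (nat_lit 152) (nat_lit 120799794796) (nat_lit 32) (nat_lit 5) (nat_lit 33) (nat_lit 5) (nat_lit 34) (nat_lit 4) (nat_lit 376) (nat_lit 354) (nat_lit 290))) (XT.nd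 (nat_lit 78) (nat_lit 228) (nat_lit 0) (XT.lf (nat_lit 0) (nat_lit 38834068049) (nat_lit 76) (nat_lit 134006475737) (nat_lit 76) (nat_lit 29887662148) (nat_lit 31) (nat_lit 4) (nat_lit 32) (nat_lit 5) (nat_lit 32) (nat_lit 4) (nat_lit 377) (nat_lit 354) (nat_lit 289)) (XT.nd (nat_lit 78) (nat_lit 76) (nat_lit 0) (XT.lf (nat_lit 0) (nat_lit 59106951953) (nat_lit 76) (nat_lit 19367714328) (nat_lit 152) (nat_lit 144677147335) (nat_lit 29) (nat_lit 5) (nat_lit 30) (nat_lit 5) (nat_lit 31) (nat_lit 4) (nat_lit 378) (nat_lit 354) (nat_lit 288)) (XT.lf (nat_lit 0) (nat_lit 79542249509) (nat_lit 76) (nat_lit 131339392811) (nat_lit 76) (nat_lit 34930417509) (nat_lit 28) (nat_lit 4) (nat_lit 29) (nat_lit 5) (nat_lit 29) (nat_lit 4) (nat_lit 379) (nat_lit 354) (nat_lit 287))))))) (XT.nd (nat_lit 702) (nat_lit 760) (nat_lit 0) (XT.nd (nat_lit 312) (nat_lit 532) (nat_lit 0) (XT.nd (nat_lit 156) (nat_lit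 228) (nat_lit 0) (XT.nd (nat_lit 78) (nat_lit 76) (nat_lit 0) (XT.lf (nat_lit 0) (nat_lit 94693186240) (nat_lit 152) (nat_lit 170939441141) (nat_lit 0) (nat_lit 5424617968) (nat_lit 26) (nat_lit 5) (nat_lit 28) (nat_lit 4) (nat_lit 26) (nat_lit 4) (nat_lit 380) (nat_lit 354) (nat_lit 286)) (XT.lf (nat_lit 0) (nat_lit 118002574805) (nat_lit 76) (nat_lit 135182041678) (nat_lit 76) (nat_lit 45912605103) (nat_lit 25) (nat_lit 4) (nat_lit 26) (nat_lit 5) (nat_lit 26) (nat_lit 4) (nat_lit 381) (nat_lit 354) (nat_lit 285))) (XT.nd (nat_lit 78) (nat_lit 76) (nat_lit 0) (XT.lf (nat_lit 0) (nat_lit 107856162245) (nat_lit 152) (nat_lit 197371559252) (nat_lit 0) (nat_lit 25198577410) (nat_lit 23) (nat_lit 5) (nat_lit 25) (nat_lit 4) (nat_lit 23) (nat_lit 4) (nat_lit 382) (nat_lit 354) (nat_lit 284)) (XT.lf (nat_lit 0) (nat_lit 141170778141) (nat_lit 76) (nat_lit 153418665352) (nat_lit 76) (nat_lit 70760472590)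 (nat_lit 22) (nat_lit 4) (nat_lit 23) (nat_lit 5) (nat_lit 23) (nat_lit 4) (nat_lit 383) (nat_lit 354) (nat_lit 283)))) (XT.nd (nat_lit 156) (nat_lit 304) (nat_lit 0) (XT.nd (nat_lit 78) (nat_lit 76) (nat_lit 0) (XT.lf (nat_lit 0) (nat_lit 108746637718) (nat_lit 152) (nat_lit 263545340436) (nat_lit 0) (nat_lit 32210784575) (nat_lit 20) (nat_lit 5) (nat_lit 22) (nat_lit 4) (nat_lit 20) (nat_lit 4) (nat_lit 384) (nat_lit 354) (nat_lit 282)) (XT.lf (nat_lit 0) (nat_lit 125328292303) (nat_lit 76) (nat_lit 199731935169) (nat_lit 76) (nat_lit 123195656395) (nat_lit 19) (nat_lit 4) (nat_lit 20) (nat_lit 5) (nat_lit 20) (nat_lit 4) (nat_lit 385) (nat_lit 354) (nat_lit 281))) (XT.nd (nat_lit 78) (nat_lit 152) (nat_lit 0) (XT.lf (nat_lit 0) (nat_lit 81874105527) (nat_lit 152) (nat_lit 404715092499) (nat_lit 0) (nat_lit 11006838040) (nat_lit 17) (nat_lit 5) (nat_lit 19) (nat_lit 4) (nat_lit 17) (nat_lit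 4) (nat_lit 386) (nat_lit 354) (nat_lit 280)) (XT.nd (nat_lit 78) (nat_lit 76) (nat_lit 0) (XT.lf (nat_lit 0) (nat_lit 29317751931) (nat_lit 76) (nat_lit 297172305519) (nat_lit 76) (nat_lit 226304740034) (nat_lit 16) (nat_lit 4) (nat_lit 17) (nat_lit 5) (nat_lit 17) (nat_lit 4) (nat_lit 387) (nat_lit 354) (nat_lit 279)) (XT.lf (nat_lit 0) (nat_lit 4035819222) (nat_lit 152) (nat_lit 62473320630) (nat_lit 76) (nat_lit 548813592124) (nat_lit 15) (nat_lit 5) (nat_lit 17) (nat_lit 5) (nat_lit 16) (nat_lit 4) (nat_lit 388) (nat_lit 354) (nat_lit 278)))))) (XT.nd (nat_lit 390) (nat_lit 380) (nat_lit 0) (XT.nd (nat_lit 156) (nat_lit 228) (nat_lit 0) (XT.nd (nat_lit 78) (nat_lit 76) (nat_lit 0) (XT.lf (nat_lit 0) (nat_lit 272834338867) (nat_lit 152) (nat_lit 205324968677) (nat_lit 0) (nat_lit 207215774105) (nat_lit 14) (nat_lit 5) (nat_lit 16) (nat_lit 4) (nat_lit 14) (nat_lit 4) (nat_lit 389) (nat_lit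 354) (nat_lit 277)) (XT.lf (nat_lit 0) (nat_lit 357962045196) (nat_lit 76) (nat_lit 236303476963) (nat_lit 76) (nat_lit 170684730777) (nat_lit 13) (nat_lit 4) (nat_lit 14) (nat_lit 5) (nat_lit 14) (nat_lit 4) (nat_lit 390) (nat_lit 354) (nat_lit 276))) (XT.nd (nat_lit 78) (nat_lit 76) (nat_lit 0) (XT.lf (nat_lit 0) (nat_lit 113580093568) (nat_lit 152) (nat_lit 688932585483) (nat_lit 0) (nat_lit 52821849173) (nat_lit 11) (nat_lit 5) (nat_lit 13) (nat_lit 4) (nat_lit 11) (nat_lit 4) (nat_lit 391) (nat_lit 354) (nat_lit 275)) (XT.nd (nat_lit 78) (nat_lit 76) (nat_lit 0) (XT.lf (nat_lit 0) (nat_lit 449356435836) (nat_lit 152) (nat_lit 119449016191) (nat_lit 0) (nat_lit 388598064420) (nat_lit 11) (nat_lit 5) (nat_lit 13) (nat_lit 4) (nat_lit 11) (nat_lit 4) (nat_lit 392) (nat_lit 354) (nat_lit 274)) (XT.lf (nat_lit 0) (nat_lit 563650541773) (nat_lit 76) (nat_lit 285403215396) (nat_lit 76) (nat_lit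 224644733527) (nat_lit 10) (nat_lit 4) (nat_lit 11) (nat_lit 5) (nat_lit 11) (nat_lit 4) (nat_lit 393) (nat_lit 354) (nat_lit 273))))) (XT.nd (nat_lit 156) (nat_lit 228) (nat_lit 0) (XT.nd (nat_lit 78) (nat_lit 0) (nat_lit 0) (XT.lf (nat_lit 0) (nat_lit 104711007710) (nat_lit 152) (nat_lit 1053398088354) (nat_lit 0) (nat_lit 48453065196) (nat_lit 8) (nat_lit 5) (nat_lit 10) (nat_lit 4) (nat_lit 8) (nat_lit 4) (nat_lit 394) (nat_lit 354) (nat_lit 272)) (XT.lf (nat_lit 0) (nat_lit 493674442613) (nat_lit 152) (nat_lit 425917258181) (nat_lit 0) (nat_lit 437416422767) (nat_lit 8) (nat_lit 5) (nat_lit 10) (nat_lit 4) (nat_lit 8) (nat_lit 4) (nat_lit 395) (nat_lit 354) (nat_lit 271))) (XT.nd (nat_lit 78) (nat_lit 152) (nat_lit 0) (XT.lf (nat_lit 0) (nat_lit 311253856433) (nat_lit 76) (nat_lit 637213218163) (nat_lit 76) (nat_lit 580955131071) (nat_lit 7) (nat_lit 4) (nat_lit 8) (nat_lit 5) (nat_lit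 8) (nat_lit 4) (nat_lit 396) (nat_lit 354) (nat_lit 270)) (XT.nd (nat_lit 78) (nat_lit 152) (nat_lit 0) (XT.lf (nat_lit 0) (nat_lit 1184791045763) (nat_lit 76) (nat_lit 299086780936) (nat_lit 76) (nat_lit 242828635371) (nat_lit 7) (nat_lit 4) (nat_lit 8) (nat_lit 5) (nat_lit 8) (nat_lit 4) (nat_lit 397) (nat_lit 354) (nat_lit 269)) (XT.lf (nat_lit 0) (nat_lit 146994352254) (nat_lit 152) (nat_lit 1710742088681) (nat_lit 0) (nat_lit 94903429649) (nat_lit 5) (nat_lit 5) (nat_lit 7) (nat_lit 4) (nat_lit 5) (nat_lit 4) (nat_lit 398) (nat_lit 354) (nat_lit 268))))))))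
noncomputable def xc75 : XT := (XT.nd (nat_lit 1404) (nat_lit 0) (nat_lit 0) (XT.nd (nat_lit 702) (nat_lit 76) (nat_lit 0) (XT.nd (nat_lit 312) (nat_lit 152) (nat_lit 0) (XT.nd (nat_lit 156) (nat_lit 76) (nat_lit 0) (XT.nd (nat_lit 78) (nat_lit 0) (nat_lit 0) (XT.lf (nat_lit 0) (nat_lit 605779759067) (nat_lit 152) (nat_lit 1050500785926) (nat_lit 0) (nat_lit 553688795523) (nat_lit 5) (nat_lit 5) (nat_lit 7) (nat_lit 4) (nat_lit 5) (nat_lit 4) (nat_lit 399) (nat_lit 354) (nat_lit 267)) (XT.lf (nat_lit 0) (nat_lit 1133382323719) (nat_lit 152) (nat_lit 291224634901) (nat_lit 0) (nat_lit 1081291324576) (nat_lit 5) (nat_lit 5) (nat_lit 7) (nat_lit 4) (nat_lit 5) (nat_lit 4) (nat_lit 400) (nat_lit 354) (nat_lit 266))) (XT.nd (nat_lit 78) (nat_lit 0) (nat_lit 0) (XT.lf (nat_lit 0) (nat_lit 612585789524) (nat_lit 76) (nat_lit 1142271618529) (nat_lit 76) (nat_lit 1090180588429) (nat_lit 4) (nat_lit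 4) (nat_lit 5) (nat_lit 5) (nat_lit 5) (nat_lit 4) (nat_lit 401) (nat_lit 354) (nat_lit 265)) (XT.lf (nat_lit 0) (nat_lit 1669602384496) (nat_lit 76) (nat_lit 808429542755) (nat_lit 76) (nat_lit 756338485737) (nat_lit 4) (nat_lit 4) (nat_lit 5) (nat_lit 5) (nat_lit 5) (nat_lit 4) (nat_lit 402) (nat_lit 354) (nat_lit 264)))) (XT.nd (nat_lit 156) (nat_lit 0) (nat_lit 0) (XT.nd (nat_lit 78) (nat_lit 152) (nat_lit 0) (XT.lf (nat_lit 0) (nat_lit 2885170536301) (nat_lit 76) (nat_lit 424511636124) (nat_lit 76) (nat_lit 372420555698) (nat_lit 4) (nat_lit 4) (nat_lit 5) (nat_lit 5) (nat_lit 5) (nat_lit 4) (nat_lit 403) (nat_lit 354) (nat_lit 263)) (XT.lf (nat_lit 0) (nat_lit 68273237835) (nat_lit 152) (nat_lit 4108336468693) (nat_lit 0) (nat_lit 20040737113) (nat_lit 2) (nat_lit 5) (nat_lit 4) (nat_lit 4) (nat_lit 2) (nat_lit 4) (nat_lit 404) (nat_lit 354) (nat_lit 262))) (XT.nd (nat_lit 78) (nat_lit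 0) (nat_lit 0) (XT.lf (nat_lit 0) (nat_lit 589191650257) (nat_lit 152) (nat_lit 3654561911975) (nat_lit 0) (nat_lit 540959133146) (nat_lit 2) (nat_lit 5) (nat_lit 4) (nat_lit 4) (nat_lit 2) (nat_lit 4) (nat_lit 405) (nat_lit 354) (nat_lit 261)) (XT.nd (nat_lit 78) (nat_lit 0) (nat_lit 0) (XT.lf (nat_lit 0) (nat_lit 1188247495549) (nat_lit 152) (nat_lit 3132721851461) (nat_lit 0) (nat_lit 1140014964188) (nat_lit 2) (nat_lit 5) (nat_lit 4) (nat_lit 4) (nat_lit 2) (nat_lit 4) (nat_lit 406) (nat_lit 354) (nat_lit 260)) (XT.lf (nat_lit 0) (nat_lit 1877161431554) (nat_lit 152) (nat_lit 2532606372923) (nat_lit 0) (nat_lit 1828928887801) (nat_lit 2) (nat_lit 5) (nat_lit 4) (nat_lit 4) (nat_lit 2) (nat_lit 4) (nat_lit 407) (nat_lit 354) (nat_lit 259)))))) (XT.nd (nat_lit 312) (nat_lit 0) (nat_lit 0) (XT.nd (nat_lit 156) (nat_lit 76) (nat_lit 0) (XT.nd (nat_lit 78) (nat_lit 0) (nat_lit 0) (XT.lf (nat_lit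 0) (nat_lit 2669412209193) (nat_lit 152) (nat_lit 1842474086565) (nat_lit 0) (nat_lit 2621179654665) (nat_lit 2) (nat_lit 5) (nat_lit 4) (nat_lit 4) (nat_lit 2) (nat_lit 4) (nat_lit 408) (nat_lit 354) (nat_lit 258)) (XT.lf (nat_lit 0) (nat_lit 3580500387160) (nat_lit 152) (nat_lit 1048822404173) (nat_lit 0) (nat_lit 3532267823262) (nat_lit 2) (nat_lit 5) (nat_lit 4) (nat_lit 4) (nat_lit 2) (nat_lit 4) (nat_lit 409) (nat_lit 354) (nat_lit 257))) (XT.nd (nat_lit 78) (nat_lit 76) (nat_lit 0) (XT.lf (nat_lit 0) (nat_lit 4628251603719) (nat_lit 152) (nat_lit 136123358050) (nat_lit 0) (nat_lit 4580019031673) (nat_lit 2) (nat_lit 5) (nat_lit 4) (nat_lit 4) (nat_lit 2) (nat_lit 4) (nat_lit 410) (nat_lit 354) (nat_lit 256)) (XT.lf (nat_lit 0) (nat_lit 961582455931) (nat_lit 76) (nat_lit 4894708964454) (nat_lit 76) (nat_lit 4846476385323) (nat_lit 1) (nat_lit 4) (nat_lit 2) (nat_lit 5) (nat_lit 2)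 (nat_lit 4) (nat_lit 411) (nat_lit 354) (nat_lit 255)))) (XT.nd (nat_lit 156) (nat_lit 0) (nat_lit 0) (XT.nd (nat_lit 78) (nat_lit 0) (nat_lit 0) (XT.lf (nat_lit 0) (nat_lit 2232187049703) (nat_lit 76) (nat_lit 5040313095284) (nat_lit 76) (nat_lit 4992080509992) (nat_lit 1) (nat_lit 4) (nat_lit 2) (nat_lit 5) (nat_lit 2) (nat_lit 4) (nat_lit 412) (nat_lit 354) (nat_lit 254)) (XT.lf (nat_lit 0) (nat_lit 3693382063556) (nat_lit 76) (nat_lit 5207757984574) (nat_lit 76) (nat_lit 5159525393924) (nat_lit 1) (nat_lit 4) (nat_lit 2) (nat_lit 5) (nat_lit 2) (nat_lit 4) (nat_lit 413) (nat_lit 354) (nat_lit 253))) (XT.nd (nat_lit 78) (nat_lit 0) (nat_lit 0) (XT.lf (nat_lit 0) (nat_lit 5373756095588) (nat_lit 76) (nat_lit 5400319727982) (nat_lit 76) (nat_lit 5352087132674) (nat_lit 1) (nat_lit 4) (nat_lit 2) (nat_lit 5) (nat_lit 2) (nat_lit 4) (nat_lit 414) (nat_lit 354) (nat_lit 252)) (XT.nd (nat_lit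 78) (nat_lit 0) (nat_lit 0) (XT.lf (nat_lit 0) (nat_lit 7306186029034) (nat_lit 76) (nat_lit 5621765837881) (nat_lit 76) (nat_lit 5573533238522) (nat_lit 1) (nat_lit 4) (nat_lit 2) (nat_lit 5) (nat_lit 2) (nat_lit 4) (nat_lit 415) (nat_lit 354) (nat_lit 251)) (XT.lf (nat_lit 0) (nat_lit 9528480275635) (nat_lit 76) (nat_lit 5876428955550) (nat_lit 76) (nat_lit 5828196352668) (nat_lit 1) (nat_lit 4) (nat_lit 2) (nat_lit 5) (nat_lit 2) (nat_lit 4) (nat_lit 416) (nat_lit 354) (nat_lit 250))))))) (XT.nd (nat_lit 48672) (nat_lit 0) (nat_lit 3420) (XT.nd (nat_lit 48282) (nat_lit 0) (nat_lit 5624) (XT.nd (nat_lit 156) (nat_lit 0) (nat_lit 0) (XT.nd (nat_lit 78) (nat_lit 0) (nat_lit 0) (XT.lf (nat_lit 0) (nat_lit 12084118505434) (nat_lit 76) (nat_lit 6169291620249) (nat_lit 76) (nat_lit 6121059014304) (nat_lit 1) (nat_lit 4) (nat_lit 2) (nat_lit 5) (nat_lit 2) (nat_lit 4) (nat_lit 417) (nat_lit 354)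 (nat_lit 249)) (XT.lf (nat_lit 0) (nat_lit 15023102335969) (nat_lit 76) (nat_lit 6506083753678) (nat_lit 76) (nat_lit 6457851145070) (nat_lit 1) (nat_lit 4) (nat_lit 2) (nat_lit 5) (nat_lit 2) (nat_lit 4) (nat_lit 418) (nat_lit 354) (nat_lit 248))) (XT.nd (nat_lit 78) (nat_lit 0) (nat_lit 0) (XT.lf (nat_lit 0) (nat_lit 18402933624796) (nat_lit 76) (nat_lit 6893394767144) (nat_lit 76) (nat_lit 6845162156219) (nat_lit 1) (nat_lit 4) (nat_lit 2) (nat_lit 5) (nat_lit 2) (nat_lit 4) (nat_lit 419) (nat_lit 354) (nat_lit 247)) (XT.lf (nat_lit 0) (nat_lit 22289739505825) (nat_lit 76) (nat_lit 7338802484822) (nat_lit 76) (nat_lit 7290569871883) (nat_lit 1) (nat_lit 4) (nat_lit 2) (nat_lit 5) (nat_lit 2) (nat_lit 4) (nat_lit 420) (nat_lit 354) (nat_lit 246)))) (XT.nd (nat_lit 156) (nat_lit 456) (nat_lit 0) (XT.nd (nat_lit 78) (nat_lit 0) (nat_lit 0) (XT.lf (nat_lit 0) (nat_lit 15767443649) (nat_lit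 532) (nat_lit 387263205) (nat_lit 532) (nat_lit 387263205) (nat_lit 81) (nat_lit 3) (nat_lit 88) (nat_lit 3) (nat_lit 88) (nat_lit 5) (nat_lit 355) (nat_lit 355) (nat_lit 310)) (XT.lf (nat_lit 76) (nat_lit 31570957511) (nat_lit 0) (nat_lit 3190087390) (nat_lit 532) (nat_lit 735280234) (nat_lit 82) (nat_lit 5) (nat_lit 81) (nat_lit 3) (nat_lit 88) (nat_lit 5) (nat_lit 356) (nat_lit 355) (nat_lit 309))) (XT.nd (nat_lit 78) (nat_lit 0) (nat_lit 76) (XT.lf (nat_lit 0) (nat_lit 1717346511) (nat_lit 532) (nat_lit 6820306511) (nat_lit 608) (nat_lit 29610387812) (nat_lit 75) (nat_lit 5) (nat_lit 82) (nat_lit 5) (nat_lit 83) (nat_lit 5) (nat_lit 357) (nat_lit 355) (nat_lit 308)) (XT.nd (nat_lit 78) (nat_lit 0) (nat_lit 76) (XT.lf (nat_lit 0) (nat_lit 6112378203) (nat_lit 532) (nat_lit 9350229320) (nat_lit 608) (nat_lit 25603938593) (nat_lit 76) (nat_lit 5) (nat_lit 83) (nat_lit 5) (nat_lit 84) (nat_lit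 5) (nat_lit 358) (nat_lit 355) (nat_lit 307)) (XT.lf (nat_lit 0) (nat_lit 12903295191) (nat_lit 532) (nat_lit 11371063599) (nat_lit 76) (nat_lit 20009541347) (nat_lit 77) (nat_lit 5) (nat_lit 84) (nat_lit 5) (nat_lit 78) (nat_lit 5) (nat_lit 359) (nat_lit 355) (nat_lit 306)))))) (XT.nd (nat_lit 390) (nat_lit 988) (nat_lit 0) (XT.nd (nat_lit 156) (nat_lit 684) (nat_lit 0) (XT.nd (nat_lit 78) (nat_lit 228) (nat_lit 0) (XT.lf (nat_lit 0) (nat_lit 22576566755) (nat_lit 532) (nat_lit 12731490919) (nat_lit 76) (nat_lit 12526705177) (nat_lit 71) (nat_lit 5) (nat_lit 78) (nat_lit 5) (nat_lit 72) (nat_lit 5) (nat_lit 360) (nat_lit 355) (nat_lit 305)) (XT.lf (nat_lit 0) (nat_lit 35699445167) (nat_lit 304) (nat_lit 13251440236) (nat_lit 76) (nat_lit 2807482844) (nat_lit 68) (nat_lit 5) (nat_lit 72) (nat_lit 5) (nat_lit 69) (nat_lit 5) (nat_lit 361) (nat_lit 355) (nat_lit 304))) (XT.nd (nat_lit 78) (nat_lit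 456) (nat_lit 0) (XT.lf (nat_lit 0) (nat_lit 43120300981) (nat_lit 228) (nat_lit 10054106517) (nat_lit 304) (nat_lit 2905417010) (nat_lit 65) (nat_lit 5) (nat_lit 68) (nat_lit 5) (nat_lit 69) (nat_lit 5) (nat_lit 362) (nat_lit 355) (nat_lit 303)) (XT.nd (nat_lit 78) (nat_lit 228) (nat_lit 0) (XT.lf (nat_lit 0) (nat_lit 14079654146) (nat_lit 228) (nat_lit 11868830357) (nat_lit 76) (nat_lit 34879911946) (nat_lit 62) (nat_lit 5) (nat_lit 65) (nat_lit 5) (nat_lit 63) (nat_lit 5) (nat_lit 363) (nat_lit 355) (nat_lit 302)) (XT.lf (nat_lit 0) (nat_lit 35998864818) (nat_lit 304) (nat_lit 9469023652) (nat_lit 76) (nat_lit 20610657087) (nat_lit 59) (nat_lit 5) (nat_lit 63) (nat_lit 5) (nat_lit 60) (nat_lit 5) (nat_lit 364) (nat_lit 355) (nat_lit 301))))) (XT.nd (nat_lit 156) (nat_lit 608) (nat_lit 0) (XT.nd (nat_lit 78) (nat_lit 228) (nat_lit 0) (XT.lf (nat_lit 0) (nat_lit 63937039138) (nat_lit 228)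 (nat_lit 5384849198) (nat_lit 76) (nat_lit 2575843489) (nat_lit 57) (nat_lit 5) (nat_lit 60) (nat_lit 5) (nat_lit 58) (nat_lit 5) (nat_lit 365) (nat_lit 355) (nat_lit 300)) (XT.lf (nat_lit 0) (nat_lit 20113413835) (nat_lit 228) (nat_lit 272813950) (nat_lit 76) (nat_lit 57889025387) (nat_lit 54) (nat_lit 5) (nat_lit 57) (nat_lit 5) (nat_lit 55) (nat_lit 5) (nat_lit 366) (nat_lit 355) (nat_lit 299))) (XT.nd (nat_lit 78) (nat_lit 304) (nat_lit 0) (XT.lf (nat_lit 0) (nat_lit 7069922036) (nat_lit 152) (nat_lit 48364089296) (nat_lit 228) (nat_lit 29878311694) (nat_lit 50) (nat_lit 5) (nat_lit 52) (nat_lit 5) (nat_lit 53) (nat_lit 5) (nat_lit 367) (nat_lit 355) (nat_lit 298)) (XT.nd (nat_lit 78) (nat_lit 152) (nat_lit 0) (XT.lf (nat_lit 0) (nat_lit 6117072946) (nat_lit 152) (nat_lit 76158536388) (nat_lit 76) (nat_lit 10836108219) (nat_lit 48) (nat_lit 5) (nat_lit 50) (nat_lit 5) (nat_lit 49) (nat_lit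 5) (nat_lit 368) (nat_lit 355) (nat_lit 297)) (XT.lf (nat_lit 0) (nat_lit 28458298358) (nat_lit 152) (nat_lit 21688037162) (nat_lit 228) (nat_lit 51520305626) (nat_lit 46) (nat_lit 5) (nat_lit 48) (nat_lit 5) (nat_lit 49) (nat_lit 5) (nat_lit 369) (nat_lit 355) (nat_lit 296))))))))
noncomputable def xc76 : XT := (XT.nd (nat_lit 1404) (nat_lit 1140) (nat_lit 0) (XT.nd (nat_lit 702) (nat_lit 1064) (nat_lit 0) (XT.nd (nat_lit 312) (nat_lit 608) (nat_lit 0) (XT.nd (nat_lit 156) (nat_lit 228) (nat_lit 0) (XT.nd (nat_lit 78) (nat_lit 228) (nat_lit 0) (XT.lf (nat_lit 0) (nat_lit 42981476264) (nat_lit 76) (nat_lit 62255877551) (nat_lit 152) (nat_lit 5910860735) (nat_lit 45) (nat_lit 5) (nat_lit 46) (nat_lit 5) (nat_lit 47) (nat_lit 4) (nat_lit 370) (nat_lit 355) (nat_lit 295)) (XT.lf (nat_lit 0) (nat_lit 48733126098) (nat_lit 228) (nat_lit 61521629833) (nat_lit 76) (nat_lit 11346025884) (nat_lit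 42) (nat_lit 5) (nat_lit 45) (nat_lit 5) (nat_lit 43) (nat_lit 4) (nat_lit 371) (nat_lit 355) (nat_lit 294))) (XT.nd (nat_lit 78) (nat_lit 152) (nat_lit 0) (XT.lf (nat_lit 0) (nat_lit 80299312769) (nat_lit 76) (nat_lit 36618985248) (nat_lit 152) (nat_lit 16235088172) (nat_lit 41) (nat_lit 5) (nat_lit 42) (nat_lit 5) (nat_lit 43) (nat_lit 4) (nat_lit 372) (nat_lit 355) (nat_lit 293)) (XT.lf (nat_lit 0) (nat_lit 52100895651) (nat_lit 152) (nat_lit 42458296597) (nat_lit 76) (nat_lit 51333274276) (nat_lit 39) (nat_lit 5) (nat_lit 41) (nat_lit 5) (nat_lit 40) (nat_lit 4) (nat_lit 373) (nat_lit 355) (nat_lit 292)))) (XT.nd (nat_lit 156) (nat_lit 380) (nat_lit 0) (XT.nd (nat_lit 78) (nat_lit 152) (nat_lit 0) (XT.lf (nat_lit 0) (nat_lit 130990665621) (nat_lit 76) (nat_lit 4500572949) (nat_lit 152) (nat_lit 24556214582) (nat_lit 38) (nat_lit 5) (nat_lit 39) (nat_lit 5) (nat_lit 40) (nat_lit 4) (nat_lit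 374) (nat_lit 355) (nat_lit 291)) (XT.lf (nat_lit 0) (nat_lit 60061620939) (nat_lit 152) (nat_lit 14732640241) (nat_lit 76) (nat_lit 100805344936) (nat_lit 36) (nat_lit 5) (nat_lit 38) (nat_lit 5) (nat_lit 37) (nat_lit 4) (nat_lit 375) (nat_lit 355) (nat_lit 290))) (XT.nd (nat_lit 78) (nat_lit 228) (nat_lit 0) (XT.lf (nat_lit 0) (nat_lit 2960686969) (nat_lit 76) (nat_lit 159628338627) (nat_lit 76) (nat_lit 30310859067) (nat_lit 34) (nat_lit 4) (nat_lit 35) (nat_lit 5) (nat_lit 35) (nat_lit 4) (nat_lit 376) (nat_lit 355) (nat_lit 289)) (XT.nd (nat_lit 78) (nat_lit 76) (nat_lit 0) (XT.lf (nat_lit 0) (nat_lit 22698278067) (nat_lit 76) (nat_lit 50387020576) (nat_lit 152) (nat_lit 138877922319) (nat_lit 32) (nat_lit 5) (nat_lit 33) (nat_lit 5) (nat_lit 34) (nat_lit 4) (nat_lit 377) (nat_lit 355) (nat_lit 288)) (XT.lf (nat_lit 0) (nat_lit 44729695068) (nat_lit 76) (nat_lit 154073067989) (nat_lit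 76) (nat_lit 34331781252) (nat_lit 31) (nat_lit 4) (nat_lit 32) (nat_lit 5) (nat_lit 32) (nat_lit 4) (nat_lit 378) (nat_lit 355) (nat_lit 287)))))) (XT.nd (nat_lit 312) (nat_lit 608) (nat_lit 0) (XT.nd (nat_lit 156) (nat_lit 228) (nat_lit 0) (XT.nd (nat_lit 78) (nat_lit 76) (nat_lit 0) (XT.lf (nat_lit 0) (nat_lit 68039331115) (nat_lit 76) (nat_lit 22240372038) (nat_lit 152) (nat_lit 166342174345) (nat_lit 29) (nat_lit 5) (nat_lit 30) (nat_lit 5) (nat_lit 31) (nat_lit 4) (nat_lit 379) (nat_lit 355) (nat_lit 286)) (XT.lf (nat_lit 0) (nat_lit 91536071736) (nat_lit 76) (nat_lit 151009422773) (nat_lit 76) (nat_lit 40135844779) (nat_lit 28) (nat_lit 4) (nat_lit 29) (nat_lit 5) (nat_lit 29) (nat_lit 4) (nat_lit 380) (nat_lit 355) (nat_lit 285))) (XT.nd (nat_lit 78) (nat_lit 76) (nat_lit 0) (XT.lf (nat_lit 0) (nat_lit 108927476429) (nat_lit 152) (nat_lit 196519928879) (nat_lit 0) (nat_lit 6266001019)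 (nat_lit 26) (nat_lit 5) (nat_lit 28) (nat_lit 4) (nat_lit 26) (nat_lit 4) (nat_lit 381) (nat_lit 355) (nat_lit 284)) (XT.lf (nat_lit 0) (nat_lit 135758274493) (nat_lit 76) (nat_lit 155431723234) (nat_lit 76) (nat_lit 52769591262) (nat_lit 25) (nat_lit 4) (nat_lit 26) (nat_lit 5) (nat_lit 26) (nat_lit 4) (nat_lit 382) (nat_lit 355) (nat_lit 283)))) (XT.nd (nat_lit 156) (nat_lit 380) (nat_lit 0) (XT.nd (nat_lit 78) (nat_lit 76) (nat_lit 0) (XT.lf (nat_lit 0) (nat_lit 124061166842) (nat_lit 152) (nat_lit 226923841284) (nat_lit 0) (nat_lit 29003108605) (nat_lit 23) (nat_lit 5) (nat_lit 25) (nat_lit 4) (nat_lit 23) (nat_lit 4) (nat_lit 383) (nat_lit 355) (nat_lit 282)) (XT.lf (nat_lit 0) (nat_lit 162395322284) (nat_lit 76) (nat_lit 176406827709) (nat_lit 76) (nat_lit 81348309792) (nat_lit 22) (nat_lit 4) (nat_lit 23) (nat_lit 5) (nat_lit 23) (nat_lit 4) (nat_lit 384) (nat_lit 355) (nat_lit 281)))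 (XT.nd (nat_lit 78) (nat_lit 228) (nat_lit 0) (XT.lf (nat_lit 0) (nat_lit 125081968360) (nat_lit 152) (nat_lit 303029889539) (nat_lit 0) (nat_lit 37064452027) (nat_lit 20) (nat_lit 5) (nat_lit 22) (nat_lit 4) (nat_lit 20) (nat_lit 4) (nat_lit 385) (nat_lit 355) (nat_lit 280)) (XT.nd (nat_lit 78) (nat_lit 152) (nat_lit 0) (XT.lf (nat_lit 0) (nat_lit 144170788467) (nat_lit 76) (nat_lit 229669804635) (nat_lit 76) (nat_lit 141651966464) (nat_lit 19) (nat_lit 4) (nat_lit 20) (nat_lit 5) (nat_lit 20) (nat_lit 4) (nat_lit 386) (nat_lit 355) (nat_lit 279)) (XT.lf (nat_lit 0) (nat_lit 94175726473) (nat_lit 152) (nat_lit 465380605265) (nat_lit 0) (nat_lit 12677469039) (nat_lit 17) (nat_lit 5) (nat_lit 19) (nat_lit 4) (nat_lit 17) (nat_lit 4) (nat_lit 387) (nat_lit 355) (nat_lit 278))))))) (XT.nd (nat_lit 702) (nat_lit 456) (nat_lit 0) (XT.nd (nat_lit 312) (nat_lit 380) (nat_lit 0) (XT.nd (nat_lit 156)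 (nat_lit 152) (nat_lit 0) (XT.nd (nat_lit 78) (nat_lit 76) (nat_lit 0) (XT.lf (nat_lit 0) (nat_lit 33753631805) (nat_lit 76) (nat_lit 341728683920) (nat_lit 76) (nat_lit 260230201157) (nat_lit 16) (nat_lit 4) (nat_lit 17) (nat_lit 5) (nat_lit 17) (nat_lit 4) (nat_lit 388) (nat_lit 355) (nat_lit 277)) (XT.lf (nat_lit 0) (nat_lit 4657919846) (nat_lit 152) (nat_lit 71810205421) (nat_lit 76) (nat_lit 631151678084) (nat_lit 15) (nat_lit 5) (nat_lit 17) (nat_lit 5) (nat_lit 16) (nat_lit 4) (nat_lit 389) (nat_lit 355) (nat_lit 276))) (XT.nd (nat_lit 78) (nat_lit 76) (nat_lit 0) (XT.lf (nat_lit 0) (nat_lit 313775169630) (nat_lit 152) (nat_lit 236091647363) (nat_lit 0) (nat_lit 238313272332) (nat_lit 14) (nat_lit 5) (nat_lit 16) (nat_lit 4) (nat_lit 14) (nat_lit 4) (nat_lit 390) (nat_lit 355) (nat_lit 275)) (XT.lf (nat_lit 0) (nat_lit 411685704311) (nat_lit 76) (nat_lit 271733986821) (nat_lit 76)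 (nat_lit 196271952339) (nat_lit 13) (nat_lit 4) (nat_lit 14) (nat_lit 5) (nat_lit 14) (nat_lit 4) (nat_lit 391) (nat_lit 355) (nat_lit 274)))) (XT.nd (nat_lit 156) (nat_lit 228) (nat_lit 0) (XT.nd (nat_lit 78) (nat_lit 0) (nat_lit 0) (XT.lf (nat_lit 0) (nat_lit 130630904570) (nat_lit 152) (nat_lit 792244159040) (nat_lit 0) (nat_lit 60758539967) (nat_lit 11) (nat_lit 5) (nat_lit 13) (nat_lit 4) (nat_lit 11) (nat_lit 4) (nat_lit 392) (nat_lit 355) (nat_lit 273)) (XT.lf (nat_lit 0) (nat_lit 516771898573) (nat_lit 152) (nat_lit 137341747519) (nat_lit 0) (nat_lit 446899437924) (nat_lit 11) (nat_lit 5) (nat_lit 13) (nat_lit 4) (nat_lit 11) (nat_lit 4) (nat_lit 393) (nat_lit 355) (nat_lit 272))) (XT.nd (nat_lit 78) (nat_lit 152) (nat_lit 0) (XT.lf (nat_lit 0) (nat_lit 648220660085) (nat_lit 76) (nat_lit 328202135164) (nat_lit 76) (nat_lit 258329590996) (nat_lit 10) (nat_lit 4) (nat_lit 11) (nat_lit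 5) (nat_lit 11) (nat_lit 4) (nat_lit 394) (nat_lit 355) (nat_lit 271)) (XT.nd (nat_lit 78) (nat_lit 0) (nat_lit 0) (XT.lf (nat_lit 0) (nat_lit 120428220527) (nat_lit 152) (nat_lit 1211386066786) (nat_lit 0) (nat_lit 55731353127) (nat_lit 8) (nat_lit 5) (nat_lit 10) (nat_lit 4) (nat_lit 8) (nat_lit 4) (nat_lit 395) (nat_lit 355) (nat_lit 270)) (XT.lf (nat_lit 0) (nat_lit 567734793058) (nat_lit 152) (nat_lit 489785947064) (nat_lit 0) (nat_lit 503037867184) (nat_lit 8) (nat_lit 5) (nat_lit 10) (nat_lit 4) (nat_lit 8) (nat_lit 4) (nat_lit 396) (nat_lit 355) (nat_lit 269)))))) (XT.nd (nat_lit 390) (nat_lit 228) (nat_lit 0) (XT.nd (nat_lit 156) (nat_lit 152) (nat_lit 0) (XT.nd (nat_lit 78) (nat_lit 0) (nat_lit 0) (XT.lf (nat_lit 0) (nat_lit 357959234964) (nat_lit 76) (nat_lit 732786303021) (nat_lit 76) (nat_lit 668089326299) (nat_lit 7) (nat_lit 4) (nat_lit 8) (nat_lit 5) (nat_lit 8) (nat_lit 4)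 (nat_lit 397) (nat_lit 355) (nat_lit 268)) (XT.lf (nat_lit 0) (nat_lit 1362524746163) (nat_lit 76) (nat_lit 343942060801) (nat_lit 76) (nat_lit 279245039865) (nat_lit 7) (nat_lit 4) (nat_lit 8) (nat_lit 5) (nat_lit 8) (nat_lit 4) (nat_lit 398) (nat_lit 355) (nat_lit 267))) (XT.nd (nat_lit 78) (nat_lit 0) (nat_lit 0) (XT.lf (nat_lit 0) (nat_lit 169050538211) (nat_lit 152) (nat_lit 1967338896676) (nat_lit 0) (nat_lit 109145853596) (nat_lit 5) (nat_lit 5) (nat_lit 7) (nat_lit 4) (nat_lit 5) (nat_lit 4) (nat_lit 399) (nat_lit 355) (nat_lit 266)) (XT.nd (nat_lit 78) (nat_lit 0) (nat_lit 0) (XT.lf (nat_lit 0) (nat_lit 696652838683) (nat_lit 152) (nat_lit 1208063290504) (nat_lit 0) (nat_lit 636748123112) (nat_lit 5) (nat_lit 5) (nat_lit 7) (nat_lit 4) (nat_lit 5) (nat_lit 4) (nat_lit 400) (nat_lit 355) (nat_lit 265)) (XT.lf (nat_lit 0) (nat_lit 1303394990325) (nat_lit 152) (nat_lit 334897362040)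 (nat_lit 0) (nat_lit 1243490247836) (nat_lit 5) (nat_lit 5) (nat_lit 7) (nat_lit 4) (nat_lit 5) (nat_lit 4) (nat_lit 401) (nat_lit 355) (nat_lit 264))))) (XT.nd (nat_lit 156) (nat_lit 152) (nat_lit 0) (XT.nd (nat_lit 78) (nat_lit 0) (nat_lit 0) (XT.lf (nat_lit 0) (nat_lit 704483697654) (nat_lit 76) (nat_lit 1313607187452) (nat_lit 76) (nat_lit 1253702421555) (nat_lit 4) (nat_lit 4) (nat_lit 5) (nat_lit 5) (nat_lit 5) (nat_lit 4) (nat_lit 402) (nat_lit 355) (nat_lit 263)) (XT.lf (nat_lit 0) (nat_lit 1920051472346) (nat_lit 76) (nat_lit 929689475162) (nat_lit 76) (nat_lit 869784688911) (nat_lit 4) (nat_lit 4) (nat_lit 5) (nat_lit 5) (nat_lit 5) (nat_lit 4) (nat_lit 403) (nat_lit 355) (nat_lit 262))) (XT.nd (nat_lit 78) (nat_lit 152) (nat_lit 0) (XT.lf (nat_lit 0) (nat_lit 3317953708203) (nat_lit 76) (nat_lit 488184469363) (nat_lit 76) (nat_lit 428279665413) (nat_lit 4) (nat_lit 4) (nat_lit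 5) (nat_lit 5) (nat_lit 5) (nat_lit 4) (nat_lit 404) (nat_lit 355) (nat_lit 261)) (XT.nd (nat_lit 78) (nat_lit 0) (nat_lit 0) (XT.lf (nat_lit 0) (nat_lit 78517765925) (nat_lit 152) (nat_lit 4724579620244) (nat_lit 0) (nat_lit 23050340609) (nat_lit 2) (nat_lit 5) (nat_lit 4) (nat_lit 4) (nat_lit 2) (nat_lit 4) (nat_lit 405) (nat_lit 355) (nat_lit 260)) (XT.lf (nat_lit 0) (nat_lit 677573478156) (nat_lit 152) (nat_lit 4202739834638) (nat_lit 0) (nat_lit 622106040448) (nat_lit 2) (nat_lit 5) (nat_lit 4) (nat_lit 4) (nat_lit 2) (nat_lit 4) (nat_lit 406) (nat_lit 355) (nat_lit 259))))))))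
noncomputable def xc77 : XT := (XT.nd (nat_lit 49452) (nat_lit 0) (nat_lit 2356) (XT.nd (nat_lit 702) (nat_lit 0) (nat_lit 0) (XT.nd (nat_lit 312) (nat_lit 76) (nat_lit 0) (XT.nd (nat_lit 156) (nat_lit 0) (nat_lit 0) (XT.nd (nat_lit 78) (nat_lit 0) (nat_lit 0) (XT.lf (nat_lit 0) (nat_lit 1366487298455) (nat_lit 152) (nat_lit 3602624595152) (nat_lit 0) (nat_lit 1311019849972) (nat_lit 2) (nat_lit 5) (nat_lit 4) (nat_lit 4) (nat_lit 2) (nat_lit 4) (nat_lit 407) (nat_lit 355) (nat_lit 258)) (XT.lf (nat_lit 0) (nat_lit 2158737975482) (nat_lit 152) (nat_lit 2912492516663) (nat_lit 0) (nat_lit 2103270517628) (nat_lit 2) (nat_lit 5) (nat_lit 4) (nat_lit 4) (nat_lit 2) (nat_lit 4) (nat_lit 408) (nat_lit 355) (nat_lit 257))) (XT.nd (nat_lit 78) (nat_lit 0) (nat_lit 0) (XT.lf (nat_lit 0) (nat_lit 3069826065959) (nat_lit 152) (nat_lit 2118841015029) (nat_lit 0) (nat_lit 3014358599958) (nat_lit 2) (nat_lit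 5) (nat_lit 4) (nat_lit 4) (nat_lit 2) (nat_lit 4) (nat_lit 409) (nat_lit 355) (nat_lit 256)) (XT.lf (nat_lit 0) (nat_lit 4117577206440) (nat_lit 152) (nat_lit 1206142126086) (nat_lit 0) (nat_lit 4062109733354) (nat_lit 2) (nat_lit 5) (nat_lit 4) (nat_lit 4) (nat_lit 2) (nat_lit 4) (nat_lit 410) (nat_lit 355) (nat_lit 255)))) (XT.nd (nat_lit 156) (nat_lit 0) (nat_lit 0) (XT.nd (nat_lit 78) (nat_lit 76) (nat_lit 0) (XT.lf (nat_lit 0) (nat_lit 5322490875761) (nat_lit 152) (nat_lit 156538697659) (nat_lit 0) (nat_lit 5267023396514) (nat_lit 2) (nat_lit 5) (nat_lit 4) (nat_lit 4) (nat_lit 2) (nat_lit 4) (nat_lit 411) (nat_lit 355) (nat_lit 254)) (XT.lf (nat_lit 0) (nat_lit 1105822720594) (nat_lit 76) (nat_lit 5628913814229) (nat_lit 76) (nat_lit 5573446329625) (nat_lit 1) (nat_lit 4) (nat_lit 2) (nat_lit 5) (nat_lit 2) (nat_lit 4) (nat_lit 412) (nat_lit 355) (nat_lit 253))) (XT.nd (nat_lit 78)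 (nat_lit 0) (nat_lit 0) (XT.lf (nat_lit 0) (nat_lit 2567017625657) (nat_lit 76) (nat_lit 5796358759670) (nat_lit 76) (nat_lit 5740891270407) (nat_lit 1) (nat_lit 4) (nat_lit 2) (nat_lit 5) (nat_lit 2) (nat_lit 4) (nat_lit 413) (nat_lit 355) (nat_lit 252)) (XT.nd (nat_lit 78) (nat_lit 0) (nat_lit 0) (XT.lf (nat_lit 0) (nat_lit 4247391563089) (nat_lit 76) (nat_lit 5988920551906) (nat_lit 76) (nat_lit 5933453058592) (nat_lit 1) (nat_lit 4) (nat_lit 2) (nat_lit 5) (nat_lit 2) (nat_lit 4) (nat_lit 414) (nat_lit 355) (nat_lit 251)) (XT.lf (nat_lit 0) (nat_lit 6179821414273) (nat_lit 76) (nat_lit 6210366704263) (nat_lit 76) (nat_lit 6154899207426) (nat_lit 1) (nat_lit 4) (nat_lit 2) (nat_lit 5) (nat_lit 2) (nat_lit 4) (nat_lit 415) (nat_lit 355) (nat_lit 250)))))) (XT.nd (nat_lit 312) (nat_lit 0) (nat_lit 0) (XT.nd (nat_lit 156) (nat_lit 0) (nat_lit 0) (XT.nd (nat_lit 78) (nat_lit 0) (nat_lit 0)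 (XT.lf (nat_lit 0) (nat_lit 8402115589343) (nat_lit 76) (nat_lit 6465029858853) (nat_lit 76) (nat_lit 6409562358953) (nat_lit 1) (nat_lit 4) (nat_lit 2) (nat_lit 5) (nat_lit 2) (nat_lit 4) (nat_lit 416) (nat_lit 355) (nat_lit 249)) (XT.lf (nat_lit 0) (nat_lit 10957753756940) (nat_lit 76) (nat_lit 6757892555657) (nat_lit 76) (nat_lit 6702425053093) (nat_lit 1) (nat_lit 4) (nat_lit 2) (nat_lit 5) (nat_lit 2) (nat_lit 4) (nat_lit 417) (nat_lit 355) (nat_lit 248))) (XT.nd (nat_lit 78) (nat_lit 0) (nat_lit 0) (XT.lf (nat_lit 0) (nat_lit 13896737533388) (nat_lit 76) (nat_lit 7094684717003) (nat_lit 76) (nat_lit 7039217212124) (nat_lit 1) (nat_lit 4) (nat_lit 2) (nat_lit 5) (nat_lit 2) (nat_lit 4) (nat_lit 418) (nat_lit 355) (nat_lit 247)) (XT.lf (nat_lit 0) (nat_lit 17276568775181) (nat_lit 76) (nat_lit 7481995754744) (nat_lit 76) (nat_lit 7426528247851) (nat_lit 1) (nat_lit 4) (nat_lit 2) (nat_lit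 5) (nat_lit 2) (nat_lit 4) (nat_lit 419) (nat_lit 355) (nat_lit 246)))) (XT.nd (nat_lit 48204) (nat_lit 0) (nat_lit 5624) (XT.nd (nat_lit 48126) (nat_lit 0) (nat_lit 6080) (XT.lf (nat_lit 0) (nat_lit 21163374615312) (nat_lit 76) (nat_lit 7927403493532) (nat_lit 76) (nat_lit 7871935984887) (nat_lit 1) (nat_lit 4) (nat_lit 2) (nat_lit 5) (nat_lit 2) (nat_lit 4) (nat_lit 420) (nat_lit 355) (nat_lit 245)) (XT.lf (nat_lit 0) (nat_lit 18230105352) (nat_lit 532) (nat_lit 392665261) (nat_lit 532) (nat_lit 392665261) (nat_lit 81) (nat_lit 3) (nat_lit 88) (nat_lit 3) (nat_lit 88) (nat_lit 5) (nat_lit 356) (nat_lit 356) (nat_lit 308))) (XT.nd (nat_lit 78) (nat_lit 456) (nat_lit 0) (XT.lf (nat_lit 76) (nat_lit 36403056531) (nat_lit 0) (nat_lit 3744108609) (nat_lit 532) (nat_lit 659806325) (nat_lit 82) (nat_lit 5) (nat_lit 81) (nat_lit 3) (nat_lit 88) (nat_lit 5) (nat_lit 357) (nat_lit 356) (nat_lit 307))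 (XT.nd (nat_lit 78) (nat_lit 0) (nat_lit 76) (XT.lf (nat_lit 0) (nat_lit 2129314616) (nat_lit 532) (nat_lit 7732600004) (nat_lit 608) (nat_lit 33995946529) (nat_lit 75) (nat_lit 5) (nat_lit 82) (nat_lit 5) (nat_lit 83) (nat_lit 5) (nat_lit 358) (nat_lit 356) (nat_lit 306)) (XT.lf (nat_lit 0) (nat_lit 7165055721) (nat_lit 532) (nat_lit 10639571791) (nat_lit 608) (nat_lit 29411003100) (nat_lit 76) (nat_lit 5) (nat_lit 83) (nat_lit 5) (nat_lit 84) (nat_lit 5) (nat_lit 359) (nat_lit 356) (nat_lit 305))))))) (XT.nd (nat_lit 702) (nat_lit 1368) (nat_lit 0) (XT.nd (nat_lit 312) (nat_lit 1140) (nat_lit 0) (XT.nd (nat_lit 156) (nat_lit 456) (nat_lit 0) (XT.nd (nat_lit 78) (nat_lit 456) (nat_lit 0) (XT.lf (nat_lit 0) (nat_lit 14958977830) (nat_lit 532) (nat_lit 12963028465) (nat_lit 76) (nat_lit 22994836181) (nat_lit 77) (nat_lit 5) (nat_lit 84) (nat_lit 5) (nat_lit 78) (nat_lit 5) (nat_lit 360) (nat_lit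 356) (nat_lit 304)) (XT.lf (nat_lit 0) (nat_lit 26069995503) (nat_lit 532) (nat_lit 14528487602) (nat_lit 76) (nat_lit 14402914661) (nat_lit 71) (nat_lit 5) (nat_lit 78) (nat_lit 5) (nat_lit 72) (nat_lit 5) (nat_lit 361) (nat_lit 356) (nat_lit 303))) (XT.nd (nat_lit 78) (nat_lit 228) (nat_lit 0) (XT.lf (nat_lit 0) (nat_lit 41150023501) (nat_lit 304) (nat_lit 15128497520) (nat_lit 76) (nat_lit 3235928656) (nat_lit 68) (nat_lit 5) (nat_lit 72) (nat_lit 5) (nat_lit 69) (nat_lit 5) (nat_lit 362) (nat_lit 356) (nat_lit 302)) (XT.lf (nat_lit 0) (nat_lit 49689638167) (nat_lit 228) (nat_lit 11546550497) (nat_lit 304) (nat_lit 3248741760) (nat_lit 65) (nat_lit 5) (nat_lit 68) (nat_lit 5) (nat_lit 69) (nat_lit 5) (nat_lit 363) (nat_lit 356) (nat_lit 301)))) (XT.nd (nat_lit 156) (nat_lit 684) (nat_lit 0) (XT.nd (nat_lit 78) (nat_lit 228) (nat_lit 0) (XT.lf (nat_lit 0) (nat_lit 16270773959) (nat_lit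 228) (nat_lit 13546311647) (nat_lit 76) (nat_lit 40129221956) (nat_lit 62) (nat_lit 5) (nat_lit 65) (nat_lit 5) (nat_lit 63) (nat_lit 5) (nat_lit 364) (nat_lit 356) (nat_lit 300)) (XT.lf (nat_lit 0) (nat_lit 41470357364) (nat_lit 304) (nat_lit 10790091527) (nat_lit 76) (nat_lit 23724132761) (nat_lit 59) (nat_lit 5) (nat_lit 63) (nat_lit 5) (nat_lit 60) (nat_lit 5) (nat_lit 365) (nat_lit 356) (nat_lit 299))) (XT.nd (nat_lit 78) (nat_lit 532) (nat_lit 0) (XT.lf (nat_lit 0) (nat_lit 73592730663) (nat_lit 228) (nat_lit 6097158241) (nat_lit 76) (nat_lit 2987280787) (nat_lit 57) (nat_lit 5) (nat_lit 60) (nat_lit 5) (nat_lit 58) (nat_lit 5) (nat_lit 366) (nat_lit 356) (nat_lit 298)) (XT.nd (nat_lit 78) (nat_lit 304) (nat_lit 0) (XT.lf (nat_lit 0) (nat_lit 23190701031) (nat_lit 228) (nat_lit 223211511) (nat_lit 76) (nat_lit 66597797695) (nat_lit 54) (nat_lit 5) (nat_lit 57) (nat_lit 5) (nat_lit 55)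 (nat_lit 5) (nat_lit 367) (nat_lit 356) (nat_lit 297)) (XT.lf (nat_lit 0) (nat_lit 8221505204) (nat_lit 152) (nat_lit 55584889015) (nat_lit 228) (nat_lit 34298187026) (nat_lit 50) (nat_lit 5) (nat_lit 52) (nat_lit 5) (nat_lit 53) (nat_lit 5) (nat_lit 368) (nat_lit 356) (nat_lit 296)))))) (XT.nd (nat_lit 390) (nat_lit 684) (nat_lit 0) (XT.nd (nat_lit 156) (nat_lit 380) (nat_lit 0) (XT.nd (nat_lit 78) (nat_lit 152) (nat_lit 0) (XT.lf (nat_lit 0) (nat_lit 7088612071) (nat_lit 152) (nat_lit 87492626774) (nat_lit 76) (nat_lit 12492911856) (nat_lit 48) (nat_lit 5) (nat_lit 50) (nat_lit 5) (nat_lit 49) (nat_lit 5) (nat_lit 369) (nat_lit 356) (nat_lit 295)) (XT.lf (nat_lit 0) (nat_lit 32809141367) (nat_lit 152) (nat_lit 24908056497) (nat_lit 228) (nat_lit 59195521075) (nat_lit 46) (nat_lit 5) (nat_lit 48) (nat_lit 5) (nat_lit 49) (nat_lit 5) (nat_lit 370) (nat_lit 356) (nat_lit 294))) (XT.nd (nat_lit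 78) (nat_lit 304) (nat_lit 0) (XT.lf (nat_lit 0) (nat_lit 49506702886) (nat_lit 76) (nat_lit 71561356240) (nat_lit 152) (nat_lit 6748774716) (nat_lit 45) (nat_lit 5) (nat_lit 46) (nat_lit 5) (nat_lit 47) (nat_lit 4) (nat_lit 371) (nat_lit 356) (nat_lit 293)) (XT.nd (nat_lit 78) (nat_lit 76) (nat_lit 0) (XT.lf (nat_lit 0) (nat_lit 56085868464) (nat_lit 228) (nat_lit 70673632965) (nat_lit 76) (nat_lit 13077971988) (nat_lit 42) (nat_lit 5) (nat_lit 45) (nat_lit 5) (nat_lit 43) (nat_lit 4) (nat_lit 372) (nat_lit 356) (nat_lit 292)) (XT.lf (nat_lit 0) (nat_lit 92413997577) (nat_lit 76) (nat_lit 42080917849) (nat_lit 152) (nat_lit 18628365577) (nat_lit 41) (nat_lit 5) (nat_lit 42) (nat_lit 5) (nat_lit 43) (nat_lit 4) (nat_lit 373) (nat_lit 356) (nat_lit 291))))) (XT.nd (nat_lit 156) (nat_lit 456) (nat_lit 0) (XT.nd (nat_lit 78) (nat_lit 76) (nat_lit 0) (XT.lf (nat_lit 0) (nat_lit 59953006141) (nat_lit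 152) (nat_lit 48759041608) (nat_lit 76) (nat_lit 59061328007) (nat_lit 39) (nat_lit 5) (nat_lit 41) (nat_lit 5) (nat_lit 40) (nat_lit 4) (nat_lit 374) (nat_lit 356) (nat_lit 290)) (XT.lf (nat_lit 0) (nat_lit 150701509125) (nat_lit 76) (nat_lit 5147065359) (nat_lit 152) (nat_lit 28203302320) (nat_lit 38) (nat_lit 5) (nat_lit 39) (nat_lit 5) (nat_lit 40) (nat_lit 4) (nat_lit 375) (nat_lit 356) (nat_lit 289))) (XT.nd (nat_lit 78) (nat_lit 304) (nat_lit 0) (XT.lf (nat_lit 0) (nat_lit 69102951670) (nat_lit 152) (nat_lit 16882032904) (nat_lit 76) (nat_lit 115951993593) (nat_lit 36) (nat_lit 5) (nat_lit 38) (nat_lit 5) (nat_lit 37) (nat_lit 4) (nat_lit 376) (nat_lit 356) (nat_lit 288)) (XT.nd (nat_lit 78) (nat_lit 152) (nat_lit 0) (XT.lf (nat_lit 0) (nat_lit 3464890020) (nat_lit 76) (nat_lit 183543797872) (nat_lit 76) (nat_lit 34823673178) (nat_lit 34) (nat_lit 4) (nat_lit 35) (nat_lit 5) (nat_lit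 35) (nat_lit 4) (nat_lit 377) (nat_lit 356) (nat_lit 287)) (XT.lf (nat_lit 0) (nat_lit 26159582357) (nat_lit 76) (nat_lit 57917804630) (nat_lit 152) (nat_lit 159677972334) (nat_lit 32) (nat_lit 5) (nat_lit 33) (nat_lit 5) (nat_lit 34) (nat_lit 4) (nat_lit 378) (nat_lit 356) (nat_lit 286))))))))
noncomputable def xc78 : XT := (XT.nd (nat_lit 1404) (nat_lit 532) (nat_lit 0) (XT.nd (nat_lit 702) (nat_lit 836) (nat_lit 0) (XT.nd (nat_lit 312) (nat_lit 532) (nat_lit 0) (XT.nd (nat_lit 156) (nat_lit 228) (nat_lit 0) (XT.nd (nat_lit 78) (nat_lit 152) (nat_lit 0) (XT.lf (nat_lit 0) (nat_lit 51492470170) (nat_lit 76) (nat_lit 177158032643) (nat_lit 76) (nat_lit 39452035987) (nat_lit 31) (nat_lit 4) (nat_lit 32) (nat_lit 5) (nat_lit 32) (nat_lit 4) (nat_lit 379) (nat_lit 356) (nat_lit 285)) (XT.lf (nat_lit 0) (nat_lit 78295390608) (nat_lit 76) (nat_lit 25551853598) (nat_lit 152) (nat_lit 191265867159)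 (nat_lit 29) (nat_lit 5) (nat_lit 30) (nat_lit 5) (nat_lit 31) (nat_lit 4) (nat_lit 380) (nat_lit 356) (nat_lit 284))) (XT.nd (nat_lit 78) (nat_lit 152) (nat_lit 0) (XT.lf (nat_lit 0) (nat_lit 105313729983) (nat_lit 76) (nat_lit 173637487259) (nat_lit 76) (nat_lit 46130410263) (nat_lit 28) (nat_lit 4) (nat_lit 29) (nat_lit 5) (nat_lit 29) (nat_lit 4) (nat_lit 381) (nat_lit 356) (nat_lit 283)) (XT.lf (nat_lit 0) (nat_lit 125289518312) (nat_lit 152) (nat_lit 225952225634) (nat_lit 0) (nat_lit 7226839059) (nat_lit 26) (nat_lit 5) (nat_lit 28) (nat_lit 4) (nat_lit 26) (nat_lit 4) (nat_lit 382) (nat_lit 356) (nat_lit 282)))) (XT.nd (nat_lit 156) (nat_lit 304) (nat_lit 0) (XT.nd (nat_lit 78) (nat_lit 152) (nat_lit 0) (XT.lf (nat_lit 0) (nat_lit 156163840595) (nat_lit 76) (nat_lit 178725593480) (nat_lit 76) (nat_lit 60662417772) (nat_lit 25) (nat_lit 4) (nat_lit 26) (nat_lit 5) (nat_lit 26) (nat_lit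 4) (nat_lit 383) (nat_lit 356) (nat_lit 281)) (XT.lf (nat_lit 0) (nat_lit 142690440364) (nat_lit 152) (nat_lit 260922000194) (nat_lit 0) (nat_lit 33372285357) (nat_lit 23) (nat_lit 5) (nat_lit 25) (nat_lit 4) (nat_lit 23) (nat_lit 4) (nat_lit 384) (nat_lit 356) (nat_lit 280))) (XT.nd (nat_lit 78) (nat_lit 228) (nat_lit 0) (XT.lf (nat_lit 0) (nat_lit 186791616787) (nat_lit 76) (nat_lit 202849222416) (nat_lit 76) (nat_lit 93530719824) (nat_lit 22) (nat_lit 4) (nat_lit 23) (nat_lit 5) (nat_lit 23) (nat_lit 4) (nat_lit 385) (nat_lit 356) (nat_lit 279)) (XT.nd (nat_lit 78) (nat_lit 76) (nat_lit 0) (XT.lf (nat_lit 0) (nat_lit 143861908214) (nat_lit 152) (nat_lit 348448643698) (nat_lit 0) (nat_lit 42640792622) (nat_lit 20) (nat_lit 5) (nat_lit 22) (nat_lit 4) (nat_lit 20) (nat_lit 4) (nat_lit 386) (nat_lit 356) (nat_lit 278)) (XT.lf (nat_lit 0) (nat_lit 165829111705) (nat_lit 76) (nat_lit 264103700049)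 (nat_lit 76) (nat_lit 162882341101) (nat_lit 19) (nat_lit 4) (nat_lit 20) (nat_lit 5) (nat_lit 20) (nat_lit 4) (nat_lit 387) (nat_lit 356) (nat_lit 277)))))) (XT.nd (nat_lit 312) (nat_lit 456) (nat_lit 0) (XT.nd (nat_lit 156) (nat_lit 152) (nat_lit 0) (XT.nd (nat_lit 78) (nat_lit 76) (nat_lit 0) (XT.lf (nat_lit 0) (nat_lit 108317590258) (nat_lit 152) (nat_lit 535156126219) (nat_lit 0) (nat_lit 14593913813) (nat_lit 17) (nat_lit 5) (nat_lit 19) (nat_lit 4) (nat_lit 17) (nat_lit 4) (nat_lit 388) (nat_lit 356) (nat_lit 276)) (XT.lf (nat_lit 0) (nat_lit 38845574183) (nat_lit 76) (nat_lit 392973266336) (nat_lit 76) (nat_lit 299249419510) (nat_lit 16) (nat_lit 4) (nat_lit 17) (nat_lit 5) (nat_lit 17) (nat_lit 4) (nat_lit 389) (nat_lit 356) (nat_lit 275))) (XT.nd (nat_lit 78) (nat_lit 76) (nat_lit 0) (XT.lf (nat_lit 0) (nat_lit 5369256398) (nat_lit 152) (nat_lit 82555941675) (nat_lit 76) (nat_lit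 725836563742) (nat_lit 15) (nat_lit 5) (nat_lit 17) (nat_lit 5) (nat_lit 16) (nat_lit 4) (nat_lit 390) (nat_lit 356) (nat_lit 274)) (XT.lf (nat_lit 0) (nat_lit 360853301357) (nat_lit 152) (nat_lit 271481147500) (nat_lit 0) (nat_lit 274071705231) (nat_lit 14) (nat_lit 5) (nat_lit 16) (nat_lit 4) (nat_lit 14) (nat_lit 4) (nat_lit 391) (nat_lit 356) (nat_lit 273)))) (XT.nd (nat_lit 156) (nat_lit 228) (nat_lit 0) (XT.nd (nat_lit 78) (nat_lit 152) (nat_lit 0) (XT.lf (nat_lit 0) (nat_lit 473460754541) (nat_lit 76) (nat_lit 312482733852) (nat_lit 76) (nat_lit 225701033996) (nat_lit 13) (nat_lit 4) (nat_lit 14) (nat_lit 5) (nat_lit 14) (nat_lit 4) (nat_lit 392) (nat_lit 356) (nat_lit 272)) (XT.lf (nat_lit 0) (nat_lit 150235972745) (nat_lit 152) (nat_lit 911059373243) (nat_lit 0) (nat_lit 69882463434) (nat_lit 11) (nat_lit 5) (nat_lit 13) (nat_lit 4) (nat_lit 11) (nat_lit 4) (nat_lit 393) (nat_lit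 356) (nat_lit 271))) (XT.nd (nat_lit 78) (nat_lit 228) (nat_lit 0) (XT.lf (nat_lit 0) (nat_lit 594296755089) (nat_lit 152) (nat_lit 157924392558) (nat_lit 0) (nat_lit 513943173153) (nat_lit 11) (nat_lit 5) (nat_lit 13) (nat_lit 4) (nat_lit 11) (nat_lit 4) (nat_lit 394) (nat_lit 356) (nat_lit 270)) (XT.nd (nat_lit 78) (nat_lit 152) (nat_lit 0) (XT.lf (nat_lit 0) (nat_lit 745470800343) (nat_lit 76) (nat_lit 377423712496) (nat_lit 76) (nat_lit 297070067408) (nat_lit 10) (nat_lit 4) (nat_lit 11) (nat_lit 5) (nat_lit 11) (nat_lit 4) (nat_lit 395) (nat_lit 356) (nat_lit 269)) (XT.lf (nat_lit 0) (nat_lit 138500439740) (nat_lit 152) (nat_lit 1393077542157) (nat_lit 0) (nat_lit 64098865663) (nat_lit 8) (nat_lit 5) (nat_lit 10) (nat_lit 4) (nat_lit 8) (nat_lit 4) (nat_lit 396) (nat_lit 356) (nat_lit 268))))))) (XT.nd (nat_lit 702) (nat_lit 228) (nat_lit 0) (XT.nd (nat_lit 312) (nat_lit 76) (nat_lit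 0) (XT.nd (nat_lit 156) (nat_lit 152) (nat_lit 0) (XT.nd (nat_lit 78) (nat_lit 76) (nat_lit 0) (XT.lf (nat_lit 0) (nat_lit 652901956481) (nat_lit 152) (nat_lit 563239548126) (nat_lit 0) (nat_lit 578500338189) (nat_lit 8) (nat_lit 5) (nat_lit 10) (nat_lit 4) (nat_lit 8) (nat_lit 4) (nat_lit 397) (nat_lit 356) (nat_lit 267)) (XT.lf (nat_lit 0) (nat_lit 411666201545) (nat_lit 76) (nat_lit 842697520408) (nat_lit 76) (nat_lit 768295863669) (nat_lit 7) (nat_lit 4) (nat_lit 8) (nat_lit 5) (nat_lit 8) (nat_lit 4) (nat_lit 398) (nat_lit 356) (nat_lit 266))) (XT.nd (nat_lit 78) (nat_lit 152) (nat_lit 0) (XT.lf (nat_lit 0) (nat_lit 1566914833163) (nat_lit 76) (nat_lit 395527519430) (nat_lit 76) (nat_lit 321125829258) (nat_lit 7) (nat_lit 4) (nat_lit 8) (nat_lit 5) (nat_lit 8) (nat_lit 4) (nat_lit 399) (nat_lit 356) (nat_lit 265)) (XT.lf (nat_lit 0) (nat_lit 194413436991) (nat_lit 152) (nat_lit 2262428763081)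 (nat_lit 0) (nat_lit 125522956210) (nat_lit 5) (nat_lit 5) (nat_lit 7) (nat_lit 4) (nat_lit 5) (nat_lit 4) (nat_lit 400) (nat_lit 356) (nat_lit 264)))) (XT.nd (nat_lit 156) (nat_lit 76) (nat_lit 0) (XT.nd (nat_lit 78) (nat_lit 0) (nat_lit 0) (XT.lf (nat_lit 0) (nat_lit 801155388876) (nat_lit 152) (nat_lit 1389263246604) (nat_lit 0) (nat_lit 732264884687) (nat_lit 5) (nat_lit 5) (nat_lit 7) (nat_lit 4) (nat_lit 5) (nat_lit 4) (nat_lit 401) (nat_lit 356) (nat_lit 263)) (XT.lf (nat_lit 0) (nat_lit 1498908260083) (nat_lit 152) (nat_lit 385123672890) (nat_lit 0) (nat_lit 1430017735540) (nat_lit 5) (nat_lit 5) (nat_lit 7) (nat_lit 4) (nat_lit 5) (nat_lit 4) (nat_lit 402) (nat_lit 356) (nat_lit 262))) (XT.nd (nat_lit 78) (nat_lit 0) (nat_lit 0) (XT.lf (nat_lit 0) (nat_lit 810163843759) (nat_lit 76) (nat_lit 1510644353391) (nat_lit 76) (nat_lit 1441753811149) (nat_lit 4) (nat_lit 4) (nat_lit 5) (nat_lit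 5) (nat_lit 5) (nat_lit 4) (nat_lit 403) (nat_lit 356) (nat_lit 261)) (XT.nd (nat_lit 78) (nat_lit 0) (nat_lit 0) (XT.lf (nat_lit 0) (nat_lit 2208065794464) (nat_lit 76) (nat_lit 1069139494542) (nat_lit 76) (nat_lit 1000248936909) (nat_lit 4) (nat_lit 4) (nat_lit 5) (nat_lit 5) (nat_lit 5) (nat_lit 4) (nat_lit 404) (nat_lit 356) (nat_lit 260)) (XT.lf (nat_lit 0) (nat_lit 3815652504665) (nat_lit 76) (nat_lit 561409181599) (nat_lit 76) (nat_lit 492518610582) (nat_lit 4) (nat_lit 4) (nat_lit 5) (nat_lit 5) (nat_lit 5) (nat_lit 4) (nat_lit 405) (nat_lit 356) (nat_lit 259)))))) (XT.nd (nat_lit 390) (nat_lit 76) (nat_lit 0) (XT.nd (nat_lit 156) (nat_lit 0) (nat_lit 0) (XT.nd (nat_lit 78) (nat_lit 0) (nat_lit 0) (XT.lf (nat_lit 0) (nat_lit 90298109388) (nat_lit 152) (nat_lit 5433261029252) (nat_lit 0) (nat_lit 26510532857) (nat_lit 2) (nat_lit 5) (nat_lit 4) (nat_lit 4) (nat_lit 2) (nat_lit 4) (nat_lit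 406) (nat_lit 356) (nat_lit 258)) (XT.lf (nat_lit 0) (nat_lit 779211829074) (nat_lit 152) (nat_lit 4833145997635) (nat_lit 0) (nat_lit 715424243173) (nat_lit 2) (nat_lit 5) (nat_lit 4) (nat_lit 4) (nat_lit 2) (nat_lit 4) (nat_lit 407) (nat_lit 356) (nat_lit 257))) (XT.nd (nat_lit 78) (nat_lit 0) (nat_lit 0) (XT.lf (nat_lit 0) (nat_lit 1571462418611) (nat_lit 152) (nat_lit 4143014099904) (nat_lit 0) (nat_lit 1507674824562) (nat_lit 2) (nat_lit 5) (nat_lit 4) (nat_lit 4) (nat_lit 2) (nat_lit 4) (nat_lit 408) (nat_lit 356) (nat_lit 256)) (XT.nd (nat_lit 78) (nat_lit 0) (nat_lit 0) (XT.lf (nat_lit 0) (nat_lit 2482550433010) (nat_lit 152) (nat_lit 3349362755449) (nat_lit 0) (nat_lit 2418762831876) (nat_lit 2) (nat_lit 5) (nat_lit 4) (nat_lit 4) (nat_lit 2) (nat_lit 4) (nat_lit 409) (nat_lit 356) (nat_lit 255)) (XT.lf (nat_lit 0) (nat_lit 3530301507337) (nat_lit 152) (nat_lit 2436664003184) (nat_lit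 0) (nat_lit 3466513900041) (nat_lit 2) (nat_lit 5) (nat_lit 4) (nat_lit 4) (nat_lit 2) (nat_lit 4) (nat_lit 410) (nat_lit 356) (nat_lit 254))))) (XT.nd (nat_lit 156) (nat_lit 76) (nat_lit 0) (XT.nd (nat_lit 78) (nat_lit 0) (nat_lit 0) (XT.lf (nat_lit 0) (nat_lit 4735215119131) (nat_lit 152) (nat_lit 1387060693608) (nat_lit 0) (nat_lit 4671427506479) (nat_lit 2) (nat_lit 5) (nat_lit 4) (nat_lit 4) (nat_lit 2) (nat_lit 4) (nat_lit 411) (nat_lit 356) (nat_lit 253)) (XT.lf (nat_lit 0) (nat_lit 6120865665147) (nat_lit 152) (nat_lit 180017109795) (nat_lit 0) (nat_lit 6057078047835) (nat_lit 2) (nat_lit 5) (nat_lit 4) (nat_lit 4) (nat_lit 2) (nat_lit 4) (nat_lit 412) (nat_lit 356) (nat_lit 252))) (XT.nd (nat_lit 78) (nat_lit 0) (nat_lit 0) (XT.lf (nat_lit 0) (nat_lit 1271698318683) (nat_lit 76) (nat_lit 6473249756010) (nat_lit 76) (nat_lit 6409462134647) (nat_lit 1) (nat_lit 4) (nat_lit 2) (nat_lit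 5) (nat_lit 2) (nat_lit 4) (nat_lit 413) (nat_lit 356) (nat_lit 251)) (XT.nd (nat_lit 78) (nat_lit 0) (nat_lit 0) (XT.lf (nat_lit 0) (nat_lit 2952072173853) (nat_lit 76) (nat_lit 6665811590704) (nat_lit 76) (nat_lit 6602023965819) (nat_lit 1) (nat_lit 4) (nat_lit 2) (nat_lit 5) (nat_lit 2) (nat_lit 4) (nat_lit 414) (nat_lit 356) (nat_lit 250)) (XT.lf (nat_lit 0) (nat_lit 4884501953506) (nat_lit 76) (nat_lit 6887257779982) (nat_lit 76) (nat_lit 6823470152034) (nat_lit 1) (nat_lit 4) (nat_lit 2) (nat_lit 5) (nat_lit 2) (nat_lit 4) (nat_lit 415) (nat_lit 356) (nat_lit 249))))))))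
noncomputable def xc79 : XT := (XT.nd (nat_lit 49530) (nat_lit 0) (nat_lit 1368) (XT.nd (nat_lit 48828) (nat_lit 0) (nat_lit 3724) (XT.nd (nat_lit 312) (nat_lit 0) (nat_lit 0) (XT.nd (nat_lit 156) (nat_lit 0) (nat_lit 0) (XT.nd (nat_lit 78) (nat_lit 0) (nat_lit 0) (XT.lf (nat_lit 0) (nat_lit 7106796066374) (nat_lit 76) (nat_lit 7141920966676) (nat_lit 76) (nat_lit 7078133336065) (nat_lit 1) (nat_lit 4) (nat_lit 2) (nat_lit 5) (nat_lit 2) (nat_lit 4) (nat_lit 416) (nat_lit 356) (nat_lit 248)) (XT.lf (nat_lit 0) (nat_lit 9662434179884) (nat_lit 76) (nat_lit 7434783691397) (nat_lit 76) (nat_lit 7370996058470) (nat_lit 1) (nat_lit 4) (nat_lit 2) (nat_lit 5) (nat_lit 2) (nat_lit 4) (nat_lit 417) (nat_lit 356) (nat_lit 247))) (XT.nd (nat_lit 78) (nat_lit 0) (nat_lit 0) (XT.lf (nat_lit 0) (nat_lit 12601417909298) (nat_lit 76) (nat_lit 7771575877019) (nat_lit 76) (nat_lit 7707788242078) (nat_lit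 1) (nat_lit 4) (nat_lit 2) (nat_lit 5) (nat_lit 2) (nat_lit 4) (nat_lit 418) (nat_lit 356) (nat_lit 246)) (XT.lf (nat_lit 0) (nat_lit 15981249110193) (nat_lit 76) (nat_lit 8158886935870) (nat_lit 76) (nat_lit 8095099299177) (nat_lit 1) (nat_lit 4) (nat_lit 2) (nat_lit 5) (nat_lit 2) (nat_lit 4) (nat_lit 419) (nat_lit 356) (nat_lit 245)))) (XT.nd (nat_lit 48282) (nat_lit 0) (nat_lit 5624) (XT.nd (nat_lit 48204) (nat_lit 0) (nat_lit 6080) (XT.lf (nat_lit 0) (nat_lit 19868054914760) (nat_lit 76) (nat_lit 8604294693014) (nat_lit 76) (nat_lit 8540507054798) (nat_lit 1) (nat_lit 4) (nat_lit 2) (nat_lit 5) (nat_lit 2) (nat_lit 4) (nat_lit 420) (nat_lit 356) (nat_lit 244)) (XT.lf (nat_lit 0) (nat_lit 21038379306) (nat_lit 532) (nat_lit 411725787) (nat_lit 532) (nat_lit 411725787) (nat_lit 81) (nat_lit 3) (nat_lit 88) (nat_lit 3) (nat_lit 88) (nat_lit 5) (nat_lit 357) (nat_lit 357) (nat_lit 306)))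 (XT.nd (nat_lit 78) (nat_lit 456) (nat_lit 0) (XT.lf (nat_lit 76) (nat_lit 41936449146) (nat_lit 0) (nat_lit 4362819880) (nat_lit 532) (nat_lit 618311532) (nat_lit 82) (nat_lit 5) (nat_lit 81) (nat_lit 3) (nat_lit 88) (nat_lit 5) (nat_lit 358) (nat_lit 357) (nat_lit 305)) (XT.nd (nat_lit 78) (nat_lit 0) (nat_lit 76) (XT.lf (nat_lit 0) (nat_lit 2565434778) (nat_lit 532) (nat_lit 8808745215) (nat_lit 608) (nat_lit 39052994875) (nat_lit 75) (nat_lit 5) (nat_lit 82) (nat_lit 5) (nat_lit 83) (nat_lit 5) (nat_lit 359) (nat_lit 357) (nat_lit 304)) (XT.lf (nat_lit 0) (nat_lit 8342514109) (nat_lit 532) (nat_lit 12149918202) (nat_lit 608) (nat_lit 33797302879) (nat_lit 76) (nat_lit 5) (nat_lit 83) (nat_lit 5) (nat_lit 84) (nat_lit 5) (nat_lit 360) (nat_lit 357) (nat_lit 303)))))) (XT.nd (nat_lit 312) (nat_lit 1140) (nat_lit 0) (XT.nd (nat_lit 156) (nat_lit 456) (nat_lit 0) (XT.nd (nat_lit 78) (nat_lit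 456) (nat_lit 0) (XT.lf (nat_lit 0) (nat_lit 17293704171) (nat_lit 532) (nat_lit 14821513226) (nat_lit 76) (nat_lit 26431860195) (nat_lit 77) (nat_lit 5) (nat_lit 84) (nat_lit 5) (nat_lit 78) (nat_lit 5) (nat_lit 361) (nat_lit 357) (nat_lit 302)) (XT.lf (nat_lit 0) (nat_lit 30061359656) (nat_lit 532) (nat_lit 16622522970) (nat_lit 76) (nat_lit 16561237462) (nat_lit 71) (nat_lit 5) (nat_lit 78) (nat_lit 5) (nat_lit 72) (nat_lit 5) (nat_lit 362) (nat_lit 357) (nat_lit 301))) (XT.nd (nat_lit 78) (nat_lit 228) (nat_lit 0) (XT.lf (nat_lit 0) (nat_lit 47394860910) (nat_lit 304) (nat_lit 17314098235) (nat_lit 76) (nat_lit 3726855485) (nat_lit 68) (nat_lit 5) (nat_lit 72) (nat_lit 5) (nat_lit 69) (nat_lit 5) (nat_lit 363) (nat_lit 357) (nat_lit 300)) (XT.lf (nat_lit 0) (nat_lit 57219675226) (nat_lit 228) (nat_lit 13266682790) (nat_lit 304) (nat_lit 3666118958) (nat_lit 65) (nat_lit 5) (nat_lit 68)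 (nat_lit 5) (nat_lit 69) (nat_lit 5) (nat_lit 364) (nat_lit 357) (nat_lit 299)))) (XT.nd (nat_lit 156) (nat_lit 684) (nat_lit 0) (XT.nd (nat_lit 78) (nat_lit 228) (nat_lit 0) (XT.lf (nat_lit 0) (nat_lit 18771255226) (nat_lit 228) (nat_lit 15500494112) (nat_lit 76) (nat_lit 46161704090) (nat_lit 62) (nat_lit 5) (nat_lit 65) (nat_lit 5) (nat_lit 63) (nat_lit 5) (nat_lit 365) (nat_lit 357) (nat_lit 298)) (XT.lf (nat_lit 0) (nat_lit 47745098358) (nat_lit 304) (nat_lit 12333531023) (nat_lit 76) (nat_lit 27299294915) (nat_lit 59) (nat_lit 5) (nat_lit 63) (nat_lit 5) (nat_lit 60) (nat_lit 5) (nat_lit 366) (nat_lit 357) (nat_lit 297))) (XT.nd (nat_lit 78) (nat_lit 532) (nat_lit 0) (XT.lf (nat_lit 0) (nat_lit 84680892174) (nat_lit 228) (nat_lit 6939582007) (nat_lit 76) (nat_lit 3454322452) (nat_lit 57) (nat_lit 5) (nat_lit 60) (nat_lit 5) (nat_lit 58) (nat_lit 5) (nat_lit 367) (nat_lit 357) (nat_lit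 296)) (XT.nd (nat_lit 78) (nat_lit 304) (nat_lit 0) (XT.lf (nat_lit 0) (nat_lit 26714882837) (nat_lit 228) (nat_lit 188243687) (nat_lit 76) (nat_lit 76606687387) (nat_lit 54) (nat_lit 5) (nat_lit 57) (nat_lit 5) (nat_lit 55) (nat_lit 5) (nat_lit 368) (nat_lit 357) (nat_lit 295)) (XT.lf (nat_lit 0) (nat_lit 9523611788) (nat_lit 152) (nat_lit 63897054370) (nat_lit 228) (nat_lit 39396131397) (nat_lit 50) (nat_lit 5) (nat_lit 52) (nat_lit 5) (nat_lit 53) (nat_lit 5) (nat_lit 369) (nat_lit 357) (nat_lit 294))))))) (XT.nd (nat_lit 702) (nat_lit 1140) (nat_lit 0) (XT.nd (nat_lit 312) (nat_lit 608) (nat_lit 0) (XT.nd (nat_lit 156) (nat_lit 304) (nat_lit 0) (XT.nd (nat_lit 78) (nat_lit 152) (nat_lit 0) (XT.lf (nat_lit 0) (nat_lit 8192719142) (nat_lit 152) (nat_lit 100548702210) (nat_lit 76) (nat_lit 14390582022) (nat_lit 48) (nat_lit 5) (nat_lit 50) (nat_lit 5) (nat_lit 49) (nat_lit 5) (nat_lit 370)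 (nat_lit 357) (nat_lit 293)) (XT.lf (nat_lit 0) (nat_lit 37792590647) (nat_lit 152) (nat_lit 28619171406) (nat_lit 228) (nat_lit 68034901868) (nat_lit 46) (nat_lit 5) (nat_lit 48) (nat_lit 5) (nat_lit 49) (nat_lit 5) (nat_lit 371) (nat_lit 357) (nat_lit 292))) (XT.nd (nat_lit 78) (nat_lit 228) (nat_lit 0) (XT.lf (nat_lit 0) (nat_lit 56991691444) (nat_lit 76) (nat_lit 82270680324) (nat_lit 152) (nat_lit 7724255286) (nat_lit 45) (nat_lit 5) (nat_lit 46) (nat_lit 5) (nat_lit 47) (nat_lit 4) (nat_lit 372) (nat_lit 357) (nat_lit 291)) (XT.lf (nat_lit 0) (nat_lit 64531091608) (nat_lit 228) (nat_lit 81217028502) (nat_lit 76) (nat_lit 15062384022) (nat_lit 42) (nat_lit 5) (nat_lit 45) (nat_lit 5) (nat_lit 43) (nat_lit 4) (nat_lit 373) (nat_lit 357) (nat_lit 290)))) (XT.nd (nat_lit 156) (nat_lit 380) (nat_lit 0) (XT.nd (nat_lit 78) (nat_lit 152) (nat_lit 0) (XT.lf (nat_lit 0) (nat_lit 106328866887)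 (nat_lit 76) (nat_lit 48369679203) (nat_lit 152) (nat_lit 21390873101) (nat_lit 41) (nat_lit 5) (nat_lit 42) (nat_lit 5) (nat_lit 43) (nat_lit 4) (nat_lit 374) (nat_lit 357) (nat_lit 289)) (XT.lf (nat_lit 0) (nat_lit 68973916339) (nat_lit 152) (nat_lit 56021480473) (nat_lit 76) (nat_lit 67941746556) (nat_lit 39) (nat_lit 5) (nat_lit 41) (nat_lit 5) (nat_lit 40) (nat_lit 4) (nat_lit 375) (nat_lit 357) (nat_lit 288))) (XT.nd (nat_lit 78) (nat_lit 304) (nat_lit 0) (XT.lf (nat_lit 0) (nat_lit 173353800645) (nat_lit 76) (nat_lit 5897504344) (nat_lit 152) (nat_lit 32406316043) (nat_lit 38) (nat_lit 5) (nat_lit 39) (nat_lit 5) (nat_lit 40) (nat_lit 4) (nat_lit 376) (nat_lit 357) (nat_lit 287)) (XT.nd (nat_lit 78) (nat_lit 152) (nat_lit 0) (XT.lf (nat_lit 0) (nat_lit 79492657248) (nat_lit 152) (nat_lit 19368588597) (nat_lit 76) (nat_lit 133364336614) (nat_lit 36) (nat_lit 5) (nat_lit 38) (nat_lit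 5) (nat_lit 37) (nat_lit 4) (nat_lit 377) (nat_lit 357) (nat_lit 286)) (XT.lf (nat_lit 0) (nat_lit 4030067761) (nat_lit 76) (nat_lit 211053597005) (nat_lit 76) (nat_lit 40021655346) (nat_lit 34) (nat_lit 4) (nat_lit 35) (nat_lit 5) (nat_lit 35) (nat_lit 4) (nat_lit 378) (nat_lit 357) (nat_lit 285)))))) (XT.nd (nat_lit 390) (nat_lit 532) (nat_lit 0) (XT.nd (nat_lit 156) (nat_lit 380) (nat_lit 0) (XT.nd (nat_lit 78) (nat_lit 76) (nat_lit 0) (XT.lf (nat_lit 0) (nat_lit 30126289146) (nat_lit 76) (nat_lit 66584856019) (nat_lit 152) (nat_lit 183605745059) (nat_lit 32) (nat_lit 5) (nat_lit 33) (nat_lit 5) (nat_lit 34) (nat_lit 4) (nat_lit 379) (nat_lit 357) (nat_lit 284)) (XT.lf (nat_lit 0) (nat_lit 59256658912) (nat_lit 76) (nat_lit 203712081173) (nat_lit 76) (nat_lit 45347525731) (nat_lit 31) (nat_lit 4) (nat_lit 32) (nat_lit 5) (nat_lit 32) (nat_lit 4) (nat_lit 380) (nat_lit 357) (nat_lit 283)))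 (XT.nd (nat_lit 78) (nat_lit 228) (nat_lit 0) (XT.lf (nat_lit 0) (nat_lit 90077627234) (nat_lit 76) (nat_lit 29366049978) (nat_lit 152) (nat_lit 219934852460) (nat_lit 29) (nat_lit 5) (nat_lit 30) (nat_lit 5) (nat_lit 31) (nat_lit 4) (nat_lit 381) (nat_lit 357) (nat_lit 282)) (XT.nd (nat_lit 78) (nat_lit 152) (nat_lit 0) (XT.lf (nat_lit 0) (nat_lit 121146515369) (nat_lit 76) (nat_lit 199665455202) (nat_lit 76) (nat_lit 53030454801) (nat_lit 28) (nat_lit 4) (nat_lit 29) (nat_lit 5) (nat_lit 29) (nat_lit 4) (nat_lit 382) (nat_lit 357) (nat_lit 281)) (XT.lf (nat_lit 0) (nat_lit 144100277188) (nat_lit 152) (nat_lit 259810509326) (nat_lit 0) (nat_lit 8326696969) (nat_lit 26) (nat_lit 5) (nat_lit 28) (nat_lit 4) (nat_lit 26) (nat_lit 4) (nat_lit 383) (nat_lit 357) (nat_lit 280))))) (XT.nd (nat_lit 156) (nat_lit 304) (nat_lit 0) (XT.nd (nat_lit 78) (nat_lit 152) (nat_lit 0) (XT.lf (nat_lit 0) (nat_lit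 179620042338) (nat_lit 76) (nat_lit 205518637992) (nat_lit 76) (nat_lit 69744682382) (nat_lit 25) (nat_lit 4) (nat_lit 26) (nat_lit 5) (nat_lit 26) (nat_lit 4) (nat_lit 384) (nat_lit 357) (nat_lit 279)) (XT.lf (nat_lit 0) (nat_lit 164109203768) (nat_lit 152) (nat_lit 300029738952) (nat_lit 0) (nat_lit 38392275956) (nat_lit 23) (nat_lit 5) (nat_lit 25) (nat_lit 4) (nat_lit 23) (nat_lit 4) (nat_lit 385) (nat_lit 357) (nat_lit 278))) (XT.nd (nat_lit 78) (nat_lit 228) (nat_lit 0) (XT.lf (nat_lit 0) (nat_lit 214838333718) (nat_lit 76) (nat_lit 233262519238) (nat_lit 76) (nat_lit 107545328602) (nat_lit 22) (nat_lit 4) (nat_lit 23) (nat_lit 5) (nat_lit 23) (nat_lit 4) (nat_lit 386) (nat_lit 357) (nat_lit 277)) (XT.nd (nat_lit 78) (nat_lit 76) (nat_lit 0) (XT.lf (nat_lit 0) (nat_lit 165454536299) (nat_lit 152) (nat_lit 400688923790) (nat_lit 0) (nat_lit 49049518541) (nat_lit 20) (nat_lit 5) (nat_lit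 22) (nat_lit 4) (nat_lit 20) (nat_lit 4) (nat_lit 387) (nat_lit 357) (nat_lit 276)) (XT.lf (nat_lit 0) (nat_lit 190728208114) (nat_lit 76) (nat_lit 303706721762) (nat_lit 76) (nat_lit 187301519992) (nat_lit 19) (nat_lit 4) (nat_lit 20) (nat_lit 5) (nat_lit 20) (nat_lit 4) (nat_lit 388) (nat_lit 357) (nat_lit 275))))))))
noncomputable def xc80 : XT := (XT.nd (nat_lit 1404) (nat_lit 228) (nat_lit 0) (XT.nd (nat_lit 702) (nat_lit 304) (nat_lit 0) (XT.nd (nat_lit 312) (nat_lit 456) (nat_lit 0) (XT.nd (nat_lit 156) (nat_lit 152) (nat_lit 0) (XT.nd (nat_lit 78) (nat_lit 76) (nat_lit 0) (XT.lf (nat_lit 0) (nat_lit 124576952664) (nat_lit 152) (nat_lit 615405673820) (nat_lit 0) (nat_lit 16794210275) (nat_lit 17) (nat_lit 5) (nat_lit 19) (nat_lit 4) (nat_lit 17) (nat_lit 4) (nat_lit 389) (nat_lit 357) (nat_lit 274)) (XT.lf (nat_lit 0) (nat_lit 44694261053) (nat_lit 76) (nat_lit 451908125722) (nat_lit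 76) (nat_lit 344125254501) (nat_lit 16) (nat_lit 4) (nat_lit 17) (nat_lit 5) (nat_lit 17) (nat_lit 4) (nat_lit 390) (nat_lit 357) (nat_lit 273))) (XT.nd (nat_lit 78) (nat_lit 76) (nat_lit 0) (XT.lf (nat_lit 0) (nat_lit 6184208997) (nat_lit 152) (nat_lit 94919828534) (nat_lit 76) (nat_lit 834721223308) (nat_lit 15) (nat_lit 5) (nat_lit 17) (nat_lit 5) (nat_lit 16) (nat_lit 4) (nat_lit 391) (nat_lit 357) (nat_lit 272)) (XT.lf (nat_lit 0) (nat_lit 414990261614) (nat_lit 152) (nat_lit 312184985434) (nat_lit 0) (nat_lit 315191112849) (nat_lit 14) (nat_lit 5) (nat_lit 16) (nat_lit 4) (nat_lit 14) (nat_lit 4) (nat_lit 392) (nat_lit 357) (nat_lit 271)))) (XT.nd (nat_lit 156) (nat_lit 228) (nat_lit 0) (XT.nd (nat_lit 78) (nat_lit 152) (nat_lit 0) (XT.lf (nat_lit 0) (nat_lit 544496650015) (nat_lit 76) (nat_lit 359346560949) (nat_lit 76) (nat_lit 259547333750) (nat_lit 13) (nat_lit 4) (nat_lit 14) (nat_lit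 5) (nat_lit 14) (nat_lit 4) (nat_lit 393) (nat_lit 357) (nat_lit 270)) (XT.lf (nat_lit 0) (nat_lit 172779257117) (nat_lit 152) (nat_lit 1047702090457) (nat_lit 0) (nat_lit 80372502114) (nat_lit 11) (nat_lit 5) (nat_lit 13) (nat_lit 4) (nat_lit 11) (nat_lit 4) (nat_lit 394) (nat_lit 357) (nat_lit 269))) (XT.nd (nat_lit 78) (nat_lit 228) (nat_lit 0) (XT.lf (nat_lit 0) (nat_lit 683448127883) (nat_lit 152) (nat_lit 181598974248) (nat_lit 0) (nat_lit 591041317965) (nat_lit 11) (nat_lit 5) (nat_lit 13) (nat_lit 4) (nat_lit 11) (nat_lit 4) (nat_lit 395) (nat_lit 357) (nat_lit 268)) (XT.nd (nat_lit 78) (nat_lit 152) (nat_lit 0) (XT.lf (nat_lit 0) (nat_lit 857304306025) (nat_lit 76) (nat_lit 434030658450) (nat_lit 76) (nat_lit 341623800780) (nat_lit 10) (nat_lit 4) (nat_lit 11) (nat_lit 5) (nat_lit 11) (nat_lit 4) (nat_lit 396) (nat_lit 357) (nat_lit 267)) (XT.lf (nat_lit 0) (nat_lit 159281544365)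 (nat_lit 152) (nat_lit 1602026746526) (nat_lit 0) (nat_lit 73719600667) (nat_lit 8) (nat_lit 5) (nat_lit 10) (nat_lit 4) (nat_lit 8) (nat_lit 4) (nat_lit 397) (nat_lit 357) (nat_lit 266)))))) (XT.nd (nat_lit 312) (nat_lit 76) (nat_lit 0) (XT.nd (nat_lit 156) (nat_lit 152) (nat_lit 0) (XT.nd (nat_lit 78) (nat_lit 76) (nat_lit 0) (XT.lf (nat_lit 0) (nat_lit 750842500965) (nat_lit 152) (nat_lit 647714674298) (nat_lit 0) (nat_lit 665280523834) (nat_lit 8) (nat_lit 5) (nat_lit 10) (nat_lit 4) (nat_lit 8) (nat_lit 4) (nat_lit 398) (nat_lit 357) (nat_lit 265)) (XT.lf (nat_lit 0) (nat_lit 473426023146) (nat_lit 76) (nat_lit 969097061086) (nat_lit 76) (nat_lit 883535054883) (nat_lit 7) (nat_lit 4) (nat_lit 8) (nat_lit 5) (nat_lit 8) (nat_lit 4) (nat_lit 399) (nat_lit 357) (nat_lit 264))) (XT.nd (nat_lit 78) (nat_lit 152) (nat_lit 0) (XT.lf (nat_lit 0) (nat_lit 1801960659328) (nat_lit 76) (nat_lit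 454852223532) (nat_lit 76) (nat_lit 369290192050) (nat_lit 7) (nat_lit 4) (nat_lit 8) (nat_lit 5) (nat_lit 8) (nat_lit 4) (nat_lit 400) (nat_lit 357) (nat_lit 263)) (XT.lf (nat_lit 0) (nat_lit 223579473748) (nat_lit 152) (nat_lit 2601784784087) (nat_lit 0) (nat_lit 144355350170) (nat_lit 5) (nat_lit 5) (nat_lit 7) (nat_lit 4) (nat_lit 5) (nat_lit 4) (nat_lit 401) (nat_lit 357) (nat_lit 262)))) (XT.nd (nat_lit 156) (nat_lit 76) (nat_lit 0) (XT.nd (nat_lit 78) (nat_lit 0) (nat_lit 0) (XT.lf (nat_lit 0) (nat_lit 921332193910) (nat_lit 152) (nat_lit 1597645521893) (nat_lit 0) (nat_lit 842108052632) (nat_lit 5) (nat_lit 5) (nat_lit 7) (nat_lit 4) (nat_lit 5) (nat_lit 4) (nat_lit 402) (nat_lit 357) (nat_lit 261)) (XT.lf (nat_lit 0) (nat_lit 1723747539707) (nat_lit 152) (nat_lit 442885952779) (nat_lit 0) (nat_lit 1644523383038) (nat_lit 5) (nat_lit 5) (nat_lit 7) (nat_lit 4) (nat_lit 5) (nat_lit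 4) (nat_lit 403) (nat_lit 357) (nat_lit 260))) (XT.nd (nat_lit 78) (nat_lit 0) (nat_lit 0) (XT.lf (nat_lit 0) (nat_lit 931694160555) (nat_lit 76) (nat_lit 1737238048230) (nat_lit 76) (nat_lit 1658013878178) (nat_lit 4) (nat_lit 4) (nat_lit 5) (nat_lit 5) (nat_lit 5) (nat_lit 4) (nat_lit 404) (nat_lit 357) (nat_lit 259)) (XT.nd (nat_lit 78) (nat_lit 0) (nat_lit 0) (XT.lf (nat_lit 0) (nat_lit 2539280655140) (nat_lit 76) (nat_lit 1229507846402) (nat_lit 76) (nat_lit 1150283664713) (nat_lit 4) (nat_lit 4) (nat_lit 5) (nat_lit 5) (nat_lit 5) (nat_lit 4) (nat_lit 405) (nat_lit 357) (nat_lit 258)) (XT.lf (nat_lit 0) (nat_lit 4388004720805) (nat_lit 76) (nat_lit 645618322037) (nat_lit 76) (nat_lit 566394130228) (nat_lit 4) (nat_lit 4) (nat_lit 5) (nat_lit 5) (nat_lit 5) (nat_lit 4) (nat_lit 406) (nat_lit 357) (nat_lit 257))))))) (XT.nd (nat_lit 702) (nat_lit 0) (nat_lit 0) (XT.nd (nat_lit 312) (nat_lit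 76) (nat_lit 0) (XT.nd (nat_lit 156) (nat_lit 0) (nat_lit 0) (XT.nd (nat_lit 78) (nat_lit 0) (nat_lit 0) (XT.lf (nat_lit 0) (nat_lit 103844851183) (nat_lit 152) (nat_lit 6248245999119) (nat_lit 0) (nat_lit 30489109879) (nat_lit 2) (nat_lit 5) (nat_lit 4) (nat_lit 4) (nat_lit 2) (nat_lit 4) (nat_lit 407) (nat_lit 357) (nat_lit 256)) (XT.lf (nat_lit 0) (nat_lit 896095364642) (nat_lit 152) (nat_lit 5558114258567) (nat_lit 0) (nat_lit 822739616252) (nat_lit 2) (nat_lit 5) (nat_lit 4) (nat_lit 4) (nat_lit 2) (nat_lit 4) (nat_lit 408) (nat_lit 357) (nat_lit 255))) (XT.nd (nat_lit 78) (nat_lit 0) (nat_lit 0) (XT.lf (nat_lit 0) (nat_lit 1807183312886) (nat_lit 152) (nat_lit 4764463050790) (nat_lit 0) (nat_lit 1733827558336) (nat_lit 2) (nat_lit 5) (nat_lit 4) (nat_lit 4) (nat_lit 2) (nat_lit 4) (nat_lit 409) (nat_lit 357) (nat_lit 254)) (XT.lf (nat_lit 0) (nat_lit 2854934329687) (nat_lit 152) (nat_lit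 3851764417376) (nat_lit 0) (nat_lit 2781578569779) (nat_lit 2) (nat_lit 5) (nat_lit 4) (nat_lit 4) (nat_lit 2) (nat_lit 4) (nat_lit 410) (nat_lit 357) (nat_lit 253)))) (XT.nd (nat_lit 156) (nat_lit 76) (nat_lit 0) (XT.nd (nat_lit 78) (nat_lit 0) (nat_lit 0) (XT.lf (nat_lit 0) (nat_lit 4059847891459) (nat_lit 152) (nat_lit 2802161211149) (nat_lit 0) (nat_lit 3986492126892) (nat_lit 2) (nat_lit 5) (nat_lit 4) (nat_lit 4) (nat_lit 2) (nat_lit 4) (nat_lit 411) (nat_lit 357) (nat_lit 252)) (XT.lf (nat_lit 0) (nat_lit 5445498393976) (nat_lit 152) (nat_lit 1595117717203) (nat_lit 0) (nat_lit 5372142625359) (nat_lit 2) (nat_lit 5) (nat_lit 4) (nat_lit 4) (nat_lit 2) (nat_lit 4) (nat_lit 412) (nat_lit 357) (nat_lit 251))) (XT.nd (nat_lit 78) (nat_lit 76) (nat_lit 0) (XT.lf (nat_lit 0) (nat_lit 7038996390549) (nat_lit 152) (nat_lit 207017867180) (nat_lit 0) (nat_lit 6965640618410) (nat_lit 2) (nat_lit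 5) (nat_lit 4) (nat_lit 4) (nat_lit 2) (nat_lit 4) (nat_lit 413) (nat_lit 357) (nat_lit 250)) (XT.nd (nat_lit 78) (nat_lit 0) (nat_lit 0) (XT.lf (nat_lit 0) (nat_lit 1462454722439) (nat_lit 76) (nat_lit 7444236364701) (nat_lit 76) (nat_lit 7370880589498) (nat_lit 1) (nat_lit 4) (nat_lit 2) (nat_lit 5) (nat_lit 2) (nat_lit 4) (nat_lit 414) (nat_lit 357) (nat_lit 249)) (XT.lf (nat_lit 0) (nat_lit 3394884439891) (nat_lit 76) (nat_lit 7665682586083) (nat_lit 76) (nat_lit 7592326808217) (nat_lit 1) (nat_lit 4) (nat_lit 2) (nat_lit 5) (nat_lit 2) (nat_lit 4) (nat_lit 415) (nat_lit 357) (nat_lit 248)))))) (XT.nd (nat_lit 48594) (nat_lit 0) (nat_lit 5624) (XT.nd (nat_lit 156) (nat_lit 0) (nat_lit 0) (XT.nd (nat_lit 78) (nat_lit 0) (nat_lit 0) (XT.lf (nat_lit 0) (nat_lit 5617178498671) (nat_lit 76) (nat_lit 7920345800695) (nat_lit 76) (nat_lit 7846990020513) (nat_lit 1) (nat_lit 4) (nat_lit 2) (nat_lit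 5) (nat_lit 2) (nat_lit 4) (nat_lit 416) (nat_lit 357) (nat_lit 247)) (XT.lf (nat_lit 0) (nat_lit 8172816565147) (nat_lit 76) (nat_lit 8213208549692) (nat_lit 76) (nat_lit 8139852767495) (nat_lit 1) (nat_lit 4) (nat_lit 2) (nat_lit 5) (nat_lit 2) (nat_lit 4) (nat_lit 417) (nat_lit 357) (nat_lit 246))) (XT.nd (nat_lit 78) (nat_lit 0) (nat_lit 0) (XT.lf (nat_lit 0) (nat_lit 11111800253663) (nat_lit 76) (nat_lit 8550000756424) (nat_lit 76) (nat_lit 8476644972476) (nat_lit 1) (nat_lit 4) (nat_lit 2) (nat_lit 5) (nat_lit 2) (nat_lit 4) (nat_lit 418) (nat_lit 357) (nat_lit 245)) (XT.lf (nat_lit 0) (nat_lit 14491631418995) (nat_lit 76) (nat_lit 8937311833630) (nat_lit 76) (nat_lit 8863956048160) (nat_lit 1) (nat_lit 4) (nat_lit 2) (nat_lit 5) (nat_lit 2) (nat_lit 4) (nat_lit 419) (nat_lit 357) (nat_lit 244)))) (XT.nd (nat_lit 156) (nat_lit 456) (nat_lit 0) (XT.nd (nat_lit 78) (nat_lit 0) (nat_lit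 0) (XT.lf (nat_lit 0) (nat_lit 24249907962) (nat_lit 532) (nat_lit 443360449) (nat_lit 532) (nat_lit 443360449) (nat_lit 81) (nat_lit 3) (nat_lit 88) (nat_lit 3) (nat_lit 88) (nat_lit 5) (nat_lit 358) (nat_lit 358) (nat_lit 304)) (XT.lf (nat_lit 76) (nat_lit 48282065203) (nat_lit 0) (nat_lit 5060414869) (nat_lit 532) (nat_lit 604845981) (nat_lit 82) (nat_lit 5) (nat_lit 81) (nat_lit 3) (nat_lit 88) (nat_lit 5) (nat_lit 359) (nat_lit 358) (nat_lit 303))) (XT.nd (nat_lit 78) (nat_lit 0) (nat_lit 76) (XT.lf (nat_lit 0) (nat_lit 3038509329) (nat_lit 532) (nat_lit 10066733905) (nat_lit 608) (nat_lit 44878926236) (nat_lit 75) (nat_lit 5) (nat_lit 82) (nat_lit 5) (nat_lit 83) (nat_lit 5) (nat_lit 360) (nat_lit 358) (nat_lit 302)) (XT.nd (nat_lit 78) (nat_lit 0) (nat_lit 76) (XT.lf (nat_lit 0) (nat_lit 9671547201) (nat_lit 532) (nat_lit 13907688081) (nat_lit 608) (nat_lit 38847729550) (nat_lit 76)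 (nat_lit 5) (nat_lit 83) (nat_lit 5) (nat_lit 84) (nat_lit 5) (nat_lit 361) (nat_lit 358) (nat_lit 301)) (XT.lf (nat_lit 0) (nat_lit 19956477882) (nat_lit 532) (nat_lit 16979734911) (nat_lit 76) (nat_lit 30387413203) (nat_lit 77) (nat_lit 5) (nat_lit 84) (nat_lit 5) (nat_lit 78) (nat_lit 5) (nat_lit 362) (nat_lit 358) (nat_lit 300))))))))
noncomputable def xc81 : XT := (XT.nd (nat_lit 1404) (nat_lit 1824) (nat_lit 0) (XT.nd (nat_lit 702) (nat_lit 1216) (nat_lit 0) (XT.nd (nat_lit 312) (nat_lit 1064) (nat_lit 0) (XT.nd (nat_lit 156) (nat_lit 456) (nat_lit 0) (XT.nd (nat_lit 78) (nat_lit 228) (nat_lit 0) (XT.lf (nat_lit 0) (nat_lit 34631709032) (nat_lit 532) (nat_lit 19051449414) (nat_lit 76) (nat_lit 19043824292) (nat_lit 71) (nat_lit 5) (nat_lit 78) (nat_lit 5) (nat_lit 72) (nat_lit 5) (nat_lit 363) (nat_lit 358) (nat_lit 299)) (XT.lf (nat_lit 0) (nat_lit 54558784853) (nat_lit 304) (nat_lit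 19847943471) (nat_lit 76) (nat_lit 4290070977) (nat_lit 68) (nat_lit 5) (nat_lit 72) (nat_lit 5) (nat_lit 69) (nat_lit 5) (nat_lit 364) (nat_lit 358) (nat_lit 298))) (XT.nd (nat_lit 78) (nat_lit 228) (nat_lit 0) (XT.lf (nat_lit 0) (nat_lit 65860540561) (nat_lit 228) (nat_lit 15247724694) (nat_lit 304) (nat_lit 4163156601) (nat_lit 65) (nat_lit 5) (nat_lit 68) (nat_lit 5) (nat_lit 69) (nat_lit 5) (nat_lit 365) (nat_lit 358) (nat_lit 297)) (XT.lf (nat_lit 0) (nat_lit 21632210182) (nat_lit 228) (nat_lit 17766767259) (nat_lit 76) (nat_lit 53095864310) (nat_lit 62) (nat_lit 5) (nat_lit 65) (nat_lit 5) (nat_lit 63) (nat_lit 5) (nat_lit 366) (nat_lit 358) (nat_lit 296)))) (XT.nd (nat_lit 156) (nat_lit 684) (nat_lit 0) (XT.nd (nat_lit 78) (nat_lit 152) (nat_lit 0) (XT.lf (nat_lit 0) (nat_lit 54947836564) (nat_lit 304) (nat_lit 14126793771) (nat_lit 76) (nat_lit 31406697462) (nat_lit 59) (nat_lit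 5) (nat_lit 63) (nat_lit 5) (nat_lit 60) (nat_lit 5) (nat_lit 367) (nat_lit 358) (nat_lit 295)) (XT.lf (nat_lit 0) (nat_lit 97420267522) (nat_lit 228) (nat_lit 7925963565) (nat_lit 76) (nat_lit 3986799399) (nat_lit 57) (nat_lit 5) (nat_lit 60) (nat_lit 5) (nat_lit 58) (nat_lit 5) (nat_lit 368) (nat_lit 358) (nat_lit 294))) (XT.nd (nat_lit 78) (nat_lit 456) (nat_lit 0) (XT.lf (nat_lit 0) (nat_lit 30756577758) (nat_lit 228) (nat_lit 164722546) (nat_lit 76) (nat_lit 88112223605) (nat_lit 54) (nat_lit 5) (nat_lit 57) (nat_lit 5) (nat_lit 55) (nat_lit 5) (nat_lit 369) (nat_lit 358) (nat_lit 293)) (XT.nd (nat_lit 78) (nat_lit 152) (nat_lit 0) (XT.lf (nat_lit 0) (nat_lit 11004237340) (nat_lit 152) (nat_lit 73462279447) (nat_lit 228) (nat_lit 45270175920) (nat_lit 50) (nat_lit 5) (nat_lit 52) (nat_lit 5) (nat_lit 53) (nat_lit 5) (nat_lit 370) (nat_lit 358) (nat_lit 292)) (XT.lf (nat_lit 0) (nat_lit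 9452489214) (nat_lit 152) (nat_lit 115579726951) (nat_lit 76) (nat_lit 16567115175) (nat_lit 48) (nat_lit 5) (nat_lit 50) (nat_lit 5) (nat_lit 49) (nat_lit 5) (nat_lit 371) (nat_lit 358) (nat_lit 291)))))) (XT.nd (nat_lit 312) (nat_lit 684) (nat_lit 0) (XT.nd (nat_lit 156) (nat_lit 304) (nat_lit 0) (XT.nd (nat_lit 78) (nat_lit 76) (nat_lit 0) (XT.lf (nat_lit 0) (nat_lit 43508419188) (nat_lit 152) (nat_lit 32893072777) (nat_lit 228) (nat_lit 78209931199) (nat_lit 46) (nat_lit 5) (nat_lit 48) (nat_lit 5) (nat_lit 49) (nat_lit 5) (nat_lit 372) (nat_lit 358) (nat_lit 290)) (XT.lf (nat_lit 0) (nat_lit 65585044877) (nat_lit 76) (nat_lit 94592470007) (nat_lit 152) (nat_lit 8855040545) (nat_lit 45) (nat_lit 5) (nat_lit 46) (nat_lit 5) (nat_lit 47) (nat_lit 4) (nat_lit 373) (nat_lit 358) (nat_lit 289))) (XT.nd (nat_lit 78) (nat_lit 76) (nat_lit 0) (XT.lf (nat_lit 0) (nat_lit 74235211209) (nat_lit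 228) (nat_lit 93355991542) (nat_lit 76) (nat_lit 17338918364) (nat_lit 42) (nat_lit 5) (nat_lit 45) (nat_lit 5) (nat_lit 43) (nat_lit 4) (nat_lit 374) (nat_lit 358) (nat_lit 288)) (XT.lf (nat_lit 0) (nat_lit 122318098375) (nat_lit 76) (nat_lit 55607455225) (nat_lit 152) (nat_lit 24575498537) (nat_lit 41) (nat_lit 5) (nat_lit 42) (nat_lit 5) (nat_lit 43) (nat_lit 4) (nat_lit 375) (nat_lit 358) (nat_lit 287)))) (XT.nd (nat_lit 156) (nat_lit 456) (nat_lit 0) (XT.nd (nat_lit 78) (nat_lit 76) (nat_lit 0) (XT.lf (nat_lit 0) (nat_lit 79341145019) (nat_lit 152) (nat_lit 64385823622) (nat_lit 76) (nat_lit 78149053416) (nat_lit 39) (nat_lit 5) (nat_lit 41) (nat_lit 5) (nat_lit 40) (nat_lit 4) (nat_lit 376) (nat_lit 358) (nat_lit 286)) (XT.lf (nat_lit 0) (nat_lit 199392458757) (nat_lit 76) (nat_lit 6765781551) (nat_lit 152) (nat_lit 37246483393) (nat_lit 38) (nat_lit 5) (nat_lit 39) (nat_lit 5) (nat_lit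 40) (nat_lit 4) (nat_lit 377) (nat_lit 358) (nat_lit 285))) (XT.nd (nat_lit 78) (nat_lit 304) (nat_lit 0) (XT.lf (nat_lit 0) (nat_lit 91434902020) (nat_lit 152) (nat_lit 22239283886) (nat_lit 76) (nat_lit 153383765164) (nat_lit 36) (nat_lit 5) (nat_lit 38) (nat_lit 5) (nat_lit 37) (nat_lit 4) (nat_lit 378) (nat_lit 358) (nat_lit 284)) (XT.nd (nat_lit 78) (nat_lit 152) (nat_lit 0) (XT.lf (nat_lit 0) (nat_lit 4668940299) (nat_lit 76) (nat_lit 242695174893) (nat_lit 76) (nat_lit 46005569955) (nat_lit 34) (nat_lit 4) (nat_lit 35) (nat_lit 5) (nat_lit 35) (nat_lit 4) (nat_lit 379) (nat_lit 358) (nat_lit 283)) (XT.lf (nat_lit 0) (nat_lit 34677572357) (nat_lit 76) (nat_lit 76556993265) (nat_lit 152) (nat_lit 211128517498) (nat_lit 32) (nat_lit 5) (nat_lit 33) (nat_lit 5) (nat_lit 34) (nat_lit 4) (nat_lit 380) (nat_lit 358) (nat_lit 282))))))) (XT.nd (nat_lit 702) (nat_lit 836) (nat_lit 0) (XT.nd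 (nat_lit 312) (nat_lit 532) (nat_lit 0) (XT.nd (nat_lit 156) (nat_lit 228) (nat_lit 0) (XT.nd (nat_lit 78) (nat_lit 152) (nat_lit 0) (XT.lf (nat_lit 0) (nat_lit 68175644113) (nat_lit 76) (nat_lit 234254030312) (nat_lit 76) (nat_lit 52132780750) (nat_lit 31) (nat_lit 4) (nat_lit 32) (nat_lit 5) (nat_lit 32) (nat_lit 4) (nat_lit 381) (nat_lit 358) (nat_lit 281)) (XT.lf (nat_lit 0) (nat_lit 103617950362) (nat_lit 76) (nat_lit 33756907070) (nat_lit 152) (nat_lit 252909280878) (nat_lit 29) (nat_lit 5) (nat_lit 30) (nat_lit 5) (nat_lit 31) (nat_lit 4) (nat_lit 382) (nat_lit 358) (nat_lit 280))) (XT.nd (nat_lit 78) (nat_lit 152) (nat_lit 0) (XT.lf (nat_lit 0) (nat_lit 139345506578) (nat_lit 76) (nat_lit 229601923656) (nat_lit 76) (nat_lit 60970265365) (nat_lit 28) (nat_lit 4) (nat_lit 29) (nat_lit 5) (nat_lit 29) (nat_lit 4) (nat_lit 383) (nat_lit 358) (nat_lit 279)) (XT.lf (nat_lit 0) (nat_lit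 165728423590) (nat_lit 152) (nat_lit 298755960846) (nat_lit 0) (nat_lit 9587672819) (nat_lit 26) (nat_lit 5) (nat_lit 28) (nat_lit 4) (nat_lit 26) (nat_lit 4) (nat_lit 384) (nat_lit 358) (nat_lit 278)))) (XT.nd (nat_lit 156) (nat_lit 304) (nat_lit 0) (XT.nd (nat_lit 78) (nat_lit 152) (nat_lit 0) (XT.lf (nat_lit 0) (nat_lit 206586962227) (nat_lit 76) (nat_lit 236334490773) (nat_lit 76) (nat_lit 80193456153) (nat_lit 25) (nat_lit 4) (nat_lit 26) (nat_lit 5) (nat_lit 26) (nat_lit 4) (nat_lit 385) (nat_lit 358) (nat_lit 277)) (XT.lf (nat_lit 0) (nat_lit 188737075714) (nat_lit 152) (nat_lit 345011091082) (nat_lit 0) (nat_lit 44161815116) (nat_lit 23) (nat_lit 5) (nat_lit 25) (nat_lit 4) (nat_lit 23) (nat_lit 4) (nat_lit 386) (nat_lit 358) (nat_lit 276))) (XT.nd (nat_lit 78) (nat_lit 228) (nat_lit 0) (XT.lf (nat_lit 0) (nat_lit 247085236450) (nat_lit 76) (nat_lit 268241245676) (nat_lit 76) (nat_lit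 123665786345) (nat_lit 22) (nat_lit 4) (nat_lit 23) (nat_lit 5) (nat_lit 23) (nat_lit 4) (nat_lit 387) (nat_lit 358) (nat_lit 275)) (XT.nd (nat_lit 78) (nat_lit 76) (nat_lit 0) (XT.lf (nat_lit 0) (nat_lit 190282805101) (nat_lit 152) (nat_lit 460771834032) (nat_lit 0) (nat_lit 56416479044) (nat_lit 20) (nat_lit 5) (nat_lit 22) (nat_lit 4) (nat_lit 20) (nat_lit 4) (nat_lit 388) (nat_lit 358) (nat_lit 274)) (XT.lf (nat_lit 0) (nat_lit 219356138503) (nat_lit 76) (nat_lit 349253253055) (nat_lit 76) (nat_lit 215386787859) (nat_lit 19) (nat_lit 4) (nat_lit 20) (nat_lit 5) (nat_lit 20) (nat_lit 4) (nat_lit 389) (nat_lit 358) (nat_lit 273)))))) (XT.nd (nat_lit 390) (nat_lit 380) (nat_lit 0) (XT.nd (nat_lit 156) (nat_lit 228) (nat_lit 0) (XT.nd (nat_lit 78) (nat_lit 76) (nat_lit 0) (XT.lf (nat_lit 0) (nat_lit 143272360491) (nat_lit 152) (nat_lit 707698474736) (nat_lit 0) (nat_lit 19321817725) (nat_lit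 17) (nat_lit 5) (nat_lit 19) (nat_lit 4) (nat_lit 17) (nat_lit 4) (nat_lit 390) (nat_lit 358) (nat_lit 272)) (XT.lf (nat_lit 0) (nat_lit 51414922512) (nat_lit 76) (nat_lit 519685928275) (nat_lit 76) (nat_lit 395735288093) (nat_lit 16) (nat_lit 4) (nat_lit 17) (nat_lit 5) (nat_lit 17) (nat_lit 4) (nat_lit 391) (nat_lit 358) (nat_lit 271))) (XT.nd (nat_lit 78) (nat_lit 152) (nat_lit 0) (XT.lf (nat_lit 0) (nat_lit 7119072210) (nat_lit 152) (nat_lit 109143054692) (nat_lit 76) (nat_lit 959936344427) (nat_lit 15) (nat_lit 5) (nat_lit 17) (nat_lit 5) (nat_lit 16) (nat_lit 4) (nat_lit 392) (nat_lit 358) (nat_lit 270)) (XT.nd (nat_lit 78) (nat_lit 76) (nat_lit 0) (XT.lf (nat_lit 0) (nat_lit 477245579724) (nat_lit 152) (nat_lit 358998869966) (nat_lit 0) (nat_lit 362476321806) (nat_lit 14) (nat_lit 5) (nat_lit 16) (nat_lit 4) (nat_lit 14) (nat_lit 4) (nat_lit 393) (nat_lit 358) (nat_lit 269)) (XT.lf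 (nat_lit 0) (nat_lit 626183837342) (nat_lit 76) (nat_lit 413242055125) (nat_lit 76) (nat_lit 298472737899) (nat_lit 13) (nat_lit 4) (nat_lit 14) (nat_lit 5) (nat_lit 14) (nat_lit 4) (nat_lit 394) (nat_lit 358) (nat_lit 268))))) (XT.nd (nat_lit 156) (nat_lit 228) (nat_lit 0) (XT.nd (nat_lit 78) (nat_lit 0) (nat_lit 0) (XT.lf (nat_lit 0) (nat_lit 198702110494) (nat_lit 152) (nat_lit 1204845162987) (nat_lit 0) (nat_lit 92434176422) (nat_lit 11) (nat_lit 5) (nat_lit 13) (nat_lit 4) (nat_lit 11) (nat_lit 4) (nat_lit 395) (nat_lit 358) (nat_lit 267)) (XT.lf (nat_lit 0) (nat_lit 785970533857) (nat_lit 152) (nat_lit 208828176004) (nat_lit 0) (nat_lit 679702558261) (nat_lit 11) (nat_lit 5) (nat_lit 13) (nat_lit 4) (nat_lit 11) (nat_lit 4) (nat_lit 396) (nat_lit 358) (nat_lit 266))) (XT.nd (nat_lit 78) (nat_lit 152) (nat_lit 0) (XT.lf (nat_lit 0) (nat_lit 985909695316) (nat_lit 76) (nat_lit 499130258412)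 (nat_lit 76) (nat_lit 392862246709) (nat_lit 10) (nat_lit 4) (nat_lit 11) (nat_lit 5) (nat_lit 11) (nat_lit 4) (nat_lit 397) (nat_lit 358) (nat_lit 265)) (XT.nd (nat_lit 78) (nat_lit 0) (nat_lit 0) (XT.lf (nat_lit 0) (nat_lit 183178342117) (nat_lit 152) (nat_lit 1842321361942) (nat_lit 0) (nat_lit 84782005912) (nat_lit 8) (nat_lit 5) (nat_lit 10) (nat_lit 4) (nat_lit 8) (nat_lit 4) (nat_lit 398) (nat_lit 358) (nat_lit 264)) (XT.lf (nat_lit 0) (nat_lit 863472846629) (nat_lit 152) (nat_lit 744863704518) (nat_lit 0) (nat_lit 765076485145) (nat_lit 8) (nat_lit 5) (nat_lit 10) (nat_lit 4) (nat_lit 8) (nat_lit 4) (nat_lit 399) (nat_lit 358) (nat_lit 263))))))))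
noncomputable def xc82 : XT := (XT.nd (nat_lit 1404) (nat_lit 0) (nat_lit 0) (XT.nd (nat_lit 702) (nat_lit 76) (nat_lit 0) (XT.nd (nat_lit 312) (nat_lit 228) (nat_lit 0) (XT.nd (nat_lit 156) (nat_lit 152) (nat_lit 0) (XT.nd (nat_lit 78) (nat_lit 0) (nat_lit 0) (XT.lf (nat_lit 0) (nat_lit 544447405914) (nat_lit 76) (nat_lit 1114457773455) (nat_lit 76) (nat_lit 1016061389988) (nat_lit 7) (nat_lit 4) (nat_lit 8) (nat_lit 5) (nat_lit 8) (nat_lit 4) (nat_lit 400) (nat_lit 358) (nat_lit 262)) (XT.lf (nat_lit 0) (nat_lit 2072261261963) (nat_lit 76) (nat_lit 523076712024) (nat_lit 76) (nat_lit 424680309442) (nat_lit 7) (nat_lit 4) (nat_lit 8) (nat_lit 5) (nat_lit 8) (nat_lit 4) (nat_lit 401) (nat_lit 358) (nat_lit 261))) (XT.nd (nat_lit 78) (nat_lit 0) (nat_lit 0) (XT.lf (nat_lit 0) (nat_lit 257119435422) (nat_lit 152) (nat_lit 2992046230655) (nat_lit 0) (nat_lit 166011639862) (nat_lit 5) (nat_lit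 5) (nat_lit 7) (nat_lit 4) (nat_lit 5) (nat_lit 4) (nat_lit 402) (nat_lit 358) (nat_lit 260)) (XT.lf (nat_lit 0) (nat_lit 1059534667007) (nat_lit 152) (nat_lit 1837286897095) (nat_lit 0) (nat_lit 968426858064) (nat_lit 5) (nat_lit 5) (nat_lit 7) (nat_lit 4) (nat_lit 5) (nat_lit 4) (nat_lit 403) (nat_lit 358) (nat_lit 259)))) (XT.nd (nat_lit 156) (nat_lit 152) (nat_lit 0) (XT.nd (nat_lit 78) (nat_lit 76) (nat_lit 0) (XT.lf (nat_lit 0) (nat_lit 1982311969802) (nat_lit 152) (nat_lit 509314103885) (nat_lit 0) (nat_lit 1891204149222) (nat_lit 5) (nat_lit 5) (nat_lit 7) (nat_lit 4) (nat_lit 5) (nat_lit 4) (nat_lit 404) (nat_lit 358) (nat_lit 258)) (XT.lf (nat_lit 0) (nat_lit 1071452625079) (nat_lit 76) (nat_lit 1997821518664) (nat_lit 76) (nat_lit 1906713687964) (nat_lit 4) (nat_lit 4) (nat_lit 5) (nat_lit 5) (nat_lit 5) (nat_lit 4) (nat_lit 405) (nat_lit 358) (nat_lit 257))) (XT.nd (nat_lit 78)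 (nat_lit 152) (nat_lit 0) (XT.lf (nat_lit 0) (nat_lit 2920176527707) (nat_lit 76) (nat_lit 1413932078318) (nat_lit 76) (nat_lit 1322824238818) (nat_lit 4) (nat_lit 4) (nat_lit 5) (nat_lit 5) (nat_lit 5) (nat_lit 4) (nat_lit 406) (nat_lit 358) (nat_lit 256)) (XT.nd (nat_lit 78) (nat_lit 152) (nat_lit 0) (XT.lf (nat_lit 0) (nat_lit 5046208710922) (nat_lit 76) (nat_lit 742459379000) (nat_lit 76) (nat_lit 651351531849) (nat_lit 4) (nat_lit 4) (nat_lit 5) (nat_lit 5) (nat_lit 5) (nat_lit 4) (nat_lit 407) (nat_lit 358) (nat_lit 255)) (XT.lf (nat_lit 0) (nat_lit 119423110344) (nat_lit 152) (nat_lit 7185479734888) (nat_lit 0) (nat_lit 35063986450) (nat_lit 2) (nat_lit 5) (nat_lit 4) (nat_lit 4) (nat_lit 2) (nat_lit 4) (nat_lit 408) (nat_lit 358) (nat_lit 254)))))) (XT.nd (nat_lit 312) (nat_lit 76) (nat_lit 0) (XT.nd (nat_lit 156) (nat_lit 0) (nat_lit 0) (XT.nd (nat_lit 78) (nat_lit 0) (nat_lit 0)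 (XT.lf (nat_lit 0) (nat_lit 1030511001063) (nat_lit 152) (nat_lit 6391828645962) (nat_lit 0) (nat_lit 946151871811) (nat_lit 2) (nat_lit 5) (nat_lit 4) (nat_lit 4) (nat_lit 2) (nat_lit 4) (nat_lit 409) (nat_lit 358) (nat_lit 253)) (XT.lf (nat_lit 0) (nat_lit 2078261967841) (nat_lit 152) (nat_lit 5479130115896) (nat_lit 0) (nat_lit 1993902833931) (nat_lit 2) (nat_lit 5) (nat_lit 4) (nat_lit 4) (nat_lit 2) (nat_lit 4) (nat_lit 410) (nat_lit 358) (nat_lit 252))) (XT.nd (nat_lit 78) (nat_lit 0) (nat_lit 0) (XT.lf (nat_lit 0) (nat_lit 3283175486115) (nat_lit 152) (nat_lit 4429526999536) (nat_lit 0) (nat_lit 3198816348154) (nat_lit 2) (nat_lit 5) (nat_lit 4) (nat_lit 4) (nat_lit 2) (nat_lit 4) (nat_lit 411) (nat_lit 358) (nat_lit 251)) (XT.lf (nat_lit 0) (nat_lit 4668825950808) (nat_lit 152) (nat_lit 3222483583737) (nat_lit 0) (nat_lit 4584466809325) (nat_lit 2) (nat_lit 5) (nat_lit 4) (nat_lit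 4) (nat_lit 2) (nat_lit 4) (nat_lit 412) (nat_lit 358) (nat_lit 250)))) (XT.nd (nat_lit 156) (nat_lit 76) (nat_lit 0) (XT.nd (nat_lit 78) (nat_lit 0) (nat_lit 0) (XT.lf (nat_lit 0) (nat_lit 6262323914491) (nat_lit 152) (nat_lit 1834383801667) (nat_lit 0) (nat_lit 6177964769944) (nat_lit 2) (nat_lit 5) (nat_lit 4) (nat_lit 4) (nat_lit 2) (nat_lit 4) (nat_lit 413) (nat_lit 358) (nat_lit 249)) (XT.lf (nat_lit 0) (nat_lit 8094846511235) (nat_lit 152) (nat_lit 238069179330) (nat_lit 0) (nat_lit 8010487364024) (nat_lit 2) (nat_lit 5) (nat_lit 4) (nat_lit 4) (nat_lit 2) (nat_lit 4) (nat_lit 414) (nat_lit 358) (nat_lit 248))) (XT.nd (nat_lit 78) (nat_lit 0) (nat_lit 0) (XT.lf (nat_lit 0) (nat_lit 1681824182944) (nat_lit 76) (nat_lit 8560871173123) (nat_lit 76) (nat_lit 8476512023596) (nat_lit 1) (nat_lit 4) (nat_lit 2) (nat_lit 5) (nat_lit 2) (nat_lit 4) (nat_lit 415) (nat_lit 358) (nat_lit 247))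 (XT.nd (nat_lit 78) (nat_lit 0) (nat_lit 0) (XT.lf (nat_lit 0) (nat_lit 3904118194691) (nat_lit 76) (nat_lit 8815534412010) (nat_lit 76) (nat_lit 8731175260470) (nat_lit 1) (nat_lit 4) (nat_lit 2) (nat_lit 5) (nat_lit 2) (nat_lit 4) (nat_lit 416) (nat_lit 358) (nat_lit 246)) (XT.lf (nat_lit 0) (nat_lit 6459756220269) (nat_lit 76) (nat_lit 9108397182116) (nat_lit 76) (nat_lit 9024038028825) (nat_lit 1) (nat_lit 4) (nat_lit 2) (nat_lit 5) (nat_lit 2) (nat_lit 4) (nat_lit 417) (nat_lit 358) (nat_lit 245))))))) (XT.nd (nat_lit 49062) (nat_lit 0) (nat_lit 3116) (XT.nd (nat_lit 48672) (nat_lit 0) (nat_lit 5092) (XT.nd (nat_lit 48516) (nat_lit 0) (nat_lit 6080) (XT.nd (nat_lit 78) (nat_lit 0) (nat_lit 0) (XT.lf (nat_lit 0) (nat_lit 9398739873221) (nat_lit 76) (nat_lit 9445189407204) (nat_lit 76) (nat_lit 9360830252390) (nat_lit 1) (nat_lit 4) (nat_lit 2) (nat_lit 5) (nat_lit 2) (nat_lit 4) (nat_lit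 418) (nat_lit 358) (nat_lit 244)) (XT.lf (nat_lit 0) (nat_lit 12778571007627) (nat_lit 76) (nat_lit 9832500500373) (nat_lit 76) (nat_lit 9748141344234) (nat_lit 1) (nat_lit 4) (nat_lit 2) (nat_lit 5) (nat_lit 2) (nat_lit 4) (nat_lit 419) (nat_lit 358) (nat_lit 243))) (XT.nd (nat_lit 78) (nat_lit 0) (nat_lit 0) (XT.lf (nat_lit 0) (nat_lit 27929565619) (nat_lit 532) (nat_lit 487086289) (nat_lit 532) (nat_lit 487086289) (nat_lit 81) (nat_lit 3) (nat_lit 88) (nat_lit 3) (nat_lit 88) (nat_lit 5) (nat_lit 359) (nat_lit 359) (nat_lit 302)) (XT.lf (nat_lit 76) (nat_lit 55566075312) (nat_lit 0) (nat_lit 5852121339) (nat_lit 532) (nat_lit 615261134) (nat_lit 82) (nat_lit 5) (nat_lit 81) (nat_lit 3) (nat_lit 88) (nat_lit 5) (nat_lit 360) (nat_lit 359) (nat_lit 301)))) (XT.nd (nat_lit 156) (nat_lit 532) (nat_lit 0) (XT.nd (nat_lit 78) (nat_lit 0) (nat_lit 76) (XT.lf (nat_lit 0) (nat_lit 3561022466) (nat_lit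 532) (nat_lit 11528862636) (nat_lit 608) (nat_lit 51586555061) (nat_lit 75) (nat_lit 5) (nat_lit 82) (nat_lit 5) (nat_lit 83) (nat_lit 5) (nat_lit 361) (nat_lit 359) (nat_lit 300)) (XT.lf (nat_lit 0) (nat_lit 11180998356) (nat_lit 532) (nat_lit 15944905300) (nat_lit 608) (nat_lit 44660394646) (nat_lit 76) (nat_lit 5) (nat_lit 83) (nat_lit 5) (nat_lit 84) (nat_lit 5) (nat_lit 362) (nat_lit 359) (nat_lit 299))) (XT.nd (nat_lit 78) (nat_lit 684) (nat_lit 0) (XT.lf (nat_lit 0) (nat_lit 23001910308) (nat_lit 532) (nat_lit 19477541803) (nat_lit 76) (nat_lit 34938548985) (nat_lit 77) (nat_lit 5) (nat_lit 84) (nat_lit 5) (nat_lit 78) (nat_lit 5) (nat_lit 363) (nat_lit 359) (nat_lit 298)) (XT.nd (nat_lit 78) (nat_lit 228) (nat_lit 0) (XT.lf (nat_lit 0) (nat_lit 39872700115) (nat_lit 532) (nat_lit 21860431853) (nat_lit 76) (nat_lit 21899189022) (nat_lit 71) (nat_lit 5) (nat_lit 78) (nat_lit 5) (nat_lit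 72) (nat_lit 5) (nat_lit 364) (nat_lit 359) (nat_lit 297)) (XT.lf (nat_lit 0) (nat_lit 62783959714) (nat_lit 304) (nat_lit 22777294160) (nat_lit 76) (nat_lit 4936747725) (nat_lit 68) (nat_lit 5) (nat_lit 72) (nat_lit 5) (nat_lit 69) (nat_lit 5) (nat_lit 365) (nat_lit 359) (nat_lit 296)))))) (XT.nd (nat_lit 390) (nat_lit 912) (nat_lit 0) (XT.nd (nat_lit 156) (nat_lit 608) (nat_lit 0) (XT.nd (nat_lit 78) (nat_lit 228) (nat_lit 0) (XT.lf (nat_lit 0) (nat_lit 75783412989) (nat_lit 228) (nat_lit 17528107961) (nat_lit 304) (nat_lit 4747645062) (nat_lit 65) (nat_lit 5) (nat_lit 68) (nat_lit 5) (nat_lit 69) (nat_lit 5) (nat_lit 366) (nat_lit 359) (nat_lit 295)) (XT.lf (nat_lit 0) (nat_lit 24911269816) (nat_lit 228) (nat_lit 20387320367) (nat_lit 76) (nat_lit 61067733261) (nat_lit 62) (nat_lit 5) (nat_lit 65) (nat_lit 5) (nat_lit 63) (nat_lit 5) (nat_lit 367) (nat_lit 359) (nat_lit 294))) (XT.nd (nat_lit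 78) (nat_lit 380) (nat_lit 0) (XT.lf (nat_lit 0) (nat_lit 63220993865) (nat_lit 304) (nat_lit 16202888900) (nat_lit 76) (nat_lit 36127160160) (nat_lit 59) (nat_lit 5) (nat_lit 63) (nat_lit 5) (nat_lit 60) (nat_lit 5) (nat_lit 368) (nat_lit 359) (nat_lit 293)) (XT.nd (nat_lit 78) (nat_lit 228) (nat_lit 0) (XT.lf (nat_lit 0) (nat_lit 112061467591) (nat_lit 228) (nat_lit 9073606120) (nat_lit 76) (nat_lit 4595653774) (nat_lit 57) (nat_lit 5) (nat_lit 60) (nat_lit 5) (nat_lit 58) (nat_lit 5) (nat_lit 369) (nat_lit 359) (nat_lit 292)) (XT.lf (nat_lit 0) (nat_lit 35396123020) (nat_lit 228) (nat_lit 150294675) (nat_lit 76) (nat_lit 101340046265) (nat_lit 54) (nat_lit 5) (nat_lit 57) (nat_lit 5) (nat_lit 55) (nat_lit 5) (nat_lit 370) (nat_lit 359) (nat_lit 291))))) (XT.nd (nat_lit 156) (nat_lit 456) (nat_lit 0) (XT.nd (nat_lit 78) (nat_lit 152) (nat_lit 0) (XT.lf (nat_lit 0) (nat_lit 12694255763)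 (nat_lit 152) (nat_lit 84467002779) (nat_lit 228) (nat_lit 52033953586) (nat_lit 50) (nat_lit 5) (nat_lit 52) (nat_lit 5) (nat_lit 53) (nat_lit 5) (nat_lit 371) (nat_lit 359) (nat_lit 290)) (XT.lf (nat_lit 0) (nat_lit 10893698854) (nat_lit 152) (nat_lit 132877910500) (nat_lit 76) (nat_lit 19065752093) (nat_lit 48) (nat_lit 5) (nat_lit 50) (nat_lit 5) (nat_lit 49) (nat_lit 5) (nat_lit 372) (nat_lit 359) (nat_lit 289))) (XT.nd (nat_lit 78) (nat_lit 304) (nat_lit 0) (XT.lf (nat_lit 0) (nat_lit 50070175407) (nat_lit 152) (nat_lit 37812686366) (nat_lit 228) (nat_lit 89918580841) (nat_lit 46) (nat_lit 5) (nat_lit 48) (nat_lit 5) (nat_lit 49) (nat_lit 5) (nat_lit 373) (nat_lit 359) (nat_lit 288)) (XT.nd (nat_lit 78) (nat_lit 228) (nat_lit 0) (XT.lf (nat_lit 0) (nat_lit 75456525402) (nat_lit 76) (nat_lit 108767115658) (nat_lit 152) (nat_lit 10162235732) (nat_lit 45) (nat_lit 5) (nat_lit 46) (nat_lit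 5) (nat_lit 47) (nat_lit 4) (nat_lit 374) (nat_lit 359) (nat_lit 287)) (XT.lf (nat_lit 0) (nat_lit 85388985033) (nat_lit 228) (nat_lit 107326429037) (nat_lit 76) (nat_lit 19952744200) (nat_lit 42) (nat_lit 5) (nat_lit 45) (nat_lit 5) (nat_lit 43) (nat_lit 4) (nat_lit 375) (nat_lit 359) (nat_lit 286))))))))
noncomputable def xc83 : XT := (XT.nd (nat_lit 1404) (nat_lit 988) (nat_lit 0) (XT.nd (nat_lit 702) (nat_lit 988) (nat_lit 0) (XT.nd (nat_lit 312) (nat_lit 608) (nat_lit 0) (XT.nd (nat_lit 156) (nat_lit 228) (nat_lit 0) (XT.nd (nat_lit 78) (nat_lit 152) (nat_lit 0) (XT.lf (nat_lit 0) (nat_lit 140695984363) (nat_lit 76) (nat_lit 63935208020) (nat_lit 152) (nat_lit 28243671688) (nat_lit 41) (nat_lit 5) (nat_lit 42) (nat_lit 5) (nat_lit 43) (nat_lit 4) (nat_lit 376) (nat_lit 359) (nat_lit 285)) (XT.lf (nat_lit 0) (nat_lit 91258302579) (nat_lit 152) (nat_lit 74014299114) (nat_lit 76) (nat_lit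 89883543660) (nat_lit 39) (nat_lit 5) (nat_lit 41) (nat_lit 5) (nat_lit 40) (nat_lit 4) (nat_lit 377) (nat_lit 359) (nat_lit 284))) (XT.nd (nat_lit 78) (nat_lit 152) (nat_lit 0) (XT.lf (nat_lit 0) (nat_lit 229328237224) (nat_lit 76) (nat_lit 7768287010) (nat_lit 152) (nat_lit 42817743194) (nat_lit 38) (nat_lit 5) (nat_lit 39) (nat_lit 5) (nat_lit 40) (nat_lit 4) (nat_lit 378) (nat_lit 359) (nat_lit 283)) (XT.lf (nat_lit 0) (nat_lit 105164009673) (nat_lit 152) (nat_lit 25549019191) (nat_lit 76) (nat_lit 176402504275) (nat_lit 36) (nat_lit 5) (nat_lit 38) (nat_lit 5) (nat_lit 37) (nat_lit 4) (nat_lit 379) (nat_lit 359) (nat_lit 282)))) (XT.nd (nat_lit 156) (nat_lit 304) (nat_lit 0) (XT.nd (nat_lit 78) (nat_lit 152) (nat_lit 0) (XT.lf (nat_lit 0) (nat_lit 5395264235) (nat_lit 76) (nat_lit 279087003746) (nat_lit 76) (nat_lit 52891786399) (nat_lit 34) (nat_lit 4) (nat_lit 35) (nat_lit 5) (nat_lit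 35) (nat_lit 4) (nat_lit 380) (nat_lit 359) (nat_lit 281)) (XT.lf (nat_lit 0) (nat_lit 39903661774) (nat_lit 76) (nat_lit 88028753099) (nat_lit 152) (nat_lit 242784116998) (nat_lit 32) (nat_lit 5) (nat_lit 33) (nat_lit 5) (nat_lit 34) (nat_lit 4) (nat_lit 381) (nat_lit 359) (nat_lit 280))) (XT.nd (nat_lit 78) (nat_lit 228) (nat_lit 0) (XT.lf (nat_lit 0) (nat_lit 78425042801) (nat_lit 76) (nat_lit 269380896268) (nat_lit 76) (nat_lit 59939938815) (nat_lit 31) (nat_lit 4) (nat_lit 32) (nat_lit 5) (nat_lit 32) (nat_lit 4) (nat_lit 382) (nat_lit 359) (nat_lit 279)) (XT.nd (nat_lit 78) (nat_lit 76) (nat_lit 0) (XT.lf (nat_lit 0) (nat_lit 119182328393) (nat_lit 76) (nat_lit 38809819006) (nat_lit 152) (nat_lit 290833726356) (nat_lit 29) (nat_lit 5) (nat_lit 30) (nat_lit 5) (nat_lit 31) (nat_lit 4) (nat_lit 383) (nat_lit 359) (nat_lit 278)) (XT.lf (nat_lit 0) (nat_lit 160267758957) (nat_lit 76) (nat_lit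 264032117817) (nat_lit 76) (nat_lit 70104646261) (nat_lit 28) (nat_lit 4) (nat_lit 29) (nat_lit 5) (nat_lit 29) (nat_lit 4) (nat_lit 384) (nat_lit 359) (nat_lit 277)))))) (XT.nd (nat_lit 312) (nat_lit 532) (nat_lit 0) (XT.nd (nat_lit 156) (nat_lit 228) (nat_lit 0) (XT.nd (nat_lit 78) (nat_lit 76) (nat_lit 0) (XT.lf (nat_lit 0) (nat_lit 190597596257) (nat_lit 152) (nat_lit 343549600811) (nat_lit 0) (nat_lit 11034875769) (nat_lit 26) (nat_lit 5) (nat_lit 28) (nat_lit 4) (nat_lit 26) (nat_lit 4) (nat_lit 385) (nat_lit 359) (nat_lit 276)) (XT.lf (nat_lit 0) (nat_lit 237593088632) (nat_lit 76) (nat_lit 271775633826) (nat_lit 76) (nat_lit 92212698707) (nat_lit 25) (nat_lit 4) (nat_lit 26) (nat_lit 5) (nat_lit 26) (nat_lit 4) (nat_lit 386) (nat_lit 359) (nat_lit 275))) (XT.nd (nat_lit 78) (nat_lit 76) (nat_lit 0) (XT.lf (nat_lit 0) (nat_lit 217056326205) (nat_lit 152) (nat_lit 396745281238) (nat_lit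 0) (nat_lit 50794176432) (nat_lit 23) (nat_lit 5) (nat_lit 25) (nat_lit 4) (nat_lit 23) (nat_lit 4) (nat_lit 387) (nat_lit 359) (nat_lit 274)) (XT.lf (nat_lit 0) (nat_lit 284164016379) (nat_lit 76) (nat_lit 308469378502) (nat_lit 76) (nat_lit 142207078458) (nat_lit 22) (nat_lit 4) (nat_lit 23) (nat_lit 5) (nat_lit 23) (nat_lit 4) (nat_lit 388) (nat_lit 359) (nat_lit 273)))) (XT.nd (nat_lit 156) (nat_lit 304) (nat_lit 0) (XT.nd (nat_lit 78) (nat_lit 76) (nat_lit 0) (XT.lf (nat_lit 0) (nat_lit 218832854114) (nat_lit 152) (nat_lit 529872162386) (nat_lit 0) (nat_lit 64886159009) (nat_lit 20) (nat_lit 5) (nat_lit 22) (nat_lit 4) (nat_lit 20) (nat_lit 4) (nat_lit 389) (nat_lit 359) (nat_lit 272)) (XT.lf (nat_lit 0) (nat_lit 252273698538) (nat_lit 76) (nat_lit 401634075062) (nat_lit 76) (nat_lit 247687274748) (nat_lit 19) (nat_lit 4) (nat_lit 20) (nat_lit 5) (nat_lit 20) (nat_lit 4) (nat_lit 390)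 (nat_lit 359) (nat_lit 271))) (XT.nd (nat_lit 78) (nat_lit 152) (nat_lit 0) (XT.lf (nat_lit 0) (nat_lit 164769917724) (nat_lit 152) (nat_lit 813839597435) (nat_lit 0) (nat_lit 22226499389) (nat_lit 17) (nat_lit 5) (nat_lit 19) (nat_lit 4) (nat_lit 17) (nat_lit 4) (nat_lit 391) (nat_lit 359) (nat_lit 270)) (XT.nd (nat_lit 78) (nat_lit 76) (nat_lit 0) (XT.lf (nat_lit 0) (nat_lit 59139654122) (nat_lit 76) (nat_lit 597632453579) (nat_lit 76) (nat_lit 455088961584) (nat_lit 16) (nat_lit 4) (nat_lit 17) (nat_lit 5) (nat_lit 17) (nat_lit 4) (nat_lit 392) (nat_lit 359) (nat_lit 269)) (XT.lf (nat_lit 0) (nat_lit 8192401370) (nat_lit 152) (nat_lit 125503361196) (nat_lit 76) (nat_lit 1103932041930) (nat_lit 15) (nat_lit 5) (nat_lit 17) (nat_lit 5) (nat_lit 16) (nat_lit 4) (nat_lit 393) (nat_lit 359) (nat_lit 268))))))) (XT.nd (nat_lit 702) (nat_lit 380) (nat_lit 0) (XT.nd (nat_lit 312) (nat_lit 304)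 (nat_lit 0) (XT.nd (nat_lit 156) (nat_lit 152) (nat_lit 0) (XT.nd (nat_lit 78) (nat_lit 76) (nat_lit 0) (XT.lf (nat_lit 0) (nat_lit 548837542481) (nat_lit 152) (nat_lit 412838217828) (nat_lit 0) (nat_lit 416852716791) (nat_lit 14) (nat_lit 5) (nat_lit 16) (nat_lit 4) (nat_lit 14) (nat_lit 4) (nat_lit 394) (nat_lit 359) (nat_lit 267)) (XT.lf (nat_lit 0) (nat_lit 720121008274) (nat_lit 76) (nat_lit 475223456047) (nat_lit 76) (nat_lit 343238585512) (nat_lit 13) (nat_lit 4) (nat_lit 14) (nat_lit 5) (nat_lit 14) (nat_lit 4) (nat_lit 395) (nat_lit 359) (nat_lit 266))) (XT.nd (nat_lit 78) (nat_lit 0) (nat_lit 0) (XT.lf (nat_lit 0) (nat_lit 228511937321) (nat_lit 152) (nat_lit 1385562681452) (nat_lit 0) (nat_lit 106303687755) (nat_lit 11) (nat_lit 5) (nat_lit 13) (nat_lit 4) (nat_lit 11) (nat_lit 4) (nat_lit 396) (nat_lit 359) (nat_lit 265)) (XT.lf (nat_lit 0) (nat_lit 903870035894) (nat_lit 152)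 (nat_lit 240144353724) (nat_lit 0) (nat_lit 781661754930) (nat_lit 11) (nat_lit 5) (nat_lit 13) (nat_lit 4) (nat_lit 11) (nat_lit 4) (nat_lit 397) (nat_lit 359) (nat_lit 264)))) (XT.nd (nat_lit 156) (nat_lit 76) (nat_lit 0) (XT.nd (nat_lit 78) (nat_lit 152) (nat_lit 0) (XT.lf (nat_lit 0) (nat_lit 1133803517013) (nat_lit 76) (nat_lit 573996017359) (nat_lit 76) (nat_lit 451787709093) (nat_lit 10) (nat_lit 4) (nat_lit 11) (nat_lit 5) (nat_lit 11) (nat_lit 4) (nat_lit 398) (nat_lit 359) (nat_lit 263)) (XT.lf (nat_lit 0) (nat_lit 210658546060) (nat_lit 152) (nat_lit 2118662461082) (nat_lit 0) (nat_lit 97502683091) (nat_lit 8) (nat_lit 5) (nat_lit 10) (nat_lit 4) (nat_lit 8) (nat_lit 4) (nat_lit 399) (nat_lit 359) (nat_lit 262))) (XT.nd (nat_lit 78) (nat_lit 76) (nat_lit 0) (XT.lf (nat_lit 0) (nat_lit 992996775907) (nat_lit 152) (nat_lit 856587081803) (nat_lit 0) (nat_lit 879840893822) (nat_lit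 8) (nat_lit 5) (nat_lit 10) (nat_lit 4) (nat_lit 8) (nat_lit 4) (nat_lit 400) (nat_lit 359) (nat_lit 261)) (XT.nd (nat_lit 78) (nat_lit 0) (nat_lit 0) (XT.lf (nat_lit 0) (nat_lit 626120172224) (nat_lit 76) (nat_lit 1281623530745) (nat_lit 76) (nat_lit 1168467632038) (nat_lit 7) (nat_lit 4) (nat_lit 8) (nat_lit 5) (nat_lit 8) (nat_lit 4) (nat_lit 401) (nat_lit 359) (nat_lit 260)) (XT.lf (nat_lit 0) (nat_lit 2383105369016) (nat_lit 76) (nat_lit 601535689499) (nat_lit 76) (nat_lit 488379776338) (nat_lit 7) (nat_lit 4) (nat_lit 8) (nat_lit 5) (nat_lit 8) (nat_lit 4) (nat_lit 402) (nat_lit 359) (nat_lit 259)))))) (XT.nd (nat_lit 390) (nat_lit 152) (nat_lit 0) (XT.nd (nat_lit 156) (nat_lit 76) (nat_lit 0) (XT.nd (nat_lit 78) (nat_lit 0) (nat_lit 0) (XT.lf (nat_lit 0) (nat_lit 295689649875) (nat_lit 152) (nat_lit 3440848423443) (nat_lit 0) (nat_lit 190915644569) (nat_lit 5) (nat_lit 5) (nat_lit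 7) (nat_lit 4) (nat_lit 5) (nat_lit 4) (nat_lit 403) (nat_lit 359) (nat_lit 258)) (XT.lf (nat_lit 0) (nat_lit 1218466866309) (nat_lit 152) (nat_lit 2112875808346) (nat_lit 0) (nat_lit 1113692850884) (nat_lit 5) (nat_lit 5) (nat_lit 7) (nat_lit 4) (nat_lit 5) (nat_lit 4) (nat_lit 404) (nat_lit 359) (nat_lit 257))) (XT.nd (nat_lit 78) (nat_lit 76) (nat_lit 0) (XT.lf (nat_lit 0) (nat_lit 2279660503752) (nat_lit 152) (nat_lit 585707633977) (nat_lit 0) (nat_lit 2174886479527) (nat_lit 5) (nat_lit 5) (nat_lit 7) (nat_lit 4) (nat_lit 5) (nat_lit 4) (nat_lit 405) (nat_lit 359) (nat_lit 256)) (XT.nd (nat_lit 78) (nat_lit 0) (nat_lit 0) (XT.lf (nat_lit 0) (nat_lit 1232173800837) (nat_lit 76) (nat_lit 2297493055120) (nat_lit 76) (nat_lit 2192719023244) (nat_lit 4) (nat_lit 4) (nat_lit 5) (nat_lit 5) (nat_lit 5) (nat_lit 4) (nat_lit 406) (nat_lit 359) (nat_lit 255)) (XT.lf (nat_lit 0) (nat_lit 3358205860773)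 (nat_lit 76) (nat_lit 1626020419333) (nat_lit 76) (nat_lit 1521246380803) (nat_lit 4) (nat_lit 4) (nat_lit 5) (nat_lit 5) (nat_lit 5) (nat_lit 4) (nat_lit 407) (nat_lit 359) (nat_lit 254))))) (XT.nd (nat_lit 156) (nat_lit 0) (nat_lit 0) (XT.nd (nat_lit 78) (nat_lit 152) (nat_lit 0) (XT.lf (nat_lit 0) (nat_lit 5803142499221) (nat_lit 76) (nat_lit 853827006952) (nat_lit 76) (nat_lit 749052962636) (nat_lit 4) (nat_lit 4) (nat_lit 5) (nat_lit 5) (nat_lit 5) (nat_lit 4) (nat_lit 408) (nat_lit 359) (nat_lit 253)) (XT.lf (nat_lit 0) (nat_lit 137337734918) (nat_lit 152) (nat_lit 8263299302608) (nat_lit 0) (nat_lit 40324726263) (nat_lit 2) (nat_lit 5) (nat_lit 4) (nat_lit 4) (nat_lit 2) (nat_lit 4) (nat_lit 409) (nat_lit 359) (nat_lit 252))) (XT.nd (nat_lit 78) (nat_lit 0) (nat_lit 0) (XT.lf (nat_lit 0) (nat_lit 1185088658198) (nat_lit 152) (nat_lit 7350600862410) (nat_lit 0) (nat_lit 1088075645492)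 (nat_lit 2) (nat_lit 5) (nat_lit 4) (nat_lit 4) (nat_lit 2) (nat_lit 4) (nat_lit 410) (nat_lit 359) (nat_lit 251)) (XT.nd (nat_lit 78) (nat_lit 0) (nat_lit 0) (XT.lf (nat_lit 0) (nat_lit 2390002138648) (nat_lit 152) (nat_lit 6300997824196) (nat_lit 0) (nat_lit 2292989122419) (nat_lit 2) (nat_lit 5) (nat_lit 4) (nat_lit 4) (nat_lit 2) (nat_lit 4) (nat_lit 411) (nat_lit 359) (nat_lit 250)) (XT.lf (nat_lit 0) (nat_lit 3775652570450) (nat_lit 152) (nat_lit 5093954476350) (nat_lit 0) (nat_lit 3678639551159) (nat_lit 2) (nat_lit 5) (nat_lit 4) (nat_lit 4) (nat_lit 2) (nat_lit 4) (nat_lit 412) (nat_lit 359) (nat_lit 249))))))))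
noncomputable def xc84 : XT := (XT.nd (nat_lit 49842) (nat_lit 0) (nat_lit 1596) (XT.nd (nat_lit 49140) (nat_lit 0) (nat_lit 4256) (XT.nd (nat_lit 312) (nat_lit 0) (nat_lit 0) (XT.nd (nat_lit 156) (nat_lit 76) (nat_lit 0) (XT.nd (nat_lit 78) (nat_lit 0) (nat_lit 0) (XT.lf (nat_lit 0) (nat_lit 5369150505532) (nat_lit 152) (nat_lit 3705854753370) (nat_lit 0) (nat_lit 5272137483577) (nat_lit 2) (nat_lit 5) (nat_lit 4) (nat_lit 4) (nat_lit 2) (nat_lit 4) (nat_lit 413) (nat_lit 359) (nat_lit 248)) (XT.lf (nat_lit 0) (nat_lit 7201673077406) (nat_lit 152) (nat_lit 2109540182416) (nat_lit 0) (nat_lit 7104660053135) (nat_lit 2) (nat_lit 5) (nat_lit 4) (nat_lit 4) (nat_lit 2) (nat_lit 4) (nat_lit 414) (nat_lit 359) (nat_lit 247))) (XT.nd (nat_lit 78) (nat_lit 76) (nat_lit 0) (XT.lf (nat_lit 0) (nat_lit 9309073988564) (nat_lit 152) (nat_lit 273778521880) (nat_lit 0) (nat_lit 9212060962279) (nat_lit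 2) (nat_lit 5) (nat_lit 4) (nat_lit 4) (nat_lit 2) (nat_lit 4) (nat_lit 415) (nat_lit 359) (nat_lit 246)) (XT.lf (nat_lit 0) (nat_lit 1934098757182) (nat_lit 76) (nat_lit 9845001360408) (nat_lit 76) (nat_lit 9747988332371) (nat_lit 1) (nat_lit 4) (nat_lit 2) (nat_lit 5) (nat_lit 2) (nat_lit 4) (nat_lit 416) (nat_lit 359) (nat_lit 245)))) (XT.nd (nat_lit 156) (nat_lit 0) (nat_lit 0) (XT.nd (nat_lit 78) (nat_lit 0) (nat_lit 0) (XT.lf (nat_lit 0) (nat_lit 4489736747196) (nat_lit 76) (nat_lit 10137864148870) (nat_lit 76) (nat_lit 10040851119310) (nat_lit 1) (nat_lit 4) (nat_lit 2) (nat_lit 5) (nat_lit 2) (nat_lit 4) (nat_lit 417) (nat_lit 359) (nat_lit 244)) (XT.lf (nat_lit 0) (nat_lit 7428720369224) (nat_lit 76) (nat_lit 10474656389919) (nat_lit 76) (nat_lit 10377643359036) (nat_lit 1) (nat_lit 4) (nat_lit 2) (nat_lit 5) (nat_lit 2) (nat_lit 4) (nat_lit 418) (nat_lit 359) (nat_lit 243))) (XT.nd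 (nat_lit 48516) (nat_lit 0) (nat_lit 6080) (XT.lf (nat_lit 0) (nat_lit 10808551476739) (nat_lit 76) (nat_lit 10861967496968) (nat_lit 76) (nat_lit 10764954464932) (nat_lit 1) (nat_lit 4) (nat_lit 2) (nat_lit 5) (nat_lit 2) (nat_lit 4) (nat_lit 419) (nat_lit 359) (nat_lit 242)) (XT.nd (nat_lit 78) (nat_lit 0) (nat_lit 0) (XT.lf (nat_lit 0) (nat_lit 32150888147) (nat_lit 532) (nat_lit 542925620) (nat_lit 532) (nat_lit 542925620) (nat_lit 81) (nat_lit 3) (nat_lit 88) (nat_lit 3) (nat_lit 88) (nat_lit 5) (nat_lit 360) (nat_lit 360) (nat_lit 300)) (XT.lf (nat_lit 76) (nat_lit 63932518048) (nat_lit 0) (nat_lit 6754623275) (nat_lit 532) (nat_lit 646823088) (nat_lit 82) (nat_lit 5) (nat_lit 81) (nat_lit 3) (nat_lit 88) (nat_lit 5) (nat_lit 361) (nat_lit 360) (nat_lit 299)))))) (XT.nd (nat_lit 312) (nat_lit 1064) (nat_lit 0) (XT.nd (nat_lit 156) (nat_lit 304) (nat_lit 0) (XT.nd (nat_lit 78) (nat_lit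 0) (nat_lit 76) (XT.lf (nat_lit 0) (nat_lit 4145638396) (nat_lit 532) (nat_lit 13221986848) (nat_lit 608) (nat_lit 59306232000) (nat_lit 75) (nat_lit 5) (nat_lit 82) (nat_lit 5) (nat_lit 83) (nat_lit 5) (nat_lit 362) (nat_lit 360) (nat_lit 298)) (XT.lf (nat_lit 0) (nat_lit 12902548166) (nat_lit 532) (nat_lit 18299638453) (nat_lit 608) (nat_lit 51348494042) (nat_lit 76) (nat_lit 5) (nat_lit 83) (nat_lit 5) (nat_lit 84) (nat_lit 5) (nat_lit 363) (nat_lit 360) (nat_lit 297))) (XT.nd (nat_lit 78) (nat_lit 456) (nat_lit 0) (XT.lf (nat_lit 0) (nat_lit 26491486643) (nat_lit 532) (nat_lit 22362006082) (nat_lit 76) (nat_lit 40174056326) (nat_lit 77) (nat_lit 5) (nat_lit 84) (nat_lit 5) (nat_lit 78) (nat_lit 5) (nat_lit 364) (nat_lit 360) (nat_lit 296)) (XT.lf (nat_lit 0) (nat_lit 45888565228) (nat_lit 532) (nat_lit 25102645989) (nat_lit 76) (nat_lit 25183153262) (nat_lit 71) (nat_lit 5) (nat_lit 78)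 (nat_lit 5) (nat_lit 72) (nat_lit 5) (nat_lit 365) (nat_lit 360) (nat_lit 295)))) (XT.nd (nat_lit 156) (nat_lit 608) (nat_lit 0) (XT.nd (nat_lit 78) (nat_lit 228) (nat_lit 0) (XT.lf (nat_lit 0) (nat_lit 72232825604) (nat_lit 304) (nat_lit 26157713742) (nat_lit 76) (nat_lit 5679653911) (nat_lit 68) (nat_lit 5) (nat_lit 72) (nat_lit 5) (nat_lit 69) (nat_lit 5) (nat_lit 366) (nat_lit 360) (nat_lit 294)) (XT.lf (nat_lit 0) (nat_lit 87184037485) (nat_lit 228) (nat_lit 20152200951) (nat_lit 304) (nat_lit 5429557395) (nat_lit 65) (nat_lit 5) (nat_lit 68) (nat_lit 5) (nat_lit 69) (nat_lit 5) (nat_lit 367) (nat_lit 360) (nat_lit 293))) (XT.nd (nat_lit 78) (nat_lit 380) (nat_lit 0) (XT.lf (nat_lit 0) (nat_lit 28673841655) (nat_lit 228) (nat_lit 23411798777) (nat_lit 76) (nat_lit 70233556241) (nat_lit 62) (nat_lit 5) (nat_lit 65) (nat_lit 5) (nat_lit 63) (nat_lit 5) (nat_lit 368) (nat_lit 360) (nat_lit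 292)) (XT.nd (nat_lit 78) (nat_lit 152) (nat_lit 0) (XT.lf (nat_lit 0) (nat_lit 72727569649) (nat_lit 304) (nat_lit 18600865572) (nat_lit 76) (nat_lit 41553385850) (nat_lit 59) (nat_lit 5) (nat_lit 63) (nat_lit 5) (nat_lit 60) (nat_lit 5) (nat_lit 369) (nat_lit 360) (nat_lit 291)) (XT.lf (nat_lit 0) (nat_lit 128891980691) (nat_lit 228) (nat_lit 10403454615) (nat_lit 76) (nat_lit 5293194252) (nat_lit 57) (nat_lit 5) (nat_lit 60) (nat_lit 5) (nat_lit 58) (nat_lit 5) (nat_lit 370) (nat_lit 360) (nat_lit 290))))))) (XT.nd (nat_lit 702) (nat_lit 1216) (nat_lit 0) (XT.nd (nat_lit 312) (nat_lit 608) (nat_lit 0) (XT.nd (nat_lit 156) (nat_lit 304) (nat_lit 0) (XT.nd (nat_lit 78) (nat_lit 304) (nat_lit 0) (XT.lf (nat_lit 0) (nat_lit 40725245517) (nat_lit 228) (nat_lit 143246247) (nat_lit 76) (nat_lit 116549362557) (nat_lit 54) (nat_lit 5) (nat_lit 57) (nat_lit 5) (nat_lit 55) (nat_lit 5) (nat_lit 371)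 (nat_lit 360) (nat_lit 289)) (XT.lf (nat_lit 0) (nat_lit 14628173200) (nat_lit 152) (nat_lit 97125999446) (nat_lit 228) (nat_lit 59818820746) (nat_lit 50) (nat_lit 5) (nat_lit 52) (nat_lit 5) (nat_lit 53) (nat_lit 5) (nat_lit 372) (nat_lit 360) (nat_lit 288))) (XT.nd (nat_lit 78) (nat_lit 152) (nat_lit 0) (XT.lf (nat_lit 0) (nat_lit 12545399245) (nat_lit 152) (nat_lit 152780277232) (nat_lit 76) (nat_lit 21935875505) (nat_lit 48) (nat_lit 5) (nat_lit 50) (nat_lit 5) (nat_lit 49) (nat_lit 5) (nat_lit 373) (nat_lit 360) (nat_lit 287)) (XT.lf (nat_lit 0) (nat_lit 57607539783) (nat_lit 152) (nat_lit 43473740680) (nat_lit 228) (nat_lit 103389097618) (nat_lit 46) (nat_lit 5) (nat_lit 48) (nat_lit 5) (nat_lit 49) (nat_lit 5) (nat_lit 374) (nat_lit 360) (nat_lit 286)))) (XT.nd (nat_lit 156) (nat_lit 304) (nat_lit 0) (XT.nd (nat_lit 78) (nat_lit 228) (nat_lit 0) (XT.lf (nat_lit 0) (nat_lit 86800504245)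 (nat_lit 76) (nat_lit 125071426976) (nat_lit 152) (nat_lit 11670646029) (nat_lit 45) (nat_lit 5) (nat_lit 46) (nat_lit 5) (nat_lit 47) (nat_lit 4) (nat_lit 375) (nat_lit 360) (nat_lit 285)) (XT.lf (nat_lit 0) (nat_lit 98211315506) (nat_lit 228) (nat_lit 123400469962) (nat_lit 76) (nat_lit 22955476686) (nat_lit 42) (nat_lit 5) (nat_lit 45) (nat_lit 5) (nat_lit 43) (nat_lit 4) (nat_lit 376) (nat_lit 360) (nat_lit 284))) (XT.nd (nat_lit 78) (nat_lit 228) (nat_lit 0) (XT.lf (nat_lit 0) (nat_lit 161823195803) (nat_lit 76) (nat_lit 73515382994) (nat_lit 152) (nat_lit 32466497202) (nat_lit 41) (nat_lit 5) (nat_lit 42) (nat_lit 5) (nat_lit 43) (nat_lit 4) (nat_lit 377) (nat_lit 360) (nat_lit 283)) (XT.nd (nat_lit 78) (nat_lit 76) (nat_lit 0) (XT.lf (nat_lit 0) (nat_lit 104959135533) (nat_lit 152) (nat_lit 85094214831) (nat_lit 76) (nat_lit 103375248919) (nat_lit 39) (nat_lit 5) (nat_lit 41) (nat_lit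 5) (nat_lit 40) (nat_lit 4) (nat_lit 378) (nat_lit 360) (nat_lit 282)) (XT.lf (nat_lit 0) (nat_lit 263747820371) (nat_lit 76) (nat_lit 8924182785) (nat_lit 152) (nat_lit 49228523608) (nat_lit 38) (nat_lit 5) (nat_lit 39) (nat_lit 5) (nat_lit 40) (nat_lit 4) (nat_lit 379) (nat_lit 360) (nat_lit 281)))))) (XT.nd (nat_lit 390) (nat_lit 532) (nat_lit 0) (XT.nd (nat_lit 156) (nat_lit 380) (nat_lit 0) (XT.nd (nat_lit 78) (nat_lit 152) (nat_lit 0) (XT.lf (nat_lit 0) (nat_lit 120949100614) (nat_lit 152) (nat_lit 29361593410) (nat_lit 76) (nat_lit 202871329319) (nat_lit 36) (nat_lit 5) (nat_lit 38) (nat_lit 5) (nat_lit 37) (nat_lit 4) (nat_lit 380) (nat_lit 360) (nat_lit 280)) (XT.lf (nat_lit 0) (nat_lit 6224200669) (nat_lit 76) (nat_lit 320940642299) (nat_lit 76) (nat_lit 60814500258) (nat_lit 34) (nat_lit 4) (nat_lit 35) (nat_lit 5) (nat_lit 35) (nat_lit 4) (nat_lit 381) (nat_lit 360) (nat_lit 279)))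 (XT.nd (nat_lit 78) (nat_lit 228) (nat_lit 0) (XT.lf (nat_lit 0) (nat_lit 45907701448) (nat_lit 76) (nat_lit 101224151769) (nat_lit 152) (nat_lit 279191391920) (nat_lit 32) (nat_lit 5) (nat_lit 33) (nat_lit 5) (nat_lit 34) (nat_lit 4) (nat_lit 382) (nat_lit 360) (nat_lit 278)) (XT.nd (nat_lit 78) (nat_lit 152) (nat_lit 0) (XT.lf (nat_lit 0) (nat_lit 90206229899) (nat_lit 76) (nat_lit 309779532719) (nat_lit 76) (nat_lit 68921281964) (nat_lit 31) (nat_lit 4) (nat_lit 32) (nat_lit 5) (nat_lit 32) (nat_lit 4) (nat_lit 383) (nat_lit 360) (nat_lit 277)) (XT.lf (nat_lit 0) (nat_lit 137076074988) (nat_lit 76) (nat_lit 44623258492) (nat_lit 152) (nat_lit 334449751922) (nat_lit 29) (nat_lit 5) (nat_lit 30) (nat_lit 5) (nat_lit 31) (nat_lit 4) (nat_lit 384) (nat_lit 360) (nat_lit 276))))) (XT.nd (nat_lit 156) (nat_lit 304) (nat_lit 0) (XT.nd (nat_lit 78) (nat_lit 152) (nat_lit 0) (XT.lf (nat_lit 0)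 (nat_lit 184323368088) (nat_lit 76) (nat_lit 303629302683) (nat_lit 76) (nat_lit 80611905463) (nat_lit 28) (nat_lit 4) (nat_lit 29) (nat_lit 5) (nat_lit 29) (nat_lit 4) (nat_lit 385) (nat_lit 360) (nat_lit 275)) (XT.lf (nat_lit 0) (nat_lit 219194728421) (nat_lit 152) (nat_lit 395067103948) (nat_lit 0) (nat_lit 12696951767) (nat_lit 26) (nat_lit 5) (nat_lit 28) (nat_lit 4) (nat_lit 26) (nat_lit 4) (nat_lit 386) (nat_lit 360) (nat_lit 274))) (XT.nd (nat_lit 78) (nat_lit 228) (nat_lit 0) (XT.lf (nat_lit 0) (nat_lit 273245724570) (nat_lit 76) (nat_lit 312535150498) (nat_lit 76) (nat_lit 106037211551) (nat_lit 25) (nat_lit 4) (nat_lit 26) (nat_lit 5) (nat_lit 26) (nat_lit 4) (nat_lit 387) (nat_lit 360) (nat_lit 273)) (XT.nd (nat_lit 78) (nat_lit 76) (nat_lit 0) (XT.lf (nat_lit 0) (nat_lit 249621345370) (nat_lit 152) (nat_lit 456243860943) (nat_lit 0) (nat_lit 58419419379) (nat_lit 23) (nat_lit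 5) (nat_lit 25) (nat_lit 4) (nat_lit 23) (nat_lit 4) (nat_lit 388) (nat_lit 360) (nat_lit 272)) (XT.lf (nat_lit 0) (nat_lit 326800712947) (nat_lit 76) (nat_lit 354733695277) (nat_lit 76) (nat_lit 163531655660) (nat_lit 22) (nat_lit 4) (nat_lit 23) (nat_lit 5) (nat_lit 23) (nat_lit 4) (nat_lit 389) (nat_lit 360) (nat_lit 271))))))))
noncomputable def xc85 : XT := (XT.nd (nat_lit 1404) (nat_lit 228) (nat_lit 0) (XT.nd (nat_lit 702) (nat_lit 532) (nat_lit 0) (XT.nd (nat_lit 312) (nat_lit 380) (nat_lit 0) (XT.nd (nat_lit 156) (nat_lit 228) (nat_lit 0) (XT.nd (nat_lit 78) (nat_lit 76) (nat_lit 0) (XT.lf (nat_lit 0) (nat_lit 251663550282) (nat_lit 152) (nat_lit 609341306782) (nat_lit 0) (nat_lit 74624533225) (nat_lit 20) (nat_lit 5) (nat_lit 22) (nat_lit 4) (nat_lit 20) (nat_lit 4) (nat_lit 390) (nat_lit 360) (nat_lit 270)) (XT.lf (nat_lit 0) (nat_lit 290125444631) (nat_lit 76) (nat_lit 461873767833)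 (nat_lit 76) (nat_lit 284834671222) (nat_lit 19) (nat_lit 4) (nat_lit 20) (nat_lit 5) (nat_lit 20) (nat_lit 4) (nat_lit 391) (nat_lit 360) (nat_lit 269))) (XT.nd (nat_lit 78) (nat_lit 76) (nat_lit 0) (XT.lf (nat_lit 0) (nat_lit 189490473933) (nat_lit 152) (nat_lit 935905216815) (nat_lit 0) (nat_lit 25565320426) (nat_lit 17) (nat_lit 5) (nat_lit 19) (nat_lit 4) (nat_lit 17) (nat_lit 4) (nat_lit 392) (nat_lit 360) (nat_lit 268)) (XT.lf (nat_lit 0) (nat_lit 68020048919) (nat_lit 76) (nat_lit 687272509566) (nat_lit 76) (nat_lit 523347300361) (nat_lit 16) (nat_lit 4) (nat_lit 17) (nat_lit 5) (nat_lit 17) (nat_lit 4) (nat_lit 393) (nat_lit 360) (nat_lit 267)))) (XT.nd (nat_lit 156) (nat_lit 228) (nat_lit 0) (XT.nd (nat_lit 78) (nat_lit 76) (nat_lit 0) (XT.lf (nat_lit 0) (nat_lit 9425396417) (nat_lit 152) (nat_lit 144320433088) (nat_lit 76) (nat_lit 1269525814828) (nat_lit 15) (nat_lit 5) (nat_lit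 17) (nat_lit 5) (nat_lit 16) (nat_lit 4) (nat_lit 394) (nat_lit 360) (nat_lit 266)) (XT.lf (nat_lit 0) (nat_lit 631167049693) (nat_lit 152) (nat_lit 474756024126) (nat_lit 0) (nat_lit 479384364736) (nat_lit 14) (nat_lit 5) (nat_lit 16) (nat_lit 4) (nat_lit 14) (nat_lit 4) (nat_lit 395) (nat_lit 360) (nat_lit 265))) (XT.nd (nat_lit 78) (nat_lit 152) (nat_lit 0) (XT.lf (nat_lit 0) (nat_lit 828146414964) (nat_lit 76) (nat_lit 546503263795) (nat_lit 76) (nat_lit 394720544928) (nat_lit 13) (nat_lit 4) (nat_lit 14) (nat_lit 5) (nat_lit 14) (nat_lit 4) (nat_lit 396) (nat_lit 360) (nat_lit 264)) (XT.nd (nat_lit 78) (nat_lit 0) (nat_lit 0) (XT.lf (nat_lit 0) (nat_lit 262792138319) (nat_lit 152) (nat_lit 1593390084816) (nat_lit 0) (nat_lit 122252556510) (nat_lit 11) (nat_lit 5) (nat_lit 13) (nat_lit 4) (nat_lit 11) (nat_lit 4) (nat_lit 397) (nat_lit 360) (nat_lit 263)) (XT.lf (nat_lit 0) (nat_lit 1039453506843)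 (nat_lit 152) (nat_lit 276159920823) (nat_lit 0) (nat_lit 898913901293) (nat_lit 11) (nat_lit 5) (nat_lit 13) (nat_lit 4) (nat_lit 11) (nat_lit 4) (nat_lit 398) (nat_lit 360) (nat_lit 262)))))) (XT.nd (nat_lit 312) (nat_lit 228) (nat_lit 0) (XT.nd (nat_lit 156) (nat_lit 76) (nat_lit 0) (XT.nd (nat_lit 78) (nat_lit 152) (nat_lit 0) (XT.lf (nat_lit 0) (nat_lit 1303879615379) (nat_lit 76) (nat_lit 660092561879) (nat_lit 76) (nat_lit 519552935685) (nat_lit 10) (nat_lit 4) (nat_lit 11) (nat_lit 5) (nat_lit 11) (nat_lit 4) (nat_lit 399) (nat_lit 360) (nat_lit 261)) (XT.lf (nat_lit 0) (nat_lit 242259938650) (nat_lit 152) (nat_lit 2436456457729) (nat_lit 0) (nat_lit 112130638515) (nat_lit 8) (nat_lit 5) (nat_lit 10) (nat_lit 4) (nat_lit 8) (nat_lit 4) (nat_lit 400) (nat_lit 360) (nat_lit 260))) (XT.nd (nat_lit 78) (nat_lit 76) (nat_lit 0) (XT.lf (nat_lit 0) (nat_lit 1141948562450) (nat_lit 152) (nat_lit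 985070472321) (nat_lit 0) (nat_lit 1011819247861) (nat_lit 8) (nat_lit 5) (nat_lit 10) (nat_lit 4) (nat_lit 8) (nat_lit 4) (nat_lit 401) (nat_lit 360) (nat_lit 259)) (XT.lf (nat_lit 0) (nat_lit 720042474370) (nat_lit 76) (nat_lit 1473864860941) (nat_lit 76) (nat_lit 1343735533783) (nat_lit 7) (nat_lit 4) (nat_lit 8) (nat_lit 5) (nat_lit 8) (nat_lit 4) (nat_lit 402) (nat_lit 360) (nat_lit 258)))) (XT.nd (nat_lit 156) (nat_lit 76) (nat_lit 0) (XT.nd (nat_lit 78) (nat_lit 152) (nat_lit 0) (XT.lf (nat_lit 0) (nat_lit 2740574892900) (nat_lit 76) (nat_lit 691764130388) (nat_lit 76) (nat_lit 561634792301) (nat_lit 7) (nat_lit 4) (nat_lit 8) (nat_lit 5) (nat_lit 8) (nat_lit 4) (nat_lit 403) (nat_lit 360) (nat_lit 257)) (XT.lf (nat_lit 0) (nat_lit 340044835835) (nat_lit 152) (nat_lit 3956972101469) (nat_lit 0) (nat_lit 219554699177) (nat_lit 5) (nat_lit 5) (nat_lit 7) (nat_lit 4) (nat_lit 5) (nat_lit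 4) (nat_lit 404) (nat_lit 360) (nat_lit 256))) (XT.nd (nat_lit 78) (nat_lit 76) (nat_lit 0) (XT.lf (nat_lit 0) (nat_lit 1401238407977) (nat_lit 152) (nat_lit 2429804061780) (nat_lit 0) (nat_lit 1280748263667) (nat_lit 5) (nat_lit 5) (nat_lit 7) (nat_lit 4) (nat_lit 5) (nat_lit 4) (nat_lit 405) (nat_lit 360) (nat_lit 255)) (XT.nd (nat_lit 78) (nat_lit 76) (nat_lit 0) (XT.lf (nat_lit 0) (nat_lit 2621610893855) (nat_lit 152) (nat_lit 673561067928) (nat_lit 0) (nat_lit 2501120742891) (nat_lit 5) (nat_lit 5) (nat_lit 7) (nat_lit 4) (nat_lit 5) (nat_lit 4) (nat_lit 406) (nat_lit 360) (nat_lit 254)) (XT.lf (nat_lit 0) (nat_lit 1417002352623) (nat_lit 76) (nat_lit 2642115734490) (nat_lit 76) (nat_lit 2521625577741) (nat_lit 4) (nat_lit 4) (nat_lit 5) (nat_lit 5) (nat_lit 5) (nat_lit 4) (nat_lit 407) (nat_lit 360) (nat_lit 253))))))) (XT.nd (nat_lit 702) (nat_lit 76) (nat_lit 0) (XT.nd (nat_lit 312)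 (nat_lit 0) (nat_lit 0) (XT.nd (nat_lit 156) (nat_lit 152) (nat_lit 0) (XT.nd (nat_lit 78) (nat_lit 0) (nat_lit 0) (XT.lf (nat_lit 0) (nat_lit 3861938897855) (nat_lit 76) (nat_lit 1869922370148) (nat_lit 76) (nat_lit 1749432208367) (nat_lit 4) (nat_lit 4) (nat_lit 5) (nat_lit 5) (nat_lit 5) (nat_lit 4) (nat_lit 408) (nat_lit 360) (nat_lit 252)) (XT.lf (nat_lit 0) (nat_lit 6673615750597) (nat_lit 76) (nat_lit 981900090964) (nat_lit 76) (nat_lit 861409924808) (nat_lit 4) (nat_lit 4) (nat_lit 5) (nat_lit 5) (nat_lit 5) (nat_lit 4) (nat_lit 409) (nat_lit 360) (nat_lit 251))) (XT.nd (nat_lit 78) (nat_lit 0) (nat_lit 0) (XT.lf (nat_lit 0) (nat_lit 157939270786) (nat_lit 152) (nat_lit 9502792388915) (nat_lit 0) (nat_lit 46374298601) (nat_lit 2) (nat_lit 5) (nat_lit 4) (nat_lit 4) (nat_lit 2) (nat_lit 4) (nat_lit 410) (nat_lit 360) (nat_lit 250)) (XT.lf (nat_lit 0) (nat_lit 1362852718345) (nat_lit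 152) (nat_lit 8453189418655) (nat_lit 0) (nat_lit 1251287743097) (nat_lit 2) (nat_lit 5) (nat_lit 4) (nat_lit 4) (nat_lit 2) (nat_lit 4) (nat_lit 411) (nat_lit 360) (nat_lit 249)))) (XT.nd (nat_lit 156) (nat_lit 0) (nat_lit 0) (XT.nd (nat_lit 78) (nat_lit 0) (nat_lit 0) (XT.lf (nat_lit 0) (nat_lit 2748503121548) (nat_lit 152) (nat_lit 7246146129899) (nat_lit 0) (nat_lit 2636938143636) (nat_lit 2) (nat_lit 5) (nat_lit 4) (nat_lit 4) (nat_lit 2) (nat_lit 4) (nat_lit 412) (nat_lit 360) (nat_lit 248)) (XT.lf (nat_lit 0) (nat_lit 4342001031759) (nat_lit 152) (nat_lit 5858046458301) (nat_lit 0) (nat_lit 4230436051531) (nat_lit 2) (nat_lit 5) (nat_lit 4) (nat_lit 4) (nat_lit 2) (nat_lit 4) (nat_lit 413) (nat_lit 360) (nat_lit 247))) (XT.nd (nat_lit 78) (nat_lit 0) (nat_lit 0) (XT.lf (nat_lit 0) (nat_lit 6174523582007) (nat_lit 152) (nat_lit 4261731932027) (nat_lit 0) (nat_lit 6062958599765) (nat_lit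 2) (nat_lit 5) (nat_lit 4) (nat_lit 4) (nat_lit 2) (nat_lit 4) (nat_lit 414) (nat_lit 360) (nat_lit 246)) (XT.nd (nat_lit 78) (nat_lit 0) (nat_lit 0) (XT.lf (nat_lit 0) (nat_lit 8281924474360) (nat_lit 152) (nat_lit 2425970310344) (nat_lit 0) (nat_lit 8170359490367) (nat_lit 2) (nat_lit 5) (nat_lit 4) (nat_lit 4) (nat_lit 2) (nat_lit 4) (nat_lit 415) (nat_lit 360) (nat_lit 245)) (XT.lf (nat_lit 0) (nat_lit 10705435465409) (nat_lit 152) (nat_lit 314844518045) (nat_lit 0) (nat_lit 10593870479892) (nat_lit 2) (nat_lit 5) (nat_lit 4) (nat_lit 4) (nat_lit 2) (nat_lit 4) (nat_lit 416) (nat_lit 360) (nat_lit 244)))))) (XT.nd (nat_lit 48906) (nat_lit 0) (nat_lit 5092) (XT.nd (nat_lit 156) (nat_lit 0) (nat_lit 0) (XT.nd (nat_lit 78) (nat_lit 0) (nat_lit 0) (XT.lf (nat_lit 0) (nat_lit 2224214286674) (nat_lit 76) (nat_lit 11321751194954) (nat_lit 76) (nat_lit 11210186208114) (nat_lit 1) (nat_lit 4)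 (nat_lit 2) (nat_lit 5) (nat_lit 2) (nat_lit 4) (nat_lit 417) (nat_lit 360) (nat_lit 243)) (XT.lf (nat_lit 0) (nat_lit 5163197881810) (nat_lit 76) (nat_lit 11658543449883) (nat_lit 76) (nat_lit 11546978461891) (nat_lit 1) (nat_lit 4) (nat_lit 2) (nat_lit 5) (nat_lit 2) (nat_lit 4) (nat_lit 418) (nat_lit 360) (nat_lit 242))) (XT.nd (nat_lit 48594) (nat_lit 0) (nat_lit 6080) (XT.lf (nat_lit 0) (nat_lit 8543028965942) (nat_lit 76) (nat_lit 12045854569001) (nat_lit 76) (nat_lit 11934289580008) (nat_lit 1) (nat_lit 4) (nat_lit 2) (nat_lit 5) (nat_lit 2) (nat_lit 4) (nat_lit 419) (nat_lit 360) (nat_lit 241)) (XT.nd (nat_lit 78) (nat_lit 0) (nat_lit 0) (XT.lf (nat_lit 0) (nat_lit 36997633039) (nat_lit 532) (nat_lit 611340937) (nat_lit 532) (nat_lit 611340937) (nat_lit 81) (nat_lit 3) (nat_lit 88) (nat_lit 3) (nat_lit 88) (nat_lit 5) (nat_lit 361) (nat_lit 361) (nat_lit 298)) (XT.lf (nat_lit 76)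 (nat_lit 73546238054) (nat_lit 0) (nat_lit 7786481217) (nat_lit 532) (nat_lit 697928051) (nat_lit 82) (nat_lit 5) (nat_lit 81) (nat_lit 3) (nat_lit 88) (nat_lit 5) (nat_lit 362) (nat_lit 361) (nat_lit 297))))) (XT.nd (nat_lit 156) (nat_lit 532) (nat_lit 0) (XT.nd (nat_lit 78) (nat_lit 0) (nat_lit 76) (XT.lf (nat_lit 0) (nat_lit 4805641102) (nat_lit 532) (nat_lit 15177908555) (nat_lit 608) (nat_lit 68188324591) (nat_lit 75) (nat_lit 5) (nat_lit 82) (nat_lit 5) (nat_lit 83) (nat_lit 5) (nat_lit 363) (nat_lit 361) (nat_lit 296)) (XT.lf (nat_lit 0) (nat_lit 14871503213) (nat_lit 532) (nat_lit 21016604908) (nat_lit 608) (nat_lit 59042480964) (nat_lit 76) (nat_lit 5) (nat_lit 83) (nat_lit 5) (nat_lit 84) (nat_lit 5) (nat_lit 364) (nat_lit 361) (nat_lit 295))) (XT.nd (nat_lit 78) (nat_lit 684) (nat_lit 0) (XT.lf (nat_lit 0) (nat_lit 30494918363) (nat_lit 532) (nat_lit 25688203410) (nat_lit 76) (nat_lit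 46196176111) (nat_lit 77) (nat_lit 5) (nat_lit 84) (nat_lit 5) (nat_lit 78) (nat_lit 5) (nat_lit 365) (nat_lit 361) (nat_lit 294)) (XT.nd (nat_lit 78) (nat_lit 228) (nat_lit 0) (XT.lf (nat_lit 0) (nat_lit 52798284868) (nat_lit 532) (nat_lit 28840178509) (nat_lit 76) (nat_lit 28959935051) (nat_lit 71) (nat_lit 5) (nat_lit 78) (nat_lit 5) (nat_lit 72) (nat_lit 5) (nat_lit 366) (nat_lit 361) (nat_lit 293)) (XT.lf (nat_lit 0) (nat_lit 83091395520) (nat_lit 304) (nat_lit 30054017652) (nat_lit 76) (nat_lit 6533412227) (nat_lit 68) (nat_lit 5) (nat_lit 72) (nat_lit 5) (nat_lit 69) (nat_lit 5) (nat_lit 367) (nat_lit 361) (nat_lit 292))))))))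
noncomputable def xc86 : XT := (XT.nd (nat_lit 1404) (nat_lit 1672) (nat_lit 0) (XT.nd (nat_lit 702) (nat_lit 1216) (nat_lit 0) (XT.nd (nat_lit 312) (nat_lit 912) (nat_lit 0) (XT.nd (nat_lit 156) (nat_lit 380) (nat_lit 0) (XT.nd (nat_lit 78) (nat_lit 228) (nat_lit 0) (XT.lf (nat_lit 0) (nat_lit 100286680950) (nat_lit 228) (nat_lit 23171157216) (nat_lit 304) (nat_lit 6221129434) (nat_lit 65) (nat_lit 5) (nat_lit 68) (nat_lit 5) (nat_lit 69) (nat_lit 5) (nat_lit 368) (nat_lit 361) (nat_lit 291)) (XT.lf (nat_lit 0) (nat_lit 32994487934) (nat_lit 228) (nat_lit 26898147312) (nat_lit 76) (nat_lit 80772871711) (nat_lit 62) (nat_lit 5) (nat_lit 65) (nat_lit 5) (nat_lit 63) (nat_lit 5) (nat_lit 369) (nat_lit 361) (nat_lit 290))) (XT.nd (nat_lit 78) (nat_lit 152) (nat_lit 0) (XT.lf (nat_lit 0) (nat_lit 83654419050) (nat_lit 304) (nat_lit 21366453508) (nat_lit 76) (nat_lit 47791801415) (nat_lit 59)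 (nat_lit 5) (nat_lit 63) (nat_lit 5) (nat_lit 60) (nat_lit 5) (nat_lit 370) (nat_lit 361) (nat_lit 289)) (XT.lf (nat_lit 0) (nat_lit 148241878332) (nat_lit 228) (nat_lit 11940386854) (nat_lit 76) (nat_lit 6093368031) (nat_lit 57) (nat_lit 5) (nat_lit 60) (nat_lit 5) (nat_lit 58) (nat_lit 5) (nat_lit 371) (nat_lit 361) (nat_lit 288)))) (XT.nd (nat_lit 156) (nat_lit 380) (nat_lit 0) (XT.nd (nat_lit 78) (nat_lit 304) (nat_lit 0) (XT.lf (nat_lit 0) (nat_lit 46848931432) (nat_lit 228) (nat_lit 142356905) (nat_lit 76) (nat_lit 134038050005) (nat_lit 54) (nat_lit 5) (nat_lit 57) (nat_lit 5) (nat_lit 55) (nat_lit 5) (nat_lit 372) (nat_lit 361) (nat_lit 287)) (XT.lf (nat_lit 0) (nat_lit 16844916437) (nat_lit 152) (nat_lit 111686541139) (nat_lit 228) (nat_lit 68776350189) (nat_lit 50) (nat_lit 5) (nat_lit 52) (nat_lit 5) (nat_lit 53) (nat_lit 5) (nat_lit 373) (nat_lit 361) (nat_lit 286))) (XT.nd (nat_lit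 78) (nat_lit 228) (nat_lit 0) (XT.lf (nat_lit 0) (nat_lit 14440551713) (nat_lit 152) (nat_lit 175675148802) (nat_lit 76) (nat_lit 25234015317) (nat_lit 48) (nat_lit 5) (nat_lit 50) (nat_lit 5) (nat_lit 49) (nat_lit 5) (nat_lit 374) (nat_lit 361) (nat_lit 285)) (XT.nd (nat_lit 78) (nat_lit 76) (nat_lit 0) (XT.lf (nat_lit 0) (nat_lit 66268964184) (nat_lit 152) (nat_lit 49986598651) (nat_lit 228) (nat_lit 118884403395) (nat_lit 46) (nat_lit 5) (nat_lit 48) (nat_lit 5) (nat_lit 49) (nat_lit 5) (nat_lit 375) (nat_lit 361) (nat_lit 284)) (XT.lf (nat_lit 0) (nat_lit 99839861570) (nat_lit 76) (nat_lit 143824007918) (nat_lit 152) (nat_lit 13409201298) (nat_lit 45) (nat_lit 5) (nat_lit 46) (nat_lit 5) (nat_lit 47) (nat_lit 4) (nat_lit 376) (nat_lit 361) (nat_lit 283)))))) (XT.nd (nat_lit 312) (nat_lit 684) (nat_lit 0) (XT.nd (nat_lit 156) (nat_lit 228) (nat_lit 0) (XT.nd (nat_lit 78) (nat_lit 76) (nat_lit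 0) (XT.lf (nat_lit 0) (nat_lit 112953585774) (nat_lit 228) (nat_lit 141891694763) (nat_lit 76) (nat_lit 26406224166) (nat_lit 42) (nat_lit 5) (nat_lit 45) (nat_lit 5) (nat_lit 43) (nat_lit 4) (nat_lit 377) (nat_lit 361) (nat_lit 282)) (XT.lf (nat_lit 0) (nat_lit 186113925674) (nat_lit 76) (nat_lit 84535048681) (nat_lit 152) (nat_lit 37326093529) (nat_lit 41) (nat_lit 5) (nat_lit 42) (nat_lit 5) (nat_lit 43) (nat_lit 4) (nat_lit 378) (nat_lit 361) (nat_lit 281))) (XT.nd (nat_lit 78) (nat_lit 76) (nat_lit 0) (XT.lf (nat_lit 0) (nat_lit 120712145800) (nat_lit 152) (nat_lit 97841538624) (nat_lit 76) (nat_lit 118888472900) (nat_lit 39) (nat_lit 5) (nat_lit 41) (nat_lit 5) (nat_lit 40) (nat_lit 4) (nat_lit 379) (nat_lit 361) (nat_lit 280)) (XT.lf (nat_lit 0) (nat_lit 303325379108) (nat_lit 76) (nat_lit 10255742319) (nat_lit 152) (nat_lit 56603818358) (nat_lit 38) (nat_lit 5) (nat_lit 39) (nat_lit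 5) (nat_lit 40) (nat_lit 4) (nat_lit 380) (nat_lit 361) (nat_lit 279)))) (XT.nd (nat_lit 156) (nat_lit 380) (nat_lit 0) (XT.nd (nat_lit 78) (nat_lit 152) (nat_lit 0) (XT.lf (nat_lit 0) (nat_lit 139099397268) (nat_lit 152) (nat_lit 33750876913) (nat_lit 76) (nat_lit 233308417679) (nat_lit 36) (nat_lit 5) (nat_lit 38) (nat_lit 5) (nat_lit 37) (nat_lit 4) (nat_lit 381) (nat_lit 361) (nat_lit 278)) (XT.lf (nat_lit 0) (nat_lit 7172686571) (nat_lit 76) (nat_lit 369074621813) (nat_lit 76) (nat_lit 69928316807) (nat_lit 34) (nat_lit 4) (nat_lit 35) (nat_lit 5) (nat_lit 35) (nat_lit 4) (nat_lit 382) (nat_lit 361) (nat_lit 277))) (XT.nd (nat_lit 78) (nat_lit 228) (nat_lit 0) (XT.lf (nat_lit 0) (nat_lit 52807838070) (nat_lit 76) (nat_lit 116401034047) (nat_lit 152) (nat_lit 321062280196) (nat_lit 32) (nat_lit 5) (nat_lit 33) (nat_lit 5) (nat_lit 34) (nat_lit 4) (nat_lit 383) (nat_lit 361) (nat_lit 276))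 (XT.nd (nat_lit 78) (nat_lit 152) (nat_lit 0) (XT.lf (nat_lit 0) (nat_lit 103750344481) (nat_lit 76) (nat_lit 356240036926) (nat_lit 76) (nat_lit 79252179232) (nat_lit 31) (nat_lit 4) (nat_lit 32) (nat_lit 5) (nat_lit 32) (nat_lit 4) (nat_lit 384) (nat_lit 361) (nat_lit 275)) (XT.lf (nat_lit 0) (nat_lit 157649884978) (nat_lit 76) (nat_lit 51310672888) (nat_lit 152) (nat_lit 384610384172) (nat_lit 29) (nat_lit 5) (nat_lit 30) (nat_lit 5) (nat_lit 31) (nat_lit 4) (nat_lit 385) (nat_lit 361) (nat_lit 274))))))) (XT.nd (nat_lit 702) (nat_lit 684) (nat_lit 0) (XT.nd (nat_lit 312) (nat_lit 532) (nat_lit 0) (XT.nd (nat_lit 156) (nat_lit 228) (nat_lit 0) (XT.nd (nat_lit 78) (nat_lit 152) (nat_lit 0) (XT.lf (nat_lit 0) (nat_lit 211983552157) (nat_lit 76) (nat_lit 349167926587) (nat_lit 76) (nat_lit 92697311140) (nat_lit 28) (nat_lit 4) (nat_lit 29) (nat_lit 5) (nat_lit 29) (nat_lit 4) (nat_lit 386)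 (nat_lit 361) (nat_lit 273)) (XT.lf (nat_lit 0) (nat_lit 252079603261) (nat_lit 152) (nat_lit 454315875034) (nat_lit 0) (nat_lit 14606670057) (nat_lit 26) (nat_lit 5) (nat_lit 28) (nat_lit 4) (nat_lit 26) (nat_lit 4) (nat_lit 387) (nat_lit 361) (nat_lit 272))) (XT.nd (nat_lit 78) (nat_lit 152) (nat_lit 0) (XT.lf (nat_lit 0) (nat_lit 314242921738) (nat_lit 76) (nat_lit 359410259820) (nat_lit 76) (nat_lit 121937203899) (nat_lit 25) (nat_lit 4) (nat_lit 26) (nat_lit 5) (nat_lit 26) (nat_lit 4) (nat_lit 388) (nat_lit 361) (nat_lit 271)) (XT.lf (nat_lit 0) (nat_lit 287069515216) (nat_lit 152) (nat_lit 524670449550) (nat_lit 0) (nat_lit 67186957225) (nat_lit 23) (nat_lit 5) (nat_lit 25) (nat_lit 4) (nat_lit 23) (nat_lit 4) (nat_lit 389) (nat_lit 361) (nat_lit 270)))) (XT.nd (nat_lit 156) (nat_lit 304) (nat_lit 0) (XT.nd (nat_lit 78) (nat_lit 152) (nat_lit 0) (XT.lf (nat_lit 0) (nat_lit 375829964774)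 (nat_lit 76) (nat_lit 407939144654) (nat_lit 76) (nat_lit 188056500746) (nat_lit 22) (nat_lit 4) (nat_lit 23) (nat_lit 5) (nat_lit 23) (nat_lit 4) (nat_lit 390) (nat_lit 361) (nat_lit 269)) (XT.lf (nat_lit 0) (nat_lit 289417444300) (nat_lit 152) (nat_lit 700733671070) (nat_lit 0) (nat_lit 85822334468) (nat_lit 20) (nat_lit 5) (nat_lit 22) (nat_lit 4) (nat_lit 20) (nat_lit 4) (nat_lit 391) (nat_lit 361) (nat_lit 268))) (XT.nd (nat_lit 78) (nat_lit 228) (nat_lit 0) (XT.lf (nat_lit 0) (nat_lit 333652345493) (nat_lit 76) (nat_lit 531150735852) (nat_lit 76) (nat_lit 327555565866) (nat_lit 19) (nat_lit 4) (nat_lit 20) (nat_lit 5) (nat_lit 20) (nat_lit 4) (nat_lit 392) (nat_lit 361) (nat_lit 267)) (XT.nd (nat_lit 78) (nat_lit 76) (nat_lit 0) (XT.lf (nat_lit 0) (nat_lit 217917877576) (nat_lit 152) (nat_lit 1076283195757) (nat_lit 0) (nat_lit 29403782860) (nat_lit 17) (nat_lit 5) (nat_lit 19) (nat_lit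 4) (nat_lit 17) (nat_lit 4) (nat_lit 393) (nat_lit 361) (nat_lit 266)) (XT.lf (nat_lit 0) (nat_lit 78230199304) (nat_lit 76) (nat_lit 790359747400) (nat_lit 76) (nat_lit 601845610567) (nat_lit 16) (nat_lit 4) (nat_lit 17) (nat_lit 5) (nat_lit 17) (nat_lit 4) (nat_lit 394) (nat_lit 361) (nat_lit 265)))))) (XT.nd (nat_lit 390) (nat_lit 304) (nat_lit 0) (XT.nd (nat_lit 156) (nat_lit 228) (nat_lit 0) (XT.nd (nat_lit 78) (nat_lit 76) (nat_lit 0) (XT.lf (nat_lit 0) (nat_lit 10842332414) (nat_lit 152) (nat_lit 165962122031) (nat_lit 76) (nat_lit 1459957686377) (nat_lit 15) (nat_lit 5) (nat_lit 17) (nat_lit 5) (nat_lit 16) (nat_lit 4) (nat_lit 395) (nat_lit 361) (nat_lit 264)) (XT.lf (nat_lit 0) (nat_lit 725845037838) (nat_lit 152) (nat_lit 545963434265) (nat_lit 0) (nat_lit 551294847746) (nat_lit 14) (nat_lit 5) (nat_lit 16) (nat_lit 4) (nat_lit 14) (nat_lit 4) (nat_lit 396) (nat_lit 361) (nat_lit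 263))) (XT.nd (nat_lit 78) (nat_lit 152) (nat_lit 0) (XT.lf (nat_lit 0) (nat_lit 952373863370) (nat_lit 76) (nat_lit 628475947572) (nat_lit 76) (nat_lit 453925731839) (nat_lit 13) (nat_lit 4) (nat_lit 14) (nat_lit 5) (nat_lit 14) (nat_lit 4) (nat_lit 397) (nat_lit 361) (nat_lit 262)) (XT.nd (nat_lit 78) (nat_lit 0) (nat_lit 0) (XT.lf (nat_lit 0) (nat_lit 302213537818) (nat_lit 152) (nat_lit 1832393305400) (nat_lit 0) (nat_lit 140592947050) (nat_lit 11) (nat_lit 5) (nat_lit 13) (nat_lit 4) (nat_lit 11) (nat_lit 4) (nat_lit 398) (nat_lit 361) (nat_lit 261)) (XT.lf (nat_lit 0) (nat_lit 1195373775262) (nat_lit 152) (nat_lit 317579307087) (nat_lit 0) (nat_lit 1033753166543) (nat_lit 11) (nat_lit 5) (nat_lit 13) (nat_lit 4) (nat_lit 11) (nat_lit 4) (nat_lit 399) (nat_lit 361) (nat_lit 260))))) (XT.nd (nat_lit 156) (nat_lit 76) (nat_lit 0) (XT.nd (nat_lit 78) (nat_lit 152) (nat_lit 0) (XT.lf (nat_lit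 0) (nat_lit 1499465770021) (nat_lit 76) (nat_lit 759104285040) (nat_lit 76) (nat_lit 597483660710) (nat_lit 10) (nat_lit 4) (nat_lit 11) (nat_lit 5) (nat_lit 11) (nat_lit 4) (nat_lit 400) (nat_lit 361) (nat_lit 259)) (XT.lf (nat_lit 0) (nat_lit 278600903498) (nat_lit 152) (nat_lit 2801920863995) (nat_lit 0) (nat_lit 128952164698) (nat_lit 8) (nat_lit 5) (nat_lit 10) (nat_lit 4) (nat_lit 8) (nat_lit 4) (nat_lit 401) (nat_lit 361) (nat_lit 258))) (XT.nd (nat_lit 78) (nat_lit 76) (nat_lit 0) (XT.lf (nat_lit 0) (nat_lit 1313242563383) (nat_lit 152) (nat_lit 1132827510653) (nat_lit 0) (nat_lit 1163593813654) (nat_lit 8) (nat_lit 5) (nat_lit 10) (nat_lit 4) (nat_lit 8) (nat_lit 4) (nat_lit 402) (nat_lit 361) (nat_lit 257)) (XT.nd (nat_lit 78) (nat_lit 0) (nat_lit 0) (XT.lf (nat_lit 0) (nat_lit 828052079031) (nat_lit 76) (nat_lit 1694942927007) (nat_lit 76) (nat_lit 1545294167774) (nat_lit 7) (nat_lit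 4) (nat_lit 8) (nat_lit 5) (nat_lit 8) (nat_lit 4) (nat_lit 403) (nat_lit 361) (nat_lit 256)) (XT.lf (nat_lit 0) (nat_lit 3151663938580) (nat_lit 76) (nat_lit 795527303794) (nat_lit 76) (nat_lit 645878536297) (nat_lit 7) (nat_lit 4) (nat_lit 8) (nat_lit 5) (nat_lit 8) (nat_lit 4) (nat_lit 404) (nat_lit 361) (nat_lit 255))))))))
noncomputable def xc87 : XT := (XT.nd (nat_lit 49998) (nat_lit 0) (nat_lit 2508) (XT.nd (nat_lit 702) (nat_lit 76) (nat_lit 0) (XT.nd (nat_lit 312) (nat_lit 152) (nat_lit 0) (XT.nd (nat_lit 156) (nat_lit 76) (nat_lit 0) (XT.nd (nat_lit 78) (nat_lit 0) (nat_lit 0) (XT.lf (nat_lit 0) (nat_lit 391052875751) (nat_lit 152) (nat_lit 4550515205544) (nat_lit 0) (nat_lit 252489195489) (nat_lit 5) (nat_lit 5) (nat_lit 7) (nat_lit 4) (nat_lit 5) (nat_lit 4) (nat_lit 405) (nat_lit 361) (nat_lit 254)) (XT.lf (nat_lit 0) (nat_lit 1611425312252) (nat_lit 152) (nat_lit 2794272313529)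 (nat_lit 0) (nat_lit 1472861626204) (nat_lit 5) (nat_lit 5) (nat_lit 7) (nat_lit 4) (nat_lit 5) (nat_lit 4) (nat_lit 406) (nat_lit 361) (nat_lit 253))) (XT.nd (nat_lit 78) (nat_lit 76) (nat_lit 0) (XT.lf (nat_lit 0) (nat_lit 3014853521915) (nat_lit 152) (nat_lit 774593178102) (nat_lit 0) (nat_lit 2876289830836) (nat_lit 5) (nat_lit 5) (nat_lit 7) (nat_lit 4) (nat_lit 5) (nat_lit 4) (nat_lit 407) (nat_lit 361) (nat_lit 252)) (XT.lf (nat_lit 0) (nat_lit 1629554582009) (nat_lit 76) (nat_lit 3038432127633) (nat_lit 76) (nat_lit 2899868432179) (nat_lit 4) (nat_lit 4) (nat_lit 5) (nat_lit 5) (nat_lit 5) (nat_lit 4) (nat_lit 408) (nat_lit 361) (nat_lit 251)))) (XT.nd (nat_lit 156) (nat_lit 152) (nat_lit 0) (XT.nd (nat_lit 78) (nat_lit 0) (nat_lit 0) (XT.lf (nat_lit 0) (nat_lit 4441231364265) (nat_lit 76) (nat_lit 2150409884773) (nat_lit 76) (nat_lit 2011846185515) (nat_lit 4) (nat_lit 4) (nat_lit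 5) (nat_lit 5) (nat_lit 5) (nat_lit 4) (nat_lit 409) (nat_lit 361) (nat_lit 250)) (XT.lf (nat_lit 0) (nat_lit 7674659532084) (nat_lit 76) (nat_lit 1129184373395) (nat_lit 76) (nat_lit 990620670828) (nat_lit 4) (nat_lit 4) (nat_lit 5) (nat_lit 5) (nat_lit 5) (nat_lit 4) (nat_lit 410) (nat_lit 361) (nat_lit 249))) (XT.nd (nat_lit 78) (nat_lit 0) (nat_lit 0) (XT.lf (nat_lit 0) (nat_lit 181630823507) (nat_lit 152) (nat_lit 10928209879325) (nat_lit 0) (nat_lit 53331096244) (nat_lit 2) (nat_lit 5) (nat_lit 4) (nat_lit 4) (nat_lit 2) (nat_lit 4) (nat_lit 411) (nat_lit 361) (nat_lit 248)) (XT.nd (nat_lit 78) (nat_lit 0) (nat_lit 0) (XT.lf (nat_lit 0) (nat_lit 1567281201839) (nat_lit 152) (nat_lit 9721166641951) (nat_lit 0) (nat_lit 1438981472260) (nat_lit 2) (nat_lit 5) (nat_lit 4) (nat_lit 4) (nat_lit 2) (nat_lit 4) (nat_lit 412) (nat_lit 361) (nat_lit 247)) (XT.lf (nat_lit 0) (nat_lit 3160779090424)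 (nat_lit 152) (nat_lit 8333067015034) (nat_lit 0) (nat_lit 3032479358832) (nat_lit 2) (nat_lit 5) (nat_lit 4) (nat_lit 4) (nat_lit 2) (nat_lit 4) (nat_lit 413) (nat_lit 361) (nat_lit 246)))))) (XT.nd (nat_lit 312) (nat_lit 76) (nat_lit 0) (XT.nd (nat_lit 156) (nat_lit 0) (nat_lit 0) (XT.nd (nat_lit 78) (nat_lit 0) (nat_lit 0) (XT.lf (nat_lit 0) (nat_lit 4993301621867) (nat_lit 152) (nat_lit 6736752527612) (nat_lit 0) (nat_lit 4865001888523) (nat_lit 2) (nat_lit 5) (nat_lit 4) (nat_lit 4) (nat_lit 2) (nat_lit 4) (nat_lit 414) (nat_lit 361) (nat_lit 245)) (XT.lf (nat_lit 0) (nat_lit 7100702497867) (nat_lit 152) (nat_lit 4900990939714) (nat_lit 0) (nat_lit 6972402763001) (nat_lit 2) (nat_lit 5) (nat_lit 4) (nat_lit 4) (nat_lit 2) (nat_lit 4) (nat_lit 415) (nat_lit 361) (nat_lit 244))) (XT.nd (nat_lit 78) (nat_lit 0) (nat_lit 0) (XT.lf (nat_lit 0) (nat_lit 9524213474696) (nat_lit 152) (nat_lit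 2789865176794) (nat_lit 0) (nat_lit 9395913738505) (nat_lit 2) (nat_lit 5) (nat_lit 4) (nat_lit 4) (nat_lit 2) (nat_lit 4) (nat_lit 416) (nat_lit 361) (nat_lit 243)) (XT.lf (nat_lit 0) (nat_lit 12311251071465) (nat_lit 152) (nat_lit 362070604360) (nat_lit 0) (nat_lit 12182951334123) (nat_lit 2) (nat_lit 5) (nat_lit 4) (nat_lit 4) (nat_lit 2) (nat_lit 4) (nat_lit 417) (nat_lit 361) (nat_lit 242)))) (XT.nd (nat_lit 48750) (nat_lit 0) (nat_lit 5624) (XT.nd (nat_lit 78) (nat_lit 0) (nat_lit 0) (XT.lf (nat_lit 0) (nat_lit 2557846971010) (nat_lit 76) (nat_lit 13020013594791) (nat_lit 76) (nat_lit 12891713856447) (nat_lit 1) (nat_lit 4) (nat_lit 2) (nat_lit 5) (nat_lit 2) (nat_lit 4) (nat_lit 418) (nat_lit 361) (nat_lit 241)) (XT.lf (nat_lit 0) (nat_lit 5937678034807) (nat_lit 76) (nat_lit 13407324724404) (nat_lit 76) (nat_lit 13279024985190) (nat_lit 1) (nat_lit 4) (nat_lit 2) (nat_lit 5) (nat_lit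 2) (nat_lit 4) (nat_lit 419) (nat_lit 361) (nat_lit 240))) (XT.nd (nat_lit 78) (nat_lit 456) (nat_lit 0) (XT.lf (nat_lit 0) (nat_lit 42565509882) (nat_lit 532) (nat_lit 693194421) (nat_lit 532) (nat_lit 693194421) (nat_lit 81) (nat_lit 3) (nat_lit 88) (nat_lit 3) (nat_lit 88) (nat_lit 5) (nat_lit 362) (nat_lit 362) (nat_lit 296)) (XT.nd (nat_lit 78) (nat_lit 456) (nat_lit 0) (XT.lf (nat_lit 76) (nat_lit 84596201964) (nat_lit 0) (nat_lit 8968566405) (nat_lit 532) (nat_lit 767896276) (nat_lit 82) (nat_lit 5) (nat_lit 81) (nat_lit 3) (nat_lit 88) (nat_lit 5) (nat_lit 363) (nat_lit 362) (nat_lit 295)) (XT.lf (nat_lit 0) (nat_lit 5555339400) (nat_lit 532) (nat_lit 17433894407) (nat_lit 608) (nat_lit 78406106581) (nat_lit 75) (nat_lit 5) (nat_lit 82) (nat_lit 5) (nat_lit 83) (nat_lit 5) (nat_lit 364) (nat_lit 362) (nat_lit 294))))))) (XT.nd (nat_lit 702) (nat_lit 1520) (nat_lit 0) (XT.nd (nat_lit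 312) (nat_lit 1064) (nat_lit 0) (XT.nd (nat_lit 156) (nat_lit 608) (nat_lit 0) (XT.nd (nat_lit 78) (nat_lit 0) (nat_lit 76) (XT.lf (nat_lit 0) (nat_lit 17127614572) (nat_lit 532) (nat_lit 24147939264) (nat_lit 608) (nat_lit 67892586807) (nat_lit 76) (nat_lit 5) (nat_lit 83) (nat_lit 5) (nat_lit 84) (nat_lit 5) (nat_lit 365) (nat_lit 362) (nat_lit 293)) (XT.lf (nat_lit 0) (nat_lit 35091620182) (nat_lit 532) (nat_lit 29520183574) (nat_lit 76) (nat_lit 53122586525) (nat_lit 77) (nat_lit 5) (nat_lit 84) (nat_lit 5) (nat_lit 78) (nat_lit 5) (nat_lit 366) (nat_lit 362) (nat_lit 292))) (XT.nd (nat_lit 78) (nat_lit 228) (nat_lit 0) (XT.lf (nat_lit 0) (nat_lit 60738016147) (nat_lit 532) (nat_lit 33145135811) (nat_lit 76) (nat_lit 33303402662) (nat_lit 71) (nat_lit 5) (nat_lit 78) (nat_lit 5) (nat_lit 72) (nat_lit 5) (nat_lit 367) (nat_lit 362) (nat_lit 291)) (XT.lf (nat_lit 0) (nat_lit 95572984677)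 (nat_lit 304) (nat_lit 34541437388) (nat_lit 76) (nat_lit 7514792854) (nat_lit 68) (nat_lit 5) (nat_lit 72) (nat_lit 5) (nat_lit 69) (nat_lit 5) (nat_lit 368) (nat_lit 362) (nat_lit 290)))) (XT.nd (nat_lit 156) (nat_lit 608) (nat_lit 0) (XT.nd (nat_lit 78) (nat_lit 228) (nat_lit 0) (XT.lf (nat_lit 0) (nat_lit 115348615299) (nat_lit 228) (nat_lit 26643901590) (nat_lit 304) (nat_lit 7137012218) (nat_lit 65) (nat_lit 5) (nat_lit 68) (nat_lit 5) (nat_lit 69) (nat_lit 5) (nat_lit 369) (nat_lit 362) (nat_lit 289)) (XT.lf (nat_lit 0) (nat_lit 37958458879) (nat_lit 228) (nat_lit 30913647268) (nat_lit 76) (nat_lit 92892040301) (nat_lit 62) (nat_lit 5) (nat_lit 65) (nat_lit 5) (nat_lit 63) (nat_lit 5) (nat_lit 370) (nat_lit 362) (nat_lit 288))) (XT.nd (nat_lit 78) (nat_lit 380) (nat_lit 0) (XT.lf (nat_lit 0) (nat_lit 96215976202) (nat_lit 304) (nat_lit 24552864333) (nat_lit 76) (nat_lit 54964660616)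 (nat_lit 59) (nat_lit 5) (nat_lit 63) (nat_lit 5) (nat_lit 60) (nat_lit 5) (nat_lit 371) (nat_lit 362) (nat_lit 287)) (XT.nd (nat_lit 78) (nat_lit 228) (nat_lit 0) (XT.lf (nat_lit 0) (nat_lit 170490334401) (nat_lit 228) (nat_lit 13713610512) (nat_lit 76) (nat_lit 7012057273) (nat_lit 57) (nat_lit 5) (nat_lit 60) (nat_lit 5) (nat_lit 58) (nat_lit 5) (nat_lit 372) (nat_lit 362) (nat_lit 286)) (XT.lf (nat_lit 0) (nat_lit 53887536998) (nat_lit 228) (nat_lit 146790759) (nat_lit 76) (nat_lit 154148508405) (nat_lit 54) (nat_lit 5) (nat_lit 57) (nat_lit 5) (nat_lit 55) (nat_lit 5) (nat_lit 373) (nat_lit 362) (nat_lit 285)))))) (XT.nd (nat_lit 390) (nat_lit 608) (nat_lit 0) (XT.nd (nat_lit 156) (nat_lit 456) (nat_lit 0) (XT.nd (nat_lit 78) (nat_lit 152) (nat_lit 0) (XT.lf (nat_lit 0) (nat_lit 19388680184) (nat_lit 152) (nat_lit 128433202293) (nat_lit 228) (nat_lit 79081238506) (nat_lit 50) (nat_lit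 5) (nat_lit 52) (nat_lit 5) (nat_lit 53) (nat_lit 5) (nat_lit 374) (nat_lit 362) (nat_lit 284)) (XT.lf (nat_lit 0) (nat_lit 16616723379) (nat_lit 152) (nat_lit 202009657407) (nat_lit 76) (nat_lit 29024984145) (nat_lit 48) (nat_lit 5) (nat_lit 50) (nat_lit 5) (nat_lit 49) (nat_lit 5) (nat_lit 375) (nat_lit 362) (nat_lit 283))) (XT.nd (nat_lit 78) (nat_lit 304) (nat_lit 0) (XT.lf (nat_lit 0) (nat_lit 76224653562) (nat_lit 152) (nat_lit 57478385704) (nat_lit 228) (nat_lit 136707189526) (nat_lit 46) (nat_lit 5) (nat_lit 48) (nat_lit 5) (nat_lit 49) (nat_lit 5) (nat_lit 376) (nat_lit 362) (nat_lit 282)) (XT.nd (nat_lit 78) (nat_lit 228) (nat_lit 0) (XT.lf (nat_lit 0) (nat_lit 114830420532) (nat_lit 76) (nat_lit 165391459311) (nat_lit 152) (nat_lit 15411476287) (nat_lit 45) (nat_lit 5) (nat_lit 46) (nat_lit 5) (nat_lit 47) (nat_lit 4) (nat_lit 377) (nat_lit 362) (nat_lit 281)) (XT.lf (nat_lit 0)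 (nat_lit 129904618304) (nat_lit 228) (nat_lit 163161198925) (nat_lit 76) (nat_lit 30372772897) (nat_lit 42) (nat_lit 5) (nat_lit 45) (nat_lit 5) (nat_lit 43) (nat_lit 4) (nat_lit 378) (nat_lit 362) (nat_lit 280))))) (XT.nd (nat_lit 156) (nat_lit 380) (nat_lit 0) (XT.nd (nat_lit 78) (nat_lit 152) (nat_lit 0) (XT.lf (nat_lit 0) (nat_lit 214044058381) (nat_lit 76) (nat_lit 97209527714) (nat_lit 152) (nat_lit 42917160109) (nat_lit 41) (nat_lit 5) (nat_lit 42) (nat_lit 5) (nat_lit 43) (nat_lit 4) (nat_lit 379) (nat_lit 362) (nat_lit 279)) (XT.lf (nat_lit 0) (nat_lit 138825878775) (nat_lit 152) (nat_lit 112505059829) (nat_lit 76) (nat_lit 136726988933) (nat_lit 39) (nat_lit 5) (nat_lit 41) (nat_lit 5) (nat_lit 40) (nat_lit 4) (nat_lit 380) (nat_lit 362) (nat_lit 278))) (XT.nd (nat_lit 78) (nat_lit 304) (nat_lit 0) (XT.lf (nat_lit 0) (nat_lit 348835819759) (nat_lit 76) (nat_lit 11788759332) (nat_lit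 152) (nat_lit 65087598074) (nat_lit 38) (nat_lit 5) (nat_lit 39) (nat_lit 5) (nat_lit 40) (nat_lit 4) (nat_lit 381) (nat_lit 362) (nat_lit 277)) (XT.nd (nat_lit 78) (nat_lit 152) (nat_lit 0) (XT.lf (nat_lit 0) (nat_lit 159970304259) (nat_lit 152) (nat_lit 38802199936) (nat_lit 76) (nat_lit 268309511304) (nat_lit 36) (nat_lit 5) (nat_lit 38) (nat_lit 5) (nat_lit 37) (nat_lit 4) (nat_lit 382) (nat_lit 362) (nat_lit 276)) (XT.lf (nat_lit 0) (nat_lit 8259822678) (nat_lit 76) (nat_lit 424430433739) (nat_lit 76) (nat_lit 80411244110) (nat_lit 34) (nat_lit 4) (nat_lit 35) (nat_lit 5) (nat_lit 35) (nat_lit 4) (nat_lit 383) (nat_lit 362) (nat_lit 275))))))))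
noncomputable def xc88 : XT := (XT.nd (nat_lit 1404) (nat_lit 684) (nat_lit 0) (XT.nd (nat_lit 702) (nat_lit 760) (nat_lit 0) (XT.nd (nat_lit 312) (nat_lit 608) (nat_lit 0) (XT.nd (nat_lit 156) (nat_lit 228) (nat_lit 0) (XT.nd (nat_lit 78) (nat_lit 76) (nat_lit 0) (XT.lf (nat_lit 0) (nat_lit 60739585731) (nat_lit 76) (nat_lit 133856092377) (nat_lit 152) (nat_lit 369215708795) (nat_lit 32) (nat_lit 5) (nat_lit 33) (nat_lit 5) (nat_lit 34) (nat_lit 4) (nat_lit 384) (nat_lit 362) (nat_lit 274)) (XT.lf (nat_lit 0) (nat_lit 119322862199) (nat_lit 76) (nat_lit 409671183711) (nat_lit 76) (nat_lit 91134490028) (nat_lit 31) (nat_lit 4) (nat_lit 32) (nat_lit 5) (nat_lit 32) (nat_lit 4) (nat_lit 385) (nat_lit 362) (nat_lit 273))) (XT.nd (nat_lit 78) (nat_lit 76) (nat_lit 0) (XT.lf (nat_lit 0) (nat_lit 181306742955) (nat_lit 76) (nat_lit 59002680720) (nat_lit 152) (nat_lit 442296776929) (nat_lit 29)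 (nat_lit 5) (nat_lit 30) (nat_lit 5) (nat_lit 31) (nat_lit 4) (nat_lit 386) (nat_lit 362) (nat_lit 272)) (XT.lf (nat_lit 0) (nat_lit 243789915874) (nat_lit 76) (nat_lit 401538751493) (nat_lit 76) (nat_lit 106597083507) (nat_lit 28) (nat_lit 4) (nat_lit 29) (nat_lit 5) (nat_lit 29) (nat_lit 4) (nat_lit 387) (nat_lit 362) (nat_lit 271)))) (XT.nd (nat_lit 156) (nat_lit 380) (nat_lit 0) (XT.nd (nat_lit 78) (nat_lit 76) (nat_lit 0) (XT.lf (nat_lit 0) (nat_lit 289895827741) (nat_lit 152) (nat_lit 522454716020) (nat_lit 0) (nat_lit 16801584007) (nat_lit 26) (nat_lit 5) (nat_lit 28) (nat_lit 4) (nat_lit 26) (nat_lit 4) (nat_lit 388) (nat_lit 362) (nat_lit 270)) (XT.lf (nat_lit 0) (nat_lit 361387177377) (nat_lit 76) (nat_lit 413317894631) (nat_lit 76) (nat_lit 140223558106) (nat_lit 25) (nat_lit 4) (nat_lit 26) (nat_lit 5) (nat_lit 26) (nat_lit 4) (nat_lit 389) (nat_lit 362) (nat_lit 269))) (XT.nd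 (nat_lit 78) (nat_lit 228) (nat_lit 0) (XT.lf (nat_lit 0) (nat_lit 330133699051) (nat_lit 152) (nat_lit 603363462704) (nat_lit 0) (nat_lit 77268497928) (nat_lit 23) (nat_lit 5) (nat_lit 25) (nat_lit 4) (nat_lit 23) (nat_lit 4) (nat_lit 390) (nat_lit 362) (nat_lit 268)) (XT.nd (nat_lit 78) (nat_lit 152) (nat_lit 0) (XT.lf (nat_lit 0) (nat_lit 432211374337) (nat_lit 76) (nat_lit 469126534375) (nat_lit 76) (nat_lit 216261268286) (nat_lit 22) (nat_lit 4) (nat_lit 23) (nat_lit 5) (nat_lit 23) (nat_lit 4) (nat_lit 391) (nat_lit 362) (nat_lit 267)) (XT.lf (nat_lit 0) (nat_lit 332833358847) (nat_lit 152) (nat_lit 805837043674) (nat_lit 0) (nat_lit 98698800902) (nat_lit 20) (nat_lit 5) (nat_lit 22) (nat_lit 4) (nat_lit 20) (nat_lit 4) (nat_lit 392) (nat_lit 362) (nat_lit 266)))))) (XT.nd (nat_lit 312) (nat_lit 380) (nat_lit 0) (XT.nd (nat_lit 156) (nat_lit 152) (nat_lit 0) (XT.nd (nat_lit 78) (nat_lit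 152) (nat_lit 0) (XT.lf (nat_lit 0) (nat_lit 383706310109) (nat_lit 76) (nat_lit 610820248191) (nat_lit 76) (nat_lit 376685644761) (nat_lit 19) (nat_lit 4) (nat_lit 20) (nat_lit 5) (nat_lit 20) (nat_lit 4) (nat_lit 393) (nat_lit 362) (nat_lit 265)) (XT.lf (nat_lit 0) (nat_lit 250608457173) (nat_lit 152) (nat_lit 1237719774492) (nat_lit 0) (nat_lit 33817121079) (nat_lit 17) (nat_lit 5) (nat_lit 19) (nat_lit 4) (nat_lit 17) (nat_lit 4) (nat_lit 394) (nat_lit 362) (nat_lit 264))) (XT.nd (nat_lit 78) (nat_lit 76) (nat_lit 0) (XT.lf (nat_lit 0) (nat_lit 89970130369) (nat_lit 76) (nat_lit 908910958204) (nat_lit 76) (nat_lit 692119590264) (nat_lit 16) (nat_lit 4) (nat_lit 17) (nat_lit 5) (nat_lit 17) (nat_lit 4) (nat_lit 395) (nat_lit 362) (nat_lit 263)) (XT.lf (nat_lit 0) (nat_lit 12471046386) (nat_lit 152) (nat_lit 190851619149) (nat_lit 76) (nat_lit 1678953607255) (nat_lit 15) (nat_lit 5) (nat_lit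 17) (nat_lit 5) (nat_lit 16) (nat_lit 4) (nat_lit 396) (nat_lit 362) (nat_lit 262)))) (XT.nd (nat_lit 156) (nat_lit 228) (nat_lit 0) (XT.nd (nat_lit 78) (nat_lit 76) (nat_lit 0) (XT.lf (nat_lit 0) (nat_lit 834724009538) (nat_lit 152) (nat_lit 627853417473) (nat_lit 0) (nat_lit 633991213508) (nat_lit 14) (nat_lit 5) (nat_lit 16) (nat_lit 4) (nat_lit 14) (nat_lit 4) (nat_lit 397) (nat_lit 362) (nat_lit 261)) (XT.lf (nat_lit 0) (nat_lit 1095234091202) (nat_lit 76) (nat_lit 722745218127) (nat_lit 76) (nat_lit 522012402709) (nat_lit 13) (nat_lit 4) (nat_lit 14) (nat_lit 5) (nat_lit 14) (nat_lit 4) (nat_lit 398) (nat_lit 362) (nat_lit 260))) (XT.nd (nat_lit 78) (nat_lit 76) (nat_lit 0) (XT.lf (nat_lit 0) (nat_lit 347547518398) (nat_lit 152) (nat_lit 2107248299593) (nat_lit 0) (nat_lit 161683784808) (nat_lit 11) (nat_lit 5) (nat_lit 13) (nat_lit 4) (nat_lit 11) (nat_lit 4) (nat_lit 399) (nat_lit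 362) (nat_lit 259)) (XT.nd (nat_lit 78) (nat_lit 76) (nat_lit 0) (XT.lf (nat_lit 0) (nat_lit 1374681537123) (nat_lit 152) (nat_lit 365212723483) (nat_lit 0) (nat_lit 1188817789959) (nat_lit 11) (nat_lit 5) (nat_lit 13) (nat_lit 4) (nat_lit 11) (nat_lit 4) (nat_lit 400) (nat_lit 362) (nat_lit 258)) (XT.lf (nat_lit 0) (nat_lit 1724388820655) (nat_lit 76) (nat_lit 872968293677) (nat_lit 76) (nat_lit 687104534710) (nat_lit 10) (nat_lit 4) (nat_lit 11) (nat_lit 5) (nat_lit 11) (nat_lit 4) (nat_lit 401) (nat_lit 362) (nat_lit 257))))))) (XT.nd (nat_lit 702) (nat_lit 228) (nat_lit 0) (XT.nd (nat_lit 312) (nat_lit 228) (nat_lit 0) (XT.nd (nat_lit 156) (nat_lit 76) (nat_lit 0) (XT.nd (nat_lit 78) (nat_lit 0) (nat_lit 0) (XT.lf (nat_lit 0) (nat_lit 320392531688) (nat_lit 152) (nat_lit 3222205921842) (nat_lit 0) (nat_lit 148296449067) (nat_lit 8) (nat_lit 5) (nat_lit 10) (nat_lit 4) (nat_lit 8) (nat_lit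 4) (nat_lit 402) (nat_lit 362) (nat_lit 256)) (XT.lf (nat_lit 0) (nat_lit 1510230245861) (nat_lit 152) (nat_lit 1302748966162) (nat_lit 0) (nat_lit 1338134154975) (nat_lit 8) (nat_lit 5) (nat_lit 10) (nat_lit 4) (nat_lit 8) (nat_lit 4) (nat_lit 403) (nat_lit 362) (nat_lit 255))) (XT.nd (nat_lit 78) (nat_lit 0) (nat_lit 0) (XT.lf (nat_lit 0) (nat_lit 952262335881) (nat_lit 76) (nat_lit 1949183108534) (nat_lit 76) (nat_lit 1777087010463) (nat_lit 7) (nat_lit 4) (nat_lit 8) (nat_lit 5) (nat_lit 8) (nat_lit 4) (nat_lit 404) (nat_lit 362) (nat_lit 254)) (XT.lf (nat_lit 0) (nat_lit 3624415655450) (nat_lit 76) (nat_lit 914855305864) (nat_lit 76) (nat_lit 742759201544) (nat_lit 7) (nat_lit 4) (nat_lit 8) (nat_lit 5) (nat_lit 8) (nat_lit 4) (nat_lit 405) (nat_lit 362) (nat_lit 253)))) (XT.nd (nat_lit 156) (nat_lit 76) (nat_lit 0) (XT.nd (nat_lit 78) (nat_lit 0) (nat_lit 0) (XT.lf (nat_lit 0) (nat_lit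 449711801095) (nat_lit 152) (nat_lit 5233090436360) (nat_lit 0) (nat_lit 290363551323) (nat_lit 5) (nat_lit 5) (nat_lit 7) (nat_lit 4) (nat_lit 5) (nat_lit 4) (nat_lit 406) (nat_lit 362) (nat_lit 252)) (XT.lf (nat_lit 0) (nat_lit 1853139973421) (nat_lit 152) (nat_lit 3213411377936) (nat_lit 0) (nat_lit 1693791719274) (nat_lit 5) (nat_lit 5) (nat_lit 7) (nat_lit 4) (nat_lit 5) (nat_lit 4) (nat_lit 407) (nat_lit 362) (nat_lit 251))) (XT.nd (nat_lit 78) (nat_lit 76) (nat_lit 0) (XT.lf (nat_lit 0) (nat_lit 3467082301795) (nat_lit 152) (nat_lit 890780604711) (nat_lit 0) (nat_lit 3307734043843) (nat_lit 5) (nat_lit 5) (nat_lit 7) (nat_lit 4) (nat_lit 5) (nat_lit 4) (nat_lit 408) (nat_lit 362) (nat_lit 250)) (XT.nd (nat_lit 78) (nat_lit 0) (nat_lit 0) (XT.lf (nat_lit 0) (nat_lit 1873989188208) (nat_lit 76) (nat_lit 3494196215564) (nat_lit 76) (nat_lit 3334847954304) (nat_lit 4) (nat_lit 4) (nat_lit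 5) (nat_lit 5) (nat_lit 5) (nat_lit 4) (nat_lit 409) (nat_lit 362) (nat_lit 249)) (XT.lf (nat_lit 0) (nat_lit 5107417302729) (nat_lit 76) (nat_lit 2472970731651) (nat_lit 76) (nat_lit 2313622467515) (nat_lit 4) (nat_lit 4) (nat_lit 5) (nat_lit 5) (nat_lit 5) (nat_lit 4) (nat_lit 410) (nat_lit 362) (nat_lit 248)))))) (XT.nd (nat_lit 312) (nat_lit 76) (nat_lit 0) (XT.nd (nat_lit 156) (nat_lit 0) (nat_lit 0) (XT.nd (nat_lit 78) (nat_lit 152) (nat_lit 0) (XT.lf (nat_lit 0) (nat_lit 8825859534787) (nat_lit 76) (nat_lit 1298561476501) (nat_lit 76) (nat_lit 1139213209863) (nat_lit 4) (nat_lit 4) (nat_lit 5) (nat_lit 5) (nat_lit 5) (nat_lit 4) (nat_lit 411) (nat_lit 362) (nat_lit 247)) (XT.lf (nat_lit 0) (nat_lit 208875947677) (nat_lit 152) (nat_lit 12567440326875) (nat_lit 0) (nat_lit 61331254332) (nat_lit 2) (nat_lit 5) (nat_lit 4) (nat_lit 4) (nat_lit 2) (nat_lit 4) (nat_lit 412) (nat_lit 362)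 (nat_lit 246))) (XT.nd (nat_lit 78) (nat_lit 0) (nat_lit 0) (XT.lf (nat_lit 0) (nat_lit 1802373817458) (nat_lit 152) (nat_lit 11179340738810) (nat_lit 0) (nat_lit 1654829122361) (nat_lit 2) (nat_lit 5) (nat_lit 4) (nat_lit 4) (nat_lit 2) (nat_lit 4) (nat_lit 413) (nat_lit 362) (nat_lit 245)) (XT.lf (nat_lit 0) (nat_lit 3634896332547) (nat_lit 152) (nat_lit 9583026285172) (nat_lit 0) (nat_lit 3487351635928) (nat_lit 2) (nat_lit 5) (nat_lit 4) (nat_lit 4) (nat_lit 2) (nat_lit 4) (nat_lit 414) (nat_lit 362) (nat_lit 244)))) (XT.nd (nat_lit 156) (nat_lit 76) (nat_lit 0) (XT.nd (nat_lit 78) (nat_lit 0) (nat_lit 0) (XT.lf (nat_lit 0) (nat_lit 5742297194329) (nat_lit 152) (nat_lit 7747264726652) (nat_lit 0) (nat_lit 5594752496385) (nat_lit 2) (nat_lit 5) (nat_lit 4) (nat_lit 4) (nat_lit 2) (nat_lit 4) (nat_lit 415) (nat_lit 362) (nat_lit 243)) (XT.lf (nat_lit 0) (nat_lit 8165808158793) (nat_lit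 152) (nat_lit 5636138989278) (nat_lit 0) (nat_lit 8018263459698) (nat_lit 2) (nat_lit 5) (nat_lit 4) (nat_lit 4) (nat_lit 2) (nat_lit 4) (nat_lit 416) (nat_lit 362) (nat_lit 242))) (XT.nd (nat_lit 78) (nat_lit 76) (nat_lit 0) (XT.lf (nat_lit 0) (nat_lit 10952845744810) (nat_lit 152) (nat_lit 3208344439058) (nat_lit 0) (nat_lit 10805301044713) (nat_lit 2) (nat_lit 5) (nat_lit 4) (nat_lit 4) (nat_lit 2) (nat_lit 4) (nat_lit 417) (nat_lit 362) (nat_lit 241)) (XT.nd (nat_lit 78) (nat_lit 76) (nat_lit 0) (XT.lf (nat_lit 0) (nat_lit 14157938948627) (nat_lit 152) (nat_lit 416380747836) (nat_lit 0) (nat_lit 14010394247660) (nat_lit 2) (nat_lit 5) (nat_lit 4) (nat_lit 4) (nat_lit 2) (nat_lit 4) (nat_lit 418) (nat_lit 362) (nat_lit 240)) (XT.lf (nat_lit 0) (nat_lit 2941524425988) (nat_lit 76) (nat_lit 14973015422739) (nat_lit 76) (nat_lit 14825470721014) (nat_lit 1) (nat_lit 4) (nat_lit 2) (nat_lit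 5) (nat_lit 2) (nat_lit 4) (nat_lit 419) (nat_lit 362) (nat_lit 239))))))))
noncomputable def xc89 : XT := (XT.nd (nat_lit 1404) (nat_lit 2128) (nat_lit 0) (XT.nd (nat_lit 702) (nat_lit 1596) (nat_lit 0) (XT.nd (nat_lit 312) (nat_lit 988) (nat_lit 0) (XT.nd (nat_lit 156) (nat_lit 456) (nat_lit 0) (XT.nd (nat_lit 78) (nat_lit 0) (nat_lit 0) (XT.lf (nat_lit 0) (nat_lit 48964122291) (nat_lit 532) (nat_lit 789727341) (nat_lit 532) (nat_lit 789727341) (nat_lit 81) (nat_lit 3) (nat_lit 88) (nat_lit 3) (nat_lit 88) (nat_lit 5) (nat_lit 363) (nat_lit 363) (nat_lit 294)) (XT.lf (nat_lit 76) (nat_lit 97299264171) (nat_lit 0) (nat_lit 10324522825) (nat_lit 532) (nat_lit 856826665) (nat_lit 82) (nat_lit 5) (nat_lit 81) (nat_lit 3) (nat_lit 88) (nat_lit 5) (nat_lit 364) (nat_lit 363) (nat_lit 293))) (XT.nd (nat_lit 78) (nat_lit 0) (nat_lit 76) (XT.lf (nat_lit 0) (nat_lit 6410456668) (nat_lit 532) (nat_lit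 20033326068) (nat_lit 608) (nat_lit 90159108240) (nat_lit 75) (nat_lit 5) (nat_lit 82) (nat_lit 5) (nat_lit 83) (nat_lit 5) (nat_lit 365) (nat_lit 363) (nat_lit 292)) (XT.lf (nat_lit 0) (nat_lit 19715952127) (nat_lit 532) (nat_lit 27754132891) (nat_lit 608) (nat_lit 78071736603) (nat_lit 76) (nat_lit 5) (nat_lit 83) (nat_lit 5) (nat_lit 84) (nat_lit 5) (nat_lit 366) (nat_lit 363) (nat_lit 291)))) (XT.nd (nat_lit 156) (nat_lit 684) (nat_lit 0) (XT.nd (nat_lit 78) (nat_lit 456) (nat_lit 0) (XT.lf (nat_lit 0) (nat_lit 40372349269) (nat_lit 532) (nat_lit 33932142794) (nat_lit 76) (nat_lit 61088693972) (nat_lit 77) (nat_lit 5) (nat_lit 84) (nat_lit 5) (nat_lit 78) (nat_lit 5) (nat_lit 367) (nat_lit 363) (nat_lit 290)) (XT.lf (nat_lit 0) (nat_lit 69863832784) (nat_lit 532) (nat_lit 38100974634) (nat_lit 76) (nat_lit 38298517865) (nat_lit 71) (nat_lit 5) (nat_lit 78) (nat_lit 5) (nat_lit 72) (nat_lit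 5) (nat_lit 368) (nat_lit 363) (nat_lit 289))) (XT.nd (nat_lit 78) (nat_lit 456) (nat_lit 0) (XT.lf (nat_lit 0) (nat_lit 109922452099) (nat_lit 304) (nat_lit 39707013744) (nat_lit 76) (nat_lit 8643046786) (nat_lit 68) (nat_lit 5) (nat_lit 72) (nat_lit 5) (nat_lit 69) (nat_lit 5) (nat_lit 369) (nat_lit 363) (nat_lit 288)) (XT.nd (nat_lit 78) (nat_lit 228) (nat_lit 0) (XT.lf (nat_lit 0) (nat_lit 132665223062) (nat_lit 228) (nat_lit 30638271926) (nat_lit 304) (nat_lit 8194492874) (nat_lit 65) (nat_lit 5) (nat_lit 68) (nat_lit 5) (nat_lit 69) (nat_lit 5) (nat_lit 370) (nat_lit 363) (nat_lit 287)) (XT.lf (nat_lit 0) (nat_lit 43663416940) (nat_lit 228) (nat_lit 35536159658) (nat_lit 76) (nat_lit 106828294614) (nat_lit 62) (nat_lit 5) (nat_lit 65) (nat_lit 5) (nat_lit 63) (nat_lit 5) (nat_lit 371) (nat_lit 363) (nat_lit 286)))))) (XT.nd (nat_lit 312) (nat_lit 684) (nat_lit 0) (XT.nd (nat_lit 156)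 (nat_lit 532) (nat_lit 0) (XT.nd (nat_lit 78) (nat_lit 152) (nat_lit 0) (XT.lf (nat_lit 0) (nat_lit 110658500642) (nat_lit 304) (nat_lit 28221762072) (nat_lit 76) (nat_lit 63212451571) (nat_lit 59) (nat_lit 5) (nat_lit 63) (nat_lit 5) (nat_lit 60) (nat_lit 5) (nat_lit 372) (nat_lit 363) (nat_lit 285)) (XT.lf (nat_lit 0) (nat_lit 196073090096) (nat_lit 228) (nat_lit 15757166744) (nat_lit 76) (nat_lit 8067407670) (nat_lit 57) (nat_lit 5) (nat_lit 60) (nat_lit 5) (nat_lit 58) (nat_lit 5) (nat_lit 373) (nat_lit 363) (nat_lit 284))) (XT.nd (nat_lit 78) (nat_lit 304) (nat_lit 0) (XT.lf (nat_lit 0) (nat_lit 61979186150) (nat_lit 228) (nat_lit 156015662) (nat_lit 76) (nat_lit 177274377029) (nat_lit 54) (nat_lit 5) (nat_lit 57) (nat_lit 5) (nat_lit 55) (nat_lit 5) (nat_lit 374) (nat_lit 363) (nat_lit 283)) (XT.lf (nat_lit 0) (nat_lit 22309856526) (nat_lit 152) (nat_lit 147693403795) (nat_lit 228)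 (nat_lit 90934680077) (nat_lit 50) (nat_lit 5) (nat_lit 52) (nat_lit 5) (nat_lit 53) (nat_lit 5) (nat_lit 375) (nat_lit 363) (nat_lit 282)))) (XT.nd (nat_lit 156) (nat_lit 380) (nat_lit 0) (XT.nd (nat_lit 78) (nat_lit 152) (nat_lit 0) (XT.lf (nat_lit 0) (nat_lit 19116860550) (nat_lit 152) (nat_lit 232298430241) (nat_lit 76) (nat_lit 33383167707) (nat_lit 48) (nat_lit 5) (nat_lit 50) (nat_lit 5) (nat_lit 49) (nat_lit 5) (nat_lit 376) (nat_lit 363) (nat_lit 281)) (XT.lf (nat_lit 0) (nat_lit 87669954433) (nat_lit 152) (nat_lit 66095453393) (nat_lit 228) (nat_lit 157205801506) (nat_lit 46) (nat_lit 5) (nat_lit 48) (nat_lit 5) (nat_lit 49) (nat_lit 5) (nat_lit 377) (nat_lit 363) (nat_lit 280))) (XT.nd (nat_lit 78) (nat_lit 304) (nat_lit 0) (XT.lf (nat_lit 0) (nat_lit 132066007979) (nat_lit 76) (nat_lit 190195528078) (nat_lit 152) (nat_lit 17716312886) (nat_lit 45) (nat_lit 5) (nat_lit 46) (nat_lit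 5) (nat_lit 47) (nat_lit 4) (nat_lit 378) (nat_lit 363) (nat_lit 279)) (XT.nd (nat_lit 78) (nat_lit 76) (nat_lit 0) (XT.lf (nat_lit 0) (nat_lit 149396356165) (nat_lit 228) (nat_lit 187624603677) (nat_lit 76) (nat_lit 34932934659) (nat_lit 42) (nat_lit 5) (nat_lit 45) (nat_lit 5) (nat_lit 43) (nat_lit 4) (nat_lit 379) (nat_lit 363) (nat_lit 278)) (XT.lf (nat_lit 0) (nat_lit 246160530168) (nat_lit 76) (nat_lit 111786587669) (nat_lit 152) (nat_lit 49348800325) (nat_lit 41) (nat_lit 5) (nat_lit 42) (nat_lit 5) (nat_lit 43) (nat_lit 4) (nat_lit 380) (nat_lit 363) (nat_lit 277))))))) (XT.nd (nat_lit 702) (nat_lit 988) (nat_lit 0) (XT.nd (nat_lit 312) (nat_lit 608) (nat_lit 0) (XT.nd (nat_lit 156) (nat_lit 304) (nat_lit 0) (XT.nd (nat_lit 78) (nat_lit 76) (nat_lit 0) (XT.lf (nat_lit 0) (nat_lit 159654986380) (nat_lit 152) (nat_lit 129371208528) (nat_lit 76) (nat_lit 157240003321) (nat_lit 39) (nat_lit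 5) (nat_lit 41) (nat_lit 5) (nat_lit 40) (nat_lit 4) (nat_lit 381) (nat_lit 363) (nat_lit 276)) (XT.lf (nat_lit 0) (nat_lit 401169989537) (nat_lit 76) (nat_lit 13553032146) (nat_lit 152) (nat_lit 74845601273) (nat_lit 38) (nat_lit 5) (nat_lit 39) (nat_lit 5) (nat_lit 40) (nat_lit 4) (nat_lit 382) (nat_lit 363) (nat_lit 275))) (XT.nd (nat_lit 78) (nat_lit 152) (nat_lit 0) (XT.lf (nat_lit 0) (nat_lit 183970384793) (nat_lit 152) (nat_lit 44613979066) (nat_lit 76) (nat_lit 308559590910) (nat_lit 36) (nat_lit 5) (nat_lit 38) (nat_lit 5) (nat_lit 37) (nat_lit 4) (nat_lit 383) (nat_lit 363) (nat_lit 274)) (XT.lf (nat_lit 0) (nat_lit 9507289932) (nat_lit 76) (nat_lit 488090929729) (nat_lit 76) (nat_lit 92468151734) (nat_lit 34) (nat_lit 4) (nat_lit 35) (nat_lit 5) (nat_lit 35) (nat_lit 4) (nat_lit 384) (nat_lit 363) (nat_lit 273)))) (XT.nd (nat_lit 156) (nat_lit 380) (nat_lit 0) (XT.nd (nat_lit 78)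 (nat_lit 76) (nat_lit 0) (XT.lf (nat_lit 0) (nat_lit 69858517504) (nat_lit 76) (nat_lit 153930652339) (nat_lit 152) (nat_lit 424593593711) (nat_lit 32) (nat_lit 5) (nat_lit 33) (nat_lit 5) (nat_lit 34) (nat_lit 4) (nat_lit 385) (nat_lit 363) (nat_lit 272)) (XT.lf (nat_lit 0) (nat_lit 137228827292) (nat_lit 76) (nat_lit 471118187353) (nat_lit 76) (nat_lit 104800492577) (nat_lit 31) (nat_lit 4) (nat_lit 32) (nat_lit 5) (nat_lit 32) (nat_lit 4) (nat_lit 386) (nat_lit 363) (nat_lit 271))) (XT.nd (nat_lit 78) (nat_lit 228) (nat_lit 0) (XT.lf (nat_lit 0) (nat_lit 208509843419) (nat_lit 76) (nat_lit 67849609782) (nat_lit 152) (nat_lit 508637388086) (nat_lit 29) (nat_lit 5) (nat_lit 30) (nat_lit 5) (nat_lit 31) (nat_lit 4) (nat_lit 387) (nat_lit 363) (nat_lit 270)) (XT.nd (nat_lit 78) (nat_lit 152) (nat_lit 0) (XT.lf (nat_lit 0) (nat_lit 280365080679) (nat_lit 76) (nat_lit 461766264344) (nat_lit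 76) (nat_lit 122582998166) (nat_lit 28) (nat_lit 4) (nat_lit 29) (nat_lit 5) (nat_lit 29) (nat_lit 4) (nat_lit 388) (nat_lit 363) (nat_lit 269)) (XT.lf (nat_lit 0) (nat_lit 333383441214) (nat_lit 152) (nat_lit 600816465753) (nat_lit 0) (nat_lit 19324780731) (nat_lit 26) (nat_lit 5) (nat_lit 28) (nat_lit 4) (nat_lit 26) (nat_lit 4) (nat_lit 389) (nat_lit 363) (nat_lit 268)))))) (XT.nd (nat_lit 390) (nat_lit 456) (nat_lit 0) (XT.nd (nat_lit 156) (nat_lit 304) (nat_lit 0) (XT.nd (nat_lit 78) (nat_lit 152) (nat_lit 0) (XT.lf (nat_lit 0) (nat_lit 415601165045) (nat_lit 76) (nat_lit 475312626719) (nat_lit 76) (nat_lit 161253896073) (nat_lit 25) (nat_lit 4) (nat_lit 26) (nat_lit 5) (nat_lit 26) (nat_lit 4) (nat_lit 390) (nat_lit 363) (nat_lit 267)) (XT.lf (nat_lit 0) (nat_lit 379656594402) (nat_lit 152) (nat_lit 693862269989) (nat_lit 0) (nat_lit 88861416942) (nat_lit 23) (nat_lit 5) (nat_lit 25)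 (nat_lit 4) (nat_lit 23) (nat_lit 4) (nat_lit 391) (nat_lit 363) (nat_lit 266))) (XT.nd (nat_lit 78) (nat_lit 228) (nat_lit 0) (XT.lf (nat_lit 0) (nat_lit 497048309105) (nat_lit 76) (nat_lit 539492881656) (nat_lit 76) (nat_lit 248697655072) (nat_lit 22) (nat_lit 4) (nat_lit 23) (nat_lit 5) (nat_lit 23) (nat_lit 4) (nat_lit 392) (nat_lit 363) (nat_lit 265)) (XT.nd (nat_lit 78) (nat_lit 76) (nat_lit 0) (XT.lf (nat_lit 0) (nat_lit 382760856362) (nat_lit 152) (nat_lit 926707550655) (nat_lit 0) (nat_lit 113505977380) (nat_lit 20) (nat_lit 5) (nat_lit 22) (nat_lit 4) (nat_lit 20) (nat_lit 4) (nat_lit 393) (nat_lit 363) (nat_lit 264)) (XT.lf (nat_lit 0) (nat_lit 441266878775) (nat_lit 76) (nat_lit 702440942858) (nat_lit 76) (nat_lit 433186029483) (nat_lit 19) (nat_lit 4) (nat_lit 20) (nat_lit 5) (nat_lit 20) (nat_lit 4) (nat_lit 394) (nat_lit 363) (nat_lit 263))))) (XT.nd (nat_lit 156) (nat_lit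 228) (nat_lit 0) (XT.nd (nat_lit 78) (nat_lit 76) (nat_lit 0) (XT.lf (nat_lit 0) (nat_lit 288201917024) (nat_lit 152) (nat_lit 1423373278944) (nat_lit 0) (nat_lit 38891784355) (nat_lit 17) (nat_lit 5) (nat_lit 19) (nat_lit 4) (nat_lit 17) (nat_lit 4) (nat_lit 395) (nat_lit 363) (nat_lit 262)) (XT.lf (nat_lit 0) (nat_lit 103469733984) (nat_lit 76) (nat_lit 1045245521553) (nat_lit 76) (nat_lit 795935364804) (nat_lit 16) (nat_lit 4) (nat_lit 17) (nat_lit 5) (nat_lit 17) (nat_lit 4) (nat_lit 396) (nat_lit 363) (nat_lit 261))) (XT.nd (nat_lit 78) (nat_lit 152) (nat_lit 0) (XT.lf (nat_lit 0) (nat_lit 14343490950) (nat_lit 152) (nat_lit 219475716511) (nat_lit 76) (nat_lit 1930798363217) (nat_lit 15) (nat_lit 5) (nat_lit 17) (nat_lit 5) (nat_lit 16) (nat_lit 4) (nat_lit 397) (nat_lit 363) (nat_lit 260)) (XT.nd (nat_lit 78) (nat_lit 76) (nat_lit 0) (XT.lf (nat_lit 0) (nat_lit 959934286601) (nat_lit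 152) (nat_lit 722028003303) (nat_lit 0) (nat_lit 729091512624) (nat_lit 14) (nat_lit 5) (nat_lit 16) (nat_lit 4) (nat_lit 14) (nat_lit 4) (nat_lit 398) (nat_lit 363) (nat_lit 259)) (XT.lf (nat_lit 0) (nat_lit 1259522341613) (nat_lit 76) (nat_lit 831155396625) (nat_lit 76) (nat_lit 600312607989) (nat_lit 13) (nat_lit 4) (nat_lit 14) (nat_lit 5) (nat_lit 14) (nat_lit 4) (nat_lit 399) (nat_lit 363) (nat_lit 258))))))))
noncomputable def xc90 : XT := (XT.nd (nat_lit 1404) (nat_lit 0) (nat_lit 0) (XT.nd (nat_lit 702) (nat_lit 228) (nat_lit 0) (XT.nd (nat_lit 312) (nat_lit 228) (nat_lit 0) (XT.nd (nat_lit 156) (nat_lit 228) (nat_lit 0) (XT.nd (nat_lit 78) (nat_lit 0) (nat_lit 0) (XT.lf (nat_lit 0) (nat_lit 399681120567) (nat_lit 152) (nat_lit 2423332518735) (nat_lit 0) (nat_lit 185937785952) (nat_lit 11) (nat_lit 5) (nat_lit 13) (nat_lit 4) (nat_lit 11) (nat_lit 4) (nat_lit 400) (nat_lit 363) (nat_lit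 257)) (XT.lf (nat_lit 0) (nat_lit 1580885049786) (nat_lit 152) (nat_lit 419992000877) (nat_lit 0) (nat_lit 1367141704907) (nat_lit 11) (nat_lit 5) (nat_lit 13) (nat_lit 4) (nat_lit 11) (nat_lit 4) (nat_lit 401) (nat_lit 363) (nat_lit 256))) (XT.nd (nat_lit 78) (nat_lit 152) (nat_lit 0) (XT.lf (nat_lit 0) (nat_lit 1983049552169) (nat_lit 76) (nat_lit 1003912302101) (nat_lit 76) (nat_lit 790168948296) (nat_lit 10) (nat_lit 4) (nat_lit 11) (nat_lit 5) (nat_lit 11) (nat_lit 4) (nat_lit 402) (nat_lit 363) (nat_lit 255)) (XT.lf (nat_lit 0) (nat_lit 368452540111) (nat_lit 152) (nat_lit 3705534487431) (nat_lit 0) (nat_lit 170542020143) (nat_lit 8) (nat_lit 5) (nat_lit 10) (nat_lit 4) (nat_lit 8) (nat_lit 4) (nat_lit 403) (nat_lit 363) (nat_lit 254)))) (XT.nd (nat_lit 156) (nat_lit 152) (nat_lit 0) (XT.nd (nat_lit 78) (nat_lit 76) (nat_lit 0) (XT.lf (nat_lit 0) (nat_lit 1736765764191) (nat_lit 152)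 (nat_lit 1498159291359) (nat_lit 0) (nat_lit 1538855237974) (nat_lit 8) (nat_lit 5) (nat_lit 10) (nat_lit 4) (nat_lit 8) (nat_lit 4) (nat_lit 404) (nat_lit 363) (nat_lit 253)) (XT.lf (nat_lit 0) (nat_lit 1095103535031) (nat_lit 76) (nat_lit 2241559623946) (nat_lit 76) (nat_lit 2043649092295) (nat_lit 7) (nat_lit 4) (nat_lit 8) (nat_lit 5) (nat_lit 8) (nat_lit 4) (nat_lit 405) (nat_lit 363) (nat_lit 252))) (XT.nd (nat_lit 78) (nat_lit 152) (nat_lit 0) (XT.lf (nat_lit 0) (nat_lit 4168079611392) (nat_lit 76) (nat_lit 1052082774902) (nat_lit 76) (nat_lit 854172238526) (nat_lit 7) (nat_lit 4) (nat_lit 8) (nat_lit 5) (nat_lit 8) (nat_lit 4) (nat_lit 406) (nat_lit 363) (nat_lit 251)) (XT.nd (nat_lit 78) (nat_lit 0) (nat_lit 0) (XT.lf (nat_lit 0) (nat_lit 517169322852) (nat_lit 152) (nat_lit 6018052451708) (nat_lit 0) (nat_lit 333918822403) (nat_lit 5) (nat_lit 5) (nat_lit 7) (nat_lit 4) (nat_lit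 5) (nat_lit 4) (nat_lit 407) (nat_lit 363) (nat_lit 250)) (XT.lf (nat_lit 0) (nat_lit 2131111622993) (nat_lit 152) (nat_lit 3695421736708) (nat_lit 0) (nat_lit 1947861119237) (nat_lit 5) (nat_lit 5) (nat_lit 7) (nat_lit 4) (nat_lit 5) (nat_lit 4) (nat_lit 408) (nat_lit 363) (nat_lit 249)))))) (XT.nd (nat_lit 312) (nat_lit 152) (nat_lit 0) (XT.nd (nat_lit 156) (nat_lit 0) (nat_lit 0) (XT.nd (nat_lit 78) (nat_lit 76) (nat_lit 0) (XT.lf (nat_lit 0) (nat_lit 3987145215376) (nat_lit 152) (nat_lit 1024396523315) (nat_lit 0) (nat_lit 3803894708742) (nat_lit 5) (nat_lit 5) (nat_lit 7) (nat_lit 4) (nat_lit 5) (nat_lit 4) (nat_lit 409) (nat_lit 363) (nat_lit 248)) (XT.lf (nat_lit 0) (nat_lit 2155088639329) (nat_lit 76) (nat_lit 4018325094995) (nat_lit 76) (nat_lit 3835074585861) (nat_lit 4) (nat_lit 4) (nat_lit 5) (nat_lit 5) (nat_lit 5) (nat_lit 4) (nat_lit 410) (nat_lit 363) (nat_lit 247))) (XT.nd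 (nat_lit 78) (nat_lit 0) (nat_lit 0) (XT.lf (nat_lit 0) (nat_lit 5873530831087) (nat_lit 76) (nat_lit 2843915860614) (nat_lit 76) (nat_lit 2660665349304) (nat_lit 4) (nat_lit 4) (nat_lit 5) (nat_lit 5) (nat_lit 5) (nat_lit 4) (nat_lit 411) (nat_lit 363) (nat_lit 246)) (XT.lf (nat_lit 0) (nat_lit 10149739276264) (nat_lit 76) (nat_lit 1493345279902) (nat_lit 76) (nat_lit 1310094766701) (nat_lit 4) (nat_lit 4) (nat_lit 5) (nat_lit 5) (nat_lit 5) (nat_lit 4) (nat_lit 412) (nat_lit 363) (nat_lit 245)))) (XT.nd (nat_lit 156) (nat_lit 0) (nat_lit 0) (XT.nd (nat_lit 78) (nat_lit 0) (nat_lit 0) (XT.lf (nat_lit 0) (nat_lit 240207718388) (nat_lit 152) (nat_lit 14452555593789) (nat_lit 0) (nat_lit 70531315753) (nat_lit 2) (nat_lit 5) (nat_lit 4) (nat_lit 4) (nat_lit 2) (nat_lit 4) (nat_lit 413) (nat_lit 363) (nat_lit 244)) (XT.lf (nat_lit 0) (nat_lit 2072730219258) (nat_lit 152) (nat_lit 12856241169530)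 (nat_lit 0) (nat_lit 1903053815299) (nat_lit 2) (nat_lit 5) (nat_lit 4) (nat_lit 4) (nat_lit 2) (nat_lit 4) (nat_lit 414) (nat_lit 363) (nat_lit 243))) (XT.nd (nat_lit 78) (nat_lit 0) (nat_lit 0) (XT.lf (nat_lit 0) (nat_lit 4180131068675) (nat_lit 152) (nat_lit 11020479636556) (nat_lit 0) (nat_lit 4010454663564) (nat_lit 2) (nat_lit 5) (nat_lit 4) (nat_lit 4) (nat_lit 2) (nat_lit 4) (nat_lit 415) (nat_lit 363) (nat_lit 242)) (XT.nd (nat_lit 78) (nat_lit 0) (nat_lit 0) (XT.lf (nat_lit 0) (nat_lit 6603642022387) (nat_lit 152) (nat_lit 8909353921396) (nat_lit 0) (nat_lit 6433965616275) (nat_lit 2) (nat_lit 5) (nat_lit 4) (nat_lit 4) (nat_lit 2) (nat_lit 4) (nat_lit 416) (nat_lit 363) (nat_lit 241)) (XT.lf (nat_lit 0) (nat_lit 9390679599054) (nat_lit 152) (nat_lit 6481559390492) (nat_lit 0) (nat_lit 9221003192071) (nat_lit 2) (nat_lit 5) (nat_lit 4) (nat_lit 4) (nat_lit 2) (nat_lit 4) (nat_lit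 417) (nat_lit 363) (nat_lit 240))))))) (XT.nd (nat_lit 49452) (nat_lit 0) (nat_lit 3040) (XT.nd (nat_lit 49062) (nat_lit 0) (nat_lit 5016) (XT.nd (nat_lit 48906) (nat_lit 0) (nat_lit 6004) (XT.nd (nat_lit 78) (nat_lit 0) (nat_lit 0) (XT.lf (nat_lit 0) (nat_lit 12595772794742) (nat_lit 152) (nat_lit 3689595716067) (nat_lit 0) (nat_lit 12426096387002) (nat_lit 2) (nat_lit 5) (nat_lit 4) (nat_lit 4) (nat_lit 2) (nat_lit 4) (nat_lit 418) (nat_lit 363) (nat_lit 239)) (XT.lf (nat_lit 0) (nat_lit 16281629954583) (nat_lit 152) (nat_lit 478837521881) (nat_lit 0) (nat_lit 16111953546185) (nat_lit 2) (nat_lit 5) (nat_lit 4) (nat_lit 4) (nat_lit 2) (nat_lit 4) (nat_lit 419) (nat_lit 363) (nat_lit 238))) (XT.nd (nat_lit 78) (nat_lit 0) (nat_lit 0) (XT.lf (nat_lit 0) (nat_lit 56319164775) (nat_lit 532) (nat_lit 902556013) (nat_lit 532) (nat_lit 902556013) (nat_lit 81) (nat_lit 3) (nat_lit 88) (nat_lit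 3) (nat_lit 88) (nat_lit 5) (nat_lit 364) (nat_lit 364) (nat_lit 292)) (XT.lf (nat_lit 76) (nat_lit 111904461480) (nat_lit 0) (nat_lit 11881270406) (nat_lit 532) (nat_lit 965498831) (nat_lit 82) (nat_lit 5) (nat_lit 81) (nat_lit 3) (nat_lit 88) (nat_lit 5) (nat_lit 365) (nat_lit 364) (nat_lit 291)))) (XT.nd (nat_lit 156) (nat_lit 532) (nat_lit 0) (XT.nd (nat_lit 78) (nat_lit 0) (nat_lit 76) (XT.lf (nat_lit 0) (nat_lit 7388521469) (nat_lit 532) (nat_lit 23026489440) (nat_lit 608) (nat_lit 103676990107) (nat_lit 75) (nat_lit 5) (nat_lit 82) (nat_lit 5) (nat_lit 83) (nat_lit 5) (nat_lit 366) (nat_lit 364) (nat_lit 290)) (XT.lf (nat_lit 0) (nat_lit 22687859403) (nat_lit 532) (nat_lit 31905156595) (nat_lit 608) (nat_lit 89778914315) (nat_lit 76) (nat_lit 5) (nat_lit 83) (nat_lit 5) (nat_lit 84) (nat_lit 5) (nat_lit 367) (nat_lit 364) (nat_lit 289))) (XT.nd (nat_lit 78) (nat_lit 684) (nat_lit 0)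 (XT.lf (nat_lit 0) (nat_lit 46441045560) (nat_lit 532) (nat_lit 39009814258) (nat_lit 76) (nat_lit 70250273659) (nat_lit 77) (nat_lit 5) (nat_lit 84) (nat_lit 5) (nat_lit 78) (nat_lit 5) (nat_lit 368) (nat_lit 364) (nat_lit 288)) (XT.nd (nat_lit 78) (nat_lit 228) (nat_lit 0) (XT.lf (nat_lit 0) (nat_lit 80354836219) (nat_lit 532) (nat_lit 43804074289) (nat_lit 76) (nat_lit 44042996719) (nat_lit 71) (nat_lit 5) (nat_lit 78) (nat_lit 5) (nat_lit 72) (nat_lit 5) (nat_lit 369) (nat_lit 364) (nat_lit 287)) (XT.lf (nat_lit 0) (nat_lit 126421042764) (nat_lit 304) (nat_lit 45651240284) (nat_lit 76) (nat_lit 9940286416) (nat_lit 68) (nat_lit 5) (nat_lit 72) (nat_lit 5) (nat_lit 69) (nat_lit 5) (nat_lit 370) (nat_lit 364) (nat_lit 286)))))) (XT.nd (nat_lit 390) (nat_lit 912) (nat_lit 0) (XT.nd (nat_lit 156) (nat_lit 608) (nat_lit 0) (XT.nd (nat_lit 78) (nat_lit 228) (nat_lit 0) (XT.lf (nat_lit 0) (nat_lit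 152575831072) (nat_lit 228) (nat_lit 35232337930) (nat_lit 304) (nat_lit 9413783118) (nat_lit 65) (nat_lit 5) (nat_lit 68) (nat_lit 5) (nat_lit 69) (nat_lit 5) (nat_lit 371) (nat_lit 364) (nat_lit 285)) (XT.lf (nat_lit 0) (nat_lit 50221390146) (nat_lit 228) (nat_lit 40855593285) (nat_lit 76) (nat_lit 122854390047) (nat_lit 62) (nat_lit 5) (nat_lit 65) (nat_lit 5) (nat_lit 63) (nat_lit 5) (nat_lit 372) (nat_lit 364) (nat_lit 284))) (XT.nd (nat_lit 78) (nat_lit 380) (nat_lit 0) (XT.lf (nat_lit 0) (nat_lit 127264933970) (nat_lit 304) (nat_lit 32444416242) (nat_lit 76) (nat_lit 72696657200) (nat_lit 59) (nat_lit 5) (nat_lit 63) (nat_lit 5) (nat_lit 60) (nat_lit 5) (nat_lit 373) (nat_lit 364) (nat_lit 283)) (XT.nd (nat_lit 78) (nat_lit 228) (nat_lit 0) (XT.lf (nat_lit 0) (nat_lit 225491014317) (nat_lit 228) (nat_lit 18110544897) (nat_lit 76) (nat_lit 9280196935) (nat_lit 57) (nat_lit 5) (nat_lit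 60) (nat_lit 5) (nat_lit 58) (nat_lit 5) (nat_lit 374) (nat_lit 364) (nat_lit 282)) (XT.lf (nat_lit 0) (nat_lit 71282505360) (nat_lit 228) (nat_lit 169744128) (nat_lit 76) (nat_lit 203868249925) (nat_lit 54) (nat_lit 5) (nat_lit 57) (nat_lit 5) (nat_lit 55) (nat_lit 5) (nat_lit 375) (nat_lit 364) (nat_lit 281))))) (XT.nd (nat_lit 156) (nat_lit 456) (nat_lit 0) (XT.nd (nat_lit 78) (nat_lit 152) (nat_lit 0) (XT.lf (nat_lit 0) (nat_lit 25666069837) (nat_lit 152) (nat_lit 169843800874) (nat_lit 228) (nat_lit 104568270214) (nat_lit 50) (nat_lit 5) (nat_lit 52) (nat_lit 5) (nat_lit 53) (nat_lit 5) (nat_lit 376) (nat_lit 364) (nat_lit 280)) (XT.lf (nat_lit 0) (nat_lit 21990157998) (nat_lit 152) (nat_lit 267133610068) (nat_lit 76) (nat_lit 38393997070) (nat_lit 48) (nat_lit 5) (nat_lit 50) (nat_lit 5) (nat_lit 49) (nat_lit 5) (nat_lit 377) (nat_lit 364) (nat_lit 279))) (XT.nd (nat_lit 78) (nat_lit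 304) (nat_lit 0) (XT.lf (nat_lit 0) (nat_lit 100829221009) (nat_lit 152) (nat_lit 76006224962) (nat_lit 228) (nat_lit 180781026024) (nat_lit 46) (nat_lit 5) (nat_lit 48) (nat_lit 5) (nat_lit 49) (nat_lit 5) (nat_lit 378) (nat_lit 364) (nat_lit 278)) (XT.nd (nat_lit 78) (nat_lit 228) (nat_lit 0) (XT.lf (nat_lit 0) (nat_lit 151884245182) (nat_lit 76) (nat_lit 218721341125) (nat_lit 152) (nat_lit 20368553888) (nat_lit 45) (nat_lit 5) (nat_lit 46) (nat_lit 5) (nat_lit 47) (nat_lit 4) (nat_lit 379) (nat_lit 364) (nat_lit 277)) (XT.lf (nat_lit 0) (nat_lit 171810380564) (nat_lit 228) (nat_lit 215760146715) (nat_lit 76) (nat_lit 40176085313) (nat_lit 42) (nat_lit 5) (nat_lit 45) (nat_lit 5) (nat_lit 43) (nat_lit 4) (nat_lit 380) (nat_lit 364) (nat_lit 276))))))))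
noncomputable def xc91 : XT := (XT.nd (nat_lit 1404) (nat_lit 988) (nat_lit 0) (XT.nd (nat_lit 702) (nat_lit 988) (nat_lit 0) (XT.nd (nat_lit 312) (nat_lit 608) (nat_lit 0) (XT.nd (nat_lit 156) (nat_lit 228) (nat_lit 0) (XT.nd (nat_lit 78) (nat_lit 152) (nat_lit 0) (XT.lf (nat_lit 0) (nat_lit 283092067560) (nat_lit 76) (nat_lit 128551272076) (nat_lit 152) (nat_lit 56746633569) (nat_lit 41) (nat_lit 5) (nat_lit 42) (nat_lit 5) (nat_lit 43) (nat_lit 4) (nat_lit 381) (nat_lit 364) (nat_lit 275)) (XT.lf (nat_lit 0) (nat_lit 183607185784) (nat_lit 152) (nat_lit 148769623059) (nat_lit 76) (nat_lit 180829002722) (nat_lit 39) (nat_lit 5) (nat_lit 41) (nat_lit 5) (nat_lit 40) (nat_lit 4) (nat_lit 382) (nat_lit 364) (nat_lit 274))) (XT.nd (nat_lit 78) (nat_lit 152) (nat_lit 0) (XT.lf (nat_lit 0) (nat_lit 461352139622) (nat_lit 76) (nat_lit 15582931326) (nat_lit 152) (nat_lit 86068557523) (nat_lit 38)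 (nat_lit 5) (nat_lit 39) (nat_lit 5) (nat_lit 40) (nat_lit 4) (nat_lit 383) (nat_lit 364) (nat_lit 273)) (XT.lf (nat_lit 0) (nat_lit 211569371546) (nat_lit 152) (nat_lit 51299610247) (nat_lit 76) (nat_lit 354846291672) (nat_lit 36) (nat_lit 5) (nat_lit 38) (nat_lit 5) (nat_lit 37) (nat_lit 4) (nat_lit 384) (nat_lit 364) (nat_lit 272)))) (XT.nd (nat_lit 156) (nat_lit 304) (nat_lit 0) (XT.nd (nat_lit 78) (nat_lit 152) (nat_lit 0) (XT.lf (nat_lit 0) (nat_lit 10939805996) (nat_lit 76) (nat_lit 561301492386) (nat_lit 76) (nat_lit 106334760888) (nat_lit 34) (nat_lit 4) (nat_lit 35) (nat_lit 5) (nat_lit 35) (nat_lit 4) (nat_lit 385) (nat_lit 364) (nat_lit 271)) (XT.lf (nat_lit 0) (nat_lit 80343339677) (nat_lit 76) (nat_lit 177017336091) (nat_lit 152) (nat_lit 488279251745) (nat_lit 32) (nat_lit 5) (nat_lit 33) (nat_lit 5) (nat_lit 34) (nat_lit 4) (nat_lit 386) (nat_lit 364) (nat_lit 270))) (XT.nd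 (nat_lit 78) (nat_lit 228) (nat_lit 0) (XT.lf (nat_lit 0) (nat_lit 157818849505) (nat_lit 76) (nat_lit 541783137448) (nat_lit 76) (nat_lit 120517412623) (nat_lit 31) (nat_lit 4) (nat_lit 32) (nat_lit 5) (nat_lit 32) (nat_lit 4) (nat_lit 387) (nat_lit 364) (nat_lit 269)) (XT.nd (nat_lit 78) (nat_lit 76) (nat_lit 0) (XT.lf (nat_lit 0) (nat_lit 239791680250) (nat_lit 76) (nat_lit 78024425129) (nat_lit 152) (nat_lit 584930043269) (nat_lit 29) (nat_lit 5) (nat_lit 30) (nat_lit 5) (nat_lit 31) (nat_lit 4) (nat_lit 388) (nat_lit 364) (nat_lit 268)) (XT.lf (nat_lit 0) (nat_lit 322424891872) (nat_lit 76) (nat_lit 531028708818) (nat_lit 76) (nat_lit 140967689579) (nat_lit 28) (nat_lit 4) (nat_lit 29) (nat_lit 5) (nat_lit 29) (nat_lit 4) (nat_lit 389) (nat_lit 364) (nat_lit 267)))))) (XT.nd (nat_lit 312) (nat_lit 532) (nat_lit 0) (XT.nd (nat_lit 156) (nat_lit 228) (nat_lit 0) (XT.nd (nat_lit 78) (nat_lit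 76) (nat_lit 0) (XT.lf (nat_lit 0) (nat_lit 383393406781) (nat_lit 152) (nat_lit 690934052689) (nat_lit 0) (nat_lit 22225735363) (nat_lit 26) (nat_lit 5) (nat_lit 28) (nat_lit 4) (nat_lit 26) (nat_lit 4) (nat_lit 390) (nat_lit 364) (nat_lit 266)) (XT.lf (nat_lit 0) (nat_lit 477945809413) (nat_lit 76) (nat_lit 546607288511) (nat_lit 76) (nat_lit 185439564039) (nat_lit 25) (nat_lit 4) (nat_lit 26) (nat_lit 5) (nat_lit 26) (nat_lit 4) (nat_lit 391) (nat_lit 364) (nat_lit 265))) (XT.nd (nat_lit 78) (nat_lit 76) (nat_lit 0) (XT.lf (nat_lit 0) (nat_lit 436607231384) (nat_lit 152) (nat_lit 797937291304) (nat_lit 0) (nat_lit 102192628972) (nat_lit 23) (nat_lit 5) (nat_lit 25) (nat_lit 4) (nat_lit 23) (nat_lit 4) (nat_lit 392) (nat_lit 364) (nat_lit 264)) (XT.lf (nat_lit 0) (nat_lit 571609509057) (nat_lit 76) (nat_lit 620414823073) (nat_lit 76) (nat_lit 286000183516) (nat_lit 22) (nat_lit 4) (nat_lit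 23) (nat_lit 5) (nat_lit 23) (nat_lit 4) (nat_lit 393) (nat_lit 364) (nat_lit 263)))) (XT.nd (nat_lit 156) (nat_lit 304) (nat_lit 0) (XT.nd (nat_lit 78) (nat_lit 76) (nat_lit 0) (XT.lf (nat_lit 0) (nat_lit 440176870403) (nat_lit 152) (nat_lit 1065709865053) (nat_lit 0) (nat_lit 130533655721) (nat_lit 20) (nat_lit 5) (nat_lit 22) (nat_lit 4) (nat_lit 20) (nat_lit 4) (nat_lit 394) (nat_lit 364) (nat_lit 262)) (XT.lf (nat_lit 0) (nat_lit 507460405600) (nat_lit 76) (nat_lit 807805312973) (nat_lit 76) (nat_lit 498162072285) (nat_lit 19) (nat_lit 4) (nat_lit 20) (nat_lit 5) (nat_lit 20) (nat_lit 4) (nat_lit 395) (nat_lit 364) (nat_lit 261))) (XT.nd (nat_lit 78) (nat_lit 152) (nat_lit 0) (XT.lf (nat_lit 0) (nat_lit 331433861496) (nat_lit 152) (nat_lit 1636875897082) (nat_lit 0) (nat_lit 44727136217) (nat_lit 17) (nat_lit 5) (nat_lit 19) (nat_lit 4) (nat_lit 17) (nat_lit 4) (nat_lit 396) (nat_lit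 364) (nat_lit 260)) (XT.nd (nat_lit 78) (nat_lit 76) (nat_lit 0) (XT.lf (nat_lit 0) (nat_lit 118993282218) (nat_lit 76) (nat_lit 1202030776718) (nat_lit 76) (nat_lit 915324033231) (nat_lit 16) (nat_lit 4) (nat_lit 17) (nat_lit 5) (nat_lit 17) (nat_lit 4) (nat_lit 397) (nat_lit 364) (nat_lit 259)) (XT.lf (nat_lit 0) (nat_lit 16496366279) (nat_lit 152) (nat_lit 252394317458) (nat_lit 76) (nat_lit 2220419414391) (nat_lit 15) (nat_lit 5) (nat_lit 17) (nat_lit 5) (nat_lit 16) (nat_lit 4) (nat_lit 398) (nat_lit 364) (nat_lit 258))))))) (XT.nd (nat_lit 702) (nat_lit 380) (nat_lit 0) (XT.nd (nat_lit 312) (nat_lit 304) (nat_lit 0) (XT.nd (nat_lit 156) (nat_lit 152) (nat_lit 0) (XT.nd (nat_lit 78) (nat_lit 76) (nat_lit 0) (XT.lf (nat_lit 0) (nat_lit 1103925696610) (nat_lit 152) (nat_lit 830329612652) (nat_lit 0) (nat_lit 838456462270) (nat_lit 14) (nat_lit 5) (nat_lit 16) (nat_lit 4) (nat_lit 14) (nat_lit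 4) (nat_lit 399) (nat_lit 364) (nat_lit 257)) (XT.lf (nat_lit 0) (nat_lit 1448453064674) (nat_lit 76) (nat_lit 955827493098) (nat_lit 76) (nat_lit 690358247673) (nat_lit 13) (nat_lit 4) (nat_lit 14) (nat_lit 5) (nat_lit 14) (nat_lit 4) (nat_lit 400) (nat_lit 364) (nat_lit 256))) (XT.nd (nat_lit 78) (nat_lit 0) (nat_lit 0) (XT.lf (nat_lit 0) (nat_lit 459634403518) (nat_lit 152) (nat_lit 2786830108608) (nat_lit 0) (nat_lit 213829537717) (nat_lit 11) (nat_lit 5) (nat_lit 13) (nat_lit 4) (nat_lit 11) (nat_lit 4) (nat_lit 401) (nat_lit 364) (nat_lit 255)) (XT.lf (nat_lit 0) (nat_lit 1818018776703) (nat_lit 152) (nat_lit 482988811498) (nat_lit 0) (nat_lit 1572213903141) (nat_lit 11) (nat_lit 5) (nat_lit 13) (nat_lit 4) (nat_lit 11) (nat_lit 4) (nat_lit 402) (nat_lit 364) (nat_lit 254)))) (XT.nd (nat_lit 156) (nat_lit 76) (nat_lit 0) (XT.nd (nat_lit 78) (nat_lit 152) (nat_lit 0) (XT.lf (nat_lit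 0) (nat_lit 2280508806103) (nat_lit 76) (nat_lit 1154498213103) (nat_lit 76) (nat_lit 908693332793) (nat_lit 10) (nat_lit 4) (nat_lit 11) (nat_lit 5) (nat_lit 11) (nat_lit 4) (nat_lit 403) (nat_lit 364) (nat_lit 253)) (XT.lf (nat_lit 0) (nat_lit 423721274564) (nat_lit 152) (nat_lit 4261362904261) (nat_lit 0) (nat_lit 196124157732) (nat_lit 8) (nat_lit 5) (nat_lit 10) (nat_lit 4) (nat_lit 8) (nat_lit 4) (nat_lit 404) (nat_lit 364) (nat_lit 252))) (XT.nd (nat_lit 78) (nat_lit 76) (nat_lit 0) (XT.lf (nat_lit 0) (nat_lit 1997281370939) (nat_lit 152) (nat_lit 1722881657858) (nat_lit 0) (nat_lit 1769684249382) (nat_lit 8) (nat_lit 5) (nat_lit 10) (nat_lit 4) (nat_lit 8) (nat_lit 4) (nat_lit 405) (nat_lit 364) (nat_lit 251)) (XT.nd (nat_lit 78) (nat_lit 0) (nat_lit 0) (XT.lf (nat_lit 0) (nat_lit 1259370463220) (nat_lit 76) (nat_lit 2577792848545) (nat_lit 76) (nat_lit 2350195722879) (nat_lit 7)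 (nat_lit 4) (nat_lit 8) (nat_lit 5) (nat_lit 8) (nat_lit 4) (nat_lit 406) (nat_lit 364) (nat_lit 250)) (XT.lf (nat_lit 0) (nat_lit 4793292768695) (nat_lit 76) (nat_lit 1209894565925) (nat_lit 76) (nat_lit 982297436687) (nat_lit 7) (nat_lit 4) (nat_lit 8) (nat_lit 5) (nat_lit 8) (nat_lit 4) (nat_lit 407) (nat_lit 364) (nat_lit 249)))))) (XT.nd (nat_lit 390) (nat_lit 152) (nat_lit 0) (XT.nd (nat_lit 156) (nat_lit 76) (nat_lit 0) (XT.nd (nat_lit 78) (nat_lit 0) (nat_lit 0) (XT.lf (nat_lit 0) (nat_lit 594745289592) (nat_lit 152) (nat_lit 6920759147361) (nat_lit 0) (nat_lit 384007204087) (nat_lit 5) (nat_lit 5) (nat_lit 7) (nat_lit 4) (nat_lit 5) (nat_lit 4) (nat_lit 408) (nat_lit 364) (nat_lit 248)) (XT.lf (nat_lit 0) (nat_lit 2450778860627) (nat_lit 152) (nat_lit 4249733977994) (nat_lit 0) (nat_lit 2240040772620) (nat_lit 5) (nat_lit 5) (nat_lit 7) (nat_lit 4) (nat_lit 5) (nat_lit 4) (nat_lit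 409) (nat_lit 364) (nat_lit 247))) (XT.nd (nat_lit 78) (nat_lit 76) (nat_lit 0) (XT.lf (nat_lit 0) (nat_lit 4585217427408) (nat_lit 152) (nat_lit 1178055115534) (nat_lit 0) (nat_lit 4374479337226) (nat_lit 5) (nat_lit 5) (nat_lit 7) (nat_lit 4) (nat_lit 5) (nat_lit 4) (nat_lit 410) (nat_lit 364) (nat_lit 246)) (XT.nd (nat_lit 78) (nat_lit 0) (nat_lit 0) (XT.lf (nat_lit 0) (nat_lit 2478352746488) (nat_lit 76) (nat_lit 4621073441171) (nat_lit 76) (nat_lit 4410335349098) (nat_lit 4) (nat_lit 4) (nat_lit 5) (nat_lit 5) (nat_lit 5) (nat_lit 4) (nat_lit 411) (nat_lit 364) (nat_lit 245)) (XT.lf (nat_lit 0) (nat_lit 6754561161193) (nat_lit 76) (nat_lit 3270502876163) (nat_lit 76) (nat_lit 3059764782445) (nat_lit 4) (nat_lit 4) (nat_lit 5) (nat_lit 5) (nat_lit 5) (nat_lit 4) (nat_lit 412) (nat_lit 364) (nat_lit 244))))) (XT.nd (nat_lit 156) (nat_lit 0) (nat_lit 0) (XT.nd (nat_lit 78) (nat_lit 152)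 (nat_lit 0) (XT.lf (nat_lit 0) (nat_lit 11672200781132) (nat_lit 76) (nat_lit 1717346755763) (nat_lit 76) (nat_lit 1506608660615) (nat_lit 4) (nat_lit 4) (nat_lit 5) (nat_lit 5) (nat_lit 5) (nat_lit 4) (nat_lit 413) (nat_lit 364) (nat_lit 243)) (XT.lf (nat_lit 0) (nat_lit 276239162392) (nat_lit 152) (nat_lit 16620438341465) (nat_lit 0) (nat_lit 81111295363) (nat_lit 2) (nat_lit 5) (nat_lit 4) (nat_lit 4) (nat_lit 2) (nat_lit 4) (nat_lit 414) (nat_lit 364) (nat_lit 242))) (XT.nd (nat_lit 78) (nat_lit 0) (nat_lit 0) (XT.lf (nat_lit 0) (nat_lit 2383640001056) (nat_lit 152) (nat_lit 14784676830705) (nat_lit 0) (nat_lit 2188512133026) (nat_lit 2) (nat_lit 5) (nat_lit 4) (nat_lit 4) (nat_lit 2) (nat_lit 4) (nat_lit 415) (nat_lit 364) (nat_lit 241)) (XT.nd (nat_lit 78) (nat_lit 0) (nat_lit 0) (XT.lf (nat_lit 0) (nat_lit 4807150945419) (nat_lit 152) (nat_lit 12673551134861) (nat_lit 0) (nat_lit 4612023076517)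 (nat_lit 2) (nat_lit 5) (nat_lit 4) (nat_lit 4) (nat_lit 2) (nat_lit 4) (nat_lit 416) (nat_lit 364) (nat_lit 240)) (XT.lf (nat_lit 0) (nat_lit 7594188513956) (nat_lit 152) (nat_lit 10245756620755) (nat_lit 0) (nat_lit 7399060644298) (nat_lit 2) (nat_lit 5) (nat_lit 4) (nat_lit 4) (nat_lit 2) (nat_lit 4) (nat_lit 417) (nat_lit 364) (nat_lit 239))))))))
noncomputable def xc92 : XT := (XT.nd (nat_lit 50310) (nat_lit 0) (nat_lit 912) (XT.nd (nat_lit 49608) (nat_lit 0) (nat_lit 3040) (XT.nd (nat_lit 49218) (nat_lit 0) (nat_lit 4788) (XT.nd (nat_lit 49062) (nat_lit 0) (nat_lit 5548) (XT.nd (nat_lit 48984) (nat_lit 0) (nat_lit 6004) (XT.lf (nat_lit 0) (nat_lit 10799281702574) (nat_lit 152) (nat_lit 7453792960935) (nat_lit 0) (nat_lit 10604153832257) (nat_lit 2) (nat_lit 5) (nat_lit 4) (nat_lit 4) (nat_lit 2) (nat_lit 4) (nat_lit 418) (nat_lit 364) (nat_lit 238)) (XT.lf (nat_lit 0) (nat_lit 64774921639)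 (nat_lit 532) (nat_lit 1033682002) (nat_lit 532) (nat_lit 1033682002) (nat_lit 81) (nat_lit 3) (nat_lit 88) (nat_lit 3) (nat_lit 88) (nat_lit 5) (nat_lit 365) (nat_lit 365) (nat_lit 290))) (XT.nd (nat_lit 78) (nat_lit 456) (nat_lit 0) (XT.lf (nat_lit 76) (nat_lit 128697924791) (nat_lit 0) (nat_lit 13669562409) (nat_lit 532) (nat_lit 1095312816) (nat_lit 82) (nat_lit 5) (nat_lit 81) (nat_lit 3) (nat_lit 88) (nat_lit 5) (nat_lit 366) (nat_lit 365) (nat_lit 289)) (XT.lf (nat_lit 0) (nat_lit 8509273263) (nat_lit 532) (nat_lit 26471513489) (nat_lit 608) (nat_lit 119224013581) (nat_lit 75) (nat_lit 5) (nat_lit 82) (nat_lit 5) (nat_lit 83) (nat_lit 5) (nat_lit 367) (nat_lit 365) (nat_lit 288)))) (XT.nd (nat_lit 156) (nat_lit 836) (nat_lit 0) (XT.nd (nat_lit 78) (nat_lit 0) (nat_lit 76) (XT.lf (nat_lit 0) (nat_lit 26102013329) (nat_lit 532) (nat_lit 36681783598) (nat_lit 608) (nat_lit 103243042367)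 (nat_lit 76) (nat_lit 5) (nat_lit 83) (nat_lit 5) (nat_lit 84) (nat_lit 5) (nat_lit 368) (nat_lit 365) (nat_lit 287)) (XT.lf (nat_lit 0) (nat_lit 53416914229) (nat_lit 532) (nat_lit 44852099285) (nat_lit 76) (nat_lit 80786510807) (nat_lit 77) (nat_lit 5) (nat_lit 84) (nat_lit 5) (nat_lit 78) (nat_lit 5) (nat_lit 369) (nat_lit 365) (nat_lit 286))) (XT.nd (nat_lit 78) (nat_lit 456) (nat_lit 0) (XT.lf (nat_lit 0) (nat_lit 92416703253) (nat_lit 532) (nat_lit 50365576518) (nat_lit 76) (nat_lit 50649220273) (nat_lit 71) (nat_lit 5) (nat_lit 78) (nat_lit 5) (nat_lit 72) (nat_lit 5) (nat_lit 370) (nat_lit 365) (nat_lit 285)) (XT.nd (nat_lit 78) (nat_lit 228) (nat_lit 0) (XT.lf (nat_lit 0) (nat_lit 145391929123) (nat_lit 304) (nat_lit 52489984533) (nat_lit 76) (nat_lit 11431921146) (nat_lit 68) (nat_lit 5) (nat_lit 72) (nat_lit 5) (nat_lit 69) (nat_lit 5) (nat_lit 371) (nat_lit 365) (nat_lit 284))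 (XT.lf (nat_lit 0) (nat_lit 175470390648) (nat_lit 228) (nat_lit 40515922243) (nat_lit 304) (nat_lit 10818377097) (nat_lit 65) (nat_lit 5) (nat_lit 68) (nat_lit 5) (nat_lit 69) (nat_lit 5) (nat_lit 372) (nat_lit 365) (nat_lit 283)))))) (XT.nd (nat_lit 312) (nat_lit 912) (nat_lit 0) (XT.nd (nat_lit 156) (nat_lit 380) (nat_lit 0) (XT.nd (nat_lit 78) (nat_lit 228) (nat_lit 0) (XT.lf (nat_lit 0) (nat_lit 57760996146) (nat_lit 228) (nat_lit 46975622015) (nat_lit 76) (nat_lit 141283948359) (nat_lit 62) (nat_lit 5) (nat_lit 65) (nat_lit 5) (nat_lit 63) (nat_lit 5) (nat_lit 373) (nat_lit 365) (nat_lit 282)) (XT.lf (nat_lit 0) (nat_lit 146360464788) (nat_lit 304) (nat_lit 37303055888) (nat_lit 76) (nat_lit 83602923562) (nat_lit 59) (nat_lit 5) (nat_lit 63) (nat_lit 5) (nat_lit 60) (nat_lit 5) (nat_lit 374) (nat_lit 365) (nat_lit 281))) (XT.nd (nat_lit 78) (nat_lit 228) (nat_lit 0) (XT.lf (nat_lit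 0) (nat_lit 259319929759) (nat_lit 228) (nat_lit 20819416342) (nat_lit 76) (nat_lit 10674251514) (nat_lit 57) (nat_lit 5) (nat_lit 60) (nat_lit 5) (nat_lit 58) (nat_lit 5) (nat_lit 375) (nat_lit 365) (nat_lit 280)) (XT.lf (nat_lit 0) (nat_lit 81979751702) (nat_lit 228) (nat_lit 187890902) (nat_lit 76) (nat_lit 234450541359) (nat_lit 54) (nat_lit 5) (nat_lit 57) (nat_lit 5) (nat_lit 55) (nat_lit 5) (nat_lit 376) (nat_lit 365) (nat_lit 279)))) (XT.nd (nat_lit 156) (nat_lit 456) (nat_lit 0) (XT.nd (nat_lit 78) (nat_lit 152) (nat_lit 0) (XT.lf (nat_lit 0) (nat_lit 29523341244) (nat_lit 152) (nat_lit 195317638687) (nat_lit 228) (nat_lit 120248511218) (nat_lit 50) (nat_lit 5) (nat_lit 52) (nat_lit 5) (nat_lit 53) (nat_lit 5) (nat_lit 377) (nat_lit 365) (nat_lit 278)) (XT.lf (nat_lit 0) (nat_lit 25293043411) (nat_lit 152) (nat_lit 307196404161) (nat_lit 76) (nat_lit 44155632894) (nat_lit 48) (nat_lit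 5) (nat_lit 50) (nat_lit 5) (nat_lit 49) (nat_lit 5) (nat_lit 378) (nat_lit 365) (nat_lit 277))) (XT.nd (nat_lit 78) (nat_lit 304) (nat_lit 0) (XT.lf (nat_lit 0) (nat_lit 115960238119) (nat_lit 152) (nat_lit 87404477088) (nat_lit 228) (nat_lit 207893910961) (nat_lit 46) (nat_lit 5) (nat_lit 48) (nat_lit 5) (nat_lit 49) (nat_lit 5) (nat_lit 379) (nat_lit 365) (nat_lit 276)) (XT.nd (nat_lit 78) (nat_lit 228) (nat_lit 0) (XT.lf (nat_lit 0) (nat_lit 174673185178) (nat_lit 76) (nat_lit 251526883567) (nat_lit 152) (nat_lit 23419900539) (nat_lit 45) (nat_lit 5) (nat_lit 46) (nat_lit 5) (nat_lit 47) (nat_lit 4) (nat_lit 380) (nat_lit 365) (nat_lit 275)) (XT.lf (nat_lit 0) (nat_lit 197585393963) (nat_lit 228) (nat_lit 248118008032) (nat_lit 76) (nat_lit 46204925675) (nat_lit 42) (nat_lit 5) (nat_lit 45) (nat_lit 5) (nat_lit 43) (nat_lit 4) (nat_lit 381) (nat_lit 365) (nat_lit 274))))))) (XT.nd (nat_lit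 702) (nat_lit 1064) (nat_lit 0) (XT.nd (nat_lit 312) (nat_lit 608) (nat_lit 0) (XT.nd (nat_lit 156) (nat_lit 228) (nat_lit 0) (XT.nd (nat_lit 78) (nat_lit 152) (nat_lit 0) (XT.lf (nat_lit 0) (nat_lit 325561516913) (nat_lit 76) (nat_lit 147831464782) (nat_lit 152) (nat_lit 65255235935) (nat_lit 41) (nat_lit 5) (nat_lit 42) (nat_lit 5) (nat_lit 43) (nat_lit 4) (nat_lit 382) (nat_lit 365) (nat_lit 273)) (XT.lf (nat_lit 0) (nat_lit 211151251514) (nat_lit 152) (nat_lit 171079571812) (nat_lit 76) (nat_lit 207955620731) (nat_lit 39) (nat_lit 5) (nat_lit 41) (nat_lit 5) (nat_lit 40) (nat_lit 4) (nat_lit 383) (nat_lit 365) (nat_lit 272))) (XT.nd (nat_lit 78) (nat_lit 152) (nat_lit 0) (XT.lf (nat_lit 0) (nat_lit 530559990171) (nat_lit 76) (nat_lit 17918060522) (nat_lit 152) (nat_lit 98975904334) (nat_lit 38) (nat_lit 5) (nat_lit 39) (nat_lit 5) (nat_lit 40) (nat_lit 4) (nat_lit 384) (nat_lit 365) (nat_lit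 271)) (XT.lf (nat_lit 0) (nat_lit 243307370119) (nat_lit 152) (nat_lit 58989662802) (nat_lit 76) (nat_lit 408075323986) (nat_lit 36) (nat_lit 5) (nat_lit 38) (nat_lit 5) (nat_lit 37) (nat_lit 4) (nat_lit 385) (nat_lit 365) (nat_lit 270)))) (XT.nd (nat_lit 156) (nat_lit 304) (nat_lit 0) (XT.nd (nat_lit 78) (nat_lit 152) (nat_lit 0) (XT.lf (nat_lit 0) (nat_lit 12585633283) (nat_lit 76) (nat_lit 645494389739) (nat_lit 76) (nat_lit 122282242617) (nat_lit 34) (nat_lit 4) (nat_lit 35) (nat_lit 5) (nat_lit 35) (nat_lit 4) (nat_lit 386) (nat_lit 365) (nat_lit 269)) (XT.lf (nat_lit 0) (nat_lit 92399411175) (nat_lit 76) (nat_lit 203567733027) (nat_lit 152) (nat_lit 561518582967) (nat_lit 32) (nat_lit 5) (nat_lit 33) (nat_lit 5) (nat_lit 34) (nat_lit 4) (nat_lit 387) (nat_lit 365) (nat_lit 268))) (XT.nd (nat_lit 78) (nat_lit 228) (nat_lit 0) (XT.lf (nat_lit 0) (nat_lit 181495985528) (nat_lit 76) (nat_lit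 623048507492) (nat_lit 76) (nat_lit 138592639759) (nat_lit 31) (nat_lit 4) (nat_lit 32) (nat_lit 5) (nat_lit 32) (nat_lit 4) (nat_lit 388) (nat_lit 365) (nat_lit 267)) (XT.nd (nat_lit 78) (nat_lit 76) (nat_lit 0) (XT.lf (nat_lit 0) (nat_lit 275764485458) (nat_lit 76) (nat_lit 89726103173) (nat_lit 152) (nat_lit 672667316844) (nat_lit 29) (nat_lit 5) (nat_lit 30) (nat_lit 5) (nat_lit 31) (nat_lit 4) (nat_lit 389) (nat_lit 365) (nat_lit 266)) (XT.lf (nat_lit 0) (nat_lit 370792443492) (nat_lit 76) (nat_lit 610681128428) (nat_lit 76) (nat_lit 162110757337) (nat_lit 28) (nat_lit 4) (nat_lit 29) (nat_lit 5) (nat_lit 29) (nat_lit 4) (nat_lit 390) (nat_lit 365) (nat_lit 265)))))) (XT.nd (nat_lit 390) (nat_lit 456) (nat_lit 0) (XT.nd (nat_lit 156) (nat_lit 380) (nat_lit 0) (XT.nd (nat_lit 78) (nat_lit 76) (nat_lit 0) (XT.lf (nat_lit 0) (nat_lit 440904269886) (nat_lit 152) (nat_lit 794570468399) (nat_lit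 0) (nat_lit 25561287557) (nat_lit 26) (nat_lit 5) (nat_lit 28) (nat_lit 4) (nat_lit 26) (nat_lit 4) (nat_lit 391) (nat_lit 365) (nat_lit 264)) (XT.lf (nat_lit 0) (nat_lit 549641060493) (nat_lit 76) (nat_lit 628596693911) (nat_lit 76) (nat_lit 213253671465) (nat_lit 25) (nat_lit 4) (nat_lit 26) (nat_lit 5) (nat_lit 26) (nat_lit 4) (nat_lit 392) (nat_lit 365) (nat_lit 263))) (XT.nd (nat_lit 78) (nat_lit 228) (nat_lit 0) (XT.lf (nat_lit 0) (nat_lit 502099940153) (nat_lit 152) (nat_lit 917624619076) (nat_lit 0) (nat_lit 117523035219) (nat_lit 23) (nat_lit 5) (nat_lit 25) (nat_lit 4) (nat_lit 23) (nat_lit 4) (nat_lit 393) (nat_lit 365) (nat_lit 262)) (XT.nd (nat_lit 78) (nat_lit 152) (nat_lit 0) (XT.lf (nat_lit 0) (nat_lit 657353924895) (nat_lit 76) (nat_lit 713475541179) (nat_lit 76) (nat_lit 328898608158) (nat_lit 22) (nat_lit 4) (nat_lit 23) (nat_lit 5) (nat_lit 23) (nat_lit 4) (nat_lit 394)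 (nat_lit 365) (nat_lit 261)) (XT.lf (nat_lit 0) (nat_lit 506204826737) (nat_lit 152) (nat_lit 1225563457703) (nat_lit 0) (nat_lit 150115051326) (nat_lit 20) (nat_lit 5) (nat_lit 22) (nat_lit 4) (nat_lit 20) (nat_lit 4) (nat_lit 395) (nat_lit 365) (nat_lit 260))))) (XT.nd (nat_lit 156) (nat_lit 228) (nat_lit 0) (XT.nd (nat_lit 78) (nat_lit 152) (nat_lit 0) (XT.lf (nat_lit 0) (nat_lit 583582109169) (nat_lit 76) (nat_lit 928974770551) (nat_lit 76) (nat_lit 572884975476) (nat_lit 19) (nat_lit 4) (nat_lit 20) (nat_lit 5) (nat_lit 20) (nat_lit 4) (nat_lit 396) (nat_lit 365) (nat_lit 259)) (XT.lf (nat_lit 0) (nat_lit 381150193589) (nat_lit 152) (nat_lit 1882404730640) (nat_lit 0) (nat_lit 51437404538) (nat_lit 17) (nat_lit 5) (nat_lit 19) (nat_lit 4) (nat_lit 17) (nat_lit 4) (nat_lit 397) (nat_lit 365) (nat_lit 258))) (XT.nd (nat_lit 78) (nat_lit 152) (nat_lit 0) (XT.lf (nat_lit 0) (nat_lit 136844609625)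 (nat_lit 76) (nat_lit 1382334203761) (nat_lit 76) (nat_lit 1052621400942) (nat_lit 16) (nat_lit 4) (nat_lit 17) (nat_lit 5) (nat_lit 17) (nat_lit 4) (nat_lit 398) (nat_lit 365) (nat_lit 257)) (XT.nd (nat_lit 78) (nat_lit 76) (nat_lit 0) (XT.lf (nat_lit 0) (nat_lit 18971843291) (nat_lit 152) (nat_lit 290251380744) (nat_lit 76) (nat_lit 2553483307035) (nat_lit 15) (nat_lit 5) (nat_lit 17) (nat_lit 5) (nat_lit 16) (nat_lit 4) (nat_lit 399) (nat_lit 365) (nat_lit 256)) (XT.lf (nat_lit 0) (nat_lit 1269515509150) (nat_lit 152) (nat_lit 954877095270) (nat_lit 0) (nat_lit 964225856187) (nat_lit 14) (nat_lit 5) (nat_lit 16) (nat_lit 4) (nat_lit 14) (nat_lit 4) (nat_lit 400) (nat_lit 365) (nat_lit 255))))))))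
noncomputable def xc93 : XT := (XT.nd (nat_lit 50388) (nat_lit 0) (nat_lit 2812) (XT.nd (nat_lit 702) (nat_lit 228) (nat_lit 0) (XT.nd (nat_lit 312) (nat_lit 380) (nat_lit 0) (XT.nd (nat_lit 156) (nat_lit 76) (nat_lit 0) (XT.nd (nat_lit 78) (nat_lit 152) (nat_lit 0) (XT.lf (nat_lit 0) (nat_lit 1665722817811) (nat_lit 76) (nat_lit 1099200699845) (nat_lit 76) (nat_lit 793911038499) (nat_lit 13) (nat_lit 4) (nat_lit 14) (nat_lit 5) (nat_lit 14) (nat_lit 4) (nat_lit 401) (nat_lit 365) (nat_lit 254)) (XT.lf (nat_lit 0) (nat_lit 528580407044) (nat_lit 152) (nat_lit 3204852894889) (nat_lit 0) (nat_lit 245904787938) (nat_lit 11) (nat_lit 5) (nat_lit 13) (nat_lit 4) (nat_lit 11) (nat_lit 4) (nat_lit 402) (nat_lit 365) (nat_lit 253))) (XT.nd (nat_lit 78) (nat_lit 76) (nat_lit 0) (XT.lf (nat_lit 0) (nat_lit 2090722326251) (nat_lit 152) (nat_lit 555435628867) (nat_lit 0) (nat_lit 1808046701276) (nat_lit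 11) (nat_lit 5) (nat_lit 13) (nat_lit 4) (nat_lit 11) (nat_lit 4) (nat_lit 403) (nat_lit 365) (nat_lit 252)) (XT.lf (nat_lit 0) (nat_lit 2622586504039) (nat_lit 76) (nat_lit 1327672238594) (nat_lit 76) (nat_lit 1044996608517) (nat_lit 10) (nat_lit 4) (nat_lit 11) (nat_lit 5) (nat_lit 11) (nat_lit 4) (nat_lit 404) (nat_lit 365) (nat_lit 251)))) (XT.nd (nat_lit 156) (nat_lit 228) (nat_lit 0) (XT.nd (nat_lit 78) (nat_lit 0) (nat_lit 0) (XT.lf (nat_lit 0) (nat_lit 487280111069) (nat_lit 152) (nat_lit 4900566011897) (nat_lit 0) (nat_lit 225543412444) (nat_lit 8) (nat_lit 5) (nat_lit 10) (nat_lit 4) (nat_lit 8) (nat_lit 4) (nat_lit 405) (nat_lit 365) (nat_lit 250)) (XT.lf (nat_lit 0) (nat_lit 2296874137728) (nat_lit 152) (nat_lit 1981312751751) (nat_lit 0) (nat_lit 2035137435531) (nat_lit 8) (nat_lit 5) (nat_lit 10) (nat_lit 4) (nat_lit 8) (nat_lit 4) (nat_lit 406) (nat_lit 365) (nat_lit 249)))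 (XT.nd (nat_lit 78) (nat_lit 152) (nat_lit 0) (XT.lf (nat_lit 0) (nat_lit 1448277089742) (nat_lit 76) (nat_lit 2964461232165) (nat_lit 76) (nat_lit 2702724526861) (nat_lit 7) (nat_lit 4) (nat_lit 8) (nat_lit 5) (nat_lit 8) (nat_lit 4) (nat_lit 407) (nat_lit 365) (nat_lit 248)) (XT.nd (nat_lit 78) (nat_lit 152) (nat_lit 0) (XT.lf (nat_lit 0) (nat_lit 5512287603164) (nat_lit 76) (nat_lit 1391378278065) (nat_lit 76) (nat_lit 1129641570059) (nat_lit 7) (nat_lit 4) (nat_lit 8) (nat_lit 5) (nat_lit 8) (nat_lit 4) (nat_lit 408) (nat_lit 365) (nat_lit 247)) (XT.lf (nat_lit 0) (nat_lit 683957512756) (nat_lit 152) (nat_lit 7958872133187) (nat_lit 0) (nat_lit 441608706872) (nat_lit 5) (nat_lit 5) (nat_lit 7) (nat_lit 4) (nat_lit 5) (nat_lit 4) (nat_lit 409) (nat_lit 365) (nat_lit 246)))))) (XT.nd (nat_lit 312) (nat_lit 152) (nat_lit 0) (XT.nd (nat_lit 156) (nat_lit 76) (nat_lit 0) (XT.nd (nat_lit 78)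 (nat_lit 0) (nat_lit 0) (XT.lf (nat_lit 0) (nat_lit 2818396063395) (nat_lit 152) (nat_lit 4887193304017) (nat_lit 0) (nat_lit 2576047255620) (nat_lit 5) (nat_lit 5) (nat_lit 7) (nat_lit 4) (nat_lit 5) (nat_lit 4) (nat_lit 410) (nat_lit 365) (nat_lit 245)) (XT.lf (nat_lit 0) (nat_lit 5273000366453) (nat_lit 152) (nat_lit 1354762712710) (nat_lit 0) (nat_lit 5030651557033) (nat_lit 5) (nat_lit 5) (nat_lit 7) (nat_lit 4) (nat_lit 5) (nat_lit 4) (nat_lit 411) (nat_lit 365) (nat_lit 244))) (XT.nd (nat_lit 78) (nat_lit 0) (nat_lit 0) (XT.lf (nat_lit 0) (nat_lit 2850106271890) (nat_lit 76) (nat_lit 5314234141222) (nat_lit 76) (nat_lit 5071885330372) (nat_lit 4) (nat_lit 4) (nat_lit 5) (nat_lit 5) (nat_lit 5) (nat_lit 4) (nat_lit 412) (nat_lit 365) (nat_lit 243)) (XT.lf (nat_lit 0) (nat_lit 7767745868788) (nat_lit 76) (nat_lit 3761078032697) (nat_lit 76) (nat_lit 3518729220603) (nat_lit 4) (nat_lit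 4) (nat_lit 5) (nat_lit 5) (nat_lit 5) (nat_lit 4) (nat_lit 413) (nat_lit 365) (nat_lit 242)))) (XT.nd (nat_lit 156) (nat_lit 0) (nat_lit 0) (XT.nd (nat_lit 78) (nat_lit 152) (nat_lit 0) (XT.lf (nat_lit 0) (nat_lit 13423031362143) (nat_lit 76) (nat_lit 1974948530093) (nat_lit 76) (nat_lit 1732599716917) (nat_lit 4) (nat_lit 4) (nat_lit 5) (nat_lit 5) (nat_lit 5) (nat_lit 4) (nat_lit 414) (nat_lit 365) (nat_lit 241)) (XT.lf (nat_lit 0) (nat_lit 317675253193) (nat_lit 152) (nat_lit 19113503645507) (nat_lit 0) (nat_lit 93278203086) (nat_lit 2) (nat_lit 5) (nat_lit 4) (nat_lit 4) (nat_lit 2) (nat_lit 4) (nat_lit 415) (nat_lit 365) (nat_lit 240))) (XT.nd (nat_lit 78) (nat_lit 0) (nat_lit 0) (XT.lf (nat_lit 0) (nat_lit 2741186189426) (nat_lit 152) (nat_lit 17002377966460) (nat_lit 0) (nat_lit 2516789138561) (nat_lit 2) (nat_lit 5) (nat_lit 4) (nat_lit 4) (nat_lit 2) (nat_lit 4) (nat_lit 416) (nat_lit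 365) (nat_lit 239)) (XT.nd (nat_lit 78) (nat_lit 0) (nat_lit 0) (XT.lf (nat_lit 0) (nat_lit 5528223750893) (nat_lit 152) (nat_lit 14574583466960) (nat_lit 0) (nat_lit 5303826699370) (nat_lit 2) (nat_lit 5) (nat_lit 4) (nat_lit 4) (nat_lit 2) (nat_lit 4) (nat_lit 417) (nat_lit 365) (nat_lit 238)) (XT.lf (nat_lit 0) (nat_lit 8733316933364) (nat_lit 152) (nat_lit 11782619819841) (nat_lit 0) (nat_lit 8508919881269) (nat_lit 2) (nat_lit 5) (nat_lit 4) (nat_lit 4) (nat_lit 2) (nat_lit 4) (nat_lit 418) (nat_lit 365) (nat_lit 237))))))) (XT.nd (nat_lit 702) (nat_lit 1748) (nat_lit 0) (XT.nd (nat_lit 312) (nat_lit 988) (nat_lit 0) (XT.nd (nat_lit 156) (nat_lit 456) (nat_lit 0) (XT.nd (nat_lit 78) (nat_lit 0) (nat_lit 0) (XT.lf (nat_lit 0) (nat_lit 74497119922) (nat_lit 532) (nat_lit 1185515085) (nat_lit 532) (nat_lit 1185515085) (nat_lit 81) (nat_lit 3) (nat_lit 88) (nat_lit 3) (nat_lit 88) (nat_lit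 5) (nat_lit 366) (nat_lit 366) (nat_lit 288)) (XT.lf (nat_lit 76) (nat_lit 148008506961) (nat_lit 0) (nat_lit 15724610337) (nat_lit 532) (nat_lit 1248259388) (nat_lit 82) (nat_lit 5) (nat_lit 81) (nat_lit 3) (nat_lit 88) (nat_lit 5) (nat_lit 367) (nat_lit 366) (nat_lit 287))) (XT.nd (nat_lit 78) (nat_lit 0) (nat_lit 76) (XT.lf (nat_lit 0) (nat_lit 9795096066) (nat_lit 532) (nat_lit 30435473504) (nat_lit 608) (nat_lit 137104194036) (nat_lit 75) (nat_lit 5) (nat_lit 82) (nat_lit 5) (nat_lit 83) (nat_lit 5) (nat_lit 368) (nat_lit 366) (nat_lit 286)) (XT.lf (nat_lit 0) (nat_lit 30025614016) (nat_lit 532) (nat_lit 42177135079) (nat_lit 608) (nat_lit 118727450257) (nat_lit 76) (nat_lit 5) (nat_lit 83) (nat_lit 5) (nat_lit 84) (nat_lit 5) (nat_lit 369) (nat_lit 366) (nat_lit 285)))) (XT.nd (nat_lit 156) (nat_lit 684) (nat_lit 0) (XT.nd (nat_lit 78) (nat_lit 456) (nat_lit 0) (XT.lf (nat_lit 0) (nat_lit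 61436794906) (nat_lit 532) (nat_lit 51572967402) (nat_lit 76) (nat_lit 92903501491) (nat_lit 77) (nat_lit 5) (nat_lit 84) (nat_lit 5) (nat_lit 78) (nat_lit 5) (nat_lit 370) (nat_lit 366) (nat_lit 284)) (XT.lf (nat_lit 0) (nat_lit 106285743033) (nat_lit 532) (nat_lit 57913525347) (nat_lit 76) (nat_lit 58246432459) (nat_lit 71) (nat_lit 5) (nat_lit 78) (nat_lit 5) (nat_lit 72) (nat_lit 5) (nat_lit 371) (nat_lit 366) (nat_lit 283))) (XT.nd (nat_lit 78) (nat_lit 456) (nat_lit 0) (XT.lf (nat_lit 0) (nat_lit 167206563439) (nat_lit 304) (nat_lit 60356720932) (nat_lit 76) (nat_lit 13147156779) (nat_lit 68) (nat_lit 5) (nat_lit 72) (nat_lit 5) (nat_lit 69) (nat_lit 5) (nat_lit 372) (nat_lit 366) (nat_lit 282)) (XT.nd (nat_lit 78) (nat_lit 228) (nat_lit 0) (XT.lf (nat_lit 0) (nat_lit 201797138217) (nat_lit 228) (nat_lit 46592353016) (nat_lit 304) (nat_lit 12435482632) (nat_lit 65) (nat_lit 5) (nat_lit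 68) (nat_lit 5) (nat_lit 69) (nat_lit 5) (nat_lit 373) (nat_lit 366) (nat_lit 281)) (XT.lf (nat_lit 0) (nat_lit 66429982980) (nat_lit 228) (nat_lit 54015681565) (nat_lit 76) (nat_lit 162477599067) (nat_lit 62) (nat_lit 5) (nat_lit 65) (nat_lit 5) (nat_lit 63) (nat_lit 5) (nat_lit 374) (nat_lit 366) (nat_lit 280)))))) (XT.nd (nat_lit 390) (nat_lit 684) (nat_lit 0) (XT.nd (nat_lit 156) (nat_lit 684) (nat_lit 0) (XT.nd (nat_lit 78) (nat_lit 152) (nat_lit 0) (XT.lf (nat_lit 0) (nat_lit 168318913125) (nat_lit 304) (nat_lit 42892447888) (nat_lit 76) (nat_lit 96144698794) (nat_lit 59) (nat_lit 5) (nat_lit 63) (nat_lit 5) (nat_lit 60) (nat_lit 5) (nat_lit 375) (nat_lit 366) (nat_lit 279)) (XT.lf (nat_lit 0) (nat_lit 298221899029) (nat_lit 228) (nat_lit 23936498706) (nat_lit 76) (nat_lit 12276920461) (nat_lit 57) (nat_lit 5) (nat_lit 60) (nat_lit 5) (nat_lit 58) (nat_lit 5) (nat_lit 376) (nat_lit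 366) (nat_lit 278))) (XT.nd (nat_lit 78) (nat_lit 456) (nat_lit 0) (XT.lf (nat_lit 0) (nat_lit 94280397284) (nat_lit 228) (nat_lit 210543463) (nat_lit 76) (nat_lit 269619675640) (nat_lit 54) (nat_lit 5) (nat_lit 57) (nat_lit 5) (nat_lit 55) (nat_lit 5) (nat_lit 377) (nat_lit 366) (nat_lit 277)) (XT.nd (nat_lit 78) (nat_lit 152) (nat_lit 0) (XT.lf (nat_lit 0) (nat_lit 33957408352) (nat_lit 152) (nat_lit 224613218465) (nat_lit 228) (nat_lit 138282007540) (nat_lit 50) (nat_lit 5) (nat_lit 52) (nat_lit 5) (nat_lit 53) (nat_lit 5) (nat_lit 378) (nat_lit 366) (nat_lit 276)) (XT.lf (nat_lit 0) (nat_lit 29090298005) (nat_lit 152) (nat_lit 353270384697) (nat_lit 76) (nat_lit 50780895607) (nat_lit 48) (nat_lit 5) (nat_lit 50) (nat_lit 5) (nat_lit 49) (nat_lit 5) (nat_lit 379) (nat_lit 366) (nat_lit 275))))) (XT.nd (nat_lit 156) (nat_lit 456) (nat_lit 0) (XT.nd (nat_lit 78) (nat_lit 76) (nat_lit 0)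 (XT.lf (nat_lit 0) (nat_lit 133359290064) (nat_lit 152) (nat_lit 100513120963) (nat_lit 228) (nat_lit 239074769654) (nat_lit 46) (nat_lit 5) (nat_lit 48) (nat_lit 5) (nat_lit 49) (nat_lit 5) (nat_lit 380) (nat_lit 366) (nat_lit 274)) (XT.lf (nat_lit 0) (nat_lit 200878929093) (nat_lit 76) (nat_lit 289253905723) (nat_lit 152) (nat_lit 26929909112) (nat_lit 45) (nat_lit 5) (nat_lit 46) (nat_lit 5) (nat_lit 47) (nat_lit 4) (nat_lit 381) (nat_lit 366) (nat_lit 273))) (XT.nd (nat_lit 78) (nat_lit 228) (nat_lit 0) (XT.lf (nat_lit 0) (nat_lit 227225816527) (nat_lit 228) (nat_lit 285331050869) (nat_lit 76) (nat_lit 53137500115) (nat_lit 42) (nat_lit 5) (nat_lit 45) (nat_lit 5) (nat_lit 43) (nat_lit 4) (nat_lit 382) (nat_lit 366) (nat_lit 272)) (XT.nd (nat_lit 78) (nat_lit 152) (nat_lit 0) (XT.lf (nat_lit 0) (nat_lit 374400008510) (nat_lit 76) (nat_lit 170004295572) (nat_lit 152) (nat_lit 75040955980)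 (nat_lit 41) (nat_lit 5) (nat_lit 42) (nat_lit 5) (nat_lit 43) (nat_lit 4) (nat_lit 383) (nat_lit 366) (nat_lit 271)) (XT.lf (nat_lit 0) (nat_lit 242826198493) (nat_lit 152) (nat_lit 196737352797) (nat_lit 76) (nat_lit 239150678473) (nat_lit 39) (nat_lit 5) (nat_lit 41) (nat_lit 5) (nat_lit 40) (nat_lit 4) (nat_lit 384) (nat_lit 366) (nat_lit 270))))))))
noncomputable def xc94 : XT := (XT.nd (nat_lit 1404) (nat_lit 836) (nat_lit 0) (XT.nd (nat_lit 702) (nat_lit 912) (nat_lit 0) (XT.nd (nat_lit 312) (nat_lit 532) (nat_lit 0) (XT.nd (nat_lit 156) (nat_lit 304) (nat_lit 0) (XT.nd (nat_lit 78) (nat_lit 152) (nat_lit 0) (XT.lf (nat_lit 0) (nat_lit 610147791802) (nat_lit 76) (nat_lit 20604022527) (nat_lit 152) (nat_lit 113820069328) (nat_lit 38) (nat_lit 5) (nat_lit 39) (nat_lit 5) (nat_lit 40) (nat_lit 4) (nat_lit 385) (nat_lit 366) (nat_lit 269)) (XT.lf (nat_lit 0) (nat_lit 279805436198) (nat_lit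 152) (nat_lit 67834415450) (nat_lit 76) (nat_lit 469288201837) (nat_lit 36) (nat_lit 5) (nat_lit 38) (nat_lit 5) (nat_lit 37) (nat_lit 4) (nat_lit 386) (nat_lit 366) (nat_lit 268))) (XT.nd (nat_lit 78) (nat_lit 152) (nat_lit 0) (XT.lf (nat_lit 0) (nat_lit 14477150403) (nat_lit 76) (nat_lit 742316789029) (nat_lit 76) (nat_lit 140622512919) (nat_lit 34) (nat_lit 4) (nat_lit 35) (nat_lit 5) (nat_lit 35) (nat_lit 4) (nat_lit 387) (nat_lit 366) (nat_lit 267)) (XT.lf (nat_lit 0) (nat_lit 106262778840) (nat_lit 76) (nat_lit 234101226836) (nat_lit 152) (nat_lit 645744437301) (nat_lit 32) (nat_lit 5) (nat_lit 33) (nat_lit 5) (nat_lit 34) (nat_lit 4) (nat_lit 388) (nat_lit 366) (nat_lit 266)))) (XT.nd (nat_lit 156) (nat_lit 304) (nat_lit 0) (XT.nd (nat_lit 78) (nat_lit 152) (nat_lit 0) (XT.lf (nat_lit 0) (nat_lit 208723641276) (nat_lit 76) (nat_lit 716504195281) (nat_lit 76) (nat_lit 159379732504)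 (nat_lit 31) (nat_lit 4) (nat_lit 32) (nat_lit 5) (nat_lit 32) (nat_lit 4) (nat_lit 389) (nat_lit 366) (nat_lit 265)) (XT.lf (nat_lit 0) (nat_lit 317132223056) (nat_lit 76) (nat_lit 103183517156) (nat_lit 152) (nat_lit 773565725966) (nat_lit 29) (nat_lit 5) (nat_lit 30) (nat_lit 5) (nat_lit 31) (nat_lit 4) (nat_lit 390) (nat_lit 366) (nat_lit 264))) (XT.nd (nat_lit 78) (nat_lit 228) (nat_lit 0) (XT.lf (nat_lit 0) (nat_lit 426414196850) (nat_lit 76) (nat_lit 702281871066) (nat_lit 76) (nat_lit 186425793864) (nat_lit 28) (nat_lit 4) (nat_lit 29) (nat_lit 5) (nat_lit 29) (nat_lit 4) (nat_lit 391) (nat_lit 366) (nat_lit 263)) (XT.nd (nat_lit 78) (nat_lit 76) (nat_lit 0) (XT.lf (nat_lit 0) (nat_lit 507041310812) (nat_lit 152) (nat_lit 913753246829) (nat_lit 0) (nat_lit 29396760001) (nat_lit 26) (nat_lit 5) (nat_lit 28) (nat_lit 4) (nat_lit 26) (nat_lit 4) (nat_lit 392) (nat_lit 366) (nat_lit 262))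 (XT.lf (nat_lit 0) (nat_lit 632089775082) (nat_lit 76) (nat_lit 722884921720) (nat_lit 76) (nat_lit 245240340575) (nat_lit 25) (nat_lit 4) (nat_lit 26) (nat_lit 5) (nat_lit 26) (nat_lit 4) (nat_lit 393) (nat_lit 366) (nat_lit 261)))))) (XT.nd (nat_lit 312) (nat_lit 456) (nat_lit 0) (XT.nd (nat_lit 156) (nat_lit 228) (nat_lit 0) (XT.nd (nat_lit 78) (nat_lit 76) (nat_lit 0) (XT.lf (nat_lit 0) (nat_lit 577416159199) (nat_lit 152) (nat_lit 1055265842431) (nat_lit 0) (nat_lit 135152633716) (nat_lit 23) (nat_lit 5) (nat_lit 25) (nat_lit 4) (nat_lit 23) (nat_lit 4) (nat_lit 394) (nat_lit 366) (nat_lit 260)) (XT.lf (nat_lit 0) (nat_lit 755959274105) (nat_lit 76) (nat_lit 820495734091) (nat_lit 76) (nat_lit 378232187370) (nat_lit 22) (nat_lit 4) (nat_lit 23) (nat_lit 5) (nat_lit 23) (nat_lit 4) (nat_lit 395) (nat_lit 366) (nat_lit 259))) (XT.nd (nat_lit 78) (nat_lit 76) (nat_lit 0) (XT.lf (nat_lit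 0) (nat_lit 582136628838) (nat_lit 152) (nat_lit 1409395793290) (nat_lit 0) (nat_lit 172633327737) (nat_lit 20) (nat_lit 5) (nat_lit 22) (nat_lit 4) (nat_lit 20) (nat_lit 4) (nat_lit 396) (nat_lit 366) (nat_lit 258)) (XT.lf (nat_lit 0) (nat_lit 671121423827) (nat_lit 76) (nat_lit 1068319973380) (nat_lit 76) (nat_lit 658816657410) (nat_lit 19) (nat_lit 4) (nat_lit 20) (nat_lit 5) (nat_lit 20) (nat_lit 4) (nat_lit 397) (nat_lit 366) (nat_lit 257)))) (XT.nd (nat_lit 156) (nat_lit 228) (nat_lit 0) (XT.nd (nat_lit 78) (nat_lit 76) (nat_lit 0) (XT.lf (nat_lit 0) (nat_lit 438323669976) (nat_lit 152) (nat_lit 2164763511310) (nat_lit 0) (nat_lit 59153920995) (nat_lit 17) (nat_lit 5) (nat_lit 19) (nat_lit 4) (nat_lit 17) (nat_lit 4) (nat_lit 398) (nat_lit 366) (nat_lit 256)) (XT.lf (nat_lit 0) (nat_lit 157373066721) (nat_lit 76) (nat_lit 1589683434918) (nat_lit 76) (nat_lit 1210513675527) (nat_lit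 16) (nat_lit 4) (nat_lit 17) (nat_lit 5) (nat_lit 17) (nat_lit 4) (nat_lit 399) (nat_lit 366) (nat_lit 255))) (XT.nd (nat_lit 78) (nat_lit 152) (nat_lit 0) (XT.lf (nat_lit 0) (nat_lit 21818392616) (nat_lit 152) (nat_lit 333787511801) (nat_lit 76) (nat_lit 2936506544478) (nat_lit 15) (nat_lit 5) (nat_lit 17) (nat_lit 5) (nat_lit 16) (nat_lit 4) (nat_lit 400) (nat_lit 366) (nat_lit 254)) (XT.nd (nat_lit 78) (nat_lit 76) (nat_lit 0) (XT.lf (nat_lit 0) (nat_lit 1459943559945) (nat_lit 152) (nat_lit 1098107178064) (nat_lit 0) (nat_lit 1108860433727) (nat_lit 14) (nat_lit 5) (nat_lit 16) (nat_lit 4) (nat_lit 14) (nat_lit 4) (nat_lit 401) (nat_lit 366) (nat_lit 253)) (XT.lf (nat_lit 0) (nat_lit 1915582596577) (nat_lit 76) (nat_lit 1264080111273) (nat_lit 76) (nat_lit 912996978717) (nat_lit 13) (nat_lit 4) (nat_lit 14) (nat_lit 5) (nat_lit 14) (nat_lit 4) (nat_lit 402) (nat_lit 366) (nat_lit 252)))))))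 (XT.nd (nat_lit 702) (nat_lit 228) (nat_lit 0) (XT.nd (nat_lit 312) (nat_lit 228) (nat_lit 0) (XT.nd (nat_lit 156) (nat_lit 228) (nat_lit 0) (XT.nd (nat_lit 78) (nat_lit 0) (nat_lit 0) (XT.lf (nat_lit 0) (nat_lit 607868105529) (nat_lit 152) (nat_lit 3685579520987) (nat_lit 0) (nat_lit 282791125837) (nat_lit 11) (nat_lit 5) (nat_lit 13) (nat_lit 4) (nat_lit 11) (nat_lit 4) (nat_lit 403) (nat_lit 366) (nat_lit 251)) (XT.lf (nat_lit 0) (nat_lit 2404331229473) (nat_lit 152) (nat_lit 638749835687) (nat_lit 0) (nat_lit 2079254245344) (nat_lit 11) (nat_lit 5) (nat_lit 13) (nat_lit 4) (nat_lit 11) (nat_lit 4) (nat_lit 404) (nat_lit 366) (nat_lit 250))) (XT.nd (nat_lit 78) (nat_lit 152) (nat_lit 0) (XT.lf (nat_lit 0) (nat_lit 3015975520870) (nat_lit 76) (nat_lit 1526822540187) (nat_lit 76) (nat_lit 1201745552200) (nat_lit 10) (nat_lit 4) (nat_lit 11) (nat_lit 5) (nat_lit 11) (nat_lit 4) (nat_lit 405)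 (nat_lit 366) (nat_lit 249)) (XT.lf (nat_lit 0) (nat_lit 560372615684) (nat_lit 152) (nat_lit 5635649909520) (nat_lit 0) (nat_lit 259375401478) (nat_lit 8) (nat_lit 5) (nat_lit 10) (nat_lit 4) (nat_lit 8) (nat_lit 4) (nat_lit 406) (nat_lit 366) (nat_lit 248)))) (XT.nd (nat_lit 156) (nat_lit 152) (nat_lit 0) (XT.nd (nat_lit 78) (nat_lit 76) (nat_lit 0) (XT.lf (nat_lit 0) (nat_lit 2641405682696) (nat_lit 152) (nat_lit 2278508791330) (nat_lit 0) (nat_lit 2340408465788) (nat_lit 8) (nat_lit 5) (nat_lit 10) (nat_lit 4) (nat_lit 8) (nat_lit 4) (nat_lit 407) (nat_lit 366) (nat_lit 247)) (XT.lf (nat_lit 0) (nat_lit 1665519452477) (nat_lit 76) (nat_lit 3409130005903) (nat_lit 76) (nat_lit 3108132786646) (nat_lit 7) (nat_lit 4) (nat_lit 8) (nat_lit 5) (nat_lit 8) (nat_lit 4) (nat_lit 408) (nat_lit 366) (nat_lit 246))) (XT.nd (nat_lit 78) (nat_lit 152) (nat_lit 0) (XT.lf (nat_lit 0) (nat_lit 6339131438659)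 (nat_lit 76) (nat_lit 1600084662308) (nat_lit 76) (nat_lit 1299087441008) (nat_lit 7) (nat_lit 4) (nat_lit 8) (nat_lit 5) (nat_lit 8) (nat_lit 4) (nat_lit 409) (nat_lit 366) (nat_lit 245)) (XT.nd (nat_lit 78) (nat_lit 0) (nat_lit 0) (XT.lf (nat_lit 0) (nat_lit 786551464604) (nat_lit 152) (nat_lit 9152702283011) (nat_lit 0) (nat_lit 507850332126) (nat_lit 5) (nat_lit 5) (nat_lit 7) (nat_lit 4) (nat_lit 5) (nat_lit 4) (nat_lit 410) (nat_lit 366) (nat_lit 244)) (XT.lf (nat_lit 0) (nat_lit 3241155755456) (nat_lit 152) (nat_lit 5620271716877) (nat_lit 0) (nat_lit 2962454621548) (nat_lit 5) (nat_lit 5) (nat_lit 7) (nat_lit 4) (nat_lit 5) (nat_lit 4) (nat_lit 411) (nat_lit 366) (nat_lit 243)))))) (XT.nd (nat_lit 390) (nat_lit 0) (nat_lit 0) (XT.nd (nat_lit 156) (nat_lit 152) (nat_lit 0) (XT.nd (nat_lit 78) (nat_lit 76) (nat_lit 0) (XT.lf (nat_lit 0) (nat_lit 6063950667118) (nat_lit 152) (nat_lit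 1557976612884) (nat_lit 0) (nat_lit 5785249531967) (nat_lit 5) (nat_lit 5) (nat_lit 7) (nat_lit 4) (nat_lit 5) (nat_lit 4) (nat_lit 412) (nat_lit 366) (nat_lit 242)) (XT.lf (nat_lit 0) (nat_lit 3277622676513) (nat_lit 76) (nat_lit 6111369023371) (nat_lit 76) (nat_lit 5832667887137) (nat_lit 4) (nat_lit 4) (nat_lit 5) (nat_lit 5) (nat_lit 5) (nat_lit 4) (nat_lit 413) (nat_lit 366) (nat_lit 241))) (XT.nd (nat_lit 78) (nat_lit 152) (nat_lit 0) (XT.lf (nat_lit 0) (nat_lit 8932908152445) (nat_lit 76) (nat_lit 4325239529745) (nat_lit 76) (nat_lit 4046538392571) (nat_lit 4) (nat_lit 4) (nat_lit 5) (nat_lit 5) (nat_lit 5) (nat_lit 4) (nat_lit 414) (nat_lit 366) (nat_lit 240)) (XT.nd (nat_lit 78) (nat_lit 152) (nat_lit 0) (XT.lf (nat_lit 0) (nat_lit 15436486417194) (nat_lit 76) (nat_lit 2271190628862) (nat_lit 76) (nat_lit 1992489490870) (nat_lit 4) (nat_lit 4) (nat_lit 5) (nat_lit 5) (nat_lit 5)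 (nat_lit 4) (nat_lit 415) (nat_lit 366) (nat_lit 239)) (XT.lf (nat_lit 0) (nat_lit 365326704834) (nat_lit 152) (nat_lit 21980528854202) (nat_lit 0) (nat_lit 107270094924) (nat_lit 2) (nat_lit 5) (nat_lit 4) (nat_lit 4) (nat_lit 2) (nat_lit 4) (nat_lit 416) (nat_lit 366) (nat_lit 238))))) (XT.nd (nat_lit 49218) (nat_lit 0) (nat_lit 5548) (XT.nd (nat_lit 78) (nat_lit 0) (nat_lit 0) (XT.lf (nat_lit 0) (nat_lit 3152364260154) (nat_lit 152) (nat_lit 19552734367403) (nat_lit 0) (nat_lit 2894307649672) (nat_lit 2) (nat_lit 5) (nat_lit 4) (nat_lit 4) (nat_lit 2) (nat_lit 4) (nat_lit 417) (nat_lit 366) (nat_lit 237)) (XT.lf (nat_lit 0) (nat_lit 6357457437279) (nat_lit 152) (nat_lit 16760770731329) (nat_lit 0) (nat_lit 6099400826299) (nat_lit 2) (nat_lit 5) (nat_lit 4) (nat_lit 4) (nat_lit 2) (nat_lit 4) (nat_lit 418) (nat_lit 366) (nat_lit 236))) (XT.nd (nat_lit 78) (nat_lit 456) (nat_lit 0) (XT.lf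 (nat_lit 0) (nat_lit 85676194554) (nat_lit 532) (nat_lit 1360908158) (nat_lit 532) (nat_lit 1360908158) (nat_lit 81) (nat_lit 3) (nat_lit 88) (nat_lit 3) (nat_lit 88) (nat_lit 5) (nat_lit 367) (nat_lit 367) (nat_lit 286)) (XT.nd (nat_lit 78) (nat_lit 456) (nat_lit 0) (XT.lf (nat_lit 76) (nat_lit 170214239302) (nat_lit 0) (nat_lit 18086790407) (nat_lit 532) (nat_lit 1426915800) (nat_lit 82) (nat_lit 5) (nat_lit 81) (nat_lit 3) (nat_lit 88) (nat_lit 5) (nat_lit 368) (nat_lit 367) (nat_lit 285)) (XT.lf (nat_lit 0) (nat_lit 11271492282) (nat_lit 532) (nat_lit 34995677700) (nat_lit 608) (nat_lit 157667235934) (nat_lit 75) (nat_lit 5) (nat_lit 82) (nat_lit 5) (nat_lit 83) (nat_lit 5) (nat_lit 369) (nat_lit 367) (nat_lit 284))))))))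
noncomputable def xc95 : XT := (XT.nd (nat_lit 1404) (nat_lit 1976) (nat_lit 0) (XT.nd (nat_lit 702) (nat_lit 1368) (nat_lit 0) (XT.nd (nat_lit 312) (nat_lit 1064) (nat_lit 0) (XT.nd (nat_lit 156) (nat_lit 608) (nat_lit 0) (XT.nd (nat_lit 78) (nat_lit 0) (nat_lit 76) (XT.lf (nat_lit 0) (nat_lit 34535731119) (nat_lit 532) (nat_lit 48498475807) (nat_lit 608) (nat_lit 136535018862) (nat_lit 76) (nat_lit 5) (nat_lit 83) (nat_lit 5) (nat_lit 84) (nat_lit 5) (nat_lit 370) (nat_lit 367) (nat_lit 283)) (XT.lf (nat_lit 0) (nat_lit 70657866915) (nat_lit 532) (nat_lit 59303659751) (nat_lit 76) (nat_lit 106838281205) (nat_lit 77) (nat_lit 5) (nat_lit 84) (nat_lit 5) (nat_lit 78) (nat_lit 5) (nat_lit 371) (nat_lit 367) (nat_lit 282))) (XT.nd (nat_lit 78) (nat_lit 228) (nat_lit 0) (XT.lf (nat_lit 0) (nat_lit 122233545352) (nat_lit 532) (nat_lit 66595346097) (nat_lit 76) (nat_lit 66983268138) (nat_lit 71)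 (nat_lit 5) (nat_lit 78) (nat_lit 5) (nat_lit 72) (nat_lit 5) (nat_lit 372) (nat_lit 367) (nat_lit 281)) (XT.lf (nat_lit 0) (nat_lit 192291967576) (nat_lit 304) (nat_lit 69405116573) (nat_lit 76) (nat_lit 15119568640) (nat_lit 68) (nat_lit 5) (nat_lit 72) (nat_lit 5) (nat_lit 69) (nat_lit 5) (nat_lit 373) (nat_lit 367) (nat_lit 280)))) (XT.nd (nat_lit 156) (nat_lit 608) (nat_lit 0) (XT.nd (nat_lit 78) (nat_lit 228) (nat_lit 0) (XT.lf (nat_lit 0) (nat_lit 232071388702) (nat_lit 228) (nat_lit 53580481912) (nat_lit 304) (nat_lit 14296532035) (nat_lit 65) (nat_lit 5) (nat_lit 68) (nat_lit 5) (nat_lit 69) (nat_lit 5) (nat_lit 374) (nat_lit 367) (nat_lit 279)) (XT.lf (nat_lit 0) (nat_lit 76398138206) (nat_lit 228) (nat_lit 62113282381) (nat_lit 76) (nat_lit 186850039269) (nat_lit 62) (nat_lit 5) (nat_lit 65) (nat_lit 5) (nat_lit 63) (nat_lit 5) (nat_lit 375) (nat_lit 367) (nat_lit 278))) (XT.nd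 (nat_lit 78) (nat_lit 380) (nat_lit 0) (XT.lf (nat_lit 0) (nat_lit 193570060959) (nat_lit 304) (nat_lit 49321728015) (nat_lit 76) (nat_lit 110567414349) (nat_lit 59) (nat_lit 5) (nat_lit 63) (nat_lit 5) (nat_lit 60) (nat_lit 5) (nat_lit 376) (nat_lit 367) (nat_lit 277)) (XT.nd (nat_lit 78) (nat_lit 228) (nat_lit 0) (XT.lf (nat_lit 0) (nat_lit 342958193190) (nat_lit 228) (nat_lit 27522565129) (nat_lit 76) (nat_lit 14119616353) (nat_lit 57) (nat_lit 5) (nat_lit 60) (nat_lit 5) (nat_lit 58) (nat_lit 5) (nat_lit 377) (nat_lit 367) (nat_lit 276)) (XT.lf (nat_lit 0) (nat_lit 108425241623) (nat_lit 228) (nat_lit 237942696) (nat_lit 76) (nat_lit 310063801336) (nat_lit 54) (nat_lit 5) (nat_lit 57) (nat_lit 5) (nat_lit 55) (nat_lit 5) (nat_lit 378) (nat_lit 367) (nat_lit 275)))))) (XT.nd (nat_lit 312) (nat_lit 684) (nat_lit 0) (XT.nd (nat_lit 156) (nat_lit 228) (nat_lit 0) (XT.nd (nat_lit 78) (nat_lit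 152) (nat_lit 0) (XT.lf (nat_lit 0) (nat_lit 39055228241) (nat_lit 152) (nat_lit 258303639023) (nat_lit 228) (nat_lit 159021450175) (nat_lit 50) (nat_lit 5) (nat_lit 52) (nat_lit 5) (nat_lit 53) (nat_lit 5) (nat_lit 379) (nat_lit 367) (nat_lit 274)) (XT.lf (nat_lit 0) (nat_lit 33456336530) (nat_lit 152) (nat_lit 406256798667) (nat_lit 76) (nat_lit 58399480065) (nat_lit 48) (nat_lit 5) (nat_lit 50) (nat_lit 5) (nat_lit 49) (nat_lit 5) (nat_lit 380) (nat_lit 367) (nat_lit 273))) (XT.nd (nat_lit 78) (nat_lit 76) (nat_lit 0) (XT.lf (nat_lit 0) (nat_lit 153366976561) (nat_lit 152) (nat_lit 115588555883) (nat_lit 228) (nat_lit 274933544306) (nat_lit 46) (nat_lit 5) (nat_lit 48) (nat_lit 5) (nat_lit 49) (nat_lit 5) (nat_lit 381) (nat_lit 367) (nat_lit 272)) (XT.lf (nat_lit 0) (nat_lit 231014372342) (nat_lit 76) (nat_lit 332640471447) (nat_lit 152) (nat_lit 30967144811) (nat_lit 45) (nat_lit 5) (nat_lit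 46) (nat_lit 5) (nat_lit 47) (nat_lit 4) (nat_lit 382) (nat_lit 367) (nat_lit 271)))) (XT.nd (nat_lit 156) (nat_lit 380) (nat_lit 0) (XT.nd (nat_lit 78) (nat_lit 76) (nat_lit 0) (XT.lf (nat_lit 0) (nat_lit 261311665165) (nat_lit 228) (nat_lit 328127186105) (nat_lit 76) (nat_lit 61109513101) (nat_lit 42) (nat_lit 5) (nat_lit 45) (nat_lit 5) (nat_lit 43) (nat_lit 4) (nat_lit 383) (nat_lit 367) (nat_lit 270)) (XT.lf (nat_lit 0) (nat_lit 430563234028) (nat_lit 76) (nat_lit 195503511608) (nat_lit 152) (nat_lit 86295159608) (nat_lit 41) (nat_lit 5) (nat_lit 42) (nat_lit 5) (nat_lit 43) (nat_lit 4) (nat_lit 384) (nat_lit 367) (nat_lit 269))) (XT.nd (nat_lit 78) (nat_lit 228) (nat_lit 0) (XT.lf (nat_lit 0) (nat_lit 279251836587) (nat_lit 152) (nat_lit 226244814100) (nat_lit 76) (nat_lit 275024576752) (nat_lit 39) (nat_lit 5) (nat_lit 41) (nat_lit 5) (nat_lit 40) (nat_lit 4) (nat_lit 385) (nat_lit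 367) (nat_lit 268)) (XT.nd (nat_lit 78) (nat_lit 152) (nat_lit 0) (XT.lf (nat_lit 0) (nat_lit 701672836267) (nat_lit 76) (nat_lit 23693304868) (nat_lit 152) (nat_lit 130891400592) (nat_lit 38) (nat_lit 5) (nat_lit 39) (nat_lit 5) (nat_lit 40) (nat_lit 4) (nat_lit 386) (nat_lit 367) (nat_lit 267)) (XT.lf (nat_lit 0) (nat_lit 321777734093) (nat_lit 152) (nat_lit 78006782476) (nat_lit 76) (nat_lit 539682626256) (nat_lit 36) (nat_lit 5) (nat_lit 38) (nat_lit 5) (nat_lit 37) (nat_lit 4) (nat_lit 387) (nat_lit 367) (nat_lit 266))))))) (XT.nd (nat_lit 702) (nat_lit 912) (nat_lit 0) (XT.nd (nat_lit 312) (nat_lit 532) (nat_lit 0) (XT.nd (nat_lit 156) (nat_lit 228) (nat_lit 0) (XT.nd (nat_lit 78) (nat_lit 152) (nat_lit 0) (XT.lf (nat_lit 0) (nat_lit 16651499619) (nat_lit 76) (nat_lit 853662977196) (nat_lit 76) (nat_lit 161714327595) (nat_lit 34) (nat_lit 4) (nat_lit 35) (nat_lit 5) (nat_lit 35) (nat_lit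 4) (nat_lit 388) (nat_lit 367) (nat_lit 265)) (XT.lf (nat_lit 0) (nat_lit 122204808891) (nat_lit 76) (nat_lit 269215151016) (nat_lit 152) (nat_lit 742604641187) (nat_lit 32) (nat_lit 5) (nat_lit 33) (nat_lit 5) (nat_lit 34) (nat_lit 4) (nat_lit 389) (nat_lit 367) (nat_lit 264))) (XT.nd (nat_lit 78) (nat_lit 152) (nat_lit 0) (XT.lf (nat_lit 0) (nat_lit 240034650921) (nat_lit 76) (nat_lit 823978623563) (nat_lit 76) (nat_lit 183285328887) (nat_lit 31) (nat_lit 4) (nat_lit 32) (nat_lit 5) (nat_lit 32) (nat_lit 4) (nat_lit 390) (nat_lit 367) (nat_lit 263)) (XT.lf (nat_lit 0) (nat_lit 364704373928) (nat_lit 76) (nat_lit 118659909385) (nat_lit 152) (nat_lit 889599308185) (nat_lit 29) (nat_lit 5) (nat_lit 30) (nat_lit 5) (nat_lit 31) (nat_lit 4) (nat_lit 391) (nat_lit 367) (nat_lit 262)))) (XT.nd (nat_lit 156) (nat_lit 304) (nat_lit 0) (XT.nd (nat_lit 78) (nat_lit 152) (nat_lit 0) (XT.lf (nat_lit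 0) (nat_lit 490378509240) (nat_lit 76) (nat_lit 807623072992) (nat_lit 76) (nat_lit 214388470449) (nat_lit 28) (nat_lit 4) (nat_lit 29) (nat_lit 5) (nat_lit 29) (nat_lit 4) (nat_lit 392) (nat_lit 367) (nat_lit 261)) (XT.lf (nat_lit 0) (nat_lit 583098566371) (nat_lit 152) (nat_lit 1050814122830) (nat_lit 0) (nat_lit 33807241344) (nat_lit 26) (nat_lit 5) (nat_lit 28) (nat_lit 4) (nat_lit 26) (nat_lit 4) (nat_lit 393) (nat_lit 367) (nat_lit 260))) (XT.nd (nat_lit 78) (nat_lit 228) (nat_lit 0) (XT.lf (nat_lit 0) (nat_lit 726905173680) (nat_lit 76) (nat_lit 831316694929) (nat_lit 76) (nat_lit 282025346965) (nat_lit 25) (nat_lit 4) (nat_lit 26) (nat_lit 5) (nat_lit 26) (nat_lit 4) (nat_lit 394) (nat_lit 367) (nat_lit 259)) (XT.nd (nat_lit 78) (nat_lit 76) (nat_lit 0) (XT.lf (nat_lit 0) (nat_lit 664029511642) (nat_lit 152) (nat_lit 1213553851493) (nat_lit 0) (nat_lit 155426393208) (nat_lit 23) (nat_lit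 5) (nat_lit 25) (nat_lit 4) (nat_lit 23) (nat_lit 4) (nat_lit 395) (nat_lit 367) (nat_lit 258)) (XT.lf (nat_lit 0) (nat_lit 869354874466) (nat_lit 76) (nat_lit 943569233513) (nat_lit 76) (nat_lit 434966099021) (nat_lit 22) (nat_lit 4) (nat_lit 23) (nat_lit 5) (nat_lit 23) (nat_lit 4) (nat_lit 396) (nat_lit 367) (nat_lit 257)))))) (XT.nd (nat_lit 390) (nat_lit 380) (nat_lit 0) (XT.nd (nat_lit 156) (nat_lit 304) (nat_lit 0) (XT.nd (nat_lit 78) (nat_lit 76) (nat_lit 0) (XT.lf (nat_lit 0) (nat_lit 669457938354) (nat_lit 152) (nat_lit 1620803511570) (nat_lit 0) (nat_lit 198529097191) (nat_lit 20) (nat_lit 5) (nat_lit 22) (nat_lit 4) (nat_lit 20) (nat_lit 4) (nat_lit 397) (nat_lit 367) (nat_lit 256)) (XT.lf (nat_lit 0) (nat_lit 771791148390) (nat_lit 76) (nat_lit 1228567203599) (nat_lit 76) (nat_lit 757638351192) (nat_lit 19) (nat_lit 4) (nat_lit 20) (nat_lit 5) (nat_lit 20) (nat_lit 4) (nat_lit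 398) (nat_lit 367) (nat_lit 255))) (XT.nd (nat_lit 78) (nat_lit 152) (nat_lit 0) (XT.lf (nat_lit 0) (nat_lit 504072936804) (nat_lit 152) (nat_lit 2489476579462) (nat_lit 0) (nat_lit 68027694042) (nat_lit 17) (nat_lit 5) (nat_lit 19) (nat_lit 4) (nat_lit 17) (nat_lit 4) (nat_lit 399) (nat_lit 367) (nat_lit 254)) (XT.nd (nat_lit 78) (nat_lit 76) (nat_lit 0) (XT.lf (nat_lit 0) (nat_lit 180980361815) (nat_lit 76) (nat_lit 1828135270075) (nat_lit 76) (nat_lit 1392090019441) (nat_lit 16) (nat_lit 4) (nat_lit 17) (nat_lit 5) (nat_lit 17) (nat_lit 4) (nat_lit 400) (nat_lit 367) (nat_lit 253)) (XT.lf (nat_lit 0) (nat_lit 25091735880) (nat_lit 152) (nat_lit 383854446847) (nat_lit 76) (nat_lit 3376983086745) (nat_lit 15) (nat_lit 5) (nat_lit 17) (nat_lit 5) (nat_lit 16) (nat_lit 4) (nat_lit 401) (nat_lit 367) (nat_lit 252))))) (XT.nd (nat_lit 156) (nat_lit 228) (nat_lit 0) (XT.nd (nat_lit 78) (nat_lit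 76) (nat_lit 0) (XT.lf (nat_lit 0) (nat_lit 1678935641704) (nat_lit 152) (nat_lit 1262822134550) (nat_lit 0) (nat_lit 1275190027416) (nat_lit 14) (nat_lit 5) (nat_lit 16) (nat_lit 4) (nat_lit 14) (nat_lit 4) (nat_lit 402) (nat_lit 367) (nat_lit 251)) (XT.lf (nat_lit 0) (nat_lit 2202921011467) (nat_lit 76) (nat_lit 1453691603541) (nat_lit 76) (nat_lit 1049945984461) (nat_lit 13) (nat_lit 4) (nat_lit 14) (nat_lit 5) (nat_lit 14) (nat_lit 4) (nat_lit 403) (nat_lit 367) (nat_lit 250))) (XT.nd (nat_lit 78) (nat_lit 76) (nat_lit 0) (XT.lf (nat_lit 0) (nat_lit 699048803345) (nat_lit 152) (nat_lit 4238415459997) (nat_lit 0) (nat_lit 325210263301) (nat_lit 11) (nat_lit 5) (nat_lit 13) (nat_lit 4) (nat_lit 11) (nat_lit 4) (nat_lit 404) (nat_lit 367) (nat_lit 249)) (XT.nd (nat_lit 78) (nat_lit 76) (nat_lit 0) (XT.lf (nat_lit 0) (nat_lit 2764981333014) (nat_lit 152) (nat_lit 734561450920) (nat_lit 0)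 (nat_lit 2391142789614) (nat_lit 11) (nat_lit 5) (nat_lit 13) (nat_lit 4) (nat_lit 11) (nat_lit 4) (nat_lit 405) (nat_lit 367) (nat_lit 248)) (XT.lf (nat_lit 0) (nat_lit 3468372636316) (nat_lit 76) (nat_lit 1755845517286) (nat_lit 76) (nat_lit 1382006970969) (nat_lit 10) (nat_lit 4) (nat_lit 11) (nat_lit 5) (nat_lit 11) (nat_lit 4) (nat_lit 406) (nat_lit 367) (nat_lit 247))))))))
noncomputable def xc96 : XT := (XT.nd (nat_lit 50544) (nat_lit 0) (nat_lit 2204) (XT.nd (nat_lit 702) (nat_lit 152) (nat_lit 0) (XT.nd (nat_lit 312) (nat_lit 228) (nat_lit 0) (XT.nd (nat_lit 156) (nat_lit 76) (nat_lit 0) (XT.nd (nat_lit 78) (nat_lit 0) (nat_lit 0) (XT.lf (nat_lit 0) (nat_lit 644428877001) (nat_lit 152) (nat_lit 6480996636658) (nat_lit 0) (nat_lit 298282072506) (nat_lit 8) (nat_lit 5) (nat_lit 10) (nat_lit 4) (nat_lit 8) (nat_lit 4) (nat_lit 407) (nat_lit 367) (nat_lit 246)) (XT.lf (nat_lit 0) (nat_lit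 3037616855938) (nat_lit 152) (nat_lit 2620284449777) (nat_lit 0) (nat_lit 2691470049401) (nat_lit 8) (nat_lit 5) (nat_lit 10) (nat_lit 4) (nat_lit 8) (nat_lit 4) (nat_lit 408) (nat_lit 367) (nat_lit 245))) (XT.nd (nat_lit 78) (nat_lit 0) (nat_lit 0) (XT.lf (nat_lit 0) (nat_lit 1915347974714) (nat_lit 76) (nat_lit 3920499195948) (nat_lit 76) (nat_lit 3574352387634) (nat_lit 7) (nat_lit 4) (nat_lit 8) (nat_lit 5) (nat_lit 8) (nat_lit 4) (nat_lit 409) (nat_lit 367) (nat_lit 244)) (XT.lf (nat_lit 0) (nat_lit 7290001679993) (nat_lit 76) (nat_lit 1840097091358) (nat_lit 76) (nat_lit 1493950281499) (nat_lit 7) (nat_lit 4) (nat_lit 8) (nat_lit 5) (nat_lit 8) (nat_lit 4) (nat_lit 410) (nat_lit 367) (nat_lit 243)))) (XT.nd (nat_lit 156) (nat_lit 76) (nat_lit 0) (XT.nd (nat_lit 78) (nat_lit 0) (nat_lit 0) (XT.lf (nat_lit 0) (nat_lit 904534429991) (nat_lit 152) (nat_lit 10525607118731) (nat_lit 0) (nat_lit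 584028123323) (nat_lit 5) (nat_lit 5) (nat_lit 7) (nat_lit 4) (nat_lit 5) (nat_lit 4) (nat_lit 411) (nat_lit 367) (nat_lit 242)) (XT.lf (nat_lit 0) (nat_lit 3727329332424) (nat_lit 152) (nat_lit 6463312033772) (nat_lit 0) (nat_lit 3406823024675) (nat_lit 5) (nat_lit 5) (nat_lit 7) (nat_lit 4) (nat_lit 5) (nat_lit 4) (nat_lit 412) (nat_lit 367) (nat_lit 241))) (XT.nd (nat_lit 78) (nat_lit 76) (nat_lit 0) (XT.lf (nat_lit 0) (nat_lit 6973543452968) (nat_lit 152) (nat_lit 1791672721654) (nat_lit 0) (nat_lit 6653037144278) (nat_lit 5) (nat_lit 5) (nat_lit 7) (nat_lit 4) (nat_lit 5) (nat_lit 4) (nat_lit 413) (nat_lit 367) (nat_lit 240)) (XT.nd (nat_lit 78) (nat_lit 0) (nat_lit 0) (XT.lf (nat_lit 0) (nat_lit 3769266428720) (nat_lit 76) (nat_lit 7028074196131) (nat_lit 76) (nat_lit 6707567886624) (nat_lit 4) (nat_lit 4) (nat_lit 5) (nat_lit 5) (nat_lit 5) (nat_lit 4) (nat_lit 414) (nat_lit 367) (nat_lit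 239)) (XT.lf (nat_lit 0) (nat_lit 10272844680295) (nat_lit 76) (nat_lit 4974025302037) (nat_lit 76) (nat_lit 4653518991818) (nat_lit 4) (nat_lit 4) (nat_lit 5) (nat_lit 5) (nat_lit 5) (nat_lit 4) (nat_lit 415) (nat_lit 367) (nat_lit 238)))))) (XT.nd (nat_lit 49452) (nat_lit 0) (nat_lit 5244) (XT.nd (nat_lit 156) (nat_lit 0) (nat_lit 0) (XT.nd (nat_lit 78) (nat_lit 152) (nat_lit 0) (XT.lf (nat_lit 0) (nat_lit 17751959644975) (nat_lit 76) (nat_lit 2611869086522) (nat_lit 76) (nat_lit 2291362775685) (nat_lit 4) (nat_lit 4) (nat_lit 5) (nat_lit 5) (nat_lit 5) (nat_lit 4) (nat_lit 416) (nat_lit 367) (nat_lit 237)) (XT.lf (nat_lit 0) (nat_lit 420125834311) (nat_lit 152) (nat_lit 25277607926657) (nat_lit 0) (nat_lit 123360731186) (nat_lit 2) (nat_lit 5) (nat_lit 4) (nat_lit 4) (nat_lit 2) (nat_lit 4) (nat_lit 417) (nat_lit 367) (nat_lit 236))) (XT.nd (nat_lit 49218) (nat_lit 0) (nat_lit 6004) (XT.lf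 (nat_lit 0) (nat_lit 3625219006787) (nat_lit 152) (nat_lit 22485644300187) (nat_lit 0) (nat_lit 3328453903230) (nat_lit 2) (nat_lit 5) (nat_lit 4) (nat_lit 4) (nat_lit 2) (nat_lit 4) (nat_lit 418) (nat_lit 367) (nat_lit 235)) (XT.lf (nat_lit 0) (nat_lit 98531031407) (nat_lit 532) (nat_lit 1563203785) (nat_lit 532) (nat_lit 1563203785) (nat_lit 81) (nat_lit 3) (nat_lit 88) (nat_lit 3) (nat_lit 88) (nat_lit 5) (nat_lit 368) (nat_lit 368) (nat_lit 284)))) (XT.nd (nat_lit 156) (nat_lit 304) (nat_lit 0) (XT.nd (nat_lit 78) (nat_lit 456) (nat_lit 0) (XT.lf (nat_lit 76) (nat_lit 195749744797) (nat_lit 0) (nat_lit 20802446790) (nat_lit 532) (nat_lit 1634463570) (nat_lit 82) (nat_lit 5) (nat_lit 81) (nat_lit 3) (nat_lit 88) (nat_lit 5) (nat_lit 369) (nat_lit 368) (nat_lit 283)) (XT.lf (nat_lit 0) (nat_lit 12967608794) (nat_lit 532) (nat_lit 40241160296) (nat_lit 608) (nat_lit 181315365023) (nat_lit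 75) (nat_lit 5) (nat_lit 82) (nat_lit 5) (nat_lit 83) (nat_lit 5) (nat_lit 370) (nat_lit 368) (nat_lit 282))) (XT.nd (nat_lit 78) (nat_lit 380) (nat_lit 0) (XT.lf (nat_lit 0) (nat_lit 39720835589) (nat_lit 532) (nat_lit 55769292900) (nat_lit 608) (nat_lit 157014100475) (nat_lit 76) (nat_lit 5) (nat_lit 83) (nat_lit 5) (nat_lit 84) (nat_lit 5) (nat_lit 371) (nat_lit 368) (nat_lit 281)) (XT.nd (nat_lit 78) (nat_lit 456) (nat_lit 0) (XT.lf (nat_lit 0) (nat_lit 81260745646) (nat_lit 532) (nat_lit 68195236872) (nat_lit 76) (nat_lit 122863459673) (nat_lit 77) (nat_lit 5) (nat_lit 84) (nat_lit 5) (nat_lit 78) (nat_lit 5) (nat_lit 372) (nat_lit 368) (nat_lit 280)) (XT.lf (nat_lit 0) (nat_lit 140572313157) (nat_lit 532) (nat_lit 76580709977) (nat_lit 76) (nat_lit 77030660672) (nat_lit 71) (nat_lit 5) (nat_lit 78) (nat_lit 5) (nat_lit 72) (nat_lit 5) (nat_lit 373) (nat_lit 368) (nat_lit 279)))))))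 (XT.nd (nat_lit 702) (nat_lit 1140) (nat_lit 0) (XT.nd (nat_lit 312) (nat_lit 988) (nat_lit 0) (XT.nd (nat_lit 156) (nat_lit 456) (nat_lit 0) (XT.nd (nat_lit 78) (nat_lit 228) (nat_lit 0) (XT.lf (nat_lit 0) (nat_lit 221139104580) (nat_lit 304) (nat_lit 79812018275) (nat_lit 76) (nat_lit 17387759773) (nat_lit 68) (nat_lit 5) (nat_lit 72) (nat_lit 5) (nat_lit 69) (nat_lit 5) (nat_lit 374) (nat_lit 368) (nat_lit 278)) (XT.lf (nat_lit 0) (nat_lit 266885635572) (nat_lit 228) (nat_lit 61617006709) (nat_lit 304) (nat_lit 16437780846) (nat_lit 65) (nat_lit 5) (nat_lit 68) (nat_lit 5) (nat_lit 69) (nat_lit 5) (nat_lit 375) (nat_lit 368) (nat_lit 277))) (XT.nd (nat_lit 78) (nat_lit 228) (nat_lit 0) (XT.lf (nat_lit 0) (nat_lit 87860624743) (nat_lit 228) (nat_lit 71426681983) (nat_lit 76) (nat_lit 214878150334) (nat_lit 62) (nat_lit 5) (nat_lit 65) (nat_lit 5) (nat_lit 63) (nat_lit 5) (nat_lit 376) (nat_lit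 368) (nat_lit 276)) (XT.lf (nat_lit 0) (nat_lit 222608073592) (nat_lit 304) (nat_lit 56716518744) (nat_lit 76) (nat_lit 127153290762) (nat_lit 59) (nat_lit 5) (nat_lit 63) (nat_lit 5) (nat_lit 60) (nat_lit 5) (nat_lit 377) (nat_lit 368) (nat_lit 275)))) (XT.nd (nat_lit 156) (nat_lit 608) (nat_lit 0) (XT.nd (nat_lit 78) (nat_lit 228) (nat_lit 0) (XT.lf (nat_lit 0) (nat_lit 394404197635) (nat_lit 228) (nat_lit 31647616527) (nat_lit 76) (nat_lit 16238434287) (nat_lit 57) (nat_lit 5) (nat_lit 60) (nat_lit 5) (nat_lit 58) (nat_lit 5) (nat_lit 378) (nat_lit 368) (nat_lit 274)) (XT.lf (nat_lit 0) (nat_lit 124691133535) (nat_lit 228) (nat_lit 270471691) (nat_lit 76) (nat_lit 356574259513) (nat_lit 54) (nat_lit 5) (nat_lit 57) (nat_lit 5) (nat_lit 55) (nat_lit 5) (nat_lit 379) (nat_lit 368) (nat_lit 273))) (XT.nd (nat_lit 78) (nat_lit 304) (nat_lit 0) (XT.lf (nat_lit 0) (nat_lit 44916694811) (nat_lit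 152) (nat_lit 297048003620) (nat_lit 228) (nat_lit 182872506267) (nat_lit 50) (nat_lit 5) (nat_lit 52) (nat_lit 5) (nat_lit 53) (nat_lit 5) (nat_lit 380) (nat_lit 368) (nat_lit 272)) (XT.nd (nat_lit 78) (nat_lit 152) (nat_lit 0) (XT.lf (nat_lit 0) (nat_lit 38476672698) (nat_lit 152) (nat_lit 467192185209) (nat_lit 76) (nat_lit 67160498571) (nat_lit 48) (nat_lit 5) (nat_lit 50) (nat_lit 5) (nat_lit 49) (nat_lit 5) (nat_lit 381) (nat_lit 368) (nat_lit 271)) (XT.lf (nat_lit 0) (nat_lit 176374891089) (nat_lit 152) (nat_lit 132925679928) (nat_lit 228) (nat_lit 316171730360) (nat_lit 46) (nat_lit 5) (nat_lit 48) (nat_lit 5) (nat_lit 49) (nat_lit 5) (nat_lit 382) (nat_lit 368) (nat_lit 270)))))) (XT.nd (nat_lit 312) (nat_lit 608) (nat_lit 0) (XT.nd (nat_lit 156) (nat_lit 228) (nat_lit 0) (XT.nd (nat_lit 78) (nat_lit 228) (nat_lit 0) (XT.lf (nat_lit 0) (nat_lit 265669253249) (nat_lit 76) (nat_lit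 382535392723) (nat_lit 152) (nat_lit 35610514704) (nat_lit 45) (nat_lit 5) (nat_lit 46) (nat_lit 5) (nat_lit 47) (nat_lit 4) (nat_lit 383) (nat_lit 368) (nat_lit 269)) (XT.lf (nat_lit 0) (nat_lit 300509909200) (nat_lit 228) (nat_lit 377343600584) (nat_lit 76) (nat_lit 70276989569) (nat_lit 42) (nat_lit 5) (nat_lit 45) (nat_lit 5) (nat_lit 43) (nat_lit 4) (nat_lit 384) (nat_lit 368) (nat_lit 268))) (XT.nd (nat_lit 78) (nat_lit 152) (nat_lit 0) (XT.lf (nat_lit 0) (nat_lit 495150157122) (nat_lit 76) (nat_lit 224827958350) (nat_lit 152) (nat_lit 99237966804) (nat_lit 41) (nat_lit 5) (nat_lit 42) (nat_lit 5) (nat_lit 43) (nat_lit 4) (nat_lit 385) (nat_lit 368) (nat_lit 267)) (XT.lf (nat_lit 0) (nat_lit 321140903810) (nat_lit 152) (nat_lit 260179160702) (nat_lit 76) (nat_lit 316279243611) (nat_lit 39) (nat_lit 5) (nat_lit 41) (nat_lit 5) (nat_lit 40) (nat_lit 4) (nat_lit 386) (nat_lit 368) (nat_lit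 266)))) (XT.nd (nat_lit 156) (nat_lit 380) (nat_lit 0) (XT.nd (nat_lit 78) (nat_lit 152) (nat_lit 0) (XT.lf (nat_lit 0) (nat_lit 806925936144) (nat_lit 76) (nat_lit 27246301704) (nat_lit 152) (nat_lit 150523841014) (nat_lit 38) (nat_lit 5) (nat_lit 39) (nat_lit 5) (nat_lit 40) (nat_lit 4) (nat_lit 387) (nat_lit 368) (nat_lit 265)) (XT.lf (nat_lit 0) (nat_lit 370045515164) (nat_lit 152) (nat_lit 89705686205) (nat_lit 76) (nat_lit 620635923138) (nat_lit 36) (nat_lit 5) (nat_lit 38) (nat_lit 5) (nat_lit 37) (nat_lit 4) (nat_lit 388) (nat_lit 368) (nat_lit 264))) (XT.nd (nat_lit 78) (nat_lit 228) (nat_lit 0) (XT.lf (nat_lit 0) (nat_lit 19151324112) (nat_lit 76) (nat_lit 981711417964) (nat_lit 76) (nat_lit 185970295441) (nat_lit 34) (nat_lit 4) (nat_lit 35) (nat_lit 5) (nat_lit 35) (nat_lit 4) (nat_lit 389) (nat_lit 368) (nat_lit 263)) (XT.nd (nat_lit 78) (nat_lit 76) (nat_lit 0) (XT.lf (nat_lit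 0) (nat_lit 140537506198) (nat_lit 76) (nat_lit 309596471044) (nat_lit 152) (nat_lit 853994232103) (nat_lit 32) (nat_lit 5) (nat_lit 33) (nat_lit 5) (nat_lit 34) (nat_lit 4) (nat_lit 390) (nat_lit 368) (nat_lit 262)) (XT.lf (nat_lit 0) (nat_lit 276041711285) (nat_lit 76) (nat_lit 947574508962) (nat_lit 76) (nat_lit 210777097223) (nat_lit 31) (nat_lit 4) (nat_lit 32) (nat_lit 5) (nat_lit 32) (nat_lit 4) (nat_lit 391) (nat_lit 368) (nat_lit 261))))))))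
noncomputable def xc97 : XT := (XT.nd (nat_lit 1404) (nat_lit 456) (nat_lit 0) (XT.nd (nat_lit 702) (nat_lit 684) (nat_lit 0) (XT.nd (nat_lit 312) (nat_lit 608) (nat_lit 0) (XT.nd (nat_lit 156) (nat_lit 228) (nat_lit 0) (XT.nd (nat_lit 78) (nat_lit 76) (nat_lit 0) (XT.lf (nat_lit 0) (nat_lit 419411782315) (nat_lit 76) (nat_lit 136458037309) (nat_lit 152) (nat_lit 1023038239061) (nat_lit 29) (nat_lit 5) (nat_lit 30) (nat_lit 5) (nat_lit 31) (nat_lit 4) (nat_lit 392) (nat_lit 368) (nat_lit 260)) (XT.lf (nat_lit 0) (nat_lit 563936936183) (nat_lit 76) (nat_lit 928765718262) (nat_lit 76) (nat_lit 246545839320) (nat_lit 28) (nat_lit 4) (nat_lit 29) (nat_lit 5) (nat_lit 29) (nat_lit 4) (nat_lit 393) (nat_lit 368) (nat_lit 259))) (XT.nd (nat_lit 78) (nat_lit 76) (nat_lit 0) (XT.lf (nat_lit 0) (nat_lit 670564152035) (nat_lit 152) (nat_lit 1208434645017) (nat_lit 0) (nat_lit 38879058995) (nat_lit 26)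 (nat_lit 5) (nat_lit 28) (nat_lit 4) (nat_lit 26) (nat_lit 4) (nat_lit 394) (nat_lit 368) (nat_lit 258)) (XT.lf (nat_lit 0) (nat_lit 835942410856) (nat_lit 76) (nat_lit 956013469453) (nat_lit 76) (nat_lit 324328359070) (nat_lit 25) (nat_lit 4) (nat_lit 26) (nat_lit 5) (nat_lit 26) (nat_lit 4) (nat_lit 395) (nat_lit 368) (nat_lit 257)))) (XT.nd (nat_lit 156) (nat_lit 380) (nat_lit 0) (XT.nd (nat_lit 78) (nat_lit 76) (nat_lit 0) (XT.lf (nat_lit 0) (nat_lit 763634640515) (nat_lit 152) (nat_lit 1395585517268) (nat_lit 0) (nat_lit 178741005826) (nat_lit 23) (nat_lit 5) (nat_lit 25) (nat_lit 4) (nat_lit 23) (nat_lit 4) (nat_lit 396) (nat_lit 368) (nat_lit 256)) (XT.lf (nat_lit 0) (nat_lit 999759398070) (nat_lit 76) (nat_lit 1085103967734) (nat_lit 76) (nat_lit 500210320902) (nat_lit 22) (nat_lit 4) (nat_lit 23) (nat_lit 5) (nat_lit 23) (nat_lit 4) (nat_lit 397) (nat_lit 368) (nat_lit 255))) (XT.nd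 (nat_lit 78) (nat_lit 228) (nat_lit 0) (XT.lf (nat_lit 0) (nat_lit 769877245509) (nat_lit 152) (nat_lit 1863922790129) (nat_lit 0) (nat_lit 228309044222) (nat_lit 20) (nat_lit 5) (nat_lit 22) (nat_lit 4) (nat_lit 20) (nat_lit 4) (nat_lit 398) (nat_lit 368) (nat_lit 254)) (XT.nd (nat_lit 78) (nat_lit 152) (nat_lit 0) (XT.lf (nat_lit 0) (nat_lit 887560963173) (nat_lit 76) (nat_lit 1412851705094) (nat_lit 76) (nat_lit 871283495305) (nat_lit 19) (nat_lit 4) (nat_lit 20) (nat_lit 5) (nat_lit 20) (nat_lit 4) (nat_lit 399) (nat_lit 368) (nat_lit 253)) (XT.lf (nat_lit 0) (nat_lit 579684418974) (nat_lit 152) (nat_lit 2862896963511) (nat_lit 0) (nat_lit 78232366028) (nat_lit 17) (nat_lit 5) (nat_lit 19) (nat_lit 4) (nat_lit 17) (nat_lit 4) (nat_lit 400) (nat_lit 368) (nat_lit 252)))))) (XT.nd (nat_lit 312) (nat_lit 380) (nat_lit 0) (XT.nd (nat_lit 156) (nat_lit 152) (nat_lit 0) (XT.nd (nat_lit 78)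 (nat_lit 76) (nat_lit 0) (XT.lf (nat_lit 0) (nat_lit 208128425605) (nat_lit 76) (nat_lit 2102355046348) (nat_lit 76) (nat_lit 1600902987450) (nat_lit 16) (nat_lit 4) (nat_lit 17) (nat_lit 5) (nat_lit 17) (nat_lit 4) (nat_lit 401) (nat_lit 368) (nat_lit 251)) (XT.lf (nat_lit 0) (nat_lit 28855938131) (nat_lit 152) (nat_lit 441431712760) (nat_lit 76) (nat_lit 3883530973647) (nat_lit 15) (nat_lit 5) (nat_lit 17) (nat_lit 5) (nat_lit 16) (nat_lit 4) (nat_lit 402) (nat_lit 368) (nat_lit 250))) (XT.nd (nat_lit 78) (nat_lit 76) (nat_lit 0) (XT.lf (nat_lit 0) (nat_lit 1930776402150) (nat_lit 152) (nat_lit 1452244607682) (nat_lit 0) (nat_lit 1466468931248) (nat_lit 14) (nat_lit 5) (nat_lit 16) (nat_lit 4) (nat_lit 14) (nat_lit 4) (nat_lit 403) (nat_lit 368) (nat_lit 249)) (XT.lf (nat_lit 0) (nat_lit 2533359938539) (nat_lit 76) (nat_lit 1671744947534) (nat_lit 76) (nat_lit 1207437473008) (nat_lit 13)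 (nat_lit 4) (nat_lit 14) (nat_lit 5) (nat_lit 14) (nat_lit 4) (nat_lit 404) (nat_lit 368) (nat_lit 248)))) (XT.nd (nat_lit 156) (nat_lit 228) (nat_lit 0) (XT.nd (nat_lit 78) (nat_lit 0) (nat_lit 0) (XT.lf (nat_lit 0) (nat_lit 803906488299) (nat_lit 152) (nat_lit 4874177031065) (nat_lit 0) (nat_lit 373992157116) (nat_lit 11) (nat_lit 5) (nat_lit 13) (nat_lit 4) (nat_lit 11) (nat_lit 4) (nat_lit 405) (nat_lit 368) (nat_lit 247)) (XT.lf (nat_lit 0) (nat_lit 3179728849880) (nat_lit 152) (nat_lit 844745018184) (nat_lit 0) (nat_lit 2749814516161) (nat_lit 11) (nat_lit 5) (nat_lit 13) (nat_lit 4) (nat_lit 11) (nat_lit 4) (nat_lit 406) (nat_lit 368) (nat_lit 246))) (XT.nd (nat_lit 78) (nat_lit 152) (nat_lit 0) (XT.lf (nat_lit 0) (nat_lit 3988629127087) (nat_lit 76) (nat_lit 2019222039451) (nat_lit 76) (nat_lit 1589307703525) (nat_lit 10) (nat_lit 4) (nat_lit 11) (nat_lit 5) (nat_lit 11) (nat_lit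 4) (nat_lit 407) (nat_lit 368) (nat_lit 245)) (XT.nd (nat_lit 78) (nat_lit 0) (nat_lit 0) (XT.lf (nat_lit 0) (nat_lit 741093487541) (nat_lit 152) (nat_lit 7453145558024) (nat_lit 0) (nat_lit 343024656204) (nat_lit 8) (nat_lit 5) (nat_lit 10) (nat_lit 4) (nat_lit 8) (nat_lit 4) (nat_lit 408) (nat_lit 368) (nat_lit 244)) (XT.lf (nat_lit 0) (nat_lit 3493259626929) (nat_lit 152) (nat_lit 3013326617998) (nat_lit 0) (nat_lit 3095190794047) (nat_lit 8) (nat_lit 5) (nat_lit 10) (nat_lit 4) (nat_lit 8) (nat_lit 4) (nat_lit 409) (nat_lit 368) (nat_lit 243))))))) (XT.nd (nat_lit 49920) (nat_lit 0) (nat_lit 4332) (XT.nd (nat_lit 312) (nat_lit 228) (nat_lit 0) (XT.nd (nat_lit 156) (nat_lit 152) (nat_lit 0) (XT.nd (nat_lit 78) (nat_lit 0) (nat_lit 0) (XT.lf (nat_lit 0) (nat_lit 2202650627908) (nat_lit 76) (nat_lit 4508573840300) (nat_lit 76) (nat_lit 4110505006075) (nat_lit 7) (nat_lit 4) (nat_lit 8) (nat_lit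 5) (nat_lit 8) (nat_lit 4) (nat_lit 410) (nat_lit 368) (nat_lit 242)) (XT.lf (nat_lit 0) (nat_lit 8383502329372) (nat_lit 76) (nat_lit 2116111450679) (nat_lit 76) (nat_lit 1718042615286) (nat_lit 7) (nat_lit 4) (nat_lit 8) (nat_lit 5) (nat_lit 8) (nat_lit 4) (nat_lit 411) (nat_lit 368) (nat_lit 241))) (XT.nd (nat_lit 78) (nat_lit 0) (nat_lit 0) (XT.lf (nat_lit 0) (nat_lit 1040214780272) (nat_lit 152) (nat_lit 12104447803378) (nat_lit 0) (nat_lit 671632524338) (nat_lit 5) (nat_lit 5) (nat_lit 7) (nat_lit 4) (nat_lit 5) (nat_lit 4) (nat_lit 412) (nat_lit 368) (nat_lit 240)) (XT.lf (nat_lit 0) (nat_lit 4286428893838) (nat_lit 152) (nat_lit 7432808505653) (nat_lit 0) (nat_lit 3917846637086) (nat_lit 5) (nat_lit 5) (nat_lit 7) (nat_lit 4) (nat_lit 5) (nat_lit 4) (nat_lit 413) (nat_lit 368) (nat_lit 239)))) (XT.nd (nat_lit 156) (nat_lit 152) (nat_lit 0) (XT.nd (nat_lit 78) (nat_lit 76) (nat_lit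 0) (XT.lf (nat_lit 0) (nat_lit 8019575111392) (nat_lit 152) (nat_lit 2060423340177) (nat_lit 0) (nat_lit 7650992853929) (nat_lit 5) (nat_lit 5) (nat_lit 7) (nat_lit 4) (nat_lit 5) (nat_lit 4) (nat_lit 414) (nat_lit 368) (nat_lit 238)) (XT.lf (nat_lit 0) (nat_lit 4334656658230) (nat_lit 76) (nat_lit 8082285188882) (nat_lit 76) (nat_lit 7713702930801) (nat_lit 4) (nat_lit 4) (nat_lit 5) (nat_lit 5) (nat_lit 5) (nat_lit 4) (nat_lit 415) (nat_lit 368) (nat_lit 237))) (XT.nd (nat_lit 78) (nat_lit 152) (nat_lit 0) (XT.lf (nat_lit 0) (nat_lit 11813771612949) (nat_lit 76) (nat_lit 5720128978500) (nat_lit 76) (nat_lit 5351546719881) (nat_lit 4) (nat_lit 4) (nat_lit 5) (nat_lit 5) (nat_lit 5) (nat_lit 4) (nat_lit 416) (nat_lit 368) (nat_lit 236)) (XT.nd (nat_lit 78) (nat_lit 152) (nat_lit 0) (XT.lf (nat_lit 0) (nat_lit 20414753792252) (nat_lit 76) (nat_lit 3003649346159) (nat_lit 76) (nat_lit 2635067087073)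 (nat_lit 4) (nat_lit 4) (nat_lit 5) (nat_lit 5) (nat_lit 5) (nat_lit 4) (nat_lit 417) (nat_lit 368) (nat_lit 235)) (XT.lf (nat_lit 0) (nat_lit 483144803032) (nat_lit 152) (nat_lit 29069248922328) (nat_lit 0) (nat_lit 141864933131) (nat_lit 2) (nat_lit 5) (nat_lit 4) (nat_lit 4) (nat_lit 2) (nat_lit 4) (nat_lit 418) (nat_lit 368) (nat_lit 234)))))) (XT.nd (nat_lit 390) (nat_lit 1216) (nat_lit 0) (XT.nd (nat_lit 156) (nat_lit 456) (nat_lit 0) (XT.nd (nat_lit 78) (nat_lit 0) (nat_lit 0) (XT.lf (nat_lit 0) (nat_lit 113313262806) (nat_lit 532) (nat_lit 1796292596) (nat_lit 532) (nat_lit 1796292596) (nat_lit 81) (nat_lit 3) (nat_lit 88) (nat_lit 3) (nat_lit 88) (nat_lit 5) (nat_lit 369) (nat_lit 369) (nat_lit 282)) (XT.lf (nat_lit 76) (nat_lit 225114754418) (nat_lit 0) (nat_lit 23924808380) (nat_lit 532) (nat_lit 1874726035) (nat_lit 82) (nat_lit 5) (nat_lit 81) (nat_lit 3) (nat_lit 88) (nat_lit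 5) (nat_lit 370) (nat_lit 369) (nat_lit 281))) (XT.nd (nat_lit 78) (nat_lit 0) (nat_lit 76) (XT.lf (nat_lit 0) (nat_lit 14916827746) (nat_lit 532) (nat_lit 46274408777) (nat_lit 608) (nat_lit 208511190532) (nat_lit 75) (nat_lit 5) (nat_lit 82) (nat_lit 5) (nat_lit 83) (nat_lit 5) (nat_lit 371) (nat_lit 369) (nat_lit 280)) (XT.nd (nat_lit 78) (nat_lit 0) (nat_lit 76) (XT.lf (nat_lit 0) (nat_lit 45682548679) (nat_lit 532) (nat_lit 64131696832) (nat_lit 608) (nat_lit 180565329938) (nat_lit 76) (nat_lit 5) (nat_lit 83) (nat_lit 5) (nat_lit 84) (nat_lit 5) (nat_lit 372) (nat_lit 369) (nat_lit 279)) (XT.lf (nat_lit 0) (nat_lit 93453032309) (nat_lit 532) (nat_lit 78421519120) (nat_lit 76) (nat_lit 141292552377) (nat_lit 77) (nat_lit 5) (nat_lit 84) (nat_lit 5) (nat_lit 78) (nat_lit 5) (nat_lit 373) (nat_lit 369) (nat_lit 278))))) (XT.nd (nat_lit 156) (nat_lit 684) (nat_lit 0) (XT.nd (nat_lit 78)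 (nat_lit 228) (nat_lit 0) (XT.lf (nat_lit 0) (nat_lit 161660985086) (nat_lit 532) (nat_lit 88064838753) (nat_lit 76) (nat_lit 88585185908) (nat_lit 71) (nat_lit 5) (nat_lit 78) (nat_lit 5) (nat_lit 72) (nat_lit 5) (nat_lit 374) (nat_lit 369) (nat_lit 277)) (XT.lf (nat_lit 0) (nat_lit 254312497200) (nat_lit 304) (nat_lit 91780897928) (nat_lit 76) (nat_lit 19996117189) (nat_lit 68) (nat_lit 5) (nat_lit 72) (nat_lit 5) (nat_lit 69) (nat_lit 5) (nat_lit 375) (nat_lit 369) (nat_lit 276))) (XT.nd (nat_lit 78) (nat_lit 456) (nat_lit 0) (XT.lf (nat_lit 0) (nat_lit 306921156571) (nat_lit 228) (nat_lit 70859143735) (nat_lit 304) (nat_lit 18901004876) (nat_lit 65) (nat_lit 5) (nat_lit 68) (nat_lit 5) (nat_lit 69) (nat_lit 5) (nat_lit 376) (nat_lit 369) (nat_lit 275)) (XT.nd (nat_lit 78) (nat_lit 228) (nat_lit 0) (XT.lf (nat_lit 0) (nat_lit 101041809802) (nat_lit 228) (nat_lit 82137967641) (nat_lit 76)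 (nat_lit 247110330483) (nat_lit 62) (nat_lit 5) (nat_lit 65) (nat_lit 5) (nat_lit 63) (nat_lit 5) (nat_lit 377) (nat_lit 369) (nat_lit 274)) (XT.lf (nat_lit 0) (nat_lit 256001177629) (nat_lit 304) (nat_lit 65221373891) (nat_lit 76) (nat_lit 146226862268) (nat_lit 59) (nat_lit 5) (nat_lit 63) (nat_lit 5) (nat_lit 60) (nat_lit 5) (nat_lit 378) (nat_lit 369) (nat_lit 273))))))))
noncomputable def xc98 : XT := (XT.nd (nat_lit 1404) (nat_lit 1520) (nat_lit 0) (XT.nd (nat_lit 702) (nat_lit 1064) (nat_lit 0) (XT.nd (nat_lit 312) (nat_lit 684) (nat_lit 0) (XT.nd (nat_lit 156) (nat_lit 456) (nat_lit 0) (XT.nd (nat_lit 78) (nat_lit 228) (nat_lit 0) (XT.lf (nat_lit 0) (nat_lit 453566547861) (nat_lit 228) (nat_lit 36392238499) (nat_lit 76) (nat_lit 18674861418) (nat_lit 57) (nat_lit 5) (nat_lit 60) (nat_lit 5) (nat_lit 58) (nat_lit 5) (nat_lit 379) (nat_lit 369) (nat_lit 272)) (XT.lf (nat_lit 0) (nat_lit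 143396395753) (nat_lit 228) (nat_lit 308651209) (nat_lit 76) (nat_lit 410061069879) (nat_lit 54) (nat_lit 5) (nat_lit 57) (nat_lit 5) (nat_lit 55) (nat_lit 5) (nat_lit 380) (nat_lit 369) (nat_lit 271))) (XT.nd (nat_lit 78) (nat_lit 152) (nat_lit 0) (XT.lf (nat_lit 0) (nat_lit 51656605334) (nat_lit 152) (nat_lit 341604310964) (nat_lit 228) (nat_lit 210301747853) (nat_lit 50) (nat_lit 5) (nat_lit 52) (nat_lit 5) (nat_lit 53) (nat_lit 5) (nat_lit 381) (nat_lit 369) (nat_lit 270)) (XT.lf (nat_lit 0) (nat_lit 44249599455) (nat_lit 152) (nat_lit 537268643797) (nat_lit 76) (nat_lit 77235402466) (nat_lit 48) (nat_lit 5) (nat_lit 50) (nat_lit 5) (nat_lit 49) (nat_lit 5) (nat_lit 382) (nat_lit 369) (nat_lit 269)))) (XT.nd (nat_lit 156) (nat_lit 456) (nat_lit 0) (XT.nd (nat_lit 78) (nat_lit 76) (nat_lit 0) (XT.lf (nat_lit 0) (nat_lit 202833293405) (nat_lit 152) (nat_lit 152863655292) (nat_lit 228) (nat_lit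 363596094382) (nat_lit 46) (nat_lit 5) (nat_lit 48) (nat_lit 5) (nat_lit 49) (nat_lit 5) (nat_lit 383) (nat_lit 369) (nat_lit 268)) (XT.lf (nat_lit 0) (nat_lit 305521701769) (nat_lit 76) (nat_lit 439914832489) (nat_lit 152) (nat_lit 40950805084) (nat_lit 45) (nat_lit 5) (nat_lit 46) (nat_lit 5) (nat_lit 47) (nat_lit 4) (nat_lit 384) (nat_lit 369) (nat_lit 267))) (XT.nd (nat_lit 78) (nat_lit 228) (nat_lit 0) (XT.lf (nat_lit 0) (nat_lit 345587525455) (nat_lit 228) (nat_lit 433943126731) (nat_lit 76) (nat_lit 80819331580) (nat_lit 42) (nat_lit 5) (nat_lit 45) (nat_lit 5) (nat_lit 43) (nat_lit 4) (nat_lit 385) (nat_lit 369) (nat_lit 266)) (XT.nd (nat_lit 78) (nat_lit 152) (nat_lit 0) (XT.lf (nat_lit 0) (nat_lit 569424524162) (nat_lit 76) (nat_lit 258551335467) (nat_lit 152) (nat_lit 114122552755) (nat_lit 41) (nat_lit 5) (nat_lit 42) (nat_lit 5) (nat_lit 43) (nat_lit 4) (nat_lit 386) (nat_lit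 369) (nat_lit 265)) (XT.lf (nat_lit 0) (nat_lit 369313016119) (nat_lit 152) (nat_lit 299204238578) (nat_lit 76) (nat_lit 363721871436) (nat_lit 39) (nat_lit 5) (nat_lit 41) (nat_lit 5) (nat_lit 40) (nat_lit 4) (nat_lit 387) (nat_lit 369) (nat_lit 264)))))) (XT.nd (nat_lit 312) (nat_lit 532) (nat_lit 0) (XT.nd (nat_lit 156) (nat_lit 304) (nat_lit 0) (XT.nd (nat_lit 78) (nat_lit 152) (nat_lit 0) (XT.lf (nat_lit 0) (nat_lit 927966470753) (nat_lit 76) (nat_lit 31332491652) (nat_lit 152) (nat_lit 173101457115) (nat_lit 38) (nat_lit 5) (nat_lit 39) (nat_lit 5) (nat_lit 40) (nat_lit 4) (nat_lit 388) (nat_lit 369) (nat_lit 263)) (XT.lf (nat_lit 0) (nat_lit 425553190043) (nat_lit 152) (nat_lit 103159940919) (nat_lit 76) (nat_lit 713731994363) (nat_lit 36) (nat_lit 5) (nat_lit 38) (nat_lit 5) (nat_lit 37) (nat_lit 4) (nat_lit 389) (nat_lit 369) (nat_lit 262))) (XT.nd (nat_lit 78) (nat_lit 152) (nat_lit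 0) (XT.lf (nat_lit 0) (nat_lit 22025610291) (nat_lit 76) (nat_lit 1128967370120) (nat_lit 76) (nat_lit 213864946529) (nat_lit 34) (nat_lit 4) (nat_lit 35) (nat_lit 5) (nat_lit 35) (nat_lit 4) (nat_lit 390) (nat_lit 369) (nat_lit 261)) (XT.lf (nat_lit 0) (nat_lit 161619626247) (nat_lit 76) (nat_lit 356035221380) (nat_lit 152) (nat_lit 982092531181) (nat_lit 32) (nat_lit 5) (nat_lit 33) (nat_lit 5) (nat_lit 34) (nat_lit 4) (nat_lit 391) (nat_lit 369) (nat_lit 260)))) (XT.nd (nat_lit 156) (nat_lit 304) (nat_lit 0) (XT.nd (nat_lit 78) (nat_lit 152) (nat_lit 0) (XT.lf (nat_lit 0) (nat_lit 317449376466) (nat_lit 76) (nat_lit 1089709998626) (nat_lit 76) (nat_lit 242392882226) (nat_lit 31) (nat_lit 4) (nat_lit 32) (nat_lit 5) (nat_lit 32) (nat_lit 4) (nat_lit 392) (nat_lit 369) (nat_lit 259)) (XT.lf (nat_lit 0) (nat_lit 482324874651) (nat_lit 76) (nat_lit 156926093769) (nat_lit 152) (nat_lit 1176493244977)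 (nat_lit 29) (nat_lit 5) (nat_lit 30) (nat_lit 5) (nat_lit 31) (nat_lit 4) (nat_lit 393) (nat_lit 369) (nat_lit 258))) (XT.nd (nat_lit 78) (nat_lit 228) (nat_lit 0) (XT.lf (nat_lit 0) (nat_lit 648528724669) (nat_lit 76) (nat_lit 1068079959232) (nat_lit 76) (nat_lit 283527033405) (nat_lit 28) (nat_lit 4) (nat_lit 29) (nat_lit 5) (nat_lit 29) (nat_lit 4) (nat_lit 394) (nat_lit 369) (nat_lit 257)) (XT.nd (nat_lit 78) (nat_lit 76) (nat_lit 0) (XT.lf (nat_lit 0) (nat_lit 771149380291) (nat_lit 152) (nat_lit 1389698634785) (nat_lit 0) (nat_lit 44711470926) (nat_lit 26) (nat_lit 5) (nat_lit 28) (nat_lit 4) (nat_lit 26) (nat_lit 4) (nat_lit 395) (nat_lit 369) (nat_lit 256)) (XT.lf (nat_lit 0) (nat_lit 961334877305) (nat_lit 76) (nat_lit 1099414938101) (nat_lit 76) (nat_lit 372977015622) (nat_lit 25) (nat_lit 4) (nat_lit 26) (nat_lit 5) (nat_lit 26) (nat_lit 4) (nat_lit 396) (nat_lit 369) (nat_lit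 255))))))) (XT.nd (nat_lit 702) (nat_lit 608) (nat_lit 0) (XT.nd (nat_lit 312) (nat_lit 456) (nat_lit 0) (XT.nd (nat_lit 156) (nat_lit 228) (nat_lit 0) (XT.nd (nat_lit 78) (nat_lit 76) (nat_lit 0) (XT.lf (nat_lit 0) (nat_lit 878180367500) (nat_lit 152) (nat_lit 1604922277222) (nat_lit 0) (nat_lit 205552650943) (nat_lit 23) (nat_lit 5) (nat_lit 25) (nat_lit 4) (nat_lit 23) (nat_lit 4) (nat_lit 397) (nat_lit 369) (nat_lit 254)) (XT.lf (nat_lit 0) (nat_lit 1149724285046) (nat_lit 76) (nat_lit 1247869070791) (nat_lit 76) (nat_lit 575241345052) (nat_lit 22) (nat_lit 4) (nat_lit 23) (nat_lit 5) (nat_lit 23) (nat_lit 4) (nat_lit 398) (nat_lit 369) (nat_lit 253))) (XT.nd (nat_lit 78) (nat_lit 76) (nat_lit 0) (XT.lf (nat_lit 0) (nat_lit 885359298424) (nat_lit 152) (nat_lit 2143510264847) (nat_lit 0) (nat_lit 262555841272) (nat_lit 20) (nat_lit 5) (nat_lit 22) (nat_lit 4) (nat_lit 20) (nat_lit 4) (nat_lit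 399) (nat_lit 369) (nat_lit 252)) (XT.lf (nat_lit 0) (nat_lit 1020695971561) (nat_lit 76) (nat_lit 1624779023016) (nat_lit 76) (nat_lit 1001975559436) (nat_lit 19) (nat_lit 4) (nat_lit 20) (nat_lit 5) (nat_lit 20) (nat_lit 4) (nat_lit 400) (nat_lit 369) (nat_lit 251)))) (XT.nd (nat_lit 156) (nat_lit 228) (nat_lit 0) (XT.nd (nat_lit 78) (nat_lit 76) (nat_lit 0) (XT.lf (nat_lit 0) (nat_lit 666637491385) (nat_lit 152) (nat_lit 3292330674110) (nat_lit 0) (nat_lit 89967612525) (nat_lit 17) (nat_lit 5) (nat_lit 19) (nat_lit 4) (nat_lit 17) (nat_lit 4) (nat_lit 401) (nat_lit 369) (nat_lit 250)) (XT.lf (nat_lit 0) (nat_lit 239348452786) (nat_lit 76) (nat_lit 2417707914462) (nat_lit 76) (nat_lit 1841038031101) (nat_lit 16) (nat_lit 4) (nat_lit 17) (nat_lit 5) (nat_lit 17) (nat_lit 4) (nat_lit 402) (nat_lit 369) (nat_lit 249))) (XT.nd (nat_lit 78) (nat_lit 152) (nat_lit 0) (XT.lf (nat_lit 0) (nat_lit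 33184662967) (nat_lit 152) (nat_lit 507645788302) (nat_lit 76) (nat_lit 4466060940217) (nat_lit 15) (nat_lit 5) (nat_lit 17) (nat_lit 5) (nat_lit 16) (nat_lit 4) (nat_lit 403) (nat_lit 369) (nat_lit 248)) (XT.nd (nat_lit 78) (nat_lit 76) (nat_lit 0) (XT.lf (nat_lit 0) (nat_lit 2220393175661) (nat_lit 152) (nat_lit 1670080658343) (nat_lit 0) (nat_lit 1686439573181) (nat_lit 14) (nat_lit 5) (nat_lit 16) (nat_lit 4) (nat_lit 14) (nat_lit 4) (nat_lit 404) (nat_lit 369) (nat_lit 247)) (XT.lf (nat_lit 0) (nat_lit 2913364515597) (nat_lit 76) (nat_lit 1922506389824) (nat_lit 76) (nat_lit 1388552784604) (nat_lit 13) (nat_lit 4) (nat_lit 14) (nat_lit 5) (nat_lit 14) (nat_lit 4) (nat_lit 405) (nat_lit 369) (nat_lit 246)))))) (XT.nd (nat_lit 390) (nat_lit 228) (nat_lit 0) (XT.nd (nat_lit 156) (nat_lit 228) (nat_lit 0) (XT.nd (nat_lit 78) (nat_lit 0) (nat_lit 0) (XT.lf (nat_lit 0) (nat_lit 924492737121)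 (nat_lit 152) (nat_lit 5605303020182) (nat_lit 0) (nat_lit 430091248600) (nat_lit 11) (nat_lit 5) (nat_lit 13) (nat_lit 4) (nat_lit 11) (nat_lit 4) (nat_lit 406) (nat_lit 369) (nat_lit 245)) (XT.lf (nat_lit 0) (nat_lit 3656688416995) (nat_lit 152) (nat_lit 971456279134) (nat_lit 0) (nat_lit 3162286926556) (nat_lit 11) (nat_lit 5) (nat_lit 13) (nat_lit 4) (nat_lit 11) (nat_lit 4) (nat_lit 407) (nat_lit 369) (nat_lit 244))) (XT.nd (nat_lit 78) (nat_lit 152) (nat_lit 0) (XT.lf (nat_lit 0) (nat_lit 4586923946300) (nat_lit 76) (nat_lit 2322105114421) (nat_lit 76) (nat_lit 1827703622314) (nat_lit 10) (nat_lit 4) (nat_lit 11) (nat_lit 5) (nat_lit 11) (nat_lit 4) (nat_lit 408) (nat_lit 369) (nat_lit 243)) (XT.nd (nat_lit 78) (nat_lit 0) (nat_lit 0) (XT.lf (nat_lit 0) (nat_lit 852257721629) (nat_lit 152) (nat_lit 8571116957601) (nat_lit 0) (nat_lit 394478560927) (nat_lit 8) (nat_lit 5) (nat_lit 10)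 (nat_lit 4) (nat_lit 8) (nat_lit 4) (nat_lit 409) (nat_lit 369) (nat_lit 242)) (XT.lf (nat_lit 0) (nat_lit 4017248754409) (nat_lit 152) (nat_lit 3465325233196) (nat_lit 0) (nat_lit 3559469592539) (nat_lit 8) (nat_lit 5) (nat_lit 10) (nat_lit 4) (nat_lit 8) (nat_lit 4) (nat_lit 410) (nat_lit 369) (nat_lit 241))))) (XT.nd (nat_lit 156) (nat_lit 152) (nat_lit 0) (XT.nd (nat_lit 78) (nat_lit 0) (nat_lit 0) (XT.lf (nat_lit 0) (nat_lit 2533048567642) (nat_lit 76) (nat_lit 5184859738621) (nat_lit 76) (nat_lit 4727080575735) (nat_lit 7) (nat_lit 4) (nat_lit 8) (nat_lit 5) (nat_lit 8) (nat_lit 4) (nat_lit 411) (nat_lit 369) (nat_lit 240)) (XT.lf (nat_lit 0) (nat_lit 9641027979254) (nat_lit 76) (nat_lit 2433528013738) (nat_lit 76) (nat_lit 1975748849970) (nat_lit 7) (nat_lit 4) (nat_lit 8) (nat_lit 5) (nat_lit 8) (nat_lit 4) (nat_lit 412) (nat_lit 369) (nat_lit 239))) (XT.nd (nat_lit 78) (nat_lit 0)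 (nat_lit 0) (XT.lf (nat_lit 0) (nat_lit 1196247137791) (nat_lit 152) (nat_lit 13920114684158) (nat_lit 0) (nat_lit 772377540998) (nat_lit 5) (nat_lit 5) (nat_lit 7) (nat_lit 4) (nat_lit 5) (nat_lit 4) (nat_lit 413) (nat_lit 369) (nat_lit 238)) (XT.nd (nat_lit 78) (nat_lit 0) (nat_lit 0) (XT.lf (nat_lit 0) (nat_lit 4929393350068) (nat_lit 152) (nat_lit 8547729529565) (nat_lit 0) (nat_lit 4505523752657) (nat_lit 5) (nat_lit 5) (nat_lit 7) (nat_lit 4) (nat_lit 5) (nat_lit 4) (nat_lit 414) (nat_lit 369) (nat_lit 237)) (XT.lf (nat_lit 0) (nat_lit 9222511484322) (nat_lit 152) (nat_lit 2369486622129) (nat_lit 0) (nat_lit 8798641886373) (nat_lit 5) (nat_lit 5) (nat_lit 7) (nat_lit 4) (nat_lit 5) (nat_lit 4) (nat_lit 415) (nat_lit 369) (nat_lit 236))))))))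
noncomputable def xc99 : XT := (XT.nd (nat_lit 50700) (nat_lit 0) (nat_lit 912) (XT.nd (nat_lit 49998) (nat_lit 0) (nat_lit 3192) (XT.nd (nat_lit 49608) (nat_lit 0) (nat_lit 5092) (XT.nd (nat_lit 156) (nat_lit 0) (nat_lit 0) (XT.nd (nat_lit 78) (nat_lit 0) (nat_lit 0) (XT.lf (nat_lit 0) (nat_lit 4984855357496) (nat_lit 76) (nat_lit 9294627863873) (nat_lit 76) (nat_lit 8870758265456) (nat_lit 4) (nat_lit 4) (nat_lit 5) (nat_lit 5) (nat_lit 5) (nat_lit 4) (nat_lit 416) (nat_lit 369) (nat_lit 235)) (XT.lf (nat_lit 0) (nat_lit 13585837529266) (nat_lit 76) (nat_lit 6578148235413) (nat_lit 76) (nat_lit 6154278636590) (nat_lit 4) (nat_lit 4) (nat_lit 5) (nat_lit 5) (nat_lit 5) (nat_lit 4) (nat_lit 417) (nat_lit 369) (nat_lit 234))) (XT.nd (nat_lit 49374) (nat_lit 0) (nat_lit 5852) (XT.lf (nat_lit 0) (nat_lit 23476967012720) (nat_lit 76) (nat_lit 3454196669941) (nat_lit 76) (nat_lit 3030327070765)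 (nat_lit 4) (nat_lit 4) (nat_lit 5) (nat_lit 5) (nat_lit 5) (nat_lit 4) (nat_lit 418) (nat_lit 369) (nat_lit 233)) (XT.lf (nat_lit 0) (nat_lit 130312200573) (nat_lit 532) (nat_lit 2064684118) (nat_lit 532) (nat_lit 2064684118) (nat_lit 81) (nat_lit 3) (nat_lit 88) (nat_lit 3) (nat_lit 88) (nat_lit 5) (nat_lit 370) (nat_lit 370) (nat_lit 280)))) (XT.nd (nat_lit 156) (nat_lit 304) (nat_lit 0) (XT.nd (nat_lit 78) (nat_lit 456) (nat_lit 0) (XT.lf (nat_lit 76) (nat_lit 258883894161) (nat_lit 0) (nat_lit 27515037820) (nat_lit 532) (nat_lit 2152224491) (nat_lit 82) (nat_lit 5) (nat_lit 81) (nat_lit 3) (nat_lit 88) (nat_lit 5) (nat_lit 371) (nat_lit 370) (nat_lit 279)) (XT.lf (nat_lit 0) (nat_lit 17157435185) (nat_lit 532) (nat_lit 53213357947) (nat_lit 608) (nat_lit 239786750590) (nat_lit 75) (nat_lit 5) (nat_lit 82) (nat_lit 5) (nat_lit 83) (nat_lit 5) (nat_lit 372) (nat_lit 370) (nat_lit 278)))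 (XT.nd (nat_lit 78) (nat_lit 380) (nat_lit 0) (XT.lf (nat_lit 0) (nat_lit 52537643837) (nat_lit 532) (nat_lit 73749190485) (nat_lit 608) (nat_lit 207649459782) (nat_lit 76) (nat_lit 5) (nat_lit 83) (nat_lit 5) (nat_lit 84) (nat_lit 5) (nat_lit 373) (nat_lit 370) (nat_lit 277)) (XT.nd (nat_lit 78) (nat_lit 456) (nat_lit 0) (XT.lf (nat_lit 0) (nat_lit 107473387773) (nat_lit 532) (nat_lit 90182476074) (nat_lit 76) (nat_lit 162486112929) (nat_lit 77) (nat_lit 5) (nat_lit 84) (nat_lit 5) (nat_lit 78) (nat_lit 5) (nat_lit 374) (nat_lit 370) (nat_lit 276)) (XT.lf (nat_lit 0) (nat_lit 185912268920) (nat_lit 532) (nat_lit 101272312981) (nat_lit 76) (nat_lit 101872907942) (nat_lit 71) (nat_lit 5) (nat_lit 78) (nat_lit 5) (nat_lit 72) (nat_lit 5) (nat_lit 375) (nat_lit 370) (nat_lit 275)))))) (XT.nd (nat_lit 312) (nat_lit 988) (nat_lit 0) (XT.nd (nat_lit 156) (nat_lit 456) (nat_lit 0) (XT.nd (nat_lit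 78) (nat_lit 228) (nat_lit 0) (XT.lf (nat_lit 0) (nat_lit 292461282504) (nat_lit 304) (nat_lit 105545822342) (nat_lit 76) (nat_lit 22995681043) (nat_lit 68) (nat_lit 5) (nat_lit 72) (nat_lit 5) (nat_lit 69) (nat_lit 5) (nat_lit 376) (nat_lit 370) (nat_lit 274)) (XT.lf (nat_lit 0) (nat_lit 352961353242) (nat_lit 228) (nat_lit 81487702266) (nat_lit 304) (nat_lit 21734308276) (nat_lit 65) (nat_lit 5) (nat_lit 68) (nat_lit 5) (nat_lit 69) (nat_lit 5) (nat_lit 377) (nat_lit 370) (nat_lit 273))) (XT.nd (nat_lit 78) (nat_lit 228) (nat_lit 0) (XT.lf (nat_lit 0) (nat_lit 116199662631) (nat_lit 228) (nat_lit 94456608617) (nat_lit 76) (nat_lit 284177226066) (nat_lit 62) (nat_lit 5) (nat_lit 65) (nat_lit 5) (nat_lit 63) (nat_lit 5) (nat_lit 378) (nat_lit 370) (nat_lit 272)) (XT.lf (nat_lit 0) (nat_lit 294402785651) (nat_lit 304) (nat_lit 75002596864) (nat_lit 76) (nat_lit 168161328577) (nat_lit 59) (nat_lit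 5) (nat_lit 63) (nat_lit 5) (nat_lit 60) (nat_lit 5) (nat_lit 379) (nat_lit 370) (nat_lit 271)))) (XT.nd (nat_lit 156) (nat_lit 608) (nat_lit 0) (XT.nd (nat_lit 78) (nat_lit 228) (nat_lit 0) (XT.lf (nat_lit 0) (nat_lit 521602831046) (nat_lit 228) (nat_lit 41849168408) (nat_lit 76) (nat_lit 21476591190) (nat_lit 57) (nat_lit 5) (nat_lit 60) (nat_lit 5) (nat_lit 58) (nat_lit 5) (nat_lit 380) (nat_lit 370) (nat_lit 270)) (XT.lf (nat_lit 0) (nat_lit 164907059038) (nat_lit 228) (nat_lit 353140772) (nat_lit 76) (nat_lit 471570738064) (nat_lit 54) (nat_lit 5) (nat_lit 57) (nat_lit 5) (nat_lit 55) (nat_lit 5) (nat_lit 381) (nat_lit 370) (nat_lit 269))) (XT.nd (nat_lit 78) (nat_lit 304) (nat_lit 0) (XT.lf (nat_lit 0) (nat_lit 59406915644) (nat_lit 152) (nat_lit 392844282221) (nat_lit 228) (nat_lit 241845774224) (nat_lit 50) (nat_lit 5) (nat_lit 52) (nat_lit 5) (nat_lit 53) (nat_lit 5) (nat_lit 382)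 (nat_lit 370) (nat_lit 268)) (XT.nd (nat_lit 78) (nat_lit 152) (nat_lit 0) (XT.lf (nat_lit 0) (nat_lit 50888117522) (nat_lit 152) (nat_lit 617857148916) (nat_lit 76) (nat_lit 88821339762) (nat_lit 48) (nat_lit 5) (nat_lit 50) (nat_lit 5) (nat_lit 49) (nat_lit 5) (nat_lit 383) (nat_lit 370) (nat_lit 267)) (XT.lf (nat_lit 0) (nat_lit 233259927230) (nat_lit 152) (nat_lit 175792540731) (nat_lit 228) (nat_lit 418134453316) (nat_lit 46) (nat_lit 5) (nat_lit 48) (nat_lit 5) (nat_lit 49) (nat_lit 5) (nat_lit 384) (nat_lit 370) (nat_lit 266))))))) (XT.nd (nat_lit 702) (nat_lit 1140) (nat_lit 0) (XT.nd (nat_lit 312) (nat_lit 608) (nat_lit 0) (XT.nd (nat_lit 156) (nat_lit 228) (nat_lit 0) (XT.nd (nat_lit 78) (nat_lit 228) (nat_lit 0) (XT.lf (nat_lit 0) (nat_lit 351351515094) (nat_lit 76) (nat_lit 505901400166) (nat_lit 152) (nat_lit 47092452821) (nat_lit 45) (nat_lit 5) (nat_lit 46) (nat_lit 5) (nat_lit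 47) (nat_lit 4) (nat_lit 385) (nat_lit 370) (nat_lit 265)) (XT.lf (nat_lit 0) (nat_lit 397426508621) (nat_lit 228) (nat_lit 499033072912) (nat_lit 76) (nat_lit 92942831374) (nat_lit 42) (nat_lit 5) (nat_lit 45) (nat_lit 5) (nat_lit 43) (nat_lit 4) (nat_lit 386) (nat_lit 370) (nat_lit 264))) (XT.nd (nat_lit 78) (nat_lit 152) (nat_lit 0) (XT.lf (nat_lit 0) (nat_lit 654839596715) (nat_lit 76) (nat_lit 297333418294) (nat_lit 152) (nat_lit 131240097053) (nat_lit 41) (nat_lit 5) (nat_lit 42) (nat_lit 5) (nat_lit 43) (nat_lit 4) (nat_lit 387) (nat_lit 370) (nat_lit 263)) (XT.lf (nat_lit 0) (nat_lit 424710707091) (nat_lit 152) (nat_lit 344083516158) (nat_lit 76) (nat_lit 418280712667) (nat_lit 39) (nat_lit 5) (nat_lit 41) (nat_lit 5) (nat_lit 40) (nat_lit 4) (nat_lit 388) (nat_lit 370) (nat_lit 262)))) (XT.nd (nat_lit 156) (nat_lit 380) (nat_lit 0) (XT.nd (nat_lit 78) (nat_lit 152) (nat_lit 0) (XT.lf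 (nat_lit 0) (nat_lit 1067162684608) (nat_lit 76) (nat_lit 36031794279) (nat_lit 152) (nat_lit 199065949746) (nat_lit 38) (nat_lit 5) (nat_lit 39) (nat_lit 5) (nat_lit 40) (nat_lit 4) (nat_lit 389) (nat_lit 370) (nat_lit 261)) (XT.lf (nat_lit 0) (nat_lit 489386809460) (nat_lit 152) (nat_lit 118632723575) (nat_lit 76) (nat_lit 820792309779) (nat_lit 36) (nat_lit 5) (nat_lit 38) (nat_lit 5) (nat_lit 37) (nat_lit 4) (nat_lit 390) (nat_lit 370) (nat_lit 260))) (XT.nd (nat_lit 78) (nat_lit 228) (nat_lit 0) (XT.lf (nat_lit 0) (nat_lit 25330652260) (nat_lit 76) (nat_lit 1298311900562) (nat_lit 76) (nat_lit 245944013100) (nat_lit 34) (nat_lit 4) (nat_lit 35) (nat_lit 5) (nat_lit 35) (nat_lit 4) (nat_lit 391) (nat_lit 370) (nat_lit 259)) (XT.nd (nat_lit 78) (nat_lit 76) (nat_lit 0) (XT.lf (nat_lit 0) (nat_lit 185863699953) (nat_lit 76) (nat_lit 409439959921) (nat_lit 152) (nat_lit 1129405778921) (nat_lit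 32) (nat_lit 5) (nat_lit 33) (nat_lit 5) (nat_lit 34) (nat_lit 4) (nat_lit 392) (nat_lit 370) (nat_lit 258)) (XT.lf (nat_lit 0) (nat_lit 365067847955) (nat_lit 76) (nat_lit 1253165979190) (nat_lit 76) (nat_lit 278751225084) (nat_lit 31) (nat_lit 4) (nat_lit 32) (nat_lit 5) (nat_lit 32) (nat_lit 4) (nat_lit 393) (nat_lit 370) (nat_lit 257)))))) (XT.nd (nat_lit 390) (nat_lit 532) (nat_lit 0) (XT.nd (nat_lit 156) (nat_lit 380) (nat_lit 0) (XT.nd (nat_lit 78) (nat_lit 76) (nat_lit 0) (XT.lf (nat_lit 0) (nat_lit 554674607730) (nat_lit 76) (nat_lit 180464516993) (nat_lit 152) (nat_lit 1352966679781) (nat_lit 29) (nat_lit 5) (nat_lit 30) (nat_lit 5) (nat_lit 31) (nat_lit 4) (nat_lit 394) (nat_lit 370) (nat_lit 256)) (XT.lf (nat_lit 0) (nat_lit 745808977080) (nat_lit 76) (nat_lit 1228291486750) (nat_lit 76) (nat_lit 326055572868) (nat_lit 28) (nat_lit 4) (nat_lit 29) (nat_lit 5) (nat_lit 29) (nat_lit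 4) (nat_lit 395) (nat_lit 370) (nat_lit 255))) (XT.nd (nat_lit 78) (nat_lit 228) (nat_lit 0) (XT.lf (nat_lit 0) (nat_lit 886822245143) (nat_lit 152) (nat_lit 1598152517348) (nat_lit 0) (nat_lit 51418609774) (nat_lit 26) (nat_lit 5) (nat_lit 28) (nat_lit 4) (nat_lit 26) (nat_lit 4) (nat_lit 396) (nat_lit 370) (nat_lit 254)) (XT.nd (nat_lit 78) (nat_lit 152) (nat_lit 0) (XT.lf (nat_lit 0) (nat_lit 1105535944303) (nat_lit 76) (nat_lit 1264326761599) (nat_lit 76) (nat_lit 428923116314) (nat_lit 25) (nat_lit 4) (nat_lit 26) (nat_lit 5) (nat_lit 26) (nat_lit 4) (nat_lit 397) (nat_lit 370) (nat_lit 253)) (XT.lf (nat_lit 0) (nat_lit 1009907824069) (nat_lit 152) (nat_lit 1845659811520) (nat_lit 0) (nat_lit 236385922303) (nat_lit 23) (nat_lit 5) (nat_lit 25) (nat_lit 4) (nat_lit 23) (nat_lit 4) (nat_lit 398) (nat_lit 370) (nat_lit 252))))) (XT.nd (nat_lit 156) (nat_lit 304) (nat_lit 0) (XT.nd (nat_lit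 78) (nat_lit 152) (nat_lit 0) (XT.lf (nat_lit 0) (nat_lit 1322183666757) (nat_lit 76) (nat_lit 1435049059309) (nat_lit 76) (nat_lit 661527150601) (nat_lit 22) (nat_lit 4) (nat_lit 23) (nat_lit 5) (nat_lit 23) (nat_lit 4) (nat_lit 399) (nat_lit 370) (nat_lit 251)) (XT.lf (nat_lit 0) (nat_lit 1018163545617) (nat_lit 152) (nat_lit 2465036090925) (nat_lit 0) (nat_lit 301939550482) (nat_lit 20) (nat_lit 5) (nat_lit 22) (nat_lit 4) (nat_lit 20) (nat_lit 4) (nat_lit 400) (nat_lit 370) (nat_lit 250))) (XT.nd (nat_lit 78) (nat_lit 228) (nat_lit 0) (XT.lf (nat_lit 0) (nat_lit 1173801020538) (nat_lit 76) (nat_lit 1868495545397) (nat_lit 76) (nat_lit 1152271545402) (nat_lit 19) (nat_lit 4) (nat_lit 20) (nat_lit 5) (nat_lit 20) (nat_lit 4) (nat_lit 401) (nat_lit 370) (nat_lit 249)) (XT.nd (nat_lit 78) (nat_lit 76) (nat_lit 0) (XT.lf (nat_lit 0) (nat_lit 766633424783) (nat_lit 152) (nat_lit 3786179644658)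 (nat_lit 0) (nat_lit 103463050503) (nat_lit 17) (nat_lit 5) (nat_lit 19) (nat_lit 4) (nat_lit 17) (nat_lit 4) (nat_lit 402) (nat_lit 370) (nat_lit 248)) (XT.lf (nat_lit 0) (nat_lit 275251297898) (nat_lit 76) (nat_lit 2780363807614) (nat_lit 76) (nat_lit 2117193429931) (nat_lit 16) (nat_lit 4) (nat_lit 17) (nat_lit 5) (nat_lit 17) (nat_lit 4) (nat_lit 403) (nat_lit 370) (nat_lit 247))))))))
noncomputable def xc100 : XT := (XT.nd (nat_lit 50778) (nat_lit 0) (nat_lit 2280) (XT.nd (nat_lit 702) (nat_lit 228) (nat_lit 0) (XT.nd (nat_lit 312) (nat_lit 304) (nat_lit 0) (XT.nd (nat_lit 156) (nat_lit 228) (nat_lit 0) (XT.nd (nat_lit 78) (nat_lit 76) (nat_lit 0) (XT.lf (nat_lit 0) (nat_lit 38162615052) (nat_lit 152) (nat_lit 583792141333) (nat_lit 76) (nat_lit 5135970323610) (nat_lit 15) (nat_lit 5) (nat_lit 17) (nat_lit 5) (nat_lit 16) (nat_lit 4) (nat_lit 404) (nat_lit 370) (nat_lit 246)) (XT.lf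 (nat_lit 0) (nat_lit 2553452388825) (nat_lit 152) (nat_lit 1920592272790) (nat_lit 0) (nat_lit 1939405737699) (nat_lit 14) (nat_lit 5) (nat_lit 16) (nat_lit 4) (nat_lit 14) (nat_lit 4) (nat_lit 405) (nat_lit 370) (nat_lit 245))) (XT.nd (nat_lit 78) (nat_lit 152) (nat_lit 0) (XT.lf (nat_lit 0) (nat_lit 3350369636247) (nat_lit 76) (nat_lit 2210882121575) (nat_lit 76) (nat_lit 1596835468378) (nat_lit 13) (nat_lit 4) (nat_lit 14) (nat_lit 5) (nat_lit 14) (nat_lit 4) (nat_lit 406) (nat_lit 370) (nat_lit 244)) (XT.lf (nat_lit 0) (nat_lit 1063166856066) (nat_lit 152) (nat_lit 6446098045578) (nat_lit 0) (nat_lit 494605138474) (nat_lit 11) (nat_lit 5) (nat_lit 13) (nat_lit 4) (nat_lit 11) (nat_lit 4) (nat_lit 407) (nat_lit 370) (nat_lit 243)))) (XT.nd (nat_lit 156) (nat_lit 228) (nat_lit 0) (XT.nd (nat_lit 78) (nat_lit 76) (nat_lit 0) (XT.lf (nat_lit 0) (nat_lit 4205191860741) (nat_lit 152) (nat_lit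 1117174349151) (nat_lit 0) (nat_lit 3636630141699) (nat_lit 11) (nat_lit 5) (nat_lit 13) (nat_lit 4) (nat_lit 11) (nat_lit 4) (nat_lit 408) (nat_lit 370) (nat_lit 242)) (XT.lf (nat_lit 0) (nat_lit 5274962878624) (nat_lit 76) (nat_lit 2670420706955) (nat_lit 76) (nat_lit 2101858986651) (nat_lit 10) (nat_lit 4) (nat_lit 11) (nat_lit 5) (nat_lit 11) (nat_lit 4) (nat_lit 409) (nat_lit 370) (nat_lit 241))) (XT.nd (nat_lit 78) (nat_lit 76) (nat_lit 0) (XT.lf (nat_lit 0) (nat_lit 980096539387) (nat_lit 152) (nat_lit 9856784172979) (nat_lit 0) (nat_lit 453650501053) (nat_lit 8) (nat_lit 5) (nat_lit 10) (nat_lit 4) (nat_lit 8) (nat_lit 4) (nat_lit 410) (nat_lit 370) (nat_lit 240)) (XT.nd (nat_lit 78) (nat_lit 76) (nat_lit 0) (XT.lf (nat_lit 0) (nat_lit 4619836206278) (nat_lit 152) (nat_lit 3985123732731) (nat_lit 0) (nat_lit 4093390167061) (nat_lit 8) (nat_lit 5) (nat_lit 10) (nat_lit 4) (nat_lit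 8) (nat_lit 4) (nat_lit 411) (nat_lit 370) (nat_lit 239)) (XT.lf (nat_lit 0) (nat_lit 2913006114073) (nat_lit 76) (nat_lit 5962588565029) (nat_lit 76) (nat_lit 5436142525044) (nat_lit 7) (nat_lit 4) (nat_lit 8) (nat_lit 5) (nat_lit 8) (nat_lit 4) (nat_lit 412) (nat_lit 370) (nat_lit 238)))))) (XT.nd (nat_lit 312) (nat_lit 76) (nat_lit 0) (XT.nd (nat_lit 156) (nat_lit 0) (nat_lit 0) (XT.nd (nat_lit 78) (nat_lit 152) (nat_lit 0) (XT.lf (nat_lit 0) (nat_lit 11087182403346) (nat_lit 76) (nat_lit 2798557098942) (nat_lit 76) (nat_lit 2272111058290) (nat_lit 7) (nat_lit 4) (nat_lit 8) (nat_lit 5) (nat_lit 8) (nat_lit 4) (nat_lit 413) (nat_lit 370) (nat_lit 237)) (XT.lf (nat_lit 0) (nat_lit 1375684314681) (nat_lit 152) (nat_lit 16008131667708) (nat_lit 0) (nat_lit 888234276502) (nat_lit 5) (nat_lit 5) (nat_lit 7) (nat_lit 4) (nat_lit 5) (nat_lit 4) (nat_lit 414) (nat_lit 370) (nat_lit 236))) (XT.nd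 (nat_lit 78) (nat_lit 0) (nat_lit 0) (XT.lf (nat_lit 0) (nat_lit 5668802444945) (nat_lit 152) (nat_lit 9829888768500) (nat_lit 0) (nat_lit 5181352406299) (nat_lit 5) (nat_lit 5) (nat_lit 7) (nat_lit 4) (nat_lit 5) (nat_lit 4) (nat_lit 415) (nat_lit 370) (nat_lit 235)) (XT.lf (nat_lit 0) (nat_lit 10605888287289) (nat_lit 152) (nat_lit 2724909449796) (nat_lit 0) (nat_lit 10118438248236) (nat_lit 5) (nat_lit 5) (nat_lit 7) (nat_lit 4) (nat_lit 5) (nat_lit 4) (nat_lit 416) (nat_lit 370) (nat_lit 234)))) (XT.nd (nat_lit 49530) (nat_lit 0) (nat_lit 5396) (XT.nd (nat_lit 78) (nat_lit 0) (nat_lit 0) (XT.lf (nat_lit 0) (nat_lit 5732583812750) (nat_lit 76) (nat_lit 10688821965313) (nat_lit 76) (nat_lit 10201371925906) (nat_lit 4) (nat_lit 4) (nat_lit 5) (nat_lit 5) (nat_lit 5) (nat_lit 4) (nat_lit 417) (nat_lit 370) (nat_lit 233)) (XT.lf (nat_lit 0) (nat_lit 15623713290509) (nat_lit 76) (nat_lit 7564870402776)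 (nat_lit 76) (nat_lit 7077420363062) (nat_lit 4) (nat_lit 4) (nat_lit 5) (nat_lit 5) (nat_lit 5) (nat_lit 4) (nat_lit 418) (nat_lit 370) (nat_lit 232))) (XT.nd (nat_lit 78) (nat_lit 456) (nat_lit 0) (XT.lf (nat_lit 0) (nat_lit 149860503889) (nat_lit 532) (nat_lit 2373590995) (nat_lit 532) (nat_lit 2373590995) (nat_lit 81) (nat_lit 3) (nat_lit 88) (nat_lit 3) (nat_lit 88) (nat_lit 5) (nat_lit 371) (nat_lit 371) (nat_lit 278)) (XT.nd (nat_lit 78) (nat_lit 456) (nat_lit 0) (XT.lf (nat_lit 76) (nat_lit 297717935056) (nat_lit 0) (nat_lit 31643433897) (nat_lit 532) (nat_lit 2472252532) (nat_lit 82) (nat_lit 5) (nat_lit 81) (nat_lit 3) (nat_lit 88) (nat_lit 5) (nat_lit 372) (nat_lit 371) (nat_lit 277)) (XT.lf (nat_lit 0) (nat_lit 19733381863) (nat_lit 532) (nat_lit 61193688938) (nat_lit 608) (nat_lit 275753917416) (nat_lit 75) (nat_lit 5) (nat_lit 82) (nat_lit 5) (nat_lit 83) (nat_lit 5) (nat_lit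 373) (nat_lit 371) (nat_lit 276))))))) (XT.nd (nat_lit 702) (nat_lit 1520) (nat_lit 0) (XT.nd (nat_lit 312) (nat_lit 1064) (nat_lit 0) (XT.nd (nat_lit 156) (nat_lit 608) (nat_lit 0) (XT.nd (nat_lit 78) (nat_lit 0) (nat_lit 76) (XT.lf (nat_lit 0) (nat_lit 60420341722) (nat_lit 532) (nat_lit 84809859514) (nat_lit 608) (nat_lit 238796372400) (nat_lit 76) (nat_lit 5) (nat_lit 83) (nat_lit 5) (nat_lit 84) (nat_lit 5) (nat_lit 374) (nat_lit 371) (nat_lit 275)) (XT.lf (nat_lit 0) (nat_lit 123596211150) (nat_lit 532) (nat_lit 103708130349) (nat_lit 76) (nat_lit 186858786160) (nat_lit 77) (nat_lit 5) (nat_lit 84) (nat_lit 5) (nat_lit 78) (nat_lit 5) (nat_lit 375) (nat_lit 371) (nat_lit 274))) (XT.nd (nat_lit 78) (nat_lit 228) (nat_lit 0) (XT.lf (nat_lit 0) (nat_lit 213800724435) (nat_lit 532) (nat_lit 116461457407) (nat_lit 76) (nat_lit 117153801901) (nat_lit 71) (nat_lit 5) (nat_lit 78) (nat_lit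 5) (nat_lit 72) (nat_lit 5) (nat_lit 376) (nat_lit 371) (nat_lit 273)) (XT.lf (nat_lit 0) (nat_lit 336331919661) (nat_lit 304) (nat_lit 121376024409) (nat_lit 76) (nat_lit 26445143805) (nat_lit 68) (nat_lit 5) (nat_lit 72) (nat_lit 5) (nat_lit 69) (nat_lit 5) (nat_lit 377) (nat_lit 371) (nat_lit 272)))) (XT.nd (nat_lit 156) (nat_lit 608) (nat_lit 0) (XT.nd (nat_lit 78) (nat_lit 228) (nat_lit 0) (XT.lf (nat_lit 0) (nat_lit 405907086048) (nat_lit 228) (nat_lit 93710620911) (nat_lit 304) (nat_lit 24993057669) (nat_lit 65) (nat_lit 5) (nat_lit 68) (nat_lit 5) (nat_lit 69) (nat_lit 5) (nat_lit 378) (nat_lit 371) (nat_lit 271)) (XT.lf (nat_lit 0) (nat_lit 133630807760) (nat_lit 228) (nat_lit 108623546662) (nat_lit 76) (nat_lit 326804071609) (nat_lit 62) (nat_lit 5) (nat_lit 65) (nat_lit 5) (nat_lit 63) (nat_lit 5) (nat_lit 379) (nat_lit 371) (nat_lit 270))) (XT.nd (nat_lit 78) (nat_lit 380) (nat_lit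 0) (XT.lf (nat_lit 0) (nat_lit 338564285826) (nat_lit 304) (nat_lit 86251486876) (nat_lit 76) (nat_lit 193385858275) (nat_lit 59) (nat_lit 5) (nat_lit 63) (nat_lit 5) (nat_lit 60) (nat_lit 5) (nat_lit 380) (nat_lit 371) (nat_lit 269)) (XT.nd (nat_lit 78) (nat_lit 228) (nat_lit 0) (XT.lf (nat_lit 0) (nat_lit 599844239450) (nat_lit 228) (nat_lit 48125102561) (nat_lit 76) (nat_lit 24698458363) (nat_lit 57) (nat_lit 5) (nat_lit 60) (nat_lit 5) (nat_lit 58) (nat_lit 5) (nat_lit 381) (nat_lit 371) (nat_lit 268)) (XT.lf (nat_lit 0) (nat_lit 189644028232) (nat_lit 228) (nat_lit 404744691) (nat_lit 76) (nat_lit 542306732671) (nat_lit 54) (nat_lit 5) (nat_lit 57) (nat_lit 5) (nat_lit 55) (nat_lit 5) (nat_lit 382) (nat_lit 371) (nat_lit 267)))))) (XT.nd (nat_lit 390) (nat_lit 608) (nat_lit 0) (XT.nd (nat_lit 156) (nat_lit 456) (nat_lit 0) (XT.nd (nat_lit 78) (nat_lit 152) (nat_lit 0) (XT.lf (nat_lit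 0) (nat_lit 68319328801) (nat_lit 152) (nat_lit 451770413865) (nat_lit 228) (nat_lit 278121705911) (nat_lit 50) (nat_lit 5) (nat_lit 52) (nat_lit 5) (nat_lit 53) (nat_lit 5) (nat_lit 383) (nat_lit 371) (nat_lit 266)) (XT.lf (nat_lit 0) (nat_lit 58522150386) (nat_lit 152) (nat_lit 710534366659) (nat_lit 76) (nat_lit 102145014771) (nat_lit 48) (nat_lit 5) (nat_lit 50) (nat_lit 5) (nat_lit 49) (nat_lit 5) (nat_lit 384) (nat_lit 371) (nat_lit 265))) (XT.nd (nat_lit 78) (nat_lit 304) (nat_lit 0) (XT.lf (nat_lit 0) (nat_lit 268250156249) (nat_lit 152) (nat_lit 202160920627) (nat_lit 228) (nat_lit 480853823413) (nat_lit 46) (nat_lit 5) (nat_lit 48) (nat_lit 5) (nat_lit 49) (nat_lit 5) (nat_lit 385) (nat_lit 371) (nat_lit 264)) (XT.nd (nat_lit 78) (nat_lit 228) (nat_lit 0) (XT.lf (nat_lit 0) (nat_lit 404055420475) (nat_lit 76) (nat_lit 581786113256) (nat_lit 152) (nat_lit 54155584996) (nat_lit 45)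 (nat_lit 5) (nat_lit 46) (nat_lit 5) (nat_lit 47) (nat_lit 4) (nat_lit 386) (nat_lit 371) (nat_lit 263)) (XT.lf (nat_lit 0) (nat_lit 457041130924) (nat_lit 228) (nat_lit 573886882372) (nat_lit 76) (nat_lit 106884709810) (nat_lit 42) (nat_lit 5) (nat_lit 45) (nat_lit 5) (nat_lit 43) (nat_lit 4) (nat_lit 387) (nat_lit 371) (nat_lit 262))))) (XT.nd (nat_lit 156) (nat_lit 380) (nat_lit 0) (XT.nd (nat_lit 78) (nat_lit 152) (nat_lit 0) (XT.lf (nat_lit 0) (nat_lit 753066590232) (nat_lit 76) (nat_lit 341932964124) (nat_lit 152) (nat_lit 150925477497) (nat_lit 41) (nat_lit 5) (nat_lit 42) (nat_lit 5) (nat_lit 43) (nat_lit 4) (nat_lit 388) (nat_lit 371) (nat_lit 261)) (XT.lf (nat_lit 0) (nat_lit 488417871607) (nat_lit 152) (nat_lit 395695016582) (nat_lit 76) (nat_lit 481023243398) (nat_lit 39) (nat_lit 5) (nat_lit 41) (nat_lit 5) (nat_lit 40) (nat_lit 4) (nat_lit 389) (nat_lit 371) (nat_lit 260)))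 (XT.nd (nat_lit 78) (nat_lit 304) (nat_lit 0) (XT.lf (nat_lit 0) (nat_lit 1227238027369) (nat_lit 76) (nat_lit 41436131571) (nat_lit 152) (nat_lit 228925293296) (nat_lit 38) (nat_lit 5) (nat_lit 39) (nat_lit 5) (nat_lit 40) (nat_lit 4) (nat_lit 390) (nat_lit 371) (nat_lit 259)) (XT.nd (nat_lit 78) (nat_lit 152) (nat_lit 0) (XT.lf (nat_lit 0) (nat_lit 562795315500) (nat_lit 152) (nat_lit 136426718326) (nat_lit 76) (nat_lit 943911546613) (nat_lit 36) (nat_lit 5) (nat_lit 38) (nat_lit 5) (nat_lit 37) (nat_lit 4) (nat_lit 391) (nat_lit 371) (nat_lit 258)) (XT.lf (nat_lit 0) (nat_lit 29131157793) (nat_lit 76) (nat_lit 1493058250806) (nat_lit 76) (nat_lit 282835104359) (nat_lit 34) (nat_lit 4) (nat_lit 35) (nat_lit 5) (nat_lit 35) (nat_lit 4) (nat_lit 392) (nat_lit 371) (nat_lit 257))))))))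
noncomputable def xc101 : XT := (XT.nd (nat_lit 1404) (nat_lit 456) (nat_lit 0) (XT.nd (nat_lit 702) (nat_lit 760) (nat_lit 0) (XT.nd (nat_lit 312) (nat_lit 608) (nat_lit 0) (XT.nd (nat_lit 156) (nat_lit 228) (nat_lit 0) (XT.nd (nat_lit 78) (nat_lit 76) (nat_lit 0) (XT.lf (nat_lit 0) (nat_lit 213744109214) (nat_lit 76) (nat_lit 470855542064) (nat_lit 152) (nat_lit 1298816167923) (nat_lit 32) (nat_lit 5) (nat_lit 33) (nat_lit 5) (nat_lit 34) (nat_lit 4) (nat_lit 393) (nat_lit 371) (nat_lit 256)) (XT.lf (nat_lit 0) (nat_lit 419828830456) (nat_lit 76) (nat_lit 1441140483456) (nat_lit 76) (nat_lit 320563463119) (nat_lit 31) (nat_lit 4) (nat_lit 32) (nat_lit 5) (nat_lit 32) (nat_lit 4) (nat_lit 394) (nat_lit 371) (nat_lit 255))) (XT.nd (nat_lit 78) (nat_lit 76) (nat_lit 0) (XT.lf (nat_lit 0) (nat_lit 637876556457) (nat_lit 76) (nat_lit 207533823396) (nat_lit 152) (nat_lit 1555911264400) (nat_lit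 29) (nat_lit 5) (nat_lit 30) (nat_lit 5) (nat_lit 31) (nat_lit 4) (nat_lit 395) (nat_lit 371) (nat_lit 254)) (XT.lf (nat_lit 0) (nat_lit 857681037224) (nat_lit 76) (nat_lit 1412534857122) (nat_lit 76) (nat_lit 374963518970) (nat_lit 28) (nat_lit 4) (nat_lit 29) (nat_lit 5) (nat_lit 29) (nat_lit 4) (nat_lit 396) (nat_lit 371) (nat_lit 253)))) (XT.nd (nat_lit 156) (nat_lit 380) (nat_lit 0) (XT.nd (nat_lit 78) (nat_lit 76) (nat_lit 0) (XT.lf (nat_lit 0) (nat_lit 1019845928082) (nat_lit 152) (nat_lit 1837874704853) (nat_lit 0) (nat_lit 59131717466) (nat_lit 26) (nat_lit 5) (nat_lit 28) (nat_lit 4) (nat_lit 26) (nat_lit 4) (nat_lit 397) (nat_lit 371) (nat_lit 252)) (XT.lf (nat_lit 0) (nat_lit 1271366967632) (nat_lit 76) (nat_lit 1453975460363) (nat_lit 76) (nat_lit 493261242249) (nat_lit 25) (nat_lit 4) (nat_lit 26) (nat_lit 5) (nat_lit 26) (nat_lit 4) (nat_lit 398) (nat_lit 371) (nat_lit 251)))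 (XT.nd (nat_lit 78) (nat_lit 228) (nat_lit 0) (XT.lf (nat_lit 0) (nat_lit 1161394301228) (nat_lit 152) (nat_lit 2122508172823) (nat_lit 0) (nat_lit 271844093233) (nat_lit 23) (nat_lit 5) (nat_lit 25) (nat_lit 4) (nat_lit 23) (nat_lit 4) (nat_lit 399) (nat_lit 371) (nat_lit 250)) (XT.nd (nat_lit 78) (nat_lit 152) (nat_lit 0) (XT.lf (nat_lit 0) (nat_lit 1520511775526) (nat_lit 76) (nat_lit 1650306136844) (nat_lit 76) (nat_lit 760755923600) (nat_lit 22) (nat_lit 4) (nat_lit 23) (nat_lit 5) (nat_lit 23) (nat_lit 4) (nat_lit 400) (nat_lit 371) (nat_lit 249)) (XT.lf (nat_lit 0) (nat_lit 1170888343947) (nat_lit 152) (nat_lit 2834790964943) (nat_lit 0) (nat_lit 347230734865) (nat_lit 20) (nat_lit 5) (nat_lit 22) (nat_lit 4) (nat_lit 20) (nat_lit 4) (nat_lit 401) (nat_lit 371) (nat_lit 248)))))) (XT.nd (nat_lit 312) (nat_lit 380) (nat_lit 0) (XT.nd (nat_lit 156) (nat_lit 152) (nat_lit 0) (XT.nd (nat_lit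 78) (nat_lit 152) (nat_lit 0) (XT.lf (nat_lit 0) (nat_lit 1349871667563) (nat_lit 76) (nat_lit 2148769626870) (nat_lit 76) (nat_lit 1325112014112) (nat_lit 19) (nat_lit 4) (nat_lit 20) (nat_lit 5) (nat_lit 20) (nat_lit 4) (nat_lit 402) (nat_lit 371) (nat_lit 247)) (XT.lf (nat_lit 0) (nat_lit 881628672671) (nat_lit 152) (nat_lit 4354106114555) (nat_lit 0) (nat_lit 118982731973) (nat_lit 17) (nat_lit 5) (nat_lit 19) (nat_lit 4) (nat_lit 17) (nat_lit 4) (nat_lit 403) (nat_lit 371) (nat_lit 246))) (XT.nd (nat_lit 78) (nat_lit 76) (nat_lit 0) (XT.lf (nat_lit 0) (nat_lit 316539429025) (nat_lit 76) (nat_lit 3197418156436) (nat_lit 76) (nat_lit 2434772213165) (nat_lit 16) (nat_lit 4) (nat_lit 17) (nat_lit 5) (nat_lit 17) (nat_lit 4) (nat_lit 404) (nat_lit 371) (nat_lit 245)) (XT.lf (nat_lit 0) (nat_lit 43887198342) (nat_lit 152) (nat_lit 671360572956) (nat_lit 76) (nat_lit 5906366055411) (nat_lit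 15) (nat_lit 5) (nat_lit 17) (nat_lit 5) (nat_lit 16) (nat_lit 4) (nat_lit 405) (nat_lit 371) (nat_lit 244)))) (XT.nd (nat_lit 156) (nat_lit 228) (nat_lit 0) (XT.nd (nat_lit 78) (nat_lit 76) (nat_lit 0) (XT.lf (nat_lit 0) (nat_lit 2936470426215) (nat_lit 152) (nat_lit 2208680747506) (nat_lit 0) (nat_lit 2230316771164) (nat_lit 14) (nat_lit 5) (nat_lit 16) (nat_lit 4) (nat_lit 14) (nat_lit 4) (nat_lit 406) (nat_lit 371) (nat_lit 243)) (XT.lf (nat_lit 0) (nat_lit 3852925416890) (nat_lit 76) (nat_lit 2542514268377) (nat_lit 76) (nat_lit 1836360611760) (nat_lit 13) (nat_lit 4) (nat_lit 14) (nat_lit 5) (nat_lit 14) (nat_lit 4) (nat_lit 407) (nat_lit 371) (nat_lit 242))) (XT.nd (nat_lit 78) (nat_lit 76) (nat_lit 0) (XT.lf (nat_lit 0) (nat_lit 1222642042038) (nat_lit 152) (nat_lit 7413012429063) (nat_lit 0) (nat_lit 568796062427) (nat_lit 11) (nat_lit 5) (nat_lit 13) (nat_lit 4) (nat_lit 11) (nat_lit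 4) (nat_lit 408) (nat_lit 371) (nat_lit 241)) (XT.nd (nat_lit 78) (nat_lit 76) (nat_lit 0) (XT.lf (nat_lit 0) (nat_lit 4835970776863) (nat_lit 152) (nat_lit 1284750220349) (nat_lit 0) (nat_lit 4182124796156) (nat_lit 11) (nat_lit 5) (nat_lit 13) (nat_lit 4) (nat_lit 11) (nat_lit 4) (nat_lit 409) (nat_lit 371) (nat_lit 240)) (XT.lf (nat_lit 0) (nat_lit 6066207567792) (nat_lit 76) (nat_lit 3070983680953) (nat_lit 76) (nat_lit 2417137699292) (nat_lit 10) (nat_lit 4) (nat_lit 11) (nat_lit 5) (nat_lit 11) (nat_lit 4) (nat_lit 410) (nat_lit 371) (nat_lit 239))))))) (XT.nd (nat_lit 50154) (nat_lit 0) (nat_lit 4028) (XT.nd (nat_lit 312) (nat_lit 228) (nat_lit 0) (XT.nd (nat_lit 156) (nat_lit 76) (nat_lit 0) (XT.nd (nat_lit 78) (nat_lit 0) (nat_lit 0) (XT.lf (nat_lit 0) (nat_lit 1127111140909) (nat_lit 152) (nat_lit 11335301550713) (nat_lit 0) (nat_lit 521698194159) (nat_lit 8) (nat_lit 5) (nat_lit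 10) (nat_lit 4) (nat_lit 8) (nat_lit 4) (nat_lit 411) (nat_lit 371) (nat_lit 238)) (XT.lf (nat_lit 0) (nat_lit 5312811742102) (nat_lit 152) (nat_lit 4582892076803) (nat_lit 0) (nat_lit 4707398794683) (nat_lit 8) (nat_lit 5) (nat_lit 10) (nat_lit 4) (nat_lit 8) (nat_lit 4) (nat_lit 412) (nat_lit 371) (nat_lit 237))) (XT.nd (nat_lit 78) (nat_lit 0) (nat_lit 0) (XT.lf (nat_lit 0) (nat_lit 3349957228752) (nat_lit 76) (nat_lit 6856976748169) (nat_lit 76) (nat_lit 6251563800170) (nat_lit 7) (nat_lit 4) (nat_lit 8) (nat_lit 5) (nat_lit 8) (nat_lit 4) (nat_lit 413) (nat_lit 371) (nat_lit 236)) (XT.lf (nat_lit 0) (nat_lit 12750259935646) (nat_lit 76) (nat_lit 3218340575424) (nat_lit 76) (nat_lit 2612927626920) (nat_lit 7) (nat_lit 4) (nat_lit 8) (nat_lit 5) (nat_lit 8) (nat_lit 4) (nat_lit 414) (nat_lit 371) (nat_lit 235)))) (XT.nd (nat_lit 156) (nat_lit 76) (nat_lit 0) (XT.nd (nat_lit 78) (nat_lit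 0) (nat_lit 0) (XT.lf (nat_lit 0) (nat_lit 1582037042203) (nat_lit 152) (nat_lit 18409351252212) (nat_lit 0) (nat_lit 1021469496885) (nat_lit 5) (nat_lit 5) (nat_lit 7) (nat_lit 4) (nat_lit 5) (nat_lit 4) (nat_lit 415) (nat_lit 371) (nat_lit 234)) (XT.lf (nat_lit 0) (nat_lit 6519122881530) (nat_lit 152) (nat_lit 11304371939731) (nat_lit 0) (nat_lit 5958555335858) (nat_lit 5) (nat_lit 5) (nat_lit 7) (nat_lit 4) (nat_lit 5) (nat_lit 4) (nat_lit 416) (nat_lit 371) (nat_lit 233))) (XT.nd (nat_lit 78) (nat_lit 76) (nat_lit 0) (XT.lf (nat_lit 0) (nat_lit 12196771591115) (nat_lit 152) (nat_lit 3133645742009) (nat_lit 0) (nat_lit 11636204045137) (nat_lit 5) (nat_lit 5) (nat_lit 7) (nat_lit 4) (nat_lit 5) (nat_lit 4) (nat_lit 417) (nat_lit 371) (nat_lit 232)) (XT.nd (nat_lit 49530) (nat_lit 0) (nat_lit 5852) (XT.lf (nat_lit 0) (nat_lit 6592471499317) (nat_lit 76) (nat_lit 12292145201024) (nat_lit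 76) (nat_lit 11731577654778) (nat_lit 4) (nat_lit 4) (nat_lit 5) (nat_lit 5) (nat_lit 5) (nat_lit 4) (nat_lit 418) (nat_lit 371) (nat_lit 231)) (XT.lf (nat_lit 0) (nat_lit 172340693446) (nat_lit 532) (nat_lit 2729027950) (nat_lit 532) (nat_lit 2729027950) (nat_lit 81) (nat_lit 3) (nat_lit 88) (nat_lit 3) (nat_lit 88) (nat_lit 5) (nat_lit 372) (nat_lit 372) (nat_lit 276)))))) (XT.nd (nat_lit 390) (nat_lit 1064) (nat_lit 0) (XT.nd (nat_lit 156) (nat_lit 304) (nat_lit 0) (XT.nd (nat_lit 78) (nat_lit 456) (nat_lit 0) (XT.lf (nat_lit 76) (nat_lit 342376726843) (nat_lit 0) (nat_lit 36390811290) (nat_lit 532) (nat_lit 2840968950) (nat_lit 82) (nat_lit 5) (nat_lit 81) (nat_lit 3) (nat_lit 88) (nat_lit 5) (nat_lit 373) (nat_lit 372) (nat_lit 275)) (XT.lf (nat_lit 0) (nat_lit 22695152015) (nat_lit 532) (nat_lit 70371477476) (nat_lit 608) (nat_lit 317116365511) (nat_lit 75) (nat_lit 5) (nat_lit 82)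 (nat_lit 5) (nat_lit 83) (nat_lit 5) (nat_lit 374) (nat_lit 372) (nat_lit 274))) (XT.nd (nat_lit 78) (nat_lit 380) (nat_lit 0) (XT.lf (nat_lit 0) (nat_lit 69484944064) (nat_lit 532) (nat_lit 97530045781) (nat_lit 608) (nat_lit 274615445387) (nat_lit 76) (nat_lit 5) (nat_lit 83) (nat_lit 5) (nat_lit 84) (nat_lit 5) (nat_lit 375) (nat_lit 372) (nat_lit 273)) (XT.nd (nat_lit 78) (nat_lit 456) (nat_lit 0) (XT.lf (nat_lit 0) (nat_lit 142137015383) (nat_lit 532) (nat_lit 119263051499) (nat_lit 76) (nat_lit 214887419805) (nat_lit 77) (nat_lit 5) (nat_lit 84) (nat_lit 5) (nat_lit 78) (nat_lit 5) (nat_lit 376) (nat_lit 372) (nat_lit 272)) (XT.lf (nat_lit 0) (nat_lit 245872054407) (nat_lit 532) (nat_lit 133929388668) (nat_lit 76) (nat_lit 134726840252) (nat_lit 71) (nat_lit 5) (nat_lit 78) (nat_lit 5) (nat_lit 72) (nat_lit 5) (nat_lit 377) (nat_lit 372) (nat_lit 271))))) (XT.nd (nat_lit 156) (nat_lit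 608) (nat_lit 0) (XT.nd (nat_lit 78) (nat_lit 228) (nat_lit 0) (XT.lf (nat_lit 0) (nat_lit 386782800073) (nat_lit 304) (nat_lit 139581164338) (nat_lit 76) (nat_lit 30411999010) (nat_lit 68) (nat_lit 5) (nat_lit 72) (nat_lit 5) (nat_lit 69) (nat_lit 5) (nat_lit 378) (nat_lit 372) (nat_lit 270)) (XT.lf (nat_lit 0) (nat_lit 466794305718) (nat_lit 228) (nat_lit 107767035072) (nat_lit 304) (nat_lit 28740960102) (nat_lit 65) (nat_lit 5) (nat_lit 68) (nat_lit 5) (nat_lit 69) (nat_lit 5) (nat_lit 379) (nat_lit 372) (nat_lit 269))) (XT.nd (nat_lit 78) (nat_lit 380) (nat_lit 0) (XT.lf (nat_lit 0) (nat_lit 153676333071) (nat_lit 228) (nat_lit 124915904184) (nat_lit 76) (nat_lit 375824880183) (nat_lit 62) (nat_lit 5) (nat_lit 65) (nat_lit 5) (nat_lit 63) (nat_lit 5) (nat_lit 380) (nat_lit 372) (nat_lit 268)) (XT.nd (nat_lit 78) (nat_lit 152) (nat_lit 0) (XT.lf (nat_lit 0) (nat_lit 389349747095) (nat_lit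 304) (nat_lit 99188076058) (nat_lit 76) (nat_lit 222393986855) (nat_lit 59) (nat_lit 5) (nat_lit 63) (nat_lit 5) (nat_lit 60) (nat_lit 5) (nat_lit 381) (nat_lit 372) (nat_lit 267)) (XT.lf (nat_lit 0) (nat_lit 689821619222) (nat_lit 228) (nat_lit 55342778260) (nat_lit 76) (nat_lit 28403513313) (nat_lit 57) (nat_lit 5) (nat_lit 60) (nat_lit 5) (nat_lit 58) (nat_lit 5) (nat_lit 382) (nat_lit 372) (nat_lit 266))))))))
noncomputable def xc102 : XT := (XT.nd (nat_lit 1404) (nat_lit 1368) (nat_lit 0) (XT.nd (nat_lit 702) (nat_lit 1140) (nat_lit 0) (XT.nd (nat_lit 312) (nat_lit 608) (nat_lit 0) (XT.nd (nat_lit 156) (nat_lit 304) (nat_lit 0) (XT.nd (nat_lit 78) (nat_lit 304) (nat_lit 0) (XT.lf (nat_lit 0) (nat_lit 218091320814) (nat_lit 228) (nat_lit 464422598) (nat_lit 76) (nat_lit 623653032853) (nat_lit 54) (nat_lit 5) (nat_lit 57) (nat_lit 5) (nat_lit 55) (nat_lit 5) (nat_lit 383) (nat_lit 372)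 (nat_lit 265)) (XT.lf (nat_lit 0) (nat_lit 78568268432) (nat_lit 152) (nat_lit 519535589789) (nat_lit 228) (nat_lit 319839255221) (nat_lit 50) (nat_lit 5) (nat_lit 52) (nat_lit 5) (nat_lit 53) (nat_lit 5) (nat_lit 384) (nat_lit 372) (nat_lit 264))) (XT.nd (nat_lit 78) (nat_lit 152) (nat_lit 0) (XT.lf (nat_lit 0) (nat_lit 67301089379) (nat_lit 152) (nat_lit 817113497390) (nat_lit 76) (nat_lit 117467125434) (nat_lit 48) (nat_lit 5) (nat_lit 50) (nat_lit 5) (nat_lit 49) (nat_lit 5) (nat_lit 385) (nat_lit 372) (nat_lit 263)) (XT.lf (nat_lit 0) (nat_lit 308488617254) (nat_lit 152) (nat_lit 232484679732) (nat_lit 228) (nat_lit 552981293598) (nat_lit 46) (nat_lit 5) (nat_lit 48) (nat_lit 5) (nat_lit 49) (nat_lit 5) (nat_lit 386) (nat_lit 372) (nat_lit 262)))) (XT.nd (nat_lit 156) (nat_lit 304) (nat_lit 0) (XT.nd (nat_lit 78) (nat_lit 228) (nat_lit 0) (XT.lf (nat_lit 0) (nat_lit 464664624371) (nat_lit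 76) (nat_lit 669053654491) (nat_lit 152) (nat_lit 62278366415) (nat_lit 45) (nat_lit 5) (nat_lit 46) (nat_lit 5) (nat_lit 47) (nat_lit 4) (nat_lit 387) (nat_lit 372) (nat_lit 261)) (XT.lf (nat_lit 0) (nat_lit 525597789039) (nat_lit 228) (nat_lit 659969044046) (nat_lit 76) (nat_lit 122917759366) (nat_lit 42) (nat_lit 5) (nat_lit 45) (nat_lit 5) (nat_lit 43) (nat_lit 4) (nat_lit 388) (nat_lit 372) (nat_lit 260))) (XT.nd (nat_lit 78) (nat_lit 228) (nat_lit 0) (XT.lf (nat_lit 0) (nat_lit 866027375750) (nat_lit 76) (nat_lit 393222555689) (nat_lit 152) (nat_lit 173563819640) (nat_lit 41) (nat_lit 5) (nat_lit 42) (nat_lit 5) (nat_lit 43) (nat_lit 4) (nat_lit 389) (nat_lit 372) (nat_lit 259)) (XT.nd (nat_lit 78) (nat_lit 76) (nat_lit 0) (XT.lf (nat_lit 0) (nat_lit 561680974619) (nat_lit 152) (nat_lit 455048492510) (nat_lit 76) (nat_lit 553177050385) (nat_lit 39) (nat_lit 5) (nat_lit 41) (nat_lit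 5) (nat_lit 40) (nat_lit 4) (nat_lit 390) (nat_lit 372) (nat_lit 258)) (XT.lf (nat_lit 0) (nat_lit 1411324442302) (nat_lit 76) (nat_lit 47651224766) (nat_lit 152) (nat_lit 263263672234) (nat_lit 38) (nat_lit 5) (nat_lit 39) (nat_lit 5) (nat_lit 40) (nat_lit 4) (nat_lit 391) (nat_lit 372) (nat_lit 257)))))) (XT.nd (nat_lit 312) (nat_lit 608) (nat_lit 0) (XT.nd (nat_lit 156) (nat_lit 228) (nat_lit 0) (XT.nd (nat_lit 78) (nat_lit 152) (nat_lit 0) (XT.lf (nat_lit 0) (nat_lit 647214979268) (nat_lit 152) (nat_lit 156890035122) (nat_lit 76) (nat_lit 1085498573779) (nat_lit 36) (nat_lit 5) (nat_lit 38) (nat_lit 5) (nat_lit 37) (nat_lit 4) (nat_lit 392) (nat_lit 372) (nat_lit 256)) (XT.lf (nat_lit 0) (nat_lit 33501517808) (nat_lit 76) (nat_lit 1717016659625) (nat_lit 76) (nat_lit 325259983845) (nat_lit 34) (nat_lit 4) (nat_lit 35) (nat_lit 5) (nat_lit 35) (nat_lit 4) (nat_lit 393) (nat_lit 372) (nat_lit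 255))) (XT.nd (nat_lit 78) (nat_lit 76) (nat_lit 0) (XT.lf (nat_lit 0) (nat_lit 245806371545) (nat_lit 76) (nat_lit 541483561959) (nat_lit 152) (nat_lit 1493638231799) (nat_lit 32) (nat_lit 5) (nat_lit 33) (nat_lit 5) (nat_lit 34) (nat_lit 4) (nat_lit 394) (nat_lit 372) (nat_lit 254)) (XT.lf (nat_lit 0) (nat_lit 482803763953) (nat_lit 76) (nat_lit 1657311259104) (nat_lit 76) (nat_lit 368647645552) (nat_lit 31) (nat_lit 4) (nat_lit 32) (nat_lit 5) (nat_lit 32) (nat_lit 4) (nat_lit 395) (nat_lit 372) (nat_lit 253)))) (XT.nd (nat_lit 156) (nat_lit 380) (nat_lit 0) (XT.nd (nat_lit 78) (nat_lit 76) (nat_lit 0) (XT.lf (nat_lit 0) (nat_lit 733558612754) (nat_lit 76) (nat_lit 238663616266) (nat_lit 152) (nat_lit 1789297638486) (nat_lit 29) (nat_lit 5) (nat_lit 30) (nat_lit 5) (nat_lit 31) (nat_lit 4) (nat_lit 396) (nat_lit 372) (nat_lit 252)) (XT.lf (nat_lit 0) (nat_lit 986333732378) (nat_lit 76)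 (nat_lit 1624414819044) (nat_lit 76) (nat_lit 431207752049) (nat_lit 28) (nat_lit 4) (nat_lit 29) (nat_lit 5) (nat_lit 29) (nat_lit 4) (nat_lit 397) (nat_lit 372) (nat_lit 251))) (XT.nd (nat_lit 78) (nat_lit 228) (nat_lit 0) (XT.lf (nat_lit 0) (nat_lit 1172823079048) (nat_lit 152) (nat_lit 2113555388768) (nat_lit 0) (nat_lit 68001714199) (nat_lit 26) (nat_lit 5) (nat_lit 28) (nat_lit 4) (nat_lit 26) (nat_lit 4) (nat_lit 398) (nat_lit 372) (nat_lit 250)) (XT.nd (nat_lit 78) (nat_lit 152) (nat_lit 0) (XT.lf (nat_lit 0) (nat_lit 1462072490421) (nat_lit 76) (nat_lit 1672071540872) (nat_lit 76) (nat_lit 567250170353) (nat_lit 25) (nat_lit 4) (nat_lit 26) (nat_lit 5) (nat_lit 26) (nat_lit 4) (nat_lit 399) (nat_lit 372) (nat_lit 249)) (XT.lf (nat_lit 0) (nat_lit 1335603675938) (nat_lit 152) (nat_lit 2440883937178) (nat_lit 0) (nat_lit 312620920893) (nat_lit 23) (nat_lit 5) (nat_lit 25) (nat_lit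 4) (nat_lit 23) (nat_lit 4) (nat_lit 400) (nat_lit 372) (nat_lit 248))))))) (XT.nd (nat_lit 702) (nat_lit 456) (nat_lit 0) (XT.nd (nat_lit 312) (nat_lit 456) (nat_lit 0) (XT.nd (nat_lit 156) (nat_lit 228) (nat_lit 0) (XT.nd (nat_lit 78) (nat_lit 152) (nat_lit 0) (XT.lf (nat_lit 0) (nat_lit 1748588964354) (nat_lit 76) (nat_lit 1897851844621) (nat_lit 76) (nat_lit 874869085606) (nat_lit 22) (nat_lit 4) (nat_lit 23) (nat_lit 5) (nat_lit 23) (nat_lit 4) (nat_lit 401) (nat_lit 372) (nat_lit 247)) (XT.lf (nat_lit 0) (nat_lit 1346521797042) (nat_lit 152) (nat_lit 3260009201654) (nat_lit 0) (nat_lit 399315535499) (nat_lit 20) (nat_lit 5) (nat_lit 22) (nat_lit 4) (nat_lit 20) (nat_lit 4) (nat_lit 402) (nat_lit 372) (nat_lit 246))) (XT.nd (nat_lit 78) (nat_lit 152) (nat_lit 0) (XT.lf (nat_lit 0) (nat_lit 1552352791191) (nat_lit 76) (nat_lit 2471084881609) (nat_lit 76) (nat_lit 1523878617287) (nat_lit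 19) (nat_lit 4) (nat_lit 20) (nat_lit 5) (nat_lit 20) (nat_lit 4) (nat_lit 403) (nat_lit 372) (nat_lit 245)) (XT.lf (nat_lit 0) (nat_lit 1013873150638) (nat_lit 152) (nat_lit 5007221671209) (nat_lit 0) (nat_lit 136830311065) (nat_lit 17) (nat_lit 5) (nat_lit 19) (nat_lit 4) (nat_lit 17) (nat_lit 4) (nat_lit 404) (nat_lit 372) (nat_lit 244)))) (XT.nd (nat_lit 156) (nat_lit 304) (nat_lit 0) (XT.nd (nat_lit 78) (nat_lit 76) (nat_lit 0) (XT.lf (nat_lit 0) (nat_lit 364020673392) (nat_lit 76) (nat_lit 3677030711796) (nat_lit 76) (nat_lit 2799987870278) (nat_lit 16) (nat_lit 4) (nat_lit 17) (nat_lit 5) (nat_lit 17) (nat_lit 4) (nat_lit 405) (nat_lit 372) (nat_lit 243)) (XT.lf (nat_lit 0) (nat_lit 50470422541) (nat_lit 152) (nat_lit 772064364324) (nat_lit 76) (nat_lit 6792321102294) (nat_lit 15) (nat_lit 5) (nat_lit 17) (nat_lit 5) (nat_lit 16) (nat_lit 4) (nat_lit 406) (nat_lit 372) (nat_lit 242)))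 (XT.nd (nat_lit 78) (nat_lit 228) (nat_lit 0) (XT.lf (nat_lit 0) (nat_lit 3376941125547) (nat_lit 152) (nat_lit 2539982582729) (nat_lit 0) (nat_lit 2564864417508) (nat_lit 14) (nat_lit 5) (nat_lit 16) (nat_lit 4) (nat_lit 14) (nat_lit 4) (nat_lit 407) (nat_lit 372) (nat_lit 241)) (XT.nd (nat_lit 78) (nat_lit 152) (nat_lit 0) (XT.lf (nat_lit 0) (nat_lit 4430864482887) (nat_lit 76) (nat_lit 2923891279004) (nat_lit 76) (nat_lit 2111814569781) (nat_lit 13) (nat_lit 4) (nat_lit 14) (nat_lit 5) (nat_lit 14) (nat_lit 4) (nat_lit 408) (nat_lit 372) (nat_lit 240)) (XT.lf (nat_lit 0) (nat_lit 1406038467484) (nat_lit 152) (nat_lit 8524964048923) (nat_lit 0) (nat_lit 654115587619) (nat_lit 11) (nat_lit 5) (nat_lit 13) (nat_lit 4) (nat_lit 11) (nat_lit 4) (nat_lit 409) (nat_lit 372) (nat_lit 239)))))) (XT.nd (nat_lit 390) (nat_lit 152) (nat_lit 0) (XT.nd (nat_lit 156) (nat_lit 228) (nat_lit 0) (XT.nd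 (nat_lit 78) (nat_lit 76) (nat_lit 0) (XT.lf (nat_lit 0) (nat_lit 5561366496993) (nat_lit 152) (nat_lit 1477462540792) (nat_lit 0) (nat_lit 4809443616299) (nat_lit 11) (nat_lit 5) (nat_lit 13) (nat_lit 4) (nat_lit 11) (nat_lit 4) (nat_lit 410) (nat_lit 372) (nat_lit 238)) (XT.lf (nat_lit 0) (nat_lit 6976138897573) (nat_lit 76) (nat_lit 3531631133251) (nat_lit 76) (nat_lit 2779708251836) (nat_lit 10) (nat_lit 4) (nat_lit 11) (nat_lit 5) (nat_lit 11) (nat_lit 4) (nat_lit 411) (nat_lit 372) (nat_lit 237))) (XT.nd (nat_lit 78) (nat_lit 76) (nat_lit 0) (XT.lf (nat_lit 0) (nat_lit 1296177903248) (nat_lit 152) (nat_lit 13035596595634) (nat_lit 0) (nat_lit 599953012469) (nat_lit 8) (nat_lit 5) (nat_lit 10) (nat_lit 4) (nat_lit 8) (nat_lit 4) (nat_lit 412) (nat_lit 372) (nat_lit 236)) (XT.nd (nat_lit 78) (nat_lit 76) (nat_lit 0) (XT.lf (nat_lit 0) (nat_lit 6109733582724) (nat_lit 152) (nat_lit 5270325725119)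 (nat_lit 0) (nat_lit 5413508691439) (nat_lit 8) (nat_lit 5) (nat_lit 10) (nat_lit 4) (nat_lit 8) (nat_lit 4) (nat_lit 413) (nat_lit 372) (nat_lit 235)) (XT.lf (nat_lit 0) (nat_lit 3852450962454) (nat_lit 76) (nat_lit 7885523183559) (nat_lit 76) (nat_lit 7189298291836) (nat_lit 7) (nat_lit 4) (nat_lit 8) (nat_lit 5) (nat_lit 8) (nat_lit 4) (nat_lit 414) (nat_lit 372) (nat_lit 234))))) (XT.nd (nat_lit 156) (nat_lit 0) (nat_lit 0) (XT.nd (nat_lit 78) (nat_lit 152) (nat_lit 0) (XT.lf (nat_lit 0) (nat_lit 14662799055897) (nat_lit 76) (nat_lit 3701091594924) (nat_lit 76) (nat_lit 3004866702819) (nat_lit 7) (nat_lit 4) (nat_lit 8) (nat_lit 5) (nat_lit 8) (nat_lit 4) (nat_lit 415) (nat_lit 372) (nat_lit 233)) (XT.lf (nat_lit 0) (nat_lit 1819342659266) (nat_lit 152) (nat_lit 21170753814788) (nat_lit 0) (nat_lit 1174689981083) (nat_lit 5) (nat_lit 5) (nat_lit 7) (nat_lit 4) (nat_lit 5) (nat_lit 4)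 (nat_lit 416) (nat_lit 372) (nat_lit 232))) (XT.nd (nat_lit 78) (nat_lit 0) (nat_lit 0) (XT.lf (nat_lit 0) (nat_lit 7496991366570) (nat_lit 152) (nat_lit 13000027621772) (nat_lit 0) (nat_lit 6852338688120) (nat_lit 5) (nat_lit 5) (nat_lit 7) (nat_lit 4) (nat_lit 5) (nat_lit 4) (nat_lit 417) (nat_lit 372) (nat_lit 231)) (XT.nd (nat_lit 49608) (nat_lit 0) (nat_lit 5776) (XT.lf (nat_lit 0) (nat_lit 14026287375705) (nat_lit 152) (nat_lit 3603692508599) (nat_lit 0) (nat_lit 13381634697022) (nat_lit 5) (nat_lit 5) (nat_lit 7) (nat_lit 4) (nat_lit 5) (nat_lit 4) (nat_lit 418) (nat_lit 372) (nat_lit 230)) (XT.lf (nat_lit 0) (nat_lit 198192639787) (nat_lit 532) (nat_lit 3137927175) (nat_lit 532) (nat_lit 3137927175) (nat_lit 81) (nat_lit 3) (nat_lit 88) (nat_lit 3) (nat_lit 88) (nat_lit 5) (nat_lit 373) (nat_lit 373) (nat_lit 274))))))))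
noncomputable def xc103 : XT := (XT.nd (nat_lit 1404) (nat_lit 2128) (nat_lit 0) (XT.nd (nat_lit 702) (nat_lit 1520) (nat_lit 0) (XT.nd (nat_lit 312) (nat_lit 1216) (nat_lit 0) (XT.nd (nat_lit 156) (nat_lit 0) (nat_lit 76) (XT.nd (nat_lit 78) (nat_lit 456) (nat_lit 0) (XT.lf (nat_lit 76) (nat_lit 393734068783) (nat_lit 0) (nat_lit 41850085013) (nat_lit 532) (nat_lit 3265510162) (nat_lit 82) (nat_lit 5) (nat_lit 81) (nat_lit 3) (nat_lit 88) (nat_lit 5) (nat_lit 374) (nat_lit 373) (nat_lit 273)) (XT.lf (nat_lit 0) (nat_lit 26100757803) (nat_lit 532) (nat_lit 80926242726) (nat_lit 608) (nat_lit 364683336770) (nat_lit 75) (nat_lit 5) (nat_lit 82) (nat_lit 5) (nat_lit 83) (nat_lit 5) (nat_lit 375) (nat_lit 373) (nat_lit 272))) (XT.nd (nat_lit 78) (nat_lit 0) (nat_lit 76) (XT.lf (nat_lit 0) (nat_lit 79908858516) (nat_lit 532) (nat_lit 112158575211) (nat_lit 608) (nat_lit 315807472688) (nat_lit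 76) (nat_lit 5) (nat_lit 83) (nat_lit 5) (nat_lit 84) (nat_lit 5) (nat_lit 376) (nat_lit 373) (nat_lit 271)) (XT.lf (nat_lit 0) (nat_lit 163458605544) (nat_lit 532) (nat_lit 137151527445) (nat_lit 76) (nat_lit 247120393435) (nat_lit 77) (nat_lit 5) (nat_lit 84) (nat_lit 5) (nat_lit 78) (nat_lit 5) (nat_lit 377) (nat_lit 373) (nat_lit 270)))) (XT.nd (nat_lit 156) (nat_lit 684) (nat_lit 0) (XT.nd (nat_lit 78) (nat_lit 228) (nat_lit 0) (XT.lf (nat_lit 0) (nat_lit 282753786051) (nat_lit 532) (nat_lit 154017823546) (nat_lit 76) (nat_lit 154935842144) (nat_lit 71) (nat_lit 5) (nat_lit 78) (nat_lit 5) (nat_lit 72) (nat_lit 5) (nat_lit 378) (nat_lit 373) (nat_lit 269)) (XT.lf (nat_lit 0) (nat_lit 444801046142) (nat_lit 304) (nat_lit 160517383426) (nat_lit 76) (nat_lit 34973862100) (nat_lit 68) (nat_lit 5) (nat_lit 72) (nat_lit 5) (nat_lit 69) (nat_lit 5) (nat_lit 379) (nat_lit 373) (nat_lit 268)))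 (XT.nd (nat_lit 78) (nat_lit 456) (nat_lit 0) (XT.lf (nat_lit 0) (nat_lit 536814326255) (nat_lit 228) (nat_lit 123931955002) (nat_lit 304) (nat_lit 33051305464) (nat_lit 65) (nat_lit 5) (nat_lit 68) (nat_lit 5) (nat_lit 69) (nat_lit 5) (nat_lit 380) (nat_lit 373) (nat_lit 267)) (XT.nd (nat_lit 78) (nat_lit 228) (nat_lit 0) (XT.lf (nat_lit 0) (nat_lit 176728466697) (nat_lit 228) (nat_lit 143652401737) (nat_lit 76) (nat_lit 432198761800) (nat_lit 62) (nat_lit 5) (nat_lit 65) (nat_lit 5) (nat_lit 63) (nat_lit 5) (nat_lit 381) (nat_lit 373) (nat_lit 266)) (XT.lf (nat_lit 0) (nat_lit 447752827984) (nat_lit 304) (nat_lit 114065430113) (nat_lit 76) (nat_lit 255753273797) (nat_lit 59) (nat_lit 5) (nat_lit 63) (nat_lit 5) (nat_lit 60) (nat_lit 5) (nat_lit 382) (nat_lit 373) (nat_lit 265)))))) (XT.nd (nat_lit 312) (nat_lit 684) (nat_lit 0) (XT.nd (nat_lit 156) (nat_lit 456) (nat_lit 0) (XT.nd (nat_lit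 78) (nat_lit 228) (nat_lit 0) (XT.lf (nat_lit 0) (nat_lit 793295424566) (nat_lit 228) (nat_lit 63643371041) (nat_lit 76) (nat_lit 32664256716) (nat_lit 57) (nat_lit 5) (nat_lit 60) (nat_lit 5) (nat_lit 58) (nat_lit 5) (nat_lit 383) (nat_lit 373) (nat_lit 264)) (XT.lf (nat_lit 0) (nat_lit 250805539425) (nat_lit 228) (nat_lit 533304288) (nat_lit 76) (nat_lit 717201207276) (nat_lit 54) (nat_lit 5) (nat_lit 57) (nat_lit 5) (nat_lit 55) (nat_lit 5) (nat_lit 384) (nat_lit 373) (nat_lit 263))) (XT.nd (nat_lit 78) (nat_lit 152) (nat_lit 0) (XT.lf (nat_lit 0) (nat_lit 90354295321) (nat_lit 152) (nat_lit 597465636269) (nat_lit 228) (nat_lit 367814609230) (nat_lit 50) (nat_lit 5) (nat_lit 52) (nat_lit 5) (nat_lit 53) (nat_lit 5) (nat_lit 385) (nat_lit 373) (nat_lit 262)) (XT.lf (nat_lit 0) (nat_lit 77396718899) (nat_lit 152) (nat_lit 939679747506) (nat_lit 76) (nat_lit 135087465286) (nat_lit 48) (nat_lit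 5) (nat_lit 50) (nat_lit 5) (nat_lit 49) (nat_lit 5) (nat_lit 386) (nat_lit 373) (nat_lit 261)))) (XT.nd (nat_lit 156) (nat_lit 456) (nat_lit 0) (XT.nd (nat_lit 78) (nat_lit 76) (nat_lit 0) (XT.lf (nat_lit 0) (nat_lit 354762618779) (nat_lit 152) (nat_lit 267357095121) (nat_lit 228) (nat_lit 635928031436) (nat_lit 46) (nat_lit 5) (nat_lit 48) (nat_lit 5) (nat_lit 49) (nat_lit 5) (nat_lit 387) (nat_lit 373) (nat_lit 260)) (XT.lf (nat_lit 0) (nat_lit 534364991619) (nat_lit 76) (nat_lit 769411418540) (nat_lit 152) (nat_lit 71619700712) (nat_lit 45) (nat_lit 5) (nat_lit 46) (nat_lit 5) (nat_lit 47) (nat_lit 4) (nat_lit 388) (nat_lit 373) (nat_lit 259))) (XT.nd (nat_lit 78) (nat_lit 228) (nat_lit 0) (XT.lf (nat_lit 0) (nat_lit 604437826753) (nat_lit 228) (nat_lit 758963742292) (nat_lit 76) (nat_lit 141355682692) (nat_lit 42) (nat_lit 5) (nat_lit 45) (nat_lit 5) (nat_lit 43) (nat_lit 4) (nat_lit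 389) (nat_lit 373) (nat_lit 258)) (XT.nd (nat_lit 78) (nat_lit 152) (nat_lit 0) (XT.lf (nat_lit 0) (nat_lit 995932084747) (nat_lit 76) (nat_lit 452205672083) (nat_lit 152) (nat_lit 199598030029) (nat_lit 41) (nat_lit 5) (nat_lit 42) (nat_lit 5) (nat_lit 43) (nat_lit 4) (nat_lit 390) (nat_lit 373) (nat_lit 257)) (XT.lf (nat_lit 0) (nat_lit 645933440109) (nat_lit 152) (nat_lit 523305179196) (nat_lit 76) (nat_lit 636153850270) (nat_lit 39) (nat_lit 5) (nat_lit 41) (nat_lit 5) (nat_lit 40) (nat_lit 4) (nat_lit 391) (nat_lit 373) (nat_lit 256))))))) (XT.nd (nat_lit 702) (nat_lit 1064) (nat_lit 0) (XT.nd (nat_lit 312) (nat_lit 532) (nat_lit 0) (XT.nd (nat_lit 156) (nat_lit 304) (nat_lit 0) (XT.nd (nat_lit 78) (nat_lit 152) (nat_lit 0) (XT.lf (nat_lit 0) (nat_lit 1623023646135) (nat_lit 76) (nat_lit 54798661570) (nat_lit 152) (nat_lit 302752909226) (nat_lit 38) (nat_lit 5) (nat_lit 39) (nat_lit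 5) (nat_lit 40) (nat_lit 4) (nat_lit 392) (nat_lit 373) (nat_lit 255)) (XT.lf (nat_lit 0) (nat_lit 744297503241) (nat_lit 152) (nat_lit 180423017930) (nat_lit 76) (nat_lit 1248323583040) (nat_lit 36) (nat_lit 5) (nat_lit 38) (nat_lit 5) (nat_lit 37) (nat_lit 4) (nat_lit 393) (nat_lit 373) (nat_lit 254))) (XT.nd (nat_lit 78) (nat_lit 152) (nat_lit 0) (XT.lf (nat_lit 0) (nat_lit 38527264457) (nat_lit 76) (nat_lit 1974568909947) (nat_lit 76) (nat_lit 374048689424) (nat_lit 34) (nat_lit 4) (nat_lit 35) (nat_lit 5) (nat_lit 35) (nat_lit 4) (nat_lit 394) (nat_lit 373) (nat_lit 253)) (XT.lf (nat_lit 0) (nat_lit 282677815707) (nat_lit 76) (nat_lit 622705860779) (nat_lit 152) (nat_lit 1717683693365) (nat_lit 32) (nat_lit 5) (nat_lit 33) (nat_lit 5) (nat_lit 34) (nat_lit 4) (nat_lit 395) (nat_lit 373) (nat_lit 252)))) (XT.nd (nat_lit 156) (nat_lit 304) (nat_lit 0) (XT.nd (nat_lit 78) (nat_lit 152)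 (nat_lit 0) (XT.lf (nat_lit 0) (nat_lit 555224788983) (nat_lit 76) (nat_lit 1905907723492) (nat_lit 76) (nat_lit 423944537538) (nat_lit 31) (nat_lit 4) (nat_lit 32) (nat_lit 5) (nat_lit 32) (nat_lit 4) (nat_lit 396) (nat_lit 373) (nat_lit 251)) (XT.lf (nat_lit 0) (nat_lit 843592837809) (nat_lit 76) (nat_lit 274462946502) (nat_lit 152) (nat_lit 2057692045638) (nat_lit 29) (nat_lit 5) (nat_lit 30) (nat_lit 5) (nat_lit 31) (nat_lit 4) (nat_lit 397) (nat_lit 373) (nat_lit 250))) (XT.nd (nat_lit 78) (nat_lit 228) (nat_lit 0) (XT.lf (nat_lit 0) (nat_lit 1134284200227) (nat_lit 76) (nat_lit 1868076840278) (nat_lit 76) (nat_lit 495888691971) (nat_lit 28) (nat_lit 4) (nat_lit 29) (nat_lit 5) (nat_lit 29) (nat_lit 4) (nat_lit 398) (nat_lit 373) (nat_lit 249)) (XT.nd (nat_lit 78) (nat_lit 76) (nat_lit 0) (XT.lf (nat_lit 0) (nat_lit 1348746738828) (nat_lit 152) (nat_lit 2430588302518) (nat_lit 0) (nat_lit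 78202152132) (nat_lit 26) (nat_lit 5) (nat_lit 28) (nat_lit 4) (nat_lit 26) (nat_lit 4) (nat_lit 399) (nat_lit 373) (nat_lit 248)) (XT.lf (nat_lit 0) (nat_lit 1681383725152) (nat_lit 76) (nat_lit 1922882091628) (nat_lit 76) (nat_lit 652337500645) (nat_lit 25) (nat_lit 4) (nat_lit 26) (nat_lit 5) (nat_lit 26) (nat_lit 4) (nat_lit 400) (nat_lit 373) (nat_lit 247)))))) (XT.nd (nat_lit 390) (nat_lit 456) (nat_lit 0) (XT.nd (nat_lit 156) (nat_lit 380) (nat_lit 0) (XT.nd (nat_lit 78) (nat_lit 76) (nat_lit 0) (XT.lf (nat_lit 0) (nat_lit 1535944400884) (nat_lit 152) (nat_lit 2807016178743) (nat_lit 0) (nat_lit 359514220596) (nat_lit 23) (nat_lit 5) (nat_lit 25) (nat_lit 4) (nat_lit 23) (nat_lit 4) (nat_lit 401) (nat_lit 373) (nat_lit 246)) (XT.lf (nat_lit 0) (nat_lit 2010877628477) (nat_lit 76) (nat_lit 2182529460445) (nat_lit 76) (nat_lit 1006099277155) (nat_lit 22) (nat_lit 4) (nat_lit 23) (nat_lit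 5) (nat_lit 23) (nat_lit 4) (nat_lit 402) (nat_lit 373) (nat_lit 245))) (XT.nd (nat_lit 78) (nat_lit 228) (nat_lit 0) (XT.lf (nat_lit 0) (nat_lit 1548500218963) (nat_lit 152) (nat_lit 3749010273372) (nat_lit 0) (nat_lit 459213009797) (nat_lit 20) (nat_lit 5) (nat_lit 22) (nat_lit 4) (nat_lit 20) (nat_lit 4) (nat_lit 403) (nat_lit 373) (nat_lit 244)) (XT.nd (nat_lit 78) (nat_lit 152) (nat_lit 0) (XT.lf (nat_lit 0) (nat_lit 1785205992285) (nat_lit 76) (nat_lit 2841747470719) (nat_lit 76) (nat_lit 1752460259452) (nat_lit 19) (nat_lit 4) (nat_lit 20) (nat_lit 5) (nat_lit 20) (nat_lit 4) (nat_lit 404) (nat_lit 373) (nat_lit 243)) (XT.lf (nat_lit 0) (nat_lit 1165954257121) (nat_lit 152) (nat_lit 5758304649278) (nat_lit 0) (nat_lit 157354985737) (nat_lit 17) (nat_lit 5) (nat_lit 19) (nat_lit 4) (nat_lit 17) (nat_lit 4) (nat_lit 405) (nat_lit 373) (nat_lit 242))))) (XT.nd (nat_lit 156) (nat_lit 304)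 (nat_lit 0) (XT.nd (nat_lit 78) (nat_lit 76) (nat_lit 0) (XT.lf (nat_lit 0) (nat_lit 418624023938) (nat_lit 76) (nat_lit 4228585191454) (nat_lit 76) (nat_lit 3219985918599) (nat_lit 16) (nat_lit 4) (nat_lit 17) (nat_lit 5) (nat_lit 17) (nat_lit 4) (nat_lit 406) (nat_lit 373) (nat_lit 241)) (XT.lf (nat_lit 0) (nat_lit 58041095145) (nat_lit 152) (nat_lit 887873796231) (nat_lit 76) (nat_lit 7811169372417) (nat_lit 15) (nat_lit 5) (nat_lit 17) (nat_lit 5) (nat_lit 16) (nat_lit 4) (nat_lit 407) (nat_lit 373) (nat_lit 240))) (XT.nd (nat_lit 78) (nat_lit 228) (nat_lit 0) (XT.lf (nat_lit 0) (nat_lit 3883482396760) (nat_lit 152) (nat_lit 2920979760761) (nat_lit 0) (nat_lit 2949594178939) (nat_lit 14) (nat_lit 5) (nat_lit 16) (nat_lit 4) (nat_lit 14) (nat_lit 4) (nat_lit 408) (nat_lit 373) (nat_lit 239)) (XT.nd (nat_lit 78) (nat_lit 152) (nat_lit 0) (XT.lf (nat_lit 0) (nat_lit 5095494346975) (nat_lit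 76) (nat_lit 3362474872836) (nat_lit 76) (nat_lit 2428586654119) (nat_lit 13) (nat_lit 4) (nat_lit 14) (nat_lit 5) (nat_lit 14) (nat_lit 4) (nat_lit 409) (nat_lit 373) (nat_lit 238)) (XT.lf (nat_lit 0) (nat_lit 1616944327693) (nat_lit 152) (nat_lit 9803708471384) (nat_lit 0) (nat_lit 752233013345) (nat_lit 11) (nat_lit 5) (nat_lit 13) (nat_lit 4) (nat_lit 11) (nat_lit 4) (nat_lit 410) (nat_lit 373) (nat_lit 237))))))))
noncomputable def xc104 : XT := (XT.nd (nat_lit 51012) (nat_lit 0) (nat_lit 1520) (XT.nd (nat_lit 50310) (nat_lit 0) (nat_lit 4104) (XT.nd (nat_lit 312) (nat_lit 228) (nat_lit 0) (XT.nd (nat_lit 156) (nat_lit 152) (nat_lit 0) (XT.nd (nat_lit 78) (nat_lit 76) (nat_lit 0) (XT.lf (nat_lit 0) (nat_lit 6395571549878) (nat_lit 152) (nat_lit 1699081761149) (nat_lit 0) (nat_lit 5530860234903) (nat_lit 11) (nat_lit 5) (nat_lit 13) (nat_lit 4) (nat_lit 11) (nat_lit 4) (nat_lit 411) (nat_lit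 373) (nat_lit 236)) (XT.lf (nat_lit 0) (nat_lit 8022559879364) (nat_lit 76) (nat_lit 4061375727741) (nat_lit 76) (nat_lit 3196664412220) (nat_lit 10) (nat_lit 4) (nat_lit 11) (nat_lit 5) (nat_lit 11) (nat_lit 4) (nat_lit 412) (nat_lit 373) (nat_lit 235))) (XT.nd (nat_lit 78) (nat_lit 0) (nat_lit 0) (XT.lf (nat_lit 0) (nat_lit 1490604657698) (nat_lit 152) (nat_lit 14990935943063) (nat_lit 0) (nat_lit 689946031777) (nat_lit 8) (nat_lit 5) (nat_lit 10) (nat_lit 4) (nat_lit 8) (nat_lit 4) (nat_lit 413) (nat_lit 373) (nat_lit 234)) (XT.lf (nat_lit 0) (nat_lit 7026193680099) (nat_lit 152) (nat_lit 6060874460481) (nat_lit 0) (nat_lit 6225535053796) (nat_lit 8) (nat_lit 5) (nat_lit 10) (nat_lit 4) (nat_lit 8) (nat_lit 4) (nat_lit 414) (nat_lit 373) (nat_lit 233)))) (XT.nd (nat_lit 156) (nat_lit 152) (nat_lit 0) (XT.nd (nat_lit 78) (nat_lit 0) (nat_lit 0) (XT.lf (nat_lit 0) (nat_lit 4430318719783)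 (nat_lit 76) (nat_lit 9068351602995) (nat_lit 76) (nat_lit 8267692976360) (nat_lit 7) (nat_lit 4) (nat_lit 8) (nat_lit 5) (nat_lit 8) (nat_lit 4) (nat_lit 415) (nat_lit 373) (nat_lit 232)) (XT.lf (nat_lit 0) (nat_lit 16862219012508) (nat_lit 76) (nat_lit 4256255283643) (nat_lit 76) (nat_lit 3455596656719) (nat_lit 7) (nat_lit 4) (nat_lit 8) (nat_lit 5) (nat_lit 8) (nat_lit 4) (nat_lit 416) (nat_lit 373) (nat_lit 231))) (XT.nd (nat_lit 78) (nat_lit 0) (nat_lit 0) (XT.lf (nat_lit 0) (nat_lit 2092244104078) (nat_lit 152) (nat_lit 24346366792294) (nat_lit 0) (nat_lit 1350893523361) (nat_lit 5) (nat_lit 5) (nat_lit 7) (nat_lit 4) (nat_lit 5) (nat_lit 4) (nat_lit 417) (nat_lit 373) (nat_lit 230)) (XT.nd (nat_lit 49686) (nat_lit 0) (nat_lit 5776) (XT.lf (nat_lit 0) (nat_lit 8621540111488) (nat_lit 152) (nat_lit 14950031682679) (nat_lit 0) (nat_lit 7880189530569) (nat_lit 5) (nat_lit 5) (nat_lit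 7) (nat_lit 4) (nat_lit 5) (nat_lit 4) (nat_lit 418) (nat_lit 373) (nat_lit 229)) (XT.lf (nat_lit 0) (nat_lit 227922172673) (nat_lit 532) (nat_lit 3608272231) (nat_lit 532) (nat_lit 3608272231) (nat_lit 81) (nat_lit 3) (nat_lit 88) (nat_lit 3) (nat_lit 88) (nat_lit 5) (nat_lit 374) (nat_lit 374) (nat_lit 272)))))) (XT.nd (nat_lit 312) (nat_lit 1216) (nat_lit 0) (XT.nd (nat_lit 156) (nat_lit 0) (nat_lit 76) (XT.nd (nat_lit 78) (nat_lit 456) (nat_lit 0) (XT.lf (nat_lit 76) (nat_lit 452794808903) (nat_lit 0) (nat_lit 48128090792) (nat_lit 532) (nat_lit 3754123734) (nat_lit 82) (nat_lit 5) (nat_lit 81) (nat_lit 3) (nat_lit 88) (nat_lit 5) (nat_lit 375) (nat_lit 374) (nat_lit 271)) (XT.lf (nat_lit 0) (nat_lit 30016879403) (nat_lit 532) (nat_lit 93064455980) (nat_lit 608) (nat_lit 419385471638) (nat_lit 75) (nat_lit 5) (nat_lit 82) (nat_lit 5) (nat_lit 83) (nat_lit 5) (nat_lit 376) (nat_lit 374)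 (nat_lit 270))) (XT.nd (nat_lit 78) (nat_lit 0) (nat_lit 76) (XT.lf (nat_lit 0) (nat_lit 91896074131) (nat_lit 532) (nat_lit 128981622409) (nat_lit 608) (nat_lit 363178374683) (nat_lit 76) (nat_lit 5) (nat_lit 83) (nat_lit 5) (nat_lit 84) (nat_lit 5) (nat_lit 377) (nat_lit 374) (nat_lit 269)) (XT.lf (nat_lit 0) (nat_lit 187978181141) (nat_lit 532) (nat_lit 157723514197) (nat_lit 76) (nat_lit 284188347089) (nat_lit 77) (nat_lit 5) (nat_lit 84) (nat_lit 5) (nat_lit 78) (nat_lit 5) (nat_lit 378) (nat_lit 374) (nat_lit 268)))) (XT.nd (nat_lit 156) (nat_lit 684) (nat_lit 0) (XT.nd (nat_lit 78) (nat_lit 228) (nat_lit 0) (XT.lf (nat_lit 0) (nat_lit 325167552244) (nat_lit 532) (nat_lit 177119761031) (nat_lit 76) (nat_lit 178176200207) (nat_lit 71) (nat_lit 5) (nat_lit 78) (nat_lit 5) (nat_lit 72) (nat_lit 5) (nat_lit 379) (nat_lit 374) (nat_lit 267)) (XT.lf (nat_lit 0) (nat_lit 511521827683) (nat_lit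 304) (nat_lit 184594268398) (nat_lit 76) (nat_lit 40219989233) (nat_lit 68) (nat_lit 5) (nat_lit 72) (nat_lit 5) (nat_lit 69) (nat_lit 5) (nat_lit 380) (nat_lit 374) (nat_lit 266))) (XT.nd (nat_lit 78) (nat_lit 456) (nat_lit 0) (XT.lf (nat_lit 0) (nat_lit 617337136577) (nat_lit 228) (nat_lit 142521645922) (nat_lit 304) (nat_lit 38008397388) (nat_lit 65) (nat_lit 5) (nat_lit 68) (nat_lit 5) (nat_lit 69) (nat_lit 5) (nat_lit 381) (nat_lit 374) (nat_lit 265)) (XT.nd (nat_lit 78) (nat_lit 228) (nat_lit 0) (XT.lf (nat_lit 0) (nat_lit 203238253650) (nat_lit 228) (nat_lit 165199590486) (nat_lit 76) (nat_lit 497028689182) (nat_lit 62) (nat_lit 5) (nat_lit 65) (nat_lit 5) (nat_lit 63) (nat_lit 5) (nat_lit 382) (nat_lit 374) (nat_lit 264)) (XT.lf (nat_lit 0) (nat_lit 514916220102) (nat_lit 304) (nat_lit 131174596347) (nat_lit 76) (nat_lit 294116407712) (nat_lit 59) (nat_lit 5) (nat_lit 63) (nat_lit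 5) (nat_lit 60) (nat_lit 5) (nat_lit 383) (nat_lit 374) (nat_lit 263))))))) (XT.nd (nat_lit 702) (nat_lit 1064) (nat_lit 0) (XT.nd (nat_lit 312) (nat_lit 684) (nat_lit 0) (XT.nd (nat_lit 156) (nat_lit 456) (nat_lit 0) (XT.nd (nat_lit 78) (nat_lit 228) (nat_lit 0) (XT.lf (nat_lit 0) (nat_lit 912290163553) (nat_lit 228) (nat_lit 73189253666) (nat_lit 76) (nat_lit 37564058857) (nat_lit 57) (nat_lit 5) (nat_lit 60) (nat_lit 5) (nat_lit 58) (nat_lit 5) (nat_lit 384) (nat_lit 374) (nat_lit 262)) (XT.lf (nat_lit 0) (nat_lit 288426763903) (nat_lit 228) (nat_lit 612708855) (nat_lit 76) (nat_lit 824781554336) (nat_lit 54) (nat_lit 5) (nat_lit 57) (nat_lit 5) (nat_lit 55) (nat_lit 5) (nat_lit 385) (nat_lit 374) (nat_lit 261))) (XT.nd (nat_lit 78) (nat_lit 152) (nat_lit 0) (XT.lf (nat_lit 0) (nat_lit 103908034420) (nat_lit 152) (nat_lit 687085260925) (nat_lit 228) (nat_lit 422986396628) (nat_lit 50)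 (nat_lit 5) (nat_lit 52) (nat_lit 5) (nat_lit 53) (nat_lit 5) (nat_lit 386) (nat_lit 374) (nat_lit 260)) (XT.lf (nat_lit 0) (nat_lit 89006579183) (nat_lit 152) (nat_lit 1080631124003) (nat_lit 76) (nat_lit 155350790022) (nat_lit 48) (nat_lit 5) (nat_lit 50) (nat_lit 5) (nat_lit 49) (nat_lit 5) (nat_lit 387) (nat_lit 374) (nat_lit 259)))) (XT.nd (nat_lit 156) (nat_lit 456) (nat_lit 0) (XT.nd (nat_lit 78) (nat_lit 76) (nat_lit 0) (XT.lf (nat_lit 0) (nat_lit 407977547654) (nat_lit 152) (nat_lit 307460442701) (nat_lit 228) (nat_lit 731316891197) (nat_lit 46) (nat_lit 5) (nat_lit 48) (nat_lit 5) (nat_lit 49) (nat_lit 5) (nat_lit 388) (nat_lit 374) (nat_lit 258)) (XT.lf (nat_lit 0) (nat_lit 614520249694) (nat_lit 76) (nat_lit 884822916482) (nat_lit 152) (nat_lit 82362337735) (nat_lit 45) (nat_lit 5) (nat_lit 46) (nat_lit 5) (nat_lit 47) (nat_lit 4) (nat_lit 389) (nat_lit 374) (nat_lit 257))) (XT.nd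 (nat_lit 78) (nat_lit 228) (nat_lit 0) (XT.lf (nat_lit 0) (nat_lit 695103780054) (nat_lit 228) (nat_lit 872807805820) (nat_lit 76) (nat_lit 162559231256) (nat_lit 42) (nat_lit 5) (nat_lit 45) (nat_lit 5) (nat_lit 43) (nat_lit 4) (nat_lit 390) (nat_lit 374) (nat_lit 256)) (XT.nd (nat_lit 78) (nat_lit 152) (nat_lit 0) (XT.lf (nat_lit 0) (nat_lit 1145322353137) (nat_lit 76) (nat_lit 520036321036) (nat_lit 152) (nat_lit 229537460388) (nat_lit 41) (nat_lit 5) (nat_lit 42) (nat_lit 5) (nat_lit 43) (nat_lit 4) (nat_lit 391) (nat_lit 374) (nat_lit 255)) (XT.lf (nat_lit 0) (nat_lit 742823697560) (nat_lit 152) (nat_lit 601800512075) (nat_lit 76) (nat_lit 731577111044) (nat_lit 39) (nat_lit 5) (nat_lit 41) (nat_lit 5) (nat_lit 40) (nat_lit 4) (nat_lit 392) (nat_lit 374) (nat_lit 254)))))) (XT.nd (nat_lit 312) (nat_lit 532) (nat_lit 0) (XT.nd (nat_lit 156) (nat_lit 304) (nat_lit 0) (XT.nd (nat_lit 78)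 (nat_lit 152) (nat_lit 0) (XT.lf (nat_lit 0) (nat_lit 1866477599473) (nat_lit 76) (nat_lit 63018274105) (nat_lit 152) (nat_lit 348165608301) (nat_lit 38) (nat_lit 5) (nat_lit 39) (nat_lit 5) (nat_lit 40) (nat_lit 4) (nat_lit 393) (nat_lit 374) (nat_lit 253)) (XT.lf (nat_lit 0) (nat_lit 855942338243) (nat_lit 152) (nat_lit 207486075565) (nat_lit 76) (nat_lit 1435572289263) (nat_lit 36) (nat_lit 5) (nat_lit 38) (nat_lit 5) (nat_lit 37) (nat_lit 4) (nat_lit 394) (nat_lit 374) (nat_lit 252))) (XT.nd (nat_lit 78) (nat_lit 152) (nat_lit 0) (XT.lf (nat_lit 0) (nat_lit 44306746546) (nat_lit 76) (nat_lit 2270754058446) (nat_lit 76) (nat_lit 430155772046) (nat_lit 34) (nat_lit 4) (nat_lit 35) (nat_lit 5) (nat_lit 35) (nat_lit 4) (nat_lit 395) (nat_lit 374) (nat_lit 251)) (XT.lf (nat_lit 0) (nat_lit 325079857387) (nat_lit 76) (nat_lit 716111561843) (nat_lit 152) (nat_lit 1975336040789) (nat_lit 32)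 (nat_lit 5) (nat_lit 33) (nat_lit 5) (nat_lit 34) (nat_lit 4) (nat_lit 396) (nat_lit 374) (nat_lit 250)))) (XT.nd (nat_lit 156) (nat_lit 304) (nat_lit 0) (XT.nd (nat_lit 78) (nat_lit 152) (nat_lit 0) (XT.lf (nat_lit 0) (nat_lit 638508855487) (nat_lit 76) (nat_lit 2191793712279) (nat_lit 76) (nat_lit 487536025468) (nat_lit 31) (nat_lit 4) (nat_lit 32) (nat_lit 5) (nat_lit 32) (nat_lit 4) (nat_lit 397) (nat_lit 374) (nat_lit 249)) (XT.lf (nat_lit 0) (nat_lit 970132090997) (nat_lit 76) (nat_lit 315632228021) (nat_lit 152) (nat_lit 2366345672053) (nat_lit 29) (nat_lit 5) (nat_lit 30) (nat_lit 5) (nat_lit 31) (nat_lit 4) (nat_lit 398) (nat_lit 374) (nat_lit 248))) (XT.nd (nat_lit 78) (nat_lit 228) (nat_lit 0) (XT.lf (nat_lit 0) (nat_lit 1304427138762) (nat_lit 76) (nat_lit 2148288213864) (nat_lit 76) (nat_lit 570271827233) (nat_lit 28) (nat_lit 4) (nat_lit 29) (nat_lit 5) (nat_lit 29) (nat_lit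 4) (nat_lit 399) (nat_lit 374) (nat_lit 247)) (XT.nd (nat_lit 78) (nat_lit 76) (nat_lit 0) (XT.lf (nat_lit 0) (nat_lit 1551058899310) (nat_lit 152) (nat_lit 2795176249548) (nat_lit 0) (nat_lit 89932611665) (nat_lit 26) (nat_lit 5) (nat_lit 28) (nat_lit 4) (nat_lit 26) (nat_lit 4) (nat_lit 400) (nat_lit 374) (nat_lit 246)) (XT.lf (nat_lit 0) (nat_lit 1933591557019) (nat_lit 76) (nat_lit 2211314268983) (nat_lit 76) (nat_lit 750187978096) (nat_lit 25) (nat_lit 4) (nat_lit 26) (nat_lit 5) (nat_lit 26) (nat_lit 4) (nat_lit 401) (nat_lit 374) (nat_lit 245))))))))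
noncomputable def xc105 : XT := (XT.nd (nat_lit 51090) (nat_lit 0) (nat_lit 2508) (XT.nd (nat_lit 702) (nat_lit 608) (nat_lit 0) (XT.nd (nat_lit 312) (nat_lit 456) (nat_lit 0) (XT.nd (nat_lit 156) (nat_lit 228) (nat_lit 0) (XT.nd (nat_lit 78) (nat_lit 76) (nat_lit 0) (XT.lf (nat_lit 0) (nat_lit 1766336192249) (nat_lit 152) (nat_lit 3228068341651) (nat_lit 0) (nat_lit 413441475855) (nat_lit 23) (nat_lit 5) (nat_lit 25) (nat_lit 4) (nat_lit 23) (nat_lit 4) (nat_lit 402) (nat_lit 374) (nat_lit 244)) (XT.lf (nat_lit 0) (nat_lit 2312509514313) (nat_lit 76) (nat_lit 2509908757871) (nat_lit 76) (nat_lit 1157014039207) (nat_lit 22) (nat_lit 4) (nat_lit 23) (nat_lit 5) (nat_lit 23) (nat_lit 4) (nat_lit 403) (nat_lit 374) (nat_lit 243))) (XT.nd (nat_lit 78) (nat_lit 76) (nat_lit 0) (XT.lf (nat_lit 0) (nat_lit 1780775367017) (nat_lit 152) (nat_lit 4311361581084) (nat_lit 0) (nat_lit 528095070131) (nat_lit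 20) (nat_lit 5) (nat_lit 22) (nat_lit 4) (nat_lit 20) (nat_lit 4) (nat_lit 404) (nat_lit 374) (nat_lit 242)) (XT.lf (nat_lit 0) (nat_lit 2052987104673) (nat_lit 76) (nat_lit 3268009483100) (nat_lit 76) (nat_lit 2015329184624) (nat_lit 19) (nat_lit 4) (nat_lit 20) (nat_lit 5) (nat_lit 20) (nat_lit 4) (nat_lit 405) (nat_lit 374) (nat_lit 241)))) (XT.nd (nat_lit 156) (nat_lit 228) (nat_lit 0) (XT.nd (nat_lit 78) (nat_lit 76) (nat_lit 0) (XT.lf (nat_lit 0) (nat_lit 1340847496927) (nat_lit 152) (nat_lit 6622050140535) (nat_lit 0) (nat_lit 180958330393) (nat_lit 17) (nat_lit 5) (nat_lit 19) (nat_lit 4) (nat_lit 17) (nat_lit 4) (nat_lit 406) (nat_lit 374) (nat_lit 240)) (XT.lf (nat_lit 0) (nat_lit 481417816215) (nat_lit 76) (nat_lit 4862872874057) (nat_lit 76) (nat_lit 3702983706410) (nat_lit 16) (nat_lit 4) (nat_lit 17) (nat_lit 5) (nat_lit 17) (nat_lit 4) (nat_lit 407) (nat_lit 374) (nat_lit 239)))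 (XT.nd (nat_lit 78) (nat_lit 152) (nat_lit 0) (XT.lf (nat_lit 0) (nat_lit 66747342006) (nat_lit 152) (nat_lit 1021054697241) (nat_lit 76) (nat_lit 8982844857508) (nat_lit 15) (nat_lit 5) (nat_lit 17) (nat_lit 5) (nat_lit 16) (nat_lit 4) (nat_lit 408) (nat_lit 374) (nat_lit 238)) (XT.nd (nat_lit 78) (nat_lit 76) (nat_lit 0) (XT.lf (nat_lit 0) (nat_lit 4466004833690) (nat_lit 152) (nat_lit 3359126566555) (nat_lit 0) (nat_lit 3392033380490) (nat_lit 14) (nat_lit 5) (nat_lit 16) (nat_lit 4) (nat_lit 14) (nat_lit 4) (nat_lit 409) (nat_lit 374) (nat_lit 237)) (XT.lf (nat_lit 0) (nat_lit 5859818643941) (nat_lit 76) (nat_lit 3866846029646) (nat_lit 76) (nat_lit 2792874575769) (nat_lit 13) (nat_lit 4) (nat_lit 14) (nat_lit 5) (nat_lit 14) (nat_lit 4) (nat_lit 410) (nat_lit 374) (nat_lit 236)))))) (XT.nd (nat_lit 312) (nat_lit 228) (nat_lit 0) (XT.nd (nat_lit 156) (nat_lit 228) (nat_lit 0) (XT.nd (nat_lit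 78) (nat_lit 0) (nat_lit 0) (XT.lf (nat_lit 0) (nat_lit 1859486044966) (nat_lit 152) (nat_lit 11274264602298) (nat_lit 0) (nat_lit 865068031572) (nat_lit 11) (nat_lit 5) (nat_lit 13) (nat_lit 4) (nat_lit 11) (nat_lit 4) (nat_lit 411) (nat_lit 374) (nat_lit 235)) (XT.lf (nat_lit 0) (nat_lit 7354907341593) (nat_lit 152) (nat_lit 1953943903761) (nat_lit 0) (nat_lit 6360489327725) (nat_lit 11) (nat_lit 5) (nat_lit 13) (nat_lit 4) (nat_lit 11) (nat_lit 4) (nat_lit 412) (nat_lit 374) (nat_lit 234))) (XT.nd (nat_lit 78) (nat_lit 152) (nat_lit 0) (XT.lf (nat_lit 0) (nat_lit 9225943972539) (nat_lit 76) (nat_lit 4670582029816) (nat_lit 76) (nat_lit 3676164015535) (nat_lit 10) (nat_lit 4) (nat_lit 11) (nat_lit 5) (nat_lit 11) (nat_lit 4) (nat_lit 413) (nat_lit 374) (nat_lit 233)) (XT.lf (nat_lit 0) (nat_lit 1714195408498) (nat_lit 152) (nat_lit 17239576227213) (nat_lit 0) (nat_lit 793437987535) (nat_lit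 8) (nat_lit 5) (nat_lit 10) (nat_lit 4) (nat_lit 8) (nat_lit 4) (nat_lit 414) (nat_lit 374) (nat_lit 232)))) (XT.nd (nat_lit 156) (nat_lit 152) (nat_lit 0) (XT.nd (nat_lit 78) (nat_lit 76) (nat_lit 0) (XT.lf (nat_lit 0) (nat_lit 8080122777458) (nat_lit 152) (nat_lit 6970005536240) (nat_lit 0) (nat_lit 7159365356207) (nat_lit 8) (nat_lit 5) (nat_lit 10) (nat_lit 4) (nat_lit 8) (nat_lit 4) (nat_lit 415) (nat_lit 374) (nat_lit 231)) (XT.lf (nat_lit 0) (nat_lit 5094866613164) (nat_lit 76) (nat_lit 10428604299513) (nat_lit 76) (nat_lit 9507846878011) (nat_lit 7) (nat_lit 4) (nat_lit 8) (nat_lit 5) (nat_lit 8) (nat_lit 4) (nat_lit 416) (nat_lit 374) (nat_lit 230))) (XT.nd (nat_lit 78) (nat_lit 152) (nat_lit 0) (XT.lf (nat_lit 0) (nat_lit 19391551938657) (nat_lit 76) (nat_lit 4894693537988) (nat_lit 76) (nat_lit 3973936116268) (nat_lit 7) (nat_lit 4) (nat_lit 8) (nat_lit 5) (nat_lit 8) (nat_lit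 4) (nat_lit 417) (nat_lit 374) (nat_lit 229)) (XT.nd (nat_lit 49764) (nat_lit 0) (nat_lit 5776) (XT.lf (nat_lit 0) (nat_lit 2406080754414) (nat_lit 152) (nat_lit 27998321739522) (nat_lit 0) (nat_lit 1553527585978) (nat_lit 5) (nat_lit 5) (nat_lit 7) (nat_lit 4) (nat_lit 5) (nat_lit 4) (nat_lit 418) (nat_lit 374) (nat_lit 228)) (XT.lf (nat_lit 0) (nat_lit 262110980175) (nat_lit 532) (nat_lit 4149252936) (nat_lit 532) (nat_lit 4149252936) (nat_lit 81) (nat_lit 3) (nat_lit 88) (nat_lit 3) (nat_lit 88) (nat_lit 5) (nat_lit 375) (nat_lit 375) (nat_lit 270))))))) (XT.nd (nat_lit 702) (nat_lit 1596) (nat_lit 0) (XT.nd (nat_lit 312) (nat_lit 1216) (nat_lit 0) (XT.nd (nat_lit 156) (nat_lit 0) (nat_lit 76) (XT.nd (nat_lit 78) (nat_lit 456) (nat_lit 0) (XT.lf (nat_lit 76) (nat_lit 520714506460) (nat_lit 0) (nat_lit 55347677211) (nat_lit 532) (nat_lit 4316325128) (nat_lit 82) (nat_lit 5) (nat_lit 81)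 (nat_lit 3) (nat_lit 88) (nat_lit 5) (nat_lit 376) (nat_lit 375) (nat_lit 269)) (XT.lf (nat_lit 0) (nat_lit 34520173452) (nat_lit 532) (nat_lit 107023577568) (nat_lit 608) (nat_lit 482293015903) (nat_lit 75) (nat_lit 5) (nat_lit 82) (nat_lit 5) (nat_lit 83) (nat_lit 5) (nat_lit 377) (nat_lit 375) (nat_lit 268))) (XT.nd (nat_lit 78) (nat_lit 0) (nat_lit 76) (XT.lf (nat_lit 0) (nat_lit 105681155827) (nat_lit 532) (nat_lit 148328306918) (nat_lit 608) (nat_lit 417654965359) (nat_lit 76) (nat_lit 5) (nat_lit 83) (nat_lit 5) (nat_lit 84) (nat_lit 5) (nat_lit 378) (nat_lit 375) (nat_lit 267)) (XT.lf (nat_lit 0) (nat_lit 216175501709) (nat_lit 532) (nat_lit 181381479991) (nat_lit 76) (nat_lit 326816519483) (nat_lit 77) (nat_lit 5) (nat_lit 84) (nat_lit 5) (nat_lit 78) (nat_lit 5) (nat_lit 379) (nat_lit 375) (nat_lit 266)))) (XT.nd (nat_lit 156) (nat_lit 684) (nat_lit 0) (XT.nd (nat_lit 78) (nat_lit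 228) (nat_lit 0) (XT.lf (nat_lit 0) (nat_lit 373943213085) (nat_lit 532) (nat_lit 203687168628) (nat_lit 76) (nat_lit 204902616432) (nat_lit 71) (nat_lit 5) (nat_lit 78) (nat_lit 5) (nat_lit 72) (nat_lit 5) (nat_lit 380) (nat_lit 375) (nat_lit 265)) (XT.lf (nat_lit 0) (nat_lit 588250574137) (nat_lit 304) (nat_lit 212282862311) (nat_lit 76) (nat_lit 46253023776) (nat_lit 68) (nat_lit 5) (nat_lit 72) (nat_lit 5) (nat_lit 69) (nat_lit 5) (nat_lit 381) (nat_lit 375) (nat_lit 264))) (XT.nd (nat_lit 78) (nat_lit 456) (nat_lit 0) (XT.lf (nat_lit 0) (nat_lit 709938207164) (nat_lit 228) (nat_lit 163899815435) (nat_lit 304) (nat_lit 43709200364) (nat_lit 65) (nat_lit 5) (nat_lit 68) (nat_lit 5) (nat_lit 69) (nat_lit 5) (nat_lit 382) (nat_lit 375) (nat_lit 263)) (XT.nd (nat_lit 78) (nat_lit 228) (nat_lit 0) (XT.lf (nat_lit 0) (nat_lit 233724382586) (nat_lit 228) (nat_lit 189979021299) (nat_lit 76) (nat_lit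 571583078088) (nat_lit 62) (nat_lit 5) (nat_lit 65) (nat_lit 5) (nat_lit 63) (nat_lit 5) (nat_lit 383) (nat_lit 375) (nat_lit 262)) (XT.lf (nat_lit 0) (nat_lit 592154006932) (nat_lit 304) (nat_lit 150850295604) (nat_lit 76) (nat_lit 338233976881) (nat_lit 59) (nat_lit 5) (nat_lit 63) (nat_lit 5) (nat_lit 60) (nat_lit 5) (nat_lit 384) (nat_lit 375) (nat_lit 261)))))) (XT.nd (nat_lit 390) (nat_lit 608) (nat_lit 0) (XT.nd (nat_lit 156) (nat_lit 608) (nat_lit 0) (XT.nd (nat_lit 78) (nat_lit 228) (nat_lit 0) (XT.lf (nat_lit 0) (nat_lit 1049134009674) (nat_lit 228) (nat_lit 84167170615) (nat_lit 76) (nat_lit 43198791416) (nat_lit 57) (nat_lit 5) (nat_lit 60) (nat_lit 5) (nat_lit 58) (nat_lit 5) (nat_lit 385) (nat_lit 375) (nat_lit 260)) (XT.lf (nat_lit 0) (nat_lit 331691076080) (nat_lit 228) (nat_lit 704168244) (nat_lit 76) (nat_lit 948498912983) (nat_lit 54) (nat_lit 5) (nat_lit 57) (nat_lit 5)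 (nat_lit 55) (nat_lit 5) (nat_lit 386) (nat_lit 375) (nat_lit 259))) (XT.nd (nat_lit 78) (nat_lit 304) (nat_lit 0) (XT.lf (nat_lit 0) (nat_lit 119494689338) (nat_lit 152) (nat_lit 790147883118) (nat_lit 228) (nat_lit 486434050649) (nat_lit 50) (nat_lit 5) (nat_lit 52) (nat_lit 5) (nat_lit 53) (nat_lit 5) (nat_lit 387) (nat_lit 375) (nat_lit 258)) (XT.nd (nat_lit 78) (nat_lit 152) (nat_lit 0) (XT.lf (nat_lit 0) (nat_lit 102357832562) (nat_lit 152) (nat_lit 1242725349784) (nat_lit 76) (nat_lit 178653563492) (nat_lit 48) (nat_lit 5) (nat_lit 50) (nat_lit 5) (nat_lit 49) (nat_lit 5) (nat_lit 388) (nat_lit 375) (nat_lit 257)) (XT.lf (nat_lit 0) (nat_lit 469174585139) (nat_lit 152) (nat_lit 353579345258) (nat_lit 228) (nat_lit 841014164041) (nat_lit 46) (nat_lit 5) (nat_lit 48) (nat_lit 5) (nat_lit 49) (nat_lit 5) (nat_lit 389) (nat_lit 375) (nat_lit 256))))) (XT.nd (nat_lit 156) (nat_lit 304)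 (nat_lit 0) (XT.nd (nat_lit 78) (nat_lit 228) (nat_lit 0) (XT.lf (nat_lit 0) (nat_lit 706698672277) (nat_lit 76) (nat_lit 1017546191506) (nat_lit 152) (nat_lit 94716447878) (nat_lit 45) (nat_lit 5) (nat_lit 46) (nat_lit 5) (nat_lit 47) (nat_lit 4) (nat_lit 390) (nat_lit 375) (nat_lit 255)) (XT.lf (nat_lit 0) (nat_lit 799369558244) (nat_lit 228) (nat_lit 1003728600274) (nat_lit 76) (nat_lit 186943264269) (nat_lit 42) (nat_lit 5) (nat_lit 45) (nat_lit 5) (nat_lit 43) (nat_lit 4) (nat_lit 391) (nat_lit 375) (nat_lit 254))) (XT.nd (nat_lit 78) (nat_lit 228) (nat_lit 0) (XT.lf (nat_lit 0) (nat_lit 1317121050665) (nat_lit 76) (nat_lit 598041616557) (nat_lit 152) (nat_lit 263967872154) (nat_lit 41) (nat_lit 5) (nat_lit 42) (nat_lit 5) (nat_lit 43) (nat_lit 4) (nat_lit 392) (nat_lit 375) (nat_lit 253)) (XT.nd (nat_lit 78) (nat_lit 76) (nat_lit 0) (XT.lf (nat_lit 0) (nat_lit 854247434753) (nat_lit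 152) (nat_lit 692070253158) (nat_lit 76) (nat_lit 841313816251) (nat_lit 39) (nat_lit 5) (nat_lit 41) (nat_lit 5) (nat_lit 40) (nat_lit 4) (nat_lit 393) (nat_lit 375) (nat_lit 252)) (XT.lf (nat_lit 0) (nat_lit 2146449546705) (nat_lit 76) (nat_lit 72470874048) (nat_lit 152) (nat_lit 400390270105) (nat_lit 38) (nat_lit 5) (nat_lit 39) (nat_lit 5) (nat_lit 40) (nat_lit 4) (nat_lit 394) (nat_lit 375) (nat_lit 251))))))))
noncomputable def xc106 : XT := (XT.nd (nat_lit 1404) (nat_lit 304) (nat_lit 0) (XT.nd (nat_lit 702) (nat_lit 912) (nat_lit 0) (XT.nd (nat_lit 312) (nat_lit 608) (nat_lit 0) (XT.nd (nat_lit 156) (nat_lit 228) (nat_lit 0) (XT.nd (nat_lit 78) (nat_lit 152) (nat_lit 0) (XT.lf (nat_lit 0) (nat_lit 984333847402) (nat_lit 152) (nat_lit 238608688182) (nat_lit 76) (nat_lit 1650908260264) (nat_lit 36) (nat_lit 5) (nat_lit 38) (nat_lit 5) (nat_lit 37) (nat_lit 4) (nat_lit 395) (nat_lit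 375) (nat_lit 250)) (XT.lf (nat_lit 0) (nat_lit 50953055255) (nat_lit 76) (nat_lit 2611367025063) (nat_lit 76) (nat_lit 494678970902) (nat_lit 34) (nat_lit 4) (nat_lit 35) (nat_lit 5) (nat_lit 35) (nat_lit 4) (nat_lit 396) (nat_lit 375) (nat_lit 249))) (XT.nd (nat_lit 78) (nat_lit 76) (nat_lit 0) (XT.lf (nat_lit 0) (nat_lit 373842115257) (nat_lit 76) (nat_lit 823528161487) (nat_lit 152) (nat_lit 2271636290702) (nat_lit 32) (nat_lit 5) (nat_lit 33) (nat_lit 5) (nat_lit 34) (nat_lit 4) (nat_lit 397) (nat_lit 375) (nat_lit 248)) (XT.lf (nat_lit 0) (nat_lit 734285447067) (nat_lit 76) (nat_lit 2520562640775) (nat_lit 76) (nat_lit 560666283579) (nat_lit 31) (nat_lit 4) (nat_lit 32) (nat_lit 5) (nat_lit 32) (nat_lit 4) (nat_lit 398) (nat_lit 375) (nat_lit 247)))) (XT.nd (nat_lit 156) (nat_lit 380) (nat_lit 0) (XT.nd (nat_lit 78) (nat_lit 76) (nat_lit 0) (XT.lf (nat_lit 0) (nat_lit 1115652152296)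 (nat_lit 76) (nat_lit 362976940895) (nat_lit 152) (nat_lit 2721297386430) (nat_lit 29) (nat_lit 5) (nat_lit 30) (nat_lit 5) (nat_lit 31) (nat_lit 4) (nat_lit 399) (nat_lit 375) (nat_lit 246)) (XT.lf (nat_lit 0) (nat_lit 1500091442847) (nat_lit 76) (nat_lit 2470531330664) (nat_lit 76) (nat_lit 655812473882) (nat_lit 28) (nat_lit 4) (nat_lit 29) (nat_lit 5) (nat_lit 29) (nat_lit 4) (nat_lit 400) (nat_lit 375) (nat_lit 245))) (XT.nd (nat_lit 78) (nat_lit 228) (nat_lit 0) (XT.lf (nat_lit 0) (nat_lit 1783717847370) (nat_lit 152) (nat_lit 3214452461386) (nat_lit 0) (nat_lit 103422606790) (nat_lit 26) (nat_lit 5) (nat_lit 28) (nat_lit 4) (nat_lit 26) (nat_lit 4) (nat_lit 401) (nat_lit 375) (nat_lit 244)) (XT.nd (nat_lit 78) (nat_lit 152) (nat_lit 0) (XT.lf (nat_lit 0) (nat_lit 2223630497071) (nat_lit 76) (nat_lit 2543011306201) (nat_lit 76) (nat_lit 862716063170) (nat_lit 25) (nat_lit 4) (nat_lit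 26) (nat_lit 5) (nat_lit 26) (nat_lit 4) (nat_lit 402) (nat_lit 375) (nat_lit 243)) (XT.lf (nat_lit 0) (nat_lit 2031286720318) (nat_lit 152) (nat_lit 3712278393350) (nat_lit 0) (nat_lit 475457789611) (nat_lit 23) (nat_lit 5) (nat_lit 25) (nat_lit 4) (nat_lit 23) (nat_lit 4) (nat_lit 403) (nat_lit 375) (nat_lit 242)))))) (XT.nd (nat_lit 312) (nat_lit 456) (nat_lit 0) (XT.nd (nat_lit 156) (nat_lit 228) (nat_lit 0) (XT.nd (nat_lit 78) (nat_lit 152) (nat_lit 0) (XT.lf (nat_lit 0) (nat_lit 2659386124119) (nat_lit 76) (nat_lit 2886394979574) (nat_lit 76) (nat_lit 1330566047152) (nat_lit 22) (nat_lit 4) (nat_lit 23) (nat_lit 5) (nat_lit 23) (nat_lit 4) (nat_lit 404) (nat_lit 375) (nat_lit 241)) (XT.lf (nat_lit 0) (nat_lit 2047891759185) (nat_lit 152) (nat_lit 4958065641844) (nat_lit 0) (nat_lit 607309412968) (nat_lit 20) (nat_lit 5) (nat_lit 22) (nat_lit 4) (nat_lit 20) (nat_lit 4) (nat_lit 405)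 (nat_lit 375) (nat_lit 240))) (XT.nd (nat_lit 78) (nat_lit 152) (nat_lit 0) (XT.lf (nat_lit 0) (nat_lit 2360935331846) (nat_lit 76) (nat_lit 3758210823729) (nat_lit 76) (nat_lit 2317628476310) (nat_lit 19) (nat_lit 4) (nat_lit 20) (nat_lit 5) (nat_lit 20) (nat_lit 4) (nat_lit 406) (nat_lit 375) (nat_lit 239)) (XT.lf (nat_lit 0) (nat_lit 1541974698017) (nat_lit 152) (nat_lit 7615357505749) (nat_lit 0) (nat_lit 208102153143) (nat_lit 17) (nat_lit 5) (nat_lit 19) (nat_lit 4) (nat_lit 17) (nat_lit 4) (nat_lit 407) (nat_lit 375) (nat_lit 238)))) (XT.nd (nat_lit 156) (nat_lit 304) (nat_lit 0) (XT.nd (nat_lit 78) (nat_lit 76) (nat_lit 0) (XT.lf (nat_lit 0) (nat_lit 553630631321) (nat_lit 76) (nat_lit 5592303732489) (nat_lit 76) (nat_lit 4258431186774) (nat_lit 16) (nat_lit 4) (nat_lit 17) (nat_lit 5) (nat_lit 17) (nat_lit 4) (nat_lit 408) (nat_lit 375) (nat_lit 237)) (XT.lf (nat_lit 0) (nat_lit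 76759505755) (nat_lit 152) (nat_lit 1174212774473) (nat_lit 76) (nat_lit 10330271646042) (nat_lit 15) (nat_lit 5) (nat_lit 17) (nat_lit 5) (nat_lit 16) (nat_lit 4) (nat_lit 409) (nat_lit 375) (nat_lit 236))) (XT.nd (nat_lit 78) (nat_lit 228) (nat_lit 0) (XT.lf (nat_lit 0) (nat_lit 5135905617280) (nat_lit 152) (nat_lit 3862995431826) (nat_lit 0) (nat_lit 3900838444056) (nat_lit 14) (nat_lit 5) (nat_lit 16) (nat_lit 4) (nat_lit 14) (nat_lit 4) (nat_lit 410) (nat_lit 375) (nat_lit 235)) (XT.nd (nat_lit 78) (nat_lit 152) (nat_lit 0) (XT.lf (nat_lit 0) (nat_lit 6738791550111) (nat_lit 76) (nat_lit 4446872878051) (nat_lit 76) (nat_lit 3211805704314) (nat_lit 13) (nat_lit 4) (nat_lit 14) (nat_lit 5) (nat_lit 14) (nat_lit 4) (nat_lit 411) (nat_lit 375) (nat_lit 234)) (XT.lf (nat_lit 0) (nat_lit 2138409003218) (nat_lit 152) (nat_lit 12965404186939) (nat_lit 0) (nat_lit 994828286383) (nat_lit 11) (nat_lit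 5) (nat_lit 13) (nat_lit 4) (nat_lit 11) (nat_lit 4) (nat_lit 412) (nat_lit 375) (nat_lit 233))))))) (XT.nd (nat_lit 50466) (nat_lit 0) (nat_lit 3268) (XT.nd (nat_lit 312) (nat_lit 76) (nat_lit 0) (XT.nd (nat_lit 156) (nat_lit 152) (nat_lit 0) (XT.nd (nat_lit 78) (nat_lit 76) (nat_lit 0) (XT.lf (nat_lit 0) (nat_lit 8458143487622) (nat_lit 152) (nat_lit 2247035397409) (nat_lit 0) (nat_lit 7314562770428) (nat_lit 11) (nat_lit 5) (nat_lit 13) (nat_lit 4) (nat_lit 11) (nat_lit 4) (nat_lit 413) (nat_lit 375) (nat_lit 232)) (XT.lf (nat_lit 0) (nat_lit 10609835652557) (nat_lit 76) (nat_lit 5371169291122) (nat_lit 76) (nat_lit 4227588573617) (nat_lit 10) (nat_lit 4) (nat_lit 11) (nat_lit 5) (nat_lit 11) (nat_lit 4) (nat_lit 414) (nat_lit 375) (nat_lit 231))) (XT.nd (nat_lit 78) (nat_lit 0) (nat_lit 0) (XT.lf (nat_lit 0) (nat_lit 1971324759202) (nat_lit 152) (nat_lit 19825512580153) (nat_lit 0) (nat_lit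 912453724223) (nat_lit 8) (nat_lit 5) (nat_lit 10) (nat_lit 4) (nat_lit 8) (nat_lit 4) (nat_lit 415) (nat_lit 375) (nat_lit 230)) (XT.lf (nat_lit 0) (nat_lit 9292141228363) (nat_lit 152) (nat_lit 8015506296119) (nat_lit 0) (nat_lit 8233270193166) (nat_lit 8) (nat_lit 5) (nat_lit 10) (nat_lit 4) (nat_lit 8) (nat_lit 4) (nat_lit 416) (nat_lit 375) (nat_lit 229)))) (XT.nd (nat_lit 49920) (nat_lit 0) (nat_lit 5168) (XT.nd (nat_lit 78) (nat_lit 0) (nat_lit 0) (XT.lf (nat_lit 0) (nat_lit 5859096669724) (nat_lit 76) (nat_lit 11992894911222) (nat_lit 76) (nat_lit 10934023875836) (nat_lit 7) (nat_lit 4) (nat_lit 8) (nat_lit 5) (nat_lit 8) (nat_lit 4) (nat_lit 417) (nat_lit 375) (nat_lit 228)) (XT.lf (nat_lit 0) (nat_lit 22300284785617) (nat_lit 76) (nat_lit 5628897539802) (nat_lit 76) (nat_lit 4570026504250) (nat_lit 7) (nat_lit 4) (nat_lit 8) (nat_lit 5) (nat_lit 8) (nat_lit 4) (nat_lit 418) (nat_lit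 375) (nat_lit 227))) (XT.nd (nat_lit 78) (nat_lit 456) (nat_lit 0) (XT.lf (nat_lit 0) (nat_lit 301427991362) (nat_lit 532) (nat_lit 4771444182) (nat_lit 532) (nat_lit 4771444182) (nat_lit 81) (nat_lit 3) (nat_lit 88) (nat_lit 3) (nat_lit 88) (nat_lit 5) (nat_lit 376) (nat_lit 376) (nat_lit 268)) (XT.nd (nat_lit 78) (nat_lit 456) (nat_lit 0) (XT.lf (nat_lit 76) (nat_lit 598822042520) (nat_lit 0) (nat_lit 63650110683) (nat_lit 532) (nat_lit 4963080387) (nat_lit 82) (nat_lit 5) (nat_lit 81) (nat_lit 3) (nat_lit 88) (nat_lit 5) (nat_lit 377) (nat_lit 376) (nat_lit 267)) (XT.lf (nat_lit 0) (nat_lit 39698775756) (nat_lit 532) (nat_lit 123076700738) (nat_lit 608) (nat_lit 554636759229) (nat_lit 75) (nat_lit 5) (nat_lit 82) (nat_lit 5) (nat_lit 83) (nat_lit 5) (nat_lit 378) (nat_lit 376) (nat_lit 266)))))) (XT.nd (nat_lit 390) (nat_lit 1140) (nat_lit 0) (XT.nd (nat_lit 156) (nat_lit 836) (nat_lit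 0) (XT.nd (nat_lit 78) (nat_lit 0) (nat_lit 76) (XT.lf (nat_lit 0) (nat_lit 121533836254) (nat_lit 532) (nat_lit 170577130382) (nat_lit 608) (nat_lit 480303085001) (nat_lit 76) (nat_lit 5) (nat_lit 83) (nat_lit 5) (nat_lit 84) (nat_lit 5) (nat_lit 379) (nat_lit 376) (nat_lit 265)) (XT.lf (nat_lit 0) (nat_lit 248602275657) (nat_lit 532) (nat_lit 208588277540) (nat_lit 76) (nat_lit 375838937165) (nat_lit 77) (nat_lit 5) (nat_lit 84) (nat_lit 5) (nat_lit 78) (nat_lit 5) (nat_lit 380) (nat_lit 376) (nat_lit 264))) (XT.nd (nat_lit 78) (nat_lit 456) (nat_lit 0) (XT.lf (nat_lit 0) (nat_lit 430035094295) (nat_lit 532) (nat_lit 234239823085) (nat_lit 76) (nat_lit 235637998458) (nat_lit 71) (nat_lit 5) (nat_lit 78) (nat_lit 5) (nat_lit 72) (nat_lit 5) (nat_lit 381) (nat_lit 376) (nat_lit 263)) (XT.nd (nat_lit 78) (nat_lit 228) (nat_lit 0) (XT.lf (nat_lit 0) (nat_lit 676488517386) (nat_lit 304) (nat_lit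 244124878542) (nat_lit 76) (nat_lit 53191004682) (nat_lit 68) (nat_lit 5) (nat_lit 72) (nat_lit 5) (nat_lit 69) (nat_lit 5) (nat_lit 382) (nat_lit 376) (nat_lit 262)) (XT.lf (nat_lit 0) (nat_lit 816429316386) (nat_lit 228) (nat_lit 188484729243) (nat_lit 304) (nat_lit 50265235139) (nat_lit 65) (nat_lit 5) (nat_lit 68) (nat_lit 5) (nat_lit 69) (nat_lit 5) (nat_lit 383) (nat_lit 376) (nat_lit 261))))) (XT.nd (nat_lit 156) (nat_lit 684) (nat_lit 0) (XT.nd (nat_lit 78) (nat_lit 228) (nat_lit 0) (XT.lf (nat_lit 0) (nat_lit 268783335541) (nat_lit 228) (nat_lit 218475490555) (nat_lit 76) (nat_lit 657320604473) (nat_lit 62) (nat_lit 5) (nat_lit 65) (nat_lit 5) (nat_lit 63) (nat_lit 5) (nat_lit 384) (nat_lit 376) (nat_lit 260)) (XT.lf (nat_lit 0) (nat_lit 680977375507) (nat_lit 304) (nat_lit 173477469287) (nat_lit 76) (nat_lit 388969155086) (nat_lit 59) (nat_lit 5) (nat_lit 63) (nat_lit 5) (nat_lit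 60) (nat_lit 5) (nat_lit 385) (nat_lit 376) (nat_lit 259))) (XT.nd (nat_lit 78) (nat_lit 532) (nat_lit 0) (XT.lf (nat_lit 0) (nat_lit 1206504354293) (nat_lit 228) (nat_lit 96791889987) (nat_lit 76) (nat_lit 49678703686) (nat_lit 57) (nat_lit 5) (nat_lit 60) (nat_lit 5) (nat_lit 58) (nat_lit 5) (nat_lit 386) (nat_lit 376) (nat_lit 258)) (XT.nd (nat_lit 78) (nat_lit 304) (nat_lit 0) (XT.lf (nat_lit 0) (nat_lit 381444962514) (nat_lit 228) (nat_lit 809455530) (nat_lit 76) (nat_lit 1090773844824) (nat_lit 54) (nat_lit 5) (nat_lit 57) (nat_lit 5) (nat_lit 55) (nat_lit 5) (nat_lit 387) (nat_lit 376) (nat_lit 257)) (XT.lf (nat_lit 0) (nat_lit 137419232818) (nat_lit 152) (nat_lit 908669939351) (nat_lit 228) (nat_lit 559398927266) (nat_lit 50) (nat_lit 5) (nat_lit 52) (nat_lit 5) (nat_lit 53) (nat_lit 5) (nat_lit 388) (nat_lit 376) (nat_lit 256))))))))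
noncomputable def xc107 : XT := (XT.nd (nat_lit 1404) (nat_lit 988) (nat_lit 0) (XT.nd (nat_lit 702) (nat_lit 1064) (nat_lit 0) (XT.nd (nat_lit 312) (nat_lit 608) (nat_lit 0) (XT.nd (nat_lit 156) (nat_lit 304) (nat_lit 0) (XT.nd (nat_lit 78) (nat_lit 152) (nat_lit 0) (XT.lf (nat_lit 0) (nat_lit 117711708961) (nat_lit 152) (nat_lit 1429133817417) (nat_lit 76) (nat_lit 205451715193) (nat_lit 48) (nat_lit 5) (nat_lit 50) (nat_lit 5) (nat_lit 49) (nat_lit 5) (nat_lit 389) (nat_lit 376) (nat_lit 255)) (XT.lf (nat_lit 0) (nat_lit 539551079403) (nat_lit 152) (nat_lit 406616123155) (nat_lit 228) (nat_lit 967166091419) (nat_lit 46) (nat_lit 5) (nat_lit 48) (nat_lit 5) (nat_lit 49) (nat_lit 5) (nat_lit 390) (nat_lit 376) (nat_lit 254))) (XT.nd (nat_lit 78) (nat_lit 228) (nat_lit 0) (XT.lf (nat_lit 0) (nat_lit 812703764331) (nat_lit 76) (nat_lit 1170177997397) (nat_lit 152) (nat_lit 108923733194) (nat_lit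 45) (nat_lit 5) (nat_lit 46) (nat_lit 5) (nat_lit 47) (nat_lit 4) (nat_lit 391) (nat_lit 376) (nat_lit 253)) (XT.lf (nat_lit 0) (nat_lit 919275151664) (nat_lit 228) (nat_lit 1154287605687) (nat_lit 76) (nat_lit 214984866064) (nat_lit 42) (nat_lit 5) (nat_lit 45) (nat_lit 5) (nat_lit 43) (nat_lit 4) (nat_lit 392) (nat_lit 376) (nat_lit 252)))) (XT.nd (nat_lit 156) (nat_lit 380) (nat_lit 0) (XT.nd (nat_lit 78) (nat_lit 152) (nat_lit 0) (XT.lf (nat_lit 0) (nat_lit 1514689468800) (nat_lit 76) (nat_lit 687747743626) (nat_lit 152) (nat_lit 303562896233) (nat_lit 41) (nat_lit 5) (nat_lit 42) (nat_lit 5) (nat_lit 43) (nat_lit 4) (nat_lit 393) (nat_lit 376) (nat_lit 251)) (XT.lf (nat_lit 0) (nat_lit 982384688007) (nat_lit 152) (nat_lit 795880537273) (nat_lit 76) (nat_lit 967510993454) (nat_lit 39) (nat_lit 5) (nat_lit 41) (nat_lit 5) (nat_lit 40) (nat_lit 4) (nat_lit 394) (nat_lit 376) (nat_lit 250)))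 (XT.nd (nat_lit 78) (nat_lit 304) (nat_lit 0) (XT.lf (nat_lit 0) (nat_lit 2468417211081) (nat_lit 76) (nat_lit 83341398409) (nat_lit 152) (nat_lit 460448674938) (nat_lit 38) (nat_lit 5) (nat_lit 39) (nat_lit 5) (nat_lit 40) (nat_lit 4) (nat_lit 395) (nat_lit 376) (nat_lit 249)) (XT.nd (nat_lit 78) (nat_lit 152) (nat_lit 0) (XT.lf (nat_lit 0) (nat_lit 1131984044304) (nat_lit 152) (nat_lit 274399765535) (nat_lit 76) (nat_lit 1898544595796) (nat_lit 36) (nat_lit 5) (nat_lit 38) (nat_lit 5) (nat_lit 37) (nat_lit 4) (nat_lit 396) (nat_lit 376) (nat_lit 248)) (XT.lf (nat_lit 0) (nat_lit 58596237911) (nat_lit 76) (nat_lit 3003071971336) (nat_lit 76) (nat_lit 568880690299) (nat_lit 34) (nat_lit 4) (nat_lit 35) (nat_lit 5) (nat_lit 35) (nat_lit 4) (nat_lit 397) (nat_lit 376) (nat_lit 247)))))) (XT.nd (nat_lit 312) (nat_lit 608) (nat_lit 0) (XT.nd (nat_lit 156) (nat_lit 228) (nat_lit 0) (XT.nd (nat_lit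 78) (nat_lit 76) (nat_lit 0) (XT.lf (nat_lit 0) (nat_lit 429918643707) (nat_lit 76) (nat_lit 947057283908) (nat_lit 152) (nat_lit 2612381616194) (nat_lit 32) (nat_lit 5) (nat_lit 33) (nat_lit 5) (nat_lit 34) (nat_lit 4) (nat_lit 398) (nat_lit 376) (nat_lit 246)) (XT.lf (nat_lit 0) (nat_lit 844428463187) (nat_lit 76) (nat_lit 2898646939844) (nat_lit 76) (nat_lit 644766115939) (nat_lit 31) (nat_lit 4) (nat_lit 32) (nat_lit 5) (nat_lit 32) (nat_lit 4) (nat_lit 399) (nat_lit 376) (nat_lit 245))) (XT.nd (nat_lit 78) (nat_lit 76) (nat_lit 0) (XT.lf (nat_lit 0) (nat_lit 1283000162400) (nat_lit 76) (nat_lit 417423390288) (nat_lit 152) (nat_lit 3129491891232) (nat_lit 29) (nat_lit 5) (nat_lit 30) (nat_lit 5) (nat_lit 31) (nat_lit 4) (nat_lit 400) (nat_lit 376) (nat_lit 244)) (XT.lf (nat_lit 0) (nat_lit 1725105335661) (nat_lit 76) (nat_lit 2841110943097) (nat_lit 76) (nat_lit 754184248605) (nat_lit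 28) (nat_lit 4) (nat_lit 29) (nat_lit 5) (nat_lit 29) (nat_lit 4) (nat_lit 401) (nat_lit 376) (nat_lit 243)))) (XT.nd (nat_lit 156) (nat_lit 380) (nat_lit 0) (XT.nd (nat_lit 78) (nat_lit 76) (nat_lit 0) (XT.lf (nat_lit 0) (nat_lit 2051275610043) (nat_lit 152) (nat_lit 3696620160013) (nat_lit 0) (nat_lit 118936075975) (nat_lit 26) (nat_lit 5) (nat_lit 28) (nat_lit 4) (nat_lit 26) (nat_lit 4) (nat_lit 402) (nat_lit 376) (nat_lit 242)) (XT.lf (nat_lit 0) (nat_lit 2557175227774) (nat_lit 76) (nat_lit 2924462924150) (nat_lit 76) (nat_lit 992123388229) (nat_lit 25) (nat_lit 4) (nat_lit 26) (nat_lit 5) (nat_lit 26) (nat_lit 4) (nat_lit 403) (nat_lit 376) (nat_lit 241))) (XT.nd (nat_lit 78) (nat_lit 228) (nat_lit 0) (XT.lf (nat_lit 0) (nat_lit 2335979803398) (nat_lit 152) (nat_lit 4269120001465) (nat_lit 0) (nat_lit 546776527904) (nat_lit 23) (nat_lit 5) (nat_lit 25) (nat_lit 4) (nat_lit 23) (nat_lit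 4) (nat_lit 404) (nat_lit 376) (nat_lit 240)) (XT.nd (nat_lit 78) (nat_lit 152) (nat_lit 0) (XT.lf (nat_lit 0) (nat_lit 3058294180852) (nat_lit 76) (nat_lit 3319354156962) (nat_lit 76) (nat_lit 1530150880170) (nat_lit 22) (nat_lit 4) (nat_lit 23) (nat_lit 5) (nat_lit 23) (nat_lit 4) (nat_lit 405) (nat_lit 376) (nat_lit 239)) (XT.lf (nat_lit 0) (nat_lit 2355075588935) (nat_lit 152) (nat_lit 5701775354735) (nat_lit 0) (nat_lit 698405887157) (nat_lit 20) (nat_lit 5) (nat_lit 22) (nat_lit 4) (nat_lit 20) (nat_lit 4) (nat_lit 406) (nat_lit 376) (nat_lit 238))))))) (XT.nd (nat_lit 702) (nat_lit 228) (nat_lit 0) (XT.nd (nat_lit 312) (nat_lit 380) (nat_lit 0) (XT.nd (nat_lit 156) (nat_lit 152) (nat_lit 0) (XT.nd (nat_lit 78) (nat_lit 152) (nat_lit 0) (XT.lf (nat_lit 0) (nat_lit 2715075753718) (nat_lit 76) (nat_lit 4321942385409) (nat_lit 76) (nat_lit 2665272682722) (nat_lit 19) (nat_lit 4) (nat_lit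 20) (nat_lit 5) (nat_lit 20) (nat_lit 4) (nat_lit 407) (nat_lit 376) (nat_lit 237)) (XT.lf (nat_lit 0) (nat_lit 1773270960603) (nat_lit 152) (nat_lit 8757661013753) (nat_lit 0) (nat_lit 239317531458) (nat_lit 17) (nat_lit 5) (nat_lit 19) (nat_lit 4) (nat_lit 17) (nat_lit 4) (nat_lit 408) (nat_lit 376) (nat_lit 236))) (XT.nd (nat_lit 78) (nat_lit 76) (nat_lit 0) (XT.lf (nat_lit 0) (nat_lit 636675333901) (nat_lit 76) (nat_lit 6431149237409) (nat_lit 76) (nat_lit 4897195807628) (nat_lit 16) (nat_lit 4) (nat_lit 17) (nat_lit 5) (nat_lit 17) (nat_lit 4) (nat_lit 409) (nat_lit 376) (nat_lit 235)) (XT.lf (nat_lit 0) (nat_lit 88273478839) (nat_lit 152) (nat_lit 1350344594347) (nat_lit 76) (nat_lit 11879812438248) (nat_lit 15) (nat_lit 5) (nat_lit 17) (nat_lit 5) (nat_lit 16) (nat_lit 4) (nat_lit 410) (nat_lit 376) (nat_lit 234)))) (XT.nd (nat_lit 156) (nat_lit 228) (nat_lit 0) (XT.nd (nat_lit 78)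 (nat_lit 76) (nat_lit 0) (XT.lf (nat_lit 0) (nat_lit 5906291504135) (nat_lit 152) (nat_lit 4442444656080) (nat_lit 0) (nat_lit 4485964253380) (nat_lit 14) (nat_lit 5) (nat_lit 16) (nat_lit 4) (nat_lit 14) (nat_lit 4) (nat_lit 411) (nat_lit 376) (nat_lit 233)) (XT.lf (nat_lit 0) (nat_lit 7749610365486) (nat_lit 76) (nat_lit 5113903767382) (nat_lit 76) (nat_lit 3693576516241) (nat_lit 13) (nat_lit 4) (nat_lit 14) (nat_lit 5) (nat_lit 14) (nat_lit 4) (nat_lit 412) (nat_lit 376) (nat_lit 232))) (XT.nd (nat_lit 78) (nat_lit 76) (nat_lit 0) (XT.lf (nat_lit 0) (nat_lit 2459170392648) (nat_lit 152) (nat_lit 14910214735052) (nat_lit 0) (nat_lit 1144052567205) (nat_lit 11) (nat_lit 5) (nat_lit 13) (nat_lit 4) (nat_lit 11) (nat_lit 4) (nat_lit 413) (nat_lit 376) (nat_lit 231)) (XT.nd (nat_lit 78) (nat_lit 76) (nat_lit 0) (XT.lf (nat_lit 0) (nat_lit 9726865044632) (nat_lit 152) (nat_lit 2584090637518)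 (nat_lit 0) (nat_lit 8411747218918) (nat_lit 11) (nat_lit 5) (nat_lit 13) (nat_lit 4) (nat_lit 11) (nat_lit 4) (nat_lit 414) (nat_lit 376) (nat_lit 230)) (XT.lf (nat_lit 0) (nat_lit 12201311064059) (nat_lit 76) (nat_lit 6176844652151) (nat_lit 76) (nat_lit 4861726826201) (nat_lit 10) (nat_lit 4) (nat_lit 11) (nat_lit 5) (nat_lit 11) (nat_lit 4) (nat_lit 415) (nat_lit 376) (nat_lit 229)))))) (XT.nd (nat_lit 50232) (nat_lit 0) (nat_lit 4636) (XT.nd (nat_lit 156) (nat_lit 76) (nat_lit 0) (XT.nd (nat_lit 78) (nat_lit 0) (nat_lit 0) (XT.lf (nat_lit 0) (nat_lit 2267023502896) (nat_lit 152) (nat_lit 22799339405822) (nat_lit 0) (nat_lit 1049321812012) (nat_lit 8) (nat_lit 5) (nat_lit 10) (nat_lit 4) (nat_lit 8) (nat_lit 4) (nat_lit 416) (nat_lit 376) (nat_lit 228)) (XT.lf (nat_lit 0) (nat_lit 10685962438543) (nat_lit 152) (nat_lit 9217832187185) (nat_lit 0) (nat_lit 9468260747493) (nat_lit 8) (nat_lit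 5) (nat_lit 10) (nat_lit 4) (nat_lit 8) (nat_lit 4) (nat_lit 417) (nat_lit 376) (nat_lit 227))) (XT.nd (nat_lit 49920) (nat_lit 0) (nat_lit 5624) (XT.lf (nat_lit 0) (nat_lit 6737961219019) (nat_lit 76) (nat_lit 13791829122788) (nat_lit 76) (nat_lit 12574127431596) (nat_lit 7) (nat_lit 4) (nat_lit 8) (nat_lit 5) (nat_lit 8) (nat_lit 4) (nat_lit 418) (nat_lit 376) (nat_lit 226)) (XT.nd (nat_lit 78) (nat_lit 0) (nat_lit 0) (XT.lf (nat_lit 0) (nat_lit 346642465423) (nat_lit 532) (nat_lit 5487012079) (nat_lit 532) (nat_lit 5487012079) (nat_lit 81) (nat_lit 3) (nat_lit 88) (nat_lit 3) (nat_lit 88) (nat_lit 5) (nat_lit 377) (nat_lit 377) (nat_lit 266)) (XT.lf (nat_lit 76) (nat_lit 688645621179) (nat_lit 0) (nat_lit 73197840435) (nat_lit 532) (nat_lit 5707018053) (nat_lit 82) (nat_lit 5) (nat_lit 81) (nat_lit 3) (nat_lit 88) (nat_lit 5) (nat_lit 378) (nat_lit 377) (nat_lit 265))))) (XT.nd (nat_lit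 156) (nat_lit 532) (nat_lit 0) (XT.nd (nat_lit 78) (nat_lit 0) (nat_lit 76) (XT.lf (nat_lit 0) (nat_lit 45654027875) (nat_lit 532) (nat_lit 141537893209) (nat_lit 608) (nat_lit 637832115034) (nat_lit 75) (nat_lit 5) (nat_lit 82) (nat_lit 5) (nat_lit 83) (nat_lit 5) (nat_lit 379) (nat_lit 377) (nat_lit 264)) (XT.lf (nat_lit 0) (nat_lit 139764295096) (nat_lit 532) (nat_lit 196163380414) (nat_lit 608) (nat_lit 552348453111) (nat_lit 76) (nat_lit 5) (nat_lit 83) (nat_lit 5) (nat_lit 84) (nat_lit 5) (nat_lit 380) (nat_lit 377) (nat_lit 263))) (XT.nd (nat_lit 78) (nat_lit 684) (nat_lit 0) (XT.lf (nat_lit 0) (nat_lit 285892956282) (nat_lit 532) (nat_lit 239876198226) (nat_lit 76) (nat_lit 432214732189) (nat_lit 77) (nat_lit 5) (nat_lit 84) (nat_lit 5) (nat_lit 78) (nat_lit 5) (nat_lit 381) (nat_lit 377) (nat_lit 262)) (XT.nd (nat_lit 78) (nat_lit 228) (nat_lit 0) (XT.lf (nat_lit 0) (nat_lit 494540660327)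 (nat_lit 532) (nat_lit 269375478335) (nat_lit 76) (nat_lit 270983690333) (nat_lit 71) (nat_lit 5) (nat_lit 78) (nat_lit 5) (nat_lit 72) (nat_lit 5) (nat_lit 382) (nat_lit 377) (nat_lit 261)) (XT.lf (nat_lit 0) (nat_lit 777962065034) (nat_lit 304) (nat_lit 280743297948) (nat_lit 76) (nat_lit 61169676057) (nat_lit 68) (nat_lit 5) (nat_lit 72) (nat_lit 5) (nat_lit 69) (nat_lit 5) (nat_lit 383) (nat_lit 377) (nat_lit 260))))))))
noncomputable def xc108 : XT := (XT.nd (nat_lit 1404) (nat_lit 1596) (nat_lit 0) (XT.nd (nat_lit 702) (nat_lit 1216) (nat_lit 0) (XT.nd (nat_lit 312) (nat_lit 912) (nat_lit 0) (XT.nd (nat_lit 156) (nat_lit 380) (nat_lit 0) (XT.nd (nat_lit 78) (nat_lit 228) (nat_lit 0) (XT.lf (nat_lit 0) (nat_lit 938893999779) (nat_lit 228) (nat_lit 216757394389) (nat_lit 304) (nat_lit 57804759329) (nat_lit 65) (nat_lit 5) (nat_lit 68) (nat_lit 5) (nat_lit 69) (nat_lit 5) (nat_lit 384)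 (nat_lit 377) (nat_lit 259)) (XT.lf (nat_lit 0) (nat_lit 309101059363) (nat_lit 228) (nat_lit 251246523826) (nat_lit 76) (nat_lit 755918744045) (nat_lit 62) (nat_lit 5) (nat_lit 65) (nat_lit 5) (nat_lit 63) (nat_lit 5) (nat_lit 385) (nat_lit 377) (nat_lit 258))) (XT.nd (nat_lit 78) (nat_lit 152) (nat_lit 0) (XT.lf (nat_lit 0) (nat_lit 783124184128) (nat_lit 304) (nat_lit 199498809410) (nat_lit 76) (nat_lit 447314590105) (nat_lit 59) (nat_lit 5) (nat_lit 63) (nat_lit 5) (nat_lit 60) (nat_lit 5) (nat_lit 386) (nat_lit 377) (nat_lit 257)) (XT.lf (nat_lit 0) (nat_lit 1387480191306) (nat_lit 228) (nat_lit 111310404132) (nat_lit 76) (nat_lit 57130579982) (nat_lit 57) (nat_lit 5) (nat_lit 60) (nat_lit 5) (nat_lit 58) (nat_lit 5) (nat_lit 387) (nat_lit 377) (nat_lit 256)))) (XT.nd (nat_lit 156) (nat_lit 380) (nat_lit 0) (XT.nd (nat_lit 78) (nat_lit 304) (nat_lit 0) (XT.lf (nat_lit 0) (nat_lit 438661877040)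 (nat_lit 228) (nat_lit 930618321) (nat_lit 76) (nat_lit 1254389993301) (nat_lit 54) (nat_lit 5) (nat_lit 57) (nat_lit 5) (nat_lit 55) (nat_lit 5) (nat_lit 388) (nat_lit 377) (nat_lit 255)) (XT.lf (nat_lit 0) (nat_lit 158032374890) (nat_lit 152) (nat_lit 1044970334802) (nat_lit 228) (nat_lit 643308591701) (nat_lit 50) (nat_lit 5) (nat_lit 52) (nat_lit 5) (nat_lit 53) (nat_lit 5) (nat_lit 389) (nat_lit 377) (nat_lit 254))) (XT.nd (nat_lit 78) (nat_lit 228) (nat_lit 0) (XT.lf (nat_lit 0) (nat_lit 135368617678) (nat_lit 152) (nat_lit 1643503636847) (nat_lit 76) (nat_lit 236269561074) (nat_lit 48) (nat_lit 5) (nat_lit 50) (nat_lit 5) (nat_lit 49) (nat_lit 5) (nat_lit 390) (nat_lit 377) (nat_lit 253)) (XT.nd (nat_lit 78) (nat_lit 76) (nat_lit 0) (XT.lf (nat_lit 0) (nat_lit 620483973066) (nat_lit 152) (nat_lit 467608447948) (nat_lit 228) (nat_lit 1112240855998) (nat_lit 46) (nat_lit 5) (nat_lit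 48) (nat_lit 5) (nat_lit 49) (nat_lit 5) (nat_lit 391) (nat_lit 377) (nat_lit 252)) (XT.lf (nat_lit 0) (nat_lit 934609549179) (nat_lit 76) (nat_lit 1345704604126) (nat_lit 152) (nat_lit 125262155657) (nat_lit 45) (nat_lit 5) (nat_lit 46) (nat_lit 5) (nat_lit 47) (nat_lit 4) (nat_lit 392) (nat_lit 377) (nat_lit 251)))))) (XT.nd (nat_lit 312) (nat_lit 684) (nat_lit 0) (XT.nd (nat_lit 156) (nat_lit 228) (nat_lit 0) (XT.nd (nat_lit 78) (nat_lit 76) (nat_lit 0) (XT.lf (nat_lit 0) (nat_lit 1057166545158) (nat_lit 228) (nat_lit 1327430531321) (nat_lit 76) (nat_lit 247232680779) (nat_lit 42) (nat_lit 5) (nat_lit 45) (nat_lit 5) (nat_lit 43) (nat_lit 4) (nat_lit 393) (nat_lit 377) (nat_lit 250)) (XT.lf (nat_lit 0) (nat_lit 1741893086122) (nat_lit 76) (nat_lit 790909817901) (nat_lit 152) (nat_lit 349097212148) (nat_lit 41) (nat_lit 5) (nat_lit 42) (nat_lit 5) (nat_lit 43) (nat_lit 4) (nat_lit 394)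 (nat_lit 377) (nat_lit 249))) (XT.nd (nat_lit 78) (nat_lit 76) (nat_lit 0) (XT.lf (nat_lit 0) (nat_lit 1129742495587) (nat_lit 152) (nat_lit 915262425911) (nat_lit 76) (nat_lit 1112637721689) (nat_lit 39) (nat_lit 5) (nat_lit 41) (nat_lit 5) (nat_lit 40) (nat_lit 4) (nat_lit 395) (nat_lit 377) (nat_lit 248)) (XT.lf (nat_lit 0) (nat_lit 2838679968449) (nat_lit 76) (nat_lit 95842527454) (nat_lit 152) (nat_lit 529515873584) (nat_lit 38) (nat_lit 5) (nat_lit 39) (nat_lit 5) (nat_lit 40) (nat_lit 4) (nat_lit 396) (nat_lit 377) (nat_lit 247)))) (XT.nd (nat_lit 156) (nat_lit 380) (nat_lit 0) (XT.nd (nat_lit 78) (nat_lit 152) (nat_lit 0) (XT.lf (nat_lit 0) (nat_lit 1301781741528) (nat_lit 152) (nat_lit 315559559572) (nat_lit 76) (nat_lit 2183326358128) (nat_lit 36) (nat_lit 5) (nat_lit 38) (nat_lit 5) (nat_lit 37) (nat_lit 4) (nat_lit 397) (nat_lit 377) (nat_lit 246)) (XT.lf (nat_lit 0) (nat_lit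 67385843252) (nat_lit 76) (nat_lit 3453532685762) (nat_lit 76) (nat_lit 654212698389) (nat_lit 34) (nat_lit 4) (nat_lit 35) (nat_lit 5) (nat_lit 35) (nat_lit 4) (nat_lit 398) (nat_lit 377) (nat_lit 245))) (XT.nd (nat_lit 78) (nat_lit 228) (nat_lit 0) (XT.lf (nat_lit 0) (nat_lit 494406599932) (nat_lit 76) (nat_lit 1089115799517) (nat_lit 152) (nat_lit 3004238769312) (nat_lit 32) (nat_lit 5) (nat_lit 33) (nat_lit 5) (nat_lit 34) (nat_lit 4) (nat_lit 399) (nat_lit 377) (nat_lit 244)) (XT.nd (nat_lit 78) (nat_lit 152) (nat_lit 0) (XT.lf (nat_lit 0) (nat_lit 971092883182) (nat_lit 76) (nat_lit 3333443907439) (nat_lit 76) (nat_lit 741480950020) (nat_lit 31) (nat_lit 4) (nat_lit 32) (nat_lit 5) (nat_lit 32) (nat_lit 4) (nat_lit 400) (nat_lit 377) (nat_lit 243)) (XT.lf (nat_lit 0) (nat_lit 1475450328355) (nat_lit 76) (nat_lit 480036829461) (nat_lit 152) (nat_lit 3598915596912) (nat_lit 29) (nat_lit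 5) (nat_lit 30) (nat_lit 5) (nat_lit 31) (nat_lit 4) (nat_lit 401) (nat_lit 377) (nat_lit 242))))))) (XT.nd (nat_lit 702) (nat_lit 608) (nat_lit 0) (XT.nd (nat_lit 312) (nat_lit 532) (nat_lit 0) (XT.nd (nat_lit 156) (nat_lit 228) (nat_lit 0) (XT.nd (nat_lit 78) (nat_lit 152) (nat_lit 0) (XT.lf (nat_lit 0) (nat_lit 1983871269384) (nat_lit 76) (nat_lit 3267277518651) (nat_lit 76) (nat_lit 867311813034) (nat_lit 28) (nat_lit 4) (nat_lit 29) (nat_lit 5) (nat_lit 29) (nat_lit 4) (nat_lit 402) (nat_lit 377) (nat_lit 241)) (XT.lf (nat_lit 0) (nat_lit 2358967016251) (nat_lit 152) (nat_lit 4251113055030) (nat_lit 0) (nat_lit 136776546476) (nat_lit 26) (nat_lit 5) (nat_lit 28) (nat_lit 4) (nat_lit 26) (nat_lit 4) (nat_lit 403) (nat_lit 377) (nat_lit 240))) (XT.nd (nat_lit 78) (nat_lit 152) (nat_lit 0) (XT.lf (nat_lit 0) (nat_lit 2940751630007) (nat_lit 76) (nat_lit 3363132303808) (nat_lit 76) (nat_lit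 1140941832632) (nat_lit 25) (nat_lit 4) (nat_lit 26) (nat_lit 5) (nat_lit 26) (nat_lit 4) (nat_lit 404) (nat_lit 377) (nat_lit 239)) (XT.lf (nat_lit 0) (nat_lit 2686376830643) (nat_lit 152) (nat_lit 4909487887592) (nat_lit 0) (nat_lit 628793059907) (nat_lit 23) (nat_lit 5) (nat_lit 25) (nat_lit 4) (nat_lit 23) (nat_lit 4) (nat_lit 405) (nat_lit 377) (nat_lit 238)))) (XT.nd (nat_lit 156) (nat_lit 304) (nat_lit 0) (XT.nd (nat_lit 78) (nat_lit 152) (nat_lit 0) (XT.lf (nat_lit 0) (nat_lit 3517038412415) (nat_lit 76) (nat_lit 3817257227918) (nat_lit 76) (nat_lit 1759673456200) (nat_lit 22) (nat_lit 4) (nat_lit 23) (nat_lit 5) (nat_lit 23) (nat_lit 4) (nat_lit 406) (nat_lit 377) (nat_lit 237)) (XT.lf (nat_lit 0) (nat_lit 2708336977083) (nat_lit 152) (nat_lit 6557041557086) (nat_lit 0) (nat_lit 803166817296) (nat_lit 20) (nat_lit 5) (nat_lit 22) (nat_lit 4) (nat_lit 20) (nat_lit 4) (nat_lit 407)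 (nat_lit 377) (nat_lit 236))) (XT.nd (nat_lit 78) (nat_lit 228) (nat_lit 0) (XT.lf (nat_lit 0) (nat_lit 3122337209098) (nat_lit 76) (nat_lit 4970233696430) (nat_lit 76) (nat_lit 3065063535956) (nat_lit 19) (nat_lit 4) (nat_lit 20) (nat_lit 5) (nat_lit 20) (nat_lit 4) (nat_lit 408) (nat_lit 377) (nat_lit 235)) (XT.nd (nat_lit 78) (nat_lit 76) (nat_lit 0) (XT.lf (nat_lit 0) (nat_lit 2039261648461) (nat_lit 152) (nat_lit 10071310076698) (nat_lit 0) (nat_lit 275215203024) (nat_lit 17) (nat_lit 5) (nat_lit 19) (nat_lit 4) (nat_lit 17) (nat_lit 4) (nat_lit 409) (nat_lit 377) (nat_lit 234)) (XT.lf (nat_lit 0) (nat_lit 732176715561) (nat_lit 76) (nat_lit 7395821581467) (nat_lit 76) (nat_lit 5631775135549) (nat_lit 16) (nat_lit 4) (nat_lit 17) (nat_lit 5) (nat_lit 17) (nat_lit 4) (nat_lit 410) (nat_lit 377) (nat_lit 233)))))) (XT.nd (nat_lit 390) (nat_lit 228) (nat_lit 0) (XT.nd (nat_lit 156) (nat_lit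 228) (nat_lit 0) (XT.nd (nat_lit 78) (nat_lit 76) (nat_lit 0) (XT.lf (nat_lit 0) (nat_lit 101514536370) (nat_lit 152) (nat_lit 1552896210685) (nat_lit 76) (nat_lit 13661784338237) (nat_lit 15) (nat_lit 5) (nat_lit 17) (nat_lit 5) (nat_lit 16) (nat_lit 4) (nat_lit 411) (nat_lit 377) (nat_lit 232)) (XT.lf (nat_lit 0) (nat_lit 6792235263224) (nat_lit 152) (nat_lit 5108811286046) (nat_lit 0) (nat_lit 5158858923687) (nat_lit 14) (nat_lit 5) (nat_lit 16) (nat_lit 4) (nat_lit 14) (nat_lit 4) (nat_lit 412) (nat_lit 377) (nat_lit 231))) (XT.nd (nat_lit 78) (nat_lit 152) (nat_lit 0) (XT.lf (nat_lit 0) (nat_lit 8912051982961) (nat_lit 76) (nat_lit 5880989300447) (nat_lit 76) (nat_lit 4247612960617) (nat_lit 13) (nat_lit 4) (nat_lit 14) (nat_lit 5) (nat_lit 14) (nat_lit 4) (nat_lit 413) (nat_lit 377) (nat_lit 230)) (XT.nd (nat_lit 78) (nat_lit 0) (nat_lit 0) (XT.lf (nat_lit 0) (nat_lit 2828045980995)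 (nat_lit 152) (nat_lit 17146746884874) (nat_lit 0) (nat_lit 1315660480917) (nat_lit 11) (nat_lit 5) (nat_lit 13) (nat_lit 4) (nat_lit 11) (nat_lit 4) (nat_lit 414) (nat_lit 377) (nat_lit 229)) (XT.lf (nat_lit 0) (nat_lit 11185894826935) (nat_lit 152) (nat_lit 2971704180593) (nat_lit 0) (nat_lit 9673509326652) (nat_lit 11) (nat_lit 5) (nat_lit 13) (nat_lit 4) (nat_lit 11) (nat_lit 4) (nat_lit 415) (nat_lit 377) (nat_lit 228))))) (XT.nd (nat_lit 156) (nat_lit 0) (nat_lit 0) (XT.nd (nat_lit 78) (nat_lit 152) (nat_lit 0) (XT.lf (nat_lit 0) (nat_lit 14031507771774) (nat_lit 76) (nat_lit 7103371325294) (nat_lit 76) (nat_lit 5590985824832) (nat_lit 10) (nat_lit 4) (nat_lit 11) (nat_lit 5) (nat_lit 11) (nat_lit 4) (nat_lit 416) (nat_lit 377) (nat_lit 227)) (XT.lf (nat_lit 0) (nat_lit 2607077050874) (nat_lit 152) (nat_lit 26219240270303) (nat_lit 0) (nat_lit 1206720105859) (nat_lit 8) (nat_lit 5)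 (nat_lit 10) (nat_lit 4) (nat_lit 8) (nat_lit 4) (nat_lit 417) (nat_lit 377) (nat_lit 226))) (XT.nd (nat_lit 49998) (nat_lit 0) (nat_lit 5548) (XT.lf (nat_lit 0) (nat_lit 12288856823927) (nat_lit 152) (nat_lit 10600506974921) (nat_lit 0) (nat_lit 10888499878787) (nat_lit 8) (nat_lit 5) (nat_lit 10) (nat_lit 4) (nat_lit 8) (nat_lit 4) (nat_lit 418) (nat_lit 377) (nat_lit 225)) (XT.nd (nat_lit 78) (nat_lit 0) (nat_lit 0) (XT.lf (nat_lit 0) (nat_lit 398639043446) (nat_lit 532) (nat_lit 6309951430) (nat_lit 532) (nat_lit 6309951430) (nat_lit 81) (nat_lit 3) (nat_lit 88) (nat_lit 3) (nat_lit 88) (nat_lit 5) (nat_lit 378) (nat_lit 378) (nat_lit 264)) (XT.lf (nat_lit 76) (nat_lit 791942670240) (nat_lit 0) (nat_lit 84177677672) (nat_lit 532) (nat_lit 6562674244) (nat_lit 82) (nat_lit 5) (nat_lit 81) (nat_lit 3) (nat_lit 88) (nat_lit 5) (nat_lit 379) (nat_lit 378) (nat_lit 263))))))))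
noncomputable def xc109 : XT := (XT.nd (nat_lit 1404) (nat_lit 2052) (nat_lit 0) (XT.nd (nat_lit 702) (nat_lit 1444) (nat_lit 0) (XT.nd (nat_lit 312) (nat_lit 1064) (nat_lit 0) (XT.nd (nat_lit 156) (nat_lit 304) (nat_lit 0) (XT.nd (nat_lit 78) (nat_lit 0) (nat_lit 76) (XT.lf (nat_lit 0) (nat_lit 52502461550) (nat_lit 532) (nat_lit 162768340789) (nat_lit 608) (nat_lit 733506812759) (nat_lit 75) (nat_lit 5) (nat_lit 82) (nat_lit 5) (nat_lit 83) (nat_lit 5) (nat_lit 380) (nat_lit 378) (nat_lit 262)) (XT.lf (nat_lit 0) (nat_lit 160729229269) (nat_lit 532) (nat_lit 225587645869) (nat_lit 608) (nat_lit 635200649516) (nat_lit 76) (nat_lit 5) (nat_lit 83) (nat_lit 5) (nat_lit 84) (nat_lit 5) (nat_lit 381) (nat_lit 378) (nat_lit 261))) (XT.nd (nat_lit 78) (nat_lit 456) (nat_lit 0) (XT.lf (nat_lit 0) (nat_lit 328777156266) (nat_lit 532) (nat_lit 275857385279) (nat_lit 76) (nat_lit 497046907574) (nat_lit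 77) (nat_lit 5) (nat_lit 84) (nat_lit 5) (nat_lit 78) (nat_lit 5) (nat_lit 382) (nat_lit 378) (nat_lit 260)) (XT.lf (nat_lit 0) (nat_lit 568721987647) (nat_lit 532) (nat_lit 309781559470) (nat_lit 76) (nat_lit 311631237914) (nat_lit 71) (nat_lit 5) (nat_lit 78) (nat_lit 5) (nat_lit 72) (nat_lit 5) (nat_lit 383) (nat_lit 378) (nat_lit 259)))) (XT.nd (nat_lit 156) (nat_lit 608) (nat_lit 0) (XT.nd (nat_lit 78) (nat_lit 228) (nat_lit 0) (XT.lf (nat_lit 0) (nat_lit 894656578978) (nat_lit 304) (nat_lit 322854556440) (nat_lit 76) (nat_lit 70345143098) (nat_lit 68) (nat_lit 5) (nat_lit 72) (nat_lit 5) (nat_lit 69) (nat_lit 5) (nat_lit 384) (nat_lit 378) (nat_lit 258)) (XT.lf (nat_lit 0) (nat_lit 1079728315953) (nat_lit 228) (nat_lit 249270970096) (nat_lit 304) (nat_lit 66475275814) (nat_lit 65) (nat_lit 5) (nat_lit 68) (nat_lit 5) (nat_lit 69) (nat_lit 5) (nat_lit 385) (nat_lit 378) (nat_lit 257)))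 (XT.nd (nat_lit 78) (nat_lit 380) (nat_lit 0) (XT.lf (nat_lit 0) (nat_lit 355466387259) (nat_lit 228) (nat_lit 288933282881) (nat_lit 76) (nat_lit 869306592628) (nat_lit 62) (nat_lit 5) (nat_lit 65) (nat_lit 5) (nat_lit 63) (nat_lit 5) (nat_lit 386) (nat_lit 378) (nat_lit 256)) (XT.nd (nat_lit 78) (nat_lit 152) (nat_lit 0) (XT.lf (nat_lit 0) (nat_lit 900592964711) (nat_lit 304) (nat_lit 229423418897) (nat_lit 76) (nat_lit 514411825318) (nat_lit 59) (nat_lit 5) (nat_lit 63) (nat_lit 5) (nat_lit 60) (nat_lit 5) (nat_lit 387) (nat_lit 378) (nat_lit 255)) (XT.lf (nat_lit 0) (nat_lit 1595602359034) (nat_lit 228) (nat_lit 128006761082) (nat_lit 76) (nat_lit 65700220472) (nat_lit 57) (nat_lit 5) (nat_lit 60) (nat_lit 5) (nat_lit 58) (nat_lit 5) (nat_lit 388) (nat_lit 378) (nat_lit 254)))))) (XT.nd (nat_lit 312) (nat_lit 608) (nat_lit 0) (XT.nd (nat_lit 156) (nat_lit 304) (nat_lit 0) (XT.nd (nat_lit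 78) (nat_lit 304) (nat_lit 0) (XT.lf (nat_lit 0) (nat_lit 504461287253) (nat_lit 228) (nat_lit 1070017845) (nat_lit 76) (nat_lit 1442548546552) (nat_lit 54) (nat_lit 5) (nat_lit 57) (nat_lit 5) (nat_lit 55) (nat_lit 5) (nat_lit 389) (nat_lit 378) (nat_lit 253)) (XT.lf (nat_lit 0) (nat_lit 181737425565) (nat_lit 152) (nat_lit 1201715812847) (nat_lit 228) (nat_lit 739804748392) (nat_lit 50) (nat_lit 5) (nat_lit 52) (nat_lit 5) (nat_lit 53) (nat_lit 5) (nat_lit 390) (nat_lit 378) (nat_lit 252))) (XT.nd (nat_lit 78) (nat_lit 152) (nat_lit 0) (XT.lf (nat_lit 0) (nat_lit 155674025546) (nat_lit 152) (nat_lit 1890028990931) (nat_lit 76) (nat_lit 271710062232) (nat_lit 48) (nat_lit 5) (nat_lit 50) (nat_lit 5) (nat_lit 49) (nat_lit 5) (nat_lit 391) (nat_lit 378) (nat_lit 251)) (XT.lf (nat_lit 0) (nat_lit 713556744264) (nat_lit 152) (nat_lit 537749644304) (nat_lit 228) (nat_lit 1279076871632) (nat_lit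 46) (nat_lit 5) (nat_lit 48) (nat_lit 5) (nat_lit 49) (nat_lit 5) (nat_lit 392) (nat_lit 378) (nat_lit 250)))) (XT.nd (nat_lit 156) (nat_lit 304) (nat_lit 0) (XT.nd (nat_lit 78) (nat_lit 228) (nat_lit 0) (XT.lf (nat_lit 0) (nat_lit 1074801148057) (nat_lit 76) (nat_lit 1547560224514) (nat_lit 152) (nat_lit 144051375024) (nat_lit 45) (nat_lit 5) (nat_lit 46) (nat_lit 5) (nat_lit 47) (nat_lit 4) (nat_lit 393) (nat_lit 378) (nat_lit 249)) (XT.lf (nat_lit 0) (nat_lit 1215741618231) (nat_lit 228) (nat_lit 1526544948283) (nat_lit 76) (nat_lit 284317647021) (nat_lit 42) (nat_lit 5) (nat_lit 45) (nat_lit 5) (nat_lit 43) (nat_lit 4) (nat_lit 394) (nat_lit 378) (nat_lit 248))) (XT.nd (nat_lit 78) (nat_lit 228) (nat_lit 0) (XT.lf (nat_lit 0) (nat_lit 2003177198003) (nat_lit 76) (nat_lit 909546224598) (nat_lit 152) (nat_lit 401461704352) (nat_lit 41) (nat_lit 5) (nat_lit 42) (nat_lit 5) (nat_lit 43) (nat_lit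 4) (nat_lit 395) (nat_lit 378) (nat_lit 247)) (XT.nd (nat_lit 78) (nat_lit 76) (nat_lit 0) (XT.lf (nat_lit 0) (nat_lit 1299203948850) (nat_lit 152) (nat_lit 1052551644653) (nat_lit 76) (nat_lit 1279533439842) (nat_lit 39) (nat_lit 5) (nat_lit 41) (nat_lit 5) (nat_lit 40) (nat_lit 4) (nat_lit 396) (nat_lit 378) (nat_lit 246)) (XT.lf (nat_lit 0) (nat_lit 3264482096576) (nat_lit 76) (nat_lit 110218845540) (nat_lit 152) (nat_lit 608943177044) (nat_lit 38) (nat_lit 5) (nat_lit 39) (nat_lit 5) (nat_lit 40) (nat_lit 4) (nat_lit 397) (nat_lit 378) (nat_lit 245))))))) (XT.nd (nat_lit 702) (nat_lit 912) (nat_lit 0) (XT.nd (nat_lit 312) (nat_lit 608) (nat_lit 0) (XT.nd (nat_lit 156) (nat_lit 228) (nat_lit 0) (XT.nd (nat_lit 78) (nat_lit 152) (nat_lit 0) (XT.lf (nat_lit 0) (nat_lit 1497049071249) (nat_lit 152) (nat_lit 362893364364) (nat_lit 76) (nat_lit 2510825367018) (nat_lit 36) (nat_lit 5) (nat_lit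 38) (nat_lit 5) (nat_lit 37) (nat_lit 4) (nat_lit 398) (nat_lit 378) (nat_lit 244)) (XT.lf (nat_lit 0) (nat_lit 77493848023) (nat_lit 76) (nat_lit 3971562527171) (nat_lit 76) (nat_lit 752344530970) (nat_lit 34) (nat_lit 4) (nat_lit 35) (nat_lit 5) (nat_lit 35) (nat_lit 4) (nat_lit 399) (nat_lit 378) (nat_lit 243))) (XT.nd (nat_lit 78) (nat_lit 76) (nat_lit 0) (XT.lf (nat_lit 0) (nat_lit 568567710654) (nat_lit 76) (nat_lit 1252483111239) (nat_lit 152) (nat_lit 3454874517177) (nat_lit 32) (nat_lit 5) (nat_lit 33) (nat_lit 5) (nat_lit 34) (nat_lit 4) (nat_lit 400) (nat_lit 378) (nat_lit 242)) (XT.lf (nat_lit 0) (nat_lit 1116756929473) (nat_lit 76) (nat_lit 3833460438067) (nat_lit 76) (nat_lit 852703029529) (nat_lit 31) (nat_lit 4) (nat_lit 32) (nat_lit 5) (nat_lit 32) (nat_lit 4) (nat_lit 401) (nat_lit 378) (nat_lit 241)))) (XT.nd (nat_lit 156) (nat_lit 380) (nat_lit 0) (XT.nd (nat_lit 78) (nat_lit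 76) (nat_lit 0) (XT.lf (nat_lit 0) (nat_lit 1696767984674) (nat_lit 76) (nat_lit 552042301427) (nat_lit 152) (nat_lit 4138752877466) (nat_lit 29) (nat_lit 5) (nat_lit 30) (nat_lit 5) (nat_lit 31) (nat_lit 4) (nat_lit 402) (nat_lit 378) (nat_lit 240)) (XT.lf (nat_lit 0) (nat_lit 2281452060641) (nat_lit 76) (nat_lit 3757369096610) (nat_lit 76) (nat_lit 997408529895) (nat_lit 28) (nat_lit 4) (nat_lit 29) (nat_lit 5) (nat_lit 29) (nat_lit 4) (nat_lit 403) (nat_lit 378) (nat_lit 239))) (XT.nd (nat_lit 78) (nat_lit 228) (nat_lit 0) (XT.lf (nat_lit 0) (nat_lit 2712812117612) (nat_lit 152) (nat_lit 4888779915754) (nat_lit 0) (nat_lit 157293073139) (nat_lit 26) (nat_lit 5) (nat_lit 28) (nat_lit 4) (nat_lit 26) (nat_lit 4) (nat_lit 404) (nat_lit 378) (nat_lit 238)) (XT.nd (nat_lit 78) (nat_lit 152) (nat_lit 0) (XT.lf (nat_lit 0) (nat_lit 3381864463783) (nat_lit 76) (nat_lit 3867602104794) (nat_lit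 76) (nat_lit 1312083059261) (nat_lit 25) (nat_lit 4) (nat_lit 26) (nat_lit 5) (nat_lit 26) (nat_lit 4) (nat_lit 405) (nat_lit 378) (nat_lit 237)) (XT.lf (nat_lit 0) (nat_lit 3089333398140) (nat_lit 152) (nat_lit 5645910984461) (nat_lit 0) (nat_lit 723112058830) (nat_lit 23) (nat_lit 5) (nat_lit 25) (nat_lit 4) (nat_lit 23) (nat_lit 4) (nat_lit 406) (nat_lit 378) (nat_lit 236)))))) (XT.nd (nat_lit 390) (nat_lit 380) (nat_lit 0) (XT.nd (nat_lit 156) (nat_lit 304) (nat_lit 0) (XT.nd (nat_lit 78) (nat_lit 152) (nat_lit 0) (XT.lf (nat_lit 0) (nat_lit 4044594253246) (nat_lit 76) (nat_lit 4389845772341) (nat_lit 76) (nat_lit 2023624432290) (nat_lit 22) (nat_lit 4) (nat_lit 23) (nat_lit 5) (nat_lit 23) (nat_lit 4) (nat_lit 407) (nat_lit 378) (nat_lit 235)) (XT.lf (nat_lit 0) (nat_lit 3114587561308) (nat_lit 152) (nat_lit 7540597714385) (nat_lit 0) (nat_lit 923641875478) (nat_lit 20) (nat_lit 5) (nat_lit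 22) (nat_lit 4) (nat_lit 20) (nat_lit 4) (nat_lit 408) (nat_lit 378) (nat_lit 234))) (XT.nd (nat_lit 78) (nat_lit 228) (nat_lit 0) (XT.lf (nat_lit 0) (nat_lit 3590687860271) (nat_lit 76) (nat_lit 5715768715515) (nat_lit 76) (nat_lit 3524823029165) (nat_lit 19) (nat_lit 4) (nat_lit 20) (nat_lit 5) (nat_lit 20) (nat_lit 4) (nat_lit 409) (nat_lit 378) (nat_lit 233)) (XT.nd (nat_lit 78) (nat_lit 76) (nat_lit 0) (XT.lf (nat_lit 0) (nat_lit 2345150928825) (nat_lit 152) (nat_lit 11582006520818) (nat_lit 0) (nat_lit 316497515120) (nat_lit 17) (nat_lit 5) (nat_lit 19) (nat_lit 4) (nat_lit 17) (nat_lit 4) (nat_lit 410) (nat_lit 378) (nat_lit 232)) (XT.lf (nat_lit 0) (nat_lit 842003284576) (nat_lit 76) (nat_lit 8505194787267) (nat_lit 76) (nat_lit 6476541373198) (nat_lit 16) (nat_lit 4) (nat_lit 17) (nat_lit 5) (nat_lit 17) (nat_lit 4) (nat_lit 411) (nat_lit 378) (nat_lit 231))))) (XT.nd (nat_lit 156)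 (nat_lit 228) (nat_lit 0) (XT.nd (nat_lit 78) (nat_lit 76) (nat_lit 0) (XT.lf (nat_lit 0) (nat_lit 116741743824) (nat_lit 152) (nat_lit 1785830587229) (nat_lit 76) (nat_lit 15711052014873) (nat_lit 15) (nat_lit 5) (nat_lit 17) (nat_lit 5) (nat_lit 16) (nat_lit 4) (nat_lit 412) (nat_lit 378) (nat_lit 230)) (XT.lf (nat_lit 0) (nat_lit 7811070578014) (nat_lit 152) (nat_lit 5875132927198) (nat_lit 0) (nat_lit 5932687786663) (nat_lit 14) (nat_lit 5) (nat_lit 16) (nat_lit 4) (nat_lit 14) (nat_lit 4) (nat_lit 413) (nat_lit 378) (nat_lit 229))) (XT.nd (nat_lit 78) (nat_lit 152) (nat_lit 0) (XT.lf (nat_lit 0) (nat_lit 10248859827780) (nat_lit 76) (nat_lit 6763137671286) (nat_lit 76) (nat_lit 4884754879713) (nat_lit 13) (nat_lit 4) (nat_lit 14) (nat_lit 5) (nat_lit 14) (nat_lit 4) (nat_lit 414) (nat_lit 378) (nat_lit 228)) (XT.nd (nat_lit 78) (nat_lit 0) (nat_lit 0) (XT.lf (nat_lit 0) (nat_lit 3252252900412)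 (nat_lit 152) (nat_lit 19718758871906) (nat_lit 0) (nat_lit 1513009574703) (nat_lit 11) (nat_lit 5) (nat_lit 13) (nat_lit 4) (nat_lit 11) (nat_lit 4) (nat_lit 415) (nat_lit 378) (nat_lit 227)) (XT.lf (nat_lit 0) (nat_lit 12863779070339) (nat_lit 152) (nat_lit 3417459767944) (nat_lit 0) (nat_lit 11124535744475) (nat_lit 11) (nat_lit 5) (nat_lit 13) (nat_lit 4) (nat_lit 11) (nat_lit 4) (nat_lit 416) (nat_lit 378) (nat_lit 226))))))))
noncomputable def xc110 : XT := (XT.nd (nat_lit 51402) (nat_lit 0) (nat_lit 532) (XT.nd (nat_lit 50700) (nat_lit 0) (nat_lit 2812) (XT.nd (nat_lit 50310) (nat_lit 0) (nat_lit 4560) (XT.nd (nat_lit 50154) (nat_lit 0) (nat_lit 5548) (XT.nd (nat_lit 78) (nat_lit 152) (nat_lit 0) (XT.lf (nat_lit 0) (nat_lit 16136233973914) (nat_lit 76) (nat_lit 8168877005426) (nat_lit 76) (nat_lit 6429633679427) (nat_lit 10) (nat_lit 4) (nat_lit 11) (nat_lit 5) (nat_lit 11) (nat_lit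 4) (nat_lit 417) (nat_lit 378) (nat_lit 225)) (XT.lf (nat_lit 0) (nat_lit 2998138625552) (nat_lit 152) (nat_lit 30152126275768) (nat_lit 0) (nat_lit 1387728138407) (nat_lit 8) (nat_lit 5) (nat_lit 10) (nat_lit 4) (nat_lit 8) (nat_lit 4) (nat_lit 418) (nat_lit 378) (nat_lit 224))) (XT.nd (nat_lit 78) (nat_lit 0) (nat_lit 0) (XT.lf (nat_lit 0) (nat_lit 458435057400) (nat_lit 532) (nat_lit 7256359108) (nat_lit 532) (nat_lit 7256359108) (nat_lit 81) (nat_lit 3) (nat_lit 88) (nat_lit 3) (nat_lit 88) (nat_lit 5) (nat_lit 379) (nat_lit 379) (nat_lit 262)) (XT.lf (nat_lit 76) (nat_lit 910734226453) (nat_lit 0) (nat_lit 96804451192) (nat_lit 532) (nat_lit 7546775558) (nat_lit 82) (nat_lit 5) (nat_lit 81) (nat_lit 3) (nat_lit 88) (nat_lit 5) (nat_lit 380) (nat_lit 379) (nat_lit 261)))) (XT.nd (nat_lit 156) (nat_lit 532) (nat_lit 0) (XT.nd (nat_lit 78) (nat_lit 0) (nat_lit 76) (XT.lf (nat_lit 0) (nat_lit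 60378079927) (nat_lit 532) (nat_lit 187183413155) (nat_lit 608) (nat_lit 843532744290) (nat_lit 75) (nat_lit 5) (nat_lit 82) (nat_lit 5) (nat_lit 83) (nat_lit 5) (nat_lit 381) (nat_lit 379) (nat_lit 260)) (XT.lf (nat_lit 0) (nat_lit 184838832872) (nat_lit 532) (nat_lit 259425610059) (nat_lit 608) (nat_lit 730480692833) (nat_lit 76) (nat_lit 5) (nat_lit 83) (nat_lit 5) (nat_lit 84) (nat_lit 5) (nat_lit 382) (nat_lit 379) (nat_lit 259))) (XT.nd (nat_lit 78) (nat_lit 684) (nat_lit 0) (XT.lf (nat_lit 0) (nat_lit 378093923688) (nat_lit 532) (nat_lit 317235809569) (nat_lit 76) (nat_lit 571603917666) (nat_lit 77) (nat_lit 5) (nat_lit 84) (nat_lit 5) (nat_lit 78) (nat_lit 5) (nat_lit 383) (nat_lit 379) (nat_lit 258)) (XT.nd (nat_lit 78) (nat_lit 228) (nat_lit 0) (XT.lf (nat_lit 0) (nat_lit 654030458399) (nat_lit 532) (nat_lit 356248611451) (nat_lit 76) (nat_lit 358375919088) (nat_lit 71) (nat_lit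 5) (nat_lit 78) (nat_lit 5) (nat_lit 72) (nat_lit 5) (nat_lit 384) (nat_lit 379) (nat_lit 257)) (XT.lf (nat_lit 0) (nat_lit 1028855220221) (nat_lit 304) (nat_lit 371282561305) (nat_lit 76) (nat_lit 80896926382) (nat_lit 68) (nat_lit 5) (nat_lit 72) (nat_lit 5) (nat_lit 69) (nat_lit 5) (nat_lit 385) (nat_lit 379) (nat_lit 256)))))) (XT.nd (nat_lit 312) (nat_lit 912) (nat_lit 0) (XT.nd (nat_lit 156) (nat_lit 380) (nat_lit 0) (XT.nd (nat_lit 78) (nat_lit 228) (nat_lit 0) (XT.lf (nat_lit 0) (nat_lit 1241687726830) (nat_lit 228) (nat_lit 286661590316) (nat_lit 304) (nat_lit 76446417912) (nat_lit 65) (nat_lit 5) (nat_lit 68) (nat_lit 5) (nat_lit 69) (nat_lit 5) (nat_lit 386) (nat_lit 379) (nat_lit 255)) (XT.lf (nat_lit 0) (nat_lit 408786473130) (nat_lit 228) (nat_lit 332273109326) (nat_lit 76) (nat_lit 999702609482) (nat_lit 62) (nat_lit 5) (nat_lit 65) (nat_lit 5) (nat_lit 63) (nat_lit 5) (nat_lit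 387) (nat_lit 379) (nat_lit 254))) (XT.nd (nat_lit 78) (nat_lit 152) (nat_lit 0) (XT.lf (nat_lit 0) (nat_lit 1035682025080) (nat_lit 304) (nat_lit 263836771486) (nat_lit 76) (nat_lit 591573634425) (nat_lit 59) (nat_lit 5) (nat_lit 63) (nat_lit 5) (nat_lit 60) (nat_lit 5) (nat_lit 388) (nat_lit 379) (nat_lit 253)) (XT.lf (nat_lit 0) (nat_lit 1834942818017) (nat_lit 228) (nat_lit 147207621241) (nat_lit 76) (nat_lit 75555293990) (nat_lit 57) (nat_lit 5) (nat_lit 60) (nat_lit 5) (nat_lit 58) (nat_lit 5) (nat_lit 389) (nat_lit 379) (nat_lit 252)))) (XT.nd (nat_lit 156) (nat_lit 380) (nat_lit 0) (XT.nd (nat_lit 78) (nat_lit 304) (nat_lit 0) (XT.lf (nat_lit 0) (nat_lit 580130577624) (nat_lit 228) (nat_lit 1230374417) (nat_lit 76) (nat_lit 1658930869560) (nat_lit 54) (nat_lit 5) (nat_lit 57) (nat_lit 5) (nat_lit 55) (nat_lit 5) (nat_lit 390) (nat_lit 379) (nat_lit 251)) (XT.lf (nat_lit 0) (nat_lit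 208998186426) (nat_lit 152) (nat_lit 1381973130200) (nat_lit 228) (nat_lit 850775360791) (nat_lit 50) (nat_lit 5) (nat_lit 52) (nat_lit 5) (nat_lit 53) (nat_lit 5) (nat_lit 391) (nat_lit 379) (nat_lit 250))) (XT.nd (nat_lit 78) (nat_lit 228) (nat_lit 0) (XT.lf (nat_lit 0) (nat_lit 179025216498) (nat_lit 152) (nat_lit 2173533194812) (nat_lit 76) (nat_lit 312466622225) (nat_lit 48) (nat_lit 5) (nat_lit 50) (nat_lit 5) (nat_lit 49) (nat_lit 5) (nat_lit 392) (nat_lit 379) (nat_lit 249)) (XT.nd (nat_lit 78) (nat_lit 76) (nat_lit 0) (XT.lf (nat_lit 0) (nat_lit 820590388409) (nat_lit 152) (nat_lit 618412037388) (nat_lit 228) (nat_lit 1470938317110) (nat_lit 46) (nat_lit 5) (nat_lit 48) (nat_lit 5) (nat_lit 49) (nat_lit 5) (nat_lit 393) (nat_lit 379) (nat_lit 248)) (XT.lf (nat_lit 0) (nat_lit 1236021446165) (nat_lit 76) (nat_lit 1779694205086) (nat_lit 152) (nat_lit 165659002652) (nat_lit 45) (nat_lit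 5) (nat_lit 46) (nat_lit 5) (nat_lit 47) (nat_lit 4) (nat_lit 394) (nat_lit 379) (nat_lit 247))))))) (XT.nd (nat_lit 702) (nat_lit 1064) (nat_lit 0) (XT.nd (nat_lit 312) (nat_lit 684) (nat_lit 0) (XT.nd (nat_lit 156) (nat_lit 228) (nat_lit 0) (XT.nd (nat_lit 78) (nat_lit 76) (nat_lit 0) (XT.lf (nat_lit 0) (nat_lit 1398102930002) (nat_lit 228) (nat_lit 1755526567473) (nat_lit 76) (nat_lit 326965342562) (nat_lit 42) (nat_lit 5) (nat_lit 45) (nat_lit 5) (nat_lit 43) (nat_lit 4) (nat_lit 395) (nat_lit 379) (nat_lit 246)) (XT.lf (nat_lit 0) (nat_lit 2303653890340) (nat_lit 76) (nat_lit 1045978108391) (nat_lit 152) (nat_lit 461680892240) (nat_lit 41) (nat_lit 5) (nat_lit 42) (nat_lit 5) (nat_lit 43) (nat_lit 4) (nat_lit 396) (nat_lit 379) (nat_lit 245))) (XT.nd (nat_lit 78) (nat_lit 76) (nat_lit 0) (XT.lf (nat_lit 0) (nat_lit 1494084600857) (nat_lit 152) (nat_lit 1210434281601) (nat_lit 76) (nat_lit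 1471463501111) (nat_lit 39) (nat_lit 5) (nat_lit 41) (nat_lit 5) (nat_lit 40) (nat_lit 4) (nat_lit 397) (nat_lit 379) (nat_lit 244)) (XT.lf (nat_lit 0) (nat_lit 3754154511522) (nat_lit 76) (nat_lit 126751626221) (nat_lit 152) (nat_lit 700284594942) (nat_lit 38) (nat_lit 5) (nat_lit 39) (nat_lit 5) (nat_lit 40) (nat_lit 4) (nat_lit 398) (nat_lit 379) (nat_lit 243)))) (XT.nd (nat_lit 156) (nat_lit 380) (nat_lit 0) (XT.nd (nat_lit 78) (nat_lit 152) (nat_lit 0) (XT.lf (nat_lit 0) (nat_lit 1721606483725) (nat_lit 152) (nat_lit 417327271367) (nat_lit 76) (nat_lit 2887449213787) (nat_lit 36) (nat_lit 5) (nat_lit 38) (nat_lit 5) (nat_lit 37) (nat_lit 4) (nat_lit 399) (nat_lit 379) (nat_lit 242)) (XT.lf (nat_lit 0) (nat_lit 89118022227) (nat_lit 76) (nat_lit 4567296859778) (nat_lit 76) (nat_lit 865196156039) (nat_lit 34) (nat_lit 4) (nat_lit 35) (nat_lit 5) (nat_lit 35) (nat_lit 4) (nat_lit 400) (nat_lit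 379) (nat_lit 241))) (XT.nd (nat_lit 78) (nat_lit 228) (nat_lit 0) (XT.lf (nat_lit 0) (nat_lit 653852958544) (nat_lit 76) (nat_lit 1440355533914) (nat_lit 152) (nat_lit 3973105643690) (nat_lit 32) (nat_lit 5) (nat_lit 33) (nat_lit 5) (nat_lit 34) (nat_lit 4) (nat_lit 401) (nat_lit 379) (nat_lit 240)) (XT.nd (nat_lit 78) (nat_lit 152) (nat_lit 0) (XT.lf (nat_lit 0) (nat_lit 1284270554953) (nat_lit 76) (nat_lit 4408479461821) (nat_lit 76) (nat_lit 980608436326) (nat_lit 31) (nat_lit 4) (nat_lit 32) (nat_lit 5) (nat_lit 32) (nat_lit 4) (nat_lit 402) (nat_lit 379) (nat_lit 239)) (XT.lf (nat_lit 0) (nat_lit 1951283263332) (nat_lit 76) (nat_lit 634848606979) (nat_lit 152) (nat_lit 4759565764486) (nat_lit 29) (nat_lit 5) (nat_lit 30) (nat_lit 5) (nat_lit 31) (nat_lit 4) (nat_lit 403) (nat_lit 379) (nat_lit 238)))))) (XT.nd (nat_lit 390) (nat_lit 532) (nat_lit 0) (XT.nd (nat_lit 156) (nat_lit 304)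 (nat_lit 0) (XT.nd (nat_lit 78) (nat_lit 152) (nat_lit 0) (XT.lf (nat_lit 0) (nat_lit 2623669945993) (nat_lit 76) (nat_lit 4320974423417) (nat_lit 76) (nat_lit 1147019767720) (nat_lit 28) (nat_lit 4) (nat_lit 29) (nat_lit 5) (nat_lit 29) (nat_lit 4) (nat_lit 404) (nat_lit 379) (nat_lit 237)) (XT.lf (nat_lit 0) (nat_lit 3119733972247) (nat_lit 152) (nat_lit 5622096829371) (nat_lit 0) (nat_lit 180887067903) (nat_lit 26) (nat_lit 5) (nat_lit 28) (nat_lit 4) (nat_lit 26) (nat_lit 4) (nat_lit 405) (nat_lit 379) (nat_lit 236))) (XT.nd (nat_lit 78) (nat_lit 228) (nat_lit 0) (XT.lf (nat_lit 0) (nat_lit 3889144200855) (nat_lit 76) (nat_lit 4447742386800) (nat_lit 76) (nat_lit 1508895481654) (nat_lit 25) (nat_lit 4) (nat_lit 26) (nat_lit 5) (nat_lit 26) (nat_lit 4) (nat_lit 406) (nat_lit 379) (nat_lit 235)) (XT.nd (nat_lit 78) (nat_lit 76) (nat_lit 0) (XT.lf (nat_lit 0) (nat_lit 3552733440299) (nat_lit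 152) (nat_lit 6492797566897) (nat_lit 0) (nat_lit 831578897853) (nat_lit 23) (nat_lit 5) (nat_lit 25) (nat_lit 4) (nat_lit 23) (nat_lit 4) (nat_lit 407) (nat_lit 379) (nat_lit 234)) (XT.lf (nat_lit 0) (nat_lit 4651283450944) (nat_lit 76) (nat_lit 5048322608125) (nat_lit 76) (nat_lit 2327168065117) (nat_lit 22) (nat_lit 4) (nat_lit 23) (nat_lit 5) (nat_lit 23) (nat_lit 4) (nat_lit 408) (nat_lit 379) (nat_lit 233))))) (XT.nd (nat_lit 156) (nat_lit 304) (nat_lit 0) (XT.nd (nat_lit 78) (nat_lit 76) (nat_lit 0) (XT.lf (nat_lit 0) (nat_lit 3581775723983) (nat_lit 152) (nat_lit 8671687313876) (nat_lit 0) (nat_lit 1062188183709) (nat_lit 20) (nat_lit 5) (nat_lit 22) (nat_lit 4) (nat_lit 20) (nat_lit 4) (nat_lit 409) (nat_lit 379) (nat_lit 232)) (XT.lf (nat_lit 0) (nat_lit 4129291092098) (nat_lit 76) (nat_lit 6573133996090) (nat_lit 76) (nat_lit 4053546455424) (nat_lit 19) (nat_lit 4) (nat_lit 20)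 (nat_lit 5) (nat_lit 20) (nat_lit 4) (nat_lit 410) (nat_lit 379) (nat_lit 231))) (XT.nd (nat_lit 78) (nat_lit 152) (nat_lit 0) (XT.lf (nat_lit 0) (nat_lit 2696923593174) (nat_lit 152) (nat_lit 13319307447987) (nat_lit 0) (nat_lit 363972166315) (nat_lit 17) (nat_lit 5) (nat_lit 19) (nat_lit 4) (nat_lit 17) (nat_lit 4) (nat_lit 411) (nat_lit 379) (nat_lit 230)) (XT.nd (nat_lit 78) (nat_lit 76) (nat_lit 0) (XT.lf (nat_lit 0) (nat_lit 968303823903) (nat_lit 76) (nat_lit 9780973981599) (nat_lit 76) (nat_lit 7448022554465) (nat_lit 16) (nat_lit 4) (nat_lit 17) (nat_lit 5) (nat_lit 17) (nat_lit 4) (nat_lit 412) (nat_lit 379) (nat_lit 229)) (XT.lf (nat_lit 0) (nat_lit 134253025813) (nat_lit 152) (nat_lit 2053705133681) (nat_lit 76) (nat_lit 18067709836688) (nat_lit 15) (nat_lit 5) (nat_lit 17) (nat_lit 5) (nat_lit 16) (nat_lit 4) (nat_lit 413) (nat_lit 379) (nat_lit 228))))))))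
noncomputable def xc111 : XT := (XT.nd (nat_lit 51480) (nat_lit 0) (nat_lit 684) (XT.nd (nat_lit 50778) (nat_lit 0) (nat_lit 3040) (XT.nd (nat_lit 312) (nat_lit 76) (nat_lit 0) (XT.nd (nat_lit 156) (nat_lit 152) (nat_lit 0) (XT.nd (nat_lit 78) (nat_lit 76) (nat_lit 0) (XT.lf (nat_lit 0) (nat_lit 8982731183853) (nat_lit 152) (nat_lit 6756402827144) (nat_lit 0) (nat_lit 6822590973129) (nat_lit 14) (nat_lit 5) (nat_lit 16) (nat_lit 4) (nat_lit 14) (nat_lit 4) (nat_lit 414) (nat_lit 379) (nat_lit 227)) (XT.lf (nat_lit 0) (nat_lit 11786188837768) (nat_lit 76) (nat_lit 7777608303659) (nat_lit 76) (nat_lit 5617468092768) (nat_lit 13) (nat_lit 4) (nat_lit 14) (nat_lit 5) (nat_lit 14) (nat_lit 4) (nat_lit 415) (nat_lit 379) (nat_lit 226))) (XT.nd (nat_lit 78) (nat_lit 0) (nat_lit 0) (XT.lf (nat_lit 0) (nat_lit 3740090852312) (nat_lit 152) (nat_lit 22676572668137) (nat_lit 0) (nat_lit 1739961027279)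 (nat_lit 11) (nat_lit 5) (nat_lit 13) (nat_lit 4) (nat_lit 11) (nat_lit 4) (nat_lit 416) (nat_lit 379) (nat_lit 225)) (XT.lf (nat_lit 0) (nat_lit 14793345945531) (nat_lit 152) (nat_lit 3930078703088) (nat_lit 0) (nat_lit 12793216120381) (nat_lit 11) (nat_lit 5) (nat_lit 13) (nat_lit 4) (nat_lit 11) (nat_lit 4) (nat_lit 417) (nat_lit 379) (nat_lit 224)))) (XT.nd (nat_lit 50232) (nat_lit 0) (nat_lit 4940) (XT.nd (nat_lit 50154) (nat_lit 0) (nat_lit 5396) (XT.lf (nat_lit 0) (nat_lit 18556669097506) (nat_lit 76) (nat_lit 9394208542129) (nat_lit 76) (nat_lit 7394078716876) (nat_lit 10) (nat_lit 4) (nat_lit 11) (nat_lit 5) (nat_lit 11) (nat_lit 4) (nat_lit 418) (nat_lit 379) (nat_lit 223)) (XT.lf (nat_lit 0) (nat_lit 527200435054) (nat_lit 532) (nat_lit 8344748674) (nat_lit 532) (nat_lit 8344748674) (nat_lit 81) (nat_lit 3) (nat_lit 88) (nat_lit 3) (nat_lit 88) (nat_lit 5) (nat_lit 380) (nat_lit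 380) (nat_lit 260))) (XT.nd (nat_lit 78) (nat_lit 456) (nat_lit 0) (XT.lf (nat_lit 76) (nat_lit 1047344478136) (nat_lit 0) (nat_lit 111325211021) (nat_lit 532) (nat_lit 8678565182) (nat_lit 82) (nat_lit 5) (nat_lit 81) (nat_lit 3) (nat_lit 88) (nat_lit 5) (nat_lit 381) (nat_lit 380) (nat_lit 259)) (XT.nd (nat_lit 78) (nat_lit 0) (nat_lit 76) (XT.lf (nat_lit 0) (nat_lit 69434980305) (nat_lit 532) (nat_lit 215260789966) (nat_lit 608) (nat_lit 970062587592) (nat_lit 75) (nat_lit 5) (nat_lit 82) (nat_lit 5) (nat_lit 83) (nat_lit 5) (nat_lit 382) (nat_lit 380) (nat_lit 258)) (XT.lf (nat_lit 0) (nat_lit 212564823560) (nat_lit 532) (nat_lit 298339313428) (nat_lit 608) (nat_lit 840052755842) (nat_lit 76) (nat_lit 5) (nat_lit 83) (nat_lit 5) (nat_lit 84) (nat_lit 5) (nat_lit 383) (nat_lit 380) (nat_lit 257)))))) (XT.nd (nat_lit 312) (nat_lit 1140) (nat_lit 0) (XT.nd (nat_lit 156) (nat_lit 456) (nat_lit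 0) (XT.nd (nat_lit 78) (nat_lit 456) (nat_lit 0) (XT.lf (nat_lit 0) (nat_lit 434808158919) (nat_lit 532) (nat_lit 364821042251) (nat_lit 76) (nat_lit 657344485624) (nat_lit 77) (nat_lit 5) (nat_lit 84) (nat_lit 5) (nat_lit 78) (nat_lit 5) (nat_lit 384) (nat_lit 380) (nat_lit 256)) (XT.lf (nat_lit 0) (nat_lit 752135157674) (nat_lit 532) (nat_lit 409685765597) (nat_lit 76) (nat_lit 412132303539) (nat_lit 71) (nat_lit 5) (nat_lit 78) (nat_lit 5) (nat_lit 72) (nat_lit 5) (nat_lit 385) (nat_lit 380) (nat_lit 255))) (XT.nd (nat_lit 78) (nat_lit 228) (nat_lit 0) (XT.lf (nat_lit 0) (nat_lit 1183183620000) (nat_lit 304) (nat_lit 426974810452) (nat_lit 76) (nat_lit 93031474277) (nat_lit 68) (nat_lit 5) (nat_lit 72) (nat_lit 5) (nat_lit 69) (nat_lit 5) (nat_lit 386) (nat_lit 380) (nat_lit 254)) (XT.lf (nat_lit 0) (nat_lit 1427941009471) (nat_lit 228) (nat_lit 329660809737) (nat_lit 304) (nat_lit 87913267727)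 (nat_lit 65) (nat_lit 5) (nat_lit 68) (nat_lit 5) (nat_lit 69) (nat_lit 5) (nat_lit 387) (nat_lit 380) (nat_lit 253)))) (XT.nd (nat_lit 156) (nat_lit 684) (nat_lit 0) (XT.nd (nat_lit 78) (nat_lit 228) (nat_lit 0) (XT.lf (nat_lit 0) (nat_lit 470104540721) (nat_lit 228) (nat_lit 382113950215) (nat_lit 76) (nat_lit 1149658022045) (nat_lit 62) (nat_lit 5) (nat_lit 65) (nat_lit 5) (nat_lit 63) (nat_lit 5) (nat_lit 388) (nat_lit 380) (nat_lit 252)) (XT.lf (nat_lit 0) (nat_lit 1191034416300) (nat_lit 304) (nat_lit 303412166041) (nat_lit 76) (nat_lit 680309706287) (nat_lit 59) (nat_lit 5) (nat_lit 63) (nat_lit 5) (nat_lit 60) (nat_lit 5) (nat_lit 389) (nat_lit 380) (nat_lit 251))) (XT.nd (nat_lit 78) (nat_lit 532) (nat_lit 0) (XT.lf (nat_lit 0) (nat_lit 2110184320211) (nat_lit 228) (nat_lit 169288647978) (nat_lit 76) (nat_lit 86888618673) (nat_lit 57) (nat_lit 5) (nat_lit 60) (nat_lit 5) (nat_lit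 58) (nat_lit 5) (nat_lit 390) (nat_lit 380) (nat_lit 250)) (XT.nd (nat_lit 78) (nat_lit 304) (nat_lit 0) (XT.lf (nat_lit 0) (nat_lit 667150237828) (nat_lit 228) (nat_lit 1414820103) (nat_lit 76) (nat_lit 1907770531015) (nat_lit 54) (nat_lit 5) (nat_lit 57) (nat_lit 5) (nat_lit 55) (nat_lit 5) (nat_lit 391) (nat_lit 380) (nat_lit 249)) (XT.lf (nat_lit 0) (nat_lit 240348025562) (nat_lit 152) (nat_lit 1589269058464) (nat_lit 228) (nat_lit 978391589402) (nat_lit 50) (nat_lit 5) (nat_lit 52) (nat_lit 5) (nat_lit 53) (nat_lit 5) (nat_lit 392) (nat_lit 380) (nat_lit 248))))))) (XT.nd (nat_lit 702) (nat_lit 1140) (nat_lit 0) (XT.nd (nat_lit 312) (nat_lit 608) (nat_lit 0) (XT.nd (nat_lit 156) (nat_lit 304) (nat_lit 0) (XT.nd (nat_lit 78) (nat_lit 152) (nat_lit 0) (XT.lf (nat_lit 0) (nat_lit 205879064848) (nat_lit 152) (nat_lit 2499563064576) (nat_lit 76) (nat_lit 359336653865) (nat_lit 48) (nat_lit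 5) (nat_lit 50) (nat_lit 5) (nat_lit 49) (nat_lit 5) (nat_lit 393) (nat_lit 380) (nat_lit 247)) (XT.lf (nat_lit 0) (nat_lit 943679046863) (nat_lit 152) (nat_lit 711173802496) (nat_lit 228) (nat_lit 1691579000202) (nat_lit 46) (nat_lit 5) (nat_lit 48) (nat_lit 5) (nat_lit 49) (nat_lit 5) (nat_lit 394) (nat_lit 380) (nat_lit 246))) (XT.nd (nat_lit 78) (nat_lit 228) (nat_lit 0) (XT.lf (nat_lit 0) (nat_lit 1421424758288) (nat_lit 76) (nat_lit 2046648295694) (nat_lit 152) (nat_lit 190507793597) (nat_lit 45) (nat_lit 5) (nat_lit 46) (nat_lit 5) (nat_lit 47) (nat_lit 4) (nat_lit 395) (nat_lit 380) (nat_lit 245)) (XT.lf (nat_lit 0) (nat_lit 1607818421703) (nat_lit 228) (nat_lit 2018855459548) (nat_lit 76) (nat_lit 376010180610) (nat_lit 42) (nat_lit 5) (nat_lit 45) (nat_lit 5) (nat_lit 43) (nat_lit 4) (nat_lit 396) (nat_lit 380) (nat_lit 244)))) (XT.nd (nat_lit 156) (nat_lit 380) (nat_lit 0) (XT.nd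 (nat_lit 78) (nat_lit 152) (nat_lit 0) (XT.lf (nat_lit 0) (nat_lit 2649202059060) (nat_lit 76) (nat_lit 1202874786921) (nat_lit 152) (nat_lit 530932974837) (nat_lit 41) (nat_lit 5) (nat_lit 42) (nat_lit 5) (nat_lit 43) (nat_lit 4) (nat_lit 397) (nat_lit 380) (nat_lit 243)) (XT.lf (nat_lit 0) (nat_lit 1718197336111) (nat_lit 152) (nat_lit 1391999340854) (nat_lit 76) (nat_lit 1692183060525) (nat_lit 39) (nat_lit 5) (nat_lit 41) (nat_lit 5) (nat_lit 40) (nat_lit 4) (nat_lit 398) (nat_lit 380) (nat_lit 242))) (XT.nd (nat_lit 78) (nat_lit 304) (nat_lit 0) (XT.lf (nat_lit 0) (nat_lit 4317277764213) (nat_lit 76) (nat_lit 145764335259) (nat_lit 152) (nat_lit 805327239828) (nat_lit 38) (nat_lit 5) (nat_lit 39) (nat_lit 5) (nat_lit 40) (nat_lit 4) (nat_lit 399) (nat_lit 380) (nat_lit 241)) (XT.nd (nat_lit 78) (nat_lit 152) (nat_lit 0) (XT.lf (nat_lit 0) (nat_lit 1979847495443) (nat_lit 152) (nat_lit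 479926288234) (nat_lit 76) (nat_lit 3320566627399) (nat_lit 36) (nat_lit 5) (nat_lit 38) (nat_lit 5) (nat_lit 37) (nat_lit 4) (nat_lit 400) (nat_lit 380) (nat_lit 240)) (XT.lf (nat_lit 0) (nat_lit 102485798908) (nat_lit 76) (nat_lit 5252391353607) (nat_lit 76) (nat_lit 994975538177) (nat_lit 34) (nat_lit 4) (nat_lit 35) (nat_lit 5) (nat_lit 35) (nat_lit 4) (nat_lit 401) (nat_lit 380) (nat_lit 239)))))) (XT.nd (nat_lit 390) (nat_lit 532) (nat_lit 0) (XT.nd (nat_lit 156) (nat_lit 380) (nat_lit 0) (XT.nd (nat_lit 78) (nat_lit 76) (nat_lit 0) (XT.lf (nat_lit 0) (nat_lit 751930971354) (nat_lit 76) (nat_lit 1656408830721) (nat_lit 152) (nat_lit 4569071451632) (nat_lit 32) (nat_lit 5) (nat_lit 33) (nat_lit 5) (nat_lit 34) (nat_lit 4) (nat_lit 402) (nat_lit 380) (nat_lit 238)) (XT.lf (nat_lit 0) (nat_lit 1476911203269) (nat_lit 76) (nat_lit 5069751349369) (nat_lit 76) (nat_lit 1127699665758) (nat_lit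 31) (nat_lit 4) (nat_lit 32) (nat_lit 5) (nat_lit 32) (nat_lit 4) (nat_lit 403) (nat_lit 380) (nat_lit 237))) (XT.nd (nat_lit 78) (nat_lit 228) (nat_lit 0) (XT.lf (nat_lit 0) (nat_lit 2243975814047) (nat_lit 76) (nat_lit 730075868035) (nat_lit 152) (nat_lit 5473500595435) (nat_lit 29) (nat_lit 5) (nat_lit 30) (nat_lit 5) (nat_lit 31) (nat_lit 4) (nat_lit 404) (nat_lit 380) (nat_lit 236)) (XT.nd (nat_lit 78) (nat_lit 152) (nat_lit 0) (XT.lf (nat_lit 0) (nat_lit 3017220495554) (nat_lit 76) (nat_lit 4969120558434) (nat_lit 76) (nat_lit 1319072701378) (nat_lit 28) (nat_lit 4) (nat_lit 29) (nat_lit 5) (nat_lit 29) (nat_lit 4) (nat_lit 405) (nat_lit 380) (nat_lit 235)) (XT.lf (nat_lit 0) (nat_lit 3587694096057) (nat_lit 152) (nat_lit 6465411298013) (nat_lit 0) (nat_lit 208020153642) (nat_lit 26) (nat_lit 5) (nat_lit 28) (nat_lit 4) (nat_lit 26) (nat_lit 4) (nat_lit 406) (nat_lit 380) (nat_lit 234)))))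 (XT.nd (nat_lit 156) (nat_lit 304) (nat_lit 0) (XT.nd (nat_lit 78) (nat_lit 152) (nat_lit 0) (XT.lf (nat_lit 0) (nat_lit 4472515882027) (nat_lit 76) (nat_lit 5114903719328) (nat_lit 76) (nat_lit 1735229776307) (nat_lit 25) (nat_lit 4) (nat_lit 26) (nat_lit 5) (nat_lit 26) (nat_lit 4) (nat_lit 407) (nat_lit 380) (nat_lit 233)) (XT.lf (nat_lit 0) (nat_lit 4085643480873) (nat_lit 152) (nat_lit 7466717152606) (nat_lit 0) (nat_lit 956315755365) (nat_lit 23) (nat_lit 5) (nat_lit 25) (nat_lit 4) (nat_lit 23) (nat_lit 4) (nat_lit 408) (nat_lit 380) (nat_lit 232))) (XT.nd (nat_lit 78) (nat_lit 228) (nat_lit 0) (XT.lf (nat_lit 0) (nat_lit 5348976013736) (nat_lit 76) (nat_lit 5805570976608) (nat_lit 76) (nat_lit 2676243250677) (nat_lit 22) (nat_lit 4) (nat_lit 23) (nat_lit 5) (nat_lit 23) (nat_lit 4) (nat_lit 409) (nat_lit 380) (nat_lit 231)) (XT.nd (nat_lit 78) (nat_lit 76) (nat_lit 0) (XT.lf (nat_lit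 0) (nat_lit 4119042104114) (nat_lit 152) (nat_lit 9972440367353) (nat_lit 0) (nat_lit 1221516431613) (nat_lit 20) (nat_lit 5) (nat_lit 22) (nat_lit 4) (nat_lit 20) (nat_lit 4) (nat_lit 410) (nat_lit 380) (nat_lit 230)) (XT.lf (nat_lit 0) (nat_lit 4748684795825) (nat_lit 76) (nat_lit 7559104075275) (nat_lit 76) (nat_lit 4661578402478) (nat_lit 19) (nat_lit 4) (nat_lit 20) (nat_lit 5) (nat_lit 20) (nat_lit 4) (nat_lit 411) (nat_lit 380) (nat_lit 229))))))))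
noncomputable def xc112 : XT := (XT.nd (nat_lit 51558) (nat_lit 0) (nat_lit 912) (XT.nd (nat_lit 50856) (nat_lit 0) (nat_lit 3496) (XT.nd (nat_lit 312) (nat_lit 228) (nat_lit 0) (XT.nd (nat_lit 156) (nat_lit 152) (nat_lit 0) (XT.nd (nat_lit 78) (nat_lit 76) (nat_lit 0) (XT.lf (nat_lit 0) (nat_lit 3101462151072) (nat_lit 152) (nat_lit 15317203526657) (nat_lit 0) (nat_lit 418568009354) (nat_lit 17) (nat_lit 5) (nat_lit 19) (nat_lit 4) (nat_lit 17) (nat_lit 4) (nat_lit 412) (nat_lit 380) (nat_lit 228)) (XT.lf (nat_lit 0) (nat_lit 1113549432756) (nat_lit 76) (nat_lit 11248120060874) (nat_lit 76) (nat_lit 8565225918948) (nat_lit 16) (nat_lit 4) (nat_lit 17) (nat_lit 5) (nat_lit 17) (nat_lit 4) (nat_lit 413) (nat_lit 380) (nat_lit 227))) (XT.nd (nat_lit 78) (nat_lit 76) (nat_lit 0) (XT.lf (nat_lit 0) (nat_lit 154390995121) (nat_lit 152) (nat_lit 2361760872254) (nat_lit 76) (nat_lit 20777866326999)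 (nat_lit 15) (nat_lit 5) (nat_lit 17) (nat_lit 5) (nat_lit 16) (nat_lit 4) (nat_lit 414) (nat_lit 380) (nat_lit 226)) (XT.lf (nat_lit 0) (nat_lit 10330140875900) (nat_lit 152) (nat_lit 7769863221624) (nat_lit 0) (nat_lit 7845979633063) (nat_lit 14) (nat_lit 5) (nat_lit 16) (nat_lit 4) (nat_lit 14) (nat_lit 4) (nat_lit 415) (nat_lit 380) (nat_lit 225)))) (XT.nd (nat_lit 156) (nat_lit 0) (nat_lit 0) (XT.nd (nat_lit 78) (nat_lit 152) (nat_lit 0) (XT.lf (nat_lit 0) (nat_lit 13554117190520) (nat_lit 76) (nat_lit 8944249535355) (nat_lit 76) (nat_lit 6460088292391) (nat_lit 13) (nat_lit 4) (nat_lit 14) (nat_lit 5) (nat_lit 14) (nat_lit 4) (nat_lit 416) (nat_lit 380) (nat_lit 224)) (XT.lf (nat_lit 0) (nat_lit 4301104492891) (nat_lit 152) (nat_lit 26078058542229) (nat_lit 0) (nat_lit 2000955193748) (nat_lit 11) (nat_lit 5) (nat_lit 13) (nat_lit 4) (nat_lit 11) (nat_lit 4) (nat_lit 417) (nat_lit 380)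 (nat_lit 223))) (XT.nd (nat_lit 50232) (nat_lit 0) (nat_lit 5320) (XT.lf (nat_lit 0) (nat_lit 17012347848433) (nat_lit 152) (nat_lit 4519590485830) (nat_lit 0) (nat_lit 14712198549202) (nat_lit 11) (nat_lit 5) (nat_lit 13) (nat_lit 4) (nat_lit 11) (nat_lit 4) (nat_lit 418) (nat_lit 380) (nat_lit 222)) (XT.nd (nat_lit 78) (nat_lit 0) (nat_lit 0) (XT.lf (nat_lit 0) (nat_lit 606280590327) (nat_lit 532) (nat_lit 9596412356) (nat_lit 532) (nat_lit 9596412356) (nat_lit 81) (nat_lit 3) (nat_lit 88) (nat_lit 3) (nat_lit 88) (nat_lit 5) (nat_lit 381) (nat_lit 381) (nat_lit 258)) (XT.lf (nat_lit 76) (nat_lit 1204446238866) (nat_lit 0) (nat_lit 128024062353) (nat_lit 532) (nat_lit 9980178534) (nat_lit 82) (nat_lit 5) (nat_lit 81) (nat_lit 3) (nat_lit 88) (nat_lit 5) (nat_lit 382) (nat_lit 381) (nat_lit 257)))))) (XT.nd (nat_lit 312) (nat_lit 1064) (nat_lit 0) (XT.nd (nat_lit 156) (nat_lit 304) (nat_lit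 0) (XT.nd (nat_lit 78) (nat_lit 0) (nat_lit 76) (XT.lf (nat_lit 0) (nat_lit 79850369800) (nat_lit 532) (nat_lit 247549806258) (nat_lit 608) (nat_lit 1115571924055) (nat_lit 75) (nat_lit 5) (nat_lit 82) (nat_lit 5) (nat_lit 83) (nat_lit 5) (nat_lit 383) (nat_lit 381) (nat_lit 256)) (XT.lf (nat_lit 0) (nat_lit 244449672429) (nat_lit 532) (nat_lit 343090105989) (nat_lit 608) (nat_lit 966060638280) (nat_lit 76) (nat_lit 5) (nat_lit 83) (nat_lit 5) (nat_lit 84) (nat_lit 5) (nat_lit 384) (nat_lit 381) (nat_lit 255))) (XT.nd (nat_lit 78) (nat_lit 456) (nat_lit 0) (XT.lf (nat_lit 0) (nat_lit 500029493667) (nat_lit 532) (nat_lit 419544093672) (nat_lit 76) (nat_lit 755946143576) (nat_lit 77) (nat_lit 5) (nat_lit 84) (nat_lit 5) (nat_lit 78) (nat_lit 5) (nat_lit 385) (nat_lit 381) (nat_lit 254)) (XT.lf (nat_lit 0) (nat_lit 864955530013) (nat_lit 532) (nat_lit 471138526412) (nat_lit 76) (nat_lit 473952146490)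 (nat_lit 71) (nat_lit 5) (nat_lit 78) (nat_lit 5) (nat_lit 72) (nat_lit 5) (nat_lit 386) (nat_lit 381) (nat_lit 253)))) (XT.nd (nat_lit 156) (nat_lit 608) (nat_lit 0) (XT.nd (nat_lit 78) (nat_lit 228) (nat_lit 0) (XT.lf (nat_lit 0) (nat_lit 1360661251276) (nat_lit 304) (nat_lit 491020929904) (nat_lit 76) (nat_lit 106986202177) (nat_lit 68) (nat_lit 5) (nat_lit 72) (nat_lit 5) (nat_lit 69) (nat_lit 5) (nat_lit 387) (nat_lit 381) (nat_lit 252)) (XT.lf (nat_lit 0) (nat_lit 1642132254364) (nat_lit 228) (nat_lit 379109916736) (nat_lit 304) (nat_lit 101100172538) (nat_lit 65) (nat_lit 5) (nat_lit 68) (nat_lit 5) (nat_lit 69) (nat_lit 5) (nat_lit 388) (nat_lit 381) (nat_lit 251))) (XT.nd (nat_lit 78) (nat_lit 380) (nat_lit 0) (XT.lf (nat_lit 0) (nat_lit 540620294889) (nat_lit 228) (nat_lit 439430947843) (nat_lit 76) (nat_lit 1322106741338) (nat_lit 62) (nat_lit 5) (nat_lit 65) (nat_lit 5) (nat_lit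 63) (nat_lit 5) (nat_lit 389) (nat_lit 381) (nat_lit 250)) (XT.nd (nat_lit 78) (nat_lit 152) (nat_lit 0) (XT.lf (nat_lit 0) (nat_lit 1369689644875) (nat_lit 304) (nat_lit 348923899326) (nat_lit 76) (nat_lit 782356182419) (nat_lit 59) (nat_lit 5) (nat_lit 63) (nat_lit 5) (nat_lit 60) (nat_lit 5) (nat_lit 390) (nat_lit 381) (nat_lit 249)) (XT.lf (nat_lit 0) (nat_lit 2426712028351) (nat_lit 228) (nat_lit 194681857123) (nat_lit 76) (nat_lit 99921934600) (nat_lit 57) (nat_lit 5) (nat_lit 60) (nat_lit 5) (nat_lit 58) (nat_lit 5) (nat_lit 391) (nat_lit 381) (nat_lit 248))))))) (XT.nd (nat_lit 702) (nat_lit 1140) (nat_lit 0) (XT.nd (nat_lit 312) (nat_lit 608) (nat_lit 0) (XT.nd (nat_lit 156) (nat_lit 304) (nat_lit 0) (XT.nd (nat_lit 78) (nat_lit 304) (nat_lit 0) (XT.lf (nat_lit 0) (nat_lit 767222829124) (nat_lit 228) (nat_lit 1626959583) (nat_lit 76) (nat_lit 2193936134124) (nat_lit 54) (nat_lit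 5) (nat_lit 57) (nat_lit 5) (nat_lit 55) (nat_lit 5) (nat_lit 392) (nat_lit 381) (nat_lit 247)) (XT.lf (nat_lit 0) (nat_lit 276400313459) (nat_lit 152) (nat_lit 1827659386030) (nat_lit 228) (nat_lit 1125150270717) (nat_lit 50) (nat_lit 5) (nat_lit 52) (nat_lit 5) (nat_lit 53) (nat_lit 5) (nat_lit 393) (nat_lit 381) (nat_lit 246))) (XT.nd (nat_lit 78) (nat_lit 152) (nat_lit 0) (XT.lf (nat_lit 0) (nat_lit 236760974386) (nat_lit 152) (nat_lit 2874497441496) (nat_lit 76) (nat_lit 413237180909) (nat_lit 48) (nat_lit 5) (nat_lit 50) (nat_lit 5) (nat_lit 49) (nat_lit 5) (nat_lit 394) (nat_lit 381) (nat_lit 245)) (XT.lf (nat_lit 0) (nat_lit 1085230979653) (nat_lit 152) (nat_lit 817849842246) (nat_lit 228) (nat_lit 1945315801480) (nat_lit 46) (nat_lit 5) (nat_lit 48) (nat_lit 5) (nat_lit 49) (nat_lit 5) (nat_lit 395) (nat_lit 381) (nat_lit 244)))) (XT.nd (nat_lit 156) (nat_lit 304) (nat_lit 0) (XT.nd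 (nat_lit 78) (nat_lit 228) (nat_lit 0) (XT.lf (nat_lit 0) (nat_lit 1634638544014) (nat_lit 76) (nat_lit 2353645509686) (nat_lit 152) (nat_lit 219083917683) (nat_lit 45) (nat_lit 5) (nat_lit 46) (nat_lit 5) (nat_lit 47) (nat_lit 4) (nat_lit 396) (nat_lit 381) (nat_lit 243)) (XT.lf (nat_lit 0) (nat_lit 1848991224430) (nat_lit 228) (nat_lit 2321683708125) (nat_lit 76) (nat_lit 432411735425) (nat_lit 42) (nat_lit 5) (nat_lit 45) (nat_lit 5) (nat_lit 43) (nat_lit 4) (nat_lit 397) (nat_lit 381) (nat_lit 242))) (XT.nd (nat_lit 78) (nat_lit 228) (nat_lit 0) (XT.lf (nat_lit 0) (nat_lit 3046582432320) (nat_lit 76) (nat_lit 1383305976430) (nat_lit 152) (nat_lit 610572882318) (nat_lit 41) (nat_lit 5) (nat_lit 42) (nat_lit 5) (nat_lit 43) (nat_lit 4) (nat_lit 398) (nat_lit 381) (nat_lit 241)) (XT.nd (nat_lit 78) (nat_lit 76) (nat_lit 0) (XT.lf (nat_lit 0) (nat_lit 1975926970649) (nat_lit 152) (nat_lit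 1600799179233) (nat_lit 76) (nat_lit 1946010545500) (nat_lit 39) (nat_lit 5) (nat_lit 41) (nat_lit 5) (nat_lit 40) (nat_lit 4) (nat_lit 399) (nat_lit 381) (nat_lit 240)) (XT.lf (nat_lit 0) (nat_lit 4964869486284) (nat_lit 76) (nat_lit 167628959162) (nat_lit 152) (nat_lit 926126292264) (nat_lit 38) (nat_lit 5) (nat_lit 39) (nat_lit 5) (nat_lit 40) (nat_lit 4) (nat_lit 400) (nat_lit 381) (nat_lit 239)))))) (XT.nd (nat_lit 312) (nat_lit 608) (nat_lit 0) (XT.nd (nat_lit 156) (nat_lit 228) (nat_lit 0) (XT.nd (nat_lit 78) (nat_lit 152) (nat_lit 0) (XT.lf (nat_lit 0) (nat_lit 2276824649370) (nat_lit 152) (nat_lit 551915175636) (nat_lit 76) (nat_lit 3818651645360) (nat_lit 36) (nat_lit 5) (nat_lit 38) (nat_lit 5) (nat_lit 37) (nat_lit 4) (nat_lit 401) (nat_lit 381) (nat_lit 238)) (XT.lf (nat_lit 0) (nat_lit 117858724204) (nat_lit 76) (nat_lit 6040250030080) (nat_lit 76) (nat_lit 1144221837700) (nat_lit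 34) (nat_lit 4) (nat_lit 35) (nat_lit 5) (nat_lit 35) (nat_lit 4) (nat_lit 402) (nat_lit 381) (nat_lit 237))) (XT.nd (nat_lit 78) (nat_lit 76) (nat_lit 0) (XT.lf (nat_lit 0) (nat_lit 864720669254) (nat_lit 76) (nat_lit 1904870130166) (nat_lit 152) (nat_lit 5254432140181) (nat_lit 32) (nat_lit 5) (nat_lit 33) (nat_lit 5) (nat_lit 34) (nat_lit 4) (nat_lit 403) (nat_lit 381) (nat_lit 236)) (XT.lf (nat_lit 0) (nat_lit 1698447932964) (nat_lit 76) (nat_lit 5830214027786) (nat_lit 76) (nat_lit 1296854588388) (nat_lit 31) (nat_lit 4) (nat_lit 32) (nat_lit 5) (nat_lit 32) (nat_lit 4) (nat_lit 404) (nat_lit 381) (nat_lit 235)))) (XT.nd (nat_lit 156) (nat_lit 380) (nat_lit 0) (XT.nd (nat_lit 78) (nat_lit 76) (nat_lit 0) (XT.lf (nat_lit 0) (nat_lit 2580572232442) (nat_lit 76) (nat_lit 839587225563) (nat_lit 152) (nat_lit 6294525659250) (nat_lit 29) (nat_lit 5) (nat_lit 30) (nat_lit 5) (nat_lit 31) (nat_lit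 4) (nat_lit 405) (nat_lit 381) (nat_lit 234)) (XT.lf (nat_lit 0) (nat_lit 3469803613487) (nat_lit 76) (nat_lit 5714488620653) (nat_lit 76) (nat_lit 1516933582767) (nat_lit 28) (nat_lit 4) (nat_lit 29) (nat_lit 5) (nat_lit 29) (nat_lit 4) (nat_lit 406) (nat_lit 381) (nat_lit 233))) (XT.nd (nat_lit 78) (nat_lit 228) (nat_lit 0) (XT.lf (nat_lit 0) (nat_lit 4125848231616) (nat_lit 152) (nat_lit 7435222950550) (nat_lit 0) (nat_lit 239223196009) (nat_lit 26) (nat_lit 5) (nat_lit 28) (nat_lit 4) (nat_lit 26) (nat_lit 4) (nat_lit 407) (nat_lit 381) (nat_lit 232)) (XT.nd (nat_lit 78) (nat_lit 152) (nat_lit 0) (XT.lf (nat_lit 0) (nat_lit 5143393302927) (nat_lit 76) (nat_lit 5882139257951) (nat_lit 76) (nat_lit 1995514221886) (nat_lit 25) (nat_lit 4) (nat_lit 26) (nat_lit 5) (nat_lit 26) (nat_lit 4) (nat_lit 408) (nat_lit 381) (nat_lit 231)) (XT.lf (nat_lit 0) (nat_lit 4698490021550) (nat_lit 152) (nat_lit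 8586724688200) (nat_lit 0) (nat_lit 1099763135936) (nat_lit 23) (nat_lit 5) (nat_lit 25) (nat_lit 4) (nat_lit 23) (nat_lit 4) (nat_lit 409) (nat_lit 381) (nat_lit 230))))))))
noncomputable def xc113 : XT := (XT.nd (nat_lit 51714) (nat_lit 0) (nat_lit 760) (XT.nd (nat_lit 51012) (nat_lit 0) (nat_lit 3496) (XT.nd (nat_lit 312) (nat_lit 304) (nat_lit 0) (XT.nd (nat_lit 156) (nat_lit 228) (nat_lit 0) (XT.nd (nat_lit 78) (nat_lit 152) (nat_lit 0) (XT.lf (nat_lit 0) (nat_lit 6151322449936) (nat_lit 76) (nat_lit 6676406605908) (nat_lit 76) (nat_lit 3077679719973) (nat_lit 22) (nat_lit 4) (nat_lit 23) (nat_lit 5) (nat_lit 23) (nat_lit 4) (nat_lit 410) (nat_lit 381) (nat_lit 229)) (XT.lf (nat_lit 0) (nat_lit 4736898436013) (nat_lit 152) (nat_lit 11468306389486) (nat_lit 0) (nat_lit 1404743911741) (nat_lit 20) (nat_lit 5) (nat_lit 22) (nat_lit 4) (nat_lit 20) (nat_lit 4) (nat_lit 411) (nat_lit 381)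 (nat_lit 228))) (XT.nd (nat_lit 78) (nat_lit 152) (nat_lit 0) (XT.lf (nat_lit 0) (nat_lit 5460987545380) (nat_lit 76) (nat_lit 8692969671271) (nat_lit 76) (nat_lit 5360815146774) (nat_lit 19) (nat_lit 4) (nat_lit 20) (nat_lit 5) (nat_lit 20) (nat_lit 4) (nat_lit 412) (nat_lit 381) (nat_lit 227)) (XT.lf (nat_lit 0) (nat_lit 3566681488041) (nat_lit 152) (nat_lit 17614784026523) (nat_lit 0) (nat_lit 481353224437) (nat_lit 17) (nat_lit 5) (nat_lit 19) (nat_lit 4) (nat_lit 17) (nat_lit 4) (nat_lit 413) (nat_lit 381) (nat_lit 226)))) (XT.nd (nat_lit 156) (nat_lit 152) (nat_lit 0) (XT.nd (nat_lit 78) (nat_lit 76) (nat_lit 0) (XT.lf (nat_lit 0) (nat_lit 1280581874336) (nat_lit 76) (nat_lit 12935338056422) (nat_lit 76) (nat_lit 9850009792661) (nat_lit 16) (nat_lit 4) (nat_lit 17) (nat_lit 5) (nat_lit 17) (nat_lit 4) (nat_lit 414) (nat_lit 381) (nat_lit 225)) (XT.lf (nat_lit 0) (nat_lit 177549656061)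 (nat_lit 152) (nat_lit 2716024979289) (nat_lit 76) (nat_lit 23894546287246) (nat_lit 15) (nat_lit 5) (nat_lit 17) (nat_lit 5) (nat_lit 16) (nat_lit 4) (nat_lit 415) (nat_lit 381) (nat_lit 224))) (XT.nd (nat_lit 78) (nat_lit 76) (nat_lit 0) (XT.lf (nat_lit 0) (nat_lit 11879662018226) (nat_lit 152) (nat_lit 8935342682493) (nat_lit 0) (nat_lit 9022876588581) (nat_lit 14) (nat_lit 5) (nat_lit 16) (nat_lit 4) (nat_lit 14) (nat_lit 4) (nat_lit 416) (nat_lit 381) (nat_lit 223)) (XT.nd (nat_lit 50388) (nat_lit 0) (nat_lit 5168) (XT.lf (nat_lit 0) (nat_lit 15587234789579) (nat_lit 76) (nat_lit 10285886955183) (nat_lit 76) (nat_lit 7429101525443) (nat_lit 13) (nat_lit 4) (nat_lit 14) (nat_lit 5) (nat_lit 14) (nat_lit 4) (nat_lit 417) (nat_lit 381) (nat_lit 222)) (XT.lf (nat_lit 0) (nat_lit 697222746940) (nat_lit 532) (nat_lit 11035837445) (nat_lit 532) (nat_lit 11035837445) (nat_lit 81) (nat_lit 3)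 (nat_lit 88) (nat_lit 3) (nat_lit 88) (nat_lit 5) (nat_lit 382) (nat_lit 382) (nat_lit 256)))))) (XT.nd (nat_lit 312) (nat_lit 1216) (nat_lit 0) (XT.nd (nat_lit 156) (nat_lit 0) (nat_lit 76) (XT.nd (nat_lit 78) (nat_lit 456) (nat_lit 0) (XT.lf (nat_lit 76) (nat_lit 1385113241999) (nat_lit 0) (nat_lit 147227724394) (nat_lit 532) (nat_lit 11477075692) (nat_lit 82) (nat_lit 5) (nat_lit 81) (nat_lit 3) (nat_lit 88) (nat_lit 5) (nat_lit 383) (nat_lit 382) (nat_lit 255)) (XT.lf (nat_lit 0) (nat_lit 91828032982) (nat_lit 532) (nat_lit 284682199917) (nat_lit 608) (nat_lit 1282907673588) (nat_lit 75) (nat_lit 5) (nat_lit 82) (nat_lit 5) (nat_lit 83) (nat_lit 5) (nat_lit 384) (nat_lit 382) (nat_lit 254))) (XT.nd (nat_lit 78) (nat_lit 0) (nat_lit 76) (XT.lf (nat_lit 0) (nat_lit 281117218065) (nat_lit 532) (nat_lit 394553542905) (nat_lit 608) (nat_lit 1110969710629) (nat_lit 76) (nat_lit 5) (nat_lit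 83) (nat_lit 5) (nat_lit 84) (nat_lit 5) (nat_lit 385) (nat_lit 382) (nat_lit 253)) (XT.lf (nat_lit 0) (nat_lit 575034001581) (nat_lit 532) (nat_lit 482475628390) (nat_lit 76) (nat_lit 869338053854) (nat_lit 77) (nat_lit 5) (nat_lit 84) (nat_lit 5) (nat_lit 78) (nat_lit 5) (nat_lit 386) (nat_lit 382) (nat_lit 252)))) (XT.nd (nat_lit 156) (nat_lit 684) (nat_lit 0) (XT.nd (nat_lit 78) (nat_lit 228) (nat_lit 0) (XT.lf (nat_lit 0) (nat_lit 994698934137) (nat_lit 532) (nat_lit 541809226716) (nat_lit 76) (nat_lit 545044966512) (nat_lit 71) (nat_lit 5) (nat_lit 78) (nat_lit 5) (nat_lit 72) (nat_lit 5) (nat_lit 387) (nat_lit 382) (nat_lit 251)) (XT.lf (nat_lit 0) (nat_lit 1564760505718) (nat_lit 304) (nat_lit 564673992175) (nat_lit 76) (nat_lit 123034137613) (nat_lit 68) (nat_lit 5) (nat_lit 72) (nat_lit 5) (nat_lit 69) (nat_lit 5) (nat_lit 388) (nat_lit 382) (nat_lit 250))) (XT.nd (nat_lit 78) (nat_lit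 456) (nat_lit 0) (XT.lf (nat_lit 0) (nat_lit 1888452163198) (nat_lit 228) (nat_lit 435976393311) (nat_lit 304) (nat_lit 116265133884) (nat_lit 65) (nat_lit 5) (nat_lit 68) (nat_lit 5) (nat_lit 69) (nat_lit 5) (nat_lit 389) (nat_lit 382) (nat_lit 249)) (XT.nd (nat_lit 78) (nat_lit 228) (nat_lit 0) (XT.lf (nat_lit 0) (nat_lit 621713394366) (nat_lit 228) (nat_lit 505345518259) (nat_lit 76) (nat_lit 1520422764626) (nat_lit 62) (nat_lit 5) (nat_lit 65) (nat_lit 5) (nat_lit 63) (nat_lit 5) (nat_lit 390) (nat_lit 382) (nat_lit 248)) (XT.lf (nat_lit 0) (nat_lit 1575143141611) (nat_lit 304) (nat_lit 401262414946) (nat_lit 76) (nat_lit 899709625047) (nat_lit 59) (nat_lit 5) (nat_lit 63) (nat_lit 5) (nat_lit 60) (nat_lit 5) (nat_lit 391) (nat_lit 382) (nat_lit 247))))))) (XT.nd (nat_lit 702) (nat_lit 1216) (nat_lit 0) (XT.nd (nat_lit 312) (nat_lit 684) (nat_lit 0) (XT.nd (nat_lit 156) (nat_lit 456)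 (nat_lit 0) (XT.nd (nat_lit 78) (nat_lit 228) (nat_lit 0) (XT.lf (nat_lit 0) (nat_lit 2790718878053) (nat_lit 228) (nat_lit 223884069111) (nat_lit 76) (nat_lit 114910242277) (nat_lit 57) (nat_lit 5) (nat_lit 60) (nat_lit 5) (nat_lit 58) (nat_lit 5) (nat_lit 392) (nat_lit 382) (nat_lit 246)) (XT.lf (nat_lit 0) (nat_lit 882306295551) (nat_lit 228) (nat_lit 1870940355) (nat_lit 76) (nat_lit 2523026571979) (nat_lit 54) (nat_lit 5) (nat_lit 57) (nat_lit 5) (nat_lit 55) (nat_lit 5) (nat_lit 393) (nat_lit 382) (nat_lit 245))) (XT.nd (nat_lit 78) (nat_lit 152) (nat_lit 0) (XT.lf (nat_lit 0) (nat_lit 317860424041) (nat_lit 152) (nat_lit 2101808270340) (nat_lit 228) (nat_lit 1293922768153) (nat_lit 50) (nat_lit 5) (nat_lit 52) (nat_lit 5) (nat_lit 53) (nat_lit 5) (nat_lit 394) (nat_lit 382) (nat_lit 244)) (XT.lf (nat_lit 0) (nat_lit 272275158209) (nat_lit 152) (nat_lit 3305671995138) (nat_lit 76) (nat_lit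 475222779946) (nat_lit 48) (nat_lit 5) (nat_lit 50) (nat_lit 5) (nat_lit 49) (nat_lit 5) (nat_lit 395) (nat_lit 382) (nat_lit 243)))) (XT.nd (nat_lit 156) (nat_lit 456) (nat_lit 0) (XT.nd (nat_lit 78) (nat_lit 76) (nat_lit 0) (XT.lf (nat_lit 0) (nat_lit 1248015683887) (nat_lit 152) (nat_lit 940527295426) (nat_lit 228) (nat_lit 2237113134839) (nat_lit 46) (nat_lit 5) (nat_lit 48) (nat_lit 5) (nat_lit 49) (nat_lit 5) (nat_lit 396) (nat_lit 382) (nat_lit 242)) (XT.lf (nat_lit 0) (nat_lit 1879834380046) (nat_lit 76) (nat_lit 2706692313180) (nat_lit 152) (nat_lit 251946471343) (nat_lit 45) (nat_lit 5) (nat_lit 46) (nat_lit 5) (nat_lit 47) (nat_lit 4) (nat_lit 397) (nat_lit 382) (nat_lit 241))) (XT.nd (nat_lit 78) (nat_lit 228) (nat_lit 0) (XT.lf (nat_lit 0) (nat_lit 2126339937941) (nat_lit 228) (nat_lit 2669936211145) (nat_lit 76) (nat_lit 497273516701) (nat_lit 42) (nat_lit 5) (nat_lit 45) (nat_lit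 5) (nat_lit 43) (nat_lit 4) (nat_lit 398) (nat_lit 382) (nat_lit 240)) (XT.nd (nat_lit 78) (nat_lit 152) (nat_lit 0) (XT.lf (nat_lit 0) (nat_lit 3503569845864) (nat_lit 76) (nat_lit 1590801851323) (nat_lit 152) (nat_lit 702158785369) (nat_lit 41) (nat_lit 5) (nat_lit 42) (nat_lit 5) (nat_lit 43) (nat_lit 4) (nat_lit 399) (nat_lit 382) (nat_lit 239)) (XT.lf (nat_lit 0) (nat_lit 2272316042048) (nat_lit 152) (nat_lit 1840919008670) (nat_lit 76) (nat_lit 2237912146906) (nat_lit 39) (nat_lit 5) (nat_lit 41) (nat_lit 5) (nat_lit 40) (nat_lit 4) (nat_lit 400) (nat_lit 382) (nat_lit 238)))))) (XT.nd (nat_lit 390) (nat_lit 608) (nat_lit 0) (XT.nd (nat_lit 156) (nat_lit 380) (nat_lit 0) (XT.nd (nat_lit 78) (nat_lit 152) (nat_lit 0) (XT.lf (nat_lit 0) (nat_lit 5709599952658) (nat_lit 76) (nat_lit 192773283084) (nat_lit 152) (nat_lit 1065045210743) (nat_lit 38) (nat_lit 5) (nat_lit 39) (nat_lit 5) (nat_lit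 40) (nat_lit 4) (nat_lit 401) (nat_lit 382) (nat_lit 237)) (XT.lf (nat_lit 0) (nat_lit 2618348369166) (nat_lit 152) (nat_lit 634702409764) (nat_lit 76) (nat_lit 4391449410199) (nat_lit 36) (nat_lit 5) (nat_lit 38) (nat_lit 5) (nat_lit 37) (nat_lit 4) (nat_lit 402) (nat_lit 382) (nat_lit 236))) (XT.nd (nat_lit 78) (nat_lit 228) (nat_lit 0) (XT.lf (nat_lit 0) (nat_lit 135537574771) (nat_lit 76) (nat_lit 6946287514502) (nat_lit 76) (nat_lit 1315855089760) (nat_lit 34) (nat_lit 4) (nat_lit 35) (nat_lit 5) (nat_lit 35) (nat_lit 4) (nat_lit 403) (nat_lit 382) (nat_lit 235)) (XT.nd (nat_lit 78) (nat_lit 76) (nat_lit 0) (XT.lf (nat_lit 0) (nat_lit 994428809109) (nat_lit 76) (nat_lit 2190600630663) (nat_lit 152) (nat_lit 6042596939132) (nat_lit 32) (nat_lit 5) (nat_lit 33) (nat_lit 5) (nat_lit 34) (nat_lit 4) (nat_lit 404) (nat_lit 382) (nat_lit 234)) (XT.lf (nat_lit 0) (nat_lit 1953215160114) (nat_lit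 76) (nat_lit 6704746113815) (nat_lit 76) (nat_lit 1491382756053) (nat_lit 31) (nat_lit 4) (nat_lit 32) (nat_lit 5) (nat_lit 32) (nat_lit 4) (nat_lit 405) (nat_lit 382) (nat_lit 233))))) (XT.nd (nat_lit 156) (nat_lit 380) (nat_lit 0) (XT.nd (nat_lit 78) (nat_lit 76) (nat_lit 0) (XT.lf (nat_lit 0) (nat_lit 2967658102308) (nat_lit 76) (nat_lit 965525292251) (nat_lit 152) (nat_lit 7238704488856) (nat_lit 29) (nat_lit 5) (nat_lit 30) (nat_lit 5) (nat_lit 31) (nat_lit 4) (nat_lit 406) (nat_lit 382) (nat_lit 232)) (XT.lf (nat_lit 0) (nat_lit 3990274188478) (nat_lit 76) (nat_lit 6571661897459) (nat_lit 76) (nat_lit 1744473602171) (nat_lit 28) (nat_lit 4) (nat_lit 29) (nat_lit 5) (nat_lit 29) (nat_lit 4) (nat_lit 407) (nat_lit 382) (nat_lit 231))) (XT.nd (nat_lit 78) (nat_lit 228) (nat_lit 0) (XT.lf (nat_lit 0) (nat_lit 4744725482352) (nat_lit 152) (nat_lit 8550506361249) (nat_lit 0) (nat_lit 275106690021)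 (nat_lit 26) (nat_lit 5) (nat_lit 28) (nat_lit 4) (nat_lit 26) (nat_lit 4) (nat_lit 408) (nat_lit 382) (nat_lit 230)) (XT.nd (nat_lit 78) (nat_lit 152) (nat_lit 0) (XT.lf (nat_lit 0) (nat_lit 5914902327550) (nat_lit 76) (nat_lit 6764460132069) (nat_lit 76) (nat_lit 2294841339391) (nat_lit 25) (nat_lit 4) (nat_lit 26) (nat_lit 5) (nat_lit 26) (nat_lit 4) (nat_lit 409) (nat_lit 382) (nat_lit 229)) (XT.lf (nat_lit 0) (nat_lit 5403263538807) (nat_lit 152) (nat_lit 9874733363228) (nat_lit 0) (nat_lit 1264727619382) (nat_lit 23) (nat_lit 5) (nat_lit 25) (nat_lit 4) (nat_lit 23) (nat_lit 4) (nat_lit 410) (nat_lit 382) (nat_lit 228))))))))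
noncomputable def xc114 : XT := (XT.nd (nat_lit 51792) (nat_lit 0) (nat_lit 608) (XT.nd (nat_lit 51090) (nat_lit 0) (nat_lit 3268) (XT.nd (nat_lit 312) (nat_lit 228) (nat_lit 0) (XT.nd (nat_lit 156) (nat_lit 228) (nat_lit 0) (XT.nd (nat_lit 78) (nat_lit 152) (nat_lit 0) (XT.lf (nat_lit 0) (nat_lit 7074020843242) (nat_lit 76) (nat_lit 7677867583795) (nat_lit 76) (nat_lit 3539331664128) (nat_lit 22) (nat_lit 4) (nat_lit 23) (nat_lit 5) (nat_lit 23) (nat_lit 4) (nat_lit 411) (nat_lit 382) (nat_lit 227)) (XT.lf (nat_lit 0) (nat_lit 5447433213727) (nat_lit 152) (nat_lit 13188552322978) (nat_lit 0) (nat_lit 1615455510136) (nat_lit 20) (nat_lit 5) (nat_lit 22) (nat_lit 4) (nat_lit 20) (nat_lit 4) (nat_lit 412) (nat_lit 382) (nat_lit 226))) (XT.nd (nat_lit 78) (nat_lit 152) (nat_lit 0) (XT.lf (nat_lit 0) (nat_lit 6280135700007) (nat_lit 76) (nat_lit 9996915110396) (nat_lit 76) (nat_lit 6164937406635)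 (nat_lit 19) (nat_lit 4) (nat_lit 20) (nat_lit 5) (nat_lit 20) (nat_lit 4) (nat_lit 413) (nat_lit 382) (nat_lit 225)) (XT.lf (nat_lit 0) (nat_lit 4101683722066) (nat_lit 152) (nat_lit 20257001608474) (nat_lit 0) (nat_lit 553556218447) (nat_lit 17) (nat_lit 5) (nat_lit 19) (nat_lit 4) (nat_lit 17) (nat_lit 4) (nat_lit 414) (nat_lit 382) (nat_lit 224)))) (XT.nd (nat_lit 156) (nat_lit 76) (nat_lit 0) (XT.nd (nat_lit 78) (nat_lit 76) (nat_lit 0) (XT.lf (nat_lit 0) (nat_lit 1472669175650) (nat_lit 76) (nat_lit 14875638754614) (nat_lit 76) (nat_lit 11327511250876) (nat_lit 16) (nat_lit 4) (nat_lit 17) (nat_lit 5) (nat_lit 17) (nat_lit 4) (nat_lit 415) (nat_lit 382) (nat_lit 223)) (XT.lf (nat_lit 0) (nat_lit 204182113296) (nat_lit 152) (nat_lit 3123428708184) (nat_lit 76) (nat_lit 27478728238800) (nat_lit 15) (nat_lit 5) (nat_lit 17) (nat_lit 5) (nat_lit 16) (nat_lit 4) (nat_lit 416) (nat_lit 382)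 (nat_lit 222))) (XT.nd (nat_lit 50466) (nat_lit 0) (nat_lit 5092) (XT.lf (nat_lit 0) (nat_lit 13661611329233) (nat_lit 152) (nat_lit 10275644067948) (nat_lit 0) (nat_lit 10376308084852) (nat_lit 14) (nat_lit 5) (nat_lit 16) (nat_lit 4) (nat_lit 14) (nat_lit 4) (nat_lit 417) (nat_lit 382) (nat_lit 221)) (XT.nd (nat_lit 78) (nat_lit 0) (nat_lit 0) (XT.lf (nat_lit 0) (nat_lit 801806210447) (nat_lit 532) (nat_lit 12691185263) (nat_lit 532) (nat_lit 12691185263) (nat_lit 81) (nat_lit 3) (nat_lit 88) (nat_lit 3) (nat_lit 88) (nat_lit 5) (nat_lit 383) (nat_lit 383) (nat_lit 254)) (XT.lf (nat_lit 76) (nat_lit 1592880279191) (nat_lit 0) (nat_lit 169311922892) (nat_lit 532) (nat_lit 13198539034) (nat_lit 82) (nat_lit 5) (nat_lit 81) (nat_lit 3) (nat_lit 88) (nat_lit 5) (nat_lit 384) (nat_lit 383) (nat_lit 253)))))) (XT.nd (nat_lit 312) (nat_lit 1064) (nat_lit 0) (XT.nd (nat_lit 156) (nat_lit 304) (nat_lit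 0) (XT.nd (nat_lit 78) (nat_lit 0) (nat_lit 76) (XT.lf (nat_lit 0) (nat_lit 105602319376) (nat_lit 532) (nat_lit 327384471470) (nat_lit 608) (nat_lit 1475343795080) (nat_lit 75) (nat_lit 5) (nat_lit 82) (nat_lit 5) (nat_lit 83) (nat_lit 5) (nat_lit 385) (nat_lit 383) (nat_lit 252)) (XT.lf (nat_lit 0) (nat_lit 323284872436) (nat_lit 532) (nat_lit 453736514619) (nat_lit 608) (nat_lit 1277615149534) (nat_lit 76) (nat_lit 5) (nat_lit 83) (nat_lit 5) (nat_lit 84) (nat_lit 5) (nat_lit 386) (nat_lit 383) (nat_lit 251))) (XT.nd (nat_lit 78) (nat_lit 456) (nat_lit 0) (XT.lf (nat_lit 0) (nat_lit 661289165232) (nat_lit 532) (nat_lit 554846912661) (nat_lit 76) (nat_lit 999738753418) (nat_lit 77) (nat_lit 5) (nat_lit 84) (nat_lit 5) (nat_lit 78) (nat_lit 5) (nat_lit 387) (nat_lit 383) (nat_lit 250)) (XT.lf (nat_lit 0) (nat_lit 1143903830683) (nat_lit 532) (nat_lit 623080551247) (nat_lit 76) (nat_lit 626801710013)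 (nat_lit 71) (nat_lit 5) (nat_lit 78) (nat_lit 5) (nat_lit 72) (nat_lit 5) (nat_lit 388) (nat_lit 383) (nat_lit 249)))) (XT.nd (nat_lit 156) (nat_lit 608) (nat_lit 0) (XT.nd (nat_lit 78) (nat_lit 228) (nat_lit 0) (XT.lf (nat_lit 0) (nat_lit 1799474632048) (nat_lit 304) (nat_lit 649375032616) (nat_lit 76) (nat_lit 141489262119) (nat_lit 68) (nat_lit 5) (nat_lit 72) (nat_lit 5) (nat_lit 69) (nat_lit 5) (nat_lit 389) (nat_lit 383) (nat_lit 248)) (XT.lf (nat_lit 0) (nat_lit 2171720041121) (nat_lit 228) (nat_lit 501372844038) (nat_lit 304) (nat_lit 133704855169) (nat_lit 65) (nat_lit 5) (nat_lit 68) (nat_lit 5) (nat_lit 69) (nat_lit 5) (nat_lit 390) (nat_lit 383) (nat_lit 247))) (XT.nd (nat_lit 78) (nat_lit 380) (nat_lit 0) (XT.lf (nat_lit 0) (nat_lit 714970445294) (nat_lit 228) (nat_lit 581147291736) (nat_lit 76) (nat_lit 1748486188461) (nat_lit 62) (nat_lit 5) (nat_lit 65) (nat_lit 5) (nat_lit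 63) (nat_lit 5) (nat_lit 391) (nat_lit 383) (nat_lit 246)) (XT.nd (nat_lit 78) (nat_lit 152) (nat_lit 0) (XT.lf (nat_lit 0) (nat_lit 1811414650663) (nat_lit 304) (nat_lit 461451724804) (nat_lit 76) (nat_lit 1034666080347) (nat_lit 59) (nat_lit 5) (nat_lit 63) (nat_lit 5) (nat_lit 60) (nat_lit 5) (nat_lit 392) (nat_lit 383) (nat_lit 245)) (XT.lf (nat_lit 0) (nat_lit 3209326744127) (nat_lit 228) (nat_lit 257466629134) (nat_lit 76) (nat_lit 132146791841) (nat_lit 57) (nat_lit 5) (nat_lit 60) (nat_lit 5) (nat_lit 58) (nat_lit 5) (nat_lit 393) (nat_lit 383) (nat_lit 244))))))) (XT.nd (nat_lit 702) (nat_lit 1216) (nat_lit 0) (XT.nd (nat_lit 312) (nat_lit 608) (nat_lit 0) (XT.nd (nat_lit 156) (nat_lit 304) (nat_lit 0) (XT.nd (nat_lit 78) (nat_lit 304) (nat_lit 0) (XT.lf (nat_lit 0) (nat_lit 1014652271685) (nat_lit 228) (nat_lit 2151533646) (nat_lit 76) (nat_lit 2901480571187) (nat_lit 54) (nat_lit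 5) (nat_lit 57) (nat_lit 5) (nat_lit 55) (nat_lit 5) (nat_lit 394) (nat_lit 383) (nat_lit 243)) (XT.lf (nat_lit 0) (nat_lit 365539535710) (nat_lit 152) (nat_lit 2417079493051) (nat_lit 228) (nat_lit 1488011150731) (nat_lit 50) (nat_lit 5) (nat_lit 52) (nat_lit 5) (nat_lit 53) (nat_lit 5) (nat_lit 395) (nat_lit 383) (nat_lit 242))) (XT.nd (nat_lit 78) (nat_lit 152) (nat_lit 0) (XT.lf (nat_lit 0) (nat_lit 313116460420) (nat_lit 152) (nat_lit 3801522747087) (nat_lit 76) (nat_lit 546506213499) (nat_lit 48) (nat_lit 5) (nat_lit 50) (nat_lit 5) (nat_lit 49) (nat_lit 5) (nat_lit 396) (nat_lit 383) (nat_lit 241)) (XT.lf (nat_lit 0) (nat_lit 1435218079786) (nat_lit 152) (nat_lit 1081606372231) (nat_lit 228) (nat_lit 2572680077191) (nat_lit 46) (nat_lit 5) (nat_lit 48) (nat_lit 5) (nat_lit 49) (nat_lit 5) (nat_lit 397) (nat_lit 383) (nat_lit 240)))) (XT.nd (nat_lit 156) (nat_lit 304) (nat_lit 0) (XT.nd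 (nat_lit 78) (nat_lit 228) (nat_lit 0) (XT.lf (nat_lit 0) (nat_lit 2161809578210) (nat_lit 76) (nat_lit 3112696142797) (nat_lit 152) (nat_lit 289738416342) (nat_lit 45) (nat_lit 5) (nat_lit 46) (nat_lit 5) (nat_lit 47) (nat_lit 4) (nat_lit 398) (nat_lit 383) (nat_lit 239)) (XT.lf (nat_lit 0) (nat_lit 2445290951200) (nat_lit 228) (nat_lit 3070426602591) (nat_lit 76) (nat_lit 571864560057) (nat_lit 42) (nat_lit 5) (nat_lit 45) (nat_lit 5) (nat_lit 43) (nat_lit 4) (nat_lit 399) (nat_lit 383) (nat_lit 238))) (XT.nd (nat_lit 78) (nat_lit 228) (nat_lit 0) (XT.lf (nat_lit 0) (nat_lit 4029105359564) (nat_lit 76) (nat_lit 1829422112711) (nat_lit 152) (nat_lit 807482581022) (nat_lit 41) (nat_lit 5) (nat_lit 42) (nat_lit 5) (nat_lit 43) (nat_lit 4) (nat_lit 400) (nat_lit 383) (nat_lit 237)) (XT.nd (nat_lit 78) (nat_lit 76) (nat_lit 0) (XT.lf (nat_lit 0) (nat_lit 2613163467864) (nat_lit 152) (nat_lit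 2117056824093) (nat_lit 76) (nat_lit 2573598983749) (nat_lit 39) (nat_lit 5) (nat_lit 41) (nat_lit 5) (nat_lit 40) (nat_lit 4) (nat_lit 401) (nat_lit 383) (nat_lit 236)) (XT.lf (nat_lit 0) (nat_lit 6566039978398) (nat_lit 76) (nat_lit 221689260460) (nat_lit 152) (nat_lit 1224801973179) (nat_lit 38) (nat_lit 5) (nat_lit 39) (nat_lit 5) (nat_lit 40) (nat_lit 4) (nat_lit 402) (nat_lit 383) (nat_lit 235)))))) (XT.nd (nat_lit 390) (nat_lit 532) (nat_lit 0) (XT.nd (nat_lit 156) (nat_lit 380) (nat_lit 0) (XT.nd (nat_lit 78) (nat_lit 152) (nat_lit 0) (XT.lf (nat_lit 0) (nat_lit 3011100641471) (nat_lit 152) (nat_lit 729907739307) (nat_lit 76) (nat_lit 5050166835367) (nat_lit 36) (nat_lit 5) (nat_lit 38) (nat_lit 5) (nat_lit 37) (nat_lit 4) (nat_lit 403) (nat_lit 383) (nat_lit 234)) (XT.lf (nat_lit 0) (nat_lit 155868242697) (nat_lit 76) (nat_lit 7988230626486) (nat_lit 76) (nat_lit 1513233335383) (nat_lit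 34) (nat_lit 4) (nat_lit 35) (nat_lit 5) (nat_lit 35) (nat_lit 4) (nat_lit 404) (nat_lit 383) (nat_lit 233))) (XT.nd (nat_lit 78) (nat_lit 228) (nat_lit 0) (XT.lf (nat_lit 0) (nat_lit 1143593160319) (nat_lit 76) (nat_lit 2519190710875) (nat_lit 152) (nat_lit 6948986463309) (nat_lit 32) (nat_lit 5) (nat_lit 33) (nat_lit 5) (nat_lit 34) (nat_lit 4) (nat_lit 405) (nat_lit 383) (nat_lit 232)) (XT.nd (nat_lit 78) (nat_lit 152) (nat_lit 0) (XT.lf (nat_lit 0) (nat_lit 2246197462264) (nat_lit 76) (nat_lit 7710458017172) (nat_lit 76) (nat_lit 1715090153890) (nat_lit 31) (nat_lit 4) (nat_lit 32) (nat_lit 5) (nat_lit 32) (nat_lit 4) (nat_lit 406) (nat_lit 383) (nat_lit 231)) (XT.lf (nat_lit 0) (nat_lit 3412806844119) (nat_lit 76) (nat_lit 1110354073123) (nat_lit 152) (nat_lit 8324510147604) (nat_lit 29) (nat_lit 5) (nat_lit 30) (nat_lit 5) (nat_lit 31) (nat_lit 4) (nat_lit 407) (nat_lit 383) (nat_lit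 230))))) (XT.nd (nat_lit 156) (nat_lit 304) (nat_lit 0) (XT.nd (nat_lit 78) (nat_lit 152) (nat_lit 0) (XT.lf (nat_lit 0) (nat_lit 4588815341678) (nat_lit 76) (nat_lit 7557411169759) (nat_lit 76) (nat_lit 2006144628879) (nat_lit 28) (nat_lit 4) (nat_lit 29) (nat_lit 5) (nat_lit 29) (nat_lit 4) (nat_lit 408) (nat_lit 383) (nat_lit 229)) (XT.lf (nat_lit 0) (nat_lit 5456434316798) (nat_lit 152) (nat_lit 9833082291329) (nat_lit 0) (nat_lit 316372704571) (nat_lit 26) (nat_lit 5) (nat_lit 28) (nat_lit 4) (nat_lit 26) (nat_lit 4) (nat_lit 409) (nat_lit 383) (nat_lit 228))) (XT.nd (nat_lit 78) (nat_lit 228) (nat_lit 0) (XT.lf (nat_lit 0) (nat_lit 6802137698750) (nat_lit 76) (nat_lit 7779129140858) (nat_lit 76) (nat_lit 2639067528369) (nat_lit 25) (nat_lit 4) (nat_lit 26) (nat_lit 5) (nat_lit 26) (nat_lit 4) (nat_lit 410) (nat_lit 383) (nat_lit 227)) (XT.nd (nat_lit 78) (nat_lit 76) (nat_lit 0) (XT.lf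 (nat_lit 0) (nat_lit 6213753080233) (nat_lit 152) (nat_lit 11355943346387) (nat_lit 0) (nat_lit 1454436772162) (nat_lit 23) (nat_lit 5) (nat_lit 25) (nat_lit 4) (nat_lit 23) (nat_lit 4) (nat_lit 411) (nat_lit 383) (nat_lit 226)) (XT.lf (nat_lit 0) (nat_lit 8135123989248) (nat_lit 76) (nat_lit 8829547711535) (nat_lit 76) (nat_lit 4070231403281) (nat_lit 22) (nat_lit 4) (nat_lit 23) (nat_lit 5) (nat_lit 23) (nat_lit 4) (nat_lit 412) (nat_lit 383) (nat_lit 225))))))))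
noncomputable def xc115 : XT := (XT.nd (nat_lit 51870) (nat_lit 0) (nat_lit 304) (XT.nd (nat_lit 51168) (nat_lit 0) (nat_lit 2660) (XT.nd (nat_lit 312) (nat_lit 76) (nat_lit 0) (XT.nd (nat_lit 156) (nat_lit 228) (nat_lit 0) (XT.nd (nat_lit 78) (nat_lit 76) (nat_lit 0) (XT.lf (nat_lit 0) (nat_lit 6264548205096) (nat_lit 152) (nat_lit 15166835152573) (nat_lit 0) (nat_lit 1857773845454) (nat_lit 20) (nat_lit 5) (nat_lit 22) (nat_lit 4) (nat_lit 20) (nat_lit 4) (nat_lit 413) (nat_lit 383) (nat_lit 224)) (XT.lf (nat_lit 0) (nat_lit 7222156072264) (nat_lit 76) (nat_lit 11496452368210) (nat_lit 76) (nat_lit 7089678008439) (nat_lit 19) (nat_lit 4) (nat_lit 20) (nat_lit 5) (nat_lit 20) (nat_lit 4) (nat_lit 414) (nat_lit 383) (nat_lit 223))) (XT.nd (nat_lit 78) (nat_lit 76) (nat_lit 0) (XT.lf (nat_lit 0) (nat_lit 4716936288556) (nat_lit 152) (nat_lit 23295551833088) (nat_lit 0) (nat_lit 636589659035)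 (nat_lit 17) (nat_lit 5) (nat_lit 19) (nat_lit 4) (nat_lit 17) (nat_lit 4) (nat_lit 415) (nat_lit 383) (nat_lit 222)) (XT.lf (nat_lit 0) (nat_lit 1693569567245) (nat_lit 76) (nat_lit 17106984560039) (nat_lit 76) (nat_lit 13026637930428) (nat_lit 16) (nat_lit 4) (nat_lit 17) (nat_lit 5) (nat_lit 17) (nat_lit 4) (nat_lit 416) (nat_lit 383) (nat_lit 221)))) (XT.nd (nat_lit 50622) (nat_lit 0) (nat_lit 4560) (XT.nd (nat_lit 50544) (nat_lit 0) (nat_lit 5016) (XT.lf (nat_lit 0) (nat_lit 234809436964) (nat_lit 152) (nat_lit 3591943000802) (nat_lit 76) (nat_lit 31600537481022) (nat_lit 15) (nat_lit 5) (nat_lit 17) (nat_lit 5) (nat_lit 16) (nat_lit 4) (nat_lit 417) (nat_lit 383) (nat_lit 220)) (XT.lf (nat_lit 0) (nat_lit 922077180931) (nat_lit 532) (nat_lit 14594842033) (nat_lit 532) (nat_lit 14594842033) (nat_lit 81) (nat_lit 3) (nat_lit 88) (nat_lit 3) (nat_lit 88) (nat_lit 5) (nat_lit 384) (nat_lit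 384) (nat_lit 252))) (XT.nd (nat_lit 78) (nat_lit 456) (nat_lit 0) (XT.lf (nat_lit 76) (nat_lit 1831812359550) (nat_lit 0) (nat_lit 194708741450) (nat_lit 532) (nat_lit 15178245777) (nat_lit 82) (nat_lit 5) (nat_lit 81) (nat_lit 3) (nat_lit 88) (nat_lit 5) (nat_lit 385) (nat_lit 384) (nat_lit 251)) (XT.nd (nat_lit 78) (nat_lit 0) (nat_lit 76) (XT.lf (nat_lit 0) (nat_lit 121442728867) (nat_lit 532) (nat_lit 376492098006) (nat_lit 608) (nat_lit 1696645342001) (nat_lit 75) (nat_lit 5) (nat_lit 82) (nat_lit 5) (nat_lit 83) (nat_lit 5) (nat_lit 386) (nat_lit 384) (nat_lit 250)) (XT.lf (nat_lit 0) (nat_lit 371777657488) (nat_lit 532) (nat_lit 521796946654) (nat_lit 608) (nat_lit 1469257408589) (nat_lit 76) (nat_lit 5) (nat_lit 83) (nat_lit 5) (nat_lit 84) (nat_lit 5) (nat_lit 387) (nat_lit 384) (nat_lit 249)))))) (XT.nd (nat_lit 312) (nat_lit 1140) (nat_lit 0) (XT.nd (nat_lit 156) (nat_lit 456)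 (nat_lit 0) (XT.nd (nat_lit 78) (nat_lit 456) (nat_lit 0) (XT.lf (nat_lit 0) (nat_lit 760482587966) (nat_lit 532) (nat_lit 638073904202) (nat_lit 76) (nat_lit 1149699559993) (nat_lit 77) (nat_lit 5) (nat_lit 84) (nat_lit 5) (nat_lit 78) (nat_lit 5) (nat_lit 388) (nat_lit 384) (nat_lit 248)) (XT.lf (nat_lit 0) (nat_lit 1315489447951) (nat_lit 532) (nat_lit 716542588962) (nat_lit 76) (nat_lit 720821965400) (nat_lit 71) (nat_lit 5) (nat_lit 78) (nat_lit 5) (nat_lit 72) (nat_lit 5) (nat_lit 389) (nat_lit 384) (nat_lit 247))) (XT.nd (nat_lit 78) (nat_lit 228) (nat_lit 0) (XT.lf (nat_lit 0) (nat_lit 2069395865020) (nat_lit 304) (nat_lit 746781243361) (nat_lit 76) (nat_lit 162712654359) (nat_lit 68) (nat_lit 5) (nat_lit 72) (nat_lit 5) (nat_lit 69) (nat_lit 5) (nat_lit 390) (nat_lit 384) (nat_lit 246)) (XT.lf (nat_lit 0) (nat_lit 2497478087699) (nat_lit 228) (nat_lit 576578764392) (nat_lit 304)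 (nat_lit 153760546546) (nat_lit 65) (nat_lit 5) (nat_lit 68) (nat_lit 5) (nat_lit 69) (nat_lit 5) (nat_lit 391) (nat_lit 384) (nat_lit 245)))) (XT.nd (nat_lit 156) (nat_lit 684) (nat_lit 0) (XT.nd (nat_lit 78) (nat_lit 228) (nat_lit 0) (XT.lf (nat_lit 0) (nat_lit 822216043673) (nat_lit 228) (nat_lit 668319344467) (nat_lit 76) (nat_lit 2010759123641) (nat_lit 62) (nat_lit 5) (nat_lit 65) (nat_lit 5) (nat_lit 63) (nat_lit 5) (nat_lit 392) (nat_lit 384) (nat_lit 244)) (XT.lf (nat_lit 0) (nat_lit 2083126876852) (nat_lit 304) (nat_lit 530669443914) (nat_lit 76) (nat_lit 1189866001127) (nat_lit 59) (nat_lit 5) (nat_lit 63) (nat_lit 5) (nat_lit 60) (nat_lit 5) (nat_lit 393) (nat_lit 384) (nat_lit 243))) (XT.nd (nat_lit 78) (nat_lit 532) (nat_lit 0) (XT.lf (nat_lit 0) (nat_lit 3690725781733) (nat_lit 228) (nat_lit 296086585436) (nat_lit 76) (nat_lit 151968820615) (nat_lit 57) (nat_lit 5) (nat_lit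 60) (nat_lit 5) (nat_lit 58) (nat_lit 5) (nat_lit 394) (nat_lit 384) (nat_lit 242)) (XT.nd (nat_lit 78) (nat_lit 304) (nat_lit 0) (XT.lf (nat_lit 0) (nat_lit 1166850136485) (nat_lit 228) (nat_lit 2474227578) (nat_lit 76) (nat_lit 3336702667006) (nat_lit 54) (nat_lit 5) (nat_lit 57) (nat_lit 5) (nat_lit 55) (nat_lit 5) (nat_lit 395) (nat_lit 384) (nat_lit 241)) (XT.lf (nat_lit 0) (nat_lit 420370502410) (nat_lit 152) (nat_lit 2779641403519) (nat_lit 228) (nat_lit 1711212798657) (nat_lit 50) (nat_lit 5) (nat_lit 52) (nat_lit 5) (nat_lit 53) (nat_lit 5) (nat_lit 396) (nat_lit 384) (nat_lit 240))))))) (XT.nd (nat_lit 702) (nat_lit 1140) (nat_lit 0) (XT.nd (nat_lit 312) (nat_lit 608) (nat_lit 0) (XT.nd (nat_lit 156) (nat_lit 304) (nat_lit 0) (XT.nd (nat_lit 78) (nat_lit 152) (nat_lit 0) (XT.lf (nat_lit 0) (nat_lit 360083951017) (nat_lit 152) (nat_lit 4371751123368) (nat_lit 76) (nat_lit 628482158046)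 (nat_lit 48) (nat_lit 5) (nat_lit 50) (nat_lit 5) (nat_lit 49) (nat_lit 5) (nat_lit 397) (nat_lit 384) (nat_lit 239)) (XT.lf (nat_lit 0) (nat_lit 1650500824508) (nat_lit 152) (nat_lit 1243847314826) (nat_lit 228) (nat_lit 2958582067692) (nat_lit 46) (nat_lit 5) (nat_lit 48) (nat_lit 5) (nat_lit 49) (nat_lit 5) (nat_lit 398) (nat_lit 384) (nat_lit 238))) (XT.nd (nat_lit 78) (nat_lit 228) (nat_lit 0) (XT.lf (nat_lit 0) (nat_lit 2486081046062) (nat_lit 76) (nat_lit 3579600551090) (nat_lit 152) (nat_lit 333199159358) (nat_lit 45) (nat_lit 5) (nat_lit 46) (nat_lit 5) (nat_lit 47) (nat_lit 4) (nat_lit 399) (nat_lit 384) (nat_lit 237)) (XT.lf (nat_lit 0) (nat_lit 2812084610944) (nat_lit 228) (nat_lit 3530990562563) (nat_lit 76) (nat_lit 657644256051) (nat_lit 42) (nat_lit 5) (nat_lit 45) (nat_lit 5) (nat_lit 43) (nat_lit 4) (nat_lit 400) (nat_lit 384) (nat_lit 236)))) (XT.nd (nat_lit 156) (nat_lit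 380) (nat_lit 0) (XT.nd (nat_lit 78) (nat_lit 152) (nat_lit 0) (XT.lf (nat_lit 0) (nat_lit 4633471191341) (nat_lit 76) (nat_lit 2103835417284) (nat_lit 152) (nat_lit 928604951425) (nat_lit 41) (nat_lit 5) (nat_lit 42) (nat_lit 5) (nat_lit 43) (nat_lit 4) (nat_lit 401) (nat_lit 384) (nat_lit 235)) (XT.lf (nat_lit 0) (nat_lit 3005138002795) (nat_lit 152) (nat_lit 2434615320578) (nat_lit 76) (nat_lit 2959638842507) (nat_lit 39) (nat_lit 5) (nat_lit 41) (nat_lit 5) (nat_lit 40) (nat_lit 4) (nat_lit 402) (nat_lit 384) (nat_lit 234))) (XT.nd (nat_lit 78) (nat_lit 304) (nat_lit 0) (XT.lf (nat_lit 0) (nat_lit 7550945999990) (nat_lit 76) (nat_lit 254942638122) (nat_lit 152) (nat_lit 1408522254656) (nat_lit 38) (nat_lit 5) (nat_lit 39) (nat_lit 5) (nat_lit 40) (nat_lit 4) (nat_lit 403) (nat_lit 384) (nat_lit 233)) (XT.nd (nat_lit 78) (nat_lit 152) (nat_lit 0) (XT.lf (nat_lit 0) (nat_lit 3462765750493)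 (nat_lit 152) (nat_lit 839393876065) (nat_lit 76) (nat_lit 5807691870983) (nat_lit 36) (nat_lit 5) (nat_lit 38) (nat_lit 5) (nat_lit 37) (nat_lit 4) (nat_lit 404) (nat_lit 384) (nat_lit 232)) (XT.lf (nat_lit 0) (nat_lit 179248503078) (nat_lit 76) (nat_lit 9186465208973) (nat_lit 76) (nat_lit 1740218322200) (nat_lit 34) (nat_lit 4) (nat_lit 35) (nat_lit 5) (nat_lit 35) (nat_lit 4) (nat_lit 405) (nat_lit 384) (nat_lit 231)))))) (XT.nd (nat_lit 390) (nat_lit 532) (nat_lit 0) (XT.nd (nat_lit 156) (nat_lit 380) (nat_lit 0) (XT.nd (nat_lit 78) (nat_lit 76) (nat_lit 0) (XT.lf (nat_lit 0) (nat_lit 1315132156933) (nat_lit 76) (nat_lit 2897069306628) (nat_lit 152) (nat_lit 7991334420183) (nat_lit 32) (nat_lit 5) (nat_lit 33) (nat_lit 5) (nat_lit 34) (nat_lit 4) (nat_lit 406) (nat_lit 384) (nat_lit 230)) (XT.lf (nat_lit 0) (nat_lit 2583127102876) (nat_lit 76) (nat_lit 8867026709376) (nat_lit 76) (nat_lit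 1972353665200) (nat_lit 31) (nat_lit 4) (nat_lit 32) (nat_lit 5) (nat_lit 32) (nat_lit 4) (nat_lit 407) (nat_lit 384) (nat_lit 229))) (XT.nd (nat_lit 78) (nat_lit 228) (nat_lit 0) (XT.lf (nat_lit 0) (nat_lit 3924727890749) (nat_lit 76) (nat_lit 1276907174287) (nat_lit 152) (nat_lit 9573186658721) (nat_lit 29) (nat_lit 5) (nat_lit 30) (nat_lit 5) (nat_lit 31) (nat_lit 4) (nat_lit 408) (nat_lit 384) (nat_lit 228)) (XT.nd (nat_lit 78) (nat_lit 152) (nat_lit 0) (XT.lf (nat_lit 0) (nat_lit 5277137661779) (nat_lit 76) (nat_lit 8691022835907) (nat_lit 76) (nat_lit 2307066312913) (nat_lit 28) (nat_lit 4) (nat_lit 29) (nat_lit 5) (nat_lit 29) (nat_lit 4) (nat_lit 409) (nat_lit 384) (nat_lit 227)) (XT.lf (nat_lit 0) (nat_lit 6274899473462) (nat_lit 152) (nat_lit 11308044616799) (nat_lit 0) (nat_lit 363828618610) (nat_lit 26) (nat_lit 5) (nat_lit 28) (nat_lit 4) (nat_lit 26) (nat_lit 4) (nat_lit 410)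 (nat_lit 384) (nat_lit 226))))) (XT.nd (nat_lit 156) (nat_lit 304) (nat_lit 0) (XT.nd (nat_lit 78) (nat_lit 152) (nat_lit 0) (XT.lf (nat_lit 0) (nat_lit 7822458370249) (nat_lit 76) (nat_lit 8945998503654) (nat_lit 76) (nat_lit 3034927648604) (nat_lit 25) (nat_lit 4) (nat_lit 26) (nat_lit 5) (nat_lit 26) (nat_lit 4) (nat_lit 411) (nat_lit 384) (nat_lit 225)) (XT.lf (nat_lit 0) (nat_lit 7145816050286) (nat_lit 152) (nat_lit 13059334832221) (nat_lit 0) (nat_lit 1672602295451) (nat_lit 23) (nat_lit 5) (nat_lit 25) (nat_lit 4) (nat_lit 23) (nat_lit 4) (nat_lit 412) (nat_lit 384) (nat_lit 224))) (XT.nd (nat_lit 78) (nat_lit 228) (nat_lit 0) (XT.lf (nat_lit 0) (nat_lit 9355392602395) (nat_lit 76) (nat_lit 10153979860834) (nat_lit 76) (nat_lit 4680766105860) (nat_lit 22) (nat_lit 4) (nat_lit 23) (nat_lit 5) (nat_lit 23) (nat_lit 4) (nat_lit 413) (nat_lit 384) (nat_lit 223)) (XT.nd (nat_lit 78) (nat_lit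 76) (nat_lit 0) (XT.lf (nat_lit 0) (nat_lit 7204230442900) (nat_lit 152) (nat_lit 17441860411205) (nat_lit 0) (nat_lit 2136439928923) (nat_lit 20) (nat_lit 5) (nat_lit 22) (nat_lit 4) (nat_lit 20) (nat_lit 4) (nat_lit 414) (nat_lit 384) (nat_lit 222)) (XT.lf (nat_lit 0) (nat_lit 8305479496152) (nat_lit 76) (nat_lit 13220920216829) (nat_lit 76) (nat_lit 8153129702755) (nat_lit 19) (nat_lit 4) (nat_lit 20) (nat_lit 5) (nat_lit 20) (nat_lit 4) (nat_lit 415) (nat_lit 384) (nat_lit 221))))))))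
noncomputable def xc116 : XT := (XT.nd (nat_lit 52026) (nat_lit 0) (nat_lit 152) (XT.nd (nat_lit 51324) (nat_lit 0) (nat_lit 1900) (XT.nd (nat_lit 50934) (nat_lit 0) (nat_lit 3648) (XT.nd (nat_lit 50778) (nat_lit 0) (nat_lit 4408) (XT.nd (nat_lit 50700) (nat_lit 0) (nat_lit 4864) (XT.lf (nat_lit 0) (nat_lit 5424476738026) (nat_lit 152) (nat_lit 26789884595456) (nat_lit 0) (nat_lit 732078113805) (nat_lit 17) (nat_lit 5) (nat_lit 19) (nat_lit 4) (nat_lit 17) (nat_lit 4) (nat_lit 416) (nat_lit 384) (nat_lit 220)) (XT.lf (nat_lit 0) (nat_lit 1060388787496) (nat_lit 532) (nat_lit 16784052444) (nat_lit 532) (nat_lit 16784052444) (nat_lit 81) (nat_lit 3) (nat_lit 88) (nat_lit 3) (nat_lit 88) (nat_lit 5) (nat_lit 385) (nat_lit 385) (nat_lit 250))) (XT.nd (nat_lit 78) (nat_lit 456) (nat_lit 0) (XT.lf (nat_lit 76) (nat_lit 2106584242580) (nat_lit 0) (nat_lit 223915075446) (nat_lit 532) (nat_lit 17454926605)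 (nat_lit 82) (nat_lit 5) (nat_lit 81) (nat_lit 3) (nat_lit 88) (nat_lit 5) (nat_lit 386) (nat_lit 385) (nat_lit 249)) (XT.lf (nat_lit 0) (nat_lit 139659184764) (nat_lit 532) (nat_lit 432965879297) (nat_lit 608) (nat_lit 1951142126408) (nat_lit 75) (nat_lit 5) (nat_lit 82) (nat_lit 5) (nat_lit 83) (nat_lit 5) (nat_lit 387) (nat_lit 385) (nat_lit 248)))) (XT.nd (nat_lit 156) (nat_lit 836) (nat_lit 0) (XT.nd (nat_lit 78) (nat_lit 0) (nat_lit 76) (XT.lf (nat_lit 0) (nat_lit 427544347083) (nat_lit 532) (nat_lit 600066454506) (nat_lit 608) (nat_lit 1689646009764) (nat_lit 76) (nat_lit 5) (nat_lit 83) (nat_lit 5) (nat_lit 84) (nat_lit 5) (nat_lit 388) (nat_lit 385) (nat_lit 247)) (XT.lf (nat_lit 0) (nat_lit 874555012418) (nat_lit 532) (nat_lit 733784955535) (nat_lit 76) (nat_lit 1322154489124) (nat_lit 77) (nat_lit 5) (nat_lit 84) (nat_lit 5) (nat_lit 78) (nat_lit 5) (nat_lit 389) (nat_lit 385)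 (nat_lit 246))) (XT.nd (nat_lit 78) (nat_lit 456) (nat_lit 0) (XT.lf (nat_lit 0) (nat_lit 1512812897405) (nat_lit 532) (nat_lit 824023943300) (nat_lit 76) (nat_lit 828945259366) (nat_lit 71) (nat_lit 5) (nat_lit 78) (nat_lit 5) (nat_lit 72) (nat_lit 5) (nat_lit 390) (nat_lit 385) (nat_lit 245)) (XT.nd (nat_lit 78) (nat_lit 228) (nat_lit 0) (XT.lf (nat_lit 0) (nat_lit 2379805273630) (nat_lit 304) (nat_lit 858798396484) (nat_lit 76) (nat_lit 187119554722) (nat_lit 68) (nat_lit 5) (nat_lit 72) (nat_lit 5) (nat_lit 69) (nat_lit 5) (nat_lit 391) (nat_lit 385) (nat_lit 244)) (XT.lf (nat_lit 0) (nat_lit 2872099831411) (nat_lit 228) (nat_lit 663065574323) (nat_lit 304) (nat_lit 176824600627) (nat_lit 65) (nat_lit 5) (nat_lit 68) (nat_lit 5) (nat_lit 69) (nat_lit 5) (nat_lit 392) (nat_lit 385) (nat_lit 243)))))) (XT.nd (nat_lit 312) (nat_lit 912) (nat_lit 0) (XT.nd (nat_lit 156) (nat_lit 380) (nat_lit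 0) (XT.nd (nat_lit 78) (nat_lit 228) (nat_lit 0) (XT.lf (nat_lit 0) (nat_lit 945548474108) (nat_lit 228) (nat_lit 768567215113) (nat_lit 76) (nat_lit 2312372997413) (nat_lit 62) (nat_lit 5) (nat_lit 65) (nat_lit 5) (nat_lit 63) (nat_lit 5) (nat_lit 393) (nat_lit 385) (nat_lit 242)) (XT.lf (nat_lit 0) (nat_lit 2395595929998) (nat_lit 304) (nat_lit 610269830550) (nat_lit 76) (nat_lit 1368345907895) (nat_lit 59) (nat_lit 5) (nat_lit 63) (nat_lit 5) (nat_lit 60) (nat_lit 5) (nat_lit 394) (nat_lit 385) (nat_lit 241))) (XT.nd (nat_lit 78) (nat_lit 228) (nat_lit 0) (XT.lf (nat_lit 0) (nat_lit 4244334668642) (nat_lit 228) (nat_lit 340499544468) (nat_lit 76) (nat_lit 174764151268) (nat_lit 57) (nat_lit 5) (nat_lit 60) (nat_lit 5) (nat_lit 58) (nat_lit 5) (nat_lit 395) (nat_lit 385) (nat_lit 240)) (XT.lf (nat_lit 0) (nat_lit 1341877675141) (nat_lit 228) (nat_lit 2845334407) (nat_lit 76) (nat_lit 3837208074724)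 (nat_lit 54) (nat_lit 5) (nat_lit 57) (nat_lit 5) (nat_lit 55) (nat_lit 5) (nat_lit 396) (nat_lit 385) (nat_lit 239)))) (XT.nd (nat_lit 156) (nat_lit 456) (nat_lit 0) (XT.nd (nat_lit 78) (nat_lit 152) (nat_lit 0) (XT.lf (nat_lit 0) (nat_lit 483426105251) (nat_lit 152) (nat_lit 3196587603846) (nat_lit 228) (nat_lit 1967894699792) (nat_lit 50) (nat_lit 5) (nat_lit 52) (nat_lit 5) (nat_lit 53) (nat_lit 5) (nat_lit 397) (nat_lit 385) (nat_lit 238)) (XT.lf (nat_lit 0) (nat_lit 414096559953) (nat_lit 152) (nat_lit 5027513764816) (nat_lit 76) (nat_lit 722754491221) (nat_lit 48) (nat_lit 5) (nat_lit 50) (nat_lit 5) (nat_lit 49) (nat_lit 5) (nat_lit 398) (nat_lit 385) (nat_lit 237))) (XT.nd (nat_lit 78) (nat_lit 304) (nat_lit 0) (XT.lf (nat_lit 0) (nat_lit 1898075972950) (nat_lit 152) (nat_lit 1430424402039) (nat_lit 228) (nat_lit 3402369361909) (nat_lit 46) (nat_lit 5) (nat_lit 48) (nat_lit 5) (nat_lit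 49) (nat_lit 5) (nat_lit 399) (nat_lit 385) (nat_lit 236)) (XT.nd (nat_lit 78) (nat_lit 228) (nat_lit 0) (XT.lf (nat_lit 0) (nat_lit 2858993226503) (nat_lit 76) (nat_lit 4116540623828) (nat_lit 152) (nat_lit 383179018566) (nat_lit 45) (nat_lit 5) (nat_lit 46) (nat_lit 5) (nat_lit 47) (nat_lit 4) (nat_lit 400) (nat_lit 385) (nat_lit 235)) (XT.lf (nat_lit 0) (nat_lit 3233897315489) (nat_lit 228) (nat_lit 4060639123948) (nat_lit 76) (nat_lit 756290903522) (nat_lit 42) (nat_lit 5) (nat_lit 45) (nat_lit 5) (nat_lit 43) (nat_lit 4) (nat_lit 401) (nat_lit 385) (nat_lit 234))))))) (XT.nd (nat_lit 702) (nat_lit 684) (nat_lit 0) (XT.nd (nat_lit 312) (nat_lit 608) (nat_lit 0) (XT.nd (nat_lit 156) (nat_lit 228) (nat_lit 0) (XT.nd (nat_lit 78) (nat_lit 152) (nat_lit 0) (XT.lf (nat_lit 0) (nat_lit 5328491891095) (nat_lit 76) (nat_lit 2419410720550) (nat_lit 152) (nat_lit 1067895681473) (nat_lit 41) (nat_lit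 5) (nat_lit 42) (nat_lit 5) (nat_lit 43) (nat_lit 4) (nat_lit 402) (nat_lit 385) (nat_lit 233)) (XT.lf (nat_lit 0) (nat_lit 3455908714369) (nat_lit 152) (nat_lit 2799807598152) (nat_lit 76) (nat_lit 3403584677348) (nat_lit 39) (nat_lit 5) (nat_lit 41) (nat_lit 5) (nat_lit 40) (nat_lit 4) (nat_lit 403) (nat_lit 385) (nat_lit 232))) (XT.nd (nat_lit 78) (nat_lit 152) (nat_lit 0) (XT.lf (nat_lit 0) (nat_lit 8683587918765) (nat_lit 76) (nat_lit 293184025215) (nat_lit 152) (nat_lit 1619800581891) (nat_lit 38) (nat_lit 5) (nat_lit 39) (nat_lit 5) (nat_lit 40) (nat_lit 4) (nat_lit 404) (nat_lit 385) (nat_lit 231)) (XT.lf (nat_lit 0) (nat_lit 3982180622746) (nat_lit 152) (nat_lit 965302939223) (nat_lit 76) (nat_lit 6678845659428) (nat_lit 36) (nat_lit 5) (nat_lit 38) (nat_lit 5) (nat_lit 37) (nat_lit 4) (nat_lit 405) (nat_lit 385) (nat_lit 230)))) (XT.nd (nat_lit 156) (nat_lit 304) (nat_lit 0) (XT.nd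 (nat_lit 78) (nat_lit 152) (nat_lit 0) (XT.lf (nat_lit 0) (nat_lit 206135796670) (nat_lit 76) (nat_lit 10564434981633) (nat_lit 76) (nat_lit 2001251060329) (nat_lit 34) (nat_lit 4) (nat_lit 35) (nat_lit 5) (nat_lit 35) (nat_lit 4) (nat_lit 406) (nat_lit 385) (nat_lit 229)) (XT.lf (nat_lit 0) (nat_lit 1512401997536) (nat_lit 76) (nat_lit 3331629694396) (nat_lit 152) (nat_lit 9190034573667) (nat_lit 32) (nat_lit 5) (nat_lit 33) (nat_lit 5) (nat_lit 34) (nat_lit 4) (nat_lit 407) (nat_lit 385) (nat_lit 228))) (XT.nd (nat_lit 78) (nat_lit 228) (nat_lit 0) (XT.lf (nat_lit 0) (nat_lit 2970596184393) (nat_lit 76) (nat_lit 10197080707941) (nat_lit 76) (nat_lit 2268206706077) (nat_lit 31) (nat_lit 4) (nat_lit 32) (nat_lit 5) (nat_lit 32) (nat_lit 4) (nat_lit 408) (nat_lit 385) (nat_lit 227)) (XT.nd (nat_lit 78) (nat_lit 76) (nat_lit 0) (XT.lf (nat_lit 0) (nat_lit 4513437089493) (nat_lit 76) (nat_lit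 1468443243017) (nat_lit 152) (nat_lit 11009164649193) (nat_lit 29) (nat_lit 5) (nat_lit 30) (nat_lit 5) (nat_lit 31) (nat_lit 4) (nat_lit 409) (nat_lit 385) (nat_lit 226)) (XT.lf (nat_lit 0) (nat_lit 6068708325299) (nat_lit 76) (nat_lit 9994676254250) (nat_lit 76) (nat_lit 2653126252064) (nat_lit 28) (nat_lit 4) (nat_lit 29) (nat_lit 5) (nat_lit 29) (nat_lit 4) (nat_lit 410) (nat_lit 385) (nat_lit 225)))))) (XT.nd (nat_lit 390) (nat_lit 76) (nat_lit 0) (XT.nd (nat_lit 156) (nat_lit 380) (nat_lit 0) (XT.nd (nat_lit 78) (nat_lit 76) (nat_lit 0) (XT.lf (nat_lit 0) (nat_lit 7216134401395) (nat_lit 152) (nat_lit 13004251295535) (nat_lit 0) (nat_lit 418402917718) (nat_lit 26) (nat_lit 5) (nat_lit 28) (nat_lit 4) (nat_lit 26) (nat_lit 4) (nat_lit 411) (nat_lit 385) (nat_lit 224)) (XT.lf (nat_lit 0) (nat_lit 8995827138403) (nat_lit 76) (nat_lit 10287898272900) (nat_lit 76) (nat_lit 3490166789073)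 (nat_lit 25) (nat_lit 4) (nat_lit 26) (nat_lit 5) (nat_lit 26) (nat_lit 4) (nat_lit 412) (nat_lit 385) (nat_lit 223))) (XT.nd (nat_lit 78) (nat_lit 228) (nat_lit 0) (XT.lf (nat_lit 0) (nat_lit 8217688463892) (nat_lit 152) (nat_lit 15018235044862) (nat_lit 0) (nat_lit 1923492645413) (nat_lit 23) (nat_lit 5) (nat_lit 25) (nat_lit 4) (nat_lit 23) (nat_lit 4) (nat_lit 413) (nat_lit 385) (nat_lit 222)) (XT.nd (nat_lit 78) (nat_lit 152) (nat_lit 0) (XT.lf (nat_lit 0) (nat_lit 10758701503914) (nat_lit 76) (nat_lit 11677076834339) (nat_lit 76) (nat_lit 5382881015755) (nat_lit 22) (nat_lit 4) (nat_lit 23) (nat_lit 5) (nat_lit 23) (nat_lit 4) (nat_lit 414) (nat_lit 385) (nat_lit 221)) (XT.lf (nat_lit 0) (nat_lit 8284865014658) (nat_lit 152) (nat_lit 20058139462107) (nat_lit 0) (nat_lit 2456905923291) (nat_lit 20) (nat_lit 5) (nat_lit 22) (nat_lit 4) (nat_lit 20) (nat_lit 4) (nat_lit 415) (nat_lit 385)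 (nat_lit 220))))) (XT.nd (nat_lit 50856) (nat_lit 0) (nat_lit 4256) (XT.nd (nat_lit 50778) (nat_lit 0) (nat_lit 4712) (XT.lf (nat_lit 0) (nat_lit 9551301430440) (nat_lit 76) (nat_lit 15204058244353) (nat_lit 76) (nat_lit 9376099152913) (nat_lit 19) (nat_lit 4) (nat_lit 20) (nat_lit 5) (nat_lit 20) (nat_lit 4) (nat_lit 416) (nat_lit 385) (nat_lit 219)) (XT.lf (nat_lit 0) (nat_lit 1219447127871) (nat_lit 532) (nat_lit 19301648293) (nat_lit 532) (nat_lit 19301648293) (nat_lit 81) (nat_lit 3) (nat_lit 88) (nat_lit 3) (nat_lit 88) (nat_lit 5) (nat_lit 386) (nat_lit 386) (nat_lit 248))) (XT.nd (nat_lit 78) (nat_lit 456) (nat_lit 0) (XT.lf (nat_lit 76) (nat_lit 2422571900969) (nat_lit 0) (nat_lit 257502353986) (nat_lit 532) (nat_lit 20073123222) (nat_lit 82) (nat_lit 5) (nat_lit 81) (nat_lit 3) (nat_lit 88) (nat_lit 5) (nat_lit 387) (nat_lit 386) (nat_lit 247)) (XT.nd (nat_lit 78) (nat_lit 0) (nat_lit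 76) (XT.lf (nat_lit 0) (nat_lit 160608097690) (nat_lit 532) (nat_lit 497910735929) (nat_lit 608) (nat_lit 2243813432596) (nat_lit 75) (nat_lit 5) (nat_lit 82) (nat_lit 5) (nat_lit 83) (nat_lit 5) (nat_lit 388) (nat_lit 386) (nat_lit 246)) (XT.lf (nat_lit 0) (nat_lit 491676030127) (nat_lit 532) (nat_lit 690076396863) (nat_lit 608) (nat_lit 1943092903581) (nat_lit 76) (nat_lit 5) (nat_lit 83) (nat_lit 5) (nat_lit 84) (nat_lit 5) (nat_lit 389) (nat_lit 386) (nat_lit 245))))))))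
noncomputable def xc117 : XT := (XT.nd (nat_lit 1404) (nat_lit 912) (nat_lit 0) (XT.nd (nat_lit 702) (nat_lit 1216) (nat_lit 0) (XT.nd (nat_lit 312) (nat_lit 1140) (nat_lit 0) (XT.nd (nat_lit 156) (nat_lit 456) (nat_lit 0) (XT.nd (nat_lit 78) (nat_lit 456) (nat_lit 0) (XT.lf (nat_lit 0) (nat_lit 1005738291696) (nat_lit 532) (nat_lit 843852672931) (nat_lit 76) (nat_lit 1520477658812) (nat_lit 77) (nat_lit 5) (nat_lit 84) (nat_lit 5) (nat_lit 78) (nat_lit 5) (nat_lit 390) (nat_lit 386) (nat_lit 244)) (XT.lf (nat_lit 0) (nat_lit 1739734856409) (nat_lit 532) (nat_lit 947627509082) (nat_lit 76) (nat_lit 953287047634) (nat_lit 71) (nat_lit 5) (nat_lit 78) (nat_lit 5) (nat_lit 72) (nat_lit 5) (nat_lit 391) (nat_lit 386) (nat_lit 243))) (XT.nd (nat_lit 78) (nat_lit 228) (nat_lit 0) (XT.lf (nat_lit 0) (nat_lit 2736776086496) (nat_lit 304) (nat_lit 987618130715) (nat_lit 76) (nat_lit 215187489601)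 (nat_lit 68) (nat_lit 5) (nat_lit 72) (nat_lit 5) (nat_lit 69) (nat_lit 5) (nat_lit 392) (nat_lit 386) (nat_lit 242)) (XT.lf (nat_lit 0) (nat_lit 3302914829227) (nat_lit 228) (nat_lit 762525406897) (nat_lit 304) (nat_lit 203348269625) (nat_lit 65) (nat_lit 5) (nat_lit 68) (nat_lit 5) (nat_lit 69) (nat_lit 5) (nat_lit 393) (nat_lit 386) (nat_lit 241)))) (XT.nd (nat_lit 156) (nat_lit 684) (nat_lit 0) (XT.nd (nat_lit 78) (nat_lit 228) (nat_lit 0) (XT.lf (nat_lit 0) (nat_lit 1087380763283) (nat_lit 228) (nat_lit 883852273921) (nat_lit 76) (nat_lit 2659228950976) (nat_lit 62) (nat_lit 5) (nat_lit 65) (nat_lit 5) (nat_lit 63) (nat_lit 5) (nat_lit 394) (nat_lit 386) (nat_lit 240)) (XT.lf (nat_lit 0) (nat_lit 2754935335845) (nat_lit 304) (nat_lit 701810282486) (nat_lit 76) (nat_lit 1573597799070) (nat_lit 59) (nat_lit 5) (nat_lit 63) (nat_lit 5) (nat_lit 60) (nat_lit 5) (nat_lit 395) (nat_lit 386)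 (nat_lit 239))) (XT.nd (nat_lit 78) (nat_lit 532) (nat_lit 0) (XT.lf (nat_lit 0) (nat_lit 4880984883796) (nat_lit 228) (nat_lit 391574454373) (nat_lit 76) (nat_lit 200978779674) (nat_lit 57) (nat_lit 5) (nat_lit 60) (nat_lit 5) (nat_lit 58) (nat_lit 5) (nat_lit 396) (nat_lit 386) (nat_lit 238)) (XT.nd (nat_lit 78) (nat_lit 304) (nat_lit 0) (XT.lf (nat_lit 0) (nat_lit 1543159340161) (nat_lit 228) (nat_lit 3272113919) (nat_lit 76) (nat_lit 4412789291731) (nat_lit 54) (nat_lit 5) (nat_lit 57) (nat_lit 5) (nat_lit 55) (nat_lit 5) (nat_lit 397) (nat_lit 386) (nat_lit 237)) (XT.lf (nat_lit 0) (nat_lit 555940041818) (nat_lit 152) (nat_lit 3676075736710) (nat_lit 228) (nat_lit 2263078890647) (nat_lit 50) (nat_lit 5) (nat_lit 52) (nat_lit 5) (nat_lit 53) (nat_lit 5) (nat_lit 398) (nat_lit 386) (nat_lit 236)))))) (XT.nd (nat_lit 312) (nat_lit 608) (nat_lit 0) (XT.nd (nat_lit 156) (nat_lit 304) (nat_lit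 0) (XT.nd (nat_lit 78) (nat_lit 152) (nat_lit 0) (XT.lf (nat_lit 0) (nat_lit 476211056259) (nat_lit 152) (nat_lit 5781640809080) (nat_lit 76) (nat_lit 831167672064) (nat_lit 48) (nat_lit 5) (nat_lit 50) (nat_lit 5) (nat_lit 49) (nat_lit 5) (nat_lit 399) (nat_lit 386) (nat_lit 235)) (XT.lf (nat_lit 0) (nat_lit 2182787387619) (nat_lit 152) (nat_lit 1644988054775) (nat_lit 228) (nat_lit 3912724754145) (nat_lit 46) (nat_lit 5) (nat_lit 48) (nat_lit 5) (nat_lit 49) (nat_lit 5) (nat_lit 400) (nat_lit 386) (nat_lit 234))) (XT.nd (nat_lit 78) (nat_lit 228) (nat_lit 0) (XT.lf (nat_lit 0) (nat_lit 3287842228271) (nat_lit 76) (nat_lit 4734021709897) (nat_lit 152) (nat_lit 440655860239) (nat_lit 45) (nat_lit 5) (nat_lit 46) (nat_lit 5) (nat_lit 47) (nat_lit 4) (nat_lit 401) (nat_lit 386) (nat_lit 233)) (XT.lf (nat_lit 0) (nat_lit 3718981922569) (nat_lit 228) (nat_lit 4669734975150) (nat_lit 76) (nat_lit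 869734545903) (nat_lit 42) (nat_lit 5) (nat_lit 45) (nat_lit 5) (nat_lit 43) (nat_lit 4) (nat_lit 402) (nat_lit 386) (nat_lit 232)))) (XT.nd (nat_lit 156) (nat_lit 380) (nat_lit 0) (XT.nd (nat_lit 78) (nat_lit 152) (nat_lit 0) (XT.lf (nat_lit 0) (nat_lit 6127765690678) (nat_lit 76) (nat_lit 2782322321581) (nat_lit 152) (nat_lit 1228080024117) (nat_lit 41) (nat_lit 5) (nat_lit 42) (nat_lit 5) (nat_lit 43) (nat_lit 4) (nat_lit 403) (nat_lit 386) (nat_lit 231)) (XT.lf (nat_lit 0) (nat_lit 3974295029959) (nat_lit 152) (nat_lit 3219778722364) (nat_lit 76) (nat_lit 3914122385352) (nat_lit 39) (nat_lit 5) (nat_lit 41) (nat_lit 5) (nat_lit 40) (nat_lit 4) (nat_lit 404) (nat_lit 386) (nat_lit 230))) (XT.nd (nat_lit 78) (nat_lit 304) (nat_lit 0) (XT.lf (nat_lit 0) (nat_lit 9986126120778) (nat_lit 76) (nat_lit 337161622475) (nat_lit 152) (nat_lit 1862770660884) (nat_lit 38) (nat_lit 5) (nat_lit 39)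 (nat_lit 5) (nat_lit 40) (nat_lit 4) (nat_lit 405) (nat_lit 386) (nat_lit 229)) (XT.nd (nat_lit 78) (nat_lit 152) (nat_lit 0) (XT.lf (nat_lit 0) (nat_lit 4579507723478) (nat_lit 152) (nat_lit 1110098366306) (nat_lit 76) (nat_lit 7680672514238) (nat_lit 36) (nat_lit 5) (nat_lit 38) (nat_lit 5) (nat_lit 37) (nat_lit 4) (nat_lit 406) (nat_lit 386) (nat_lit 228)) (XT.lf (nat_lit 0) (nat_lit 237056179880) (nat_lit 76) (nat_lit 12149100222311) (nat_lit 76) (nat_lit 2301438711666) (nat_lit 34) (nat_lit 4) (nat_lit 35) (nat_lit 5) (nat_lit 35) (nat_lit 4) (nat_lit 407) (nat_lit 386) (nat_lit 227))))))) (XT.nd (nat_lit 51558) (nat_lit 0) (nat_lit 2660) (XT.nd (nat_lit 312) (nat_lit 456) (nat_lit 0) (XT.nd (nat_lit 156) (nat_lit 228) (nat_lit 0) (XT.nd (nat_lit 78) (nat_lit 76) (nat_lit 0) (XT.lf (nat_lit 0) (nat_lit 1739262310068) (nat_lit 76) (nat_lit 3831374142335) (nat_lit 152) (nat_lit 10568539752500)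 (nat_lit 32) (nat_lit 5) (nat_lit 33) (nat_lit 5) (nat_lit 34) (nat_lit 4) (nat_lit 408) (nat_lit 386) (nat_lit 226)) (XT.lf (nat_lit 0) (nat_lit 3416185624214) (nat_lit 76) (nat_lit 11726642808202) (nat_lit 76) (nat_lit 2608437705256) (nat_lit 31) (nat_lit 4) (nat_lit 32) (nat_lit 5) (nat_lit 32) (nat_lit 4) (nat_lit 409) (nat_lit 386) (nat_lit 225))) (XT.nd (nat_lit 78) (nat_lit 76) (nat_lit 0) (XT.lf (nat_lit 0) (nat_lit 5190452664358) (nat_lit 76) (nat_lit 1688709723865) (nat_lit 152) (nat_lit 12660539340269) (nat_lit 29) (nat_lit 5) (nat_lit 30) (nat_lit 5) (nat_lit 31) (nat_lit 4) (nat_lit 410) (nat_lit 386) (nat_lit 224)) (XT.lf (nat_lit 0) (nat_lit 6979014584871) (nat_lit 76) (nat_lit 11493877687062) (nat_lit 76) (nat_lit 3051095183986) (nat_lit 28) (nat_lit 4) (nat_lit 29) (nat_lit 5) (nat_lit 29) (nat_lit 4) (nat_lit 411) (nat_lit 386) (nat_lit 223)))) (XT.nd (nat_lit 156) (nat_lit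 228) (nat_lit 0) (XT.nd (nat_lit 78) (nat_lit 76) (nat_lit 0) (XT.lf (nat_lit 0) (nat_lit 8298554566833) (nat_lit 152) (nat_lit 14954888979443) (nat_lit 0) (nat_lit 481163360151) (nat_lit 26) (nat_lit 5) (nat_lit 28) (nat_lit 4) (nat_lit 26) (nat_lit 4) (nat_lit 412) (nat_lit 386) (nat_lit 222)) (XT.lf (nat_lit 0) (nat_lit 10345201218704) (nat_lit 76) (nat_lit 11831083009071) (nat_lit 76) (nat_lit 4013691802276) (nat_lit 25) (nat_lit 4) (nat_lit 26) (nat_lit 5) (nat_lit 26) (nat_lit 4) (nat_lit 413) (nat_lit 386) (nat_lit 221))) (XT.nd (nat_lit 78) (nat_lit 76) (nat_lit 0) (XT.lf (nat_lit 0) (nat_lit 9450341738060) (nat_lit 152) (nat_lit 17270970292372) (nat_lit 0) (nat_lit 2212016546492) (nat_lit 23) (nat_lit 5) (nat_lit 25) (nat_lit 4) (nat_lit 23) (nat_lit 4) (nat_lit 414) (nat_lit 386) (nat_lit 220)) (XT.nd (nat_lit 50934) (nat_lit 0) (nat_lit 4484) (XT.lf (nat_lit 0) (nat_lit 12372506737940)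 (nat_lit 76) (nat_lit 13428638355240) (nat_lit 76) (nat_lit 6190313163593) (nat_lit 22) (nat_lit 4) (nat_lit 23) (nat_lit 5) (nat_lit 23) (nat_lit 4) (nat_lit 415) (nat_lit 386) (nat_lit 219)) (XT.lf (nat_lit 0) (nat_lit 1402364213876) (nat_lit 532) (nat_lit 22196886450) (nat_lit 532) (nat_lit 22196886450) (nat_lit 81) (nat_lit 3) (nat_lit 88) (nat_lit 3) (nat_lit 88) (nat_lit 5) (nat_lit 387) (nat_lit 387) (nat_lit 246)))))) (XT.nd (nat_lit 390) (nat_lit 1064) (nat_lit 0) (XT.nd (nat_lit 156) (nat_lit 304) (nat_lit 0) (XT.nd (nat_lit 78) (nat_lit 456) (nat_lit 0) (XT.lf (nat_lit 76) (nat_lit 2785957702751) (nat_lit 0) (nat_lit 296127720107) (nat_lit 532) (nat_lit 23084059664) (nat_lit 82) (nat_lit 5) (nat_lit 81) (nat_lit 3) (nat_lit 88) (nat_lit 5) (nat_lit 388) (nat_lit 387) (nat_lit 245)) (XT.lf (nat_lit 0) (nat_lit 184699338968) (nat_lit 532) (nat_lit 572597327216) (nat_lit 608) (nat_lit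 2580385437827) (nat_lit 75) (nat_lit 5) (nat_lit 82) (nat_lit 5) (nat_lit 83) (nat_lit 5) (nat_lit 389) (nat_lit 387) (nat_lit 244))) (XT.nd (nat_lit 78) (nat_lit 380) (nat_lit 0) (XT.lf (nat_lit 0) (nat_lit 565427458072) (nat_lit 532) (nat_lit 793587836869) (nat_lit 608) (nat_lit 2234556833335) (nat_lit 76) (nat_lit 5) (nat_lit 83) (nat_lit 5) (nat_lit 84) (nat_lit 5) (nat_lit 390) (nat_lit 387) (nat_lit 243)) (XT.nd (nat_lit 78) (nat_lit 456) (nat_lit 0) (XT.lf (nat_lit 0) (nat_lit 1156599056180) (nat_lit 532) (nat_lit 970430554261) (nat_lit 76) (nat_lit 1748549304851) (nat_lit 77) (nat_lit 5) (nat_lit 84) (nat_lit 5) (nat_lit 78) (nat_lit 5) (nat_lit 391) (nat_lit 387) (nat_lit 242)) (XT.lf (nat_lit 0) (nat_lit 2000695103316) (nat_lit 532) (nat_lit 1089771616001) (nat_lit 76) (nat_lit 1096280104296) (nat_lit 71) (nat_lit 5) (nat_lit 78) (nat_lit 5) (nat_lit 72) (nat_lit 5) (nat_lit 392)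 (nat_lit 387) (nat_lit 241))))) (XT.nd (nat_lit 156) (nat_lit 608) (nat_lit 0) (XT.nd (nat_lit 78) (nat_lit 228) (nat_lit 0) (XT.lf (nat_lit 0) (nat_lit 3147292515969) (nat_lit 304) (nat_lit 1135760831236) (nat_lit 76) (nat_lit 247465614305) (nat_lit 68) (nat_lit 5) (nat_lit 72) (nat_lit 5) (nat_lit 69) (nat_lit 5) (nat_lit 393) (nat_lit 387) (nat_lit 240)) (XT.lf (nat_lit 0) (nat_lit 3798352071082) (nat_lit 228) (nat_lit 876904215228) (nat_lit 304) (nat_lit 233850494116) (nat_lit 65) (nat_lit 5) (nat_lit 68) (nat_lit 5) (nat_lit 69) (nat_lit 5) (nat_lit 394) (nat_lit 387) (nat_lit 239))) (XT.nd (nat_lit 78) (nat_lit 380) (nat_lit 0) (XT.lf (nat_lit 0) (nat_lit 1250487891431) (nat_lit 228) (nat_lit 1016430097271) (nat_lit 76) (nat_lit 3058113296611) (nat_lit 62) (nat_lit 5) (nat_lit 65) (nat_lit 5) (nat_lit 63) (nat_lit 5) (nat_lit 395) (nat_lit 387) (nat_lit 238)) (XT.nd (nat_lit 78) (nat_lit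 152) (nat_lit 0) (XT.lf (nat_lit 0) (nat_lit 3168175648582) (nat_lit 304) (nat_lit 807081807734) (nat_lit 76) (nat_lit 1809637472704) (nat_lit 59) (nat_lit 5) (nat_lit 63) (nat_lit 5) (nat_lit 60) (nat_lit 5) (nat_lit 396) (nat_lit 387) (nat_lit 237)) (XT.lf (nat_lit 0) (nat_lit 5613132627600) (nat_lit 228) (nat_lit 450310606071) (nat_lit 76) (nat_lit 231125600948) (nat_lit 57) (nat_lit 5) (nat_lit 60) (nat_lit 5) (nat_lit 58) (nat_lit 5) (nat_lit 397) (nat_lit 387) (nat_lit 236))))))))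
noncomputable def xc118 : XT := (XT.nd (nat_lit 52338) (nat_lit 0) (nat_lit 1216) (XT.nd (nat_lit 702) (nat_lit 1140) (nat_lit 0) (XT.nd (nat_lit 312) (nat_lit 608) (nat_lit 0) (XT.nd (nat_lit 156) (nat_lit 304) (nat_lit 0) (XT.nd (nat_lit 78) (nat_lit 304) (nat_lit 0) (XT.lf (nat_lit 0) (nat_lit 1774633251581) (nat_lit 228) (nat_lit 3762915394) (nat_lit 76) (nat_lit 5074707689875) (nat_lit 54) (nat_lit 5) (nat_lit 57) (nat_lit 5) (nat_lit 55) (nat_lit 5) (nat_lit 398) (nat_lit 387) (nat_lit 235)) (XT.lf (nat_lit 0) (nat_lit 639331063803) (nat_lit 152) (nat_lit 4227487091384) (nat_lit 228) (nat_lit 2602540713573) (nat_lit 50) (nat_lit 5) (nat_lit 52) (nat_lit 5) (nat_lit 53) (nat_lit 5) (nat_lit 399) (nat_lit 387) (nat_lit 234))) (XT.nd (nat_lit 78) (nat_lit 152) (nat_lit 0) (XT.lf (nat_lit 0) (nat_lit 547642724008) (nat_lit 152) (nat_lit 6648886914973) (nat_lit 76) (nat_lit 955842828287)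 (nat_lit 48) (nat_lit 5) (nat_lit 50) (nat_lit 5) (nat_lit 49) (nat_lit 5) (nat_lit 400) (nat_lit 387) (nat_lit 233)) (XT.lf (nat_lit 0) (nat_lit 2510205509923) (nat_lit 152) (nat_lit 1891736257267) (nat_lit 228) (nat_lit 4499633458155) (nat_lit 46) (nat_lit 5) (nat_lit 48) (nat_lit 5) (nat_lit 49) (nat_lit 5) (nat_lit 401) (nat_lit 387) (nat_lit 232)))) (XT.nd (nat_lit 156) (nat_lit 304) (nat_lit 0) (XT.nd (nat_lit 78) (nat_lit 228) (nat_lit 0) (XT.lf (nat_lit 0) (nat_lit 3781018575967) (nat_lit 76) (nat_lit 5444124960706) (nat_lit 152) (nat_lit 506754230873) (nat_lit 45) (nat_lit 5) (nat_lit 46) (nat_lit 5) (nat_lit 47) (nat_lit 4) (nat_lit 402) (nat_lit 387) (nat_lit 231)) (XT.lf (nat_lit 0) (nat_lit 4276829218332) (nat_lit 228) (nat_lit 5370195208272) (nat_lit 76) (nat_lit 1000194732970) (nat_lit 42) (nat_lit 5) (nat_lit 45) (nat_lit 5) (nat_lit 43) (nat_lit 4) (nat_lit 403) (nat_lit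 387) (nat_lit 230))) (XT.nd (nat_lit 78) (nat_lit 228) (nat_lit 0) (XT.lf (nat_lit 0) (nat_lit 7046930556317) (nat_lit 76) (nat_lit 3199670664486) (nat_lit 152) (nat_lit 1412292020494) (nat_lit 41) (nat_lit 5) (nat_lit 42) (nat_lit 5) (nat_lit 43) (nat_lit 4) (nat_lit 404) (nat_lit 387) (nat_lit 229)) (XT.nd (nat_lit 78) (nat_lit 76) (nat_lit 0) (XT.lf (nat_lit 0) (nat_lit 4570439290831) (nat_lit 152) (nat_lit 3702745518990) (nat_lit 76) (nat_lit 4501240747995) (nat_lit 39) (nat_lit 5) (nat_lit 41) (nat_lit 5) (nat_lit 40) (nat_lit 4) (nat_lit 405) (nat_lit 387) (nat_lit 228)) (XT.lf (nat_lit 0) (nat_lit 11484045049630) (nat_lit 76) (nat_lit 387735860914) (nat_lit 152) (nat_lit 2142186253748) (nat_lit 38) (nat_lit 5) (nat_lit 39) (nat_lit 5) (nat_lit 40) (nat_lit 4) (nat_lit 406) (nat_lit 387) (nat_lit 227)))))) (XT.nd (nat_lit 312) (nat_lit 608) (nat_lit 0) (XT.nd (nat_lit 156) (nat_lit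 228) (nat_lit 0) (XT.nd (nat_lit 78) (nat_lit 152) (nat_lit 0) (XT.lf (nat_lit 0) (nat_lit 5266433887534) (nat_lit 152) (nat_lit 1276613110816) (nat_lit 76) (nat_lit 8832773395832) (nat_lit 36) (nat_lit 5) (nat_lit 38) (nat_lit 5) (nat_lit 37) (nat_lit 4) (nat_lit 407) (nat_lit 387) (nat_lit 226)) (XT.lf (nat_lit 0) (nat_lit 272614617228) (nat_lit 76) (nat_lit 13971465250692) (nat_lit 76) (nat_lit 2646654512583) (nat_lit 34) (nat_lit 4) (nat_lit 35) (nat_lit 5) (nat_lit 35) (nat_lit 4) (nat_lit 408) (nat_lit 387) (nat_lit 225))) (XT.nd (nat_lit 78) (nat_lit 76) (nat_lit 0) (XT.lf (nat_lit 0) (nat_lit 2000151666335) (nat_lit 76) (nat_lit 4406080258982) (nat_lit 152) (nat_lit 12153820709918) (nat_lit 32) (nat_lit 5) (nat_lit 33) (nat_lit 5) (nat_lit 34) (nat_lit 4) (nat_lit 409) (nat_lit 387) (nat_lit 224)) (XT.lf (nat_lit 0) (nat_lit 3928613477044) (nat_lit 76) (nat_lit 13485639224949) (nat_lit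 76) (nat_lit 2999703355955) (nat_lit 31) (nat_lit 4) (nat_lit 32) (nat_lit 5) (nat_lit 32) (nat_lit 4) (nat_lit 410) (nat_lit 387) (nat_lit 223)))) (XT.nd (nat_lit 156) (nat_lit 380) (nat_lit 0) (XT.nd (nat_lit 78) (nat_lit 76) (nat_lit 0) (XT.lf (nat_lit 0) (nat_lit 5969020572663) (nat_lit 76) (nat_lit 1942016178206) (nat_lit 152) (nat_lit 14559620236543) (nat_lit 29) (nat_lit 5) (nat_lit 30) (nat_lit 5) (nat_lit 31) (nat_lit 4) (nat_lit 411) (nat_lit 387) (nat_lit 222)) (XT.lf (nat_lit 0) (nat_lit 8025866780751) (nat_lit 76) (nat_lit 13217959336094) (nat_lit 76) (nat_lit 3508759457132) (nat_lit 28) (nat_lit 4) (nat_lit 29) (nat_lit 5) (nat_lit 29) (nat_lit 4) (nat_lit 412) (nat_lit 387) (nat_lit 221))) (XT.nd (nat_lit 78) (nat_lit 228) (nat_lit 0) (XT.lf (nat_lit 0) (nat_lit 9543337755812) (nat_lit 152) (nat_lit 17198122318478) (nat_lit 0) (nat_lit 553337867786) (nat_lit 26) (nat_lit 5)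 (nat_lit 28) (nat_lit 4) (nat_lit 26) (nat_lit 4) (nat_lit 413) (nat_lit 387) (nat_lit 220)) (XT.nd (nat_lit 78) (nat_lit 152) (nat_lit 0) (XT.lf (nat_lit 0) (nat_lit 11896981408724) (nat_lit 76) (nat_lit 13605745456829) (nat_lit 76) (nat_lit 4615745568717) (nat_lit 25) (nat_lit 4) (nat_lit 26) (nat_lit 5) (nat_lit 26) (nat_lit 4) (nat_lit 414) (nat_lit 387) (nat_lit 219)) (XT.lf (nat_lit 0) (nat_lit 10867893002236) (nat_lit 152) (nat_lit 19861615829256) (nat_lit 0) (nat_lit 2543819031693) (nat_lit 23) (nat_lit 5) (nat_lit 25) (nat_lit 4) (nat_lit 23) (nat_lit 4) (nat_lit 415) (nat_lit 387) (nat_lit 218))))))) (XT.nd (nat_lit 702) (nat_lit 1748) (nat_lit 0) (XT.nd (nat_lit 312) (nat_lit 988) (nat_lit 0) (XT.nd (nat_lit 156) (nat_lit 456) (nat_lit 0) (XT.nd (nat_lit 78) (nat_lit 0) (nat_lit 0) (XT.lf (nat_lit 0) (nat_lit 1612718858679) (nat_lit 532) (nat_lit 25526412546) (nat_lit 532) (nat_lit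 25526412546) (nat_lit 81) (nat_lit 3) (nat_lit 88) (nat_lit 3) (nat_lit 88) (nat_lit 5) (nat_lit 388) (nat_lit 388) (nat_lit 244)) (XT.lf (nat_lit 76) (nat_lit 3203851370743) (nat_lit 0) (nat_lit 340546887971) (nat_lit 532) (nat_lit 26546644387) (nat_lit 82) (nat_lit 5) (nat_lit 81) (nat_lit 3) (nat_lit 88) (nat_lit 5) (nat_lit 389) (nat_lit 388) (nat_lit 243))) (XT.nd (nat_lit 78) (nat_lit 0) (nat_lit 76) (XT.lf (nat_lit 0) (nat_lit 212404259945) (nat_lit 532) (nat_lit 658486911854) (nat_lit 608) (nat_lit 2967443246198) (nat_lit 75) (nat_lit 5) (nat_lit 82) (nat_lit 5) (nat_lit 83) (nat_lit 5) (nat_lit 390) (nat_lit 388) (nat_lit 242)) (XT.lf (nat_lit 0) (nat_lit 650241594497) (nat_lit 532) (nat_lit 912625997637) (nat_lit 608) (nat_lit 2569740353963) (nat_lit 76) (nat_lit 5) (nat_lit 83) (nat_lit 5) (nat_lit 84) (nat_lit 5) (nat_lit 391) (nat_lit 388) (nat_lit 241)))) (XT.nd (nat_lit 156)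 (nat_lit 684) (nat_lit 0) (XT.nd (nat_lit 78) (nat_lit 456) (nat_lit 0) (XT.lf (nat_lit 0) (nat_lit 1330088930282) (nat_lit 532) (nat_lit 1115995122572) (nat_lit 76) (nat_lit 2010831698474) (nat_lit 77) (nat_lit 5) (nat_lit 84) (nat_lit 5) (nat_lit 78) (nat_lit 5) (nat_lit 392) (nat_lit 388) (nat_lit 240)) (XT.lf (nat_lit 0) (nat_lit 2300799382761) (nat_lit 532) (nat_lit 1253237343700) (nat_lit 76) (nat_lit 1260722119576) (nat_lit 71) (nat_lit 5) (nat_lit 78) (nat_lit 5) (nat_lit 72) (nat_lit 5) (nat_lit 393) (nat_lit 388) (nat_lit 239))) (XT.nd (nat_lit 78) (nat_lit 456) (nat_lit 0) (XT.lf (nat_lit 0) (nat_lit 3619386405841) (nat_lit 304) (nat_lit 1306124941489) (nat_lit 76) (nat_lit 284585457405) (nat_lit 68) (nat_lit 5) (nat_lit 72) (nat_lit 5) (nat_lit 69) (nat_lit 5) (nat_lit 394) (nat_lit 388) (nat_lit 238)) (XT.nd (nat_lit 78) (nat_lit 228) (nat_lit 0) (XT.lf (nat_lit 0) (nat_lit 4368104894955)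 (nat_lit 228) (nat_lit 1008439845469) (nat_lit 304) (nat_lit 268928056172) (nat_lit 65) (nat_lit 5) (nat_lit 68) (nat_lit 5) (nat_lit 69) (nat_lit 5) (nat_lit 395) (nat_lit 388) (nat_lit 237)) (XT.lf (nat_lit 0) (nat_lit 1438061085471) (nat_lit 228) (nat_lit 1168894598450) (nat_lit 76) (nat_lit 3516830293362) (nat_lit 62) (nat_lit 5) (nat_lit 65) (nat_lit 5) (nat_lit 63) (nat_lit 5) (nat_lit 396) (nat_lit 388) (nat_lit 236)))))) (XT.nd (nat_lit 390) (nat_lit 684) (nat_lit 0) (XT.nd (nat_lit 156) (nat_lit 684) (nat_lit 0) (XT.nd (nat_lit 78) (nat_lit 152) (nat_lit 0) (XT.lf (nat_lit 0) (nat_lit 3643402005215) (nat_lit 304) (nat_lit 928144065946) (nat_lit 76) (nat_lit 2081083096463) (nat_lit 59) (nat_lit 5) (nat_lit 63) (nat_lit 5) (nat_lit 60) (nat_lit 5) (nat_lit 397) (nat_lit 388) (nat_lit 235)) (XT.lf (nat_lit 0) (nat_lit 6455102530234) (nat_lit 228) (nat_lit 517857184537) (nat_lit 76)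 (nat_lit 265794444358) (nat_lit 57) (nat_lit 5) (nat_lit 60) (nat_lit 5) (nat_lit 58) (nat_lit 5) (nat_lit 398) (nat_lit 388) (nat_lit 234))) (XT.nd (nat_lit 78) (nat_lit 456) (nat_lit 0) (XT.lf (nat_lit 0) (nat_lit 2040828247180) (nat_lit 228) (nat_lit 4327340897) (nat_lit 76) (nat_lit 5835913846671) (nat_lit 54) (nat_lit 5) (nat_lit 57) (nat_lit 5) (nat_lit 55) (nat_lit 5) (nat_lit 399) (nat_lit 388) (nat_lit 233)) (XT.nd (nat_lit 78) (nat_lit 152) (nat_lit 0) (XT.lf (nat_lit 0) (nat_lit 735230735253) (nat_lit 152) (nat_lit 4861610150682) (nat_lit 228) (nat_lit 2992921812540) (nat_lit 50) (nat_lit 5) (nat_lit 52) (nat_lit 5) (nat_lit 53) (nat_lit 5) (nat_lit 400) (nat_lit 388) (nat_lit 232)) (XT.lf (nat_lit 0) (nat_lit 629789139649) (nat_lit 152) (nat_lit 7646219940522) (nat_lit 76) (nat_lit 1099219256624) (nat_lit 48) (nat_lit 5) (nat_lit 50) (nat_lit 5) (nat_lit 49) (nat_lit 5) (nat_lit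 401) (nat_lit 388) (nat_lit 231))))) (XT.nd (nat_lit 156) (nat_lit 456) (nat_lit 0) (XT.nd (nat_lit 78) (nat_lit 76) (nat_lit 0) (XT.lf (nat_lit 0) (nat_lit 2886736347118) (nat_lit 152) (nat_lit 2175496691529) (nat_lit 228) (nat_lit 5174578469988) (nat_lit 46) (nat_lit 5) (nat_lit 48) (nat_lit 5) (nat_lit 49) (nat_lit 5) (nat_lit 402) (nat_lit 388) (nat_lit 230)) (XT.lf (nat_lit 0) (nat_lit 4348171372535) (nat_lit 76) (nat_lit 6260743700521) (nat_lit 152) (nat_lit 582767359151) (nat_lit 45) (nat_lit 5) (nat_lit 46) (nat_lit 5) (nat_lit 47) (nat_lit 4) (nat_lit 403) (nat_lit 388) (nat_lit 229))) (XT.nd (nat_lit 78) (nat_lit 228) (nat_lit 0) (XT.lf (nat_lit 0) (nat_lit 4918353606661) (nat_lit 228) (nat_lit 6175724479570) (nat_lit 76) (nat_lit 1150223946833) (nat_lit 42) (nat_lit 5) (nat_lit 45) (nat_lit 5) (nat_lit 43) (nat_lit 4) (nat_lit 404) (nat_lit 388) (nat_lit 228)) (XT.nd (nat_lit 78)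 (nat_lit 152) (nat_lit 0) (XT.lf (nat_lit 0) (nat_lit 8103970148866) (nat_lit 76) (nat_lit 3679621260127) (nat_lit 152) (nat_lit 1624135818092) (nat_lit 41) (nat_lit 5) (nat_lit 42) (nat_lit 5) (nat_lit 43) (nat_lit 4) (nat_lit 405) (nat_lit 388) (nat_lit 227)) (XT.lf (nat_lit 0) (nat_lit 5256005189278) (nat_lit 152) (nat_lit 4258157337970) (nat_lit 76) (nat_lit 5176426863854) (nat_lit 39) (nat_lit 5) (nat_lit 41) (nat_lit 5) (nat_lit 40) (nat_lit 4) (nat_lit 406) (nat_lit 388) (nat_lit 226))))))))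
noncomputable def xc119 : XT := (XT.nd (nat_lit 52416) (nat_lit 0) (nat_lit 228) (XT.nd (nat_lit 51714) (nat_lit 0) (nat_lit 2812) (XT.nd (nat_lit 312) (nat_lit 532) (nat_lit 0) (XT.nd (nat_lit 156) (nat_lit 304) (nat_lit 0) (XT.nd (nat_lit 78) (nat_lit 152) (nat_lit 0) (XT.lf (nat_lit 0) (nat_lit 13206651815192) (nat_lit 76) (nat_lit 445896236323) (nat_lit 152) (nat_lit 2463514187070) (nat_lit 38) (nat_lit 5) (nat_lit 39) (nat_lit 5) (nat_lit 40) (nat_lit 4) (nat_lit 407) (nat_lit 388) (nat_lit 225)) (XT.lf (nat_lit 0) (nat_lit 6056398974849) (nat_lit 152) (nat_lit 1468105069548) (nat_lit 76) (nat_lit 10157689408578) (nat_lit 36) (nat_lit 5) (nat_lit 38) (nat_lit 5) (nat_lit 37) (nat_lit 4) (nat_lit 408) (nat_lit 388) (nat_lit 224))) (XT.nd (nat_lit 78) (nat_lit 152) (nat_lit 0) (XT.lf (nat_lit 0) (nat_lit 313506817650) (nat_lit 76) (nat_lit 16067185034541) (nat_lit 76) (nat_lit 3043652685061)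 (nat_lit 34) (nat_lit 4) (nat_lit 35) (nat_lit 5) (nat_lit 35) (nat_lit 4) (nat_lit 409) (nat_lit 388) (nat_lit 223)) (XT.lf (nat_lit 0) (nat_lit 2300174423662) (nat_lit 76) (nat_lit 5066992294273) (nat_lit 152) (nat_lit 13976893812280) (nat_lit 32) (nat_lit 5) (nat_lit 33) (nat_lit 5) (nat_lit 34) (nat_lit 4) (nat_lit 410) (nat_lit 388) (nat_lit 222)))) (XT.nd (nat_lit 156) (nat_lit 304) (nat_lit 0) (XT.nd (nat_lit 78) (nat_lit 152) (nat_lit 0) (XT.lf (nat_lit 0) (nat_lit 4517905505554) (nat_lit 76) (nat_lit 15508485105302) (nat_lit 76) (nat_lit 3449658855499) (nat_lit 31) (nat_lit 4) (nat_lit 32) (nat_lit 5) (nat_lit 32) (nat_lit 4) (nat_lit 411) (nat_lit 388) (nat_lit 221)) (XT.lf (nat_lit 0) (nat_lit 6864373665105) (nat_lit 76) (nat_lit 2233318601732) (nat_lit 152) (nat_lit 16743563268421) (nat_lit 29) (nat_lit 5) (nat_lit 30) (nat_lit 5) (nat_lit 31) (nat_lit 4) (nat_lit 412) (nat_lit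 388) (nat_lit 220))) (XT.nd (nat_lit 78) (nat_lit 228) (nat_lit 0) (XT.lf (nat_lit 0) (nat_lit 9229746804026) (nat_lit 76) (nat_lit 15200653233463) (nat_lit 76) (nat_lit 4035073372336) (nat_lit 28) (nat_lit 4) (nat_lit 29) (nat_lit 5) (nat_lit 29) (nat_lit 4) (nat_lit 413) (nat_lit 388) (nat_lit 219)) (XT.nd (nat_lit 78) (nat_lit 76) (nat_lit 0) (XT.lf (nat_lit 0) (nat_lit 10974838422172) (nat_lit 152) (nat_lit 19777840660291) (nat_lit 0) (nat_lit 636338550684) (nat_lit 26) (nat_lit 5) (nat_lit 28) (nat_lit 4) (nat_lit 26) (nat_lit 4) (nat_lit 414) (nat_lit 388) (nat_lit 218)) (XT.lf (nat_lit 0) (nat_lit 13681528625487) (nat_lit 76) (nat_lit 15646607272629) (nat_lit 76) (nat_lit 5308107401076) (nat_lit 25) (nat_lit 4) (nat_lit 26) (nat_lit 5) (nat_lit 26) (nat_lit 4) (nat_lit 415) (nat_lit 388) (nat_lit 217)))))) (XT.nd (nat_lit 312) (nat_lit 988) (nat_lit 0) (XT.nd (nat_lit 156) (nat_lit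 456) (nat_lit 0) (XT.nd (nat_lit 78) (nat_lit 0) (nat_lit 0) (XT.lf (nat_lit 0) (nat_lit 1854626697101) (nat_lit 532) (nat_lit 29355369232) (nat_lit 532) (nat_lit 29355369232) (nat_lit 81) (nat_lit 3) (nat_lit 88) (nat_lit 3) (nat_lit 88) (nat_lit 5) (nat_lit 389) (nat_lit 389) (nat_lit 242)) (XT.lf (nat_lit 76) (nat_lit 3684429085867) (nat_lit 0) (nat_lit 391628928613) (nat_lit 532) (nat_lit 30528622726) (nat_lit 82) (nat_lit 5) (nat_lit 81) (nat_lit 3) (nat_lit 88) (nat_lit 5) (nat_lit 390) (nat_lit 389) (nat_lit 241))) (XT.nd (nat_lit 78) (nat_lit 0) (nat_lit 76) (XT.lf (nat_lit 0) (nat_lit 244264914160) (nat_lit 532) (nat_lit 757259937710) (nat_lit 608) (nat_lit 3412559727605) (nat_lit 75) (nat_lit 5) (nat_lit 82) (nat_lit 5) (nat_lit 83) (nat_lit 5) (nat_lit 391) (nat_lit 389) (nat_lit 240)) (XT.lf (nat_lit 0) (nat_lit 747777847065) (nat_lit 532) (nat_lit 1049519886120) (nat_lit 608)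 (nat_lit 2955201403752) (nat_lit 76) (nat_lit 5) (nat_lit 83) (nat_lit 5) (nat_lit 84) (nat_lit 5) (nat_lit 392) (nat_lit 389) (nat_lit 239)))) (XT.nd (nat_lit 156) (nat_lit 684) (nat_lit 0) (XT.nd (nat_lit 78) (nat_lit 456) (nat_lit 0) (XT.lf (nat_lit 0) (nat_lit 1529602281676) (nat_lit 532) (nat_lit 1283394379746) (nat_lit 76) (nat_lit 2312456451654) (nat_lit 77) (nat_lit 5) (nat_lit 84) (nat_lit 5) (nat_lit 78) (nat_lit 5) (nat_lit 393) (nat_lit 389) (nat_lit 238)) (XT.lf (nat_lit 0) (nat_lit 2645919300722) (nat_lit 532) (nat_lit 1441222934138) (nat_lit 76) (nat_lit 1449830437237) (nat_lit 71) (nat_lit 5) (nat_lit 78) (nat_lit 5) (nat_lit 72) (nat_lit 5) (nat_lit 394) (nat_lit 389) (nat_lit 237))) (XT.nd (nat_lit 78) (nat_lit 456) (nat_lit 0) (XT.lf (nat_lit 0) (nat_lit 4162294376151) (nat_lit 304) (nat_lit 1502043671800) (nat_lit 76) (nat_lit 327273276738) (nat_lit 68) (nat_lit 5) (nat_lit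 72) (nat_lit 5) (nat_lit 69) (nat_lit 5) (nat_lit 395) (nat_lit 389) (nat_lit 236)) (XT.nd (nat_lit 78) (nat_lit 228) (nat_lit 0) (XT.lf (nat_lit 0) (nat_lit 5023320639187) (nat_lit 228) (nat_lit 1159705820744) (nat_lit 304) (nat_lit 309267255477) (nat_lit 65) (nat_lit 5) (nat_lit 68) (nat_lit 5) (nat_lit 69) (nat_lit 5) (nat_lit 396) (nat_lit 389) (nat_lit 235)) (XT.lf (nat_lit 0) (nat_lit 1653770256100) (nat_lit 228) (nat_lit 1344228778075) (nat_lit 76) (nat_lit 4044354839074) (nat_lit 62) (nat_lit 5) (nat_lit 65) (nat_lit 5) (nat_lit 63) (nat_lit 5) (nat_lit 397) (nat_lit 389) (nat_lit 234))))))) (XT.nd (nat_lit 702) (nat_lit 988) (nat_lit 0) (XT.nd (nat_lit 312) (nat_lit 684) (nat_lit 0) (XT.nd (nat_lit 156) (nat_lit 532) (nat_lit 0) (XT.nd (nat_lit 78) (nat_lit 152) (nat_lit 0) (XT.lf (nat_lit 0) (nat_lit 4189912313065) (nat_lit 304) (nat_lit 1067365666046) (nat_lit 76) (nat_lit 2393245563089)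 (nat_lit 59) (nat_lit 5) (nat_lit 63) (nat_lit 5) (nat_lit 60) (nat_lit 5) (nat_lit 398) (nat_lit 389) (nat_lit 233)) (XT.lf (nat_lit 0) (nat_lit 7423367916193) (nat_lit 228) (nat_lit 595535752808) (nat_lit 76) (nat_lit 305663613484) (nat_lit 57) (nat_lit 5) (nat_lit 60) (nat_lit 5) (nat_lit 58) (nat_lit 5) (nat_lit 399) (nat_lit 389) (nat_lit 232))) (XT.nd (nat_lit 78) (nat_lit 304) (nat_lit 0) (XT.lf (nat_lit 0) (nat_lit 2346952490201) (nat_lit 228) (nat_lit 4976433104) (nat_lit 76) (nat_lit 6711300926179) (nat_lit 54) (nat_lit 5) (nat_lit 57) (nat_lit 5) (nat_lit 55) (nat_lit 5) (nat_lit 400) (nat_lit 389) (nat_lit 231)) (XT.lf (nat_lit 0) (nat_lit 845515354525) (nat_lit 152) (nat_lit 5590851669950) (nat_lit 228) (nat_lit 3441860078320) (nat_lit 50) (nat_lit 5) (nat_lit 52) (nat_lit 5) (nat_lit 53) (nat_lit 5) (nat_lit 401) (nat_lit 389) (nat_lit 230)))) (XT.nd (nat_lit 156) (nat_lit 380)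 (nat_lit 0) (XT.nd (nat_lit 78) (nat_lit 152) (nat_lit 0) (XT.lf (nat_lit 0) (nat_lit 724257515920) (nat_lit 152) (nat_lit 8793152922755) (nat_lit 76) (nat_lit 1264102148213) (nat_lit 48) (nat_lit 5) (nat_lit 50) (nat_lit 5) (nat_lit 49) (nat_lit 5) (nat_lit 402) (nat_lit 389) (nat_lit 229)) (XT.lf (nat_lit 0) (nat_lit 3319746807282) (nat_lit 152) (nat_lit 2501821191986) (nat_lit 228) (nat_lit 5950765235276) (nat_lit 46) (nat_lit 5) (nat_lit 48) (nat_lit 5) (nat_lit 49) (nat_lit 5) (nat_lit 403) (nat_lit 389) (nat_lit 228))) (XT.nd (nat_lit 78) (nat_lit 304) (nat_lit 0) (XT.lf (nat_lit 0) (nat_lit 5000397086108) (nat_lit 76) (nat_lit 7199855252355) (nat_lit 152) (nat_lit 670182458220) (nat_lit 45) (nat_lit 5) (nat_lit 46) (nat_lit 5) (nat_lit 47) (nat_lit 4) (nat_lit 404) (nat_lit 389) (nat_lit 227)) (XT.nd (nat_lit 78) (nat_lit 76) (nat_lit 0) (XT.lf (nat_lit 0) (nat_lit 5656106651878) (nat_lit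 228) (nat_lit 7102083143987) (nat_lit 76) (nat_lit 1322757541821) (nat_lit 42) (nat_lit 5) (nat_lit 45) (nat_lit 5) (nat_lit 43) (nat_lit 4) (nat_lit 405) (nat_lit 389) (nat_lit 226)) (XT.lf (nat_lit 0) (nat_lit 9319565678078) (nat_lit 76) (nat_lit 4231564446097) (nat_lit 152) (nat_lit 1867756186665) (nat_lit 41) (nat_lit 5) (nat_lit 42) (nat_lit 5) (nat_lit 43) (nat_lit 4) (nat_lit 406) (nat_lit 389) (nat_lit 225)))))) (XT.nd (nat_lit 390) (nat_lit 304) (nat_lit 0) (XT.nd (nat_lit 156) (nat_lit 456) (nat_lit 0) (XT.nd (nat_lit 78) (nat_lit 76) (nat_lit 0) (XT.lf (nat_lit 0) (nat_lit 6044405971316) (nat_lit 152) (nat_lit 4896880931960) (nat_lit 76) (nat_lit 5952890896199) (nat_lit 39) (nat_lit 5) (nat_lit 41) (nat_lit 5) (nat_lit 40) (nat_lit 4) (nat_lit 407) (nat_lit 389) (nat_lit 224)) (XT.lf (nat_lit 0) (nat_lit 15187649593609) (nat_lit 76) (nat_lit 512780668951) (nat_lit 152) (nat_lit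 2833041311547) (nat_lit 38) (nat_lit 5) (nat_lit 39) (nat_lit 5) (nat_lit 40) (nat_lit 4) (nat_lit 408) (nat_lit 389) (nat_lit 223))) (XT.nd (nat_lit 78) (nat_lit 304) (nat_lit 0) (XT.lf (nat_lit 0) (nat_lit 6964858824240) (nat_lit 152) (nat_lit 1688320824013) (nat_lit 76) (nat_lit 11681342822413) (nat_lit 36) (nat_lit 5) (nat_lit 38) (nat_lit 5) (nat_lit 37) (nat_lit 4) (nat_lit 409) (nat_lit 389) (nat_lit 222)) (XT.nd (nat_lit 78) (nat_lit 152) (nat_lit 0) (XT.lf (nat_lit 0) (nat_lit 360532846224) (nat_lit 76) (nat_lit 18477262786883) (nat_lit 76) (nat_lit 3500200584485) (nat_lit 34) (nat_lit 4) (nat_lit 35) (nat_lit 5) (nat_lit 35) (nat_lit 4) (nat_lit 410) (nat_lit 389) (nat_lit 221)) (XT.lf (nat_lit 0) (nat_lit 2645200592789) (nat_lit 76) (nat_lit 5827041135725) (nat_lit 152) (nat_lit 16073427881002) (nat_lit 32) (nat_lit 5) (nat_lit 33) (nat_lit 5) (nat_lit 34) (nat_lit 4) (nat_lit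 411) (nat_lit 389) (nat_lit 220))))) (XT.nd (nat_lit 156) (nat_lit 76) (nat_lit 0) (XT.nd (nat_lit 78) (nat_lit 152) (nat_lit 0) (XT.lf (nat_lit 0) (nat_lit 5195591336645) (nat_lit 76) (nat_lit 17834757868533) (nat_lit 76) (nat_lit 3967107680914) (nat_lit 31) (nat_lit 4) (nat_lit 32) (nat_lit 5) (nat_lit 32) (nat_lit 4) (nat_lit 412) (nat_lit 389) (nat_lit 219)) (XT.lf (nat_lit 0) (nat_lit 7894029719817) (nat_lit 76) (nat_lit 2568316389568) (nat_lit 152) (nat_lit 19255097755959) (nat_lit 29) (nat_lit 5) (nat_lit 30) (nat_lit 5) (nat_lit 31) (nat_lit 4) (nat_lit 413) (nat_lit 389) (nat_lit 218))) (XT.nd (nat_lit 51246) (nat_lit 0) (nat_lit 4028) (XT.lf (nat_lit 0) (nat_lit 10614208829289) (nat_lit 76) (nat_lit 17480751216180) (nat_lit 76) (nat_lit 4640334375641) (nat_lit 28) (nat_lit 4) (nat_lit 29) (nat_lit 5) (nat_lit 29) (nat_lit 4) (nat_lit 414) (nat_lit 389) (nat_lit 217)) (XT.nd (nat_lit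 78) (nat_lit 0) (nat_lit 0) (XT.lf (nat_lit 0) (nat_lit 2132820708939) (nat_lit 532) (nat_lit 33758670688) (nat_lit 532) (nat_lit 33758670688) (nat_lit 81) (nat_lit 3) (nat_lit 88) (nat_lit 3) (nat_lit 88) (nat_lit 5) (nat_lit 390) (nat_lit 390) (nat_lit 240)) (XT.lf (nat_lit 76) (nat_lit 4237093455939) (nat_lit 0) (nat_lit 450373273536) (nat_lit 532) (nat_lit 35107902283) (nat_lit 82) (nat_lit 5) (nat_lit 81) (nat_lit 3) (nat_lit 88) (nat_lit 5) (nat_lit 391) (nat_lit 390) (nat_lit 239))))))))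
noncomputable def xc120 : XT := (XT.nd (nat_lit 1404) (nat_lit 684) (nat_lit 0) (XT.nd (nat_lit 702) (nat_lit 1444) (nat_lit 0) (XT.nd (nat_lit 312) (nat_lit 1064) (nat_lit 0) (XT.nd (nat_lit 156) (nat_lit 304) (nat_lit 0) (XT.nd (nat_lit 78) (nat_lit 0) (nat_lit 76) (XT.lf (nat_lit 0) (nat_lit 280904662795) (nat_lit 532) (nat_lit 870848920108) (nat_lit 608) (nat_lit 3924443682570) (nat_lit 75) (nat_lit 5) (nat_lit 82) (nat_lit 5) (nat_lit 83) (nat_lit 5) (nat_lit 392) (nat_lit 390) (nat_lit 238)) (XT.lf (nat_lit 0) (nat_lit 859944534253) (nat_lit 532) (nat_lit 1206947860598) (nat_lit 608) (nat_lit 3398481611815) (nat_lit 76) (nat_lit 5) (nat_lit 83) (nat_lit 5) (nat_lit 84) (nat_lit 5) (nat_lit 393) (nat_lit 390) (nat_lit 237))) (XT.nd (nat_lit 78) (nat_lit 456) (nat_lit 0) (XT.lf (nat_lit 0) (nat_lit 1759042632890) (nat_lit 532) (nat_lit 1475903528230) (nat_lit 76) (nat_lit 2659324918199)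 (nat_lit 77) (nat_lit 5) (nat_lit 84) (nat_lit 5) (nat_lit 78) (nat_lit 5) (nat_lit 394) (nat_lit 390) (nat_lit 236)) (XT.lf (nat_lit 0) (nat_lit 3042807203805) (nat_lit 532) (nat_lit 1657406365854) (nat_lit 76) (nat_lit 1667305002614) (nat_lit 71) (nat_lit 5) (nat_lit 78) (nat_lit 5) (nat_lit 72) (nat_lit 5) (nat_lit 395) (nat_lit 390) (nat_lit 235)))) (XT.nd (nat_lit 156) (nat_lit 608) (nat_lit 0) (XT.nd (nat_lit 78) (nat_lit 228) (nat_lit 0) (XT.lf (nat_lit 0) (nat_lit 4786638539707) (nat_lit 304) (nat_lit 1727350214319) (nat_lit 76) (nat_lit 376364268795) (nat_lit 68) (nat_lit 5) (nat_lit 72) (nat_lit 5) (nat_lit 69) (nat_lit 5) (nat_lit 396) (nat_lit 390) (nat_lit 234)) (XT.lf (nat_lit 0) (nat_lit 5776818742618) (nat_lit 228) (nat_lit 1333661692687) (nat_lit 304) (nat_lit 355657336902) (nat_lit 65) (nat_lit 5) (nat_lit 68) (nat_lit 5) (nat_lit 69) (nat_lit 5) (nat_lit 397) (nat_lit 390)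 (nat_lit 233))) (XT.nd (nat_lit 78) (nat_lit 380) (nat_lit 0) (XT.lf (nat_lit 0) (nat_lit 1901835800418) (nat_lit 228) (nat_lit 1545863087118) (nat_lit 76) (nat_lit 4651008066227) (nat_lit 62) (nat_lit 5) (nat_lit 65) (nat_lit 5) (nat_lit 63) (nat_lit 5) (nat_lit 398) (nat_lit 390) (nat_lit 232)) (XT.nd (nat_lit 78) (nat_lit 152) (nat_lit 0) (XT.lf (nat_lit 0) (nat_lit 4818399165368) (nat_lit 304) (nat_lit 1227470508550) (nat_lit 76) (nat_lit 2752232399184) (nat_lit 59) (nat_lit 5) (nat_lit 63) (nat_lit 5) (nat_lit 60) (nat_lit 5) (nat_lit 399) (nat_lit 390) (nat_lit 231)) (XT.lf (nat_lit 0) (nat_lit 8536873108479) (nat_lit 228) (nat_lit 684866108615) (nat_lit 76) (nat_lit 351513157375) (nat_lit 57) (nat_lit 5) (nat_lit 60) (nat_lit 5) (nat_lit 58) (nat_lit 5) (nat_lit 400) (nat_lit 390) (nat_lit 230)))))) (XT.nd (nat_lit 312) (nat_lit 608) (nat_lit 0) (XT.nd (nat_lit 156) (nat_lit 304) (nat_lit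 0) (XT.nd (nat_lit 78) (nat_lit 304) (nat_lit 0) (XT.lf (nat_lit 0) (nat_lit 2698995368225) (nat_lit 228) (nat_lit 5722891320) (nat_lit 76) (nat_lit 7717996067001) (nat_lit 54) (nat_lit 5) (nat_lit 57) (nat_lit 5) (nat_lit 55) (nat_lit 5) (nat_lit 401) (nat_lit 390) (nat_lit 229)) (XT.lf (nat_lit 0) (nat_lit 972342664496) (nat_lit 152) (nat_lit 6429479417921) (nat_lit 228) (nat_lit 3958139085454) (nat_lit 50) (nat_lit 5) (nat_lit 52) (nat_lit 5) (nat_lit 53) (nat_lit 5) (nat_lit 402) (nat_lit 390) (nat_lit 228))) (XT.nd (nat_lit 78) (nat_lit 152) (nat_lit 0) (XT.lf (nat_lit 0) (nat_lit 832896147332) (nat_lit 152) (nat_lit 10112125854481) (nat_lit 76) (nat_lit 1453717472785) (nat_lit 48) (nat_lit 5) (nat_lit 50) (nat_lit 5) (nat_lit 49) (nat_lit 5) (nat_lit 403) (nat_lit 390) (nat_lit 227)) (XT.lf (nat_lit 0) (nat_lit 3817708834497) (nat_lit 152) (nat_lit 2877094368309) (nat_lit 228) (nat_lit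 6843380016628) (nat_lit 46) (nat_lit 5) (nat_lit 48) (nat_lit 5) (nat_lit 49) (nat_lit 5) (nat_lit 404) (nat_lit 390) (nat_lit 226)))) (XT.nd (nat_lit 156) (nat_lit 304) (nat_lit 0) (XT.nd (nat_lit 78) (nat_lit 228) (nat_lit 0) (XT.lf (nat_lit 0) (nat_lit 5750456654840) (nat_lit 76) (nat_lit 8279833537755) (nat_lit 152) (nat_lit 770709823320) (nat_lit 45) (nat_lit 5) (nat_lit 46) (nat_lit 5) (nat_lit 47) (nat_lit 4) (nat_lit 405) (nat_lit 390) (nat_lit 225)) (XT.lf (nat_lit 0) (nat_lit 6504522652849) (nat_lit 228) (nat_lit 8167395609900) (nat_lit 76) (nat_lit 1521171175334) (nat_lit 42) (nat_lit 5) (nat_lit 45) (nat_lit 5) (nat_lit 43) (nat_lit 4) (nat_lit 406) (nat_lit 390) (nat_lit 224))) (XT.nd (nat_lit 78) (nat_lit 228) (nat_lit 0) (XT.lf (nat_lit 0) (nat_lit 10717500534994) (nat_lit 76) (nat_lit 4866299110707) (nat_lit 152) (nat_lit 2147919611534) (nat_lit 41) (nat_lit 5) (nat_lit 42)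 (nat_lit 5) (nat_lit 43) (nat_lit 4) (nat_lit 407) (nat_lit 390) (nat_lit 223)) (XT.nd (nat_lit 78) (nat_lit 76) (nat_lit 0) (XT.lf (nat_lit 0) (nat_lit 6951066869770) (nat_lit 152) (nat_lit 5631413066684) (nat_lit 76) (nat_lit 6845824532722) (nat_lit 39) (nat_lit 5) (nat_lit 41) (nat_lit 5) (nat_lit 40) (nat_lit 4) (nat_lit 408) (nat_lit 390) (nat_lit 222)) (XT.lf (nat_lit 0) (nat_lit 17465797037292) (nat_lit 76) (nat_lit 589697767162) (nat_lit 152) (nat_lit 3257997505569) (nat_lit 38) (nat_lit 5) (nat_lit 39) (nat_lit 5) (nat_lit 40) (nat_lit 4) (nat_lit 409) (nat_lit 390) (nat_lit 221))))))) (XT.nd (nat_lit 51948) (nat_lit 0) (nat_lit 1444) (XT.nd (nat_lit 312) (nat_lit 152) (nat_lit 0) (XT.nd (nat_lit 156) (nat_lit 228) (nat_lit 0) (XT.nd (nat_lit 78) (nat_lit 152) (nat_lit 0) (XT.lf (nat_lit 0) (nat_lit 8009587650269) (nat_lit 152) (nat_lit 1941568943104) (nat_lit 76) (nat_lit 13433544247703)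 (nat_lit 36) (nat_lit 5) (nat_lit 38) (nat_lit 5) (nat_lit 37) (nat_lit 4) (nat_lit 410) (nat_lit 390) (nat_lit 220)) (XT.lf (nat_lit 0) (nat_lit 414612777639) (nat_lit 76) (nat_lit 21248852202768) (nat_lit 76) (nat_lit 4025230669637) (nat_lit 34) (nat_lit 4) (nat_lit 35) (nat_lit 5) (nat_lit 35) (nat_lit 4) (nat_lit 411) (nat_lit 390) (nat_lit 219))) (XT.nd (nat_lit 78) (nat_lit 76) (nat_lit 0) (XT.lf (nat_lit 0) (nat_lit 3041980685925) (nat_lit 76) (nat_lit 6701097304050) (nat_lit 152) (nat_lit 18484442060793) (nat_lit 32) (nat_lit 5) (nat_lit 33) (nat_lit 5) (nat_lit 34) (nat_lit 4) (nat_lit 412) (nat_lit 390) (nat_lit 218)) (XT.lf (nat_lit 0) (nat_lit 5974930041118) (nat_lit 76) (nat_lit 20509971546875) (nat_lit 76) (nat_lit 4562173830850) (nat_lit 31) (nat_lit 4) (nat_lit 32) (nat_lit 5) (nat_lit 32) (nat_lit 4) (nat_lit 413) (nat_lit 390) (nat_lit 217)))) (XT.nd (nat_lit 51402) (nat_lit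 0) (nat_lit 3496) (XT.nd (nat_lit 51324) (nat_lit 0) (nat_lit 3952) (XT.lf (nat_lit 0) (nat_lit 9078134181530) (nat_lit 76) (nat_lit 2953563846171) (nat_lit 152) (nat_lit 22143362417292) (nat_lit 29) (nat_lit 5) (nat_lit 30) (nat_lit 5) (nat_lit 31) (nat_lit 4) (nat_lit 414) (nat_lit 390) (nat_lit 216)) (XT.lf (nat_lit 0) (nat_lit 2452743820780) (nat_lit 532) (nat_lit 38822468320) (nat_lit 532) (nat_lit 38822468320) (nat_lit 81) (nat_lit 3) (nat_lit 88) (nat_lit 3) (nat_lit 88) (nat_lit 5) (nat_lit 391) (nat_lit 391) (nat_lit 238))) (XT.nd (nat_lit 78) (nat_lit 456) (nat_lit 0) (XT.lf (nat_lit 76) (nat_lit 4872657479768) (nat_lit 0) (nat_lit 517929268824) (nat_lit 532) (nat_lit 40374077151) (nat_lit 82) (nat_lit 5) (nat_lit 81) (nat_lit 3) (nat_lit 88) (nat_lit 5) (nat_lit 392) (nat_lit 391) (nat_lit 237)) (XT.nd (nat_lit 78) (nat_lit 0) (nat_lit 76) (XT.lf (nat_lit 0) (nat_lit 323040370918)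 (nat_lit 532) (nat_lit 1001476251880) (nat_lit 608) (nat_lit 4513110231799) (nat_lit 75) (nat_lit 5) (nat_lit 82) (nat_lit 5) (nat_lit 83) (nat_lit 5) (nat_lit 393) (nat_lit 391) (nat_lit 236)) (XT.lf (nat_lit 0) (nat_lit 988936222049) (nat_lit 532) (nat_lit 1387990033305) (nat_lit 608) (nat_lit 3908253851697) (nat_lit 76) (nat_lit 5) (nat_lit 83) (nat_lit 5) (nat_lit 84) (nat_lit 5) (nat_lit 394) (nat_lit 391) (nat_lit 235)))))) (XT.nd (nat_lit 390) (nat_lit 1064) (nat_lit 0) (XT.nd (nat_lit 156) (nat_lit 684) (nat_lit 0) (XT.nd (nat_lit 78) (nat_lit 456) (nat_lit 0) (XT.lf (nat_lit 0) (nat_lit 2022899034600) (nat_lit 532) (nat_lit 1697289051054) (nat_lit 76) (nat_lit 3058223655019) (nat_lit 77) (nat_lit 5) (nat_lit 84) (nat_lit 5) (nat_lit 78) (nat_lit 5) (nat_lit 395) (nat_lit 391) (nat_lit 234)) (XT.lf (nat_lit 0) (nat_lit 3499228290405) (nat_lit 532) (nat_lit 1906017314376) (nat_lit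 76) (nat_lit 1917400752849) (nat_lit 71) (nat_lit 5) (nat_lit 78) (nat_lit 5) (nat_lit 72) (nat_lit 5) (nat_lit 396) (nat_lit 391) (nat_lit 233))) (XT.nd (nat_lit 78) (nat_lit 456) (nat_lit 0) (XT.lf (nat_lit 0) (nat_lit 5504634326057) (nat_lit 304) (nat_lit 1986452740227) (nat_lit 76) (nat_lit 432818909528) (nat_lit 68) (nat_lit 5) (nat_lit 72) (nat_lit 5) (nat_lit 69) (nat_lit 5) (nat_lit 397) (nat_lit 391) (nat_lit 232)) (XT.nd (nat_lit 78) (nat_lit 228) (nat_lit 0) (XT.lf (nat_lit 0) (nat_lit 6643341559722) (nat_lit 228) (nat_lit 1533710945706) (nat_lit 304) (nat_lit 409005932223) (nat_lit 65) (nat_lit 5) (nat_lit 68) (nat_lit 5) (nat_lit 69) (nat_lit 5) (nat_lit 398) (nat_lit 391) (nat_lit 231)) (XT.lf (nat_lit 0) (nat_lit 2187111174945) (nat_lit 228) (nat_lit 1777742544387) (nat_lit 76) (nat_lit 5348659277138) (nat_lit 62) (nat_lit 5) (nat_lit 65) (nat_lit 5) (nat_lit 63) (nat_lit 5)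 (nat_lit 399) (nat_lit 391) (nat_lit 230))))) (XT.nd (nat_lit 156) (nat_lit 684) (nat_lit 0) (XT.nd (nat_lit 78) (nat_lit 152) (nat_lit 0) (XT.lf (nat_lit 0) (nat_lit 5541159044214) (nat_lit 304) (nat_lit 1411591079234) (nat_lit 76) (nat_lit 3165067260295) (nat_lit 59) (nat_lit 5) (nat_lit 63) (nat_lit 5) (nat_lit 60) (nat_lit 5) (nat_lit 400) (nat_lit 391) (nat_lit 229)) (XT.lf (nat_lit 0) (nat_lit 9817404078423) (nat_lit 228) (nat_lit 787596019527) (nat_lit 76) (nat_lit 404240132394) (nat_lit 57) (nat_lit 5) (nat_lit 60) (nat_lit 5) (nat_lit 58) (nat_lit 5) (nat_lit 401) (nat_lit 391) (nat_lit 228))) (XT.nd (nat_lit 78) (nat_lit 456) (nat_lit 0) (XT.lf (nat_lit 0) (nat_lit 3103844676858) (nat_lit 228) (nat_lit 6581319914) (nat_lit 76) (nat_lit 8875695478484) (nat_lit 54) (nat_lit 5) (nat_lit 57) (nat_lit 5) (nat_lit 55) (nat_lit 5) (nat_lit 402) (nat_lit 391) (nat_lit 227)) (XT.nd (nat_lit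 78) (nat_lit 152) (nat_lit 0) (XT.lf (nat_lit 0) (nat_lit 1118194069307) (nat_lit 152) (nat_lit 7393901328703) (nat_lit 228) (nat_lit 4551859944784) (nat_lit 50) (nat_lit 5) (nat_lit 52) (nat_lit 5) (nat_lit 53) (nat_lit 5) (nat_lit 403) (nat_lit 391) (nat_lit 226)) (XT.lf (nat_lit 0) (nat_lit 957830572476) (nat_lit 152) (nat_lit 11628944727596) (nat_lit 76) (nat_lit 1671775095473) (nat_lit 48) (nat_lit 5) (nat_lit 50) (nat_lit 5) (nat_lit 49) (nat_lit 5) (nat_lit 404) (nat_lit 391) (nat_lit 225))))))))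
noncomputable def xc121 : XT := (XT.nd (nat_lit 52728) (nat_lit 0) (nat_lit 228) (XT.nd (nat_lit 702) (nat_lit 76) (nat_lit 0) (XT.nd (nat_lit 312) (nat_lit 684) (nat_lit 0) (XT.nd (nat_lit 156) (nat_lit 304) (nat_lit 0) (XT.nd (nat_lit 78) (nat_lit 76) (nat_lit 0) (XT.lf (nat_lit 0) (nat_lit 4390365164300) (nat_lit 152) (nat_lit 3308658521684) (nat_lit 228) (nat_lit 7869887016144) (nat_lit 46) (nat_lit 5) (nat_lit 48) (nat_lit 5) (nat_lit 49) (nat_lit 5) (nat_lit 405) (nat_lit 391) (nat_lit 224)) (XT.lf (nat_lit 0) (nat_lit 6613025157465) (nat_lit 76) (nat_lit 9521808566563) (nat_lit 152) (nat_lit 886316294071) (nat_lit 45) (nat_lit 5) (nat_lit 46) (nat_lit 5) (nat_lit 47) (nat_lit 4) (nat_lit 406) (nat_lit 391) (nat_lit 223))) (XT.nd (nat_lit 78) (nat_lit 76) (nat_lit 0) (XT.lf (nat_lit 0) (nat_lit 7480201053188) (nat_lit 228) (nat_lit 9392504947086) (nat_lit 76) (nat_lit 1749346853329)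 (nat_lit 42) (nat_lit 5) (nat_lit 45) (nat_lit 5) (nat_lit 43) (nat_lit 4) (nat_lit 407) (nat_lit 391) (nat_lit 222)) (XT.lf (nat_lit 0) (nat_lit 12325125619178) (nat_lit 76) (nat_lit 5596243975570) (nat_lit 152) (nat_lit 2470107550897) (nat_lit 41) (nat_lit 5) (nat_lit 42) (nat_lit 5) (nat_lit 43) (nat_lit 4) (nat_lit 408) (nat_lit 391) (nat_lit 221)))) (XT.nd (nat_lit 156) (nat_lit 456) (nat_lit 0) (XT.nd (nat_lit 78) (nat_lit 76) (nat_lit 0) (XT.lf (nat_lit 0) (nat_lit 7993726902321) (nat_lit 152) (nat_lit 6476125022852) (nat_lit 76) (nat_lit 7872698214212) (nat_lit 39) (nat_lit 5) (nat_lit 41) (nat_lit 5) (nat_lit 40) (nat_lit 4) (nat_lit 409) (nat_lit 391) (nat_lit 220)) (XT.lf (nat_lit 0) (nat_lit 20085666596396) (nat_lit 76) (nat_lit 678152430624) (nat_lit 152) (nat_lit 3746697129355) (nat_lit 38) (nat_lit 5) (nat_lit 39) (nat_lit 5) (nat_lit 40) (nat_lit 4) (nat_lit 410) (nat_lit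 391) (nat_lit 219))) (XT.nd (nat_lit 78) (nat_lit 304) (nat_lit 0) (XT.lf (nat_lit 0) (nat_lit 9211025799619) (nat_lit 152) (nat_lit 2232804281158) (nat_lit 76) (nat_lit 15448575886315) (nat_lit 36) (nat_lit 5) (nat_lit 38) (nat_lit 5) (nat_lit 37) (nat_lit 4) (nat_lit 411) (nat_lit 391) (nat_lit 218)) (XT.nd (nat_lit 78) (nat_lit 152) (nat_lit 0) (XT.lf (nat_lit 0) (nat_lit 476804697674) (nat_lit 76) (nat_lit 24436180031560) (nat_lit 76) (nat_lit 4629015268176) (nat_lit 34) (nat_lit 4) (nat_lit 35) (nat_lit 5) (nat_lit 35) (nat_lit 4) (nat_lit 412) (nat_lit 391) (nat_lit 217)) (XT.lf (nat_lit 0) (nat_lit 3498277792003) (nat_lit 76) (nat_lit 7706261898120) (nat_lit 152) (nat_lit 21257108368128) (nat_lit 32) (nat_lit 5) (nat_lit 33) (nat_lit 5) (nat_lit 34) (nat_lit 4) (nat_lit 413) (nat_lit 391) (nat_lit 216)))))) (XT.nd (nat_lit 51636) (nat_lit 0) (nat_lit 2584) (XT.nd (nat_lit 51480) (nat_lit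 0) (nat_lit 3344) (XT.nd (nat_lit 51402) (nat_lit 0) (nat_lit 3800) (XT.lf (nat_lit 0) (nat_lit 6871169550292) (nat_lit 76) (nat_lit 23586467277440) (nat_lit 76) (nat_lit 5246499903814) (nat_lit 31) (nat_lit 4) (nat_lit 32) (nat_lit 5) (nat_lit 32) (nat_lit 4) (nat_lit 414) (nat_lit 391) (nat_lit 215)) (XT.lf (nat_lit 0) (nat_lit 2820655398056) (nat_lit 532) (nat_lit 44645836322) (nat_lit 532) (nat_lit 44645836322) (nat_lit 81) (nat_lit 3) (nat_lit 88) (nat_lit 3) (nat_lit 88) (nat_lit 5) (nat_lit 392) (nat_lit 392) (nat_lit 236))) (XT.nd (nat_lit 78) (nat_lit 456) (nat_lit 0) (XT.lf (nat_lit 76) (nat_lit 5603556105846) (nat_lit 0) (nat_lit 595618662366) (nat_lit 532) (nat_lit 46430180804) (nat_lit 82) (nat_lit 5) (nat_lit 81) (nat_lit 3) (nat_lit 88) (nat_lit 5) (nat_lit 393) (nat_lit 392) (nat_lit 235)) (XT.lf (nat_lit 0) (nat_lit 371496433137) (nat_lit 532) (nat_lit 1151697684940) (nat_lit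 608) (nat_lit 5190076764181) (nat_lit 75) (nat_lit 5) (nat_lit 82) (nat_lit 5) (nat_lit 83) (nat_lit 5) (nat_lit 394) (nat_lit 392) (nat_lit 234)))) (XT.nd (nat_lit 156) (nat_lit 836) (nat_lit 0) (XT.nd (nat_lit 78) (nat_lit 0) (nat_lit 76) (XT.lf (nat_lit 0) (nat_lit 1137276661147) (nat_lit 532) (nat_lit 1596188533476) (nat_lit 608) (nat_lit 4494491928022) (nat_lit 76) (nat_lit 5) (nat_lit 83) (nat_lit 5) (nat_lit 84) (nat_lit 5) (nat_lit 395) (nat_lit 392) (nat_lit 233)) (XT.lf (nat_lit 0) (nat_lit 2326333894914) (nat_lit 532) (nat_lit 1951882403865) (nat_lit 76) (nat_lit 3516957202584) (nat_lit 77) (nat_lit 5) (nat_lit 84) (nat_lit 5) (nat_lit 78) (nat_lit 5) (nat_lit 396) (nat_lit 392) (nat_lit 232))) (XT.nd (nat_lit 78) (nat_lit 456) (nat_lit 0) (XT.lf (nat_lit 0) (nat_lit 4024112538526) (nat_lit 532) (nat_lit 2191919906726) (nat_lit 76) (nat_lit 2205010865657) (nat_lit 71) (nat_lit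 5) (nat_lit 78) (nat_lit 5) (nat_lit 72) (nat_lit 5) (nat_lit 397) (nat_lit 392) (nat_lit 231)) (XT.nd (nat_lit 78) (nat_lit 228) (nat_lit 0) (XT.lf (nat_lit 0) (nat_lit 6330329479044) (nat_lit 304) (nat_lit 2284420646544) (nat_lit 76) (nat_lit 497741746269) (nat_lit 68) (nat_lit 5) (nat_lit 72) (nat_lit 5) (nat_lit 69) (nat_lit 5) (nat_lit 398) (nat_lit 392) (nat_lit 230)) (XT.lf (nat_lit 0) (nat_lit 7639842797999) (nat_lit 228) (nat_lit 1763767586894) (nat_lit 304) (nat_lit 470356818113) (nat_lit 65) (nat_lit 5) (nat_lit 68) (nat_lit 5) (nat_lit 69) (nat_lit 5) (nat_lit 399) (nat_lit 392) (nat_lit 229))))))) (XT.nd (nat_lit 702) (nat_lit 608) (nat_lit 0) (XT.nd (nat_lit 312) (nat_lit 912) (nat_lit 0) (XT.nd (nat_lit 156) (nat_lit 380) (nat_lit 0) (XT.nd (nat_lit 78) (nat_lit 228) (nat_lit 0) (XT.lf (nat_lit 0) (nat_lit 2515177854562) (nat_lit 228) (nat_lit 2044403921660) (nat_lit 76) (nat_lit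 6150958169447) (nat_lit 62) (nat_lit 5) (nat_lit 65) (nat_lit 5) (nat_lit 63) (nat_lit 5) (nat_lit 400) (nat_lit 392) (nat_lit 228)) (XT.lf (nat_lit 0) (nat_lit 6372332903901) (nat_lit 304) (nat_lit 1623329736887) (nat_lit 76) (nat_lit 3639827350272) (nat_lit 59) (nat_lit 5) (nat_lit 63) (nat_lit 5) (nat_lit 60) (nat_lit 5) (nat_lit 401) (nat_lit 392) (nat_lit 227))) (XT.nd (nat_lit 78) (nat_lit 228) (nat_lit 0) (XT.lf (nat_lit 0) (nat_lit 11290014692964) (nat_lit 228) (nat_lit 905735418388) (nat_lit 76) (nat_lit 464876153322) (nat_lit 57) (nat_lit 5) (nat_lit 60) (nat_lit 5) (nat_lit 58) (nat_lit 5) (nat_lit 402) (nat_lit 392) (nat_lit 226)) (XT.lf (nat_lit 0) (nat_lit 3569421380956) (nat_lit 228) (nat_lit 7568514041) (nat_lit 76) (nat_lit 10207049801341) (nat_lit 54) (nat_lit 5) (nat_lit 57) (nat_lit 5) (nat_lit 55) (nat_lit 5) (nat_lit 403) (nat_lit 392) (nat_lit 225)))) (XT.nd (nat_lit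 156) (nat_lit 456) (nat_lit 0) (XT.nd (nat_lit 78) (nat_lit 152) (nat_lit 0) (XT.lf (nat_lit 0) (nat_lit 1285923183587) (nat_lit 152) (nat_lit 8502986526567) (nat_lit 228) (nat_lit 5234638933864) (nat_lit 50) (nat_lit 5) (nat_lit 52) (nat_lit 5) (nat_lit 53) (nat_lit 5) (nat_lit 404) (nat_lit 392) (nat_lit 224)) (XT.lf (nat_lit 0) (nat_lit 1101505160649) (nat_lit 152) (nat_lit 13373286432912) (nat_lit 76) (nat_lit 1922541361132) (nat_lit 48) (nat_lit 5) (nat_lit 50) (nat_lit 5) (nat_lit 49) (nat_lit 5) (nat_lit 405) (nat_lit 392) (nat_lit 223))) (XT.nd (nat_lit 78) (nat_lit 304) (nat_lit 0) (XT.lf (nat_lit 0) (nat_lit 5048919942445) (nat_lit 152) (nat_lit 3804957298522) (nat_lit 228) (nat_lit 9050370066313) (nat_lit 46) (nat_lit 5) (nat_lit 48) (nat_lit 5) (nat_lit 49) (nat_lit 5) (nat_lit 406) (nat_lit 392) (nat_lit 222)) (XT.nd (nat_lit 78) (nat_lit 228) (nat_lit 0) (XT.lf (nat_lit 0) (nat_lit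 7604978934410) (nat_lit 76) (nat_lit 10950079850144) (nat_lit 152) (nat_lit 1019263736105) (nat_lit 45) (nat_lit 5) (nat_lit 46) (nat_lit 5) (nat_lit 47) (nat_lit 4) (nat_lit 407) (nat_lit 392) (nat_lit 221)) (XT.lf (nat_lit 0) (nat_lit 8602231212990) (nat_lit 228) (nat_lit 10801380685899) (nat_lit 76) (nat_lit 2011748882609) (nat_lit 42) (nat_lit 5) (nat_lit 45) (nat_lit 5) (nat_lit 43) (nat_lit 4) (nat_lit 408) (nat_lit 392) (nat_lit 220)))))) (XT.nd (nat_lit 51870) (nat_lit 0) (nat_lit 3116) (XT.nd (nat_lit 156) (nat_lit 380) (nat_lit 0) (XT.nd (nat_lit 78) (nat_lit 152) (nat_lit 0) (XT.lf (nat_lit 0) (nat_lit 14173894465030) (nat_lit 76) (nat_lit 6435680570588) (nat_lit 152) (nat_lit 2840623681742) (nat_lit 41) (nat_lit 5) (nat_lit 42) (nat_lit 5) (nat_lit 43) (nat_lit 4) (nat_lit 409) (nat_lit 392) (nat_lit 219)) (XT.lf (nat_lit 0) (nat_lit 9192785939245) (nat_lit 152) (nat_lit 7447543773381)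 (nat_lit 76) (nat_lit 9053602947541) (nat_lit 39) (nat_lit 5) (nat_lit 41) (nat_lit 5) (nat_lit 40) (nat_lit 4) (nat_lit 410) (nat_lit 392) (nat_lit 218))) (XT.nd (nat_lit 78) (nat_lit 304) (nat_lit 0) (XT.lf (nat_lit 0) (nat_lit 23098516588508) (nat_lit 76) (nat_lit 779875293999) (nat_lit 152) (nat_lit 4308701697209) (nat_lit 38) (nat_lit 5) (nat_lit 39) (nat_lit 5) (nat_lit 40) (nat_lit 4) (nat_lit 411) (nat_lit 392) (nat_lit 217)) (XT.nd (nat_lit 78) (nat_lit 152) (nat_lit 0) (XT.lf (nat_lit 0) (nat_lit 10592679670930) (nat_lit 152) (nat_lit 2567724920752) (nat_lit 76) (nat_lit 17765862270365) (nat_lit 36) (nat_lit 5) (nat_lit 38) (nat_lit 5) (nat_lit 37) (nat_lit 4) (nat_lit 412) (nat_lit 392) (nat_lit 216)) (XT.lf (nat_lit 0) (nat_lit 548325404887) (nat_lit 76) (nat_lit 28101607035067) (nat_lit 76) (nat_lit 5323367556961) (nat_lit 34) (nat_lit 4) (nat_lit 35) (nat_lit 5) (nat_lit 35)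 (nat_lit 4) (nat_lit 413) (nat_lit 392) (nat_lit 215))))) (XT.nd (nat_lit 156) (nat_lit 456) (nat_lit 0) (XT.nd (nat_lit 78) (nat_lit 0) (nat_lit 0) (XT.lf (nat_lit 0) (nat_lit 3243753710909) (nat_lit 532) (nat_lit 51342710072) (nat_lit 532) (nat_lit 51342710072) (nat_lit 81) (nat_lit 3) (nat_lit 88) (nat_lit 3) (nat_lit 88) (nat_lit 5) (nat_lit 393) (nat_lit 393) (nat_lit 234)) (XT.lf (nat_lit 76) (nat_lit 6444089524832) (nat_lit 0) (nat_lit 684961464156) (nat_lit 532) (nat_lit 53394701936) (nat_lit 82) (nat_lit 5) (nat_lit 81) (nat_lit 3) (nat_lit 88) (nat_lit 5) (nat_lit 394) (nat_lit 393) (nat_lit 233))) (XT.nd (nat_lit 78) (nat_lit 0) (nat_lit 76) (XT.lf (nat_lit 0) (nat_lit 427220903084) (nat_lit 532) (nat_lit 1324452334111) (nat_lit 608) (nat_lit 5968588277003) (nat_lit 75) (nat_lit 5) (nat_lit 82) (nat_lit 5) (nat_lit 83) (nat_lit 5) (nat_lit 395) (nat_lit 393) (nat_lit 232)) (XT.nd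 (nat_lit 78) (nat_lit 0) (nat_lit 76) (XT.lf (nat_lit 0) (nat_lit 1307868164697) (nat_lit 532) (nat_lit 1835616809848) (nat_lit 608) (nat_lit 5168665716144) (nat_lit 76) (nat_lit 5) (nat_lit 83) (nat_lit 5) (nat_lit 84) (nat_lit 5) (nat_lit 396) (nat_lit 393) (nat_lit 231)) (XT.lf (nat_lit 0) (nat_lit 2675283983026) (nat_lit 532) (nat_lit 2244664760780) (nat_lit 76) (nat_lit 4044500782452) (nat_lit 77) (nat_lit 5) (nat_lit 84) (nat_lit 5) (nat_lit 78) (nat_lit 5) (nat_lit 397) (nat_lit 393) (nat_lit 230))))))))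
noncomputable def xc122 : XT := (XT.nd (nat_lit 52962) (nat_lit 0) (nat_lit 152) (XT.nd (nat_lit 702) (nat_lit 912) (nat_lit 0) (XT.nd (nat_lit 312) (nat_lit 1064) (nat_lit 0) (XT.nd (nat_lit 156) (nat_lit 456) (nat_lit 0) (XT.nd (nat_lit 78) (nat_lit 228) (nat_lit 0) (XT.lf (nat_lit 0) (nat_lit 4627729422752) (nat_lit 532) (nat_lit 2520707889101) (nat_lit 76) (nat_lit 2535762495415) (nat_lit 71) (nat_lit 5) (nat_lit 78) (nat_lit 5) (nat_lit 72) (nat_lit 5) (nat_lit 398) (nat_lit 393) (nat_lit 229)) (XT.lf (nat_lit 0) (nat_lit 7279878903984) (nat_lit 304) (nat_lit 2627083739958) (nat_lit 76) (nat_lit 572403008446) (nat_lit 68) (nat_lit 5) (nat_lit 72) (nat_lit 5) (nat_lit 69) (nat_lit 5) (nat_lit 399) (nat_lit 393) (nat_lit 228))) (XT.nd (nat_lit 78) (nat_lit 228) (nat_lit 0) (XT.lf (nat_lit 0) (nat_lit 8785819220964) (nat_lit 228) (nat_lit 2028332724423) (nat_lit 304) (nat_lit 540910337848)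 (nat_lit 65) (nat_lit 5) (nat_lit 68) (nat_lit 5) (nat_lit 69) (nat_lit 5) (nat_lit 400) (nat_lit 393) (nat_lit 227)) (XT.lf (nat_lit 0) (nat_lit 2892454535299) (nat_lit 228) (nat_lit 2351064506594) (nat_lit 76) (nat_lit 7073601895423) (nat_lit 62) (nat_lit 5) (nat_lit 65) (nat_lit 5) (nat_lit 63) (nat_lit 5) (nat_lit 401) (nat_lit 393) (nat_lit 226)))) (XT.nd (nat_lit 156) (nat_lit 684) (nat_lit 0) (XT.nd (nat_lit 78) (nat_lit 152) (nat_lit 0) (XT.lf (nat_lit 0) (nat_lit 7328182841797) (nat_lit 304) (nat_lit 1866829194219) (nat_lit 76) (nat_lit 4185801453519) (nat_lit 59) (nat_lit 5) (nat_lit 63) (nat_lit 5) (nat_lit 60) (nat_lit 5) (nat_lit 402) (nat_lit 393) (nat_lit 225)) (XT.lf (nat_lit 0) (nat_lit 12983516899008) (nat_lit 228) (nat_lit 1041595728070) (nat_lit 76) (nat_lit 534607577128) (nat_lit 57) (nat_lit 5) (nat_lit 60) (nat_lit 5) (nat_lit 58) (nat_lit 5) (nat_lit 403) (nat_lit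 393) (nat_lit 224))) (XT.nd (nat_lit 78) (nat_lit 456) (nat_lit 0) (XT.lf (nat_lit 0) (nat_lit 4104834590043) (nat_lit 228) (nat_lit 8703788229) (nat_lit 76) (nat_lit 11738107272361) (nat_lit 54) (nat_lit 5) (nat_lit 57) (nat_lit 5) (nat_lit 55) (nat_lit 5) (nat_lit 404) (nat_lit 393) (nat_lit 223)) (XT.nd (nat_lit 78) (nat_lit 152) (nat_lit 0) (XT.lf (nat_lit 0) (nat_lit 1478811664062) (nat_lit 152) (nat_lit 9778434504462) (nat_lit 228) (nat_lit 6019834771949) (nat_lit 50) (nat_lit 5) (nat_lit 52) (nat_lit 5) (nat_lit 53) (nat_lit 5) (nat_lit 405) (nat_lit 393) (nat_lit 222)) (XT.lf (nat_lit 0) (nat_lit 1266730936486) (nat_lit 152) (nat_lit 15379279394957) (nat_lit 76) (nat_lit 2210922566313) (nat_lit 48) (nat_lit 5) (nat_lit 50) (nat_lit 5) (nat_lit 49) (nat_lit 5) (nat_lit 406) (nat_lit 393) (nat_lit 221)))))) (XT.nd (nat_lit 312) (nat_lit 380) (nat_lit 0) (XT.nd (nat_lit 156) (nat_lit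 304) (nat_lit 0) (XT.nd (nat_lit 78) (nat_lit 76) (nat_lit 0) (XT.lf (nat_lit 0) (nat_lit 5806257936459) (nat_lit 152) (nat_lit 4375700892231) (nat_lit 228) (nat_lit 10407925574557) (nat_lit 46) (nat_lit 5) (nat_lit 48) (nat_lit 5) (nat_lit 49) (nat_lit 5) (nat_lit 407) (nat_lit 393) (nat_lit 220)) (XT.lf (nat_lit 0) (nat_lit 8745725777087) (nat_lit 76) (nat_lit 12592591826605) (nat_lit 152) (nat_lit 1172153294950) (nat_lit 45) (nat_lit 5) (nat_lit 46) (nat_lit 5) (nat_lit 47) (nat_lit 4) (nat_lit 408) (nat_lit 393) (nat_lit 219))) (XT.nd (nat_lit 78) (nat_lit 76) (nat_lit 0) (XT.lf (nat_lit 0) (nat_lit 9892565896318) (nat_lit 228) (nat_lit 12421587786326) (nat_lit 76) (nat_lit 2313511215969) (nat_lit 42) (nat_lit 5) (nat_lit 45) (nat_lit 5) (nat_lit 43) (nat_lit 4) (nat_lit 409) (nat_lit 393) (nat_lit 218)) (XT.lf (nat_lit 0) (nat_lit 16299978637035) (nat_lit 76) (nat_lit 7401032655179)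 (nat_lit 152) (nat_lit 3266717232650) (nat_lit 41) (nat_lit 5) (nat_lit 42) (nat_lit 5) (nat_lit 43) (nat_lit 4) (nat_lit 410) (nat_lit 393) (nat_lit 217)))) (XT.nd (nat_lit 156) (nat_lit 152) (nat_lit 0) (XT.nd (nat_lit 78) (nat_lit 76) (nat_lit 0) (XT.lf (nat_lit 0) (nat_lit 10571703831324) (nat_lit 152) (nat_lit 8564675337197) (nat_lit 76) (nat_lit 10411643390576) (nat_lit 39) (nat_lit 5) (nat_lit 41) (nat_lit 5) (nat_lit 40) (nat_lit 4) (nat_lit 411) (nat_lit 393) (nat_lit 216)) (XT.lf (nat_lit 0) (nat_lit 26563294078792) (nat_lit 76) (nat_lit 896856587177) (nat_lit 152) (nat_lit 4955006950619) (nat_lit 38) (nat_lit 5) (nat_lit 39) (nat_lit 5) (nat_lit 40) (nat_lit 4) (nat_lit 412) (nat_lit 393) (nat_lit 215))) (XT.nd (nat_lit 51636) (nat_lit 0) (nat_lit 3420) (XT.lf (nat_lit 0) (nat_lit 12181581622604) (nat_lit 152) (nat_lit 2952883656915) (nat_lit 76) (nat_lit 20430741611753) (nat_lit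 36) (nat_lit 5) (nat_lit 38) (nat_lit 5) (nat_lit 37) (nat_lit 4) (nat_lit 413) (nat_lit 393) (nat_lit 214)) (XT.nd (nat_lit 78) (nat_lit 0) (nat_lit 0) (XT.lf (nat_lit 0) (nat_lit 3730316769923) (nat_lit 532) (nat_lit 59044115299) (nat_lit 532) (nat_lit 59044115299) (nat_lit 81) (nat_lit 3) (nat_lit 88) (nat_lit 3) (nat_lit 88) (nat_lit 5) (nat_lit 394) (nat_lit 394) (nat_lit 232)) (XT.lf (nat_lit 76) (nat_lit 7410702955909) (nat_lit 0) (nat_lit 787705685620) (nat_lit 532) (nat_lit 61403902698) (nat_lit 82) (nat_lit 5) (nat_lit 81) (nat_lit 3) (nat_lit 88) (nat_lit 5) (nat_lit 395) (nat_lit 394) (nat_lit 231))))))) (XT.nd (nat_lit 702) (nat_lit 1444) (nat_lit 0) (XT.nd (nat_lit 312) (nat_lit 1064) (nat_lit 0) (XT.nd (nat_lit 156) (nat_lit 304) (nat_lit 0) (XT.nd (nat_lit 78) (nat_lit 0) (nat_lit 76) (XT.lf (nat_lit 0) (nat_lit 491304042309) (nat_lit 532) (nat_lit 1523120181528) (nat_lit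 608) (nat_lit 6863876517188) (nat_lit 75) (nat_lit 5) (nat_lit 82) (nat_lit 5) (nat_lit 83) (nat_lit 5) (nat_lit 396) (nat_lit 394) (nat_lit 230)) (XT.lf (nat_lit 0) (nat_lit 1504048392713) (nat_lit 532) (nat_lit 2110959328566) (nat_lit 608) (nat_lit 5943965572749) (nat_lit 76) (nat_lit 5) (nat_lit 83) (nat_lit 5) (nat_lit 84) (nat_lit 5) (nat_lit 397) (nat_lit 394) (nat_lit 229))) (XT.nd (nat_lit 78) (nat_lit 456) (nat_lit 0) (XT.lf (nat_lit 0) (nat_lit 3076576583410) (nat_lit 532) (nat_lit 2581364472125) (nat_lit 76) (nat_lit 4651175899426) (nat_lit 77) (nat_lit 5) (nat_lit 84) (nat_lit 5) (nat_lit 78) (nat_lit 5) (nat_lit 398) (nat_lit 394) (nat_lit 228)) (XT.lf (nat_lit 0) (nat_lit 5321888838772) (nat_lit 532) (nat_lit 2898814069719) (nat_lit 76) (nat_lit 2916126869659) (nat_lit 71) (nat_lit 5) (nat_lit 78) (nat_lit 5) (nat_lit 72) (nat_lit 5) (nat_lit 399) (nat_lit 394) (nat_lit 227))))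 (XT.nd (nat_lit 156) (nat_lit 608) (nat_lit 0) (XT.nd (nat_lit 78) (nat_lit 228) (nat_lit 0) (XT.lf (nat_lit 0) (nat_lit 8371860741914) (nat_lit 304) (nat_lit 3021146298254) (nat_lit 76) (nat_lit 658263459891) (nat_lit 68) (nat_lit 5) (nat_lit 72) (nat_lit 5) (nat_lit 69) (nat_lit 5) (nat_lit 400) (nat_lit 394) (nat_lit 226)) (XT.lf (nat_lit 0) (nat_lit 10103692106578) (nat_lit 228) (nat_lit 2332582632704) (nat_lit 304) (nat_lit 622046886271) (nat_lit 65) (nat_lit 5) (nat_lit 68) (nat_lit 5) (nat_lit 69) (nat_lit 5) (nat_lit 401) (nat_lit 394) (nat_lit 225))) (XT.nd (nat_lit 78) (nat_lit 380) (nat_lit 0) (XT.lf (nat_lit 0) (nat_lit 3326322717524) (nat_lit 228) (nat_lit 2703724180076) (nat_lit 76) (nat_lit 8134642180159) (nat_lit 62) (nat_lit 5) (nat_lit 65) (nat_lit 5) (nat_lit 63) (nat_lit 5) (nat_lit 402) (nat_lit 394) (nat_lit 224)) (XT.nd (nat_lit 78) (nat_lit 152) (nat_lit 0) (XT.lf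 (nat_lit 0) (nat_lit 8427410269813) (nat_lit 304) (nat_lit 2146853570932) (nat_lit 76) (nat_lit 4813671672080) (nat_lit 59) (nat_lit 5) (nat_lit 63) (nat_lit 5) (nat_lit 60) (nat_lit 5) (nat_lit 403) (nat_lit 394) (nat_lit 223)) (XT.lf (nat_lit 0) (nat_lit 14931044435448) (nat_lit 228) (nat_lit 1197835084955) (nat_lit 76) (nat_lit 614798714308) (nat_lit 57) (nat_lit 5) (nat_lit 60) (nat_lit 5) (nat_lit 58) (nat_lit 5) (nat_lit 404) (nat_lit 394) (nat_lit 222)))))) (XT.nd (nat_lit 390) (nat_lit 532) (nat_lit 0) (XT.nd (nat_lit 156) (nat_lit 380) (nat_lit 0) (XT.nd (nat_lit 78) (nat_lit 304) (nat_lit 0) (XT.lf (nat_lit 0) (nat_lit 4720559780019) (nat_lit 228) (nat_lit 10009354257) (nat_lit 76) (nat_lit 13498823363835) (nat_lit 54) (nat_lit 5) (nat_lit 57) (nat_lit 5) (nat_lit 55) (nat_lit 5) (nat_lit 405) (nat_lit 394) (nat_lit 221)) (XT.lf (nat_lit 0) (nat_lit 1700633415892) (nat_lit 152)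 (nat_lit 11245199679307) (nat_lit 228) (nat_lit 6922809986233) (nat_lit 50) (nat_lit 5) (nat_lit 52) (nat_lit 5) (nat_lit 53) (nat_lit 5) (nat_lit 406) (nat_lit 394) (nat_lit 220))) (XT.nd (nat_lit 78) (nat_lit 228) (nat_lit 0) (XT.lf (nat_lit 0) (nat_lit 1456740578275) (nat_lit 152) (nat_lit 17686171302014) (nat_lit 76) (nat_lit 2542560952026) (nat_lit 48) (nat_lit 5) (nat_lit 50) (nat_lit 5) (nat_lit 49) (nat_lit 5) (nat_lit 407) (nat_lit 394) (nat_lit 219)) (XT.nd (nat_lit 78) (nat_lit 76) (nat_lit 0) (XT.lf (nat_lit 0) (nat_lit 6677196628929) (nat_lit 152) (nat_lit 5032056025256) (nat_lit 228) (nat_lit 11969114409453) (nat_lit 46) (nat_lit 5) (nat_lit 48) (nat_lit 5) (nat_lit 49) (nat_lit 5) (nat_lit 408) (nat_lit 394) (nat_lit 218)) (XT.lf (nat_lit 0) (nat_lit 10057584645551) (nat_lit 76) (nat_lit 14481480599794) (nat_lit 152) (nat_lit 1347976288006) (nat_lit 45) (nat_lit 5) (nat_lit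 46) (nat_lit 5) (nat_lit 47) (nat_lit 4) (nat_lit 409) (nat_lit 394) (nat_lit 217))))) (XT.nd (nat_lit 156) (nat_lit 228) (nat_lit 0) (XT.nd (nat_lit 78) (nat_lit 76) (nat_lit 0) (XT.lf (nat_lit 0) (nat_lit 11376450781808) (nat_lit 228) (nat_lit 14284825952417) (nat_lit 76) (nat_lit 2660537899096) (nat_lit 42) (nat_lit 5) (nat_lit 45) (nat_lit 5) (nat_lit 43) (nat_lit 4) (nat_lit 410) (nat_lit 394) (nat_lit 216)) (XT.lf (nat_lit 0) (nat_lit 18744975434291) (nat_lit 76) (nat_lit 8511187552702) (nat_lit 152) (nat_lit 3756724816524) (nat_lit 41) (nat_lit 5) (nat_lit 42) (nat_lit 5) (nat_lit 43) (nat_lit 4) (nat_lit 411) (nat_lit 394) (nat_lit 215))) (XT.nd (nat_lit 78) (nat_lit 76) (nat_lit 0) (XT.lf (nat_lit 0) (nat_lit 12157459406924) (nat_lit 152) (nat_lit 9849376636118) (nat_lit 76) (nat_lit 11973389899847) (nat_lit 39) (nat_lit 5) (nat_lit 41) (nat_lit 5) (nat_lit 40) (nat_lit 4) (nat_lit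 412) (nat_lit 394) (nat_lit 214)) (XT.nd (nat_lit 51714) (nat_lit 0) (nat_lit 3268) (XT.lf (nat_lit 0) (nat_lit 30547788192128) (nat_lit 76) (nat_lit 1031385074556) (nat_lit 152) (nat_lit 5698257992326) (nat_lit 38) (nat_lit 5) (nat_lit 39) (nat_lit 5) (nat_lit 40) (nat_lit 4) (nat_lit 413) (nat_lit 394) (nat_lit 213)) (XT.lf (nat_lit 0) (nat_lit 4289864287210) (nat_lit 532) (nat_lit 67900731623) (nat_lit 532) (nat_lit 67900731623) (nat_lit 81) (nat_lit 3) (nat_lit 88) (nat_lit 3) (nat_lit 88) (nat_lit 5) (nat_lit 395) (nat_lit 395) (nat_lit 230))))))))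
noncomputable def xc123 : XT := (XT.nd (nat_lit 53118) (nat_lit 0) (nat_lit 152) (XT.nd (nat_lit 702) (nat_lit 1520) (nat_lit 0) (XT.nd (nat_lit 312) (nat_lit 1216) (nat_lit 0) (XT.nd (nat_lit 156) (nat_lit 0) (nat_lit 76) (XT.nd (nat_lit 78) (nat_lit 456) (nat_lit 0) (XT.lf (nat_lit 76) (nat_lit 8522308401073) (nat_lit 0) (nat_lit 905861539854) (nat_lit 532) (nat_lit 70614484679) (nat_lit 82) (nat_lit 5) (nat_lit 81) (nat_lit 3) (nat_lit 88) (nat_lit 5) (nat_lit 396) (nat_lit 395) (nat_lit 229)) (XT.lf (nat_lit 0) (nat_lit 564999651501) (nat_lit 532) (nat_lit 1751588206716) (nat_lit 608) (nat_lit 7893457993734) (nat_lit 75) (nat_lit 5) (nat_lit 82) (nat_lit 5) (nat_lit 83) (nat_lit 5) (nat_lit 397) (nat_lit 395) (nat_lit 228))) (XT.nd (nat_lit 78) (nat_lit 0) (nat_lit 76) (XT.lf (nat_lit 0) (nat_lit 1729655654123) (nat_lit 532) (nat_lit 2427603225765) (nat_lit 608) (nat_lit 6835560408043)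 (nat_lit 76) (nat_lit 5) (nat_lit 83) (nat_lit 5) (nat_lit 84) (nat_lit 5) (nat_lit 398) (nat_lit 395) (nat_lit 227)) (XT.lf (nat_lit 0) (nat_lit 3538063073137) (nat_lit 532) (nat_lit 2968569140848) (nat_lit 76) (nat_lit 5348852284043) (nat_lit 77) (nat_lit 5) (nat_lit 84) (nat_lit 5) (nat_lit 78) (nat_lit 5) (nat_lit 399) (nat_lit 395) (nat_lit 226)))) (XT.nd (nat_lit 156) (nat_lit 684) (nat_lit 0) (XT.nd (nat_lit 78) (nat_lit 228) (nat_lit 0) (XT.lf (nat_lit 0) (nat_lit 6120172166559) (nat_lit 532) (nat_lit 3333636178099) (nat_lit 76) (nat_lit 3353545900057) (nat_lit 71) (nat_lit 5) (nat_lit 78) (nat_lit 5) (nat_lit 72) (nat_lit 5) (nat_lit 400) (nat_lit 395) (nat_lit 225)) (XT.lf (nat_lit 0) (nat_lit 9627639854964) (nat_lit 304) (nat_lit 3474318240953) (nat_lit 76) (nat_lit 757002979010) (nat_lit 68) (nat_lit 5) (nat_lit 72) (nat_lit 5) (nat_lit 69) (nat_lit 5) (nat_lit 401) (nat_lit 395)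 (nat_lit 224))) (XT.nd (nat_lit 78) (nat_lit 456) (nat_lit 0) (XT.lf (nat_lit 0) (nat_lit 11619245924432) (nat_lit 228) (nat_lit 2682470027321) (nat_lit 304) (nat_lit 715353917507) (nat_lit 65) (nat_lit 5) (nat_lit 68) (nat_lit 5) (nat_lit 69) (nat_lit 5) (nat_lit 402) (nat_lit 395) (nat_lit 223)) (XT.nd (nat_lit 78) (nat_lit 228) (nat_lit 0) (XT.lf (nat_lit 0) (nat_lit 3825271126612) (nat_lit 228) (nat_lit 3109282805192) (nat_lit 76) (nat_lit 9354838507502) (nat_lit 62) (nat_lit 5) (nat_lit 65) (nat_lit 5) (nat_lit 63) (nat_lit 5) (nat_lit 403) (nat_lit 395) (nat_lit 222)) (XT.lf (nat_lit 0) (nat_lit 9691521811606) (nat_lit 304) (nat_lit 2468881604742) (nat_lit 76) (nat_lit 5535722423295) (nat_lit 59) (nat_lit 5) (nat_lit 63) (nat_lit 5) (nat_lit 60) (nat_lit 5) (nat_lit 404) (nat_lit 395) (nat_lit 221)))))) (XT.nd (nat_lit 312) (nat_lit 684) (nat_lit 0) (XT.nd (nat_lit 156) (nat_lit 456)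 (nat_lit 0) (XT.nd (nat_lit 78) (nat_lit 228) (nat_lit 0) (XT.lf (nat_lit 0) (nat_lit 17170701101965) (nat_lit 228) (nat_lit 1377510345939) (nat_lit 76) (nat_lit 707018521917) (nat_lit 57) (nat_lit 5) (nat_lit 60) (nat_lit 5) (nat_lit 58) (nat_lit 5) (nat_lit 405) (nat_lit 395) (nat_lit 220)) (XT.lf (nat_lit 0) (nat_lit 5428643748132) (nat_lit 228) (nat_lit 11510755727) (nat_lit 76) (nat_lit 15523646868879) (nat_lit 54) (nat_lit 5) (nat_lit 57) (nat_lit 5) (nat_lit 55) (nat_lit 5) (nat_lit 406) (nat_lit 395) (nat_lit 219))) (XT.nd (nat_lit 78) (nat_lit 152) (nat_lit 0) (XT.lf (nat_lit 0) (nat_lit 1955728429955) (nat_lit 152) (nat_lit 12931979630580) (nat_lit 228) (nat_lit 7961231483027) (nat_lit 50) (nat_lit 5) (nat_lit 52) (nat_lit 5) (nat_lit 53) (nat_lit 5) (nat_lit 407) (nat_lit 395) (nat_lit 218)) (XT.lf (nat_lit 0) (nat_lit 1675251666011) (nat_lit 152) (nat_lit 20339096995663) (nat_lit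 76) (nat_lit 2923945095408) (nat_lit 48) (nat_lit 5) (nat_lit 50) (nat_lit 5) (nat_lit 49) (nat_lit 5) (nat_lit 408) (nat_lit 395) (nat_lit 217)))) (XT.nd (nat_lit 156) (nat_lit 456) (nat_lit 0) (XT.nd (nat_lit 78) (nat_lit 76) (nat_lit 0) (XT.lf (nat_lit 0) (nat_lit 7678776124782) (nat_lit 152) (nat_lit 5786864428433) (nat_lit 228) (nat_lit 13764481569897) (nat_lit 46) (nat_lit 5) (nat_lit 48) (nat_lit 5) (nat_lit 49) (nat_lit 5) (nat_lit 409) (nat_lit 395) (nat_lit 216)) (XT.lf (nat_lit 0) (nat_lit 11566222343822) (nat_lit 76) (nat_lit 16653702689157) (nat_lit 152) (nat_lit 1550172730309) (nat_lit 45) (nat_lit 5) (nat_lit 46) (nat_lit 5) (nat_lit 47) (nat_lit 4) (nat_lit 410) (nat_lit 395) (nat_lit 215))) (XT.nd (nat_lit 78) (nat_lit 228) (nat_lit 0) (XT.lf (nat_lit 0) (nat_lit 13082918399868) (nat_lit 228) (nat_lit 16427549843874) (nat_lit 76) (nat_lit 3059618584515) (nat_lit 42) (nat_lit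 5) (nat_lit 45) (nat_lit 5) (nat_lit 43) (nat_lit 4) (nat_lit 411) (nat_lit 395) (nat_lit 214)) (XT.nd (nat_lit 78) (nat_lit 152) (nat_lit 0) (XT.lf (nat_lit 0) (nat_lit 21556721750721) (nat_lit 76) (nat_lit 9787865685038) (nat_lit 152) (nat_lit 4320233538229) (nat_lit 41) (nat_lit 5) (nat_lit 42) (nat_lit 5) (nat_lit 43) (nat_lit 4) (nat_lit 412) (nat_lit 395) (nat_lit 213)) (XT.lf (nat_lit 0) (nat_lit 13981078318645) (nat_lit 152) (nat_lit 11326783130283) (nat_lit 76) (nat_lit 13769398385342) (nat_lit 39) (nat_lit 5) (nat_lit 41) (nat_lit 5) (nat_lit 40) (nat_lit 4) (nat_lit 413) (nat_lit 395) (nat_lit 212))))))) (XT.nd (nat_lit 702) (nat_lit 1596) (nat_lit 0) (XT.nd (nat_lit 312) (nat_lit 988) (nat_lit 0) (XT.nd (nat_lit 156) (nat_lit 456) (nat_lit 0) (XT.nd (nat_lit 78) (nat_lit 0) (nat_lit 0) (XT.lf (nat_lit 0) (nat_lit 4933343931651) (nat_lit 532) (nat_lit 78085840632) (nat_lit 532)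 (nat_lit 78085840632) (nat_lit 81) (nat_lit 3) (nat_lit 88) (nat_lit 3) (nat_lit 88) (nat_lit 5) (nat_lit 396) (nat_lit 396) (nat_lit 228)) (XT.lf (nat_lit 76) (nat_lit 9800654662578) (nat_lit 0) (nat_lit 1041740771885) (nat_lit 532) (nat_lit 81206654792) (nat_lit 82) (nat_lit 5) (nat_lit 81) (nat_lit 3) (nat_lit 88) (nat_lit 5) (nat_lit 397) (nat_lit 396) (nat_lit 227))) (XT.nd (nat_lit 78) (nat_lit 0) (nat_lit 76) (XT.lf (nat_lit 0) (nat_lit 649749601378) (nat_lit 532) (nat_lit 2014326436180) (nat_lit 608) (nat_lit 9077476692014) (nat_lit 75) (nat_lit 5) (nat_lit 82) (nat_lit 5) (nat_lit 83) (nat_lit 5) (nat_lit 398) (nat_lit 396) (nat_lit 226)) (XT.lf (nat_lit 0) (nat_lit 1989104004134) (nat_lit 532) (nat_lit 2791743708052) (nat_lit 608) (nat_lit 7860894468783) (nat_lit 76) (nat_lit 5) (nat_lit 83) (nat_lit 5) (nat_lit 84) (nat_lit 5) (nat_lit 399) (nat_lit 396) (nat_lit 225)))) (XT.nd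 (nat_lit 156) (nat_lit 684) (nat_lit 0) (XT.nd (nat_lit 78) (nat_lit 456) (nat_lit 0) (XT.lf (nat_lit 0) (nat_lit 4068772535782) (nat_lit 532) (nat_lit 3413854510391) (nat_lit 76) (nat_lit 6151180126424) (nat_lit 77) (nat_lit 5) (nat_lit 84) (nat_lit 5) (nat_lit 78) (nat_lit 5) (nat_lit 400) (nat_lit 396) (nat_lit 224)) (XT.lf (nat_lit 0) (nat_lit 7038197993033) (nat_lit 532) (nat_lit 3833681603243) (nat_lit 76) (nat_lit 3856577785026) (nat_lit 71) (nat_lit 5) (nat_lit 78) (nat_lit 5) (nat_lit 72) (nat_lit 5) (nat_lit 401) (nat_lit 396) (nat_lit 223))) (XT.nd (nat_lit 78) (nat_lit 456) (nat_lit 0) (XT.lf (nat_lit 0) (nat_lit 11071785834542) (nat_lit 304) (nat_lit 3995465975554) (nat_lit 76) (nat_lit 870553425963) (nat_lit 68) (nat_lit 5) (nat_lit 72) (nat_lit 5) (nat_lit 69) (nat_lit 5) (nat_lit 402) (nat_lit 396) (nat_lit 222)) (XT.nd (nat_lit 78) (nat_lit 228) (nat_lit 0) (XT.lf (nat_lit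 0) (nat_lit 13362132814509) (nat_lit 228) (nat_lit 3084840531201) (nat_lit 304) (nat_lit 822657003845) (nat_lit 65) (nat_lit 5) (nat_lit 68) (nat_lit 5) (nat_lit 69) (nat_lit 5) (nat_lit 403) (nat_lit 396) (nat_lit 221)) (XT.lf (nat_lit 0) (nat_lit 4399061796707) (nat_lit 228) (nat_lit 3575675224538) (nat_lit 76) (nat_lit 10758064283869) (nat_lit 62) (nat_lit 5) (nat_lit 65) (nat_lit 5) (nat_lit 63) (nat_lit 5) (nat_lit 404) (nat_lit 396) (nat_lit 220)))))) (XT.nd (nat_lit 390) (nat_lit 532) (nat_lit 0) (XT.nd (nat_lit 156) (nat_lit 684) (nat_lit 0) (XT.nd (nat_lit 78) (nat_lit 152) (nat_lit 0) (XT.lf (nat_lit 0) (nat_lit 11145250084346) (nat_lit 304) (nat_lit 2839213844069) (nat_lit 76) (nat_lit 6366080787094) (nat_lit 59) (nat_lit 5) (nat_lit 63) (nat_lit 5) (nat_lit 60) (nat_lit 5) (nat_lit 405) (nat_lit 396) (nat_lit 219)) (XT.lf (nat_lit 0) (nat_lit 19746306268168) (nat_lit 228) (nat_lit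 1584136896501) (nat_lit 76) (nat_lit 813071300553) (nat_lit 57) (nat_lit 5) (nat_lit 60) (nat_lit 5) (nat_lit 58) (nat_lit 5) (nat_lit 406) (nat_lit 396) (nat_lit 218))) (XT.nd (nat_lit 78) (nat_lit 456) (nat_lit 0) (XT.lf (nat_lit 0) (nat_lit 6242940311192) (nat_lit 228) (nat_lit 13237367825) (nat_lit 76) (nat_lit 17852193899565) (nat_lit 54) (nat_lit 5) (nat_lit 57) (nat_lit 5) (nat_lit 55) (nat_lit 5) (nat_lit 407) (nat_lit 396) (nat_lit 217)) (XT.nd (nat_lit 78) (nat_lit 152) (nat_lit 0) (XT.lf (nat_lit 0) (nat_lit 2249087695717) (nat_lit 152) (nat_lit 14871776574696) (nat_lit 228) (nat_lit 9155416204619) (nat_lit 50) (nat_lit 5) (nat_lit 52) (nat_lit 5) (nat_lit 53) (nat_lit 5) (nat_lit 408) (nat_lit 396) (nat_lit 216)) (XT.lf (nat_lit 0) (nat_lit 1926539416665) (nat_lit 152) (nat_lit 23389961543763) (nat_lit 76) (nat_lit 3362536860157) (nat_lit 48) (nat_lit 5) (nat_lit 50) (nat_lit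 5) (nat_lit 49) (nat_lit 5) (nat_lit 409) (nat_lit 396) (nat_lit 215))))) (XT.nd (nat_lit 156) (nat_lit 304) (nat_lit 0) (XT.nd (nat_lit 78) (nat_lit 76) (nat_lit 0) (XT.lf (nat_lit 0) (nat_lit 8830592544643) (nat_lit 152) (nat_lit 6654894092236) (nat_lit 228) (nat_lit 15829153804646) (nat_lit 46) (nat_lit 5) (nat_lit 48) (nat_lit 5) (nat_lit 49) (nat_lit 5) (nat_lit 410) (nat_lit 396) (nat_lit 214)) (XT.lf (nat_lit 0) (nat_lit 13301155696482) (nat_lit 76) (nat_lit 19151758092072) (nat_lit 152) (nat_lit 1782698639176) (nat_lit 45) (nat_lit 5) (nat_lit 46) (nat_lit 5) (nat_lit 47) (nat_lit 4) (nat_lit 411) (nat_lit 396) (nat_lit 213))) (XT.nd (nat_lit 78) (nat_lit 76) (nat_lit 0) (XT.lf (nat_lit 0) (nat_lit 15045356160444) (nat_lit 228) (nat_lit 18891682319393) (nat_lit 76) (nat_lit 3518561372610) (nat_lit 42) (nat_lit 5) (nat_lit 45) (nat_lit 5) (nat_lit 43) (nat_lit 4) (nat_lit 412) (nat_lit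 396) (nat_lit 212)) (XT.nd (nat_lit 51870) (nat_lit 0) (nat_lit 3040) (XT.lf (nat_lit 0) (nat_lit 24790230014302) (nat_lit 76) (nat_lit 11256045537363) (nat_lit 152) (nat_lit 4968268568378) (nat_lit 41) (nat_lit 5) (nat_lit 42) (nat_lit 5) (nat_lit 43) (nat_lit 4) (nat_lit 413) (nat_lit 396) (nat_lit 211)) (XT.lf (nat_lit 0) (nat_lit 5673345522427) (nat_lit 532) (nat_lit 89798716171) (nat_lit 532) (nat_lit 89798716171) (nat_lit 81) (nat_lit 3) (nat_lit 88) (nat_lit 3) (nat_lit 88) (nat_lit 5) (nat_lit 397) (nat_lit 397) (nat_lit 226))))))))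
noncomputable def xc124 : XT := (XT.nd (nat_lit 53274) (nat_lit 0) (nat_lit 228) (XT.nd (nat_lit 702) (nat_lit 1292) (nat_lit 0) (XT.nd (nat_lit 312) (nat_lit 1216) (nat_lit 0) (XT.nd (nat_lit 156) (nat_lit 0) (nat_lit 76) (XT.nd (nat_lit 78) (nat_lit 456) (nat_lit 0) (XT.lf (nat_lit 76) (nat_lit 11270752862981) (nat_lit 0) (nat_lit 1198001888464) (nat_lit 532) (nat_lit 93387651053) (nat_lit 82) (nat_lit 5) (nat_lit 81) (nat_lit 3) (nat_lit 88) (nat_lit 5) (nat_lit 398) (nat_lit 397) (nat_lit 225)) (XT.lf (nat_lit 0) (nat_lit 747212043211) (nat_lit 532) (nat_lit 2316475400439) (nat_lit 608) (nat_lit 10439098195226) (nat_lit 75) (nat_lit 5) (nat_lit 82) (nat_lit 5) (nat_lit 83) (nat_lit 5) (nat_lit 399) (nat_lit 397) (nat_lit 224))) (XT.nd (nat_lit 78) (nat_lit 0) (nat_lit 76) (XT.lf (nat_lit 0) (nat_lit 2287469606186) (nat_lit 532) (nat_lit 3210505263067) (nat_lit 608) (nat_lit 9040028638747)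 (nat_lit 76) (nat_lit 5) (nat_lit 83) (nat_lit 5) (nat_lit 84) (nat_lit 5) (nat_lit 400) (nat_lit 397) (nat_lit 223)) (XT.lf (nat_lit 0) (nat_lit 4679088417416) (nat_lit 532) (nat_lit 3925932685752) (nat_lit 76) (nat_lit 7073857145218) (nat_lit 77) (nat_lit 5) (nat_lit 84) (nat_lit 5) (nat_lit 78) (nat_lit 5) (nat_lit 401) (nat_lit 397) (nat_lit 222)))) (XT.nd (nat_lit 156) (nat_lit 684) (nat_lit 0) (XT.nd (nat_lit 78) (nat_lit 228) (nat_lit 0) (XT.lf (nat_lit 0) (nat_lit 8093927693116) (nat_lit 532) (nat_lit 4408733842541) (nat_lit 76) (nat_lit 4435064452751) (nat_lit 71) (nat_lit 5) (nat_lit 78) (nat_lit 5) (nat_lit 72) (nat_lit 5) (nat_lit 402) (nat_lit 397) (nat_lit 221)) (XT.lf (nat_lit 0) (nat_lit 12732553710731) (nat_lit 304) (nat_lit 4594785870721) (nat_lit 76) (nat_lit 1001136439935) (nat_lit 68) (nat_lit 5) (nat_lit 72) (nat_lit 5) (nat_lit 69) (nat_lit 5) (nat_lit 403) (nat_lit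 397) (nat_lit 220))) (XT.nd (nat_lit 78) (nat_lit 456) (nat_lit 0) (XT.lf (nat_lit 0) (nat_lit 15366452737753) (nat_lit 228) (nat_lit 3547566610716) (nat_lit 304) (nat_lit 946055553447) (nat_lit 65) (nat_lit 5) (nat_lit 68) (nat_lit 5) (nat_lit 69) (nat_lit 5) (nat_lit 404) (nat_lit 397) (nat_lit 219)) (XT.nd (nat_lit 78) (nat_lit 228) (nat_lit 0) (XT.lf (nat_lit 0) (nat_lit 5058921067048) (nat_lit 228) (nat_lit 4112026507135) (nat_lit 76) (nat_lit 12371773926632) (nat_lit 62) (nat_lit 5) (nat_lit 65) (nat_lit 5) (nat_lit 63) (nat_lit 5) (nat_lit 405) (nat_lit 397) (nat_lit 218)) (XT.lf (nat_lit 0) (nat_lit 12817037597753) (nat_lit 304) (nat_lit 3265095919633) (nat_lit 76) (nat_lit 7320992905389) (nat_lit 59) (nat_lit 5) (nat_lit 63) (nat_lit 5) (nat_lit 60) (nat_lit 5) (nat_lit 406) (nat_lit 397) (nat_lit 217)))))) (XT.nd (nat_lit 312) (nat_lit 456) (nat_lit 0) (XT.nd (nat_lit 156) (nat_lit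 456) (nat_lit 0) (XT.nd (nat_lit 78) (nat_lit 228) (nat_lit 0) (XT.lf (nat_lit 0) (nat_lit 22708252209080) (nat_lit 228) (nat_lit 1821757429970) (nat_lit 76) (nat_lit 935031995901) (nat_lit 57) (nat_lit 5) (nat_lit 60) (nat_lit 5) (nat_lit 58) (nat_lit 5) (nat_lit 407) (nat_lit 397) (nat_lit 216)) (XT.lf (nat_lit 0) (nat_lit 7179381358507) (nat_lit 228) (nat_lit 15222972044) (nat_lit 76) (nat_lit 20530022984768) (nat_lit 54) (nat_lit 5) (nat_lit 57) (nat_lit 5) (nat_lit 55) (nat_lit 5) (nat_lit 408) (nat_lit 397) (nat_lit 215))) (XT.nd (nat_lit 78) (nat_lit 152) (nat_lit 0) (XT.lf (nat_lit 0) (nat_lit 2586450851035) (nat_lit 152) (nat_lit 17102543060544) (nat_lit 228) (nat_lit 10528728634660) (nat_lit 50) (nat_lit 5) (nat_lit 52) (nat_lit 5) (nat_lit 53) (nat_lit 5) (nat_lit 409) (nat_lit 397) (nat_lit 214)) (XT.lf (nat_lit 0) (nat_lit 2215520329734) (nat_lit 152) (nat_lit 26898455774382)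 (nat_lit 76) (nat_lit 3866917389511) (nat_lit 48) (nat_lit 5) (nat_lit 50) (nat_lit 5) (nat_lit 49) (nat_lit 5) (nat_lit 410) (nat_lit 397) (nat_lit 213)))) (XT.nd (nat_lit 156) (nat_lit 228) (nat_lit 0) (XT.nd (nat_lit 78) (nat_lit 76) (nat_lit 0) (XT.lf (nat_lit 0) (nat_lit 10155181427204) (nat_lit 152) (nat_lit 7653128205722) (nat_lit 228) (nat_lit 18203526874786) (nat_lit 46) (nat_lit 5) (nat_lit 48) (nat_lit 5) (nat_lit 49) (nat_lit 5) (nat_lit 411) (nat_lit 397) (nat_lit 212)) (XT.lf (nat_lit 0) (nat_lit 15296329051776) (nat_lit 76) (nat_lit 22024521805536) (nat_lit 152) (nat_lit 2050103434539) (nat_lit 45) (nat_lit 5) (nat_lit 46) (nat_lit 5) (nat_lit 47) (nat_lit 4) (nat_lit 412) (nat_lit 397) (nat_lit 211))) (XT.nd (nat_lit 51948) (nat_lit 0) (nat_lit 2964) (XT.lf (nat_lit 0) (nat_lit 17302159584962) (nat_lit 228) (nat_lit 21725434666498) (nat_lit 76) (nat_lit 4046345578819) (nat_lit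 42) (nat_lit 5) (nat_lit 45) (nat_lit 5) (nat_lit 43) (nat_lit 4) (nat_lit 413) (nat_lit 397) (nat_lit 210)) (XT.nd (nat_lit 78) (nat_lit 0) (nat_lit 0) (XT.lf (nat_lit 0) (nat_lit 6524347351568) (nat_lit 532) (nat_lit 103268523177) (nat_lit 532) (nat_lit 103268523177) (nat_lit 81) (nat_lit 3) (nat_lit 88) (nat_lit 3) (nat_lit 88) (nat_lit 5) (nat_lit 398) (nat_lit 398) (nat_lit 224)) (XT.lf (nat_lit 76) (nat_lit 12961365793197) (nat_lit 0) (nat_lit 1377702172335) (nat_lit 532) (nat_lit 107395797230) (nat_lit 82) (nat_lit 5) (nat_lit 81) (nat_lit 3) (nat_lit 88) (nat_lit 5) (nat_lit 399) (nat_lit 398) (nat_lit 223))))))) (XT.nd (nat_lit 702) (nat_lit 912) (nat_lit 0) (XT.nd (nat_lit 312) (nat_lit 1064) (nat_lit 0) (XT.nd (nat_lit 156) (nat_lit 304) (nat_lit 0) (XT.nd (nat_lit 78) (nat_lit 0) (nat_lit 76) (XT.lf (nat_lit 0) (nat_lit 859293850923) (nat_lit 532) (nat_lit 2663946709623) (nat_lit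 608) (nat_lit 12004962924064) (nat_lit 75) (nat_lit 5) (nat_lit 82) (nat_lit 5) (nat_lit 83) (nat_lit 5) (nat_lit 400) (nat_lit 398) (nat_lit 222)) (XT.lf (nat_lit 0) (nat_lit 2630590048196) (nat_lit 532) (nat_lit 3692081051625) (nat_lit 608) (nat_lit 10396032934292) (nat_lit 76) (nat_lit 5) (nat_lit 83) (nat_lit 5) (nat_lit 84) (nat_lit 5) (nat_lit 401) (nat_lit 398) (nat_lit 221))) (XT.nd (nat_lit 78) (nat_lit 456) (nat_lit 0) (XT.lf (nat_lit 0) (nat_lit 5380951680987) (nat_lit 532) (nat_lit 4514822587708) (nat_lit 76) (nat_lit 8134935716872) (nat_lit 77) (nat_lit 5) (nat_lit 84) (nat_lit 5) (nat_lit 78) (nat_lit 5) (nat_lit 402) (nat_lit 398) (nat_lit 220)) (XT.lf (nat_lit 0) (nat_lit 9308016847935) (nat_lit 532) (nat_lit 5070043918024) (nat_lit 76) (nat_lit 5100324120641) (nat_lit 71) (nat_lit 5) (nat_lit 78) (nat_lit 5) (nat_lit 72) (nat_lit 5) (nat_lit 403) (nat_lit 398) (nat_lit 219))))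 (XT.nd (nat_lit 156) (nat_lit 608) (nat_lit 0) (XT.nd (nat_lit 78) (nat_lit 228) (nat_lit 0) (XT.lf (nat_lit 0) (nat_lit 14642436768103) (nat_lit 304) (nat_lit 5284003750447) (nat_lit 76) (nat_lit 1151306905984) (nat_lit 68) (nat_lit 5) (nat_lit 72) (nat_lit 5) (nat_lit 69) (nat_lit 5) (nat_lit 404) (nat_lit 398) (nat_lit 218)) (XT.lf (nat_lit 0) (nat_lit 17671420649223) (nat_lit 228) (nat_lit 4079701602199) (nat_lit 304) (nat_lit 1087963885727) (nat_lit 65) (nat_lit 5) (nat_lit 68) (nat_lit 5) (nat_lit 69) (nat_lit 5) (nat_lit 405) (nat_lit 398) (nat_lit 217))) (XT.nd (nat_lit 78) (nat_lit 380) (nat_lit 0) (XT.lf (nat_lit 0) (nat_lit 5817759227736) (nat_lit 228) (nat_lit 4728830482386) (nat_lit 76) (nat_lit 14227540015765) (nat_lit 62) (nat_lit 5) (nat_lit 65) (nat_lit 5) (nat_lit 63) (nat_lit 5) (nat_lit 406) (nat_lit 398) (nat_lit 216)) (XT.nd (nat_lit 78) (nat_lit 152) (nat_lit 0) (XT.lf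 (nat_lit 0) (nat_lit 14739593237988) (nat_lit 304) (nat_lit 3754860306787) (nat_lit 76) (nat_lit 8419141841372) (nat_lit 59) (nat_lit 5) (nat_lit 63) (nat_lit 5) (nat_lit 60) (nat_lit 5) (nat_lit 407) (nat_lit 398) (nat_lit 215)) (XT.lf (nat_lit 0) (nat_lit 26114490040961) (nat_lit 228) (nat_lit 2095021043705) (nat_lit 76) (nat_lit 1075286795486) (nat_lit 57) (nat_lit 5) (nat_lit 60) (nat_lit 5) (nat_lit 58) (nat_lit 5) (nat_lit 408) (nat_lit 398) (nat_lit 214)))))) (XT.nd (nat_lit 52338) (nat_lit 0) (nat_lit 2280) (XT.nd (nat_lit 156) (nat_lit 380) (nat_lit 0) (XT.nd (nat_lit 78) (nat_lit 304) (nat_lit 0) (XT.lf (nat_lit 0) (nat_lit 8256288562763) (nat_lit 228) (nat_lit 17506417130) (nat_lit 76) (nat_lit 23609526432686) (nat_lit 54) (nat_lit 5) (nat_lit 57) (nat_lit 5) (nat_lit 55) (nat_lit 5) (nat_lit 409) (nat_lit 398) (nat_lit 213)) (XT.lf (nat_lit 0) (nat_lit 2974418479416) (nat_lit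 152) (nat_lit 19667924519356) (nat_lit 228) (nat_lit 12108037929366) (nat_lit 50) (nat_lit 5) (nat_lit 52) (nat_lit 5) (nat_lit 53) (nat_lit 5) (nat_lit 410) (nat_lit 398) (nat_lit 212))) (XT.nd (nat_lit 78) (nat_lit 228) (nat_lit 0) (XT.lf (nat_lit 0) (nat_lit 2547848379624) (nat_lit 152) (nat_lit 30933224139825) (nat_lit 76) (nat_lit 4446954998188) (nat_lit 48) (nat_lit 5) (nat_lit 50) (nat_lit 5) (nat_lit 49) (nat_lit 5) (nat_lit 411) (nat_lit 398) (nat_lit 211)) (XT.nd (nat_lit 78) (nat_lit 76) (nat_lit 0) (XT.lf (nat_lit 0) (nat_lit 11678458641940) (nat_lit 152) (nat_lit 8801097436315) (nat_lit 228) (nat_lit 20934055905583) (nat_lit 46) (nat_lit 5) (nat_lit 48) (nat_lit 5) (nat_lit 49) (nat_lit 5) (nat_lit 412) (nat_lit 398) (nat_lit 210)) (XT.lf (nat_lit 0) (nat_lit 17590778410165) (nat_lit 76) (nat_lit 25328200076104) (nat_lit 152) (nat_lit 2357618949332) (nat_lit 45) (nat_lit 5) (nat_lit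 46) (nat_lit 5) (nat_lit 47) (nat_lit 4) (nat_lit 413) (nat_lit 398) (nat_lit 209))))) (XT.nd (nat_lit 156) (nat_lit 456) (nat_lit 0) (XT.nd (nat_lit 78) (nat_lit 0) (nat_lit 0) (XT.lf (nat_lit 0) (nat_lit 7502999454891) (nat_lit 532) (nat_lit 118758801337) (nat_lit 532) (nat_lit 118758801337) (nat_lit 81) (nat_lit 3) (nat_lit 88) (nat_lit 3) (nat_lit 88) (nat_lit 5) (nat_lit 399) (nat_lit 399) (nat_lit 222)) (XT.lf (nat_lit 76) (nat_lit 14905570662758) (nat_lit 0) (nat_lit 1584357498640) (nat_lit 532) (nat_lit 123505165696) (nat_lit 82) (nat_lit 5) (nat_lit 81) (nat_lit 3) (nat_lit 88) (nat_lit 5) (nat_lit 400) (nat_lit 399) (nat_lit 221))) (XT.nd (nat_lit 78) (nat_lit 0) (nat_lit 76) (XT.lf (nat_lit 0) (nat_lit 988187929492) (nat_lit 532) (nat_lit 3063538715399) (nat_lit 608) (nat_lit 13805707362336) (nat_lit 75) (nat_lit 5) (nat_lit 82) (nat_lit 5) (nat_lit 83) (nat_lit 5) (nat_lit 401)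 (nat_lit 399) (nat_lit 220)) (XT.nd (nat_lit 78) (nat_lit 0) (nat_lit 76) (XT.lf (nat_lit 0) (nat_lit 3025178556244) (nat_lit 532) (nat_lit 4245893208687) (nat_lit 608) (nat_lit 11955437874234) (nat_lit 76) (nat_lit 5) (nat_lit 83) (nat_lit 5) (nat_lit 84) (nat_lit 5) (nat_lit 402) (nat_lit 399) (nat_lit 219)) (XT.lf (nat_lit 0) (nat_lit 6188094433859) (nat_lit 532) (nat_lit 5192045975180) (nat_lit 76) (nat_lit 9355176074305) (nat_lit 77) (nat_lit 5) (nat_lit 84) (nat_lit 5) (nat_lit 78) (nat_lit 5) (nat_lit 403) (nat_lit 399) (nat_lit 218))))))))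
noncomputable def xc125 : XT := (XT.nd (nat_lit 53430) (nat_lit 0) (nat_lit 152) (XT.nd (nat_lit 702) (nat_lit 152) (nat_lit 0) (XT.nd (nat_lit 312) (nat_lit 1064) (nat_lit 0) (XT.nd (nat_lit 156) (nat_lit 456) (nat_lit 0) (XT.nd (nat_lit 78) (nat_lit 228) (nat_lit 0) (XT.lf (nat_lit 0) (nat_lit 10704219375770) (nat_lit 532) (nat_lit 5830550505048) (nat_lit 76) (nat_lit 5865372738721) (nat_lit 71) (nat_lit 5) (nat_lit 78) (nat_lit 5) (nat_lit 72) (nat_lit 5) (nat_lit 404) (nat_lit 399) (nat_lit 217)) (XT.lf (nat_lit 0) (nat_lit 16838802283895) (nat_lit 304) (nat_lit 6076604312347) (nat_lit 76) (nat_lit 1324002941926) (nat_lit 68) (nat_lit 5) (nat_lit 72) (nat_lit 5) (nat_lit 69) (nat_lit 5) (nat_lit 405) (nat_lit 399) (nat_lit 216))) (XT.nd (nat_lit 78) (nat_lit 228) (nat_lit 0) (XT.lf (nat_lit 0) (nat_lit 20322133747216) (nat_lit 228) (nat_lit 4691656842435) (nat_lit 304) (nat_lit 1251158468028)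 (nat_lit 65) (nat_lit 5) (nat_lit 68) (nat_lit 5) (nat_lit 69) (nat_lit 5) (nat_lit 406) (nat_lit 399) (nat_lit 215)) (XT.lf (nat_lit 0) (nat_lit 6690423112373) (nat_lit 228) (nat_lit 5438155054124) (nat_lit 76) (nat_lit 16361671018234) (nat_lit 62) (nat_lit 5) (nat_lit 65) (nat_lit 5) (nat_lit 63) (nat_lit 5) (nat_lit 407) (nat_lit 399) (nat_lit 214)))) (XT.nd (nat_lit 156) (nat_lit 684) (nat_lit 0) (XT.nd (nat_lit 78) (nat_lit 152) (nat_lit 0) (XT.lf (nat_lit 0) (nat_lit 16950532224118) (nat_lit 304) (nat_lit 4318089352207) (nat_lit 76) (nat_lit 9682013117710) (nat_lit 59) (nat_lit 5) (nat_lit 63) (nat_lit 5) (nat_lit 60) (nat_lit 5) (nat_lit 408) (nat_lit 399) (nat_lit 213)) (XT.lf (nat_lit 0) (nat_lit 30031663547498) (nat_lit 228) (nat_lit 2409274199686) (nat_lit 76) (nat_lit 1236579814959) (nat_lit 57) (nat_lit 5) (nat_lit 60) (nat_lit 5) (nat_lit 58) (nat_lit 5) (nat_lit 409) (nat_lit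 399) (nat_lit 212))) (XT.nd (nat_lit 78) (nat_lit 456) (nat_lit 0) (XT.lf (nat_lit 0) (nat_lit 9494731847541) (nat_lit 228) (nat_lit 20132379154) (nat_lit 76) (nat_lit 27150955397742) (nat_lit 54) (nat_lit 5) (nat_lit 57) (nat_lit 5) (nat_lit 55) (nat_lit 5) (nat_lit 410) (nat_lit 399) (nat_lit 211)) (XT.nd (nat_lit 78) (nat_lit 152) (nat_lit 0) (XT.lf (nat_lit 0) (nat_lit 3420581251877) (nat_lit 152) (nat_lit 22618113197057) (nat_lit 228) (nat_lit 13924243618399) (nat_lit 50) (nat_lit 5) (nat_lit 52) (nat_lit 5) (nat_lit 53) (nat_lit 5) (nat_lit 411) (nat_lit 399) (nat_lit 210)) (XT.lf (nat_lit 0) (nat_lit 2930025636893) (nat_lit 152) (nat_lit 35573207760259) (nat_lit 76) (nat_lit 5113998248105) (nat_lit 48) (nat_lit 5) (nat_lit 50) (nat_lit 5) (nat_lit 49) (nat_lit 5) (nat_lit 412) (nat_lit 399) (nat_lit 209)))))) (XT.nd (nat_lit 52338) (nat_lit 0) (nat_lit 1444) (XT.nd (nat_lit 52182)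 (nat_lit 0) (nat_lit 2204) (XT.nd (nat_lit 52104) (nat_lit 0) (nat_lit 2660) (XT.lf (nat_lit 0) (nat_lit 13430227438725) (nat_lit 152) (nat_lit 10121262051563) (nat_lit 228) (nat_lit 24074164291102) (nat_lit 46) (nat_lit 5) (nat_lit 48) (nat_lit 5) (nat_lit 49) (nat_lit 5) (nat_lit 413) (nat_lit 399) (nat_lit 208)) (XT.lf (nat_lit 0) (nat_lit 8628449373569) (nat_lit 532) (nat_lit 136572621297) (nat_lit 532) (nat_lit 136572621297) (nat_lit 81) (nat_lit 3) (nat_lit 88) (nat_lit 3) (nat_lit 88) (nat_lit 5) (nat_lit 400) (nat_lit 400) (nat_lit 220))) (XT.nd (nat_lit 78) (nat_lit 456) (nat_lit 0) (XT.lf (nat_lit 76) (nat_lit 17141406262612) (nat_lit 0) (nat_lit 1822011123780) (nat_lit 532) (nat_lit 142030939704) (nat_lit 82) (nat_lit 5) (nat_lit 81) (nat_lit 3) (nat_lit 88) (nat_lit 5) (nat_lit 401) (nat_lit 400) (nat_lit 219)) (XT.lf (nat_lit 0) (nat_lit 1136416119619) (nat_lit 532) (nat_lit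 3523069522204) (nat_lit 608) (nat_lit 15876563466432) (nat_lit 75) (nat_lit 5) (nat_lit 82) (nat_lit 5) (nat_lit 83) (nat_lit 5) (nat_lit 402) (nat_lit 400) (nat_lit 218)))) (XT.nd (nat_lit 156) (nat_lit 836) (nat_lit 0) (XT.nd (nat_lit 78) (nat_lit 0) (nat_lit 76) (XT.lf (nat_lit 0) (nat_lit 3478955340300) (nat_lit 532) (nat_lit 4882777189474) (nat_lit 608) (nat_lit 13748753555216) (nat_lit 76) (nat_lit 5) (nat_lit 83) (nat_lit 5) (nat_lit 84) (nat_lit 5) (nat_lit 403) (nat_lit 400) (nat_lit 217)) (XT.lf (nat_lit 0) (nat_lit 7116308599486) (nat_lit 532) (nat_lit 5970852870939) (nat_lit 76) (nat_lit 10758452485378) (nat_lit 77) (nat_lit 5) (nat_lit 84) (nat_lit 5) (nat_lit 78) (nat_lit 5) (nat_lit 404) (nat_lit 400) (nat_lit 216))) (XT.nd (nat_lit 78) (nat_lit 456) (nat_lit 0) (XT.lf (nat_lit 0) (nat_lit 12309852282623) (nat_lit 532) (nat_lit 6705133080292) (nat_lit 76) (nat_lit 6745178649516)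 (nat_lit 71) (nat_lit 5) (nat_lit 78) (nat_lit 5) (nat_lit 72) (nat_lit 5) (nat_lit 405) (nat_lit 400) (nat_lit 215)) (XT.nd (nat_lit 78) (nat_lit 228) (nat_lit 0) (XT.lf (nat_lit 0) (nat_lit 19364622626916) (nat_lit 304) (nat_lit 6988094958695) (nat_lit 76) (nat_lit 1522603383248) (nat_lit 68) (nat_lit 5) (nat_lit 72) (nat_lit 5) (nat_lit 69) (nat_lit 5) (nat_lit 406) (nat_lit 400) (nat_lit 214)) (XT.lf (nat_lit 0) (nat_lit 23370453809761) (nat_lit 228) (nat_lit 5395405368728) (nat_lit 304) (nat_lit 1438832237811) (nat_lit 65) (nat_lit 5) (nat_lit 68) (nat_lit 5) (nat_lit 69) (nat_lit 5) (nat_lit 407) (nat_lit 400) (nat_lit 213))))))) (XT.nd (nat_lit 52806) (nat_lit 0) (nat_lit 152) (XT.nd (nat_lit 312) (nat_lit 456) (nat_lit 0) (XT.nd (nat_lit 156) (nat_lit 380) (nat_lit 0) (XT.nd (nat_lit 78) (nat_lit 228) (nat_lit 0) (XT.lf (nat_lit 0) (nat_lit 7693986579590) (nat_lit 228) (nat_lit 6253878311774)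 (nat_lit 76) (nat_lit 18815921671048) (nat_lit 62) (nat_lit 5) (nat_lit 65) (nat_lit 5) (nat_lit 63) (nat_lit 5) (nat_lit 408) (nat_lit 400) (nat_lit 212)) (XT.lf (nat_lit 0) (nat_lit 19493112058062) (nat_lit 304) (nat_lit 4965802754586) (nat_lit 76) (nat_lit 11134315085466) (nat_lit 59) (nat_lit 5) (nat_lit 63) (nat_lit 5) (nat_lit 60) (nat_lit 5) (nat_lit 409) (nat_lit 400) (nat_lit 211))) (XT.nd (nat_lit 78) (nat_lit 228) (nat_lit 0) (XT.lf (nat_lit 0) (nat_lit 34536413079919) (nat_lit 228) (nat_lit 2770665329204) (nat_lit 76) (nat_lit 1422066787318) (nat_lit 57) (nat_lit 5) (nat_lit 60) (nat_lit 5) (nat_lit 58) (nat_lit 5) (nat_lit 410) (nat_lit 400) (nat_lit 210)) (XT.lf (nat_lit 0) (nat_lit 10918941624946) (nat_lit 228) (nat_lit 23152235615) (nat_lit 76) (nat_lit 31223598707519) (nat_lit 54) (nat_lit 5) (nat_lit 57) (nat_lit 5) (nat_lit 55) (nat_lit 5) (nat_lit 411) (nat_lit 400) (nat_lit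 209)))) (XT.nd (nat_lit 52260) (nat_lit 0) (nat_lit 2052) (XT.nd (nat_lit 78) (nat_lit 152) (nat_lit 0) (XT.lf (nat_lit 0) (nat_lit 3933668440075) (nat_lit 152) (nat_lit 26010830176461) (nat_lit 228) (nat_lit 16012880160877) (nat_lit 50) (nat_lit 5) (nat_lit 52) (nat_lit 5) (nat_lit 53) (nat_lit 5) (nat_lit 412) (nat_lit 400) (nat_lit 208)) (XT.lf (nat_lit 0) (nat_lit 3369529482673) (nat_lit 152) (nat_lit 40909188923888) (nat_lit 76) (nat_lit 5881097985465) (nat_lit 48) (nat_lit 5) (nat_lit 50) (nat_lit 5) (nat_lit 49) (nat_lit 5) (nat_lit 413) (nat_lit 400) (nat_lit 207))) (XT.nd (nat_lit 78) (nat_lit 456) (nat_lit 0) (XT.lf (nat_lit 0) (nat_lit 9922716779941) (nat_lit 532) (nat_lit 157058514310) (nat_lit 532) (nat_lit 157058514310) (nat_lit 81) (nat_lit 3) (nat_lit 88) (nat_lit 3) (nat_lit 88) (nat_lit 5) (nat_lit 401) (nat_lit 401) (nat_lit 218)) (XT.nd (nat_lit 78) (nat_lit 456) (nat_lit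 0) (XT.lf (nat_lit 76) (nat_lit 19712617202336) (nat_lit 0) (nat_lit 2095312792608) (nat_lit 532) (nat_lit 163335580019) (nat_lit 82) (nat_lit 5) (nat_lit 81) (nat_lit 3) (nat_lit 88) (nat_lit 5) (nat_lit 402) (nat_lit 401) (nat_lit 217)) (XT.lf (nat_lit 0) (nat_lit 1306878538094) (nat_lit 532) (nat_lit 4051529950154) (nat_lit 608) (nat_lit 18258047986204) (nat_lit 75) (nat_lit 5) (nat_lit 82) (nat_lit 5) (nat_lit 83) (nat_lit 5) (nat_lit 403) (nat_lit 401) (nat_lit 216)))))) (XT.nd (nat_lit 390) (nat_lit 1140) (nat_lit 0) (XT.nd (nat_lit 156) (nat_lit 836) (nat_lit 0) (XT.nd (nat_lit 78) (nat_lit 0) (nat_lit 76) (XT.lf (nat_lit 0) (nat_lit 4000798641812) (nat_lit 532) (nat_lit 5615193767505) (nat_lit 608) (nat_lit 15811066588383) (nat_lit 76) (nat_lit 5) (nat_lit 83) (nat_lit 5) (nat_lit 84) (nat_lit 5) (nat_lit 404) (nat_lit 401) (nat_lit 215)) (XT.lf (nat_lit 0) (nat_lit 8183754889823)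 (nat_lit 532) (nat_lit 6866480801188) (nat_lit 76) (nat_lit 12372220358129) (nat_lit 77) (nat_lit 5) (nat_lit 84) (nat_lit 5) (nat_lit 78) (nat_lit 5) (nat_lit 405) (nat_lit 401) (nat_lit 214))) (XT.nd (nat_lit 78) (nat_lit 456) (nat_lit 0) (XT.lf (nat_lit 0) (nat_lit 14156330125385) (nat_lit 532) (nat_lit 7710903041948) (nat_lit 76) (nat_lit 7756955446934) (nat_lit 71) (nat_lit 5) (nat_lit 78) (nat_lit 5) (nat_lit 72) (nat_lit 5) (nat_lit 406) (nat_lit 401) (nat_lit 213)) (XT.nd (nat_lit 78) (nat_lit 228) (nat_lit 0) (XT.lf (nat_lit 0) (nat_lit 22269316021283) (nat_lit 304) (nat_lit 8036309202118) (nat_lit 76) (nat_lit 1750993890761) (nat_lit 68) (nat_lit 5) (nat_lit 72) (nat_lit 5) (nat_lit 69) (nat_lit 5) (nat_lit 407) (nat_lit 401) (nat_lit 212)) (XT.lf (nat_lit 0) (nat_lit 26876021881574) (nat_lit 228) (nat_lit 6204716173983) (nat_lit 304) (nat_lit 1654657073165) (nat_lit 65) (nat_lit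 5) (nat_lit 68) (nat_lit 5) (nat_lit 69) (nat_lit 5) (nat_lit 408) (nat_lit 401) (nat_lit 211))))) (XT.nd (nat_lit 156) (nat_lit 684) (nat_lit 0) (XT.nd (nat_lit 78) (nat_lit 228) (nat_lit 0) (XT.lf (nat_lit 0) (nat_lit 8848084566801) (nat_lit 228) (nat_lit 7191960058186) (nat_lit 76) (nat_lit 21638309921765) (nat_lit 62) (nat_lit 5) (nat_lit 65) (nat_lit 5) (nat_lit 63) (nat_lit 5) (nat_lit 409) (nat_lit 401) (nat_lit 210)) (XT.lf (nat_lit 0) (nat_lit 22417078867018) (nat_lit 304) (nat_lit 5710673167432) (nat_lit 76) (nat_lit 12804462348361) (nat_lit 59) (nat_lit 5) (nat_lit 63) (nat_lit 5) (nat_lit 60) (nat_lit 5) (nat_lit 410) (nat_lit 401) (nat_lit 209))) (XT.nd (nat_lit 78) (nat_lit 532) (nat_lit 0) (XT.lf (nat_lit 0) (nat_lit 39716875042131) (nat_lit 228) (nat_lit 3186265128257) (nat_lit 76) (nat_lit 1635376805502) (nat_lit 57) (nat_lit 5) (nat_lit 60) (nat_lit 5) (nat_lit 58) (nat_lit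 5) (nat_lit 411) (nat_lit 401) (nat_lit 208)) (XT.nd (nat_lit 78) (nat_lit 304) (nat_lit 0) (XT.lf (nat_lit 0) (nat_lit 12556782868896) (nat_lit 228) (nat_lit 26625070646) (nat_lit 76) (nat_lit 35907138513735) (nat_lit 54) (nat_lit 5) (nat_lit 57) (nat_lit 5) (nat_lit 55) (nat_lit 5) (nat_lit 412) (nat_lit 401) (nat_lit 207)) (XT.lf (nat_lit 0) (nat_lit 4523718706400) (nat_lit 152) (nat_lit 29912454702813) (nat_lit 228) (nat_lit 18414812184795) (nat_lit 50) (nat_lit 5) (nat_lit 52) (nat_lit 5) (nat_lit 53) (nat_lit 5) (nat_lit 413) (nat_lit 401) (nat_lit 206))))))))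
noncomputable def xc126 : XT := (XT.nd (nat_lit 53664) (nat_lit 0) (nat_lit 228) (XT.nd (nat_lit 702) (nat_lit 608) (nat_lit 0) (XT.nd (nat_lit 312) (nat_lit 988) (nat_lit 0) (XT.nd (nat_lit 156) (nat_lit 456) (nat_lit 0) (XT.nd (nat_lit 78) (nat_lit 0) (nat_lit 0) (XT.lf (nat_lit 0) (nat_lit 11411124297186) (nat_lit 532) (nat_lit 180617291319) (nat_lit 532) (nat_lit 180617291319) (nat_lit 81) (nat_lit 3) (nat_lit 88) (nat_lit 3) (nat_lit 88) (nat_lit 5) (nat_lit 402) (nat_lit 402) (nat_lit 216)) (XT.lf (nat_lit 76) (nat_lit 22669509782937) (nat_lit 0) (nat_lit 2409609711696) (nat_lit 532) (nat_lit 187835916539) (nat_lit 82) (nat_lit 5) (nat_lit 81) (nat_lit 3) (nat_lit 88) (nat_lit 5) (nat_lit 403) (nat_lit 402) (nat_lit 215))) (XT.nd (nat_lit 78) (nat_lit 0) (nat_lit 76) (XT.lf (nat_lit 0) (nat_lit 1502910319210) (nat_lit 532) (nat_lit 4659259442388) (nat_lit 608) (nat_lit 20996755183988)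 (nat_lit 75) (nat_lit 5) (nat_lit 82) (nat_lit 5) (nat_lit 83) (nat_lit 5) (nat_lit 404) (nat_lit 402) (nat_lit 214)) (XT.lf (nat_lit 0) (nat_lit 4600918438438) (nat_lit 532) (nat_lit 6457472832337) (nat_lit 608) (nat_lit 18182726576553) (nat_lit 76) (nat_lit 5) (nat_lit 83) (nat_lit 5) (nat_lit 84) (nat_lit 5) (nat_lit 405) (nat_lit 402) (nat_lit 213)))) (XT.nd (nat_lit 156) (nat_lit 684) (nat_lit 0) (XT.nd (nat_lit 78) (nat_lit 456) (nat_lit 0) (XT.lf (nat_lit 0) (nat_lit 9411318123609) (nat_lit 532) (nat_lit 7896452921070) (nat_lit 76) (nat_lit 14228053411806) (nat_lit 77) (nat_lit 5) (nat_lit 84) (nat_lit 5) (nat_lit 78) (nat_lit 5) (nat_lit 406) (nat_lit 402) (nat_lit 212)) (XT.lf (nat_lit 0) (nat_lit 16279779644471) (nat_lit 532) (nat_lit 8867538497946) (nat_lit 76) (nat_lit 8920498763967) (nat_lit 71) (nat_lit 5) (nat_lit 78) (nat_lit 5) (nat_lit 72) (nat_lit 5) (nat_lit 407) (nat_lit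 402) (nat_lit 211))) (XT.nd (nat_lit 78) (nat_lit 456) (nat_lit 0) (XT.lf (nat_lit 0) (nat_lit 25609713424724) (nat_lit 304) (nat_lit 9241755582148) (nat_lit 76) (nat_lit 2013642974394) (nat_lit 68) (nat_lit 5) (nat_lit 72) (nat_lit 5) (nat_lit 69) (nat_lit 5) (nat_lit 408) (nat_lit 402) (nat_lit 210)) (XT.nd (nat_lit 78) (nat_lit 228) (nat_lit 0) (XT.lf (nat_lit 0) (nat_lit 30907425164073) (nat_lit 228) (nat_lit 7135423600041) (nat_lit 304) (nat_lit 1902855633899) (nat_lit 65) (nat_lit 5) (nat_lit 68) (nat_lit 5) (nat_lit 69) (nat_lit 5) (nat_lit 409) (nat_lit 402) (nat_lit 209)) (XT.lf (nat_lit 0) (nat_lit 10175297252028) (nat_lit 228) (nat_lit 8270754066646) (nat_lit 76) (nat_lit 24884056410075) (nat_lit 62) (nat_lit 5) (nat_lit 65) (nat_lit 5) (nat_lit 63) (nat_lit 5) (nat_lit 410) (nat_lit 402) (nat_lit 208)))))) (XT.nd (nat_lit 52572) (nat_lit 0) (nat_lit 1292) (XT.nd (nat_lit 156)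 (nat_lit 228) (nat_lit 0) (XT.nd (nat_lit 78) (nat_lit 152) (nat_lit 0) (XT.lf (nat_lit 0) (nat_lit 25779640697257) (nat_lit 304) (nat_lit 6567274142289) (nat_lit 76) (nat_lit 14725131700672) (nat_lit 59) (nat_lit 5) (nat_lit 63) (nat_lit 5) (nat_lit 60) (nat_lit 5) (nat_lit 411) (nat_lit 402) (nat_lit 207)) (XT.lf (nat_lit 0) (nat_lit 45674406298621) (nat_lit 228) (nat_lit 3664204897247) (nat_lit 76) (nat_lit 1880683326392) (nat_lit 57) (nat_lit 5) (nat_lit 60) (nat_lit 5) (nat_lit 58) (nat_lit 5) (nat_lit 412) (nat_lit 402) (nat_lit 206))) (XT.nd (nat_lit 52338) (nat_lit 0) (nat_lit 2052) (XT.lf (nat_lit 0) (nat_lit 14440300299387) (nat_lit 228) (nat_lit 30618831006) (nat_lit 76) (nat_lit 41293209290862) (nat_lit 54) (nat_lit 5) (nat_lit 57) (nat_lit 5) (nat_lit 55) (nat_lit 5) (nat_lit 413) (nat_lit 402) (nat_lit 205)) (XT.lf (nat_lit 0) (nat_lit 13122792941956) (nat_lit 532) (nat_lit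 207709884914) (nat_lit 532) (nat_lit 207709884914) (nat_lit 81) (nat_lit 3) (nat_lit 88) (nat_lit 3) (nat_lit 88) (nat_lit 5) (nat_lit 403) (nat_lit 403) (nat_lit 214)))) (XT.nd (nat_lit 156) (nat_lit 304) (nat_lit 0) (XT.nd (nat_lit 78) (nat_lit 456) (nat_lit 0) (XT.lf (nat_lit 76) (nat_lit 26069936250568) (nat_lit 0) (nat_lit 2771051168599) (nat_lit 532) (nat_lit 216011303653) (nat_lit 82) (nat_lit 5) (nat_lit 81) (nat_lit 3) (nat_lit 88) (nat_lit 5) (nat_lit 404) (nat_lit 403) (nat_lit 213)) (XT.lf (nat_lit 0) (nat_lit 1728346867396) (nat_lit 532) (nat_lit 5358148358528) (nat_lit 608) (nat_lit 24146268461477) (nat_lit 75) (nat_lit 5) (nat_lit 82) (nat_lit 5) (nat_lit 83) (nat_lit 5) (nat_lit 405) (nat_lit 403) (nat_lit 212))) (XT.nd (nat_lit 78) (nat_lit 380) (nat_lit 0) (XT.lf (nat_lit 0) (nat_lit 5291056204472) (nat_lit 532) (nat_lit 7426093756964) (nat_lit 608) (nat_lit 20910135562970)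 (nat_lit 76) (nat_lit 5) (nat_lit 83) (nat_lit 5) (nat_lit 84) (nat_lit 5) (nat_lit 406) (nat_lit 403) (nat_lit 211)) (XT.nd (nat_lit 78) (nat_lit 456) (nat_lit 0) (XT.lf (nat_lit 0) (nat_lit 10823015842387) (nat_lit 532) (nat_lit 9080920859007) (nat_lit 76) (nat_lit 16362261423546) (nat_lit 77) (nat_lit 5) (nat_lit 84) (nat_lit 5) (nat_lit 78) (nat_lit 5) (nat_lit 407) (nat_lit 403) (nat_lit 210)) (XT.lf (nat_lit 0) (nat_lit 18721746591352) (nat_lit 532) (nat_lit 10197669272416) (nat_lit 76) (nat_lit 10258573578557) (nat_lit 71) (nat_lit 5) (nat_lit 78) (nat_lit 5) (nat_lit 72) (nat_lit 5) (nat_lit 408) (nat_lit 403) (nat_lit 209))))))) (XT.nd (nat_lit 53040) (nat_lit 0) (nat_lit 152) (XT.nd (nat_lit 312) (nat_lit 152) (nat_lit 0) (XT.nd (nat_lit 156) (nat_lit 456) (nat_lit 0) (XT.nd (nat_lit 78) (nat_lit 228) (nat_lit 0) (XT.lf (nat_lit 0) (nat_lit 29451170438622) (nat_lit 304) (nat_lit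 10628018919252) (nat_lit 76) (nat_lit 2315689420567) (nat_lit 68) (nat_lit 5) (nat_lit 72) (nat_lit 5) (nat_lit 69) (nat_lit 5) (nat_lit 409) (nat_lit 403) (nat_lit 208)) (XT.lf (nat_lit 0) (nat_lit 35543538938885) (nat_lit 228) (nat_lit 8205737140015) (nat_lit 304) (nat_lit 2188283978801) (nat_lit 65) (nat_lit 5) (nat_lit 68) (nat_lit 5) (nat_lit 69) (nat_lit 5) (nat_lit 410) (nat_lit 403) (nat_lit 207))) (XT.nd (nat_lit 78) (nat_lit 228) (nat_lit 0) (XT.lf (nat_lit 0) (nat_lit 11701591839988) (nat_lit 228) (nat_lit 9511367176441) (nat_lit 76) (nat_lit 28616664871621) (nat_lit 62) (nat_lit 5) (nat_lit 65) (nat_lit 5) (nat_lit 63) (nat_lit 5) (nat_lit 411) (nat_lit 403) (nat_lit 206)) (XT.lf (nat_lit 0) (nat_lit 29646586801987) (nat_lit 304) (nat_lit 7552365263436) (nat_lit 76) (nat_lit 16933901455817) (nat_lit 59) (nat_lit 5) (nat_lit 63) (nat_lit 5) (nat_lit 60) (nat_lit 5) (nat_lit 412)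 (nat_lit 403) (nat_lit 205)))) (XT.nd (nat_lit 52494) (nat_lit 0) (nat_lit 1368) (XT.nd (nat_lit 52416) (nat_lit 0) (nat_lit 1824) (XT.lf (nat_lit 0) (nat_lit 52525567243543) (nat_lit 228) (nat_lit 4213835631645) (nat_lit 76) (nat_lit 2162785825401) (nat_lit 57) (nat_lit 5) (nat_lit 60) (nat_lit 5) (nat_lit 58) (nat_lit 5) (nat_lit 413) (nat_lit 403) (nat_lit 204)) (XT.lf (nat_lit 0) (nat_lit 15091211883395) (nat_lit 532) (nat_lit 238866367572) (nat_lit 532) (nat_lit 238866367572) (nat_lit 81) (nat_lit 3) (nat_lit 88) (nat_lit 3) (nat_lit 88) (nat_lit 5) (nat_lit 404) (nat_lit 404) (nat_lit 212))) (XT.nd (nat_lit 78) (nat_lit 456) (nat_lit 0) (XT.lf (nat_lit 76) (nat_lit 29980426688297) (nat_lit 0) (nat_lit 3186708844001) (nat_lit 532) (nat_lit 248412998925) (nat_lit 82) (nat_lit 5) (nat_lit 81) (nat_lit 3) (nat_lit 88) (nat_lit 5) (nat_lit 405) (nat_lit 404) (nat_lit 211)) (XT.nd (nat_lit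 78) (nat_lit 0) (nat_lit 76) (XT.lf (nat_lit 0) (nat_lit 1987598897735) (nat_lit 532) (nat_lit 6161870612143) (nat_lit 608) (nat_lit 27768208730614) (nat_lit 75) (nat_lit 5) (nat_lit 82) (nat_lit 5) (nat_lit 83) (nat_lit 5) (nat_lit 406) (nat_lit 404) (nat_lit 210)) (XT.lf (nat_lit 0) (nat_lit 6084714635345) (nat_lit 532) (nat_lit 8540007820340) (nat_lit 608) (nat_lit 24046655897366) (nat_lit 76) (nat_lit 5) (nat_lit 83) (nat_lit 5) (nat_lit 84) (nat_lit 5) (nat_lit 407) (nat_lit 404) (nat_lit 209)))))) (XT.nd (nat_lit 390) (nat_lit 228) (nat_lit 0) (XT.nd (nat_lit 156) (nat_lit 684) (nat_lit 0) (XT.nd (nat_lit 78) (nat_lit 456) (nat_lit 0) (XT.lf (nat_lit 0) (nat_lit 12446468218924) (nat_lit 532) (nat_lit 10443058987688) (nat_lit 76) (nat_lit 18816600637054) (nat_lit 77) (nat_lit 5) (nat_lit 84) (nat_lit 5) (nat_lit 78) (nat_lit 5) (nat_lit 408) (nat_lit 404) (nat_lit 208)) (XT.lf (nat_lit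 0) (nat_lit 21530008580215) (nat_lit 532) (nat_lit 11727319663111) (nat_lit 76) (nat_lit 11797359615336) (nat_lit 71) (nat_lit 5) (nat_lit 78) (nat_lit 5) (nat_lit 72) (nat_lit 5) (nat_lit 409) (nat_lit 404) (nat_lit 207))) (XT.nd (nat_lit 78) (nat_lit 456) (nat_lit 0) (XT.lf (nat_lit 0) (nat_lit 33868846004557) (nat_lit 304) (nat_lit 12222221756975) (nat_lit 76) (nat_lit 2663042833663) (nat_lit 68) (nat_lit 5) (nat_lit 72) (nat_lit 5) (nat_lit 69) (nat_lit 5) (nat_lit 410) (nat_lit 404) (nat_lit 206)) (XT.nd (nat_lit 78) (nat_lit 228) (nat_lit 0) (XT.lf (nat_lit 0) (nat_lit 40875069779868) (nat_lit 228) (nat_lit 9436597710995) (nat_lit 304) (nat_lit 2516526575484) (nat_lit 65) (nat_lit 5) (nat_lit 68) (nat_lit 5) (nat_lit 69) (nat_lit 5) (nat_lit 411) (nat_lit 404) (nat_lit 205)) (XT.lf (nat_lit 0) (nat_lit 13456830616104) (nat_lit 228) (nat_lit 10938072252754) (nat_lit 76) (nat_lit 32909164602389)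 (nat_lit 62) (nat_lit 5) (nat_lit 65) (nat_lit 5) (nat_lit 63) (nat_lit 5) (nat_lit 412) (nat_lit 404) (nat_lit 204))))) (XT.nd (nat_lit 52572) (nat_lit 0) (nat_lit 1216) (XT.nd (nat_lit 52494) (nat_lit 0) (nat_lit 1672) (XT.lf (nat_lit 0) (nat_lit 34093574822392) (nat_lit 304) (nat_lit 8685220052803) (nat_lit 76) (nat_lit 19473986674222) (nat_lit 59) (nat_lit 5) (nat_lit 63) (nat_lit 5) (nat_lit 60) (nat_lit 5) (nat_lit 413) (nat_lit 404) (nat_lit 203)) (XT.lf (nat_lit 0) (nat_lit 17354893666014) (nat_lit 532) (nat_lit 274696322649) (nat_lit 532) (nat_lit 274696322649) (nat_lit 81) (nat_lit 3) (nat_lit 88) (nat_lit 3) (nat_lit 88) (nat_lit 5) (nat_lit 405) (nat_lit 405) (nat_lit 210))) (XT.nd (nat_lit 78) (nat_lit 456) (nat_lit 0) (XT.lf (nat_lit 76) (nat_lit 34477490691650) (nat_lit 0) (nat_lit 3664715170687) (nat_lit 532) (nat_lit 285674948554) (nat_lit 82) (nat_lit 5) (nat_lit 81) (nat_lit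 3) (nat_lit 88) (nat_lit 5) (nat_lit 406) (nat_lit 405) (nat_lit 209)) (XT.nd (nat_lit 78) (nat_lit 0) (nat_lit 76) (XT.lf (nat_lit 0) (nat_lit 2285738732569) (nat_lit 532) (nat_lit 7086151203839) (nat_lit 608) (nat_lit 31933440040144) (nat_lit 75) (nat_lit 5) (nat_lit 82) (nat_lit 5) (nat_lit 83) (nat_lit 5) (nat_lit 407) (nat_lit 405) (nat_lit 208)) (XT.lf (nat_lit 0) (nat_lit 6997421830799) (nat_lit 532) (nat_lit 9821008993264) (nat_lit 608) (nat_lit 27653654281933) (nat_lit 76) (nat_lit 5) (nat_lit 83) (nat_lit 5) (nat_lit 84) (nat_lit 5) (nat_lit 408) (nat_lit 405) (nat_lit 207))))))))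
noncomputable def xc127 : XT := (XT.nd (nat_lit 106470) (nat_lit 0) (nat_lit 456) (XT.nd (nat_lit 53196) (nat_lit 0) (nat_lit 228) (XT.nd (nat_lit 312) (nat_lit 228) (nat_lit 0) (XT.nd (nat_lit 156) (nat_lit 456) (nat_lit 0) (XT.nd (nat_lit 78) (nat_lit 456) (nat_lit 0) (XT.lf (nat_lit 0) (nat_lit 14313438451898) (nat_lit 532) (nat_lit 12009517835714) (nat_lit 76) (nat_lit 21639090732593) (nat_lit 77) (nat_lit 5) (nat_lit 84) (nat_lit 5) (nat_lit 78) (nat_lit 5) (nat_lit 409) (nat_lit 405) (nat_lit 206)) (XT.lf (nat_lit 0) (nat_lit 24759509867367) (nat_lit 532) (nat_lit 13486417612451) (nat_lit 76) (nat_lit 13566963557633) (nat_lit 71) (nat_lit 5) (nat_lit 78) (nat_lit 5) (nat_lit 72) (nat_lit 5) (nat_lit 410) (nat_lit 405) (nat_lit 205))) (XT.nd (nat_lit 78) (nat_lit 228) (nat_lit 0) (XT.lf (nat_lit 0) (nat_lit 38949172905349) (nat_lit 304) (nat_lit 14055555020398) (nat_lit 76) (nat_lit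 3062499258721) (nat_lit 68) (nat_lit 5) (nat_lit 72) (nat_lit 5) (nat_lit 69) (nat_lit 5) (nat_lit 411) (nat_lit 405) (nat_lit 204)) (XT.lf (nat_lit 0) (nat_lit 47006330246962) (nat_lit 228) (nat_lit 10852087367627) (nat_lit 304) (nat_lit 2894005561702) (nat_lit 65) (nat_lit 5) (nat_lit 68) (nat_lit 5) (nat_lit 69) (nat_lit 5) (nat_lit 412) (nat_lit 405) (nat_lit 203)))) (XT.nd (nat_lit 52650) (nat_lit 0) (nat_lit 988) (XT.nd (nat_lit 52572) (nat_lit 0) (nat_lit 1444) (XT.lf (nat_lit 0) (nat_lit 15475355208609) (nat_lit 228) (nat_lit 12578783090551) (nat_lit 76) (nat_lit 37845539292768) (nat_lit 62) (nat_lit 5) (nat_lit 65) (nat_lit 5) (nat_lit 63) (nat_lit 5) (nat_lit 413) (nat_lit 405) (nat_lit 202)) (XT.lf (nat_lit 0) (nat_lit 19958127716000) (nat_lit 532) (nat_lit 315900771002) (nat_lit 532) (nat_lit 315900771002) (nat_lit 81) (nat_lit 3) (nat_lit 88) (nat_lit 3) (nat_lit 88) (nat_lit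 5) (nat_lit 406) (nat_lit 406) (nat_lit 208))) (XT.nd (nat_lit 78) (nat_lit 456) (nat_lit 0) (XT.lf (nat_lit 76) (nat_lit 39649114295480) (nat_lit 0) (nat_lit 4214422446354) (nat_lit 532) (nat_lit 328526190679) (nat_lit 82) (nat_lit 5) (nat_lit 81) (nat_lit 3) (nat_lit 88) (nat_lit 5) (nat_lit 407) (nat_lit 406) (nat_lit 207)) (XT.nd (nat_lit 78) (nat_lit 0) (nat_lit 76) (XT.lf (nat_lit 0) (nat_lit 2628599542586) (nat_lit 532) (nat_lit 8149073884321) (nat_lit 608) (nat_lit 36723456046118) (nat_lit 75) (nat_lit 5) (nat_lit 82) (nat_lit 5) (nat_lit 83) (nat_lit 5) (nat_lit 408) (nat_lit 406) (nat_lit 206)) (XT.lf (nat_lit 0) (nat_lit 8047035105535) (nat_lit 532) (nat_lit 11294160342157) (nat_lit 608) (nat_lit 31801702424194) (nat_lit 76) (nat_lit 5) (nat_lit 83) (nat_lit 5) (nat_lit 84) (nat_lit 5) (nat_lit 409) (nat_lit 406) (nat_lit 205)))))) (XT.nd (nat_lit 52884) (nat_lit 0) (nat_lit 760)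 (XT.nd (nat_lit 156) (nat_lit 456) (nat_lit 0) (XT.nd (nat_lit 78) (nat_lit 456) (nat_lit 0) (XT.lf (nat_lit 0) (nat_lit 16460454219786) (nat_lit 532) (nat_lit 13810945510974) (nat_lit 76) (nat_lit 24884954342469) (nat_lit 77) (nat_lit 5) (nat_lit 84) (nat_lit 5) (nat_lit 78) (nat_lit 5) (nat_lit 410) (nat_lit 406) (nat_lit 204)) (XT.lf (nat_lit 0) (nat_lit 28473436347563) (nat_lit 532) (nat_lit 15509380254222) (nat_lit 76) (nat_lit 15602008091276) (nat_lit 71) (nat_lit 5) (nat_lit 78) (nat_lit 5) (nat_lit 72) (nat_lit 5) (nat_lit 411) (nat_lit 406) (nat_lit 203))) (XT.nd (nat_lit 78) (nat_lit 228) (nat_lit 0) (XT.lf (nat_lit 0) (nat_lit 44791548841232) (nat_lit 304) (nat_lit 16163888273362) (nat_lit 76) (nat_lit 3521874147536) (nat_lit 68) (nat_lit 5) (nat_lit 72) (nat_lit 5) (nat_lit 69) (nat_lit 5) (nat_lit 412) (nat_lit 406) (nat_lit 202)) (XT.lf (nat_lit 0) (nat_lit 54057279784093) (nat_lit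 228) (nat_lit 12479900472757) (nat_lit 304) (nat_lit 3328106395879) (nat_lit 65) (nat_lit 5) (nat_lit 68) (nat_lit 5) (nat_lit 69) (nat_lit 5) (nat_lit 413) (nat_lit 406) (nat_lit 201)))) (XT.nd (nat_lit 156) (nat_lit 456) (nat_lit 0) (XT.nd (nat_lit 78) (nat_lit 0) (nat_lit 0) (XT.lf (nat_lit 0) (nat_lit 22951846873463) (nat_lit 532) (nat_lit 363285886618) (nat_lit 532) (nat_lit 363285886618) (nat_lit 81) (nat_lit 3) (nat_lit 88) (nat_lit 3) (nat_lit 88) (nat_lit 5) (nat_lit 407) (nat_lit 407) (nat_lit 206)) (XT.lf (nat_lit 76) (nat_lit 45596481439864) (nat_lit 0) (nat_lit 4846585813355) (nat_lit 532) (nat_lit 377805119162) (nat_lit 82) (nat_lit 5) (nat_lit 81) (nat_lit 3) (nat_lit 88) (nat_lit 5) (nat_lit 408) (nat_lit 407) (nat_lit 205))) (XT.nd (nat_lit 78) (nat_lit 0) (nat_lit 76) (XT.lf (nat_lit 0) (nat_lit 3022889474073) (nat_lit 532) (nat_lit 9371434966898) (nat_lit 608) (nat_lit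 42231974452999) (nat_lit 75) (nat_lit 5) (nat_lit 82) (nat_lit 5) (nat_lit 83) (nat_lit 5) (nat_lit 409) (nat_lit 407) (nat_lit 204)) (XT.nd (nat_lit 78) (nat_lit 0) (nat_lit 76) (XT.lf (nat_lit 0) (nat_lit 9254090371453) (nat_lit 532) (nat_lit 12988284393408) (nat_lit 608) (nat_lit 36571957787802) (nat_lit 76) (nat_lit 5) (nat_lit 83) (nat_lit 5) (nat_lit 84) (nat_lit 5) (nat_lit 410) (nat_lit 407) (nat_lit 203)) (XT.lf (nat_lit 0) (nat_lit 18929522352831) (nat_lit 532) (nat_lit 15882587337548) (nat_lit 76) (nat_lit 28617697493829) (nat_lit 77) (nat_lit 5) (nat_lit 84) (nat_lit 5) (nat_lit 78) (nat_lit 5) (nat_lit 411) (nat_lit 407) (nat_lit 202))))))) (XT.nd (nat_lit 106080) (nat_lit 0) (nat_lit 532) (XT.nd (nat_lit 52962) (nat_lit 0) (nat_lit 228) (XT.nd (nat_lit 52806) (nat_lit 0) (nat_lit 988) (XT.nd (nat_lit 78) (nat_lit 228) (nat_lit 0) (XT.lf (nat_lit 0) (nat_lit 32744451799767) (nat_lit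 532) (nat_lit 17835787292283) (nat_lit 76) (nat_lit 17942309304965) (nat_lit 71) (nat_lit 5) (nat_lit 78) (nat_lit 5) (nat_lit 72) (nat_lit 5) (nat_lit 412) (nat_lit 407) (nat_lit 201)) (XT.lf (nat_lit 0) (nat_lit 51510281167479) (nat_lit 304) (nat_lit 18588471514296) (nat_lit 76) (nat_lit 4050155269671) (nat_lit 68) (nat_lit 5) (nat_lit 72) (nat_lit 5) (nat_lit 69) (nat_lit 5) (nat_lit 413) (nat_lit 407) (nat_lit 200))) (XT.nd (nat_lit 78) (nat_lit 0) (nat_lit 0) (XT.lf (nat_lit 0) (nat_lit 26394623904530) (nat_lit 532) (nat_lit 417778769585) (nat_lit 532) (nat_lit 417778769585) (nat_lit 81) (nat_lit 3) (nat_lit 88) (nat_lit 3) (nat_lit 88) (nat_lit 5) (nat_lit 408) (nat_lit 408) (nat_lit 204)) (XT.lf (nat_lit 76) (nat_lit 52435953655890) (nat_lit 0) (nat_lit 5573573685396) (nat_lit 532) (nat_lit 434475886946) (nat_lit 82) (nat_lit 5) (nat_lit 81) (nat_lit 3) (nat_lit 88) (nat_lit 5) (nat_lit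 409) (nat_lit 408) (nat_lit 203)))) (XT.nd (nat_lit 156) (nat_lit 304) (nat_lit 0) (XT.nd (nat_lit 78) (nat_lit 0) (nat_lit 76) (XT.lf (nat_lit 0) (nat_lit 3476322895260) (nat_lit 532) (nat_lit 10777150211879) (nat_lit 608) (nat_lit 48566770620922) (nat_lit 75) (nat_lit 5) (nat_lit 82) (nat_lit 5) (nat_lit 83) (nat_lit 5) (nat_lit 410) (nat_lit 408) (nat_lit 202)) (XT.lf (nat_lit 0) (nat_lit 10642203927237) (nat_lit 532) (nat_lit 14936527052365) (nat_lit 608) (nat_lit 42057751455955) (nat_lit 76) (nat_lit 5) (nat_lit 83) (nat_lit 5) (nat_lit 84) (nat_lit 5) (nat_lit 411) (nat_lit 408) (nat_lit 201))) (XT.nd (nat_lit 78) (nat_lit 456) (nat_lit 0) (XT.lf (nat_lit 0) (nat_lit 21768950705814) (nat_lit 532) (nat_lit 18264975438125) (nat_lit 76) (nat_lit 32910352117895) (nat_lit 77) (nat_lit 5) (nat_lit 84) (nat_lit 5) (nat_lit 78) (nat_lit 5) (nat_lit 412) (nat_lit 408) (nat_lit 200)) (XT.nd (nat_lit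 52806) (nat_lit 0) (nat_lit 760) (XT.lf (nat_lit 0) (nat_lit 37656119569784) (nat_lit 532) (nat_lit 20511155386071) (nat_lit 76) (nat_lit 20633655700709) (nat_lit 71) (nat_lit 5) (nat_lit 78) (nat_lit 5) (nat_lit 72) (nat_lit 5) (nat_lit 413) (nat_lit 408) (nat_lit 199)) (XT.lf (nat_lit 0) (nat_lit 30353817490245) (nat_lit 532) (nat_lit 480445585003) (nat_lit 532) (nat_lit 480445585003) (nat_lit 81) (nat_lit 3) (nat_lit 88) (nat_lit 3) (nat_lit 88) (nat_lit 5) (nat_lit 409) (nat_lit 409) (nat_lit 202)))))) (XT.nd (nat_lit 53196) (nat_lit 0) (nat_lit 0) (XT.nd (nat_lit 156) (nat_lit 0) (nat_lit 76) (XT.nd (nat_lit 78) (nat_lit 456) (nat_lit 0) (XT.lf (nat_lit 76) (nat_lit 60301346704310) (nat_lit 0) (nat_lit 6409609738233) (nat_lit 532) (nat_lit 499647269919) (nat_lit 82) (nat_lit 5) (nat_lit 81) (nat_lit 3) (nat_lit 88) (nat_lit 5) (nat_lit 410) (nat_lit 409) (nat_lit 201)) (XT.lf (nat_lit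 0) (nat_lit 3997771329606) (nat_lit 532) (nat_lit 12393722743620) (nat_lit 608) (nat_lit 55851786214039) (nat_lit 75) (nat_lit 5) (nat_lit 82) (nat_lit 5) (nat_lit 83) (nat_lit 5) (nat_lit 411) (nat_lit 409) (nat_lit 200))) (XT.nd (nat_lit 78) (nat_lit 0) (nat_lit 76) (XT.lf (nat_lit 0) (nat_lit 12238534516373) (nat_lit 532) (nat_lit 17177006110177) (nat_lit 608) (nat_lit 48366414174337) (nat_lit 76) (nat_lit 5) (nat_lit 83) (nat_lit 5) (nat_lit 84) (nat_lit 5) (nat_lit 412) (nat_lit 409) (nat_lit 199)) (XT.nd (nat_lit 52884) (nat_lit 0) (nat_lit 304) (XT.lf (nat_lit 0) (nat_lit 25034293311731) (nat_lit 532) (nat_lit 21004721753800) (nat_lit 76) (nat_lit 37846904935574) (nat_lit 77) (nat_lit 5) (nat_lit 84) (nat_lit 5) (nat_lit 78) (nat_lit 5) (nat_lit 413) (nat_lit 409) (nat_lit 198)) (XT.lf (nat_lit 0) (nat_lit 34906890113809) (nat_lit 532) (nat_lit 552512422739) (nat_lit 532) (nat_lit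 552512422739) (nat_lit 81) (nat_lit 3) (nat_lit 88) (nat_lit 3) (nat_lit 88) (nat_lit 5) (nat_lit 410) (nat_lit 410) (nat_lit 200))))) (XT.nd (nat_lit 53118) (nat_lit 0) (nat_lit 456) (XT.nd (nat_lit 78) (nat_lit 456) (nat_lit 0) (XT.lf (nat_lit 76) (nat_lit 69346548709983) (nat_lit 0) (nat_lit 7371051198990) (nat_lit 532) (nat_lit 574594360355) (nat_lit 82) (nat_lit 5) (nat_lit 81) (nat_lit 3) (nat_lit 88) (nat_lit 5) (nat_lit 411) (nat_lit 410) (nat_lit 199)) (XT.lf (nat_lit 0) (nat_lit 4597437029089) (nat_lit 532) (nat_lit 14252781155132) (nat_lit 608) (nat_lit 64229554146130) (nat_lit 75) (nat_lit 5) (nat_lit 82) (nat_lit 5) (nat_lit 83) (nat_lit 5) (nat_lit 412) (nat_lit 410) (nat_lit 198))) (XT.nd (nat_lit 78) (nat_lit 0) (nat_lit 0) (XT.lf (nat_lit 0) (nat_lit 40142923630901) (nat_lit 532) (nat_lit 635389286139) (nat_lit 532) (nat_lit 635389286139) (nat_lit 81) (nat_lit 3) (nat_lit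 88) (nat_lit 3) (nat_lit 88) (nat_lit 5) (nat_lit 411) (nat_lit 411) (nat_lit 198)) (XT.nd (nat_lit 53118) (nat_lit 0) (nat_lit 0) (XT.lf (nat_lit 76) (nat_lit 79748531016501) (nat_lit 0) (nat_lit 8476708878853) (nat_lit 532) (nat_lit 660783514370) (nat_lit 82) (nat_lit 5) (nat_lit 81) (nat_lit 3) (nat_lit 88) (nat_lit 5) (nat_lit 412) (nat_lit 411) (nat_lit 197)) (XT.lf (nat_lit 0) (nat_lit 46164362175552) (nat_lit 532) (nat_lit 730697679052) (nat_lit 532) (nat_lit 730697679052) (nat_lit 81) (nat_lit 3) (nat_lit 88) (nat_lit 3) (nat_lit 88) (nat_lit 5) (nat_lit 412) (nat_lit 412) (nat_lit 196))))))))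

set_option maxRecDepth 10000000 in
noncomputable def Tp : PT := (PT.nd (nat_lit 9202284) (PT.nd (nat_lit 8830848) pc0 pc1) (PT.nd (nat_lit 264654) pc2 pc3))

set_option maxRecDepth 10000000 in
noncomputable def Tx : XT := (XT.nd (nat_lit 15915198) (nat_lit 0) (nat_lit 76) XT.nil (XT.nd (nat_lit 6001632) (nat_lit 0) (nat_lit 0) (XT.nd (nat_lit 2602080) (nat_lit 0) (nat_lit 0) (XT.nd (nat_lit 1803048) (nat_lit 0) (nat_lit 0) (XT.nd (nat_lit 1272180) (nat_lit 0) (nat_lit 0) (XT.nd (nat_lit 900822) (nat_lit 0) (nat_lit 0) (XT.nd (nat_lit 635778) (nat_lit 0) (nat_lit 0) (XT.nd (nat_lit 424398) (nat_lit 0) (nat_lit 0) (XT.nd (nat_lit 317772) (nat_lit 0) (nat_lit 0) xc0 xc1) (XT.nd (nat_lit 106002) (nat_lit 0) (nat_lit 0) xc2 xc3)) (XT.nd (nat_lit 107640) (nat_lit 0) (nat_lit 0) (XT.nd (nat_lit 53898) (nat_lit 0) (nat_lit 0) xc4 xc5) (XT.nd (nat_lit 104130) (nat_lit 0) (nat_lit 0) xc6 xc7))) (XT.nd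 (nat_lit 211458) (nat_lit 0) (nat_lit 0) (XT.nd (nat_lit 106002) (nat_lit 0) (nat_lit 0) (XT.nd (nat_lit 53040) (nat_lit 0) (nat_lit 0) xc8 xc9) (XT.nd (nat_lit 52806) (nat_lit 0) (nat_lit 0) xc10 xc11)) (XT.nd (nat_lit 55380) (nat_lit 0) (nat_lit 0) (XT.nd (nat_lit 2886) (nat_lit 0) (nat_lit 0) xc12 xc13) (XT.nd (nat_lit 52338) (nat_lit 0) (nat_lit 0) xc14 xc15)))) (XT.nd (nat_lit 267228) (nat_lit 0) (nat_lit 0) (XT.nd (nat_lit 158418) (nat_lit 0) (nat_lit 0) (XT.nd (nat_lit 54834) (nat_lit 0) (nat_lit 0) (XT.nd (nat_lit 51948) (nat_lit 0) (nat_lit 0) xc16 xc17) (XT.nd (nat_lit 51870) (nat_lit 0) (nat_lit 0) xc18 xc19)) (XT.nd (nat_lit 54444) (nat_lit 0) (nat_lit 0) (XT.nd (nat_lit 2886) (nat_lit 0) (nat_lit 0) xc20 xc21) (XT.nd (nat_lit 51480) (nat_lit 0) (nat_lit 0) xc22 xc23))) (XT.nd (nat_lit 156312) (nat_lit 0) (nat_lit 0) (XT.nd (nat_lit 102414) (nat_lit 0) (nat_lit 0) (XT.nd (nat_lit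 51246) (nat_lit 0) (nat_lit 0) xc24 xc25) (XT.nd (nat_lit 2886) (nat_lit 0) (nat_lit 0) xc26 xc27)) (XT.nd (nat_lit 53742) (nat_lit 0) (nat_lit 0) (XT.nd (nat_lit 2886) (nat_lit 0) (nat_lit 0) xc28 xc29) (XT.nd (nat_lit 2886) (nat_lit 0) (nat_lit 0) xc30 xc31))))) (XT.nd (nat_lit 423150) (nat_lit 0) (nat_lit 0) (XT.nd (nat_lit 212706) (nat_lit 0) (nat_lit 0) (XT.nd (nat_lit 106626) (nat_lit 0) (nat_lit 0) (XT.nd (nat_lit 53352) (nat_lit 0) (nat_lit 0) (XT.nd (nat_lit 2808) (nat_lit 0) (nat_lit 0) xc32 xc33) (XT.nd (nat_lit 50388) (nat_lit 0) (nat_lit 76) xc34 xc35)) (XT.nd (nat_lit 53118) (nat_lit 0) (nat_lit 0) (XT.nd (nat_lit 50232) (nat_lit 0) (nat_lit 76) xc36 xc37) (XT.nd (nat_lit 50076) (nat_lit 0) (nat_lit 228) xc38 xc39))) (XT.nd (nat_lit 105378) (nat_lit 0) (nat_lit 0) (XT.nd (nat_lit 52728) (nat_lit 0) (nat_lit 0) (XT.nd (nat_lit 49842) (nat_lit 0) (nat_lit 456) xc40 xc41) (XT.nd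 (nat_lit 2886) (nat_lit 0) (nat_lit 0) xc42 xc43)) (XT.nd (nat_lit 52494) (nat_lit 0) (nat_lit 0) (XT.nd (nat_lit 2886) (nat_lit 0) (nat_lit 0) xc44 xc45) (XT.nd (nat_lit 2886) (nat_lit 0) (nat_lit 0) xc46 xc47)))) (XT.nd (nat_lit 163878) (nat_lit 0) (nat_lit 0) (XT.nd (nat_lit 105300) (nat_lit 0) (nat_lit 0) (XT.nd (nat_lit 52572) (nat_lit 0) (nat_lit 0) (XT.nd (nat_lit 2808) (nat_lit 76) (nat_lit 0) xc48 xc49) (XT.nd (nat_lit 2886) (nat_lit 228) (nat_lit 0) xc50 xc51)) (XT.nd (nat_lit 52806) (nat_lit 0) (nat_lit 0) (XT.nd (nat_lit 2886) (nat_lit 456) (nat_lit 0) xc52 xc53) (XT.nd (nat_lit 2886) (nat_lit 760) (nat_lit 0) xc54 xc55))) (XT.nd (nat_lit 105846) (nat_lit 0) (nat_lit 0) (XT.nd (nat_lit 52884) (nat_lit 0) (nat_lit 0) (XT.nd (nat_lit 49998) (nat_lit 0) (nat_lit 0) xc56 xc57) (XT.nd (nat_lit 50076) (nat_lit 0) (nat_lit 0) xc58 xc59)) (XT.nd (nat_lit 53040) (nat_lit 0) (nat_lit 0)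 (XT.nd (nat_lit 50154) (nat_lit 0) (nat_lit 0) xc60 xc61) (XT.nd (nat_lit 50232) (nat_lit 0) (nat_lit 0) xc62 xc63)))))) (XT.nd (nat_lit 1008774) (nat_lit 0) (nat_lit 76) (XT.nd (nat_lit 476190) (nat_lit 0) (nat_lit 0) (XT.nd (nat_lit 261144) (nat_lit 0) (nat_lit 0) (XT.nd (nat_lit 106392) (nat_lit 0) (nat_lit 0) (XT.nd (nat_lit 53118) (nat_lit 0) (nat_lit 0) (XT.nd (nat_lit 50232) (nat_lit 0) (nat_lit 0) xc64 xc65) (XT.nd (nat_lit 50388) (nat_lit 0) (nat_lit 0) xc66 xc67)) (XT.nd (nat_lit 53430) (nat_lit 0) (nat_lit 0) (XT.nd (nat_lit 50544) (nat_lit 0) (nat_lit 0) xc68 xc69) (XT.nd (nat_lit 50622) (nat_lit 0) (nat_lit 0) xc70 xc71))) (XT.nd (nat_lit 107328) (nat_lit 0) (nat_lit 0) (XT.nd (nat_lit 53586) (nat_lit 0) (nat_lit 0) (XT.nd (nat_lit 2808) (nat_lit 760) (nat_lit 0) xc72 xc73) (XT.nd (nat_lit 2886) (nat_lit 304) (nat_lit 0) xc74 xc75)) (XT.nd (nat_lit 53820) (nat_lit 0) (nat_lit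 0) (XT.nd (nat_lit 2886) (nat_lit 76) (nat_lit 0) xc76 xc77) (XT.nd (nat_lit 2886) (nat_lit 0) (nat_lit 0) xc78 xc79)))) (XT.nd (nat_lit 265200) (nat_lit 0) (nat_lit 0) (XT.nd (nat_lit 108108) (nat_lit 0) (nat_lit 0) (XT.nd (nat_lit 53976) (nat_lit 0) (nat_lit 0) (XT.nd (nat_lit 51090) (nat_lit 0) (nat_lit 532) xc80 xc81) (XT.nd (nat_lit 51246) (nat_lit 0) (nat_lit 76) xc82 xc83)) (XT.nd (nat_lit 102726) (nat_lit 0) (nat_lit 0) (XT.nd (nat_lit 51324) (nat_lit 0) (nat_lit 0) xc84 xc85) (XT.nd (nat_lit 2886) (nat_lit 456) (nat_lit 0) xc86 xc87))) (XT.nd (nat_lit 108888) (nat_lit 0) (nat_lit 76) (XT.nd (nat_lit 54366) (nat_lit 0) (nat_lit 76) (XT.nd (nat_lit 51480) (nat_lit 0) (nat_lit 912) xc88 xc89) (XT.nd (nat_lit 51636) (nat_lit 0) (nat_lit 0) xc90 xc91)) (XT.nd (nat_lit 103662) (nat_lit 0) (nat_lit 0) (XT.nd (nat_lit 51792) (nat_lit 0) (nat_lit 0) xc92 xc93) (XT.nd (nat_lit 51948) (nat_lit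 0) (nat_lit 608) xc94 xc95))))) (XT.nd (nat_lit 690924) (nat_lit 0) (nat_lit 684) (XT.nd (nat_lit 319020) (nat_lit 0) (nat_lit 228) (XT.nd (nat_lit 159120) (nat_lit 0) (nat_lit 152) (XT.nd (nat_lit 104052) (nat_lit 0) (nat_lit 152) (XT.nd (nat_lit 51948) (nat_lit 0) (nat_lit 0) xc96 xc97) (XT.nd (nat_lit 2886) (nat_lit 76) (nat_lit 0) xc98 xc99)) (XT.nd (nat_lit 104598) (nat_lit 0) (nat_lit 76) (XT.nd (nat_lit 52260) (nat_lit 0) (nat_lit 0) xc100 xc101) (XT.nd (nat_lit 52416) (nat_lit 0) (nat_lit 456) xc102 xc103))) (XT.nd (nat_lit 210366) (nat_lit 0) (nat_lit 228) (XT.nd (nat_lit 104988) (nat_lit 0) (nat_lit 152) (XT.nd (nat_lit 52416) (nat_lit 0) (nat_lit 0) xc104 xc105) (XT.nd (nat_lit 52650) (nat_lit 0) (nat_lit 0) xc106 xc107)) (XT.nd (nat_lit 55692) (nat_lit 0) (nat_lit 0) (XT.nd (nat_lit 52806) (nat_lit 0) (nat_lit 228) xc108 xc109) (XT.nd (nat_lit 52884) (nat_lit 0) (nat_lit 152)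 xc110 xc111)))) (XT.nd (nat_lit 529620) (nat_lit 0) (nat_lit 1368) (XT.nd (nat_lit 212784) (nat_lit 0) (nat_lit 456) (XT.nd (nat_lit 106158) (nat_lit 0) (nat_lit 228) (XT.nd (nat_lit 52962) (nat_lit 0) (nat_lit 152) xc112 xc113) (XT.nd (nat_lit 53274) (nat_lit 0) (nat_lit 76) xc114 xc115)) (XT.nd (nat_lit 157950) (nat_lit 0) (nat_lit 456) (XT.nd (nat_lit 104208) (nat_lit 0) (nat_lit 380) xc116 xc117) (XT.nd (nat_lit 53820) (nat_lit 0) (nat_lit 152) xc118 xc119))) (XT.nd (nat_lit 372294) (nat_lit 0) (nat_lit 988) (XT.nd (nat_lit 159822) (nat_lit 0) (nat_lit 532) (XT.nd (nat_lit 54132) (nat_lit 0) (nat_lit 152) xc120 xc121) (XT.nd (nat_lit 106080) (nat_lit 0) (nat_lit 228) xc122 xc123)) (XT.nd (nat_lit 265902) (nat_lit 0) (nat_lit 912) (XT.nd (nat_lit 106704) (nat_lit 0) (nat_lit 304) xc124 xc125) (XT.nd (nat_lit 159900) (nat_lit 0) (nat_lit 608) xc126 xc127))))))) XT.nil))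

set_option maxRecDepth 10000000 in
noncomputable def Te : XT := XT.nil

set_option maxRecDepth 10000000 in
noncomputable def Tz : ZL := (ZL.cons (nat_lit 76) (nat_lit 6) (nat_lit 488892702120620666660) (ZL.cons (nat_lit 152) (nat_lit 6) (nat_lit 459411409520416718646) (ZL.cons (nat_lit 228) (nat_lit 3) (nat_lit 227485074135623109906) (ZL.cons (nat_lit 304) (nat_lit 6) (nat_lit 425507923030182178428) (ZL.cons (nat_lit 380) (nat_lit 6) (nat_lit 399929591555755550400) (ZL.cons (nat_lit 456) (nat_lit 3) (nat_lit 198033812626064514837) (ZL.cons (nat_lit 532) (nat_lit 6) (nat_lit 370514510360164928164) (ZL.cons (nat_lit 608) (nat_lit 6) (nat_lit 348348626106403619742) (ZL.cons (nat_lit 684) (nat_lit 3) (nat_lit 172495197269016366077) (ZL.cons (nat_lit 760) (nat_lit 6) (nat_lit 322857859214578115058) (ZL.cons (nat_lit 836) (nat_lit 6) (nat_lit 303683876524776964796) (ZL.cons (nat_lit 912) (nat_lit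 3) (nat_lit 150381837580488096491) (ZL.cons (nat_lit 988) (nat_lit 6) (nat_lit 281633796431505641996) (ZL.cons (nat_lit 1064) (nat_lit 6) (nat_lit 265093942790155081756) (ZL.cons (nat_lit 1140) (nat_lit 3) (nat_lit 131277318628207640089) (ZL.cons (nat_lit 1216) (nat_lit 6) (nat_lit 246073111102601937482) (ZL.cons (nat_lit 1292) (nat_lit 6) (nat_lit 231866753327925787634) (ZL.cons (nat_lit 1368) (nat_lit 3) (nat_lit 114829330779728197479) (ZL.cons (nat_lit 1444) (nat_lit 6) (nat_lit 215529441887048215310) (ZL.cons (nat_lit 1520) (nat_lit 6) (nat_lit 203409010830917238504) (ZL.cons (nat_lit 1596) (nat_lit 3) (nat_lit 100744465516124100696) (ZL.cons (nat_lit 1672) (nat_lit 6) (nat_lit 189470515116366615174) (ZL.cons (nat_lit 1748) (nat_lit 6) (nat_lit 179239051219310121276) (ZL.cons (nat_lit 1824) (nat_lit 3) (nat_lit 88784708305885914068) (ZL.cons (nat_lit 1900) (nat_lit 6) (nat_lit 167472867737695153290)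 (ZL.cons (nat_lit 1976) (nat_lit 6) (nat_lit 158983327320513351348) (ZL.cons (nat_lit 2052) (nat_lit 3) (nat_lit 78765735570022635179) (ZL.cons (nat_lit 2128) (nat_lit 6) (nat_lit 149220355840754279116) (ZL.cons (nat_lit 2204) (nat_lit 6) (nat_lit 142376913062227355818) (ZL.cons (nat_lit 2280) (nat_lit 3) (nat_lit 70557214713518860088) (ZL.cons (nat_lit 2356) (nat_lit 6) (nat_lit 136867249358797669366) (ZL.cons (nat_lit 2432) (nat_lit 6) (nat_lit 134506953866921394030) (ZL.cons (nat_lit 2508) (nat_lit 6) (nat_lit 129268652464663894298) (ZL.cons (nat_lit 2584) (nat_lit 3) (nat_lit 64085420303988627302) (ZL.cons (nat_lit 2660) (nat_lit 6) (nat_lit 125297036714568878594) (ZL.cons (nat_lit 2736) (nat_lit 6) (nat_lit 123244605852067769606) (ZL.cons (nat_lit 2812) (nat_lit 3) (nat_lit 60160248104228468906) (ZL.cons (nat_lit 2888) (nat_lit 6) (nat_lit 120866302723336155254) (ZL.cons (nat_lit 2964)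 (nat_lit 6) (nat_lit 122514401091091009652) (ZL.cons (nat_lit 3040) (nat_lit 6) (nat_lit 119631866745272970840) (ZL.cons (nat_lit 3116) (nat_lit 3) (nat_lit 59338623869729250773) (ZL.cons (nat_lit 3192) (nat_lit 6) (nat_lit 116088455254600033884) (ZL.cons (nat_lit 3268) (nat_lit 6) (nat_lit 117261939261590351380) (ZL.cons (nat_lit 3344) (nat_lit 6) (nat_lit 115477216772458952262) (ZL.cons (nat_lit 3420) (nat_lit 3) (nat_lit 56477113078714884825) (ZL.cons (nat_lit 3496) (nat_lit 6) (nat_lit 113581903649540869704) (ZL.cons (nat_lit 3572) (nat_lit 3) (nat_lit 56375900083111969940) (ZL.cons (nat_lit 3648) (nat_lit 6) (nat_lit 111402293558185074764) (ZL.cons (nat_lit 3724) (nat_lit 1) (nat_lit 18446744073709551617) ZL.nil)))))))))))))))))))))))))))))))))))))))))))))))))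

noncomputable def vl : XL := ⟨(nat_lit 0), (nat_lit 76), (nat_lit 207654895), (nat_lit 152), (nat_lit 23796180), (nat_lit 152), (nat_lit 23796180), (nat_lit 1), (nat_lit 4), (nat_lit 2), (nat_lit 5), (nat_lit 2), (nat_lit 4), (nat_lit 0), (nat_lit 0), (nat_lit 0)⟩

noncomputable def cp0 : Nat := (nat_lit 67160518117473727975917930891207640668885859322008515054962981199566944417694051857365426792852799617529217168244962295870842522212242401955556233355717266911041084155078121437168395655827410585123403433436513377396791362092528704366488816619046135354866516851916492812851720436575456587991070131915569509608059213467555385027400610881854153451297142382608042983677606416599970803443010373577313772649394890124655980695217836616548409930677079844071859864012547273158583468109699176324545152254971478182768009057607896904951999216988880791030535006771746399254046517970678663843185276208418600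5902136782959543224117042624491844106047508388009226983410301907591797531252018835535326343840803315019211965435437452674051990303478986414781946667559010938033910893956257760466738515163721128201355108854194308150159038311235795484901367470410679437912632326431048564951686148257706292849266881522018257809524514302262276246431732107177889408997797612800941336881280250024138550278630001518752833702800011508471471486210741017198996584581716068206247229703740446206957944829177490545131499838834095129261210821499217949775927831475590223292792832)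

noncomputable def cp1 : Nat := (nat_lit 9536784736237123856048740882439233643093637116559442230770820700881808895548823949218964526924527674150767806771967386965783122069747309628831322437981033956468617329900956887953489682332465999719400837719573804398612688323554940854709550079990421643106484057261528704334661094055427875577010467631326864929107882427204949168167126695264048517016098956123356593322343781009472484628600515019520005077133589823998248279611519525673591515823818486070632549700181781265189246733719691353539274411997085641108667201009998040794132379057991600783596068184049832565400442902714647478819019281416802414974488694612610770301176295425117290390896660147645414358898362654247478723887891663398512669034348132574100928150857855284388154672784320857671142865000815222375178453601510562304142236426181152033708821696688654696036766842589675839975287606970376410067917220593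9072083114637425717715340645787650096738549563038280481249753107983433010558036238723817396377853169427572735012442414532441416532901635475574794044811777585540068694615935202916415927865814786844916782440545526738491849933239402286252396924025743467507555790470103171394875330180196106537934389365436216661530915078060451539782210007003176637228063220400019298095239018145509418361115435680913507700179653494888585605724899486157312650621351597347727341312226959577897089889926745445207585128842044370255483773470954232603233379138939645002461256580820934910967674781433352428137400554520184611968625451309378305985700757421262687129953264020941138444827835696054545107628005695037695305460592635464500701569322222021902278625863572495382967841789617225613541569114389904530604529384967504063902263952020076986347478387692748495094580707128864092035788589213206797597440975424228890681060064553183545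3776847632936625741721715546891327889681725401438870144610182447861292169731367076813908985311778364718389754212529356503588715285582612161958270232874740250170430272479926438093118982358888915862223904375893547967293063904917480249433738896732196882106758056215791366232908837663645532922764870234188580793273723925967409630744939021603954203522681391486894040679543210384733737324769530490617891475213359171604792637161525297994980360523638202798813351407411383031161652230759143369867467739384636071655521279696573017515120270810908763156729917113053255895954813962536843173890772816972796452689542372491207977405461691217421778117332890581348768325893619712)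

noncomputable def rc0 : Nat := (nat_lit 9536784736237123856048740882439233643093637116559442230770820700881808895548823949218964526924527674150767806771967386965783122069747309628831322437981033956468617329900956887953489682332465999719400837719573804398612688323554940854709550079990421643106484057261528704334661094055427875577010467631326864929107882427204949168167126695264048517016098956123356593322343781009472484628600515019520005077133589823998248279611519525673591515823818486070632549700181781265189246733719691353539274411997085641108667201009998040794132379057991600783596068184049832565400442902714647478819019281416802414974488694612610770301176295425117290390896660147645414358898362654247478723887891663398512669034348132574100928150857855284388154672784320857671142865000815222375178453601510562304142236426181152033708821696688654696036766842589675839975287606970376410067917220593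9072083114637425717715340645787650096738549563038280481249753107983433010558036238723817396377853169427572735012442414532441416532901635475574794044811777585540068694615935202916415927865814786844916782440545526738491849933239402286252396924025743467507555790470103171394875330180196106537934389365436216661530915078060451539782210007003176637228063220400019298095239018145509418361115435680913507700179653494888585605724899486157312650621351597347727341312226959577897089889926745445207585128842044370255483773470954232603233379138939645002461256580820934910967674781433352428137400554520184611968625451309378305985700757421262687129953264020941138444827835696054545107628005695037695305460592635464500701569322222021902278625863572495382967841789617225613541569114389904530604529384967504063902263952020076986347478387692748495094580707128864092035788589213206797597440975424228890681060064553183545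3776847632936625741721715546891327889681725401438870144610182447861292169731367076813908985311778364718389754212529356503588715285582612161958270232874740250170430272479926438093118982358888915862223904375893547967293063904917480249433738896732196882106758056215791366232908837663645532922764870234188580793273723925967409630744939021603954203522681391486894040679543210384733737324769530490617891475213359171604792637161525297994980360523638202798813351407411383031161652230759143369867467739384636071655521279696573017515120270810908763156729917113053255895954813962536843173890772816972796452689542372491207977405461691217421778117332890581348768325893619712)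

end Vale.Agent.Lib.P154.PChain.BC.S1
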