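import Vale.Agent.Lib.P154.PChain.BC.R9_6

set_option linter.all false

namespace Vale.Agent.Lib.P154.PChain.BC.S10

open Vale.Agent.Lib.P154.Chain

noncomputable def pc0 : PT := (PT.nd (nat_lit 16018704) (PT.nd (nat_lit 15775266) (PT.nd (nat_lit 15613026) (PT.nd (nat_lit 15531750) (PT.nd (nat_lit 6117306) (PT.nd (nat_lit 6036186) PT.nil (PT.lf (nat_lit 76) (nat_lit 3) (nat_lit 1) (nat_lit 1) (nat_lit 353) (nat_lit 74) (nat_lit 353))) (PT.nd (nat_lit 78) (PT.lf (nat_lit 152) (nat_lit 6) (nat_lit 2) (nat_lit 3) (nat_lit 352) (nat_lit 75) (nat_lit 353)) (PT.lf (nat_lit 152) (nat_lit 6) (nat_lit 2) (nat_lit 1) (nat_lit 353) (nat_lit 75) (nat_lit 352)))) (PT.nd (nat_lit 81120) (PT.nd (nat_lit 78) (PT.lf (nat_lit 9424) (nat_lit 6) (nat_lit 124) (nat_lit 3) (nat_lit 294) (nat_lit 191) (nat_lit 295)) (PT.lf (nat_lit 9424) (nat_lit 6) (nat_lit 124) (nat_lit 1) (nat_lit 295) (nat_lit 191) (nat_lit 294))) (PT.nd (nat_lit 78) (PT.lf (nat_lit 9728) (nat_lit 6) (nat_lit 128) (nat_lit 3) (nat_lit 293) (nat_lit 192) (nat_lit 295)) (PT.lf (nat_lit 9804)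 (nat_lit 3) (nat_lit 129) (nat_lit 1) (nat_lit 294) (nat_lit 192) (nat_lit 294))))) (PT.nd (nat_lit 81120) (PT.nd (nat_lit 80964) (PT.lf (nat_lit 9728) (nat_lit 6) (nat_lit 128) (nat_lit 1) (nat_lit 295) (nat_lit 192) (nat_lit 293)) (PT.nd (nat_lit 78) (PT.lf (nat_lit 10032) (nat_lit 6) (nat_lit 132) (nat_lit 3) (nat_lit 292) (nat_lit 193) (nat_lit 295)) (PT.lf (nat_lit 10108) (nat_lit 6) (nat_lit 133) (nat_lit 3) (nat_lit 293) (nat_lit 193) (nat_lit 294)))) (PT.nd (nat_lit 80964) (PT.nd (nat_lit 78) (PT.lf (nat_lit 10108) (nat_lit 6) (nat_lit 133) (nat_lit 1) (nat_lit 294) (nat_lit 193) (nat_lit 293)) (PT.lf (nat_lit 10032) (nat_lit 6) (nat_lit 132) (nat_lit 1) (nat_lit 295) (nat_lit 193) (nat_lit 292))) (PT.nd (nat_lit 78) (PT.lf (nat_lit 10336) (nat_lit 6) (nat_lit 136) (nat_lit 3) (nat_lit 291) (nat_lit 194) (nat_lit 295)) (PT.lf (nat_lit 10412) (nat_lit 6) (nat_lit 137) (nat_lit 3) (nat_lit 292) (nat_lit 194) (nat_lit 294)))))) (PT.nd (nat_lit 162162) (PT.nd (nat_lit 81042) (PT.nd (nat_lit 78) (PT.lf (nat_lit 10488) (nat_lit 3) (nat_lit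 138) (nat_lit 1) (nat_lit 293) (nat_lit 194) (nat_lit 293)) (PT.nd (nat_lit 78) (PT.lf (nat_lit 10412) (nat_lit 6) (nat_lit 137) (nat_lit 1) (nat_lit 294) (nat_lit 194) (nat_lit 292)) (PT.lf (nat_lit 10336) (nat_lit 6) (nat_lit 136) (nat_lit 1) (nat_lit 295) (nat_lit 194) (nat_lit 291)))) (PT.nd (nat_lit 156) (PT.nd (nat_lit 78) (PT.lf (nat_lit 10792) (nat_lit 6) (nat_lit 142) (nat_lit 3) (nat_lit 291) (nat_lit 195) (nat_lit 294)) (PT.lf (nat_lit 10868) (nat_lit 6) (nat_lit 143) (nat_lit 3) (nat_lit 292) (nat_lit 195) (nat_lit 293))) (PT.nd (nat_lit 78) (PT.lf (nat_lit 10868) (nat_lit 6) (nat_lit 143) (nat_lit 1) (nat_lit 293) (nat_lit 195) (nat_lit 292)) (PT.lf (nat_lit 10792) (nat_lit 6) (nat_lit 142) (nat_lit 1) (nat_lit 294) (nat_lit 195) (nat_lit 291))))) (PT.nd (nat_lit 234) (PT.nd (nat_lit 78) (PT.lf (nat_lit 11096) (nat_lit 6) (nat_lit 146) (nat_lit 3) (nat_lit 290) (nat_lit 196) (nat_lit 294)) (PT.nd (nat_lit 78) (PT.lf (nat_lit 11172) (nat_lit 6) (nat_lit 147) (nat_lit 3) (nat_lit 291) (nat_lit 196) (nat_lit 293)) (PT.lf (nat_lit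 11248) (nat_lit 3) (nat_lit 148) (nat_lit 1) (nat_lit 292) (nat_lit 196) (nat_lit 292)))) (PT.nd (nat_lit 80886) (PT.nd (nat_lit 78) (PT.lf (nat_lit 11172) (nat_lit 6) (nat_lit 147) (nat_lit 1) (nat_lit 293) (nat_lit 196) (nat_lit 291)) (PT.lf (nat_lit 11096) (nat_lit 6) (nat_lit 146) (nat_lit 1) (nat_lit 294) (nat_lit 196) (nat_lit 290))) (PT.nd (nat_lit 78) (PT.lf (nat_lit 11476) (nat_lit 6) (nat_lit 151) (nat_lit 3) (nat_lit 289) (nat_lit 197) (nat_lit 294)) (PT.lf (nat_lit 11552) (nat_lit 6) (nat_lit 152) (nat_lit 3) (nat_lit 290) (nat_lit 197) (nat_lit 293))))))) (PT.nd (nat_lit 162552) (PT.nd (nat_lit 81276) (PT.nd (nat_lit 234) (PT.nd (nat_lit 78) (PT.lf (nat_lit 11628) (nat_lit 6) (nat_lit 153) (nat_lit 3) (nat_lit 291) (nat_lit 197) (nat_lit 292)) (PT.nd (nat_lit 78) (PT.lf (nat_lit 11628) (nat_lit 6) (nat_lit 153) (nat_lit 1) (nat_lit 292) (nat_lit 197) (nat_lit 291)) (PT.lf (nat_lit 11552) (nat_lit 6) (nat_lit 152) (nat_lit 1) (nat_lit 293) (nat_lit 197) (nat_lit 290)))) (PT.nd (nat_lit 80886) (PT.nd (nat_lit 80808) (PT.lf (nat_lit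 11476) (nat_lit 6) (nat_lit 151) (nat_lit 1) (nat_lit 294) (nat_lit 197) (nat_lit 289)) (PT.lf (nat_lit 11856) (nat_lit 6) (nat_lit 156) (nat_lit 3) (nat_lit 289) (nat_lit 198) (nat_lit 293))) (PT.nd (nat_lit 78) (PT.lf (nat_lit 11932) (nat_lit 6) (nat_lit 157) (nat_lit 3) (nat_lit 290) (nat_lit 198) (nat_lit 292)) (PT.lf (nat_lit 12008) (nat_lit 3) (nat_lit 158) (nat_lit 1) (nat_lit 291) (nat_lit 198) (nat_lit 291))))) (PT.nd (nat_lit 80964) (PT.nd (nat_lit 78) (PT.lf (nat_lit 11932) (nat_lit 6) (nat_lit 157) (nat_lit 1) (nat_lit 292) (nat_lit 198) (nat_lit 290)) (PT.nd (nat_lit 80808) (PT.lf (nat_lit 11856) (nat_lit 6) (nat_lit 156) (nat_lit 1) (nat_lit 293) (nat_lit 198) (nat_lit 289)) (PT.lf (nat_lit 12236) (nat_lit 6) (nat_lit 161) (nat_lit 3) (nat_lit 288) (nat_lit 199) (nat_lit 293)))) (PT.nd (nat_lit 156) (PT.nd (nat_lit 78) (PT.lf (nat_lit 12312) (nat_lit 6) (nat_lit 162) (nat_lit 3) (nat_lit 289) (nat_lit 199) (nat_lit 292)) (PT.lf (nat_lit 12388) (nat_lit 6) (nat_lit 163) (nat_lit 3) (nat_lit 290) (nat_lit 199) (nat_lit 291)))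 (PT.nd (nat_lit 78) (PT.lf (nat_lit 12388) (nat_lit 6) (nat_lit 163) (nat_lit 1) (nat_lit 291) (nat_lit 199) (nat_lit 290)) (PT.lf (nat_lit 12312) (nat_lit 6) (nat_lit 162) (nat_lit 1) (nat_lit 292) (nat_lit 199) (nat_lit 289)))))) (PT.nd (nat_lit 81198) (PT.nd (nat_lit 80886) (PT.nd (nat_lit 80730) (PT.lf (nat_lit 12236) (nat_lit 6) (nat_lit 161) (nat_lit 1) (nat_lit 293) (nat_lit 199) (nat_lit 288)) (PT.nd (nat_lit 78) (PT.lf (nat_lit 12616) (nat_lit 6) (nat_lit 166) (nat_lit 3) (nat_lit 287) (nat_lit 200) (nat_lit 293)) (PT.lf (nat_lit 12692) (nat_lit 6) (nat_lit 167) (nat_lit 3) (nat_lit 288) (nat_lit 200) (nat_lit 292)))) (PT.nd (nat_lit 156) (PT.nd (nat_lit 78) (PT.lf (nat_lit 12768) (nat_lit 6) (nat_lit 168) (nat_lit 3) (nat_lit 289) (nat_lit 200) (nat_lit 291)) (PT.lf (nat_lit 12844) (nat_lit 3) (nat_lit 169) (nat_lit 1) (nat_lit 290) (nat_lit 200) (nat_lit 290))) (PT.nd (nat_lit 78) (PT.lf (nat_lit 12768) (nat_lit 6) (nat_lit 168) (nat_lit 1) (nat_lit 291) (nat_lit 200) (nat_lit 289)) (PT.lf (nat_lit 12692) (nat_lit 6) (nat_lit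 167) (nat_lit 1) (nat_lit 292) (nat_lit 200) (nat_lit 288))))) (PT.nd (nat_lit 80964) (PT.nd (nat_lit 80808) (PT.nd (nat_lit 80730) (PT.lf (nat_lit 12616) (nat_lit 6) (nat_lit 166) (nat_lit 1) (nat_lit 293) (nat_lit 200) (nat_lit 287)) (PT.lf (nat_lit 13072) (nat_lit 6) (nat_lit 172) (nat_lit 3) (nat_lit 287) (nat_lit 201) (nat_lit 292))) (PT.nd (nat_lit 78) (PT.lf (nat_lit 13148) (nat_lit 6) (nat_lit 173) (nat_lit 3) (nat_lit 288) (nat_lit 201) (nat_lit 291)) (PT.lf (nat_lit 13224) (nat_lit 6) (nat_lit 174) (nat_lit 3) (nat_lit 289) (nat_lit 201) (nat_lit 290)))) (PT.nd (nat_lit 156) (PT.nd (nat_lit 78) (PT.lf (nat_lit 13224) (nat_lit 6) (nat_lit 174) (nat_lit 1) (nat_lit 290) (nat_lit 201) (nat_lit 289)) (PT.lf (nat_lit 13148) (nat_lit 6) (nat_lit 173) (nat_lit 1) (nat_lit 291) (nat_lit 201) (nat_lit 288))) (PT.nd (nat_lit 80652) (PT.lf (nat_lit 13072) (nat_lit 6) (nat_lit 172) (nat_lit 1) (nat_lit 292) (nat_lit 201) (nat_lit 287)) (PT.lf (nat_lit 13376) (nat_lit 6) (nat_lit 176) (nat_lit 3) (nat_lit 285) (nat_lit 202) (nat_lit 293))))))))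
noncomputable def pc1 : PT := (PT.nd (nat_lit 243282) (PT.nd (nat_lit 81510) (PT.nd (nat_lit 546) (PT.nd (nat_lit 234) (PT.nd (nat_lit 78) (PT.lf (nat_lit 13452) (nat_lit 6) (nat_lit 177) (nat_lit 3) (nat_lit 286) (nat_lit 202) (nat_lit 292)) (PT.nd (nat_lit 78) (PT.lf (nat_lit 13528) (nat_lit 6) (nat_lit 178) (nat_lit 3) (nat_lit 287) (nat_lit 202) (nat_lit 291)) (PT.lf (nat_lit 13604) (nat_lit 6) (nat_lit 179) (nat_lit 3) (nat_lit 288) (nat_lit 202) (nat_lit 290)))) (PT.nd (nat_lit 156) (PT.nd (nat_lit 78) (PT.lf (nat_lit 13680) (nat_lit 3) (nat_lit 180) (nat_lit 1) (nat_lit 289) (nat_lit 202) (nat_lit 289)) (PT.lf (nat_lit 13604) (nat_lit 6) (nat_lit 179) (nat_lit 1) (nat_lit 290) (nat_lit 202) (nat_lit 288))) (PT.nd (nat_lit 78) (PT.lf (nat_lit 13528) (nat_lit 6) (nat_lit 178) (nat_lit 1) (nat_lit 291) (nat_lit 202) (nat_lit 287)) (PT.lf (nat_lit 13452) (nat_lit 6) (nat_lit 177) (nat_lit 1) (nat_lit 292) (nat_lit 202) (nat_lit 286))))) (PT.nd (nat_lit 80652) (PT.nd (nat_lit 80496) (PT.lf (nat_lit 13376) (nat_lit 6) (nat_lit 176) (nat_lit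 1) (nat_lit 293) (nat_lit 202) (nat_lit 285)) (PT.nd (nat_lit 78) (PT.lf (nat_lit 13756) (nat_lit 6) (nat_lit 181) (nat_lit 3) (nat_lit 284) (nat_lit 203) (nat_lit 293)) (PT.lf (nat_lit 13832) (nat_lit 6) (nat_lit 182) (nat_lit 3) (nat_lit 285) (nat_lit 203) (nat_lit 292)))) (PT.nd (nat_lit 156) (PT.nd (nat_lit 78) (PT.lf (nat_lit 13908) (nat_lit 6) (nat_lit 183) (nat_lit 3) (nat_lit 286) (nat_lit 203) (nat_lit 291)) (PT.lf (nat_lit 13984) (nat_lit 6) (nat_lit 184) (nat_lit 3) (nat_lit 287) (nat_lit 203) (nat_lit 290))) (PT.nd (nat_lit 78) (PT.lf (nat_lit 14060) (nat_lit 6) (nat_lit 185) (nat_lit 3) (nat_lit 288) (nat_lit 203) (nat_lit 289)) (PT.lf (nat_lit 14060) (nat_lit 6) (nat_lit 185) (nat_lit 1) (nat_lit 289) (nat_lit 203) (nat_lit 288)))))) (PT.nd (nat_lit 80886) (PT.nd (nat_lit 234) (PT.nd (nat_lit 78) (PT.lf (nat_lit 13984) (nat_lit 6) (nat_lit 184) (nat_lit 1) (nat_lit 290) (nat_lit 203) (nat_lit 287)) (PT.nd (nat_lit 78) (PT.lf (nat_lit 13908) (nat_lit 6) (nat_lit 183) (nat_lit 1) (nat_lit 291) (nat_lit 203) (nat_lit 286)) (PT.lf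 (nat_lit 13832) (nat_lit 6) (nat_lit 182) (nat_lit 1) (nat_lit 292) (nat_lit 203) (nat_lit 285)))) (PT.nd (nat_lit 80496) (PT.nd (nat_lit 80418) (PT.lf (nat_lit 13756) (nat_lit 6) (nat_lit 181) (nat_lit 1) (nat_lit 293) (nat_lit 203) (nat_lit 284)) (PT.lf (nat_lit 14136) (nat_lit 6) (nat_lit 186) (nat_lit 3) (nat_lit 283) (nat_lit 204) (nat_lit 293))) (PT.nd (nat_lit 78) (PT.lf (nat_lit 14212) (nat_lit 6) (nat_lit 187) (nat_lit 3) (nat_lit 284) (nat_lit 204) (nat_lit 292)) (PT.lf (nat_lit 14288) (nat_lit 6) (nat_lit 188) (nat_lit 3) (nat_lit 285) (nat_lit 204) (nat_lit 291))))) (PT.nd (nat_lit 312) (PT.nd (nat_lit 156) (PT.nd (nat_lit 78) (PT.lf (nat_lit 14364) (nat_lit 6) (nat_lit 189) (nat_lit 3) (nat_lit 286) (nat_lit 204) (nat_lit 290)) (PT.lf (nat_lit 14440) (nat_lit 6) (nat_lit 190) (nat_lit 3) (nat_lit 287) (nat_lit 204) (nat_lit 289))) (PT.nd (nat_lit 78) (PT.lf (nat_lit 14516) (nat_lit 3) (nat_lit 191) (nat_lit 1) (nat_lit 288) (nat_lit 204) (nat_lit 288)) (PT.lf (nat_lit 14440) (nat_lit 6) (nat_lit 190) (nat_lit 1) (nat_lit 289)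 (nat_lit 204) (nat_lit 287)))) (PT.nd (nat_lit 156) (PT.nd (nat_lit 78) (PT.lf (nat_lit 14364) (nat_lit 6) (nat_lit 189) (nat_lit 1) (nat_lit 290) (nat_lit 204) (nat_lit 286)) (PT.lf (nat_lit 14288) (nat_lit 6) (nat_lit 188) (nat_lit 1) (nat_lit 291) (nat_lit 204) (nat_lit 285))) (PT.nd (nat_lit 78) (PT.lf (nat_lit 14212) (nat_lit 6) (nat_lit 187) (nat_lit 1) (nat_lit 292) (nat_lit 204) (nat_lit 284)) (PT.lf (nat_lit 14136) (nat_lit 6) (nat_lit 186) (nat_lit 1) (nat_lit 293) (nat_lit 204) (nat_lit 283))))))) (PT.nd (nat_lit 81354) (PT.nd (nat_lit 546) (PT.nd (nat_lit 234) (PT.nd (nat_lit 78) (PT.lf (nat_lit 14592) (nat_lit 6) (nat_lit 192) (nat_lit 3) (nat_lit 282) (nat_lit 205) (nat_lit 293)) (PT.nd (nat_lit 78) (PT.lf (nat_lit 14668) (nat_lit 6) (nat_lit 193) (nat_lit 3) (nat_lit 283) (nat_lit 205) (nat_lit 292)) (PT.lf (nat_lit 14744) (nat_lit 6) (nat_lit 194) (nat_lit 3) (nat_lit 284) (nat_lit 205) (nat_lit 291)))) (PT.nd (nat_lit 156) (PT.nd (nat_lit 78) (PT.lf (nat_lit 14820) (nat_lit 6) (nat_lit 195) (nat_lit 3) (nat_lit 285) (nat_lit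 205) (nat_lit 290)) (PT.lf (nat_lit 14896) (nat_lit 6) (nat_lit 196) (nat_lit 3) (nat_lit 286) (nat_lit 205) (nat_lit 289))) (PT.nd (nat_lit 78) (PT.lf (nat_lit 14972) (nat_lit 6) (nat_lit 197) (nat_lit 3) (nat_lit 287) (nat_lit 205) (nat_lit 288)) (PT.lf (nat_lit 14972) (nat_lit 6) (nat_lit 197) (nat_lit 1) (nat_lit 288) (nat_lit 205) (nat_lit 287))))) (PT.nd (nat_lit 234) (PT.nd (nat_lit 78) (PT.lf (nat_lit 14896) (nat_lit 6) (nat_lit 196) (nat_lit 1) (nat_lit 289) (nat_lit 205) (nat_lit 286)) (PT.nd (nat_lit 78) (PT.lf (nat_lit 14820) (nat_lit 6) (nat_lit 195) (nat_lit 1) (nat_lit 290) (nat_lit 205) (nat_lit 285)) (PT.lf (nat_lit 14744) (nat_lit 6) (nat_lit 194) (nat_lit 1) (nat_lit 291) (nat_lit 205) (nat_lit 284)))) (PT.nd (nat_lit 80418) (PT.nd (nat_lit 78) (PT.lf (nat_lit 14668) (nat_lit 6) (nat_lit 193) (nat_lit 1) (nat_lit 292) (nat_lit 205) (nat_lit 283)) (PT.lf (nat_lit 14592) (nat_lit 6) (nat_lit 192) (nat_lit 1) (nat_lit 293) (nat_lit 205) (nat_lit 282))) (PT.nd (nat_lit 78) (PT.lf (nat_lit 15048) (nat_lit 6) (nat_lit 198) (nat_lit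 3) (nat_lit 282) (nat_lit 206) (nat_lit 292)) (PT.lf (nat_lit 15124) (nat_lit 6) (nat_lit 199) (nat_lit 3) (nat_lit 283) (nat_lit 206) (nat_lit 291)))))) (PT.nd (nat_lit 546) (PT.nd (nat_lit 234) (PT.nd (nat_lit 78) (PT.lf (nat_lit 15200) (nat_lit 6) (nat_lit 200) (nat_lit 3) (nat_lit 284) (nat_lit 206) (nat_lit 290)) (PT.nd (nat_lit 78) (PT.lf (nat_lit 15276) (nat_lit 6) (nat_lit 201) (nat_lit 3) (nat_lit 285) (nat_lit 206) (nat_lit 289)) (PT.lf (nat_lit 15352) (nat_lit 6) (nat_lit 202) (nat_lit 3) (nat_lit 286) (nat_lit 206) (nat_lit 288)))) (PT.nd (nat_lit 156) (PT.nd (nat_lit 78) (PT.lf (nat_lit 15428) (nat_lit 3) (nat_lit 203) (nat_lit 1) (nat_lit 287) (nat_lit 206) (nat_lit 287)) (PT.lf (nat_lit 15352) (nat_lit 6) (nat_lit 202) (nat_lit 1) (nat_lit 288) (nat_lit 206) (nat_lit 286))) (PT.nd (nat_lit 78) (PT.lf (nat_lit 15276) (nat_lit 6) (nat_lit 201) (nat_lit 1) (nat_lit 289) (nat_lit 206) (nat_lit 285)) (PT.lf (nat_lit 15200) (nat_lit 6) (nat_lit 200) (nat_lit 1) (nat_lit 290) (nat_lit 206) (nat_lit 284))))) (PT.nd (nat_lit 80574)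 (PT.nd (nat_lit 80418) (PT.nd (nat_lit 78) (PT.lf (nat_lit 15124) (nat_lit 6) (nat_lit 199) (nat_lit 1) (nat_lit 291) (nat_lit 206) (nat_lit 283)) (PT.lf (nat_lit 15048) (nat_lit 6) (nat_lit 198) (nat_lit 1) (nat_lit 292) (nat_lit 206) (nat_lit 282))) (PT.nd (nat_lit 78) (PT.lf (nat_lit 15504) (nat_lit 6) (nat_lit 204) (nat_lit 3) (nat_lit 281) (nat_lit 207) (nat_lit 292)) (PT.lf (nat_lit 15580) (nat_lit 6) (nat_lit 205) (nat_lit 3) (nat_lit 282) (nat_lit 207) (nat_lit 291)))) (PT.nd (nat_lit 156) (PT.nd (nat_lit 78) (PT.lf (nat_lit 15656) (nat_lit 6) (nat_lit 206) (nat_lit 3) (nat_lit 283) (nat_lit 207) (nat_lit 290)) (PT.lf (nat_lit 15732) (nat_lit 6) (nat_lit 207) (nat_lit 3) (nat_lit 284) (nat_lit 207) (nat_lit 289))) (PT.nd (nat_lit 78) (PT.lf (nat_lit 15808) (nat_lit 6) (nat_lit 208) (nat_lit 3) (nat_lit 285) (nat_lit 207) (nat_lit 288)) (PT.lf (nat_lit 15884) (nat_lit 6) (nat_lit 209) (nat_lit 3) (nat_lit 286) (nat_lit 207) (nat_lit 287))))))))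
noncomputable def pc2 : PT := (PT.nd (nat_lit 162552) (PT.nd (nat_lit 81276) (PT.nd (nat_lit 80730) (PT.nd (nat_lit 234) (PT.nd (nat_lit 78) (PT.lf (nat_lit 15884) (nat_lit 6) (nat_lit 209) (nat_lit 1) (nat_lit 287) (nat_lit 207) (nat_lit 286)) (PT.nd (nat_lit 78) (PT.lf (nat_lit 15808) (nat_lit 6) (nat_lit 208) (nat_lit 1) (nat_lit 288) (nat_lit 207) (nat_lit 285)) (PT.lf (nat_lit 15732) (nat_lit 6) (nat_lit 207) (nat_lit 1) (nat_lit 289) (nat_lit 207) (nat_lit 284)))) (PT.nd (nat_lit 156) (PT.nd (nat_lit 78) (PT.lf (nat_lit 15656) (nat_lit 6) (nat_lit 206) (nat_lit 1) (nat_lit 290) (nat_lit 207) (nat_lit 283)) (PT.lf (nat_lit 15580) (nat_lit 6) (nat_lit 205) (nat_lit 1) (nat_lit 291) (nat_lit 207) (nat_lit 282))) (PT.nd (nat_lit 80262) (PT.lf (nat_lit 15504) (nat_lit 6) (nat_lit 204) (nat_lit 1) (nat_lit 292) (nat_lit 207) (nat_lit 281)) (PT.lf (nat_lit 15960) (nat_lit 6) (nat_lit 210) (nat_lit 3) (nat_lit 280) (nat_lit 208) (nat_lit 292))))) (PT.nd (nat_lit 234) (PT.nd (nat_lit 78) (PT.lf (nat_lit 16036) (nat_lit 6) (nat_lit 211) (nat_lit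 3) (nat_lit 281) (nat_lit 208) (nat_lit 291)) (PT.nd (nat_lit 78) (PT.lf (nat_lit 16112) (nat_lit 6) (nat_lit 212) (nat_lit 3) (nat_lit 282) (nat_lit 208) (nat_lit 290)) (PT.lf (nat_lit 16188) (nat_lit 6) (nat_lit 213) (nat_lit 3) (nat_lit 283) (nat_lit 208) (nat_lit 289)))) (PT.nd (nat_lit 156) (PT.nd (nat_lit 78) (PT.lf (nat_lit 16264) (nat_lit 6) (nat_lit 214) (nat_lit 3) (nat_lit 284) (nat_lit 208) (nat_lit 288)) (PT.lf (nat_lit 16340) (nat_lit 6) (nat_lit 215) (nat_lit 3) (nat_lit 285) (nat_lit 208) (nat_lit 287))) (PT.nd (nat_lit 78) (PT.lf (nat_lit 16416) (nat_lit 3) (nat_lit 216) (nat_lit 1) (nat_lit 286) (nat_lit 208) (nat_lit 286)) (PT.lf (nat_lit 16340) (nat_lit 6) (nat_lit 215) (nat_lit 1) (nat_lit 287) (nat_lit 208) (nat_lit 285)))))) (PT.nd (nat_lit 80730) (PT.nd (nat_lit 234) (PT.nd (nat_lit 78) (PT.lf (nat_lit 16264) (nat_lit 6) (nat_lit 214) (nat_lit 1) (nat_lit 288) (nat_lit 208) (nat_lit 284)) (PT.nd (nat_lit 78) (PT.lf (nat_lit 16188) (nat_lit 6) (nat_lit 213) (nat_lit 1) (nat_lit 289) (nat_lit 208) (nat_lit 283)) (PT.lf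 (nat_lit 16112) (nat_lit 6) (nat_lit 212) (nat_lit 1) (nat_lit 290) (nat_lit 208) (nat_lit 282)))) (PT.nd (nat_lit 80340) (PT.nd (nat_lit 78) (PT.lf (nat_lit 16036) (nat_lit 6) (nat_lit 211) (nat_lit 1) (nat_lit 291) (nat_lit 208) (nat_lit 281)) (PT.lf (nat_lit 15960) (nat_lit 6) (nat_lit 210) (nat_lit 1) (nat_lit 292) (nat_lit 208) (nat_lit 280))) (PT.nd (nat_lit 78) (PT.lf (nat_lit 16492) (nat_lit 6) (nat_lit 217) (nat_lit 3) (nat_lit 280) (nat_lit 209) (nat_lit 291)) (PT.lf (nat_lit 16568) (nat_lit 6) (nat_lit 218) (nat_lit 3) (nat_lit 281) (nat_lit 209) (nat_lit 290))))) (PT.nd (nat_lit 234) (PT.nd (nat_lit 78) (PT.lf (nat_lit 16644) (nat_lit 6) (nat_lit 219) (nat_lit 3) (nat_lit 282) (nat_lit 209) (nat_lit 289)) (PT.nd (nat_lit 78) (PT.lf (nat_lit 16720) (nat_lit 6) (nat_lit 220) (nat_lit 3) (nat_lit 283) (nat_lit 209) (nat_lit 288)) (PT.lf (nat_lit 16796) (nat_lit 6) (nat_lit 221) (nat_lit 3) (nat_lit 284) (nat_lit 209) (nat_lit 287)))) (PT.nd (nat_lit 156) (PT.nd (nat_lit 78) (PT.lf (nat_lit 16872) (nat_lit 6) (nat_lit 222) (nat_lit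 3) (nat_lit 285) (nat_lit 209) (nat_lit 286)) (PT.lf (nat_lit 16872) (nat_lit 6) (nat_lit 222) (nat_lit 1) (nat_lit 286) (nat_lit 209) (nat_lit 285))) (PT.nd (nat_lit 78) (PT.lf (nat_lit 16796) (nat_lit 6) (nat_lit 221) (nat_lit 1) (nat_lit 287) (nat_lit 209) (nat_lit 284)) (PT.lf (nat_lit 16720) (nat_lit 6) (nat_lit 220) (nat_lit 1) (nat_lit 288) (nat_lit 209) (nat_lit 283))))))) (PT.nd (nat_lit 81276) (PT.nd (nat_lit 80730) (PT.nd (nat_lit 80418) (PT.nd (nat_lit 78) (PT.lf (nat_lit 16644) (nat_lit 6) (nat_lit 219) (nat_lit 1) (nat_lit 289) (nat_lit 209) (nat_lit 282)) (PT.nd (nat_lit 78) (PT.lf (nat_lit 16568) (nat_lit 6) (nat_lit 218) (nat_lit 1) (nat_lit 290) (nat_lit 209) (nat_lit 281)) (PT.lf (nat_lit 16492) (nat_lit 6) (nat_lit 217) (nat_lit 1) (nat_lit 291) (nat_lit 209) (nat_lit 280)))) (PT.nd (nat_lit 156) (PT.nd (nat_lit 78) (PT.lf (nat_lit 16948) (nat_lit 6) (nat_lit 223) (nat_lit 3) (nat_lit 279) (nat_lit 210) (nat_lit 291)) (PT.lf (nat_lit 17024) (nat_lit 6) (nat_lit 224) (nat_lit 3) (nat_lit 280) (nat_lit 210) (nat_lit 290)))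 (PT.nd (nat_lit 78) (PT.lf (nat_lit 17100) (nat_lit 6) (nat_lit 225) (nat_lit 3) (nat_lit 281) (nat_lit 210) (nat_lit 289)) (PT.lf (nat_lit 17176) (nat_lit 6) (nat_lit 226) (nat_lit 3) (nat_lit 282) (nat_lit 210) (nat_lit 288))))) (PT.nd (nat_lit 234) (PT.nd (nat_lit 78) (PT.lf (nat_lit 17252) (nat_lit 6) (nat_lit 227) (nat_lit 3) (nat_lit 283) (nat_lit 210) (nat_lit 287)) (PT.nd (nat_lit 78) (PT.lf (nat_lit 17328) (nat_lit 6) (nat_lit 228) (nat_lit 3) (nat_lit 284) (nat_lit 210) (nat_lit 286)) (PT.lf (nat_lit 17404) (nat_lit 3) (nat_lit 229) (nat_lit 1) (nat_lit 285) (nat_lit 210) (nat_lit 285)))) (PT.nd (nat_lit 156) (PT.nd (nat_lit 78) (PT.lf (nat_lit 17328) (nat_lit 6) (nat_lit 228) (nat_lit 1) (nat_lit 286) (nat_lit 210) (nat_lit 284)) (PT.lf (nat_lit 17252) (nat_lit 6) (nat_lit 227) (nat_lit 1) (nat_lit 287) (nat_lit 210) (nat_lit 283))) (PT.nd (nat_lit 78) (PT.lf (nat_lit 17176) (nat_lit 6) (nat_lit 226) (nat_lit 1) (nat_lit 288) (nat_lit 210) (nat_lit 282)) (PT.lf (nat_lit 17100) (nat_lit 6) (nat_lit 225) (nat_lit 1) (nat_lit 289)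 (nat_lit 210) (nat_lit 281)))))) (PT.nd (nat_lit 80652) (PT.nd (nat_lit 80340) (PT.nd (nat_lit 78) (PT.lf (nat_lit 17024) (nat_lit 6) (nat_lit 224) (nat_lit 1) (nat_lit 290) (nat_lit 210) (nat_lit 280)) (PT.nd (nat_lit 80184) (PT.lf (nat_lit 16948) (nat_lit 6) (nat_lit 223) (nat_lit 1) (nat_lit 291) (nat_lit 210) (nat_lit 279)) (PT.lf (nat_lit 17480) (nat_lit 6) (nat_lit 230) (nat_lit 3) (nat_lit 278) (nat_lit 211) (nat_lit 291)))) (PT.nd (nat_lit 156) (PT.nd (nat_lit 78) (PT.lf (nat_lit 17556) (nat_lit 6) (nat_lit 231) (nat_lit 3) (nat_lit 279) (nat_lit 211) (nat_lit 290)) (PT.lf (nat_lit 17632) (nat_lit 6) (nat_lit 232) (nat_lit 3) (nat_lit 280) (nat_lit 211) (nat_lit 289))) (PT.nd (nat_lit 78) (PT.lf (nat_lit 17708) (nat_lit 6) (nat_lit 233) (nat_lit 3) (nat_lit 281) (nat_lit 211) (nat_lit 288)) (PT.lf (nat_lit 17784) (nat_lit 6) (nat_lit 234) (nat_lit 3) (nat_lit 282) (nat_lit 211) (nat_lit 287))))) (PT.nd (nat_lit 312) (PT.nd (nat_lit 156) (PT.nd (nat_lit 78) (PT.lf (nat_lit 17860) (nat_lit 6) (nat_lit 235) (nat_lit 3) (nat_lit 283)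 (nat_lit 211) (nat_lit 286)) (PT.lf (nat_lit 17936) (nat_lit 6) (nat_lit 236) (nat_lit 3) (nat_lit 284) (nat_lit 211) (nat_lit 285))) (PT.nd (nat_lit 78) (PT.lf (nat_lit 17936) (nat_lit 6) (nat_lit 236) (nat_lit 1) (nat_lit 285) (nat_lit 211) (nat_lit 284)) (PT.lf (nat_lit 17860) (nat_lit 6) (nat_lit 235) (nat_lit 1) (nat_lit 286) (nat_lit 211) (nat_lit 283)))) (PT.nd (nat_lit 156) (PT.nd (nat_lit 78) (PT.lf (nat_lit 17784) (nat_lit 6) (nat_lit 234) (nat_lit 1) (nat_lit 287) (nat_lit 211) (nat_lit 282)) (PT.lf (nat_lit 17708) (nat_lit 6) (nat_lit 233) (nat_lit 1) (nat_lit 288) (nat_lit 211) (nat_lit 281))) (PT.nd (nat_lit 78) (PT.lf (nat_lit 17632) (nat_lit 6) (nat_lit 232) (nat_lit 1) (nat_lit 289) (nat_lit 211) (nat_lit 280)) (PT.lf (nat_lit 17556) (nat_lit 6) (nat_lit 231) (nat_lit 1) (nat_lit 290) (nat_lit 211) (nat_lit 279))))))))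
noncomputable def pc3 : PT := (PT.nd (nat_lit 242502) (PT.nd (nat_lit 161304) (PT.nd (nat_lit 80652) (PT.nd (nat_lit 80340) (PT.nd (nat_lit 80184) (PT.lf (nat_lit 17480) (nat_lit 6) (nat_lit 230) (nat_lit 1) (nat_lit 291) (nat_lit 211) (nat_lit 278)) (PT.nd (nat_lit 78) (PT.lf (nat_lit 18012) (nat_lit 6) (nat_lit 237) (nat_lit 3) (nat_lit 278) (nat_lit 212) (nat_lit 290)) (PT.lf (nat_lit 18088) (nat_lit 6) (nat_lit 238) (nat_lit 3) (nat_lit 279) (nat_lit 212) (nat_lit 289)))) (PT.nd (nat_lit 156) (PT.nd (nat_lit 78) (PT.lf (nat_lit 18164) (nat_lit 6) (nat_lit 239) (nat_lit 3) (nat_lit 280) (nat_lit 212) (nat_lit 288)) (PT.lf (nat_lit 18240) (nat_lit 6) (nat_lit 240) (nat_lit 3) (nat_lit 281) (nat_lit 212) (nat_lit 287))) (PT.nd (nat_lit 78) (PT.lf (nat_lit 18316) (nat_lit 6) (nat_lit 241) (nat_lit 3) (nat_lit 282) (nat_lit 212) (nat_lit 286)) (PT.lf (nat_lit 18392) (nat_lit 6) (nat_lit 242) (nat_lit 3) (nat_lit 283) (nat_lit 212) (nat_lit 285))))) (PT.nd (nat_lit 234) (PT.nd (nat_lit 78) (PT.lf (nat_lit 18468) (nat_lit 3) (nat_lit 243) (nat_lit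 1) (nat_lit 284) (nat_lit 212) (nat_lit 284)) (PT.nd (nat_lit 78) (PT.lf (nat_lit 18392) (nat_lit 6) (nat_lit 242) (nat_lit 1) (nat_lit 285) (nat_lit 212) (nat_lit 283)) (PT.lf (nat_lit 18316) (nat_lit 6) (nat_lit 241) (nat_lit 1) (nat_lit 286) (nat_lit 212) (nat_lit 282)))) (PT.nd (nat_lit 156) (PT.nd (nat_lit 78) (PT.lf (nat_lit 18240) (nat_lit 6) (nat_lit 240) (nat_lit 1) (nat_lit 287) (nat_lit 212) (nat_lit 281)) (PT.lf (nat_lit 18164) (nat_lit 6) (nat_lit 239) (nat_lit 1) (nat_lit 288) (nat_lit 212) (nat_lit 280))) (PT.nd (nat_lit 78) (PT.lf (nat_lit 18088) (nat_lit 6) (nat_lit 238) (nat_lit 1) (nat_lit 289) (nat_lit 212) (nat_lit 279)) (PT.lf (nat_lit 18012) (nat_lit 6) (nat_lit 237) (nat_lit 1) (nat_lit 290) (nat_lit 212) (nat_lit 278)))))) (PT.nd (nat_lit 546) (PT.nd (nat_lit 234) (PT.nd (nat_lit 78) (PT.lf (nat_lit 18544) (nat_lit 6) (nat_lit 244) (nat_lit 3) (nat_lit 277) (nat_lit 213) (nat_lit 290)) (PT.nd (nat_lit 78) (PT.lf (nat_lit 18620) (nat_lit 6) (nat_lit 245) (nat_lit 3) (nat_lit 278) (nat_lit 213) (nat_lit 289)) (PT.lf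 (nat_lit 18696) (nat_lit 6) (nat_lit 246) (nat_lit 3) (nat_lit 279) (nat_lit 213) (nat_lit 288)))) (PT.nd (nat_lit 156) (PT.nd (nat_lit 78) (PT.lf (nat_lit 18772) (nat_lit 6) (nat_lit 247) (nat_lit 3) (nat_lit 280) (nat_lit 213) (nat_lit 287)) (PT.lf (nat_lit 18848) (nat_lit 6) (nat_lit 248) (nat_lit 3) (nat_lit 281) (nat_lit 213) (nat_lit 286))) (PT.nd (nat_lit 78) (PT.lf (nat_lit 18924) (nat_lit 6) (nat_lit 249) (nat_lit 3) (nat_lit 282) (nat_lit 213) (nat_lit 285)) (PT.lf (nat_lit 19000) (nat_lit 6) (nat_lit 250) (nat_lit 3) (nat_lit 283) (nat_lit 213) (nat_lit 284))))) (PT.nd (nat_lit 312) (PT.nd (nat_lit 156) (PT.nd (nat_lit 78) (PT.lf (nat_lit 19000) (nat_lit 6) (nat_lit 250) (nat_lit 1) (nat_lit 284) (nat_lit 213) (nat_lit 283)) (PT.lf (nat_lit 18924) (nat_lit 6) (nat_lit 249) (nat_lit 1) (nat_lit 285) (nat_lit 213) (nat_lit 282))) (PT.nd (nat_lit 78) (PT.lf (nat_lit 18848) (nat_lit 6) (nat_lit 248) (nat_lit 1) (nat_lit 286) (nat_lit 213) (nat_lit 281)) (PT.lf (nat_lit 18772) (nat_lit 6) (nat_lit 247) (nat_lit 1) (nat_lit 287) (nat_lit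 213) (nat_lit 280)))) (PT.nd (nat_lit 156) (PT.nd (nat_lit 78) (PT.lf (nat_lit 18696) (nat_lit 6) (nat_lit 246) (nat_lit 1) (nat_lit 288) (nat_lit 213) (nat_lit 279)) (PT.lf (nat_lit 18620) (nat_lit 6) (nat_lit 245) (nat_lit 1) (nat_lit 289) (nat_lit 213) (nat_lit 278))) (PT.nd (nat_lit 80106) (PT.lf (nat_lit 18544) (nat_lit 6) (nat_lit 244) (nat_lit 1) (nat_lit 290) (nat_lit 213) (nat_lit 277)) (PT.lf (nat_lit 19076) (nat_lit 6) (nat_lit 251) (nat_lit 3) (nat_lit 276) (nat_lit 214) (nat_lit 290))))))) (PT.nd (nat_lit 81120) (PT.nd (nat_lit 546) (PT.nd (nat_lit 234) (PT.nd (nat_lit 78) (PT.lf (nat_lit 19152) (nat_lit 6) (nat_lit 252) (nat_lit 3) (nat_lit 277) (nat_lit 214) (nat_lit 289)) (PT.nd (nat_lit 78) (PT.lf (nat_lit 19228) (nat_lit 6) (nat_lit 253) (nat_lit 3) (nat_lit 278) (nat_lit 214) (nat_lit 288)) (PT.lf (nat_lit 19304) (nat_lit 6) (nat_lit 254) (nat_lit 3) (nat_lit 279) (nat_lit 214) (nat_lit 287)))) (PT.nd (nat_lit 156) (PT.nd (nat_lit 78) (PT.lf (nat_lit 19380) (nat_lit 6) (nat_lit 255) (nat_lit 3) (nat_lit 280) (nat_lit 214)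 (nat_lit 286)) (PT.lf (nat_lit 19456) (nat_lit 6) (nat_lit 256) (nat_lit 3) (nat_lit 281) (nat_lit 214) (nat_lit 285))) (PT.nd (nat_lit 78) (PT.lf (nat_lit 19532) (nat_lit 6) (nat_lit 257) (nat_lit 3) (nat_lit 282) (nat_lit 214) (nat_lit 284)) (PT.lf (nat_lit 19608) (nat_lit 3) (nat_lit 258) (nat_lit 1) (nat_lit 283) (nat_lit 214) (nat_lit 283))))) (PT.nd (nat_lit 234) (PT.nd (nat_lit 78) (PT.lf (nat_lit 19532) (nat_lit 6) (nat_lit 257) (nat_lit 1) (nat_lit 284) (nat_lit 214) (nat_lit 282)) (PT.nd (nat_lit 78) (PT.lf (nat_lit 19456) (nat_lit 6) (nat_lit 256) (nat_lit 1) (nat_lit 285) (nat_lit 214) (nat_lit 281)) (PT.lf (nat_lit 19380) (nat_lit 6) (nat_lit 255) (nat_lit 1) (nat_lit 286) (nat_lit 214) (nat_lit 280)))) (PT.nd (nat_lit 156) (PT.nd (nat_lit 78) (PT.lf (nat_lit 19304) (nat_lit 6) (nat_lit 254) (nat_lit 1) (nat_lit 287) (nat_lit 214) (nat_lit 279)) (PT.lf (nat_lit 19228) (nat_lit 6) (nat_lit 253) (nat_lit 1) (nat_lit 288) (nat_lit 214) (nat_lit 278))) (PT.nd (nat_lit 78) (PT.lf (nat_lit 19152) (nat_lit 6) (nat_lit 252) (nat_lit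 1) (nat_lit 289) (nat_lit 214) (nat_lit 277)) (PT.lf (nat_lit 19076) (nat_lit 6) (nat_lit 251) (nat_lit 1) (nat_lit 290) (nat_lit 214) (nat_lit 276)))))) (PT.nd (nat_lit 546) (PT.nd (nat_lit 234) (PT.nd (nat_lit 78) (PT.lf (nat_lit 19684) (nat_lit 6) (nat_lit 259) (nat_lit 3) (nat_lit 276) (nat_lit 215) (nat_lit 289)) (PT.nd (nat_lit 78) (PT.lf (nat_lit 19760) (nat_lit 6) (nat_lit 260) (nat_lit 3) (nat_lit 277) (nat_lit 215) (nat_lit 288)) (PT.lf (nat_lit 19836) (nat_lit 6) (nat_lit 261) (nat_lit 3) (nat_lit 278) (nat_lit 215) (nat_lit 287)))) (PT.nd (nat_lit 156) (PT.nd (nat_lit 78) (PT.lf (nat_lit 19912) (nat_lit 6) (nat_lit 262) (nat_lit 3) (nat_lit 279) (nat_lit 215) (nat_lit 286)) (PT.lf (nat_lit 19988) (nat_lit 6) (nat_lit 263) (nat_lit 3) (nat_lit 280) (nat_lit 215) (nat_lit 285))) (PT.nd (nat_lit 78) (PT.lf (nat_lit 20064) (nat_lit 6) (nat_lit 264) (nat_lit 3) (nat_lit 281) (nat_lit 215) (nat_lit 284)) (PT.lf (nat_lit 20140) (nat_lit 6) (nat_lit 265) (nat_lit 3) (nat_lit 282) (nat_lit 215) (nat_lit 283))))) (PT.nd (nat_lit 312) (PT.nd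 (nat_lit 156) (PT.nd (nat_lit 78) (PT.lf (nat_lit 20140) (nat_lit 6) (nat_lit 265) (nat_lit 1) (nat_lit 283) (nat_lit 215) (nat_lit 282)) (PT.lf (nat_lit 20064) (nat_lit 6) (nat_lit 264) (nat_lit 1) (nat_lit 284) (nat_lit 215) (nat_lit 281))) (PT.nd (nat_lit 78) (PT.lf (nat_lit 19988) (nat_lit 6) (nat_lit 263) (nat_lit 1) (nat_lit 285) (nat_lit 215) (nat_lit 280)) (PT.lf (nat_lit 19912) (nat_lit 6) (nat_lit 262) (nat_lit 1) (nat_lit 286) (nat_lit 215) (nat_lit 279)))) (PT.nd (nat_lit 156) (PT.nd (nat_lit 78) (PT.lf (nat_lit 19836) (nat_lit 6) (nat_lit 261) (nat_lit 1) (nat_lit 287) (nat_lit 215) (nat_lit 278)) (PT.lf (nat_lit 19760) (nat_lit 6) (nat_lit 260) (nat_lit 1) (nat_lit 288) (nat_lit 215) (nat_lit 277))) (PT.nd (nat_lit 80106) (PT.lf (nat_lit 19684) (nat_lit 6) (nat_lit 259) (nat_lit 1) (nat_lit 289) (nat_lit 215) (nat_lit 276)) (PT.lf (nat_lit 20216) (nat_lit 6) (nat_lit 266) (nat_lit 3) (nat_lit 275) (nat_lit 216) (nat_lit 289))))))))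
noncomputable def pc4 : PT := (PT.nd (nat_lit 82134) (PT.nd (nat_lit 81042) (PT.nd (nat_lit 546) (PT.nd (nat_lit 234) (PT.nd (nat_lit 78) (PT.lf (nat_lit 20292) (nat_lit 6) (nat_lit 267) (nat_lit 3) (nat_lit 276) (nat_lit 216) (nat_lit 288)) (PT.nd (nat_lit 78) (PT.lf (nat_lit 20368) (nat_lit 6) (nat_lit 268) (nat_lit 3) (nat_lit 277) (nat_lit 216) (nat_lit 287)) (PT.lf (nat_lit 20444) (nat_lit 6) (nat_lit 269) (nat_lit 3) (nat_lit 278) (nat_lit 216) (nat_lit 286)))) (PT.nd (nat_lit 156) (PT.nd (nat_lit 78) (PT.lf (nat_lit 20520) (nat_lit 6) (nat_lit 270) (nat_lit 3) (nat_lit 279) (nat_lit 216) (nat_lit 285)) (PT.lf (nat_lit 20596) (nat_lit 6) (nat_lit 271) (nat_lit 3) (nat_lit 280) (nat_lit 216) (nat_lit 284))) (PT.nd (nat_lit 78) (PT.lf (nat_lit 20672) (nat_lit 6) (nat_lit 272) (nat_lit 3) (nat_lit 281) (nat_lit 216) (nat_lit 283)) (PT.lf (nat_lit 20748) (nat_lit 3) (nat_lit 273) (nat_lit 1) (nat_lit 282) (nat_lit 216) (nat_lit 282))))) (PT.nd (nat_lit 234) (PT.nd (nat_lit 78) (PT.lf (nat_lit 20672) (nat_lit 6) (nat_lit 272) (nat_lit 1)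 (nat_lit 283) (nat_lit 216) (nat_lit 281)) (PT.nd (nat_lit 78) (PT.lf (nat_lit 20596) (nat_lit 6) (nat_lit 271) (nat_lit 1) (nat_lit 284) (nat_lit 216) (nat_lit 280)) (PT.lf (nat_lit 20520) (nat_lit 6) (nat_lit 270) (nat_lit 1) (nat_lit 285) (nat_lit 216) (nat_lit 279)))) (PT.nd (nat_lit 156) (PT.nd (nat_lit 78) (PT.lf (nat_lit 20444) (nat_lit 6) (nat_lit 269) (nat_lit 1) (nat_lit 286) (nat_lit 216) (nat_lit 278)) (PT.lf (nat_lit 20368) (nat_lit 6) (nat_lit 268) (nat_lit 1) (nat_lit 287) (nat_lit 216) (nat_lit 277))) (PT.nd (nat_lit 78) (PT.lf (nat_lit 20292) (nat_lit 6) (nat_lit 267) (nat_lit 1) (nat_lit 288) (nat_lit 216) (nat_lit 276)) (PT.lf (nat_lit 20216) (nat_lit 6) (nat_lit 266) (nat_lit 1) (nat_lit 289) (nat_lit 216) (nat_lit 275)))))) (PT.nd (nat_lit 546) (PT.nd (nat_lit 234) (PT.nd (nat_lit 78) (PT.lf (nat_lit 20824) (nat_lit 6) (nat_lit 274) (nat_lit 3) (nat_lit 274) (nat_lit 217) (nat_lit 289)) (PT.nd (nat_lit 78) (PT.lf (nat_lit 20900) (nat_lit 6) (nat_lit 275) (nat_lit 3) (nat_lit 275) (nat_lit 217) (nat_lit 288)) (PT.lf (nat_lit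 20976) (nat_lit 6) (nat_lit 276) (nat_lit 3) (nat_lit 276) (nat_lit 217) (nat_lit 287)))) (PT.nd (nat_lit 156) (PT.nd (nat_lit 78) (PT.lf (nat_lit 21052) (nat_lit 6) (nat_lit 277) (nat_lit 3) (nat_lit 277) (nat_lit 217) (nat_lit 286)) (PT.lf (nat_lit 21128) (nat_lit 6) (nat_lit 278) (nat_lit 3) (nat_lit 278) (nat_lit 217) (nat_lit 285))) (PT.nd (nat_lit 78) (PT.lf (nat_lit 21204) (nat_lit 6) (nat_lit 279) (nat_lit 3) (nat_lit 279) (nat_lit 217) (nat_lit 284)) (PT.lf (nat_lit 21280) (nat_lit 6) (nat_lit 280) (nat_lit 3) (nat_lit 280) (nat_lit 217) (nat_lit 283))))) (PT.nd (nat_lit 234) (PT.nd (nat_lit 78) (PT.lf (nat_lit 21356) (nat_lit 6) (nat_lit 281) (nat_lit 3) (nat_lit 281) (nat_lit 217) (nat_lit 282)) (PT.nd (nat_lit 78) (PT.lf (nat_lit 21356) (nat_lit 6) (nat_lit 281) (nat_lit 1) (nat_lit 282) (nat_lit 217) (nat_lit 281)) (PT.lf (nat_lit 21280) (nat_lit 6) (nat_lit 280) (nat_lit 1) (nat_lit 283) (nat_lit 217) (nat_lit 280)))) (PT.nd (nat_lit 156) (PT.nd (nat_lit 78) (PT.lf (nat_lit 21204) (nat_lit 6) (nat_lit 279) (nat_lit 1) (nat_lit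 284) (nat_lit 217) (nat_lit 279)) (PT.lf (nat_lit 21128) (nat_lit 6) (nat_lit 278) (nat_lit 1) (nat_lit 285) (nat_lit 217) (nat_lit 278))) (PT.nd (nat_lit 78) (PT.lf (nat_lit 21052) (nat_lit 6) (nat_lit 277) (nat_lit 1) (nat_lit 286) (nat_lit 217) (nat_lit 277)) (PT.lf (nat_lit 20976) (nat_lit 6) (nat_lit 276) (nat_lit 1) (nat_lit 287) (nat_lit 217) (nat_lit 276))))))) (PT.nd (nat_lit 81042) (PT.nd (nat_lit 80496) (PT.nd (nat_lit 80184) (PT.nd (nat_lit 78) (PT.lf (nat_lit 20900) (nat_lit 6) (nat_lit 275) (nat_lit 1) (nat_lit 288) (nat_lit 217) (nat_lit 275)) (PT.nd (nat_lit 80028) (PT.lf (nat_lit 20824) (nat_lit 6) (nat_lit 274) (nat_lit 1) (nat_lit 289) (nat_lit 217) (nat_lit 274)) (PT.lf (nat_lit 21508) (nat_lit 6) (nat_lit 283) (nat_lit 3) (nat_lit 274) (nat_lit 218) (nat_lit 288)))) (PT.nd (nat_lit 156) (PT.nd (nat_lit 78) (PT.lf (nat_lit 21584) (nat_lit 6) (nat_lit 284) (nat_lit 3) (nat_lit 275) (nat_lit 218) (nat_lit 287)) (PT.lf (nat_lit 21660) (nat_lit 6) (nat_lit 285) (nat_lit 3) (nat_lit 276) (nat_lit 218) (nat_lit 286))) (PT.nd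 (nat_lit 78) (PT.lf (nat_lit 21736) (nat_lit 6) (nat_lit 286) (nat_lit 3) (nat_lit 277) (nat_lit 218) (nat_lit 285)) (PT.lf (nat_lit 21812) (nat_lit 6) (nat_lit 287) (nat_lit 3) (nat_lit 278) (nat_lit 218) (nat_lit 284))))) (PT.nd (nat_lit 234) (PT.nd (nat_lit 78) (PT.lf (nat_lit 21888) (nat_lit 6) (nat_lit 288) (nat_lit 3) (nat_lit 279) (nat_lit 218) (nat_lit 283)) (PT.nd (nat_lit 78) (PT.lf (nat_lit 21964) (nat_lit 6) (nat_lit 289) (nat_lit 3) (nat_lit 280) (nat_lit 218) (nat_lit 282)) (PT.lf (nat_lit 22040) (nat_lit 3) (nat_lit 290) (nat_lit 1) (nat_lit 281) (nat_lit 218) (nat_lit 281)))) (PT.nd (nat_lit 156) (PT.nd (nat_lit 78) (PT.lf (nat_lit 21964) (nat_lit 6) (nat_lit 289) (nat_lit 1) (nat_lit 282) (nat_lit 218) (nat_lit 280)) (PT.lf (nat_lit 21888) (nat_lit 6) (nat_lit 288) (nat_lit 1) (nat_lit 283) (nat_lit 218) (nat_lit 279))) (PT.nd (nat_lit 78) (PT.lf (nat_lit 21812) (nat_lit 6) (nat_lit 287) (nat_lit 1) (nat_lit 284) (nat_lit 218) (nat_lit 278)) (PT.lf (nat_lit 21736) (nat_lit 6) (nat_lit 286) (nat_lit 1) (nat_lit 285) (nat_lit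 218) (nat_lit 277)))))) (PT.nd (nat_lit 80496) (PT.nd (nat_lit 80184) (PT.nd (nat_lit 78) (PT.lf (nat_lit 21660) (nat_lit 6) (nat_lit 285) (nat_lit 1) (nat_lit 286) (nat_lit 218) (nat_lit 276)) (PT.nd (nat_lit 78) (PT.lf (nat_lit 21584) (nat_lit 6) (nat_lit 284) (nat_lit 1) (nat_lit 287) (nat_lit 218) (nat_lit 275)) (PT.lf (nat_lit 21508) (nat_lit 6) (nat_lit 283) (nat_lit 1) (nat_lit 288) (nat_lit 218) (nat_lit 274)))) (PT.nd (nat_lit 156) (PT.nd (nat_lit 78) (PT.lf (nat_lit 22116) (nat_lit 6) (nat_lit 291) (nat_lit 3) (nat_lit 273) (nat_lit 219) (nat_lit 288)) (PT.lf (nat_lit 22192) (nat_lit 6) (nat_lit 292) (nat_lit 3) (nat_lit 274) (nat_lit 219) (nat_lit 287))) (PT.nd (nat_lit 78) (PT.lf (nat_lit 22268) (nat_lit 6) (nat_lit 293) (nat_lit 3) (nat_lit 275) (nat_lit 219) (nat_lit 286)) (PT.lf (nat_lit 22344) (nat_lit 6) (nat_lit 294) (nat_lit 3) (nat_lit 276) (nat_lit 219) (nat_lit 285))))) (PT.nd (nat_lit 312) (PT.nd (nat_lit 156) (PT.nd (nat_lit 78) (PT.lf (nat_lit 22420) (nat_lit 6) (nat_lit 295) (nat_lit 3) (nat_lit 277) (nat_lit 219)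 (nat_lit 284)) (PT.lf (nat_lit 22496) (nat_lit 6) (nat_lit 296) (nat_lit 3) (nat_lit 278) (nat_lit 219) (nat_lit 283))) (PT.nd (nat_lit 78) (PT.lf (nat_lit 22572) (nat_lit 6) (nat_lit 297) (nat_lit 3) (nat_lit 279) (nat_lit 219) (nat_lit 282)) (PT.lf (nat_lit 22648) (nat_lit 6) (nat_lit 298) (nat_lit 3) (nat_lit 280) (nat_lit 219) (nat_lit 281)))) (PT.nd (nat_lit 156) (PT.nd (nat_lit 78) (PT.lf (nat_lit 22648) (nat_lit 6) (nat_lit 298) (nat_lit 1) (nat_lit 281) (nat_lit 219) (nat_lit 280)) (PT.lf (nat_lit 22572) (nat_lit 6) (nat_lit 297) (nat_lit 1) (nat_lit 282) (nat_lit 219) (nat_lit 279))) (PT.nd (nat_lit 78) (PT.lf (nat_lit 22496) (nat_lit 6) (nat_lit 296) (nat_lit 1) (nat_lit 283) (nat_lit 219) (nat_lit 278)) (PT.lf (nat_lit 22420) (nat_lit 6) (nat_lit 295) (nat_lit 1) (nat_lit 284) (nat_lit 219) (nat_lit 277))))))))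
noncomputable def pc5 : PT := (PT.nd (nat_lit 161928) (PT.nd (nat_lit 80964) (PT.nd (nat_lit 80418) (PT.nd (nat_lit 234) (PT.nd (nat_lit 78) (PT.lf (nat_lit 22344) (nat_lit 6) (nat_lit 294) (nat_lit 1) (nat_lit 285) (nat_lit 219) (nat_lit 276)) (PT.nd (nat_lit 78) (PT.lf (nat_lit 22268) (nat_lit 6) (nat_lit 293) (nat_lit 1) (nat_lit 286) (nat_lit 219) (nat_lit 275)) (PT.lf (nat_lit 22192) (nat_lit 6) (nat_lit 292) (nat_lit 1) (nat_lit 287) (nat_lit 219) (nat_lit 274)))) (PT.nd (nat_lit 80028) (PT.nd (nat_lit 79950) (PT.lf (nat_lit 22116) (nat_lit 6) (nat_lit 291) (nat_lit 1) (nat_lit 288) (nat_lit 219) (nat_lit 273)) (PT.lf (nat_lit 22724) (nat_lit 6) (nat_lit 299) (nat_lit 3) (nat_lit 272) (nat_lit 220) (nat_lit 288))) (PT.nd (nat_lit 78) (PT.lf (nat_lit 22800) (nat_lit 6) (nat_lit 300) (nat_lit 3) (nat_lit 273) (nat_lit 220) (nat_lit 287)) (PT.lf (nat_lit 22876) (nat_lit 6) (nat_lit 301) (nat_lit 3) (nat_lit 274) (nat_lit 220) (nat_lit 286))))) (PT.nd (nat_lit 234) (PT.nd (nat_lit 78) (PT.lf (nat_lit 22952) (nat_lit 6) (nat_lit 302) (nat_lit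 3) (nat_lit 275) (nat_lit 220) (nat_lit 285)) (PT.nd (nat_lit 78) (PT.lf (nat_lit 23028) (nat_lit 6) (nat_lit 303) (nat_lit 3) (nat_lit 276) (nat_lit 220) (nat_lit 284)) (PT.lf (nat_lit 23104) (nat_lit 6) (nat_lit 304) (nat_lit 3) (nat_lit 277) (nat_lit 220) (nat_lit 283)))) (PT.nd (nat_lit 156) (PT.nd (nat_lit 78) (PT.lf (nat_lit 23180) (nat_lit 6) (nat_lit 305) (nat_lit 3) (nat_lit 278) (nat_lit 220) (nat_lit 282)) (PT.lf (nat_lit 23256) (nat_lit 6) (nat_lit 306) (nat_lit 3) (nat_lit 279) (nat_lit 220) (nat_lit 281))) (PT.nd (nat_lit 78) (PT.lf (nat_lit 23332) (nat_lit 3) (nat_lit 307) (nat_lit 1) (nat_lit 280) (nat_lit 220) (nat_lit 280)) (PT.lf (nat_lit 23256) (nat_lit 6) (nat_lit 306) (nat_lit 1) (nat_lit 281) (nat_lit 220) (nat_lit 279)))))) (PT.nd (nat_lit 80340) (PT.nd (nat_lit 234) (PT.nd (nat_lit 78) (PT.lf (nat_lit 23180) (nat_lit 6) (nat_lit 305) (nat_lit 1) (nat_lit 282) (nat_lit 220) (nat_lit 278)) (PT.nd (nat_lit 78) (PT.lf (nat_lit 23104) (nat_lit 6) (nat_lit 304) (nat_lit 1) (nat_lit 283) (nat_lit 220) (nat_lit 277)) (PT.lf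 (nat_lit 23028) (nat_lit 6) (nat_lit 303) (nat_lit 1) (nat_lit 284) (nat_lit 220) (nat_lit 276)))) (PT.nd (nat_lit 156) (PT.nd (nat_lit 78) (PT.lf (nat_lit 22952) (nat_lit 6) (nat_lit 302) (nat_lit 1) (nat_lit 285) (nat_lit 220) (nat_lit 275)) (PT.lf (nat_lit 22876) (nat_lit 6) (nat_lit 301) (nat_lit 1) (nat_lit 286) (nat_lit 220) (nat_lit 274))) (PT.nd (nat_lit 78) (PT.lf (nat_lit 22800) (nat_lit 6) (nat_lit 300) (nat_lit 1) (nat_lit 287) (nat_lit 220) (nat_lit 273)) (PT.lf (nat_lit 22724) (nat_lit 6) (nat_lit 299) (nat_lit 1) (nat_lit 288) (nat_lit 220) (nat_lit 272))))) (PT.nd (nat_lit 312) (PT.nd (nat_lit 156) (PT.nd (nat_lit 78) (PT.lf (nat_lit 23408) (nat_lit 6) (nat_lit 308) (nat_lit 3) (nat_lit 271) (nat_lit 221) (nat_lit 288)) (PT.lf (nat_lit 23484) (nat_lit 6) (nat_lit 309) (nat_lit 3) (nat_lit 272) (nat_lit 221) (nat_lit 287))) (PT.nd (nat_lit 78) (PT.lf (nat_lit 23560) (nat_lit 6) (nat_lit 310) (nat_lit 3) (nat_lit 273) (nat_lit 221) (nat_lit 286)) (PT.lf (nat_lit 23636) (nat_lit 6) (nat_lit 311) (nat_lit 3) (nat_lit 274) (nat_lit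 221) (nat_lit 285)))) (PT.nd (nat_lit 156) (PT.nd (nat_lit 78) (PT.lf (nat_lit 23712) (nat_lit 6) (nat_lit 312) (nat_lit 3) (nat_lit 275) (nat_lit 221) (nat_lit 284)) (PT.lf (nat_lit 23788) (nat_lit 6) (nat_lit 313) (nat_lit 3) (nat_lit 276) (nat_lit 221) (nat_lit 283))) (PT.nd (nat_lit 78) (PT.lf (nat_lit 23864) (nat_lit 6) (nat_lit 314) (nat_lit 3) (nat_lit 277) (nat_lit 221) (nat_lit 282)) (PT.lf (nat_lit 23940) (nat_lit 6) (nat_lit 315) (nat_lit 3) (nat_lit 278) (nat_lit 221) (nat_lit 281))))))) (PT.nd (nat_lit 80886) (PT.nd (nat_lit 546) (PT.nd (nat_lit 234) (PT.nd (nat_lit 78) (PT.lf (nat_lit 24016) (nat_lit 6) (nat_lit 316) (nat_lit 3) (nat_lit 279) (nat_lit 221) (nat_lit 280)) (PT.nd (nat_lit 78) (PT.lf (nat_lit 24016) (nat_lit 6) (nat_lit 316) (nat_lit 1) (nat_lit 280) (nat_lit 221) (nat_lit 279)) (PT.lf (nat_lit 23940) (nat_lit 6) (nat_lit 315) (nat_lit 1) (nat_lit 281) (nat_lit 221) (nat_lit 278)))) (PT.nd (nat_lit 156) (PT.nd (nat_lit 78) (PT.lf (nat_lit 23864) (nat_lit 6) (nat_lit 314) (nat_lit 1) (nat_lit 282) (nat_lit 221)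 (nat_lit 277)) (PT.lf (nat_lit 23788) (nat_lit 6) (nat_lit 313) (nat_lit 1) (nat_lit 283) (nat_lit 221) (nat_lit 276))) (PT.nd (nat_lit 78) (PT.lf (nat_lit 23712) (nat_lit 6) (nat_lit 312) (nat_lit 1) (nat_lit 284) (nat_lit 221) (nat_lit 275)) (PT.lf (nat_lit 23636) (nat_lit 6) (nat_lit 311) (nat_lit 1) (nat_lit 285) (nat_lit 221) (nat_lit 274))))) (PT.nd (nat_lit 80028) (PT.nd (nat_lit 78) (PT.lf (nat_lit 23560) (nat_lit 6) (nat_lit 310) (nat_lit 1) (nat_lit 286) (nat_lit 221) (nat_lit 273)) (PT.nd (nat_lit 78) (PT.lf (nat_lit 23484) (nat_lit 6) (nat_lit 309) (nat_lit 1) (nat_lit 287) (nat_lit 221) (nat_lit 272)) (PT.lf (nat_lit 23408) (nat_lit 6) (nat_lit 308) (nat_lit 1) (nat_lit 288) (nat_lit 221) (nat_lit 271)))) (PT.nd (nat_lit 156) (PT.nd (nat_lit 78) (PT.lf (nat_lit 24092) (nat_lit 6) (nat_lit 317) (nat_lit 3) (nat_lit 271) (nat_lit 222) (nat_lit 287)) (PT.lf (nat_lit 24168) (nat_lit 6) (nat_lit 318) (nat_lit 3) (nat_lit 272) (nat_lit 222) (nat_lit 286))) (PT.nd (nat_lit 78) (PT.lf (nat_lit 24244) (nat_lit 6) (nat_lit 319) (nat_lit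 3) (nat_lit 273) (nat_lit 222) (nat_lit 285)) (PT.lf (nat_lit 24320) (nat_lit 6) (nat_lit 320) (nat_lit 3) (nat_lit 274) (nat_lit 222) (nat_lit 284)))))) (PT.nd (nat_lit 546) (PT.nd (nat_lit 234) (PT.nd (nat_lit 78) (PT.lf (nat_lit 24396) (nat_lit 6) (nat_lit 321) (nat_lit 3) (nat_lit 275) (nat_lit 222) (nat_lit 283)) (PT.nd (nat_lit 78) (PT.lf (nat_lit 24472) (nat_lit 6) (nat_lit 322) (nat_lit 3) (nat_lit 276) (nat_lit 222) (nat_lit 282)) (PT.lf (nat_lit 24548) (nat_lit 6) (nat_lit 323) (nat_lit 3) (nat_lit 277) (nat_lit 222) (nat_lit 281)))) (PT.nd (nat_lit 156) (PT.nd (nat_lit 78) (PT.lf (nat_lit 24624) (nat_lit 6) (nat_lit 324) (nat_lit 3) (nat_lit 278) (nat_lit 222) (nat_lit 280)) (PT.lf (nat_lit 24700) (nat_lit 3) (nat_lit 325) (nat_lit 1) (nat_lit 279) (nat_lit 222) (nat_lit 279))) (PT.nd (nat_lit 78) (PT.lf (nat_lit 24624) (nat_lit 6) (nat_lit 324) (nat_lit 1) (nat_lit 280) (nat_lit 222) (nat_lit 278)) (PT.lf (nat_lit 24548) (nat_lit 6) (nat_lit 323) (nat_lit 1) (nat_lit 281) (nat_lit 222) (nat_lit 277))))) (PT.nd (nat_lit 312) (PT.nd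 (nat_lit 156) (PT.nd (nat_lit 78) (PT.lf (nat_lit 24472) (nat_lit 6) (nat_lit 322) (nat_lit 1) (nat_lit 282) (nat_lit 222) (nat_lit 276)) (PT.lf (nat_lit 24396) (nat_lit 6) (nat_lit 321) (nat_lit 1) (nat_lit 283) (nat_lit 222) (nat_lit 275))) (PT.nd (nat_lit 78) (PT.lf (nat_lit 24320) (nat_lit 6) (nat_lit 320) (nat_lit 1) (nat_lit 284) (nat_lit 222) (nat_lit 274)) (PT.lf (nat_lit 24244) (nat_lit 6) (nat_lit 319) (nat_lit 1) (nat_lit 285) (nat_lit 222) (nat_lit 273)))) (PT.nd (nat_lit 79950) (PT.nd (nat_lit 78) (PT.lf (nat_lit 24168) (nat_lit 6) (nat_lit 318) (nat_lit 1) (nat_lit 286) (nat_lit 222) (nat_lit 272)) (PT.lf (nat_lit 24092) (nat_lit 6) (nat_lit 317) (nat_lit 1) (nat_lit 287) (nat_lit 222) (nat_lit 271))) (PT.nd (nat_lit 78) (PT.lf (nat_lit 24776) (nat_lit 6) (nat_lit 326) (nat_lit 3) (nat_lit 270) (nat_lit 223) (nat_lit 287)) (PT.lf (nat_lit 24852) (nat_lit 6) (nat_lit 327) (nat_lit 3) (nat_lit 271) (nat_lit 223) (nat_lit 286))))))))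
noncomputable def pc6 : PT := (PT.nd (nat_lit 81900) (PT.nd (nat_lit 1092) (PT.nd (nat_lit 546) (PT.nd (nat_lit 234) (PT.nd (nat_lit 78) (PT.lf (nat_lit 24928) (nat_lit 6) (nat_lit 328) (nat_lit 3) (nat_lit 272) (nat_lit 223) (nat_lit 285)) (PT.nd (nat_lit 78) (PT.lf (nat_lit 25004) (nat_lit 6) (nat_lit 329) (nat_lit 3) (nat_lit 273) (nat_lit 223) (nat_lit 284)) (PT.lf (nat_lit 25080) (nat_lit 6) (nat_lit 330) (nat_lit 3) (nat_lit 274) (nat_lit 223) (nat_lit 283)))) (PT.nd (nat_lit 156) (PT.nd (nat_lit 78) (PT.lf (nat_lit 25156) (nat_lit 6) (nat_lit 331) (nat_lit 3) (nat_lit 275) (nat_lit 223) (nat_lit 282)) (PT.lf (nat_lit 25232) (nat_lit 6) (nat_lit 332) (nat_lit 3) (nat_lit 276) (nat_lit 223) (nat_lit 281))) (PT.nd (nat_lit 78) (PT.lf (nat_lit 25308) (nat_lit 6) (nat_lit 333) (nat_lit 3) (nat_lit 277) (nat_lit 223) (nat_lit 280)) (PT.lf (nat_lit 25384) (nat_lit 6) (nat_lit 334) (nat_lit 3) (nat_lit 278) (nat_lit 223) (nat_lit 279))))) (PT.nd (nat_lit 234) (PT.nd (nat_lit 78) (PT.lf (nat_lit 25384) (nat_lit 6) (nat_lit 334) (nat_lit 1)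 (nat_lit 279) (nat_lit 223) (nat_lit 278)) (PT.nd (nat_lit 78) (PT.lf (nat_lit 25308) (nat_lit 6) (nat_lit 333) (nat_lit 1) (nat_lit 280) (nat_lit 223) (nat_lit 277)) (PT.lf (nat_lit 25232) (nat_lit 6) (nat_lit 332) (nat_lit 1) (nat_lit 281) (nat_lit 223) (nat_lit 276)))) (PT.nd (nat_lit 156) (PT.nd (nat_lit 78) (PT.lf (nat_lit 25156) (nat_lit 6) (nat_lit 331) (nat_lit 1) (nat_lit 282) (nat_lit 223) (nat_lit 275)) (PT.lf (nat_lit 25080) (nat_lit 6) (nat_lit 330) (nat_lit 1) (nat_lit 283) (nat_lit 223) (nat_lit 274))) (PT.nd (nat_lit 78) (PT.lf (nat_lit 25004) (nat_lit 6) (nat_lit 329) (nat_lit 1) (nat_lit 284) (nat_lit 223) (nat_lit 273)) (PT.lf (nat_lit 24928) (nat_lit 6) (nat_lit 328) (nat_lit 1) (nat_lit 285) (nat_lit 223) (nat_lit 272)))))) (PT.nd (nat_lit 80262) (PT.nd (nat_lit 79950) (PT.nd (nat_lit 78) (PT.lf (nat_lit 24852) (nat_lit 6) (nat_lit 327) (nat_lit 1) (nat_lit 286) (nat_lit 223) (nat_lit 271)) (PT.nd (nat_lit 79794) (PT.lf (nat_lit 24776) (nat_lit 6) (nat_lit 326) (nat_lit 1) (nat_lit 287) (nat_lit 223) (nat_lit 270)) (PT.lf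 (nat_lit 25460) (nat_lit 6) (nat_lit 335) (nat_lit 3) (nat_lit 269) (nat_lit 224) (nat_lit 287)))) (PT.nd (nat_lit 156) (PT.nd (nat_lit 78) (PT.lf (nat_lit 25536) (nat_lit 6) (nat_lit 336) (nat_lit 3) (nat_lit 270) (nat_lit 224) (nat_lit 286)) (PT.lf (nat_lit 25612) (nat_lit 6) (nat_lit 337) (nat_lit 3) (nat_lit 271) (nat_lit 224) (nat_lit 285))) (PT.nd (nat_lit 78) (PT.lf (nat_lit 25688) (nat_lit 6) (nat_lit 338) (nat_lit 3) (nat_lit 272) (nat_lit 224) (nat_lit 284)) (PT.lf (nat_lit 25764) (nat_lit 6) (nat_lit 339) (nat_lit 3) (nat_lit 273) (nat_lit 224) (nat_lit 283))))) (PT.nd (nat_lit 234) (PT.nd (nat_lit 78) (PT.lf (nat_lit 25840) (nat_lit 6) (nat_lit 340) (nat_lit 3) (nat_lit 274) (nat_lit 224) (nat_lit 282)) (PT.nd (nat_lit 78) (PT.lf (nat_lit 25916) (nat_lit 6) (nat_lit 341) (nat_lit 3) (nat_lit 275) (nat_lit 224) (nat_lit 281)) (PT.lf (nat_lit 25992) (nat_lit 6) (nat_lit 342) (nat_lit 3) (nat_lit 276) (nat_lit 224) (nat_lit 280)))) (PT.nd (nat_lit 156) (PT.nd (nat_lit 78) (PT.lf (nat_lit 26068) (nat_lit 6) (nat_lit 343) (nat_lit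 3) (nat_lit 277) (nat_lit 224) (nat_lit 279)) (PT.lf (nat_lit 26144) (nat_lit 3) (nat_lit 344) (nat_lit 1) (nat_lit 278) (nat_lit 224) (nat_lit 278))) (PT.nd (nat_lit 78) (PT.lf (nat_lit 26068) (nat_lit 6) (nat_lit 343) (nat_lit 1) (nat_lit 279) (nat_lit 224) (nat_lit 277)) (PT.lf (nat_lit 25992) (nat_lit 6) (nat_lit 342) (nat_lit 1) (nat_lit 280) (nat_lit 224) (nat_lit 276))))))) (PT.nd (nat_lit 80730) (PT.nd (nat_lit 80184) (PT.nd (nat_lit 234) (PT.nd (nat_lit 78) (PT.lf (nat_lit 25916) (nat_lit 6) (nat_lit 341) (nat_lit 1) (nat_lit 281) (nat_lit 224) (nat_lit 275)) (PT.nd (nat_lit 78) (PT.lf (nat_lit 25840) (nat_lit 6) (nat_lit 340) (nat_lit 1) (nat_lit 282) (nat_lit 224) (nat_lit 274)) (PT.lf (nat_lit 25764) (nat_lit 6) (nat_lit 339) (nat_lit 1) (nat_lit 283) (nat_lit 224) (nat_lit 273)))) (PT.nd (nat_lit 156) (PT.nd (nat_lit 78) (PT.lf (nat_lit 25688) (nat_lit 6) (nat_lit 338) (nat_lit 1) (nat_lit 284) (nat_lit 224) (nat_lit 272)) (PT.lf (nat_lit 25612) (nat_lit 6) (nat_lit 337) (nat_lit 1) (nat_lit 285) (nat_lit 224) (nat_lit 271)))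 (PT.nd (nat_lit 78) (PT.lf (nat_lit 25536) (nat_lit 6) (nat_lit 336) (nat_lit 1) (nat_lit 286) (nat_lit 224) (nat_lit 270)) (PT.lf (nat_lit 25460) (nat_lit 6) (nat_lit 335) (nat_lit 1) (nat_lit 287) (nat_lit 224) (nat_lit 269))))) (PT.nd (nat_lit 234) (PT.nd (nat_lit 78) (PT.lf (nat_lit 26220) (nat_lit 6) (nat_lit 345) (nat_lit 3) (nat_lit 268) (nat_lit 225) (nat_lit 287)) (PT.nd (nat_lit 78) (PT.lf (nat_lit 26296) (nat_lit 6) (nat_lit 346) (nat_lit 3) (nat_lit 269) (nat_lit 225) (nat_lit 286)) (PT.lf (nat_lit 26372) (nat_lit 6) (nat_lit 347) (nat_lit 3) (nat_lit 270) (nat_lit 225) (nat_lit 285)))) (PT.nd (nat_lit 156) (PT.nd (nat_lit 78) (PT.lf (nat_lit 26448) (nat_lit 6) (nat_lit 348) (nat_lit 3) (nat_lit 271) (nat_lit 225) (nat_lit 284)) (PT.lf (nat_lit 26524) (nat_lit 6) (nat_lit 349) (nat_lit 3) (nat_lit 272) (nat_lit 225) (nat_lit 283))) (PT.nd (nat_lit 78) (PT.lf (nat_lit 26600) (nat_lit 6) (nat_lit 350) (nat_lit 3) (nat_lit 273) (nat_lit 225) (nat_lit 282)) (PT.lf (nat_lit 26676) (nat_lit 6) (nat_lit 351) (nat_lit 3) (nat_lit 274)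 (nat_lit 225) (nat_lit 281)))))) (PT.nd (nat_lit 546) (PT.nd (nat_lit 234) (PT.nd (nat_lit 78) (PT.lf (nat_lit 26752) (nat_lit 6) (nat_lit 352) (nat_lit 3) (nat_lit 275) (nat_lit 225) (nat_lit 280)) (PT.nd (nat_lit 78) (PT.lf (nat_lit 26828) (nat_lit 6) (nat_lit 353) (nat_lit 3) (nat_lit 276) (nat_lit 225) (nat_lit 279)) (PT.lf (nat_lit 26904) (nat_lit 6) (nat_lit 354) (nat_lit 3) (nat_lit 277) (nat_lit 225) (nat_lit 278)))) (PT.nd (nat_lit 156) (PT.nd (nat_lit 78) (PT.lf (nat_lit 26904) (nat_lit 6) (nat_lit 354) (nat_lit 1) (nat_lit 278) (nat_lit 225) (nat_lit 277)) (PT.lf (nat_lit 26828) (nat_lit 6) (nat_lit 353) (nat_lit 1) (nat_lit 279) (nat_lit 225) (nat_lit 276))) (PT.nd (nat_lit 78) (PT.lf (nat_lit 26752) (nat_lit 6) (nat_lit 352) (nat_lit 1) (nat_lit 280) (nat_lit 225) (nat_lit 275)) (PT.lf (nat_lit 26676) (nat_lit 6) (nat_lit 351) (nat_lit 1) (nat_lit 281) (nat_lit 225) (nat_lit 274))))) (PT.nd (nat_lit 312) (PT.nd (nat_lit 156) (PT.nd (nat_lit 78) (PT.lf (nat_lit 26600) (nat_lit 6) (nat_lit 350) (nat_lit 1) (nat_lit 282) (nat_lit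 225) (nat_lit 273)) (PT.lf (nat_lit 26524) (nat_lit 6) (nat_lit 349) (nat_lit 1) (nat_lit 283) (nat_lit 225) (nat_lit 272))) (PT.nd (nat_lit 78) (PT.lf (nat_lit 26448) (nat_lit 6) (nat_lit 348) (nat_lit 1) (nat_lit 284) (nat_lit 225) (nat_lit 271)) (PT.lf (nat_lit 26372) (nat_lit 6) (nat_lit 347) (nat_lit 1) (nat_lit 285) (nat_lit 225) (nat_lit 270)))) (PT.nd (nat_lit 79794) (PT.nd (nat_lit 78) (PT.lf (nat_lit 26296) (nat_lit 6) (nat_lit 346) (nat_lit 1) (nat_lit 286) (nat_lit 225) (nat_lit 269)) (PT.lf (nat_lit 26220) (nat_lit 6) (nat_lit 345) (nat_lit 1) (nat_lit 287) (nat_lit 225) (nat_lit 268))) (PT.nd (nat_lit 78) (PT.lf (nat_lit 26980) (nat_lit 6) (nat_lit 355) (nat_lit 3) (nat_lit 268) (nat_lit 226) (nat_lit 286)) (PT.lf (nat_lit 27056) (nat_lit 6) (nat_lit 356) (nat_lit 3) (nat_lit 269) (nat_lit 226) (nat_lit 285))))))))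
noncomputable def pc7 : PT := (PT.nd (nat_lit 81900) (PT.nd (nat_lit 1092) (PT.nd (nat_lit 546) (PT.nd (nat_lit 234) (PT.nd (nat_lit 78) (PT.lf (nat_lit 27132) (nat_lit 6) (nat_lit 357) (nat_lit 3) (nat_lit 270) (nat_lit 226) (nat_lit 284)) (PT.nd (nat_lit 78) (PT.lf (nat_lit 27208) (nat_lit 6) (nat_lit 358) (nat_lit 3) (nat_lit 271) (nat_lit 226) (nat_lit 283)) (PT.lf (nat_lit 27284) (nat_lit 6) (nat_lit 359) (nat_lit 3) (nat_lit 272) (nat_lit 226) (nat_lit 282)))) (PT.nd (nat_lit 156) (PT.nd (nat_lit 78) (PT.lf (nat_lit 27360) (nat_lit 6) (nat_lit 360) (nat_lit 3) (nat_lit 273) (nat_lit 226) (nat_lit 281)) (PT.lf (nat_lit 27436) (nat_lit 6) (nat_lit 361) (nat_lit 3) (nat_lit 274) (nat_lit 226) (nat_lit 280))) (PT.nd (nat_lit 78) (PT.lf (nat_lit 27512) (nat_lit 6) (nat_lit 362) (nat_lit 3) (nat_lit 275) (nat_lit 226) (nat_lit 279)) (PT.lf (nat_lit 27588) (nat_lit 6) (nat_lit 363) (nat_lit 3) (nat_lit 276) (nat_lit 226) (nat_lit 278))))) (PT.nd (nat_lit 234) (PT.nd (nat_lit 78) (PT.lf (nat_lit 27664) (nat_lit 3) (nat_lit 364) (nat_lit 1)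 (nat_lit 277) (nat_lit 226) (nat_lit 277)) (PT.nd (nat_lit 78) (PT.lf (nat_lit 27588) (nat_lit 6) (nat_lit 363) (nat_lit 1) (nat_lit 278) (nat_lit 226) (nat_lit 276)) (PT.lf (nat_lit 27512) (nat_lit 6) (nat_lit 362) (nat_lit 1) (nat_lit 279) (nat_lit 226) (nat_lit 275)))) (PT.nd (nat_lit 156) (PT.nd (nat_lit 78) (PT.lf (nat_lit 27436) (nat_lit 6) (nat_lit 361) (nat_lit 1) (nat_lit 280) (nat_lit 226) (nat_lit 274)) (PT.lf (nat_lit 27360) (nat_lit 6) (nat_lit 360) (nat_lit 1) (nat_lit 281) (nat_lit 226) (nat_lit 273))) (PT.nd (nat_lit 78) (PT.lf (nat_lit 27284) (nat_lit 6) (nat_lit 359) (nat_lit 1) (nat_lit 282) (nat_lit 226) (nat_lit 272)) (PT.lf (nat_lit 27208) (nat_lit 6) (nat_lit 358) (nat_lit 1) (nat_lit 283) (nat_lit 226) (nat_lit 271)))))) (PT.nd (nat_lit 80184) (PT.nd (nat_lit 79872) (PT.nd (nat_lit 78) (PT.lf (nat_lit 27132) (nat_lit 6) (nat_lit 357) (nat_lit 1) (nat_lit 284) (nat_lit 226) (nat_lit 270)) (PT.nd (nat_lit 78) (PT.lf (nat_lit 27056) (nat_lit 6) (nat_lit 356) (nat_lit 1) (nat_lit 285) (nat_lit 226) (nat_lit 269)) (PT.lf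 (nat_lit 26980) (nat_lit 6) (nat_lit 355) (nat_lit 1) (nat_lit 286) (nat_lit 226) (nat_lit 268)))) (PT.nd (nat_lit 156) (PT.nd (nat_lit 78) (PT.lf (nat_lit 27740) (nat_lit 6) (nat_lit 365) (nat_lit 3) (nat_lit 267) (nat_lit 227) (nat_lit 286)) (PT.lf (nat_lit 27816) (nat_lit 6) (nat_lit 366) (nat_lit 3) (nat_lit 268) (nat_lit 227) (nat_lit 285))) (PT.nd (nat_lit 78) (PT.lf (nat_lit 27892) (nat_lit 6) (nat_lit 367) (nat_lit 3) (nat_lit 269) (nat_lit 227) (nat_lit 284)) (PT.lf (nat_lit 27968) (nat_lit 6) (nat_lit 368) (nat_lit 3) (nat_lit 270) (nat_lit 227) (nat_lit 283))))) (PT.nd (nat_lit 312) (PT.nd (nat_lit 156) (PT.nd (nat_lit 78) (PT.lf (nat_lit 28044) (nat_lit 6) (nat_lit 369) (nat_lit 3) (nat_lit 271) (nat_lit 227) (nat_lit 282)) (PT.lf (nat_lit 28120) (nat_lit 6) (nat_lit 370) (nat_lit 3) (nat_lit 272) (nat_lit 227) (nat_lit 281))) (PT.nd (nat_lit 78) (PT.lf (nat_lit 28196) (nat_lit 6) (nat_lit 371) (nat_lit 3) (nat_lit 273) (nat_lit 227) (nat_lit 280)) (PT.lf (nat_lit 28272) (nat_lit 6) (nat_lit 372) (nat_lit 3) (nat_lit 274) (nat_lit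 227) (nat_lit 279)))) (PT.nd (nat_lit 156) (PT.nd (nat_lit 78) (PT.lf (nat_lit 28348) (nat_lit 6) (nat_lit 373) (nat_lit 3) (nat_lit 275) (nat_lit 227) (nat_lit 278)) (PT.lf (nat_lit 28424) (nat_lit 6) (nat_lit 374) (nat_lit 3) (nat_lit 276) (nat_lit 227) (nat_lit 277))) (PT.nd (nat_lit 78) (PT.lf (nat_lit 28424) (nat_lit 6) (nat_lit 374) (nat_lit 1) (nat_lit 277) (nat_lit 227) (nat_lit 276)) (PT.lf (nat_lit 28348) (nat_lit 6) (nat_lit 373) (nat_lit 1) (nat_lit 278) (nat_lit 227) (nat_lit 275))))))) (PT.nd (nat_lit 80652) (PT.nd (nat_lit 546) (PT.nd (nat_lit 234) (PT.nd (nat_lit 78) (PT.lf (nat_lit 28272) (nat_lit 6) (nat_lit 372) (nat_lit 1) (nat_lit 279) (nat_lit 227) (nat_lit 274)) (PT.nd (nat_lit 78) (PT.lf (nat_lit 28196) (nat_lit 6) (nat_lit 371) (nat_lit 1) (nat_lit 280) (nat_lit 227) (nat_lit 273)) (PT.lf (nat_lit 28120) (nat_lit 6) (nat_lit 370) (nat_lit 1) (nat_lit 281) (nat_lit 227) (nat_lit 272)))) (PT.nd (nat_lit 156) (PT.nd (nat_lit 78) (PT.lf (nat_lit 28044) (nat_lit 6) (nat_lit 369) (nat_lit 1) (nat_lit 282) (nat_lit 227)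 (nat_lit 271)) (PT.lf (nat_lit 27968) (nat_lit 6) (nat_lit 368) (nat_lit 1) (nat_lit 283) (nat_lit 227) (nat_lit 270))) (PT.nd (nat_lit 78) (PT.lf (nat_lit 27892) (nat_lit 6) (nat_lit 367) (nat_lit 1) (nat_lit 284) (nat_lit 227) (nat_lit 269)) (PT.lf (nat_lit 27816) (nat_lit 6) (nat_lit 366) (nat_lit 1) (nat_lit 285) (nat_lit 227) (nat_lit 268))))) (PT.nd (nat_lit 79794) (PT.nd (nat_lit 79638) (PT.lf (nat_lit 27740) (nat_lit 6) (nat_lit 365) (nat_lit 1) (nat_lit 286) (nat_lit 227) (nat_lit 267)) (PT.nd (nat_lit 78) (PT.lf (nat_lit 28500) (nat_lit 6) (nat_lit 375) (nat_lit 3) (nat_lit 266) (nat_lit 228) (nat_lit 286)) (PT.lf (nat_lit 28576) (nat_lit 6) (nat_lit 376) (nat_lit 3) (nat_lit 267) (nat_lit 228) (nat_lit 285)))) (PT.nd (nat_lit 156) (PT.nd (nat_lit 78) (PT.lf (nat_lit 28652) (nat_lit 6) (nat_lit 377) (nat_lit 3) (nat_lit 268) (nat_lit 228) (nat_lit 284)) (PT.lf (nat_lit 28728) (nat_lit 6) (nat_lit 378) (nat_lit 3) (nat_lit 269) (nat_lit 228) (nat_lit 283))) (PT.nd (nat_lit 78) (PT.lf (nat_lit 28804) (nat_lit 6) (nat_lit 379) (nat_lit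 3) (nat_lit 270) (nat_lit 228) (nat_lit 282)) (PT.lf (nat_lit 28880) (nat_lit 6) (nat_lit 380) (nat_lit 3) (nat_lit 271) (nat_lit 228) (nat_lit 281)))))) (PT.nd (nat_lit 546) (PT.nd (nat_lit 234) (PT.nd (nat_lit 78) (PT.lf (nat_lit 28956) (nat_lit 6) (nat_lit 381) (nat_lit 3) (nat_lit 272) (nat_lit 228) (nat_lit 280)) (PT.nd (nat_lit 78) (PT.lf (nat_lit 29032) (nat_lit 6) (nat_lit 382) (nat_lit 3) (nat_lit 273) (nat_lit 228) (nat_lit 279)) (PT.lf (nat_lit 29108) (nat_lit 6) (nat_lit 383) (nat_lit 3) (nat_lit 274) (nat_lit 228) (nat_lit 278)))) (PT.nd (nat_lit 156) (PT.nd (nat_lit 78) (PT.lf (nat_lit 29184) (nat_lit 6) (nat_lit 384) (nat_lit 3) (nat_lit 275) (nat_lit 228) (nat_lit 277)) (PT.lf (nat_lit 29260) (nat_lit 3) (nat_lit 385) (nat_lit 1) (nat_lit 276) (nat_lit 228) (nat_lit 276))) (PT.nd (nat_lit 78) (PT.lf (nat_lit 29184) (nat_lit 6) (nat_lit 384) (nat_lit 1) (nat_lit 277) (nat_lit 228) (nat_lit 275)) (PT.lf (nat_lit 29108) (nat_lit 6) (nat_lit 383) (nat_lit 1) (nat_lit 278) (nat_lit 228) (nat_lit 274))))) (PT.nd (nat_lit 312) (PT.nd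 (nat_lit 156) (PT.nd (nat_lit 78) (PT.lf (nat_lit 29032) (nat_lit 6) (nat_lit 382) (nat_lit 1) (nat_lit 279) (nat_lit 228) (nat_lit 273)) (PT.lf (nat_lit 28956) (nat_lit 6) (nat_lit 381) (nat_lit 1) (nat_lit 280) (nat_lit 228) (nat_lit 272))) (PT.nd (nat_lit 78) (PT.lf (nat_lit 28880) (nat_lit 6) (nat_lit 380) (nat_lit 1) (nat_lit 281) (nat_lit 228) (nat_lit 271)) (PT.lf (nat_lit 28804) (nat_lit 6) (nat_lit 379) (nat_lit 1) (nat_lit 282) (nat_lit 228) (nat_lit 270)))) (PT.nd (nat_lit 156) (PT.nd (nat_lit 78) (PT.lf (nat_lit 28728) (nat_lit 6) (nat_lit 378) (nat_lit 1) (nat_lit 283) (nat_lit 228) (nat_lit 269)) (PT.lf (nat_lit 28652) (nat_lit 6) (nat_lit 377) (nat_lit 1) (nat_lit 284) (nat_lit 228) (nat_lit 268))) (PT.nd (nat_lit 78) (PT.lf (nat_lit 28576) (nat_lit 6) (nat_lit 376) (nat_lit 1) (nat_lit 285) (nat_lit 228) (nat_lit 267)) (PT.lf (nat_lit 28500) (nat_lit 6) (nat_lit 375) (nat_lit 1) (nat_lit 286) (nat_lit 228) (nat_lit 266))))))))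
noncomputable def pc8 : PT := (PT.nd (nat_lit 81588) (PT.nd (nat_lit 1092) (PT.nd (nat_lit 546) (PT.nd (nat_lit 234) (PT.nd (nat_lit 78) (PT.lf (nat_lit 29336) (nat_lit 6) (nat_lit 386) (nat_lit 3) (nat_lit 265) (nat_lit 229) (nat_lit 286)) (PT.nd (nat_lit 78) (PT.lf (nat_lit 29412) (nat_lit 6) (nat_lit 387) (nat_lit 3) (nat_lit 266) (nat_lit 229) (nat_lit 285)) (PT.lf (nat_lit 29488) (nat_lit 6) (nat_lit 388) (nat_lit 3) (nat_lit 267) (nat_lit 229) (nat_lit 284)))) (PT.nd (nat_lit 156) (PT.nd (nat_lit 78) (PT.lf (nat_lit 29564) (nat_lit 6) (nat_lit 389) (nat_lit 3) (nat_lit 268) (nat_lit 229) (nat_lit 283)) (PT.lf (nat_lit 29640) (nat_lit 6) (nat_lit 390) (nat_lit 3) (nat_lit 269) (nat_lit 229) (nat_lit 282))) (PT.nd (nat_lit 78) (PT.lf (nat_lit 29716) (nat_lit 6) (nat_lit 391) (nat_lit 3) (nat_lit 270) (nat_lit 229) (nat_lit 281)) (PT.lf (nat_lit 29792) (nat_lit 6) (nat_lit 392) (nat_lit 3) (nat_lit 271) (nat_lit 229) (nat_lit 280))))) (PT.nd (nat_lit 234) (PT.nd (nat_lit 78) (PT.lf (nat_lit 29868) (nat_lit 6) (nat_lit 393) (nat_lit 3)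 (nat_lit 272) (nat_lit 229) (nat_lit 279)) (PT.nd (nat_lit 78) (PT.lf (nat_lit 29944) (nat_lit 6) (nat_lit 394) (nat_lit 3) (nat_lit 273) (nat_lit 229) (nat_lit 278)) (PT.lf (nat_lit 30020) (nat_lit 6) (nat_lit 395) (nat_lit 3) (nat_lit 274) (nat_lit 229) (nat_lit 277)))) (PT.nd (nat_lit 156) (PT.nd (nat_lit 78) (PT.lf (nat_lit 30096) (nat_lit 6) (nat_lit 396) (nat_lit 3) (nat_lit 275) (nat_lit 229) (nat_lit 276)) (PT.lf (nat_lit 30096) (nat_lit 6) (nat_lit 396) (nat_lit 1) (nat_lit 276) (nat_lit 229) (nat_lit 275))) (PT.nd (nat_lit 78) (PT.lf (nat_lit 30020) (nat_lit 6) (nat_lit 395) (nat_lit 1) (nat_lit 277) (nat_lit 229) (nat_lit 274)) (PT.lf (nat_lit 29944) (nat_lit 6) (nat_lit 394) (nat_lit 1) (nat_lit 278) (nat_lit 229) (nat_lit 273)))))) (PT.nd (nat_lit 546) (PT.nd (nat_lit 234) (PT.nd (nat_lit 78) (PT.lf (nat_lit 29868) (nat_lit 6) (nat_lit 393) (nat_lit 1) (nat_lit 279) (nat_lit 229) (nat_lit 272)) (PT.nd (nat_lit 78) (PT.lf (nat_lit 29792) (nat_lit 6) (nat_lit 392) (nat_lit 1) (nat_lit 280) (nat_lit 229) (nat_lit 271)) (PT.lf (nat_lit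 29716) (nat_lit 6) (nat_lit 391) (nat_lit 1) (nat_lit 281) (nat_lit 229) (nat_lit 270)))) (PT.nd (nat_lit 156) (PT.nd (nat_lit 78) (PT.lf (nat_lit 29640) (nat_lit 6) (nat_lit 390) (nat_lit 1) (nat_lit 282) (nat_lit 229) (nat_lit 269)) (PT.lf (nat_lit 29564) (nat_lit 6) (nat_lit 389) (nat_lit 1) (nat_lit 283) (nat_lit 229) (nat_lit 268))) (PT.nd (nat_lit 78) (PT.lf (nat_lit 29488) (nat_lit 6) (nat_lit 388) (nat_lit 1) (nat_lit 284) (nat_lit 229) (nat_lit 267)) (PT.lf (nat_lit 29412) (nat_lit 6) (nat_lit 387) (nat_lit 1) (nat_lit 285) (nat_lit 229) (nat_lit 266))))) (PT.nd (nat_lit 79638) (PT.nd (nat_lit 79482) (PT.lf (nat_lit 29336) (nat_lit 6) (nat_lit 386) (nat_lit 1) (nat_lit 286) (nat_lit 229) (nat_lit 265)) (PT.nd (nat_lit 78) (PT.lf (nat_lit 30172) (nat_lit 6) (nat_lit 397) (nat_lit 3) (nat_lit 264) (nat_lit 230) (nat_lit 286)) (PT.lf (nat_lit 30248) (nat_lit 6) (nat_lit 398) (nat_lit 3) (nat_lit 265) (nat_lit 230) (nat_lit 285)))) (PT.nd (nat_lit 156) (PT.nd (nat_lit 78) (PT.lf (nat_lit 30324) (nat_lit 6) (nat_lit 399) (nat_lit 3)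 (nat_lit 266) (nat_lit 230) (nat_lit 284)) (PT.lf (nat_lit 30400) (nat_lit 6) (nat_lit 400) (nat_lit 3) (nat_lit 267) (nat_lit 230) (nat_lit 283))) (PT.nd (nat_lit 78) (PT.lf (nat_lit 30476) (nat_lit 6) (nat_lit 401) (nat_lit 3) (nat_lit 268) (nat_lit 230) (nat_lit 282)) (PT.lf (nat_lit 30552) (nat_lit 6) (nat_lit 402) (nat_lit 3) (nat_lit 269) (nat_lit 230) (nat_lit 281))))))) (PT.nd (nat_lit 1092) (PT.nd (nat_lit 546) (PT.nd (nat_lit 234) (PT.nd (nat_lit 78) (PT.lf (nat_lit 30628) (nat_lit 6) (nat_lit 403) (nat_lit 3) (nat_lit 270) (nat_lit 230) (nat_lit 280)) (PT.nd (nat_lit 78) (PT.lf (nat_lit 30704) (nat_lit 6) (nat_lit 404) (nat_lit 3) (nat_lit 271) (nat_lit 230) (nat_lit 279)) (PT.lf (nat_lit 30780) (nat_lit 6) (nat_lit 405) (nat_lit 3) (nat_lit 272) (nat_lit 230) (nat_lit 278)))) (PT.nd (nat_lit 156) (PT.nd (nat_lit 78) (PT.lf (nat_lit 30856) (nat_lit 6) (nat_lit 406) (nat_lit 3) (nat_lit 273) (nat_lit 230) (nat_lit 277)) (PT.lf (nat_lit 30932) (nat_lit 6) (nat_lit 407) (nat_lit 3) (nat_lit 274) (nat_lit 230) (nat_lit 276))) (PT.nd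 (nat_lit 78) (PT.lf (nat_lit 31008) (nat_lit 3) (nat_lit 408) (nat_lit 1) (nat_lit 275) (nat_lit 230) (nat_lit 275)) (PT.lf (nat_lit 30932) (nat_lit 6) (nat_lit 407) (nat_lit 1) (nat_lit 276) (nat_lit 230) (nat_lit 274))))) (PT.nd (nat_lit 234) (PT.nd (nat_lit 78) (PT.lf (nat_lit 30856) (nat_lit 6) (nat_lit 406) (nat_lit 1) (nat_lit 277) (nat_lit 230) (nat_lit 273)) (PT.nd (nat_lit 78) (PT.lf (nat_lit 30780) (nat_lit 6) (nat_lit 405) (nat_lit 1) (nat_lit 278) (nat_lit 230) (nat_lit 272)) (PT.lf (nat_lit 30704) (nat_lit 6) (nat_lit 404) (nat_lit 1) (nat_lit 279) (nat_lit 230) (nat_lit 271)))) (PT.nd (nat_lit 156) (PT.nd (nat_lit 78) (PT.lf (nat_lit 30628) (nat_lit 6) (nat_lit 403) (nat_lit 1) (nat_lit 280) (nat_lit 230) (nat_lit 270)) (PT.lf (nat_lit 30552) (nat_lit 6) (nat_lit 402) (nat_lit 1) (nat_lit 281) (nat_lit 230) (nat_lit 269))) (PT.nd (nat_lit 78) (PT.lf (nat_lit 30476) (nat_lit 6) (nat_lit 401) (nat_lit 1) (nat_lit 282) (nat_lit 230) (nat_lit 268)) (PT.lf (nat_lit 30400) (nat_lit 6) (nat_lit 400) (nat_lit 1) (nat_lit 283) (nat_lit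 230) (nat_lit 267)))))) (PT.nd (nat_lit 79950) (PT.nd (nat_lit 79638) (PT.nd (nat_lit 78) (PT.lf (nat_lit 30324) (nat_lit 6) (nat_lit 399) (nat_lit 1) (nat_lit 284) (nat_lit 230) (nat_lit 266)) (PT.nd (nat_lit 78) (PT.lf (nat_lit 30248) (nat_lit 6) (nat_lit 398) (nat_lit 1) (nat_lit 285) (nat_lit 230) (nat_lit 265)) (PT.lf (nat_lit 30172) (nat_lit 6) (nat_lit 397) (nat_lit 1) (nat_lit 286) (nat_lit 230) (nat_lit 264)))) (PT.nd (nat_lit 156) (PT.nd (nat_lit 78) (PT.lf (nat_lit 31084) (nat_lit 6) (nat_lit 409) (nat_lit 3) (nat_lit 264) (nat_lit 231) (nat_lit 285)) (PT.lf (nat_lit 31160) (nat_lit 6) (nat_lit 410) (nat_lit 3) (nat_lit 265) (nat_lit 231) (nat_lit 284))) (PT.nd (nat_lit 78) (PT.lf (nat_lit 31236) (nat_lit 6) (nat_lit 411) (nat_lit 3) (nat_lit 266) (nat_lit 231) (nat_lit 283)) (PT.lf (nat_lit 31312) (nat_lit 6) (nat_lit 412) (nat_lit 3) (nat_lit 267) (nat_lit 231) (nat_lit 282))))) (PT.nd (nat_lit 312) (PT.nd (nat_lit 156) (PT.nd (nat_lit 78) (PT.lf (nat_lit 31388) (nat_lit 6) (nat_lit 413) (nat_lit 3) (nat_lit 268) (nat_lit 231)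 (nat_lit 281)) (PT.lf (nat_lit 31464) (nat_lit 6) (nat_lit 414) (nat_lit 3) (nat_lit 269) (nat_lit 231) (nat_lit 280))) (PT.nd (nat_lit 78) (PT.lf (nat_lit 31540) (nat_lit 6) (nat_lit 415) (nat_lit 3) (nat_lit 270) (nat_lit 231) (nat_lit 279)) (PT.lf (nat_lit 31616) (nat_lit 6) (nat_lit 416) (nat_lit 3) (nat_lit 271) (nat_lit 231) (nat_lit 278)))) (PT.nd (nat_lit 156) (PT.nd (nat_lit 78) (PT.lf (nat_lit 31692) (nat_lit 6) (nat_lit 417) (nat_lit 3) (nat_lit 272) (nat_lit 231) (nat_lit 277)) (PT.lf (nat_lit 31768) (nat_lit 6) (nat_lit 418) (nat_lit 3) (nat_lit 273) (nat_lit 231) (nat_lit 276))) (PT.nd (nat_lit 78) (PT.lf (nat_lit 31844) (nat_lit 6) (nat_lit 419) (nat_lit 3) (nat_lit 274) (nat_lit 231) (nat_lit 275)) (PT.lf (nat_lit 31844) (nat_lit 6) (nat_lit 419) (nat_lit 1) (nat_lit 275) (nat_lit 231) (nat_lit 274))))))))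
noncomputable def pc9 : PT := (PT.nd (nat_lit 81666) (PT.nd (nat_lit 80496) (PT.nd (nat_lit 546) (PT.nd (nat_lit 234) (PT.nd (nat_lit 78) (PT.lf (nat_lit 31768) (nat_lit 6) (nat_lit 418) (nat_lit 1) (nat_lit 276) (nat_lit 231) (nat_lit 273)) (PT.nd (nat_lit 78) (PT.lf (nat_lit 31692) (nat_lit 6) (nat_lit 417) (nat_lit 1) (nat_lit 277) (nat_lit 231) (nat_lit 272)) (PT.lf (nat_lit 31616) (nat_lit 6) (nat_lit 416) (nat_lit 1) (nat_lit 278) (nat_lit 231) (nat_lit 271)))) (PT.nd (nat_lit 156) (PT.nd (nat_lit 78) (PT.lf (nat_lit 31540) (nat_lit 6) (nat_lit 415) (nat_lit 1) (nat_lit 279) (nat_lit 231) (nat_lit 270)) (PT.lf (nat_lit 31464) (nat_lit 6) (nat_lit 414) (nat_lit 1) (nat_lit 280) (nat_lit 231) (nat_lit 269))) (PT.nd (nat_lit 78) (PT.lf (nat_lit 31388) (nat_lit 6) (nat_lit 413) (nat_lit 1) (nat_lit 281) (nat_lit 231) (nat_lit 268)) (PT.lf (nat_lit 31312) (nat_lit 6) (nat_lit 412) (nat_lit 1) (nat_lit 282) (nat_lit 231) (nat_lit 267))))) (PT.nd (nat_lit 79638) (PT.nd (nat_lit 78) (PT.lf (nat_lit 31236) (nat_lit 6) (nat_lit 411) (nat_lit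 1) (nat_lit 283) (nat_lit 231) (nat_lit 266)) (PT.nd (nat_lit 78) (PT.lf (nat_lit 31160) (nat_lit 6) (nat_lit 410) (nat_lit 1) (nat_lit 284) (nat_lit 231) (nat_lit 265)) (PT.lf (nat_lit 31084) (nat_lit 6) (nat_lit 409) (nat_lit 1) (nat_lit 285) (nat_lit 231) (nat_lit 264)))) (PT.nd (nat_lit 156) (PT.nd (nat_lit 78) (PT.lf (nat_lit 31920) (nat_lit 6) (nat_lit 420) (nat_lit 3) (nat_lit 263) (nat_lit 232) (nat_lit 285)) (PT.lf (nat_lit 31996) (nat_lit 6) (nat_lit 421) (nat_lit 3) (nat_lit 264) (nat_lit 232) (nat_lit 284))) (PT.nd (nat_lit 78) (PT.lf (nat_lit 32072) (nat_lit 6) (nat_lit 422) (nat_lit 3) (nat_lit 265) (nat_lit 232) (nat_lit 283)) (PT.lf (nat_lit 32148) (nat_lit 6) (nat_lit 423) (nat_lit 3) (nat_lit 266) (nat_lit 232) (nat_lit 282)))))) (PT.nd (nat_lit 546) (PT.nd (nat_lit 234) (PT.nd (nat_lit 78) (PT.lf (nat_lit 32224) (nat_lit 6) (nat_lit 424) (nat_lit 3) (nat_lit 267) (nat_lit 232) (nat_lit 281)) (PT.nd (nat_lit 78) (PT.lf (nat_lit 32300) (nat_lit 6) (nat_lit 425) (nat_lit 3) (nat_lit 268) (nat_lit 232) (nat_lit 280)) (PT.lf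 (nat_lit 32376) (nat_lit 6) (nat_lit 426) (nat_lit 3) (nat_lit 269) (nat_lit 232) (nat_lit 279)))) (PT.nd (nat_lit 156) (PT.nd (nat_lit 78) (PT.lf (nat_lit 32452) (nat_lit 6) (nat_lit 427) (nat_lit 3) (nat_lit 270) (nat_lit 232) (nat_lit 278)) (PT.lf (nat_lit 32528) (nat_lit 6) (nat_lit 428) (nat_lit 3) (nat_lit 271) (nat_lit 232) (nat_lit 277))) (PT.nd (nat_lit 78) (PT.lf (nat_lit 32604) (nat_lit 6) (nat_lit 429) (nat_lit 3) (nat_lit 272) (nat_lit 232) (nat_lit 276)) (PT.lf (nat_lit 32680) (nat_lit 6) (nat_lit 430) (nat_lit 3) (nat_lit 273) (nat_lit 232) (nat_lit 275))))) (PT.nd (nat_lit 312) (PT.nd (nat_lit 156) (PT.nd (nat_lit 78) (PT.lf (nat_lit 32756) (nat_lit 3) (nat_lit 431) (nat_lit 1) (nat_lit 274) (nat_lit 232) (nat_lit 274)) (PT.lf (nat_lit 32680) (nat_lit 6) (nat_lit 430) (nat_lit 1) (nat_lit 275) (nat_lit 232) (nat_lit 273))) (PT.nd (nat_lit 78) (PT.lf (nat_lit 32604) (nat_lit 6) (nat_lit 429) (nat_lit 1) (nat_lit 276) (nat_lit 232) (nat_lit 272)) (PT.lf (nat_lit 32528) (nat_lit 6) (nat_lit 428) (nat_lit 1) (nat_lit 277) (nat_lit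 232) (nat_lit 271)))) (PT.nd (nat_lit 156) (PT.nd (nat_lit 78) (PT.lf (nat_lit 32452) (nat_lit 6) (nat_lit 427) (nat_lit 1) (nat_lit 278) (nat_lit 232) (nat_lit 270)) (PT.lf (nat_lit 32376) (nat_lit 6) (nat_lit 426) (nat_lit 1) (nat_lit 279) (nat_lit 232) (nat_lit 269))) (PT.nd (nat_lit 78) (PT.lf (nat_lit 32300) (nat_lit 6) (nat_lit 425) (nat_lit 1) (nat_lit 280) (nat_lit 232) (nat_lit 268)) (PT.lf (nat_lit 32224) (nat_lit 6) (nat_lit 424) (nat_lit 1) (nat_lit 281) (nat_lit 232) (nat_lit 267))))))) (PT.nd (nat_lit 80418) (PT.nd (nat_lit 79872) (PT.nd (nat_lit 234) (PT.nd (nat_lit 78) (PT.lf (nat_lit 32148) (nat_lit 6) (nat_lit 423) (nat_lit 1) (nat_lit 282) (nat_lit 232) (nat_lit 266)) (PT.nd (nat_lit 78) (PT.lf (nat_lit 32072) (nat_lit 6) (nat_lit 422) (nat_lit 1) (nat_lit 283) (nat_lit 232) (nat_lit 265)) (PT.lf (nat_lit 31996) (nat_lit 6) (nat_lit 421) (nat_lit 1) (nat_lit 284) (nat_lit 232) (nat_lit 264)))) (PT.nd (nat_lit 79482) (PT.nd (nat_lit 79404) (PT.lf (nat_lit 31920) (nat_lit 6) (nat_lit 420) (nat_lit 1) (nat_lit 285) (nat_lit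 232) (nat_lit 263)) (PT.lf (nat_lit 32832) (nat_lit 6) (nat_lit 432) (nat_lit 3) (nat_lit 262) (nat_lit 233) (nat_lit 285))) (PT.nd (nat_lit 78) (PT.lf (nat_lit 32908) (nat_lit 6) (nat_lit 433) (nat_lit 3) (nat_lit 263) (nat_lit 233) (nat_lit 284)) (PT.lf (nat_lit 32984) (nat_lit 6) (nat_lit 434) (nat_lit 3) (nat_lit 264) (nat_lit 233) (nat_lit 283))))) (PT.nd (nat_lit 234) (PT.nd (nat_lit 78) (PT.lf (nat_lit 33060) (nat_lit 6) (nat_lit 435) (nat_lit 3) (nat_lit 265) (nat_lit 233) (nat_lit 282)) (PT.nd (nat_lit 78) (PT.lf (nat_lit 33136) (nat_lit 6) (nat_lit 436) (nat_lit 3) (nat_lit 266) (nat_lit 233) (nat_lit 281)) (PT.lf (nat_lit 33212) (nat_lit 6) (nat_lit 437) (nat_lit 3) (nat_lit 267) (nat_lit 233) (nat_lit 280)))) (PT.nd (nat_lit 156) (PT.nd (nat_lit 78) (PT.lf (nat_lit 33288) (nat_lit 6) (nat_lit 438) (nat_lit 3) (nat_lit 268) (nat_lit 233) (nat_lit 279)) (PT.lf (nat_lit 33364) (nat_lit 6) (nat_lit 439) (nat_lit 3) (nat_lit 269) (nat_lit 233) (nat_lit 278))) (PT.nd (nat_lit 78) (PT.lf (nat_lit 33440) (nat_lit 6) (nat_lit 440) (nat_lit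 3) (nat_lit 270) (nat_lit 233) (nat_lit 277)) (PT.lf (nat_lit 33516) (nat_lit 6) (nat_lit 441) (nat_lit 3) (nat_lit 271) (nat_lit 233) (nat_lit 276)))))) (PT.nd (nat_lit 546) (PT.nd (nat_lit 234) (PT.nd (nat_lit 78) (PT.lf (nat_lit 33592) (nat_lit 6) (nat_lit 442) (nat_lit 3) (nat_lit 272) (nat_lit 233) (nat_lit 275)) (PT.nd (nat_lit 78) (PT.lf (nat_lit 33668) (nat_lit 6) (nat_lit 443) (nat_lit 3) (nat_lit 273) (nat_lit 233) (nat_lit 274)) (PT.lf (nat_lit 33668) (nat_lit 6) (nat_lit 443) (nat_lit 1) (nat_lit 274) (nat_lit 233) (nat_lit 273)))) (PT.nd (nat_lit 156) (PT.nd (nat_lit 78) (PT.lf (nat_lit 33592) (nat_lit 6) (nat_lit 442) (nat_lit 1) (nat_lit 275) (nat_lit 233) (nat_lit 272)) (PT.lf (nat_lit 33516) (nat_lit 6) (nat_lit 441) (nat_lit 1) (nat_lit 276) (nat_lit 233) (nat_lit 271))) (PT.nd (nat_lit 78) (PT.lf (nat_lit 33440) (nat_lit 6) (nat_lit 440) (nat_lit 1) (nat_lit 277) (nat_lit 233) (nat_lit 270)) (PT.lf (nat_lit 33364) (nat_lit 6) (nat_lit 439) (nat_lit 1) (nat_lit 278) (nat_lit 233) (nat_lit 269))))) (PT.nd (nat_lit 312) (PT.nd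 (nat_lit 156) (PT.nd (nat_lit 78) (PT.lf (nat_lit 33288) (nat_lit 6) (nat_lit 438) (nat_lit 1) (nat_lit 279) (nat_lit 233) (nat_lit 268)) (PT.lf (nat_lit 33212) (nat_lit 6) (nat_lit 437) (nat_lit 1) (nat_lit 280) (nat_lit 233) (nat_lit 267))) (PT.nd (nat_lit 78) (PT.lf (nat_lit 33136) (nat_lit 6) (nat_lit 436) (nat_lit 1) (nat_lit 281) (nat_lit 233) (nat_lit 266)) (PT.lf (nat_lit 33060) (nat_lit 6) (nat_lit 435) (nat_lit 1) (nat_lit 282) (nat_lit 233) (nat_lit 265)))) (PT.nd (nat_lit 156) (PT.nd (nat_lit 78) (PT.lf (nat_lit 32984) (nat_lit 6) (nat_lit 434) (nat_lit 1) (nat_lit 283) (nat_lit 233) (nat_lit 264)) (PT.lf (nat_lit 32908) (nat_lit 6) (nat_lit 433) (nat_lit 1) (nat_lit 284) (nat_lit 233) (nat_lit 263))) (PT.nd (nat_lit 79326) (PT.lf (nat_lit 32832) (nat_lit 6) (nat_lit 432) (nat_lit 1) (nat_lit 285) (nat_lit 233) (nat_lit 262)) (PT.lf (nat_lit 33744) (nat_lit 6) (nat_lit 444) (nat_lit 3) (nat_lit 261) (nat_lit 234) (nat_lit 285))))))))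
noncomputable def pc10 : PT := (PT.nd (nat_lit 81354) (PT.nd (nat_lit 1092) (PT.nd (nat_lit 546) (PT.nd (nat_lit 234) (PT.nd (nat_lit 78) (PT.lf (nat_lit 33820) (nat_lit 6) (nat_lit 445) (nat_lit 3) (nat_lit 262) (nat_lit 234) (nat_lit 284)) (PT.nd (nat_lit 78) (PT.lf (nat_lit 33896) (nat_lit 6) (nat_lit 446) (nat_lit 3) (nat_lit 263) (nat_lit 234) (nat_lit 283)) (PT.lf (nat_lit 33972) (nat_lit 6) (nat_lit 447) (nat_lit 3) (nat_lit 264) (nat_lit 234) (nat_lit 282)))) (PT.nd (nat_lit 156) (PT.nd (nat_lit 78) (PT.lf (nat_lit 34048) (nat_lit 6) (nat_lit 448) (nat_lit 3) (nat_lit 265) (nat_lit 234) (nat_lit 281)) (PT.lf (nat_lit 34124) (nat_lit 6) (nat_lit 449) (nat_lit 3) (nat_lit 266) (nat_lit 234) (nat_lit 280))) (PT.nd (nat_lit 78) (PT.lf (nat_lit 34200) (nat_lit 6) (nat_lit 450) (nat_lit 3) (nat_lit 267) (nat_lit 234) (nat_lit 279)) (PT.lf (nat_lit 34276) (nat_lit 6) (nat_lit 451) (nat_lit 3) (nat_lit 268) (nat_lit 234) (nat_lit 278))))) (PT.nd (nat_lit 234) (PT.nd (nat_lit 78) (PT.lf (nat_lit 34352) (nat_lit 6) (nat_lit 452) (nat_lit 3)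 (nat_lit 269) (nat_lit 234) (nat_lit 277)) (PT.nd (nat_lit 78) (PT.lf (nat_lit 34428) (nat_lit 6) (nat_lit 453) (nat_lit 3) (nat_lit 270) (nat_lit 234) (nat_lit 276)) (PT.lf (nat_lit 34504) (nat_lit 6) (nat_lit 454) (nat_lit 3) (nat_lit 271) (nat_lit 234) (nat_lit 275)))) (PT.nd (nat_lit 156) (PT.nd (nat_lit 78) (PT.lf (nat_lit 34580) (nat_lit 6) (nat_lit 455) (nat_lit 3) (nat_lit 272) (nat_lit 234) (nat_lit 274)) (PT.lf (nat_lit 34656) (nat_lit 3) (nat_lit 456) (nat_lit 1) (nat_lit 273) (nat_lit 234) (nat_lit 273))) (PT.nd (nat_lit 78) (PT.lf (nat_lit 34580) (nat_lit 6) (nat_lit 455) (nat_lit 1) (nat_lit 274) (nat_lit 234) (nat_lit 272)) (PT.lf (nat_lit 34504) (nat_lit 6) (nat_lit 454) (nat_lit 1) (nat_lit 275) (nat_lit 234) (nat_lit 271)))))) (PT.nd (nat_lit 546) (PT.nd (nat_lit 234) (PT.nd (nat_lit 78) (PT.lf (nat_lit 34428) (nat_lit 6) (nat_lit 453) (nat_lit 1) (nat_lit 276) (nat_lit 234) (nat_lit 270)) (PT.nd (nat_lit 78) (PT.lf (nat_lit 34352) (nat_lit 6) (nat_lit 452) (nat_lit 1) (nat_lit 277) (nat_lit 234) (nat_lit 269)) (PT.lf (nat_lit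 34276) (nat_lit 6) (nat_lit 451) (nat_lit 1) (nat_lit 278) (nat_lit 234) (nat_lit 268)))) (PT.nd (nat_lit 156) (PT.nd (nat_lit 78) (PT.lf (nat_lit 34200) (nat_lit 6) (nat_lit 450) (nat_lit 1) (nat_lit 279) (nat_lit 234) (nat_lit 267)) (PT.lf (nat_lit 34124) (nat_lit 6) (nat_lit 449) (nat_lit 1) (nat_lit 280) (nat_lit 234) (nat_lit 266))) (PT.nd (nat_lit 78) (PT.lf (nat_lit 34048) (nat_lit 6) (nat_lit 448) (nat_lit 1) (nat_lit 281) (nat_lit 234) (nat_lit 265)) (PT.lf (nat_lit 33972) (nat_lit 6) (nat_lit 447) (nat_lit 1) (nat_lit 282) (nat_lit 234) (nat_lit 264))))) (PT.nd (nat_lit 79404) (PT.nd (nat_lit 78) (PT.lf (nat_lit 33896) (nat_lit 6) (nat_lit 446) (nat_lit 1) (nat_lit 283) (nat_lit 234) (nat_lit 263)) (PT.nd (nat_lit 78) (PT.lf (nat_lit 33820) (nat_lit 6) (nat_lit 445) (nat_lit 1) (nat_lit 284) (nat_lit 234) (nat_lit 262)) (PT.lf (nat_lit 33744) (nat_lit 6) (nat_lit 444) (nat_lit 1) (nat_lit 285) (nat_lit 234) (nat_lit 261)))) (PT.nd (nat_lit 156) (PT.nd (nat_lit 78) (PT.lf (nat_lit 34808) (nat_lit 6) (nat_lit 458) (nat_lit 3) (nat_lit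 260) (nat_lit 235) (nat_lit 285)) (PT.lf (nat_lit 34884) (nat_lit 6) (nat_lit 459) (nat_lit 3) (nat_lit 261) (nat_lit 235) (nat_lit 284))) (PT.nd (nat_lit 78) (PT.lf (nat_lit 34960) (nat_lit 6) (nat_lit 460) (nat_lit 3) (nat_lit 262) (nat_lit 235) (nat_lit 283)) (PT.lf (nat_lit 35036) (nat_lit 6) (nat_lit 461) (nat_lit 3) (nat_lit 263) (nat_lit 235) (nat_lit 282))))))) (PT.nd (nat_lit 1092) (PT.nd (nat_lit 546) (PT.nd (nat_lit 234) (PT.nd (nat_lit 78) (PT.lf (nat_lit 35112) (nat_lit 6) (nat_lit 462) (nat_lit 3) (nat_lit 264) (nat_lit 235) (nat_lit 281)) (PT.nd (nat_lit 78) (PT.lf (nat_lit 35188) (nat_lit 6) (nat_lit 463) (nat_lit 3) (nat_lit 265) (nat_lit 235) (nat_lit 280)) (PT.lf (nat_lit 35264) (nat_lit 6) (nat_lit 464) (nat_lit 3) (nat_lit 266) (nat_lit 235) (nat_lit 279)))) (PT.nd (nat_lit 156) (PT.nd (nat_lit 78) (PT.lf (nat_lit 35340) (nat_lit 6) (nat_lit 465) (nat_lit 3) (nat_lit 267) (nat_lit 235) (nat_lit 278)) (PT.lf (nat_lit 35416) (nat_lit 6) (nat_lit 466) (nat_lit 3) (nat_lit 268) (nat_lit 235) (nat_lit 277))) (PT.nd (nat_lit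 78) (PT.lf (nat_lit 35492) (nat_lit 6) (nat_lit 467) (nat_lit 3) (nat_lit 269) (nat_lit 235) (nat_lit 276)) (PT.lf (nat_lit 35568) (nat_lit 6) (nat_lit 468) (nat_lit 3) (nat_lit 270) (nat_lit 235) (nat_lit 275))))) (PT.nd (nat_lit 234) (PT.nd (nat_lit 78) (PT.lf (nat_lit 35644) (nat_lit 6) (nat_lit 469) (nat_lit 3) (nat_lit 271) (nat_lit 235) (nat_lit 274)) (PT.nd (nat_lit 78) (PT.lf (nat_lit 35720) (nat_lit 6) (nat_lit 470) (nat_lit 3) (nat_lit 272) (nat_lit 235) (nat_lit 273)) (PT.lf (nat_lit 35720) (nat_lit 6) (nat_lit 470) (nat_lit 1) (nat_lit 273) (nat_lit 235) (nat_lit 272)))) (PT.nd (nat_lit 156) (PT.nd (nat_lit 78) (PT.lf (nat_lit 35644) (nat_lit 6) (nat_lit 469) (nat_lit 1) (nat_lit 274) (nat_lit 235) (nat_lit 271)) (PT.lf (nat_lit 35568) (nat_lit 6) (nat_lit 468) (nat_lit 1) (nat_lit 275) (nat_lit 235) (nat_lit 270))) (PT.nd (nat_lit 78) (PT.lf (nat_lit 35492) (nat_lit 6) (nat_lit 467) (nat_lit 1) (nat_lit 276) (nat_lit 235) (nat_lit 269)) (PT.lf (nat_lit 35416) (nat_lit 6) (nat_lit 466) (nat_lit 1) (nat_lit 277) (nat_lit 235)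 (nat_lit 268)))))) (PT.nd (nat_lit 546) (PT.nd (nat_lit 234) (PT.nd (nat_lit 78) (PT.lf (nat_lit 35340) (nat_lit 6) (nat_lit 465) (nat_lit 1) (nat_lit 278) (nat_lit 235) (nat_lit 267)) (PT.nd (nat_lit 78) (PT.lf (nat_lit 35264) (nat_lit 6) (nat_lit 464) (nat_lit 1) (nat_lit 279) (nat_lit 235) (nat_lit 266)) (PT.lf (nat_lit 35188) (nat_lit 6) (nat_lit 463) (nat_lit 1) (nat_lit 280) (nat_lit 235) (nat_lit 265)))) (PT.nd (nat_lit 156) (PT.nd (nat_lit 78) (PT.lf (nat_lit 35112) (nat_lit 6) (nat_lit 462) (nat_lit 1) (nat_lit 281) (nat_lit 235) (nat_lit 264)) (PT.lf (nat_lit 35036) (nat_lit 6) (nat_lit 461) (nat_lit 1) (nat_lit 282) (nat_lit 235) (nat_lit 263))) (PT.nd (nat_lit 78) (PT.lf (nat_lit 34960) (nat_lit 6) (nat_lit 460) (nat_lit 1) (nat_lit 283) (nat_lit 235) (nat_lit 262)) (PT.lf (nat_lit 34884) (nat_lit 6) (nat_lit 459) (nat_lit 1) (nat_lit 284) (nat_lit 235) (nat_lit 261))))) (PT.nd (nat_lit 79404) (PT.nd (nat_lit 79248) (PT.nd (nat_lit 79170) (PT.lf (nat_lit 34808) (nat_lit 6) (nat_lit 458) (nat_lit 1) (nat_lit 285) (nat_lit 235)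 (nat_lit 260)) (PT.lf (nat_lit 34732) (nat_lit 6) (nat_lit 457) (nat_lit 3) (nat_lit 259) (nat_lit 236) (nat_lit 285))) (PT.nd (nat_lit 78) (PT.lf (nat_lit 36708) (nat_lit 6) (nat_lit 483) (nat_lit 3) (nat_lit 260) (nat_lit 236) (nat_lit 284)) (PT.lf (nat_lit 36784) (nat_lit 6) (nat_lit 484) (nat_lit 3) (nat_lit 261) (nat_lit 236) (nat_lit 283)))) (PT.nd (nat_lit 156) (PT.nd (nat_lit 78) (PT.lf (nat_lit 36860) (nat_lit 6) (nat_lit 485) (nat_lit 3) (nat_lit 262) (nat_lit 236) (nat_lit 282)) (PT.lf (nat_lit 36936) (nat_lit 6) (nat_lit 486) (nat_lit 3) (nat_lit 263) (nat_lit 236) (nat_lit 281))) (PT.nd (nat_lit 78) (PT.lf (nat_lit 37012) (nat_lit 6) (nat_lit 487) (nat_lit 3) (nat_lit 264) (nat_lit 236) (nat_lit 280)) (PT.lf (nat_lit 37088) (nat_lit 6) (nat_lit 488) (nat_lit 3) (nat_lit 265) (nat_lit 236) (nat_lit 279))))))))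
noncomputable def pc11 : PT := (PT.nd (nat_lit 81354) (PT.nd (nat_lit 1092) (PT.nd (nat_lit 546) (PT.nd (nat_lit 234) (PT.nd (nat_lit 78) (PT.lf (nat_lit 37164) (nat_lit 6) (nat_lit 489) (nat_lit 3) (nat_lit 266) (nat_lit 236) (nat_lit 278)) (PT.nd (nat_lit 78) (PT.lf (nat_lit 37240) (nat_lit 6) (nat_lit 490) (nat_lit 3) (nat_lit 267) (nat_lit 236) (nat_lit 277)) (PT.lf (nat_lit 37316) (nat_lit 6) (nat_lit 491) (nat_lit 3) (nat_lit 268) (nat_lit 236) (nat_lit 276)))) (PT.nd (nat_lit 156) (PT.nd (nat_lit 78) (PT.lf (nat_lit 37392) (nat_lit 6) (nat_lit 492) (nat_lit 3) (nat_lit 269) (nat_lit 236) (nat_lit 275)) (PT.lf (nat_lit 37468) (nat_lit 6) (nat_lit 493) (nat_lit 3) (nat_lit 270) (nat_lit 236) (nat_lit 274))) (PT.nd (nat_lit 78) (PT.lf (nat_lit 37544) (nat_lit 6) (nat_lit 494) (nat_lit 3) (nat_lit 271) (nat_lit 236) (nat_lit 273)) (PT.lf (nat_lit 37620) (nat_lit 3) (nat_lit 495) (nat_lit 1) (nat_lit 272) (nat_lit 236) (nat_lit 272))))) (PT.nd (nat_lit 234) (PT.nd (nat_lit 78) (PT.lf (nat_lit 37544) (nat_lit 6) (nat_lit 494) (nat_lit 1)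 (nat_lit 273) (nat_lit 236) (nat_lit 271)) (PT.nd (nat_lit 78) (PT.lf (nat_lit 37468) (nat_lit 6) (nat_lit 493) (nat_lit 1) (nat_lit 274) (nat_lit 236) (nat_lit 270)) (PT.lf (nat_lit 37392) (nat_lit 6) (nat_lit 492) (nat_lit 1) (nat_lit 275) (nat_lit 236) (nat_lit 269)))) (PT.nd (nat_lit 156) (PT.nd (nat_lit 78) (PT.lf (nat_lit 37316) (nat_lit 6) (nat_lit 491) (nat_lit 1) (nat_lit 276) (nat_lit 236) (nat_lit 268)) (PT.lf (nat_lit 37240) (nat_lit 6) (nat_lit 490) (nat_lit 1) (nat_lit 277) (nat_lit 236) (nat_lit 267))) (PT.nd (nat_lit 78) (PT.lf (nat_lit 37164) (nat_lit 6) (nat_lit 489) (nat_lit 1) (nat_lit 278) (nat_lit 236) (nat_lit 266)) (PT.lf (nat_lit 37088) (nat_lit 6) (nat_lit 488) (nat_lit 1) (nat_lit 279) (nat_lit 236) (nat_lit 265)))))) (PT.nd (nat_lit 79638) (PT.nd (nat_lit 234) (PT.nd (nat_lit 78) (PT.lf (nat_lit 37012) (nat_lit 6) (nat_lit 487) (nat_lit 1) (nat_lit 280) (nat_lit 236) (nat_lit 264)) (PT.nd (nat_lit 78) (PT.lf (nat_lit 36936) (nat_lit 6) (nat_lit 486) (nat_lit 1) (nat_lit 281) (nat_lit 236) (nat_lit 263)) (PT.lf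 (nat_lit 36860) (nat_lit 6) (nat_lit 485) (nat_lit 1) (nat_lit 282) (nat_lit 236) (nat_lit 262)))) (PT.nd (nat_lit 156) (PT.nd (nat_lit 78) (PT.lf (nat_lit 36784) (nat_lit 6) (nat_lit 484) (nat_lit 1) (nat_lit 283) (nat_lit 236) (nat_lit 261)) (PT.lf (nat_lit 36708) (nat_lit 6) (nat_lit 483) (nat_lit 1) (nat_lit 284) (nat_lit 236) (nat_lit 260))) (PT.nd (nat_lit 79170) (PT.lf (nat_lit 34732) (nat_lit 6) (nat_lit 457) (nat_lit 1) (nat_lit 285) (nat_lit 236) (nat_lit 259)) (PT.lf (nat_lit 36632) (nat_lit 6) (nat_lit 482) (nat_lit 3) (nat_lit 259) (nat_lit 237) (nat_lit 284))))) (PT.nd (nat_lit 312) (PT.nd (nat_lit 156) (PT.nd (nat_lit 78) (PT.lf (nat_lit 38532) (nat_lit 6) (nat_lit 507) (nat_lit 3) (nat_lit 260) (nat_lit 237) (nat_lit 283)) (PT.lf (nat_lit 38608) (nat_lit 6) (nat_lit 508) (nat_lit 3) (nat_lit 261) (nat_lit 237) (nat_lit 282))) (PT.nd (nat_lit 78) (PT.lf (nat_lit 38684) (nat_lit 6) (nat_lit 509) (nat_lit 3) (nat_lit 262) (nat_lit 237) (nat_lit 281)) (PT.lf (nat_lit 38760) (nat_lit 6) (nat_lit 510) (nat_lit 3) (nat_lit 263)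 (nat_lit 237) (nat_lit 280)))) (PT.nd (nat_lit 156) (PT.nd (nat_lit 78) (PT.lf (nat_lit 38836) (nat_lit 6) (nat_lit 511) (nat_lit 3) (nat_lit 264) (nat_lit 237) (nat_lit 279)) (PT.lf (nat_lit 38912) (nat_lit 6) (nat_lit 512) (nat_lit 3) (nat_lit 265) (nat_lit 237) (nat_lit 278))) (PT.nd (nat_lit 78) (PT.lf (nat_lit 38988) (nat_lit 6) (nat_lit 513) (nat_lit 3) (nat_lit 266) (nat_lit 237) (nat_lit 277)) (PT.lf (nat_lit 39064) (nat_lit 6) (nat_lit 514) (nat_lit 3) (nat_lit 267) (nat_lit 237) (nat_lit 276))))))) (PT.nd (nat_lit 1092) (PT.nd (nat_lit 546) (PT.nd (nat_lit 234) (PT.nd (nat_lit 78) (PT.lf (nat_lit 39140) (nat_lit 6) (nat_lit 515) (nat_lit 3) (nat_lit 268) (nat_lit 237) (nat_lit 275)) (PT.nd (nat_lit 78) (PT.lf (nat_lit 39216) (nat_lit 6) (nat_lit 516) (nat_lit 3) (nat_lit 269) (nat_lit 237) (nat_lit 274)) (PT.lf (nat_lit 39292) (nat_lit 6) (nat_lit 517) (nat_lit 3) (nat_lit 270) (nat_lit 237) (nat_lit 273)))) (PT.nd (nat_lit 156) (PT.nd (nat_lit 78) (PT.lf (nat_lit 39368) (nat_lit 6) (nat_lit 518) (nat_lit 3) (nat_lit 271) (nat_lit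 237) (nat_lit 272)) (PT.lf (nat_lit 39368) (nat_lit 6) (nat_lit 518) (nat_lit 1) (nat_lit 272) (nat_lit 237) (nat_lit 271))) (PT.nd (nat_lit 78) (PT.lf (nat_lit 39292) (nat_lit 6) (nat_lit 517) (nat_lit 1) (nat_lit 273) (nat_lit 237) (nat_lit 270)) (PT.lf (nat_lit 39216) (nat_lit 6) (nat_lit 516) (nat_lit 1) (nat_lit 274) (nat_lit 237) (nat_lit 269))))) (PT.nd (nat_lit 234) (PT.nd (nat_lit 78) (PT.lf (nat_lit 39140) (nat_lit 6) (nat_lit 515) (nat_lit 1) (nat_lit 275) (nat_lit 237) (nat_lit 268)) (PT.nd (nat_lit 78) (PT.lf (nat_lit 39064) (nat_lit 6) (nat_lit 514) (nat_lit 1) (nat_lit 276) (nat_lit 237) (nat_lit 267)) (PT.lf (nat_lit 38988) (nat_lit 6) (nat_lit 513) (nat_lit 1) (nat_lit 277) (nat_lit 237) (nat_lit 266)))) (PT.nd (nat_lit 156) (PT.nd (nat_lit 78) (PT.lf (nat_lit 38912) (nat_lit 6) (nat_lit 512) (nat_lit 1) (nat_lit 278) (nat_lit 237) (nat_lit 265)) (PT.lf (nat_lit 38836) (nat_lit 6) (nat_lit 511) (nat_lit 1) (nat_lit 279) (nat_lit 237) (nat_lit 264))) (PT.nd (nat_lit 78) (PT.lf (nat_lit 38760) (nat_lit 6) (nat_lit 510) (nat_lit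 1) (nat_lit 280) (nat_lit 237) (nat_lit 263)) (PT.lf (nat_lit 38684) (nat_lit 6) (nat_lit 509) (nat_lit 1) (nat_lit 281) (nat_lit 237) (nat_lit 262)))))) (PT.nd (nat_lit 79638) (PT.nd (nat_lit 79326) (PT.nd (nat_lit 78) (PT.lf (nat_lit 38608) (nat_lit 6) (nat_lit 508) (nat_lit 1) (nat_lit 282) (nat_lit 237) (nat_lit 261)) (PT.nd (nat_lit 78) (PT.lf (nat_lit 38532) (nat_lit 6) (nat_lit 507) (nat_lit 1) (nat_lit 283) (nat_lit 237) (nat_lit 260)) (PT.lf (nat_lit 36632) (nat_lit 6) (nat_lit 482) (nat_lit 1) (nat_lit 284) (nat_lit 237) (nat_lit 259)))) (PT.nd (nat_lit 156) (PT.nd (nat_lit 78) (PT.lf (nat_lit 36556) (nat_lit 6) (nat_lit 481) (nat_lit 3) (nat_lit 258) (nat_lit 238) (nat_lit 284)) (PT.lf (nat_lit 38456) (nat_lit 6) (nat_lit 506) (nat_lit 3) (nat_lit 259) (nat_lit 238) (nat_lit 283))) (PT.nd (nat_lit 78) (PT.lf (nat_lit 40280) (nat_lit 6) (nat_lit 530) (nat_lit 3) (nat_lit 260) (nat_lit 238) (nat_lit 282)) (PT.lf (nat_lit 40356) (nat_lit 6) (nat_lit 531) (nat_lit 3) (nat_lit 261) (nat_lit 238) (nat_lit 281))))) (PT.nd (nat_lit 312)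 (PT.nd (nat_lit 156) (PT.nd (nat_lit 78) (PT.lf (nat_lit 40432) (nat_lit 6) (nat_lit 532) (nat_lit 3) (nat_lit 262) (nat_lit 238) (nat_lit 280)) (PT.lf (nat_lit 40508) (nat_lit 6) (nat_lit 533) (nat_lit 3) (nat_lit 263) (nat_lit 238) (nat_lit 279))) (PT.nd (nat_lit 78) (PT.lf (nat_lit 40584) (nat_lit 6) (nat_lit 534) (nat_lit 3) (nat_lit 264) (nat_lit 238) (nat_lit 278)) (PT.lf (nat_lit 40660) (nat_lit 6) (nat_lit 535) (nat_lit 3) (nat_lit 265) (nat_lit 238) (nat_lit 277)))) (PT.nd (nat_lit 156) (PT.nd (nat_lit 78) (PT.lf (nat_lit 40736) (nat_lit 6) (nat_lit 536) (nat_lit 3) (nat_lit 266) (nat_lit 238) (nat_lit 276)) (PT.lf (nat_lit 40812) (nat_lit 6) (nat_lit 537) (nat_lit 3) (nat_lit 267) (nat_lit 238) (nat_lit 275))) (PT.nd (nat_lit 78) (PT.lf (nat_lit 40888) (nat_lit 6) (nat_lit 538) (nat_lit 3) (nat_lit 268) (nat_lit 238) (nat_lit 274)) (PT.lf (nat_lit 40964) (nat_lit 6) (nat_lit 539) (nat_lit 3) (nat_lit 269) (nat_lit 238) (nat_lit 273))))))))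
noncomputable def pc12 : PT := (PT.nd (nat_lit 81198) (PT.nd (nat_lit 1092) (PT.nd (nat_lit 546) (PT.nd (nat_lit 234) (PT.nd (nat_lit 78) (PT.lf (nat_lit 41040) (nat_lit 6) (nat_lit 540) (nat_lit 3) (nat_lit 270) (nat_lit 238) (nat_lit 272)) (PT.nd (nat_lit 78) (PT.lf (nat_lit 41116) (nat_lit 3) (nat_lit 541) (nat_lit 1) (nat_lit 271) (nat_lit 238) (nat_lit 271)) (PT.lf (nat_lit 41040) (nat_lit 6) (nat_lit 540) (nat_lit 1) (nat_lit 272) (nat_lit 238) (nat_lit 270)))) (PT.nd (nat_lit 156) (PT.nd (nat_lit 78) (PT.lf (nat_lit 40964) (nat_lit 6) (nat_lit 539) (nat_lit 1) (nat_lit 273) (nat_lit 238) (nat_lit 269)) (PT.lf (nat_lit 40888) (nat_lit 6) (nat_lit 538) (nat_lit 1) (nat_lit 274) (nat_lit 238) (nat_lit 268))) (PT.nd (nat_lit 78) (PT.lf (nat_lit 40812) (nat_lit 6) (nat_lit 537) (nat_lit 1) (nat_lit 275) (nat_lit 238) (nat_lit 267)) (PT.lf (nat_lit 40736) (nat_lit 6) (nat_lit 536) (nat_lit 1) (nat_lit 276) (nat_lit 238) (nat_lit 266))))) (PT.nd (nat_lit 234) (PT.nd (nat_lit 78) (PT.lf (nat_lit 40660) (nat_lit 6) (nat_lit 535) (nat_lit 1)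 (nat_lit 277) (nat_lit 238) (nat_lit 265)) (PT.nd (nat_lit 78) (PT.lf (nat_lit 40584) (nat_lit 6) (nat_lit 534) (nat_lit 1) (nat_lit 278) (nat_lit 238) (nat_lit 264)) (PT.lf (nat_lit 40508) (nat_lit 6) (nat_lit 533) (nat_lit 1) (nat_lit 279) (nat_lit 238) (nat_lit 263)))) (PT.nd (nat_lit 156) (PT.nd (nat_lit 78) (PT.lf (nat_lit 40432) (nat_lit 6) (nat_lit 532) (nat_lit 1) (nat_lit 280) (nat_lit 238) (nat_lit 262)) (PT.lf (nat_lit 40356) (nat_lit 6) (nat_lit 531) (nat_lit 1) (nat_lit 281) (nat_lit 238) (nat_lit 261))) (PT.nd (nat_lit 78) (PT.lf (nat_lit 40280) (nat_lit 6) (nat_lit 530) (nat_lit 1) (nat_lit 282) (nat_lit 238) (nat_lit 260)) (PT.lf (nat_lit 38456) (nat_lit 6) (nat_lit 506) (nat_lit 1) (nat_lit 283) (nat_lit 238) (nat_lit 259)))))) (PT.nd (nat_lit 79560) (PT.nd (nat_lit 79248) (PT.nd (nat_lit 79092) (PT.lf (nat_lit 36556) (nat_lit 6) (nat_lit 481) (nat_lit 1) (nat_lit 284) (nat_lit 238) (nat_lit 258)) (PT.nd (nat_lit 78) (PT.lf (nat_lit 36480) (nat_lit 6) (nat_lit 480) (nat_lit 3) (nat_lit 257) (nat_lit 239) (nat_lit 284)) (PT.lf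 (nat_lit 38380) (nat_lit 6) (nat_lit 505) (nat_lit 3) (nat_lit 258) (nat_lit 239) (nat_lit 283)))) (PT.nd (nat_lit 156) (PT.nd (nat_lit 78) (PT.lf (nat_lit 40204) (nat_lit 6) (nat_lit 529) (nat_lit 3) (nat_lit 259) (nat_lit 239) (nat_lit 282)) (PT.lf (nat_lit 41952) (nat_lit 6) (nat_lit 552) (nat_lit 3) (nat_lit 260) (nat_lit 239) (nat_lit 281))) (PT.nd (nat_lit 78) (PT.lf (nat_lit 42028) (nat_lit 6) (nat_lit 553) (nat_lit 3) (nat_lit 261) (nat_lit 239) (nat_lit 280)) (PT.lf (nat_lit 42104) (nat_lit 6) (nat_lit 554) (nat_lit 3) (nat_lit 262) (nat_lit 239) (nat_lit 279))))) (PT.nd (nat_lit 234) (PT.nd (nat_lit 78) (PT.lf (nat_lit 42180) (nat_lit 6) (nat_lit 555) (nat_lit 3) (nat_lit 263) (nat_lit 239) (nat_lit 278)) (PT.nd (nat_lit 78) (PT.lf (nat_lit 42256) (nat_lit 6) (nat_lit 556) (nat_lit 3) (nat_lit 264) (nat_lit 239) (nat_lit 277)) (PT.lf (nat_lit 42332) (nat_lit 6) (nat_lit 557) (nat_lit 3) (nat_lit 265) (nat_lit 239) (nat_lit 276)))) (PT.nd (nat_lit 156) (PT.nd (nat_lit 78) (PT.lf (nat_lit 42408) (nat_lit 6) (nat_lit 558) (nat_lit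 3) (nat_lit 266) (nat_lit 239) (nat_lit 275)) (PT.lf (nat_lit 42484) (nat_lit 6) (nat_lit 559) (nat_lit 3) (nat_lit 267) (nat_lit 239) (nat_lit 274))) (PT.nd (nat_lit 78) (PT.lf (nat_lit 42560) (nat_lit 6) (nat_lit 560) (nat_lit 3) (nat_lit 268) (nat_lit 239) (nat_lit 273)) (PT.lf (nat_lit 42636) (nat_lit 6) (nat_lit 561) (nat_lit 3) (nat_lit 269) (nat_lit 239) (nat_lit 272))))))) (PT.nd (nat_lit 1092) (PT.nd (nat_lit 546) (PT.nd (nat_lit 234) (PT.nd (nat_lit 78) (PT.lf (nat_lit 42712) (nat_lit 6) (nat_lit 562) (nat_lit 3) (nat_lit 270) (nat_lit 239) (nat_lit 271)) (PT.nd (nat_lit 78) (PT.lf (nat_lit 42712) (nat_lit 6) (nat_lit 562) (nat_lit 1) (nat_lit 271) (nat_lit 239) (nat_lit 270)) (PT.lf (nat_lit 42636) (nat_lit 6) (nat_lit 561) (nat_lit 1) (nat_lit 272) (nat_lit 239) (nat_lit 269)))) (PT.nd (nat_lit 156) (PT.nd (nat_lit 78) (PT.lf (nat_lit 42560) (nat_lit 6) (nat_lit 560) (nat_lit 1) (nat_lit 273) (nat_lit 239) (nat_lit 268)) (PT.lf (nat_lit 42484) (nat_lit 6) (nat_lit 559) (nat_lit 1) (nat_lit 274) (nat_lit 239) (nat_lit 267))) (PT.nd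 (nat_lit 78) (PT.lf (nat_lit 42408) (nat_lit 6) (nat_lit 558) (nat_lit 1) (nat_lit 275) (nat_lit 239) (nat_lit 266)) (PT.lf (nat_lit 42332) (nat_lit 6) (nat_lit 557) (nat_lit 1) (nat_lit 276) (nat_lit 239) (nat_lit 265))))) (PT.nd (nat_lit 234) (PT.nd (nat_lit 78) (PT.lf (nat_lit 42256) (nat_lit 6) (nat_lit 556) (nat_lit 1) (nat_lit 277) (nat_lit 239) (nat_lit 264)) (PT.nd (nat_lit 78) (PT.lf (nat_lit 42180) (nat_lit 6) (nat_lit 555) (nat_lit 1) (nat_lit 278) (nat_lit 239) (nat_lit 263)) (PT.lf (nat_lit 42104) (nat_lit 6) (nat_lit 554) (nat_lit 1) (nat_lit 279) (nat_lit 239) (nat_lit 262)))) (PT.nd (nat_lit 156) (PT.nd (nat_lit 78) (PT.lf (nat_lit 42028) (nat_lit 6) (nat_lit 553) (nat_lit 1) (nat_lit 280) (nat_lit 239) (nat_lit 261)) (PT.lf (nat_lit 41952) (nat_lit 6) (nat_lit 552) (nat_lit 1) (nat_lit 281) (nat_lit 239) (nat_lit 260))) (PT.nd (nat_lit 78) (PT.lf (nat_lit 40204) (nat_lit 6) (nat_lit 529) (nat_lit 1) (nat_lit 282) (nat_lit 239) (nat_lit 259)) (PT.lf (nat_lit 38380) (nat_lit 6) (nat_lit 505) (nat_lit 1) (nat_lit 283) (nat_lit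 239) (nat_lit 258)))))) (PT.nd (nat_lit 79482) (PT.nd (nat_lit 79170) (PT.nd (nat_lit 79014) (PT.lf (nat_lit 36480) (nat_lit 6) (nat_lit 480) (nat_lit 1) (nat_lit 284) (nat_lit 239) (nat_lit 257)) (PT.nd (nat_lit 78) (PT.lf (nat_lit 36404) (nat_lit 6) (nat_lit 479) (nat_lit 3) (nat_lit 256) (nat_lit 240) (nat_lit 284)) (PT.lf (nat_lit 38304) (nat_lit 6) (nat_lit 504) (nat_lit 3) (nat_lit 257) (nat_lit 240) (nat_lit 283)))) (PT.nd (nat_lit 156) (PT.nd (nat_lit 78) (PT.lf (nat_lit 40128) (nat_lit 6) (nat_lit 528) (nat_lit 3) (nat_lit 258) (nat_lit 240) (nat_lit 282)) (PT.lf (nat_lit 41876) (nat_lit 6) (nat_lit 551) (nat_lit 3) (nat_lit 259) (nat_lit 240) (nat_lit 281))) (PT.nd (nat_lit 78) (PT.lf (nat_lit 43548) (nat_lit 6) (nat_lit 573) (nat_lit 3) (nat_lit 260) (nat_lit 240) (nat_lit 280)) (PT.lf (nat_lit 43624) (nat_lit 6) (nat_lit 574) (nat_lit 3) (nat_lit 261) (nat_lit 240) (nat_lit 279))))) (PT.nd (nat_lit 312) (PT.nd (nat_lit 156) (PT.nd (nat_lit 78) (PT.lf (nat_lit 43700) (nat_lit 6) (nat_lit 575) (nat_lit 3) (nat_lit 262) (nat_lit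 240) (nat_lit 278)) (PT.lf (nat_lit 43776) (nat_lit 6) (nat_lit 576) (nat_lit 3) (nat_lit 263) (nat_lit 240) (nat_lit 277))) (PT.nd (nat_lit 78) (PT.lf (nat_lit 43852) (nat_lit 6) (nat_lit 577) (nat_lit 3) (nat_lit 264) (nat_lit 240) (nat_lit 276)) (PT.lf (nat_lit 43928) (nat_lit 6) (nat_lit 578) (nat_lit 3) (nat_lit 265) (nat_lit 240) (nat_lit 275)))) (PT.nd (nat_lit 156) (PT.nd (nat_lit 78) (PT.lf (nat_lit 44004) (nat_lit 6) (nat_lit 579) (nat_lit 3) (nat_lit 266) (nat_lit 240) (nat_lit 274)) (PT.lf (nat_lit 44080) (nat_lit 6) (nat_lit 580) (nat_lit 3) (nat_lit 267) (nat_lit 240) (nat_lit 273))) (PT.nd (nat_lit 78) (PT.lf (nat_lit 44156) (nat_lit 6) (nat_lit 581) (nat_lit 3) (nat_lit 268) (nat_lit 240) (nat_lit 272)) (PT.lf (nat_lit 44232) (nat_lit 6) (nat_lit 582) (nat_lit 3) (nat_lit 269) (nat_lit 240) (nat_lit 271))))))))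
noncomputable def pc13 : PT := (PT.nd (nat_lit 81120) (PT.nd (nat_lit 1092) (PT.nd (nat_lit 546) (PT.nd (nat_lit 234) (PT.nd (nat_lit 78) (PT.lf (nat_lit 44308) (nat_lit 3) (nat_lit 583) (nat_lit 1) (nat_lit 270) (nat_lit 240) (nat_lit 270)) (PT.nd (nat_lit 78) (PT.lf (nat_lit 44232) (nat_lit 6) (nat_lit 582) (nat_lit 1) (nat_lit 271) (nat_lit 240) (nat_lit 269)) (PT.lf (nat_lit 44156) (nat_lit 6) (nat_lit 581) (nat_lit 1) (nat_lit 272) (nat_lit 240) (nat_lit 268)))) (PT.nd (nat_lit 156) (PT.nd (nat_lit 78) (PT.lf (nat_lit 44080) (nat_lit 6) (nat_lit 580) (nat_lit 1) (nat_lit 273) (nat_lit 240) (nat_lit 267)) (PT.lf (nat_lit 44004) (nat_lit 6) (nat_lit 579) (nat_lit 1) (nat_lit 274) (nat_lit 240) (nat_lit 266))) (PT.nd (nat_lit 78) (PT.lf (nat_lit 43928) (nat_lit 6) (nat_lit 578) (nat_lit 1) (nat_lit 275) (nat_lit 240) (nat_lit 265)) (PT.lf (nat_lit 43852) (nat_lit 6) (nat_lit 577) (nat_lit 1) (nat_lit 276) (nat_lit 240) (nat_lit 264))))) (PT.nd (nat_lit 234) (PT.nd (nat_lit 78) (PT.lf (nat_lit 43776) (nat_lit 6) (nat_lit 576) (nat_lit 1)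 (nat_lit 277) (nat_lit 240) (nat_lit 263)) (PT.nd (nat_lit 78) (PT.lf (nat_lit 43700) (nat_lit 6) (nat_lit 575) (nat_lit 1) (nat_lit 278) (nat_lit 240) (nat_lit 262)) (PT.lf (nat_lit 43624) (nat_lit 6) (nat_lit 574) (nat_lit 1) (nat_lit 279) (nat_lit 240) (nat_lit 261)))) (PT.nd (nat_lit 156) (PT.nd (nat_lit 78) (PT.lf (nat_lit 43548) (nat_lit 6) (nat_lit 573) (nat_lit 1) (nat_lit 280) (nat_lit 240) (nat_lit 260)) (PT.lf (nat_lit 41876) (nat_lit 6) (nat_lit 551) (nat_lit 1) (nat_lit 281) (nat_lit 240) (nat_lit 259))) (PT.nd (nat_lit 78) (PT.lf (nat_lit 40128) (nat_lit 6) (nat_lit 528) (nat_lit 1) (nat_lit 282) (nat_lit 240) (nat_lit 258)) (PT.lf (nat_lit 38304) (nat_lit 6) (nat_lit 504) (nat_lit 1) (nat_lit 283) (nat_lit 240) (nat_lit 257)))))) (PT.nd (nat_lit 79404) (PT.nd (nat_lit 79092) (PT.nd (nat_lit 78936) (PT.lf (nat_lit 36404) (nat_lit 6) (nat_lit 479) (nat_lit 1) (nat_lit 284) (nat_lit 240) (nat_lit 256)) (PT.nd (nat_lit 78) (PT.lf (nat_lit 36328) (nat_lit 6) (nat_lit 478) (nat_lit 3) (nat_lit 255) (nat_lit 241) (nat_lit 284)) (PT.lf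 (nat_lit 38228) (nat_lit 6) (nat_lit 503) (nat_lit 3) (nat_lit 256) (nat_lit 241) (nat_lit 283)))) (PT.nd (nat_lit 156) (PT.nd (nat_lit 78) (PT.lf (nat_lit 40052) (nat_lit 6) (nat_lit 527) (nat_lit 3) (nat_lit 257) (nat_lit 241) (nat_lit 282)) (PT.lf (nat_lit 41800) (nat_lit 6) (nat_lit 550) (nat_lit 3) (nat_lit 258) (nat_lit 241) (nat_lit 281))) (PT.nd (nat_lit 78) (PT.lf (nat_lit 43472) (nat_lit 6) (nat_lit 572) (nat_lit 3) (nat_lit 259) (nat_lit 241) (nat_lit 280)) (PT.lf (nat_lit 45068) (nat_lit 6) (nat_lit 593) (nat_lit 3) (nat_lit 260) (nat_lit 241) (nat_lit 279))))) (PT.nd (nat_lit 312) (PT.nd (nat_lit 156) (PT.nd (nat_lit 78) (PT.lf (nat_lit 45144) (nat_lit 6) (nat_lit 594) (nat_lit 3) (nat_lit 261) (nat_lit 241) (nat_lit 278)) (PT.lf (nat_lit 45220) (nat_lit 6) (nat_lit 595) (nat_lit 3) (nat_lit 262) (nat_lit 241) (nat_lit 277))) (PT.nd (nat_lit 78) (PT.lf (nat_lit 45296) (nat_lit 6) (nat_lit 596) (nat_lit 3) (nat_lit 263) (nat_lit 241) (nat_lit 276)) (PT.lf (nat_lit 45372) (nat_lit 6) (nat_lit 597) (nat_lit 3) (nat_lit 264) (nat_lit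 241) (nat_lit 275)))) (PT.nd (nat_lit 156) (PT.nd (nat_lit 78) (PT.lf (nat_lit 45448) (nat_lit 6) (nat_lit 598) (nat_lit 3) (nat_lit 265) (nat_lit 241) (nat_lit 274)) (PT.lf (nat_lit 45524) (nat_lit 6) (nat_lit 599) (nat_lit 3) (nat_lit 266) (nat_lit 241) (nat_lit 273))) (PT.nd (nat_lit 78) (PT.lf (nat_lit 45600) (nat_lit 6) (nat_lit 600) (nat_lit 3) (nat_lit 267) (nat_lit 241) (nat_lit 272)) (PT.lf (nat_lit 45676) (nat_lit 6) (nat_lit 601) (nat_lit 3) (nat_lit 268) (nat_lit 241) (nat_lit 271))))))) (PT.nd (nat_lit 1092) (PT.nd (nat_lit 546) (PT.nd (nat_lit 234) (PT.nd (nat_lit 78) (PT.lf (nat_lit 45752) (nat_lit 6) (nat_lit 602) (nat_lit 3) (nat_lit 269) (nat_lit 241) (nat_lit 270)) (PT.nd (nat_lit 78) (PT.lf (nat_lit 45752) (nat_lit 6) (nat_lit 602) (nat_lit 1) (nat_lit 270) (nat_lit 241) (nat_lit 269)) (PT.lf (nat_lit 45676) (nat_lit 6) (nat_lit 601) (nat_lit 1) (nat_lit 271) (nat_lit 241) (nat_lit 268)))) (PT.nd (nat_lit 156) (PT.nd (nat_lit 78) (PT.lf (nat_lit 45600) (nat_lit 6) (nat_lit 600) (nat_lit 1) (nat_lit 272) (nat_lit 241)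 (nat_lit 267)) (PT.lf (nat_lit 45524) (nat_lit 6) (nat_lit 599) (nat_lit 1) (nat_lit 273) (nat_lit 241) (nat_lit 266))) (PT.nd (nat_lit 78) (PT.lf (nat_lit 45448) (nat_lit 6) (nat_lit 598) (nat_lit 1) (nat_lit 274) (nat_lit 241) (nat_lit 265)) (PT.lf (nat_lit 45372) (nat_lit 6) (nat_lit 597) (nat_lit 1) (nat_lit 275) (nat_lit 241) (nat_lit 264))))) (PT.nd (nat_lit 234) (PT.nd (nat_lit 78) (PT.lf (nat_lit 45296) (nat_lit 6) (nat_lit 596) (nat_lit 1) (nat_lit 276) (nat_lit 241) (nat_lit 263)) (PT.nd (nat_lit 78) (PT.lf (nat_lit 45220) (nat_lit 6) (nat_lit 595) (nat_lit 1) (nat_lit 277) (nat_lit 241) (nat_lit 262)) (PT.lf (nat_lit 45144) (nat_lit 6) (nat_lit 594) (nat_lit 1) (nat_lit 278) (nat_lit 241) (nat_lit 261)))) (PT.nd (nat_lit 156) (PT.nd (nat_lit 78) (PT.lf (nat_lit 45068) (nat_lit 6) (nat_lit 593) (nat_lit 1) (nat_lit 279) (nat_lit 241) (nat_lit 260)) (PT.lf (nat_lit 43472) (nat_lit 6) (nat_lit 572) (nat_lit 1) (nat_lit 280) (nat_lit 241) (nat_lit 259))) (PT.nd (nat_lit 78) (PT.lf (nat_lit 41800) (nat_lit 6) (nat_lit 550) (nat_lit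 1) (nat_lit 281) (nat_lit 241) (nat_lit 258)) (PT.lf (nat_lit 40052) (nat_lit 6) (nat_lit 527) (nat_lit 1) (nat_lit 282) (nat_lit 241) (nat_lit 257)))))) (PT.nd (nat_lit 79326) (PT.nd (nat_lit 79014) (PT.nd (nat_lit 78) (PT.lf (nat_lit 38228) (nat_lit 6) (nat_lit 503) (nat_lit 1) (nat_lit 283) (nat_lit 241) (nat_lit 256)) (PT.nd (nat_lit 78858) (PT.lf (nat_lit 36328) (nat_lit 6) (nat_lit 478) (nat_lit 1) (nat_lit 284) (nat_lit 241) (nat_lit 255)) (PT.lf (nat_lit 36252) (nat_lit 6) (nat_lit 477) (nat_lit 3) (nat_lit 254) (nat_lit 242) (nat_lit 284)))) (PT.nd (nat_lit 156) (PT.nd (nat_lit 78) (PT.lf (nat_lit 38152) (nat_lit 6) (nat_lit 502) (nat_lit 3) (nat_lit 255) (nat_lit 242) (nat_lit 283)) (PT.lf (nat_lit 39976) (nat_lit 6) (nat_lit 526) (nat_lit 3) (nat_lit 256) (nat_lit 242) (nat_lit 282))) (PT.nd (nat_lit 78) (PT.lf (nat_lit 41724) (nat_lit 6) (nat_lit 549) (nat_lit 3) (nat_lit 257) (nat_lit 242) (nat_lit 281)) (PT.lf (nat_lit 43396) (nat_lit 6) (nat_lit 571) (nat_lit 3) (nat_lit 258) (nat_lit 242) (nat_lit 280))))) (PT.nd (nat_lit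 312) (PT.nd (nat_lit 156) (PT.nd (nat_lit 78) (PT.lf (nat_lit 44992) (nat_lit 6) (nat_lit 592) (nat_lit 3) (nat_lit 259) (nat_lit 242) (nat_lit 279)) (PT.lf (nat_lit 46512) (nat_lit 6) (nat_lit 612) (nat_lit 3) (nat_lit 260) (nat_lit 242) (nat_lit 278))) (PT.nd (nat_lit 78) (PT.lf (nat_lit 46588) (nat_lit 6) (nat_lit 613) (nat_lit 3) (nat_lit 261) (nat_lit 242) (nat_lit 277)) (PT.lf (nat_lit 46664) (nat_lit 6) (nat_lit 614) (nat_lit 3) (nat_lit 262) (nat_lit 242) (nat_lit 276)))) (PT.nd (nat_lit 156) (PT.nd (nat_lit 78) (PT.lf (nat_lit 46740) (nat_lit 6) (nat_lit 615) (nat_lit 3) (nat_lit 263) (nat_lit 242) (nat_lit 275)) (PT.lf (nat_lit 46816) (nat_lit 6) (nat_lit 616) (nat_lit 3) (nat_lit 264) (nat_lit 242) (nat_lit 274))) (PT.nd (nat_lit 78) (PT.lf (nat_lit 46892) (nat_lit 6) (nat_lit 617) (nat_lit 3) (nat_lit 265) (nat_lit 242) (nat_lit 273)) (PT.lf (nat_lit 46968) (nat_lit 6) (nat_lit 618) (nat_lit 3) (nat_lit 266) (nat_lit 242) (nat_lit 272))))))))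
noncomputable def pc14 : PT := (PT.nd (nat_lit 80886) (PT.nd (nat_lit 1092) (PT.nd (nat_lit 546) (PT.nd (nat_lit 234) (PT.nd (nat_lit 78) (PT.lf (nat_lit 47044) (nat_lit 6) (nat_lit 619) (nat_lit 3) (nat_lit 267) (nat_lit 242) (nat_lit 271)) (PT.nd (nat_lit 78) (PT.lf (nat_lit 47120) (nat_lit 6) (nat_lit 620) (nat_lit 3) (nat_lit 268) (nat_lit 242) (nat_lit 270)) (PT.lf (nat_lit 47196) (nat_lit 3) (nat_lit 621) (nat_lit 1) (nat_lit 269) (nat_lit 242) (nat_lit 269)))) (PT.nd (nat_lit 156) (PT.nd (nat_lit 78) (PT.lf (nat_lit 47120) (nat_lit 6) (nat_lit 620) (nat_lit 1) (nat_lit 270) (nat_lit 242) (nat_lit 268)) (PT.lf (nat_lit 47044) (nat_lit 6) (nat_lit 619) (nat_lit 1) (nat_lit 271) (nat_lit 242) (nat_lit 267))) (PT.nd (nat_lit 78) (PT.lf (nat_lit 46968) (nat_lit 6) (nat_lit 618) (nat_lit 1) (nat_lit 272) (nat_lit 242) (nat_lit 266)) (PT.lf (nat_lit 46892) (nat_lit 6) (nat_lit 617) (nat_lit 1) (nat_lit 273) (nat_lit 242) (nat_lit 265))))) (PT.nd (nat_lit 234) (PT.nd (nat_lit 78) (PT.lf (nat_lit 46816) (nat_lit 6) (nat_lit 616) (nat_lit 1)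 (nat_lit 274) (nat_lit 242) (nat_lit 264)) (PT.nd (nat_lit 78) (PT.lf (nat_lit 46740) (nat_lit 6) (nat_lit 615) (nat_lit 1) (nat_lit 275) (nat_lit 242) (nat_lit 263)) (PT.lf (nat_lit 46664) (nat_lit 6) (nat_lit 614) (nat_lit 1) (nat_lit 276) (nat_lit 242) (nat_lit 262)))) (PT.nd (nat_lit 156) (PT.nd (nat_lit 78) (PT.lf (nat_lit 46588) (nat_lit 6) (nat_lit 613) (nat_lit 1) (nat_lit 277) (nat_lit 242) (nat_lit 261)) (PT.lf (nat_lit 46512) (nat_lit 6) (nat_lit 612) (nat_lit 1) (nat_lit 278) (nat_lit 242) (nat_lit 260))) (PT.nd (nat_lit 78) (PT.lf (nat_lit 44992) (nat_lit 6) (nat_lit 592) (nat_lit 1) (nat_lit 279) (nat_lit 242) (nat_lit 259)) (PT.lf (nat_lit 43396) (nat_lit 6) (nat_lit 571) (nat_lit 1) (nat_lit 280) (nat_lit 242) (nat_lit 258)))))) (PT.nd (nat_lit 79248) (PT.nd (nat_lit 234) (PT.nd (nat_lit 78) (PT.lf (nat_lit 41724) (nat_lit 6) (nat_lit 549) (nat_lit 1) (nat_lit 281) (nat_lit 242) (nat_lit 257)) (PT.nd (nat_lit 78) (PT.lf (nat_lit 39976) (nat_lit 6) (nat_lit 526) (nat_lit 1) (nat_lit 282) (nat_lit 242) (nat_lit 256)) (PT.lf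 (nat_lit 38152) (nat_lit 6) (nat_lit 502) (nat_lit 1) (nat_lit 283) (nat_lit 242) (nat_lit 255)))) (PT.nd (nat_lit 78858) (PT.nd (nat_lit 78780) (PT.lf (nat_lit 36252) (nat_lit 6) (nat_lit 477) (nat_lit 1) (nat_lit 284) (nat_lit 242) (nat_lit 254)) (PT.lf (nat_lit 36176) (nat_lit 6) (nat_lit 476) (nat_lit 3) (nat_lit 253) (nat_lit 243) (nat_lit 284))) (PT.nd (nat_lit 78) (PT.lf (nat_lit 38076) (nat_lit 6) (nat_lit 501) (nat_lit 3) (nat_lit 254) (nat_lit 243) (nat_lit 283)) (PT.lf (nat_lit 39900) (nat_lit 6) (nat_lit 525) (nat_lit 3) (nat_lit 255) (nat_lit 243) (nat_lit 282))))) (PT.nd (nat_lit 234) (PT.nd (nat_lit 78) (PT.lf (nat_lit 41648) (nat_lit 6) (nat_lit 548) (nat_lit 3) (nat_lit 256) (nat_lit 243) (nat_lit 281)) (PT.nd (nat_lit 78) (PT.lf (nat_lit 43320) (nat_lit 6) (nat_lit 570) (nat_lit 3) (nat_lit 257) (nat_lit 243) (nat_lit 280)) (PT.lf (nat_lit 44916) (nat_lit 6) (nat_lit 591) (nat_lit 3) (nat_lit 258) (nat_lit 243) (nat_lit 279)))) (PT.nd (nat_lit 156) (PT.nd (nat_lit 78) (PT.lf (nat_lit 46436) (nat_lit 6) (nat_lit 611) (nat_lit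 3) (nat_lit 259) (nat_lit 243) (nat_lit 278)) (PT.lf (nat_lit 47880) (nat_lit 6) (nat_lit 630) (nat_lit 3) (nat_lit 260) (nat_lit 243) (nat_lit 277))) (PT.nd (nat_lit 78) (PT.lf (nat_lit 47956) (nat_lit 6) (nat_lit 631) (nat_lit 3) (nat_lit 261) (nat_lit 243) (nat_lit 276)) (PT.lf (nat_lit 48032) (nat_lit 6) (nat_lit 632) (nat_lit 3) (nat_lit 262) (nat_lit 243) (nat_lit 275))))))) (PT.nd (nat_lit 1092) (PT.nd (nat_lit 546) (PT.nd (nat_lit 234) (PT.nd (nat_lit 78) (PT.lf (nat_lit 48108) (nat_lit 6) (nat_lit 633) (nat_lit 3) (nat_lit 263) (nat_lit 243) (nat_lit 274)) (PT.nd (nat_lit 78) (PT.lf (nat_lit 48184) (nat_lit 6) (nat_lit 634) (nat_lit 3) (nat_lit 264) (nat_lit 243) (nat_lit 273)) (PT.lf (nat_lit 48260) (nat_lit 6) (nat_lit 635) (nat_lit 3) (nat_lit 265) (nat_lit 243) (nat_lit 272)))) (PT.nd (nat_lit 156) (PT.nd (nat_lit 78) (PT.lf (nat_lit 48336) (nat_lit 6) (nat_lit 636) (nat_lit 3) (nat_lit 266) (nat_lit 243) (nat_lit 271)) (PT.lf (nat_lit 48412) (nat_lit 6) (nat_lit 637) (nat_lit 3) (nat_lit 267) (nat_lit 243) (nat_lit 270))) (PT.nd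 (nat_lit 78) (PT.lf (nat_lit 48488) (nat_lit 6) (nat_lit 638) (nat_lit 3) (nat_lit 268) (nat_lit 243) (nat_lit 269)) (PT.lf (nat_lit 48488) (nat_lit 6) (nat_lit 638) (nat_lit 1) (nat_lit 269) (nat_lit 243) (nat_lit 268))))) (PT.nd (nat_lit 234) (PT.nd (nat_lit 78) (PT.lf (nat_lit 48412) (nat_lit 6) (nat_lit 637) (nat_lit 1) (nat_lit 270) (nat_lit 243) (nat_lit 267)) (PT.nd (nat_lit 78) (PT.lf (nat_lit 48336) (nat_lit 6) (nat_lit 636) (nat_lit 1) (nat_lit 271) (nat_lit 243) (nat_lit 266)) (PT.lf (nat_lit 48260) (nat_lit 6) (nat_lit 635) (nat_lit 1) (nat_lit 272) (nat_lit 243) (nat_lit 265)))) (PT.nd (nat_lit 156) (PT.nd (nat_lit 78) (PT.lf (nat_lit 48184) (nat_lit 6) (nat_lit 634) (nat_lit 1) (nat_lit 273) (nat_lit 243) (nat_lit 264)) (PT.lf (nat_lit 48108) (nat_lit 6) (nat_lit 633) (nat_lit 1) (nat_lit 274) (nat_lit 243) (nat_lit 263))) (PT.nd (nat_lit 78) (PT.lf (nat_lit 48032) (nat_lit 6) (nat_lit 632) (nat_lit 1) (nat_lit 275) (nat_lit 243) (nat_lit 262)) (PT.lf (nat_lit 47956) (nat_lit 6) (nat_lit 631) (nat_lit 1) (nat_lit 276) (nat_lit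 243) (nat_lit 261)))))) (PT.nd (nat_lit 546) (PT.nd (nat_lit 234) (PT.nd (nat_lit 78) (PT.lf (nat_lit 47880) (nat_lit 6) (nat_lit 630) (nat_lit 1) (nat_lit 277) (nat_lit 243) (nat_lit 260)) (PT.nd (nat_lit 78) (PT.lf (nat_lit 46436) (nat_lit 6) (nat_lit 611) (nat_lit 1) (nat_lit 278) (nat_lit 243) (nat_lit 259)) (PT.lf (nat_lit 44916) (nat_lit 6) (nat_lit 591) (nat_lit 1) (nat_lit 279) (nat_lit 243) (nat_lit 258)))) (PT.nd (nat_lit 156) (PT.nd (nat_lit 78) (PT.lf (nat_lit 43320) (nat_lit 6) (nat_lit 570) (nat_lit 1) (nat_lit 280) (nat_lit 243) (nat_lit 257)) (PT.lf (nat_lit 41648) (nat_lit 6) (nat_lit 548) (nat_lit 1) (nat_lit 281) (nat_lit 243) (nat_lit 256))) (PT.nd (nat_lit 78) (PT.lf (nat_lit 39900) (nat_lit 6) (nat_lit 525) (nat_lit 1) (nat_lit 282) (nat_lit 243) (nat_lit 255)) (PT.lf (nat_lit 38076) (nat_lit 6) (nat_lit 501) (nat_lit 1) (nat_lit 283) (nat_lit 243) (nat_lit 254))))) (PT.nd (nat_lit 78936) (PT.nd (nat_lit 78780) (PT.nd (nat_lit 78702) (PT.lf (nat_lit 36176) (nat_lit 6) (nat_lit 476) (nat_lit 1) (nat_lit 284) (nat_lit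 243) (nat_lit 253)) (PT.lf (nat_lit 36100) (nat_lit 6) (nat_lit 475) (nat_lit 3) (nat_lit 252) (nat_lit 244) (nat_lit 284))) (PT.nd (nat_lit 78) (PT.lf (nat_lit 38000) (nat_lit 6) (nat_lit 500) (nat_lit 3) (nat_lit 253) (nat_lit 244) (nat_lit 283)) (PT.lf (nat_lit 39824) (nat_lit 6) (nat_lit 524) (nat_lit 3) (nat_lit 254) (nat_lit 244) (nat_lit 282)))) (PT.nd (nat_lit 156) (PT.nd (nat_lit 78) (PT.lf (nat_lit 41572) (nat_lit 6) (nat_lit 547) (nat_lit 3) (nat_lit 255) (nat_lit 244) (nat_lit 281)) (PT.lf (nat_lit 43244) (nat_lit 6) (nat_lit 569) (nat_lit 3) (nat_lit 256) (nat_lit 244) (nat_lit 280))) (PT.nd (nat_lit 78) (PT.lf (nat_lit 44840) (nat_lit 6) (nat_lit 590) (nat_lit 3) (nat_lit 257) (nat_lit 244) (nat_lit 279)) (PT.lf (nat_lit 46360) (nat_lit 6) (nat_lit 610) (nat_lit 3) (nat_lit 258) (nat_lit 244) (nat_lit 278))))))))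
noncomputable def pc15 : PT := (PT.nd (nat_lit 80808) (PT.nd (nat_lit 1092) (PT.nd (nat_lit 546) (PT.nd (nat_lit 234) (PT.nd (nat_lit 78) (PT.lf (nat_lit 47804) (nat_lit 6) (nat_lit 629) (nat_lit 3) (nat_lit 259) (nat_lit 244) (nat_lit 277)) (PT.nd (nat_lit 78) (PT.lf (nat_lit 49172) (nat_lit 6) (nat_lit 647) (nat_lit 3) (nat_lit 260) (nat_lit 244) (nat_lit 276)) (PT.lf (nat_lit 49248) (nat_lit 6) (nat_lit 648) (nat_lit 3) (nat_lit 261) (nat_lit 244) (nat_lit 275)))) (PT.nd (nat_lit 156) (PT.nd (nat_lit 78) (PT.lf (nat_lit 49324) (nat_lit 6) (nat_lit 649) (nat_lit 3) (nat_lit 262) (nat_lit 244) (nat_lit 274)) (PT.lf (nat_lit 49400) (nat_lit 6) (nat_lit 650) (nat_lit 3) (nat_lit 263) (nat_lit 244) (nat_lit 273))) (PT.nd (nat_lit 78) (PT.lf (nat_lit 49476) (nat_lit 6) (nat_lit 651) (nat_lit 3) (nat_lit 264) (nat_lit 244) (nat_lit 272)) (PT.lf (nat_lit 49552) (nat_lit 6) (nat_lit 652) (nat_lit 3) (nat_lit 265) (nat_lit 244) (nat_lit 271))))) (PT.nd (nat_lit 234) (PT.nd (nat_lit 78) (PT.lf (nat_lit 49628) (nat_lit 6) (nat_lit 653) (nat_lit 3)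 (nat_lit 266) (nat_lit 244) (nat_lit 270)) (PT.nd (nat_lit 78) (PT.lf (nat_lit 49704) (nat_lit 6) (nat_lit 654) (nat_lit 3) (nat_lit 267) (nat_lit 244) (nat_lit 269)) (PT.lf (nat_lit 49780) (nat_lit 3) (nat_lit 655) (nat_lit 1) (nat_lit 268) (nat_lit 244) (nat_lit 268)))) (PT.nd (nat_lit 156) (PT.nd (nat_lit 78) (PT.lf (nat_lit 49704) (nat_lit 6) (nat_lit 654) (nat_lit 1) (nat_lit 269) (nat_lit 244) (nat_lit 267)) (PT.lf (nat_lit 49628) (nat_lit 6) (nat_lit 653) (nat_lit 1) (nat_lit 270) (nat_lit 244) (nat_lit 266))) (PT.nd (nat_lit 78) (PT.lf (nat_lit 49552) (nat_lit 6) (nat_lit 652) (nat_lit 1) (nat_lit 271) (nat_lit 244) (nat_lit 265)) (PT.lf (nat_lit 49476) (nat_lit 6) (nat_lit 651) (nat_lit 1) (nat_lit 272) (nat_lit 244) (nat_lit 264)))))) (PT.nd (nat_lit 546) (PT.nd (nat_lit 234) (PT.nd (nat_lit 78) (PT.lf (nat_lit 49400) (nat_lit 6) (nat_lit 650) (nat_lit 1) (nat_lit 273) (nat_lit 244) (nat_lit 263)) (PT.nd (nat_lit 78) (PT.lf (nat_lit 49324) (nat_lit 6) (nat_lit 649) (nat_lit 1) (nat_lit 274) (nat_lit 244) (nat_lit 262)) (PT.lf (nat_lit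 49248) (nat_lit 6) (nat_lit 648) (nat_lit 1) (nat_lit 275) (nat_lit 244) (nat_lit 261)))) (PT.nd (nat_lit 156) (PT.nd (nat_lit 78) (PT.lf (nat_lit 49172) (nat_lit 6) (nat_lit 647) (nat_lit 1) (nat_lit 276) (nat_lit 244) (nat_lit 260)) (PT.lf (nat_lit 47804) (nat_lit 6) (nat_lit 629) (nat_lit 1) (nat_lit 277) (nat_lit 244) (nat_lit 259))) (PT.nd (nat_lit 78) (PT.lf (nat_lit 46360) (nat_lit 6) (nat_lit 610) (nat_lit 1) (nat_lit 278) (nat_lit 244) (nat_lit 258)) (PT.lf (nat_lit 44840) (nat_lit 6) (nat_lit 590) (nat_lit 1) (nat_lit 279) (nat_lit 244) (nat_lit 257))))) (PT.nd (nat_lit 312) (PT.nd (nat_lit 156) (PT.nd (nat_lit 78) (PT.lf (nat_lit 43244) (nat_lit 6) (nat_lit 569) (nat_lit 1) (nat_lit 280) (nat_lit 244) (nat_lit 256)) (PT.lf (nat_lit 41572) (nat_lit 6) (nat_lit 547) (nat_lit 1) (nat_lit 281) (nat_lit 244) (nat_lit 255))) (PT.nd (nat_lit 78) (PT.lf (nat_lit 39824) (nat_lit 6) (nat_lit 524) (nat_lit 1) (nat_lit 282) (nat_lit 244) (nat_lit 254)) (PT.lf (nat_lit 38000) (nat_lit 6) (nat_lit 500) (nat_lit 1) (nat_lit 283) (nat_lit 244)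 (nat_lit 253)))) (PT.nd (nat_lit 78702) (PT.nd (nat_lit 78624) (PT.lf (nat_lit 36100) (nat_lit 6) (nat_lit 475) (nat_lit 1) (nat_lit 284) (nat_lit 244) (nat_lit 252)) (PT.lf (nat_lit 36024) (nat_lit 6) (nat_lit 474) (nat_lit 3) (nat_lit 251) (nat_lit 245) (nat_lit 284))) (PT.nd (nat_lit 78) (PT.lf (nat_lit 37924) (nat_lit 6) (nat_lit 499) (nat_lit 3) (nat_lit 252) (nat_lit 245) (nat_lit 283)) (PT.lf (nat_lit 39748) (nat_lit 6) (nat_lit 523) (nat_lit 3) (nat_lit 253) (nat_lit 245) (nat_lit 282))))))) (PT.nd (nat_lit 1092) (PT.nd (nat_lit 546) (PT.nd (nat_lit 234) (PT.nd (nat_lit 78) (PT.lf (nat_lit 41496) (nat_lit 6) (nat_lit 546) (nat_lit 3) (nat_lit 254) (nat_lit 245) (nat_lit 281)) (PT.nd (nat_lit 78) (PT.lf (nat_lit 43168) (nat_lit 6) (nat_lit 568) (nat_lit 3) (nat_lit 255) (nat_lit 245) (nat_lit 280)) (PT.lf (nat_lit 44764) (nat_lit 6) (nat_lit 589) (nat_lit 3) (nat_lit 256) (nat_lit 245) (nat_lit 279)))) (PT.nd (nat_lit 156) (PT.nd (nat_lit 78) (PT.lf (nat_lit 46284) (nat_lit 6) (nat_lit 609) (nat_lit 3) (nat_lit 257) (nat_lit 245)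 (nat_lit 278)) (PT.lf (nat_lit 47728) (nat_lit 6) (nat_lit 628) (nat_lit 3) (nat_lit 258) (nat_lit 245) (nat_lit 277))) (PT.nd (nat_lit 78) (PT.lf (nat_lit 49096) (nat_lit 6) (nat_lit 646) (nat_lit 3) (nat_lit 259) (nat_lit 245) (nat_lit 276)) (PT.lf (nat_lit 50388) (nat_lit 6) (nat_lit 663) (nat_lit 3) (nat_lit 260) (nat_lit 245) (nat_lit 275))))) (PT.nd (nat_lit 234) (PT.nd (nat_lit 78) (PT.lf (nat_lit 50464) (nat_lit 6) (nat_lit 664) (nat_lit 3) (nat_lit 261) (nat_lit 245) (nat_lit 274)) (PT.nd (nat_lit 78) (PT.lf (nat_lit 50540) (nat_lit 6) (nat_lit 665) (nat_lit 3) (nat_lit 262) (nat_lit 245) (nat_lit 273)) (PT.lf (nat_lit 50616) (nat_lit 6) (nat_lit 666) (nat_lit 3) (nat_lit 263) (nat_lit 245) (nat_lit 272)))) (PT.nd (nat_lit 156) (PT.nd (nat_lit 78) (PT.lf (nat_lit 50692) (nat_lit 6) (nat_lit 667) (nat_lit 3) (nat_lit 264) (nat_lit 245) (nat_lit 271)) (PT.lf (nat_lit 50768) (nat_lit 6) (nat_lit 668) (nat_lit 3) (nat_lit 265) (nat_lit 245) (nat_lit 270))) (PT.nd (nat_lit 78) (PT.lf (nat_lit 50844) (nat_lit 6) (nat_lit 669) (nat_lit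 3) (nat_lit 266) (nat_lit 245) (nat_lit 269)) (PT.lf (nat_lit 50920) (nat_lit 6) (nat_lit 670) (nat_lit 3) (nat_lit 267) (nat_lit 245) (nat_lit 268)))))) (PT.nd (nat_lit 546) (PT.nd (nat_lit 234) (PT.nd (nat_lit 78) (PT.lf (nat_lit 50920) (nat_lit 6) (nat_lit 670) (nat_lit 1) (nat_lit 268) (nat_lit 245) (nat_lit 267)) (PT.nd (nat_lit 78) (PT.lf (nat_lit 50844) (nat_lit 6) (nat_lit 669) (nat_lit 1) (nat_lit 269) (nat_lit 245) (nat_lit 266)) (PT.lf (nat_lit 50768) (nat_lit 6) (nat_lit 668) (nat_lit 1) (nat_lit 270) (nat_lit 245) (nat_lit 265)))) (PT.nd (nat_lit 156) (PT.nd (nat_lit 78) (PT.lf (nat_lit 50692) (nat_lit 6) (nat_lit 667) (nat_lit 1) (nat_lit 271) (nat_lit 245) (nat_lit 264)) (PT.lf (nat_lit 50616) (nat_lit 6) (nat_lit 666) (nat_lit 1) (nat_lit 272) (nat_lit 245) (nat_lit 263))) (PT.nd (nat_lit 78) (PT.lf (nat_lit 50540) (nat_lit 6) (nat_lit 665) (nat_lit 1) (nat_lit 273) (nat_lit 245) (nat_lit 262)) (PT.lf (nat_lit 50464) (nat_lit 6) (nat_lit 664) (nat_lit 1) (nat_lit 274) (nat_lit 245) (nat_lit 261))))) (PT.nd (nat_lit 312) (PT.nd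 (nat_lit 156) (PT.nd (nat_lit 78) (PT.lf (nat_lit 50388) (nat_lit 6) (nat_lit 663) (nat_lit 1) (nat_lit 275) (nat_lit 245) (nat_lit 260)) (PT.lf (nat_lit 49096) (nat_lit 6) (nat_lit 646) (nat_lit 1) (nat_lit 276) (nat_lit 245) (nat_lit 259))) (PT.nd (nat_lit 78) (PT.lf (nat_lit 47728) (nat_lit 6) (nat_lit 628) (nat_lit 1) (nat_lit 277) (nat_lit 245) (nat_lit 258)) (PT.lf (nat_lit 46284) (nat_lit 6) (nat_lit 609) (nat_lit 1) (nat_lit 278) (nat_lit 245) (nat_lit 257)))) (PT.nd (nat_lit 156) (PT.nd (nat_lit 78) (PT.lf (nat_lit 44764) (nat_lit 6) (nat_lit 589) (nat_lit 1) (nat_lit 279) (nat_lit 245) (nat_lit 256)) (PT.lf (nat_lit 43168) (nat_lit 6) (nat_lit 568) (nat_lit 1) (nat_lit 280) (nat_lit 245) (nat_lit 255))) (PT.nd (nat_lit 78) (PT.lf (nat_lit 41496) (nat_lit 6) (nat_lit 546) (nat_lit 1) (nat_lit 281) (nat_lit 245) (nat_lit 254)) (PT.lf (nat_lit 39748) (nat_lit 6) (nat_lit 523) (nat_lit 1) (nat_lit 282) (nat_lit 245) (nat_lit 253))))))))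
noncomputable def pc16 : PT := (PT.nd (nat_lit 80652) (PT.nd (nat_lit 79560) (PT.nd (nat_lit 79014) (PT.nd (nat_lit 78702) (PT.nd (nat_lit 78) (PT.lf (nat_lit 37924) (nat_lit 6) (nat_lit 499) (nat_lit 1) (nat_lit 283) (nat_lit 245) (nat_lit 252)) (PT.nd (nat_lit 78546) (PT.lf (nat_lit 36024) (nat_lit 6) (nat_lit 474) (nat_lit 1) (nat_lit 284) (nat_lit 245) (nat_lit 251)) (PT.lf (nat_lit 35948) (nat_lit 6) (nat_lit 473) (nat_lit 3) (nat_lit 250) (nat_lit 246) (nat_lit 284)))) (PT.nd (nat_lit 156) (PT.nd (nat_lit 78) (PT.lf (nat_lit 37848) (nat_lit 6) (nat_lit 498) (nat_lit 3) (nat_lit 251) (nat_lit 246) (nat_lit 283)) (PT.lf (nat_lit 39672) (nat_lit 6) (nat_lit 522) (nat_lit 3) (nat_lit 252) (nat_lit 246) (nat_lit 282))) (PT.nd (nat_lit 78) (PT.lf (nat_lit 41420) (nat_lit 6) (nat_lit 545) (nat_lit 3) (nat_lit 253) (nat_lit 246) (nat_lit 281)) (PT.lf (nat_lit 43092) (nat_lit 6) (nat_lit 567) (nat_lit 3) (nat_lit 254) (nat_lit 246) (nat_lit 280))))) (PT.nd (nat_lit 234) (PT.nd (nat_lit 78) (PT.lf (nat_lit 44688) (nat_lit 6) (nat_lit 588) (nat_lit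 3) (nat_lit 255) (nat_lit 246) (nat_lit 279)) (PT.nd (nat_lit 78) (PT.lf (nat_lit 46208) (nat_lit 6) (nat_lit 608) (nat_lit 3) (nat_lit 256) (nat_lit 246) (nat_lit 278)) (PT.lf (nat_lit 47652) (nat_lit 6) (nat_lit 627) (nat_lit 3) (nat_lit 257) (nat_lit 246) (nat_lit 277)))) (PT.nd (nat_lit 156) (PT.nd (nat_lit 78) (PT.lf (nat_lit 49020) (nat_lit 6) (nat_lit 645) (nat_lit 3) (nat_lit 258) (nat_lit 246) (nat_lit 276)) (PT.lf (nat_lit 50312) (nat_lit 6) (nat_lit 662) (nat_lit 3) (nat_lit 259) (nat_lit 246) (nat_lit 275))) (PT.nd (nat_lit 78) (PT.lf (nat_lit 51528) (nat_lit 6) (nat_lit 678) (nat_lit 3) (nat_lit 260) (nat_lit 246) (nat_lit 274)) (PT.lf (nat_lit 51604) (nat_lit 6) (nat_lit 679) (nat_lit 3) (nat_lit 261) (nat_lit 246) (nat_lit 273)))))) (PT.nd (nat_lit 546) (PT.nd (nat_lit 234) (PT.nd (nat_lit 78) (PT.lf (nat_lit 51680) (nat_lit 6) (nat_lit 680) (nat_lit 3) (nat_lit 262) (nat_lit 246) (nat_lit 272)) (PT.nd (nat_lit 78) (PT.lf (nat_lit 51756) (nat_lit 6) (nat_lit 681) (nat_lit 3) (nat_lit 263) (nat_lit 246) (nat_lit 271)) (PT.lf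 (nat_lit 51832) (nat_lit 6) (nat_lit 682) (nat_lit 3) (nat_lit 264) (nat_lit 246) (nat_lit 270)))) (PT.nd (nat_lit 156) (PT.nd (nat_lit 78) (PT.lf (nat_lit 51908) (nat_lit 6) (nat_lit 683) (nat_lit 3) (nat_lit 265) (nat_lit 246) (nat_lit 269)) (PT.lf (nat_lit 51984) (nat_lit 6) (nat_lit 684) (nat_lit 3) (nat_lit 266) (nat_lit 246) (nat_lit 268))) (PT.nd (nat_lit 78) (PT.lf (nat_lit 52060) (nat_lit 3) (nat_lit 685) (nat_lit 1) (nat_lit 267) (nat_lit 246) (nat_lit 267)) (PT.lf (nat_lit 51984) (nat_lit 6) (nat_lit 684) (nat_lit 1) (nat_lit 268) (nat_lit 246) (nat_lit 266))))) (PT.nd (nat_lit 234) (PT.nd (nat_lit 78) (PT.lf (nat_lit 51908) (nat_lit 6) (nat_lit 683) (nat_lit 1) (nat_lit 269) (nat_lit 246) (nat_lit 265)) (PT.nd (nat_lit 78) (PT.lf (nat_lit 51832) (nat_lit 6) (nat_lit 682) (nat_lit 1) (nat_lit 270) (nat_lit 246) (nat_lit 264)) (PT.lf (nat_lit 51756) (nat_lit 6) (nat_lit 681) (nat_lit 1) (nat_lit 271) (nat_lit 246) (nat_lit 263)))) (PT.nd (nat_lit 156) (PT.nd (nat_lit 78) (PT.lf (nat_lit 51680) (nat_lit 6) (nat_lit 680) (nat_lit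 1) (nat_lit 272) (nat_lit 246) (nat_lit 262)) (PT.lf (nat_lit 51604) (nat_lit 6) (nat_lit 679) (nat_lit 1) (nat_lit 273) (nat_lit 246) (nat_lit 261))) (PT.nd (nat_lit 78) (PT.lf (nat_lit 51528) (nat_lit 6) (nat_lit 678) (nat_lit 1) (nat_lit 274) (nat_lit 246) (nat_lit 260)) (PT.lf (nat_lit 50312) (nat_lit 6) (nat_lit 662) (nat_lit 1) (nat_lit 275) (nat_lit 246) (nat_lit 259))))))) (PT.nd (nat_lit 79482) (PT.nd (nat_lit 546) (PT.nd (nat_lit 234) (PT.nd (nat_lit 78) (PT.lf (nat_lit 49020) (nat_lit 6) (nat_lit 645) (nat_lit 1) (nat_lit 276) (nat_lit 246) (nat_lit 258)) (PT.nd (nat_lit 78) (PT.lf (nat_lit 47652) (nat_lit 6) (nat_lit 627) (nat_lit 1) (nat_lit 277) (nat_lit 246) (nat_lit 257)) (PT.lf (nat_lit 46208) (nat_lit 6) (nat_lit 608) (nat_lit 1) (nat_lit 278) (nat_lit 246) (nat_lit 256)))) (PT.nd (nat_lit 156) (PT.nd (nat_lit 78) (PT.lf (nat_lit 44688) (nat_lit 6) (nat_lit 588) (nat_lit 1) (nat_lit 279) (nat_lit 246) (nat_lit 255)) (PT.lf (nat_lit 43092) (nat_lit 6) (nat_lit 567) (nat_lit 1) (nat_lit 280) (nat_lit 246) (nat_lit 254)))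 (PT.nd (nat_lit 78) (PT.lf (nat_lit 41420) (nat_lit 6) (nat_lit 545) (nat_lit 1) (nat_lit 281) (nat_lit 246) (nat_lit 253)) (PT.lf (nat_lit 39672) (nat_lit 6) (nat_lit 522) (nat_lit 1) (nat_lit 282) (nat_lit 246) (nat_lit 252))))) (PT.nd (nat_lit 78624) (PT.nd (nat_lit 78) (PT.lf (nat_lit 37848) (nat_lit 6) (nat_lit 498) (nat_lit 1) (nat_lit 283) (nat_lit 246) (nat_lit 251)) (PT.nd (nat_lit 78468) (PT.lf (nat_lit 35948) (nat_lit 6) (nat_lit 473) (nat_lit 1) (nat_lit 284) (nat_lit 246) (nat_lit 250)) (PT.lf (nat_lit 35872) (nat_lit 6) (nat_lit 472) (nat_lit 3) (nat_lit 249) (nat_lit 247) (nat_lit 284)))) (PT.nd (nat_lit 156) (PT.nd (nat_lit 78) (PT.lf (nat_lit 37772) (nat_lit 6) (nat_lit 497) (nat_lit 3) (nat_lit 250) (nat_lit 247) (nat_lit 283)) (PT.lf (nat_lit 39596) (nat_lit 6) (nat_lit 521) (nat_lit 3) (nat_lit 251) (nat_lit 247) (nat_lit 282))) (PT.nd (nat_lit 78) (PT.lf (nat_lit 41344) (nat_lit 6) (nat_lit 544) (nat_lit 3) (nat_lit 252) (nat_lit 247) (nat_lit 281)) (PT.lf (nat_lit 43016) (nat_lit 6) (nat_lit 566) (nat_lit 3) (nat_lit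 253) (nat_lit 247) (nat_lit 280)))))) (PT.nd (nat_lit 546) (PT.nd (nat_lit 234) (PT.nd (nat_lit 78) (PT.lf (nat_lit 44612) (nat_lit 6) (nat_lit 587) (nat_lit 3) (nat_lit 254) (nat_lit 247) (nat_lit 279)) (PT.nd (nat_lit 78) (PT.lf (nat_lit 46132) (nat_lit 6) (nat_lit 607) (nat_lit 3) (nat_lit 255) (nat_lit 247) (nat_lit 278)) (PT.lf (nat_lit 47576) (nat_lit 6) (nat_lit 626) (nat_lit 3) (nat_lit 256) (nat_lit 247) (nat_lit 277)))) (PT.nd (nat_lit 156) (PT.nd (nat_lit 78) (PT.lf (nat_lit 48944) (nat_lit 6) (nat_lit 644) (nat_lit 3) (nat_lit 257) (nat_lit 247) (nat_lit 276)) (PT.lf (nat_lit 50236) (nat_lit 6) (nat_lit 661) (nat_lit 3) (nat_lit 258) (nat_lit 247) (nat_lit 275))) (PT.nd (nat_lit 78) (PT.lf (nat_lit 51452) (nat_lit 6) (nat_lit 677) (nat_lit 3) (nat_lit 259) (nat_lit 247) (nat_lit 274)) (PT.lf (nat_lit 52592) (nat_lit 6) (nat_lit 692) (nat_lit 3) (nat_lit 260) (nat_lit 247) (nat_lit 273))))) (PT.nd (nat_lit 312) (PT.nd (nat_lit 156) (PT.nd (nat_lit 78) (PT.lf (nat_lit 52668) (nat_lit 6) (nat_lit 693) (nat_lit 3) (nat_lit 261) (nat_lit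 247) (nat_lit 272)) (PT.lf (nat_lit 52744) (nat_lit 6) (nat_lit 694) (nat_lit 3) (nat_lit 262) (nat_lit 247) (nat_lit 271))) (PT.nd (nat_lit 78) (PT.lf (nat_lit 52820) (nat_lit 6) (nat_lit 695) (nat_lit 3) (nat_lit 263) (nat_lit 247) (nat_lit 270)) (PT.lf (nat_lit 52896) (nat_lit 6) (nat_lit 696) (nat_lit 3) (nat_lit 264) (nat_lit 247) (nat_lit 269)))) (PT.nd (nat_lit 156) (PT.nd (nat_lit 78) (PT.lf (nat_lit 52972) (nat_lit 6) (nat_lit 697) (nat_lit 3) (nat_lit 265) (nat_lit 247) (nat_lit 268)) (PT.lf (nat_lit 53048) (nat_lit 6) (nat_lit 698) (nat_lit 3) (nat_lit 266) (nat_lit 247) (nat_lit 267))) (PT.nd (nat_lit 78) (PT.lf (nat_lit 53048) (nat_lit 6) (nat_lit 698) (nat_lit 1) (nat_lit 267) (nat_lit 247) (nat_lit 266)) (PT.lf (nat_lit 52972) (nat_lit 6) (nat_lit 697) (nat_lit 1) (nat_lit 268) (nat_lit 247) (nat_lit 265))))))))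
noncomputable def pc17 : PT := (PT.nd (nat_lit 80574) (PT.nd (nat_lit 1092) (PT.nd (nat_lit 546) (PT.nd (nat_lit 234) (PT.nd (nat_lit 78) (PT.lf (nat_lit 52896) (nat_lit 6) (nat_lit 696) (nat_lit 1) (nat_lit 269) (nat_lit 247) (nat_lit 264)) (PT.nd (nat_lit 78) (PT.lf (nat_lit 52820) (nat_lit 6) (nat_lit 695) (nat_lit 1) (nat_lit 270) (nat_lit 247) (nat_lit 263)) (PT.lf (nat_lit 52744) (nat_lit 6) (nat_lit 694) (nat_lit 1) (nat_lit 271) (nat_lit 247) (nat_lit 262)))) (PT.nd (nat_lit 156) (PT.nd (nat_lit 78) (PT.lf (nat_lit 52668) (nat_lit 6) (nat_lit 693) (nat_lit 1) (nat_lit 272) (nat_lit 247) (nat_lit 261)) (PT.lf (nat_lit 52592) (nat_lit 6) (nat_lit 692) (nat_lit 1) (nat_lit 273) (nat_lit 247) (nat_lit 260))) (PT.nd (nat_lit 78) (PT.lf (nat_lit 51452) (nat_lit 6) (nat_lit 677) (nat_lit 1) (nat_lit 274) (nat_lit 247) (nat_lit 259)) (PT.lf (nat_lit 50236) (nat_lit 6) (nat_lit 661) (nat_lit 1) (nat_lit 275) (nat_lit 247) (nat_lit 258))))) (PT.nd (nat_lit 234) (PT.nd (nat_lit 78) (PT.lf (nat_lit 48944) (nat_lit 6) (nat_lit 644) (nat_lit 1)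 (nat_lit 276) (nat_lit 247) (nat_lit 257)) (PT.nd (nat_lit 78) (PT.lf (nat_lit 47576) (nat_lit 6) (nat_lit 626) (nat_lit 1) (nat_lit 277) (nat_lit 247) (nat_lit 256)) (PT.lf (nat_lit 46132) (nat_lit 6) (nat_lit 607) (nat_lit 1) (nat_lit 278) (nat_lit 247) (nat_lit 255)))) (PT.nd (nat_lit 156) (PT.nd (nat_lit 78) (PT.lf (nat_lit 44612) (nat_lit 6) (nat_lit 587) (nat_lit 1) (nat_lit 279) (nat_lit 247) (nat_lit 254)) (PT.lf (nat_lit 43016) (nat_lit 6) (nat_lit 566) (nat_lit 1) (nat_lit 280) (nat_lit 247) (nat_lit 253))) (PT.nd (nat_lit 78) (PT.lf (nat_lit 41344) (nat_lit 6) (nat_lit 544) (nat_lit 1) (nat_lit 281) (nat_lit 247) (nat_lit 252)) (PT.lf (nat_lit 39596) (nat_lit 6) (nat_lit 521) (nat_lit 1) (nat_lit 282) (nat_lit 247) (nat_lit 251)))))) (PT.nd (nat_lit 78858) (PT.nd (nat_lit 78546) (PT.nd (nat_lit 78) (PT.lf (nat_lit 37772) (nat_lit 6) (nat_lit 497) (nat_lit 1) (nat_lit 283) (nat_lit 247) (nat_lit 250)) (PT.nd (nat_lit 78390) (PT.lf (nat_lit 35872) (nat_lit 6) (nat_lit 472) (nat_lit 1) (nat_lit 284) (nat_lit 247) (nat_lit 249)) (PT.lf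 (nat_lit 35796) (nat_lit 3) (nat_lit 471) (nat_lit 3) (nat_lit 248) (nat_lit 248) (nat_lit 284)))) (PT.nd (nat_lit 156) (PT.nd (nat_lit 78) (PT.lf (nat_lit 37696) (nat_lit 6) (nat_lit 496) (nat_lit 3) (nat_lit 249) (nat_lit 248) (nat_lit 283)) (PT.lf (nat_lit 39520) (nat_lit 6) (nat_lit 520) (nat_lit 3) (nat_lit 250) (nat_lit 248) (nat_lit 282))) (PT.nd (nat_lit 78) (PT.lf (nat_lit 41268) (nat_lit 6) (nat_lit 543) (nat_lit 3) (nat_lit 251) (nat_lit 248) (nat_lit 281)) (PT.lf (nat_lit 42940) (nat_lit 6) (nat_lit 565) (nat_lit 3) (nat_lit 252) (nat_lit 248) (nat_lit 280))))) (PT.nd (nat_lit 312) (PT.nd (nat_lit 156) (PT.nd (nat_lit 78) (PT.lf (nat_lit 44536) (nat_lit 6) (nat_lit 586) (nat_lit 3) (nat_lit 253) (nat_lit 248) (nat_lit 279)) (PT.lf (nat_lit 46056) (nat_lit 6) (nat_lit 606) (nat_lit 3) (nat_lit 254) (nat_lit 248) (nat_lit 278))) (PT.nd (nat_lit 78) (PT.lf (nat_lit 47500) (nat_lit 6) (nat_lit 625) (nat_lit 3) (nat_lit 255) (nat_lit 248) (nat_lit 277)) (PT.lf (nat_lit 48868) (nat_lit 6) (nat_lit 643) (nat_lit 3) (nat_lit 256) (nat_lit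 248) (nat_lit 276)))) (PT.nd (nat_lit 156) (PT.nd (nat_lit 78) (PT.lf (nat_lit 50160) (nat_lit 6) (nat_lit 660) (nat_lit 3) (nat_lit 257) (nat_lit 248) (nat_lit 275)) (PT.lf (nat_lit 51376) (nat_lit 6) (nat_lit 676) (nat_lit 3) (nat_lit 258) (nat_lit 248) (nat_lit 274))) (PT.nd (nat_lit 78) (PT.lf (nat_lit 52516) (nat_lit 6) (nat_lit 691) (nat_lit 3) (nat_lit 259) (nat_lit 248) (nat_lit 273)) (PT.lf (nat_lit 53580) (nat_lit 6) (nat_lit 705) (nat_lit 3) (nat_lit 260) (nat_lit 248) (nat_lit 272))))))) (PT.nd (nat_lit 1092) (PT.nd (nat_lit 546) (PT.nd (nat_lit 234) (PT.nd (nat_lit 78) (PT.lf (nat_lit 53656) (nat_lit 6) (nat_lit 706) (nat_lit 3) (nat_lit 261) (nat_lit 248) (nat_lit 271)) (PT.nd (nat_lit 78) (PT.lf (nat_lit 53732) (nat_lit 6) (nat_lit 707) (nat_lit 3) (nat_lit 262) (nat_lit 248) (nat_lit 270)) (PT.lf (nat_lit 53808) (nat_lit 6) (nat_lit 708) (nat_lit 3) (nat_lit 263) (nat_lit 248) (nat_lit 269)))) (PT.nd (nat_lit 156) (PT.nd (nat_lit 78) (PT.lf (nat_lit 53884) (nat_lit 6) (nat_lit 709) (nat_lit 3) (nat_lit 264) (nat_lit 248)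 (nat_lit 268)) (PT.lf (nat_lit 53960) (nat_lit 6) (nat_lit 710) (nat_lit 3) (nat_lit 265) (nat_lit 248) (nat_lit 267))) (PT.nd (nat_lit 78) (PT.lf (nat_lit 54036) (nat_lit 3) (nat_lit 711) (nat_lit 1) (nat_lit 266) (nat_lit 248) (nat_lit 266)) (PT.lf (nat_lit 53960) (nat_lit 6) (nat_lit 710) (nat_lit 1) (nat_lit 267) (nat_lit 248) (nat_lit 265))))) (PT.nd (nat_lit 234) (PT.nd (nat_lit 78) (PT.lf (nat_lit 53884) (nat_lit 6) (nat_lit 709) (nat_lit 1) (nat_lit 268) (nat_lit 248) (nat_lit 264)) (PT.nd (nat_lit 78) (PT.lf (nat_lit 53808) (nat_lit 6) (nat_lit 708) (nat_lit 1) (nat_lit 269) (nat_lit 248) (nat_lit 263)) (PT.lf (nat_lit 53732) (nat_lit 6) (nat_lit 707) (nat_lit 1) (nat_lit 270) (nat_lit 248) (nat_lit 262)))) (PT.nd (nat_lit 156) (PT.nd (nat_lit 78) (PT.lf (nat_lit 53656) (nat_lit 6) (nat_lit 706) (nat_lit 1) (nat_lit 271) (nat_lit 248) (nat_lit 261)) (PT.lf (nat_lit 53580) (nat_lit 6) (nat_lit 705) (nat_lit 1) (nat_lit 272) (nat_lit 248) (nat_lit 260))) (PT.nd (nat_lit 78) (PT.lf (nat_lit 52516) (nat_lit 6) (nat_lit 691) (nat_lit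 1) (nat_lit 273) (nat_lit 248) (nat_lit 259)) (PT.lf (nat_lit 51376) (nat_lit 6) (nat_lit 676) (nat_lit 1) (nat_lit 274) (nat_lit 248) (nat_lit 258)))))) (PT.nd (nat_lit 546) (PT.nd (nat_lit 234) (PT.nd (nat_lit 78) (PT.lf (nat_lit 50160) (nat_lit 6) (nat_lit 660) (nat_lit 1) (nat_lit 275) (nat_lit 248) (nat_lit 257)) (PT.nd (nat_lit 78) (PT.lf (nat_lit 48868) (nat_lit 6) (nat_lit 643) (nat_lit 1) (nat_lit 276) (nat_lit 248) (nat_lit 256)) (PT.lf (nat_lit 47500) (nat_lit 6) (nat_lit 625) (nat_lit 1) (nat_lit 277) (nat_lit 248) (nat_lit 255)))) (PT.nd (nat_lit 156) (PT.nd (nat_lit 78) (PT.lf (nat_lit 46056) (nat_lit 6) (nat_lit 606) (nat_lit 1) (nat_lit 278) (nat_lit 248) (nat_lit 254)) (PT.lf (nat_lit 44536) (nat_lit 6) (nat_lit 586) (nat_lit 1) (nat_lit 279) (nat_lit 248) (nat_lit 253))) (PT.nd (nat_lit 78) (PT.lf (nat_lit 42940) (nat_lit 6) (nat_lit 565) (nat_lit 1) (nat_lit 280) (nat_lit 248) (nat_lit 252)) (PT.lf (nat_lit 41268) (nat_lit 6) (nat_lit 543) (nat_lit 1) (nat_lit 281) (nat_lit 248) (nat_lit 251))))) (PT.nd (nat_lit 78546)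 (PT.nd (nat_lit 156) (PT.nd (nat_lit 78) (PT.lf (nat_lit 39520) (nat_lit 6) (nat_lit 520) (nat_lit 1) (nat_lit 282) (nat_lit 248) (nat_lit 250)) (PT.lf (nat_lit 37696) (nat_lit 6) (nat_lit 496) (nat_lit 1) (nat_lit 283) (nat_lit 248) (nat_lit 249))) (PT.nd (nat_lit 78312) (PT.lf (nat_lit 35796) (nat_lit 3) (nat_lit 471) (nat_lit 0) (nat_lit 284) (nat_lit 248) (nat_lit 248)) (PT.lf (nat_lit 35872) (nat_lit 6) (nat_lit 472) (nat_lit 5) (nat_lit 247) (nat_lit 249) (nat_lit 284)))) (PT.nd (nat_lit 156) (PT.nd (nat_lit 78) (PT.lf (nat_lit 37696) (nat_lit 6) (nat_lit 496) (nat_lit 5) (nat_lit 248) (nat_lit 249) (nat_lit 283)) (PT.lf (nat_lit 39444) (nat_lit 3) (nat_lit 519) (nat_lit 3) (nat_lit 249) (nat_lit 249) (nat_lit 282))) (PT.nd (nat_lit 78) (PT.lf (nat_lit 41192) (nat_lit 6) (nat_lit 542) (nat_lit 3) (nat_lit 250) (nat_lit 249) (nat_lit 281)) (PT.lf (nat_lit 42864) (nat_lit 6) (nat_lit 564) (nat_lit 3) (nat_lit 251) (nat_lit 249) (nat_lit 280))))))))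
noncomputable def pc18 : PT := (PT.nd (nat_lit 2184) (PT.nd (nat_lit 1092) (PT.nd (nat_lit 546) (PT.nd (nat_lit 234) (PT.nd (nat_lit 78) (PT.lf (nat_lit 44460) (nat_lit 6) (nat_lit 585) (nat_lit 3) (nat_lit 252) (nat_lit 249) (nat_lit 279)) (PT.nd (nat_lit 78) (PT.lf (nat_lit 45980) (nat_lit 6) (nat_lit 605) (nat_lit 3) (nat_lit 253) (nat_lit 249) (nat_lit 278)) (PT.lf (nat_lit 47424) (nat_lit 6) (nat_lit 624) (nat_lit 3) (nat_lit 254) (nat_lit 249) (nat_lit 277)))) (PT.nd (nat_lit 156) (PT.nd (nat_lit 78) (PT.lf (nat_lit 48792) (nat_lit 6) (nat_lit 642) (nat_lit 3) (nat_lit 255) (nat_lit 249) (nat_lit 276)) (PT.lf (nat_lit 50084) (nat_lit 6) (nat_lit 659) (nat_lit 3) (nat_lit 256) (nat_lit 249) (nat_lit 275))) (PT.nd (nat_lit 78) (PT.lf (nat_lit 51300) (nat_lit 6) (nat_lit 675) (nat_lit 3) (nat_lit 257) (nat_lit 249) (nat_lit 274)) (PT.lf (nat_lit 52440) (nat_lit 6) (nat_lit 690) (nat_lit 3) (nat_lit 258) (nat_lit 249) (nat_lit 273))))) (PT.nd (nat_lit 234) (PT.nd (nat_lit 78) (PT.lf (nat_lit 53504) (nat_lit 6) (nat_lit 704) (nat_lit 3)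 (nat_lit 259) (nat_lit 249) (nat_lit 272)) (PT.nd (nat_lit 78) (PT.lf (nat_lit 54492) (nat_lit 6) (nat_lit 717) (nat_lit 3) (nat_lit 260) (nat_lit 249) (nat_lit 271)) (PT.lf (nat_lit 54568) (nat_lit 6) (nat_lit 718) (nat_lit 3) (nat_lit 261) (nat_lit 249) (nat_lit 270)))) (PT.nd (nat_lit 156) (PT.nd (nat_lit 78) (PT.lf (nat_lit 54644) (nat_lit 6) (nat_lit 719) (nat_lit 3) (nat_lit 262) (nat_lit 249) (nat_lit 269)) (PT.lf (nat_lit 54720) (nat_lit 6) (nat_lit 720) (nat_lit 3) (nat_lit 263) (nat_lit 249) (nat_lit 268))) (PT.nd (nat_lit 78) (PT.lf (nat_lit 54796) (nat_lit 6) (nat_lit 721) (nat_lit 3) (nat_lit 264) (nat_lit 249) (nat_lit 267)) (PT.lf (nat_lit 54872) (nat_lit 6) (nat_lit 722) (nat_lit 3) (nat_lit 265) (nat_lit 249) (nat_lit 266)))))) (PT.nd (nat_lit 546) (PT.nd (nat_lit 234) (PT.nd (nat_lit 78) (PT.lf (nat_lit 54872) (nat_lit 6) (nat_lit 722) (nat_lit 1) (nat_lit 266) (nat_lit 249) (nat_lit 265)) (PT.nd (nat_lit 78) (PT.lf (nat_lit 54796) (nat_lit 6) (nat_lit 721) (nat_lit 1) (nat_lit 267) (nat_lit 249) (nat_lit 264)) (PT.lf (nat_lit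 54720) (nat_lit 6) (nat_lit 720) (nat_lit 1) (nat_lit 268) (nat_lit 249) (nat_lit 263)))) (PT.nd (nat_lit 156) (PT.nd (nat_lit 78) (PT.lf (nat_lit 54644) (nat_lit 6) (nat_lit 719) (nat_lit 1) (nat_lit 269) (nat_lit 249) (nat_lit 262)) (PT.lf (nat_lit 54568) (nat_lit 6) (nat_lit 718) (nat_lit 1) (nat_lit 270) (nat_lit 249) (nat_lit 261))) (PT.nd (nat_lit 78) (PT.lf (nat_lit 54492) (nat_lit 6) (nat_lit 717) (nat_lit 1) (nat_lit 271) (nat_lit 249) (nat_lit 260)) (PT.lf (nat_lit 53504) (nat_lit 6) (nat_lit 704) (nat_lit 1) (nat_lit 272) (nat_lit 249) (nat_lit 259))))) (PT.nd (nat_lit 234) (PT.nd (nat_lit 78) (PT.lf (nat_lit 52440) (nat_lit 6) (nat_lit 690) (nat_lit 1) (nat_lit 273) (nat_lit 249) (nat_lit 258)) (PT.nd (nat_lit 78) (PT.lf (nat_lit 51300) (nat_lit 6) (nat_lit 675) (nat_lit 1) (nat_lit 274) (nat_lit 249) (nat_lit 257)) (PT.lf (nat_lit 50084) (nat_lit 6) (nat_lit 659) (nat_lit 1) (nat_lit 275) (nat_lit 249) (nat_lit 256)))) (PT.nd (nat_lit 156) (PT.nd (nat_lit 78) (PT.lf (nat_lit 48792) (nat_lit 6) (nat_lit 642) (nat_lit 1) (nat_lit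 276) (nat_lit 249) (nat_lit 255)) (PT.lf (nat_lit 47424) (nat_lit 6) (nat_lit 624) (nat_lit 1) (nat_lit 277) (nat_lit 249) (nat_lit 254))) (PT.nd (nat_lit 78) (PT.lf (nat_lit 45980) (nat_lit 6) (nat_lit 605) (nat_lit 1) (nat_lit 278) (nat_lit 249) (nat_lit 253)) (PT.lf (nat_lit 44460) (nat_lit 6) (nat_lit 585) (nat_lit 1) (nat_lit 279) (nat_lit 249) (nat_lit 252))))))) (PT.nd (nat_lit 79248) (PT.nd (nat_lit 78702) (PT.nd (nat_lit 234) (PT.nd (nat_lit 78) (PT.lf (nat_lit 42864) (nat_lit 6) (nat_lit 564) (nat_lit 1) (nat_lit 280) (nat_lit 249) (nat_lit 251)) (PT.nd (nat_lit 78) (PT.lf (nat_lit 41192) (nat_lit 6) (nat_lit 542) (nat_lit 1) (nat_lit 281) (nat_lit 249) (nat_lit 250)) (PT.lf (nat_lit 39444) (nat_lit 3) (nat_lit 519) (nat_lit 0) (nat_lit 282) (nat_lit 249) (nat_lit 249)))) (PT.nd (nat_lit 78312) (PT.nd (nat_lit 78) (PT.lf (nat_lit 37696) (nat_lit 6) (nat_lit 496) (nat_lit 0) (nat_lit 283) (nat_lit 249) (nat_lit 248)) (PT.lf (nat_lit 35872) (nat_lit 6) (nat_lit 472) (nat_lit 0) (nat_lit 284) (nat_lit 249) (nat_lit 247))) (PT.nd (nat_lit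 78) (PT.lf (nat_lit 35948) (nat_lit 6) (nat_lit 473) (nat_lit 5) (nat_lit 246) (nat_lit 250) (nat_lit 284)) (PT.lf (nat_lit 37772) (nat_lit 6) (nat_lit 497) (nat_lit 5) (nat_lit 247) (nat_lit 250) (nat_lit 283))))) (PT.nd (nat_lit 234) (PT.nd (nat_lit 78) (PT.lf (nat_lit 39520) (nat_lit 6) (nat_lit 520) (nat_lit 5) (nat_lit 248) (nat_lit 250) (nat_lit 282)) (PT.nd (nat_lit 78) (PT.lf (nat_lit 41192) (nat_lit 6) (nat_lit 542) (nat_lit 5) (nat_lit 249) (nat_lit 250) (nat_lit 281)) (PT.lf (nat_lit 42788) (nat_lit 3) (nat_lit 563) (nat_lit 3) (nat_lit 250) (nat_lit 250) (nat_lit 280)))) (PT.nd (nat_lit 156) (PT.nd (nat_lit 78) (PT.lf (nat_lit 44384) (nat_lit 6) (nat_lit 584) (nat_lit 3) (nat_lit 251) (nat_lit 250) (nat_lit 279)) (PT.lf (nat_lit 45904) (nat_lit 6) (nat_lit 604) (nat_lit 3) (nat_lit 252) (nat_lit 250) (nat_lit 278))) (PT.nd (nat_lit 78) (PT.lf (nat_lit 47348) (nat_lit 6) (nat_lit 623) (nat_lit 3) (nat_lit 253) (nat_lit 250) (nat_lit 277)) (PT.lf (nat_lit 48716) (nat_lit 6) (nat_lit 641) (nat_lit 3) (nat_lit 254) (nat_lit 250)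 (nat_lit 276)))))) (PT.nd (nat_lit 546) (PT.nd (nat_lit 234) (PT.nd (nat_lit 78) (PT.lf (nat_lit 50008) (nat_lit 6) (nat_lit 658) (nat_lit 3) (nat_lit 255) (nat_lit 250) (nat_lit 275)) (PT.nd (nat_lit 78) (PT.lf (nat_lit 51224) (nat_lit 6) (nat_lit 674) (nat_lit 3) (nat_lit 256) (nat_lit 250) (nat_lit 274)) (PT.lf (nat_lit 52364) (nat_lit 6) (nat_lit 689) (nat_lit 3) (nat_lit 257) (nat_lit 250) (nat_lit 273)))) (PT.nd (nat_lit 156) (PT.nd (nat_lit 78) (PT.lf (nat_lit 53428) (nat_lit 6) (nat_lit 703) (nat_lit 3) (nat_lit 258) (nat_lit 250) (nat_lit 272)) (PT.lf (nat_lit 54416) (nat_lit 6) (nat_lit 716) (nat_lit 3) (nat_lit 259) (nat_lit 250) (nat_lit 271))) (PT.nd (nat_lit 78) (PT.lf (nat_lit 55328) (nat_lit 6) (nat_lit 728) (nat_lit 3) (nat_lit 260) (nat_lit 250) (nat_lit 270)) (PT.lf (nat_lit 55404) (nat_lit 6) (nat_lit 729) (nat_lit 3) (nat_lit 261) (nat_lit 250) (nat_lit 269))))) (PT.nd (nat_lit 312) (PT.nd (nat_lit 156) (PT.nd (nat_lit 78) (PT.lf (nat_lit 55480) (nat_lit 6) (nat_lit 730) (nat_lit 3) (nat_lit 262) (nat_lit 250) (nat_lit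 268)) (PT.lf (nat_lit 55556) (nat_lit 6) (nat_lit 731) (nat_lit 3) (nat_lit 263) (nat_lit 250) (nat_lit 267))) (PT.nd (nat_lit 78) (PT.lf (nat_lit 55632) (nat_lit 6) (nat_lit 732) (nat_lit 3) (nat_lit 264) (nat_lit 250) (nat_lit 266)) (PT.lf (nat_lit 55708) (nat_lit 3) (nat_lit 733) (nat_lit 1) (nat_lit 265) (nat_lit 250) (nat_lit 265)))) (PT.nd (nat_lit 156) (PT.nd (nat_lit 78) (PT.lf (nat_lit 55632) (nat_lit 6) (nat_lit 732) (nat_lit 1) (nat_lit 266) (nat_lit 250) (nat_lit 264)) (PT.lf (nat_lit 55556) (nat_lit 6) (nat_lit 731) (nat_lit 1) (nat_lit 267) (nat_lit 250) (nat_lit 263))) (PT.nd (nat_lit 78) (PT.lf (nat_lit 55480) (nat_lit 6) (nat_lit 730) (nat_lit 1) (nat_lit 268) (nat_lit 250) (nat_lit 262)) (PT.lf (nat_lit 55404) (nat_lit 6) (nat_lit 729) (nat_lit 1) (nat_lit 269) (nat_lit 250) (nat_lit 261))))))))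
noncomputable def pc19 : PT := (PT.nd (nat_lit 80340) (PT.nd (nat_lit 1092) (PT.nd (nat_lit 546) (PT.nd (nat_lit 234) (PT.nd (nat_lit 78) (PT.lf (nat_lit 55328) (nat_lit 6) (nat_lit 728) (nat_lit 1) (nat_lit 270) (nat_lit 250) (nat_lit 260)) (PT.nd (nat_lit 78) (PT.lf (nat_lit 54416) (nat_lit 6) (nat_lit 716) (nat_lit 1) (nat_lit 271) (nat_lit 250) (nat_lit 259)) (PT.lf (nat_lit 53428) (nat_lit 6) (nat_lit 703) (nat_lit 1) (nat_lit 272) (nat_lit 250) (nat_lit 258)))) (PT.nd (nat_lit 156) (PT.nd (nat_lit 78) (PT.lf (nat_lit 52364) (nat_lit 6) (nat_lit 689) (nat_lit 1) (nat_lit 273) (nat_lit 250) (nat_lit 257)) (PT.lf (nat_lit 51224) (nat_lit 6) (nat_lit 674) (nat_lit 1) (nat_lit 274) (nat_lit 250) (nat_lit 256))) (PT.nd (nat_lit 78) (PT.lf (nat_lit 50008) (nat_lit 6) (nat_lit 658) (nat_lit 1) (nat_lit 275) (nat_lit 250) (nat_lit 255)) (PT.lf (nat_lit 48716) (nat_lit 6) (nat_lit 641) (nat_lit 1) (nat_lit 276) (nat_lit 250) (nat_lit 254))))) (PT.nd (nat_lit 234) (PT.nd (nat_lit 78) (PT.lf (nat_lit 47348) (nat_lit 6) (nat_lit 623) (nat_lit 1)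 (nat_lit 277) (nat_lit 250) (nat_lit 253)) (PT.nd (nat_lit 78) (PT.lf (nat_lit 45904) (nat_lit 6) (nat_lit 604) (nat_lit 1) (nat_lit 278) (nat_lit 250) (nat_lit 252)) (PT.lf (nat_lit 44384) (nat_lit 6) (nat_lit 584) (nat_lit 1) (nat_lit 279) (nat_lit 250) (nat_lit 251)))) (PT.nd (nat_lit 156) (PT.nd (nat_lit 78) (PT.lf (nat_lit 42788) (nat_lit 3) (nat_lit 563) (nat_lit 0) (nat_lit 280) (nat_lit 250) (nat_lit 250)) (PT.lf (nat_lit 41192) (nat_lit 6) (nat_lit 542) (nat_lit 0) (nat_lit 281) (nat_lit 250) (nat_lit 249))) (PT.nd (nat_lit 78) (PT.lf (nat_lit 39520) (nat_lit 6) (nat_lit 520) (nat_lit 0) (nat_lit 282) (nat_lit 250) (nat_lit 248)) (PT.lf (nat_lit 37772) (nat_lit 6) (nat_lit 497) (nat_lit 0) (nat_lit 283) (nat_lit 250) (nat_lit 247)))))) (PT.nd (nat_lit 78624) (PT.nd (nat_lit 78312) (PT.nd (nat_lit 78156) (PT.lf (nat_lit 35948) (nat_lit 6) (nat_lit 473) (nat_lit 0) (nat_lit 284) (nat_lit 250) (nat_lit 246)) (PT.nd (nat_lit 78) (PT.lf (nat_lit 36024) (nat_lit 6) (nat_lit 474) (nat_lit 5) (nat_lit 245) (nat_lit 251) (nat_lit 284)) (PT.lf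 (nat_lit 37848) (nat_lit 6) (nat_lit 498) (nat_lit 5) (nat_lit 246) (nat_lit 251) (nat_lit 283)))) (PT.nd (nat_lit 156) (PT.nd (nat_lit 78) (PT.lf (nat_lit 39596) (nat_lit 6) (nat_lit 521) (nat_lit 5) (nat_lit 247) (nat_lit 251) (nat_lit 282)) (PT.lf (nat_lit 41268) (nat_lit 6) (nat_lit 543) (nat_lit 5) (nat_lit 248) (nat_lit 251) (nat_lit 281))) (PT.nd (nat_lit 78) (PT.lf (nat_lit 42864) (nat_lit 6) (nat_lit 564) (nat_lit 5) (nat_lit 249) (nat_lit 251) (nat_lit 280)) (PT.lf (nat_lit 44384) (nat_lit 6) (nat_lit 584) (nat_lit 5) (nat_lit 250) (nat_lit 251) (nat_lit 279))))) (PT.nd (nat_lit 312) (PT.nd (nat_lit 156) (PT.nd (nat_lit 78) (PT.lf (nat_lit 45828) (nat_lit 3) (nat_lit 603) (nat_lit 3) (nat_lit 251) (nat_lit 251) (nat_lit 278)) (PT.lf (nat_lit 47272) (nat_lit 6) (nat_lit 622) (nat_lit 3) (nat_lit 252) (nat_lit 251) (nat_lit 277))) (PT.nd (nat_lit 78) (PT.lf (nat_lit 48640) (nat_lit 6) (nat_lit 640) (nat_lit 3) (nat_lit 253) (nat_lit 251) (nat_lit 276)) (PT.lf (nat_lit 49932) (nat_lit 6) (nat_lit 657) (nat_lit 3) (nat_lit 254) (nat_lit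 251) (nat_lit 275)))) (PT.nd (nat_lit 156) (PT.nd (nat_lit 78) (PT.lf (nat_lit 51148) (nat_lit 6) (nat_lit 673) (nat_lit 3) (nat_lit 255) (nat_lit 251) (nat_lit 274)) (PT.lf (nat_lit 52288) (nat_lit 6) (nat_lit 688) (nat_lit 3) (nat_lit 256) (nat_lit 251) (nat_lit 273))) (PT.nd (nat_lit 78) (PT.lf (nat_lit 53352) (nat_lit 6) (nat_lit 702) (nat_lit 3) (nat_lit 257) (nat_lit 251) (nat_lit 272)) (PT.lf (nat_lit 54340) (nat_lit 6) (nat_lit 715) (nat_lit 3) (nat_lit 258) (nat_lit 251) (nat_lit 271))))))) (PT.nd (nat_lit 1092) (PT.nd (nat_lit 546) (PT.nd (nat_lit 234) (PT.nd (nat_lit 78) (PT.lf (nat_lit 55252) (nat_lit 6) (nat_lit 727) (nat_lit 3) (nat_lit 259) (nat_lit 251) (nat_lit 270)) (PT.nd (nat_lit 78) (PT.lf (nat_lit 56088) (nat_lit 6) (nat_lit 738) (nat_lit 3) (nat_lit 260) (nat_lit 251) (nat_lit 269)) (PT.lf (nat_lit 56164) (nat_lit 6) (nat_lit 739) (nat_lit 3) (nat_lit 261) (nat_lit 251) (nat_lit 268)))) (PT.nd (nat_lit 156) (PT.nd (nat_lit 78) (PT.lf (nat_lit 56240) (nat_lit 6) (nat_lit 740) (nat_lit 3) (nat_lit 262) (nat_lit 251)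 (nat_lit 267)) (PT.lf (nat_lit 56316) (nat_lit 6) (nat_lit 741) (nat_lit 3) (nat_lit 263) (nat_lit 251) (nat_lit 266))) (PT.nd (nat_lit 78) (PT.lf (nat_lit 56392) (nat_lit 6) (nat_lit 742) (nat_lit 3) (nat_lit 264) (nat_lit 251) (nat_lit 265)) (PT.lf (nat_lit 56392) (nat_lit 6) (nat_lit 742) (nat_lit 1) (nat_lit 265) (nat_lit 251) (nat_lit 264))))) (PT.nd (nat_lit 234) (PT.nd (nat_lit 78) (PT.lf (nat_lit 56316) (nat_lit 6) (nat_lit 741) (nat_lit 1) (nat_lit 266) (nat_lit 251) (nat_lit 263)) (PT.nd (nat_lit 78) (PT.lf (nat_lit 56240) (nat_lit 6) (nat_lit 740) (nat_lit 1) (nat_lit 267) (nat_lit 251) (nat_lit 262)) (PT.lf (nat_lit 56164) (nat_lit 6) (nat_lit 739) (nat_lit 1) (nat_lit 268) (nat_lit 251) (nat_lit 261)))) (PT.nd (nat_lit 156) (PT.nd (nat_lit 78) (PT.lf (nat_lit 56088) (nat_lit 6) (nat_lit 738) (nat_lit 1) (nat_lit 269) (nat_lit 251) (nat_lit 260)) (PT.lf (nat_lit 55252) (nat_lit 6) (nat_lit 727) (nat_lit 1) (nat_lit 270) (nat_lit 251) (nat_lit 259))) (PT.nd (nat_lit 78) (PT.lf (nat_lit 54340) (nat_lit 6) (nat_lit 715) (nat_lit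 1) (nat_lit 271) (nat_lit 251) (nat_lit 258)) (PT.lf (nat_lit 53352) (nat_lit 6) (nat_lit 702) (nat_lit 1) (nat_lit 272) (nat_lit 251) (nat_lit 257)))))) (PT.nd (nat_lit 546) (PT.nd (nat_lit 234) (PT.nd (nat_lit 78) (PT.lf (nat_lit 52288) (nat_lit 6) (nat_lit 688) (nat_lit 1) (nat_lit 273) (nat_lit 251) (nat_lit 256)) (PT.nd (nat_lit 78) (PT.lf (nat_lit 51148) (nat_lit 6) (nat_lit 673) (nat_lit 1) (nat_lit 274) (nat_lit 251) (nat_lit 255)) (PT.lf (nat_lit 49932) (nat_lit 6) (nat_lit 657) (nat_lit 1) (nat_lit 275) (nat_lit 251) (nat_lit 254)))) (PT.nd (nat_lit 156) (PT.nd (nat_lit 78) (PT.lf (nat_lit 48640) (nat_lit 6) (nat_lit 640) (nat_lit 1) (nat_lit 276) (nat_lit 251) (nat_lit 253)) (PT.lf (nat_lit 47272) (nat_lit 6) (nat_lit 622) (nat_lit 1) (nat_lit 277) (nat_lit 251) (nat_lit 252))) (PT.nd (nat_lit 78) (PT.lf (nat_lit 45828) (nat_lit 3) (nat_lit 603) (nat_lit 0) (nat_lit 278) (nat_lit 251) (nat_lit 251)) (PT.lf (nat_lit 44384) (nat_lit 6) (nat_lit 584) (nat_lit 0) (nat_lit 279) (nat_lit 251) (nat_lit 250))))) (PT.nd (nat_lit 312) (PT.nd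 (nat_lit 156) (PT.nd (nat_lit 78) (PT.lf (nat_lit 42864) (nat_lit 6) (nat_lit 564) (nat_lit 0) (nat_lit 280) (nat_lit 251) (nat_lit 249)) (PT.lf (nat_lit 41268) (nat_lit 6) (nat_lit 543) (nat_lit 0) (nat_lit 281) (nat_lit 251) (nat_lit 248))) (PT.nd (nat_lit 78) (PT.lf (nat_lit 39596) (nat_lit 6) (nat_lit 521) (nat_lit 0) (nat_lit 282) (nat_lit 251) (nat_lit 247)) (PT.lf (nat_lit 37848) (nat_lit 6) (nat_lit 498) (nat_lit 0) (nat_lit 283) (nat_lit 251) (nat_lit 246)))) (PT.nd (nat_lit 78156) (PT.nd (nat_lit 78078) (PT.lf (nat_lit 36024) (nat_lit 6) (nat_lit 474) (nat_lit 0) (nat_lit 284) (nat_lit 251) (nat_lit 245)) (PT.lf (nat_lit 36100) (nat_lit 6) (nat_lit 475) (nat_lit 5) (nat_lit 244) (nat_lit 252) (nat_lit 284))) (PT.nd (nat_lit 78) (PT.lf (nat_lit 37924) (nat_lit 6) (nat_lit 499) (nat_lit 5) (nat_lit 245) (nat_lit 252) (nat_lit 283)) (PT.lf (nat_lit 39672) (nat_lit 6) (nat_lit 522) (nat_lit 5) (nat_lit 246) (nat_lit 252) (nat_lit 282))))))))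
noncomputable def pc20 : PT := (PT.nd (nat_lit 2184) (PT.nd (nat_lit 1092) (PT.nd (nat_lit 546) (PT.nd (nat_lit 234) (PT.nd (nat_lit 78) (PT.lf (nat_lit 41344) (nat_lit 6) (nat_lit 544) (nat_lit 5) (nat_lit 247) (nat_lit 252) (nat_lit 281)) (PT.nd (nat_lit 78) (PT.lf (nat_lit 42940) (nat_lit 6) (nat_lit 565) (nat_lit 5) (nat_lit 248) (nat_lit 252) (nat_lit 280)) (PT.lf (nat_lit 44460) (nat_lit 6) (nat_lit 585) (nat_lit 5) (nat_lit 249) (nat_lit 252) (nat_lit 279)))) (PT.nd (nat_lit 156) (PT.nd (nat_lit 78) (PT.lf (nat_lit 45904) (nat_lit 6) (nat_lit 604) (nat_lit 5) (nat_lit 250) (nat_lit 252) (nat_lit 278)) (PT.lf (nat_lit 47272) (nat_lit 6) (nat_lit 622) (nat_lit 5) (nat_lit 251) (nat_lit 252) (nat_lit 277))) (PT.nd (nat_lit 78) (PT.lf (nat_lit 48564) (nat_lit 3) (nat_lit 639) (nat_lit 3) (nat_lit 252) (nat_lit 252) (nat_lit 276)) (PT.lf (nat_lit 49856) (nat_lit 6) (nat_lit 656) (nat_lit 3) (nat_lit 253) (nat_lit 252) (nat_lit 275))))) (PT.nd (nat_lit 234) (PT.nd (nat_lit 78) (PT.lf (nat_lit 51072) (nat_lit 6) (nat_lit 672) (nat_lit 3)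 (nat_lit 254) (nat_lit 252) (nat_lit 274)) (PT.nd (nat_lit 78) (PT.lf (nat_lit 52212) (nat_lit 6) (nat_lit 687) (nat_lit 3) (nat_lit 255) (nat_lit 252) (nat_lit 273)) (PT.lf (nat_lit 53276) (nat_lit 6) (nat_lit 701) (nat_lit 3) (nat_lit 256) (nat_lit 252) (nat_lit 272)))) (PT.nd (nat_lit 156) (PT.nd (nat_lit 78) (PT.lf (nat_lit 54264) (nat_lit 6) (nat_lit 714) (nat_lit 3) (nat_lit 257) (nat_lit 252) (nat_lit 271)) (PT.lf (nat_lit 55176) (nat_lit 6) (nat_lit 726) (nat_lit 3) (nat_lit 258) (nat_lit 252) (nat_lit 270))) (PT.nd (nat_lit 78) (PT.lf (nat_lit 56012) (nat_lit 6) (nat_lit 737) (nat_lit 3) (nat_lit 259) (nat_lit 252) (nat_lit 269)) (PT.lf (nat_lit 56772) (nat_lit 6) (nat_lit 747) (nat_lit 3) (nat_lit 260) (nat_lit 252) (nat_lit 268)))))) (PT.nd (nat_lit 546) (PT.nd (nat_lit 234) (PT.nd (nat_lit 78) (PT.lf (nat_lit 56848) (nat_lit 6) (nat_lit 748) (nat_lit 3) (nat_lit 261) (nat_lit 252) (nat_lit 267)) (PT.nd (nat_lit 78) (PT.lf (nat_lit 56924) (nat_lit 6) (nat_lit 749) (nat_lit 3) (nat_lit 262) (nat_lit 252) (nat_lit 266)) (PT.lf (nat_lit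 57000) (nat_lit 6) (nat_lit 750) (nat_lit 3) (nat_lit 263) (nat_lit 252) (nat_lit 265)))) (PT.nd (nat_lit 156) (PT.nd (nat_lit 78) (PT.lf (nat_lit 57076) (nat_lit 3) (nat_lit 751) (nat_lit 1) (nat_lit 264) (nat_lit 252) (nat_lit 264)) (PT.lf (nat_lit 57000) (nat_lit 6) (nat_lit 750) (nat_lit 1) (nat_lit 265) (nat_lit 252) (nat_lit 263))) (PT.nd (nat_lit 78) (PT.lf (nat_lit 56924) (nat_lit 6) (nat_lit 749) (nat_lit 1) (nat_lit 266) (nat_lit 252) (nat_lit 262)) (PT.lf (nat_lit 56848) (nat_lit 6) (nat_lit 748) (nat_lit 1) (nat_lit 267) (nat_lit 252) (nat_lit 261))))) (PT.nd (nat_lit 234) (PT.nd (nat_lit 78) (PT.lf (nat_lit 56772) (nat_lit 6) (nat_lit 747) (nat_lit 1) (nat_lit 268) (nat_lit 252) (nat_lit 260)) (PT.nd (nat_lit 78) (PT.lf (nat_lit 56012) (nat_lit 6) (nat_lit 737) (nat_lit 1) (nat_lit 269) (nat_lit 252) (nat_lit 259)) (PT.lf (nat_lit 55176) (nat_lit 6) (nat_lit 726) (nat_lit 1) (nat_lit 270) (nat_lit 252) (nat_lit 258)))) (PT.nd (nat_lit 156) (PT.nd (nat_lit 78) (PT.lf (nat_lit 54264) (nat_lit 6) (nat_lit 714) (nat_lit 1) (nat_lit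 271) (nat_lit 252) (nat_lit 257)) (PT.lf (nat_lit 53276) (nat_lit 6) (nat_lit 701) (nat_lit 1) (nat_lit 272) (nat_lit 252) (nat_lit 256))) (PT.nd (nat_lit 78) (PT.lf (nat_lit 52212) (nat_lit 6) (nat_lit 687) (nat_lit 1) (nat_lit 273) (nat_lit 252) (nat_lit 255)) (PT.lf (nat_lit 51072) (nat_lit 6) (nat_lit 672) (nat_lit 1) (nat_lit 274) (nat_lit 252) (nat_lit 254))))))) (PT.nd (nat_lit 79014) (PT.nd (nat_lit 546) (PT.nd (nat_lit 234) (PT.nd (nat_lit 78) (PT.lf (nat_lit 49856) (nat_lit 6) (nat_lit 656) (nat_lit 1) (nat_lit 275) (nat_lit 252) (nat_lit 253)) (PT.nd (nat_lit 78) (PT.lf (nat_lit 48564) (nat_lit 3) (nat_lit 639) (nat_lit 0) (nat_lit 276) (nat_lit 252) (nat_lit 252)) (PT.lf (nat_lit 47272) (nat_lit 6) (nat_lit 622) (nat_lit 0) (nat_lit 277) (nat_lit 252) (nat_lit 251)))) (PT.nd (nat_lit 156) (PT.nd (nat_lit 78) (PT.lf (nat_lit 45904) (nat_lit 6) (nat_lit 604) (nat_lit 0) (nat_lit 278) (nat_lit 252) (nat_lit 250)) (PT.lf (nat_lit 44460) (nat_lit 6) (nat_lit 585) (nat_lit 0) (nat_lit 279) (nat_lit 252) (nat_lit 249))) (PT.nd (nat_lit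 78) (PT.lf (nat_lit 42940) (nat_lit 6) (nat_lit 565) (nat_lit 0) (nat_lit 280) (nat_lit 252) (nat_lit 248)) (PT.lf (nat_lit 41344) (nat_lit 6) (nat_lit 544) (nat_lit 0) (nat_lit 281) (nat_lit 252) (nat_lit 247))))) (PT.nd (nat_lit 78156) (PT.nd (nat_lit 78) (PT.lf (nat_lit 39672) (nat_lit 6) (nat_lit 522) (nat_lit 0) (nat_lit 282) (nat_lit 252) (nat_lit 246)) (PT.nd (nat_lit 78) (PT.lf (nat_lit 37924) (nat_lit 6) (nat_lit 499) (nat_lit 0) (nat_lit 283) (nat_lit 252) (nat_lit 245)) (PT.lf (nat_lit 36100) (nat_lit 6) (nat_lit 475) (nat_lit 0) (nat_lit 284) (nat_lit 252) (nat_lit 244)))) (PT.nd (nat_lit 156) (PT.nd (nat_lit 78) (PT.lf (nat_lit 36176) (nat_lit 6) (nat_lit 476) (nat_lit 5) (nat_lit 243) (nat_lit 253) (nat_lit 284)) (PT.lf (nat_lit 38000) (nat_lit 6) (nat_lit 500) (nat_lit 5) (nat_lit 244) (nat_lit 253) (nat_lit 283))) (PT.nd (nat_lit 78) (PT.lf (nat_lit 39748) (nat_lit 6) (nat_lit 523) (nat_lit 5) (nat_lit 245) (nat_lit 253) (nat_lit 282)) (PT.lf (nat_lit 41420) (nat_lit 6) (nat_lit 545) (nat_lit 5) (nat_lit 246) (nat_lit 253)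 (nat_lit 281)))))) (PT.nd (nat_lit 546) (PT.nd (nat_lit 234) (PT.nd (nat_lit 78) (PT.lf (nat_lit 43016) (nat_lit 6) (nat_lit 566) (nat_lit 5) (nat_lit 247) (nat_lit 253) (nat_lit 280)) (PT.nd (nat_lit 78) (PT.lf (nat_lit 44536) (nat_lit 6) (nat_lit 586) (nat_lit 5) (nat_lit 248) (nat_lit 253) (nat_lit 279)) (PT.lf (nat_lit 45980) (nat_lit 6) (nat_lit 605) (nat_lit 5) (nat_lit 249) (nat_lit 253) (nat_lit 278)))) (PT.nd (nat_lit 156) (PT.nd (nat_lit 78) (PT.lf (nat_lit 47348) (nat_lit 6) (nat_lit 623) (nat_lit 5) (nat_lit 250) (nat_lit 253) (nat_lit 277)) (PT.lf (nat_lit 48640) (nat_lit 6) (nat_lit 640) (nat_lit 5) (nat_lit 251) (nat_lit 253) (nat_lit 276))) (PT.nd (nat_lit 78) (PT.lf (nat_lit 49856) (nat_lit 6) (nat_lit 656) (nat_lit 5) (nat_lit 252) (nat_lit 253) (nat_lit 275)) (PT.lf (nat_lit 50996) (nat_lit 3) (nat_lit 671) (nat_lit 3) (nat_lit 253) (nat_lit 253) (nat_lit 274))))) (PT.nd (nat_lit 312) (PT.nd (nat_lit 156) (PT.nd (nat_lit 78) (PT.lf (nat_lit 52136) (nat_lit 6) (nat_lit 686) (nat_lit 3) (nat_lit 254) (nat_lit 253) (nat_lit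 273)) (PT.lf (nat_lit 53200) (nat_lit 6) (nat_lit 700) (nat_lit 3) (nat_lit 255) (nat_lit 253) (nat_lit 272))) (PT.nd (nat_lit 78) (PT.lf (nat_lit 54188) (nat_lit 6) (nat_lit 713) (nat_lit 3) (nat_lit 256) (nat_lit 253) (nat_lit 271)) (PT.lf (nat_lit 55100) (nat_lit 6) (nat_lit 725) (nat_lit 3) (nat_lit 257) (nat_lit 253) (nat_lit 270)))) (PT.nd (nat_lit 156) (PT.nd (nat_lit 78) (PT.lf (nat_lit 55936) (nat_lit 6) (nat_lit 736) (nat_lit 3) (nat_lit 258) (nat_lit 253) (nat_lit 269)) (PT.lf (nat_lit 56696) (nat_lit 6) (nat_lit 746) (nat_lit 3) (nat_lit 259) (nat_lit 253) (nat_lit 268))) (PT.nd (nat_lit 78) (PT.lf (nat_lit 57380) (nat_lit 6) (nat_lit 755) (nat_lit 3) (nat_lit 260) (nat_lit 253) (nat_lit 267)) (PT.lf (nat_lit 57456) (nat_lit 6) (nat_lit 756) (nat_lit 3) (nat_lit 261) (nat_lit 253) (nat_lit 266))))))))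
noncomputable def pc21 : PT := (PT.nd (nat_lit 80106) (PT.nd (nat_lit 1092) (PT.nd (nat_lit 546) (PT.nd (nat_lit 234) (PT.nd (nat_lit 78) (PT.lf (nat_lit 57532) (nat_lit 6) (nat_lit 757) (nat_lit 3) (nat_lit 262) (nat_lit 253) (nat_lit 265)) (PT.nd (nat_lit 78) (PT.lf (nat_lit 57608) (nat_lit 6) (nat_lit 758) (nat_lit 3) (nat_lit 263) (nat_lit 253) (nat_lit 264)) (PT.lf (nat_lit 57608) (nat_lit 6) (nat_lit 758) (nat_lit 1) (nat_lit 264) (nat_lit 253) (nat_lit 263)))) (PT.nd (nat_lit 156) (PT.nd (nat_lit 78) (PT.lf (nat_lit 57532) (nat_lit 6) (nat_lit 757) (nat_lit 1) (nat_lit 265) (nat_lit 253) (nat_lit 262)) (PT.lf (nat_lit 57456) (nat_lit 6) (nat_lit 756) (nat_lit 1) (nat_lit 266) (nat_lit 253) (nat_lit 261))) (PT.nd (nat_lit 78) (PT.lf (nat_lit 57380) (nat_lit 6) (nat_lit 755) (nat_lit 1) (nat_lit 267) (nat_lit 253) (nat_lit 260)) (PT.lf (nat_lit 56696) (nat_lit 6) (nat_lit 746) (nat_lit 1) (nat_lit 268) (nat_lit 253) (nat_lit 259))))) (PT.nd (nat_lit 234) (PT.nd (nat_lit 78) (PT.lf (nat_lit 55936) (nat_lit 6) (nat_lit 736) (nat_lit 1)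 (nat_lit 269) (nat_lit 253) (nat_lit 258)) (PT.nd (nat_lit 78) (PT.lf (nat_lit 55100) (nat_lit 6) (nat_lit 725) (nat_lit 1) (nat_lit 270) (nat_lit 253) (nat_lit 257)) (PT.lf (nat_lit 54188) (nat_lit 6) (nat_lit 713) (nat_lit 1) (nat_lit 271) (nat_lit 253) (nat_lit 256)))) (PT.nd (nat_lit 156) (PT.nd (nat_lit 78) (PT.lf (nat_lit 53200) (nat_lit 6) (nat_lit 700) (nat_lit 1) (nat_lit 272) (nat_lit 253) (nat_lit 255)) (PT.lf (nat_lit 52136) (nat_lit 6) (nat_lit 686) (nat_lit 1) (nat_lit 273) (nat_lit 253) (nat_lit 254))) (PT.nd (nat_lit 78) (PT.lf (nat_lit 50996) (nat_lit 3) (nat_lit 671) (nat_lit 0) (nat_lit 274) (nat_lit 253) (nat_lit 253)) (PT.lf (nat_lit 49856) (nat_lit 6) (nat_lit 656) (nat_lit 0) (nat_lit 275) (nat_lit 253) (nat_lit 252)))))) (PT.nd (nat_lit 546) (PT.nd (nat_lit 234) (PT.nd (nat_lit 78) (PT.lf (nat_lit 48640) (nat_lit 6) (nat_lit 640) (nat_lit 0) (nat_lit 276) (nat_lit 253) (nat_lit 251)) (PT.nd (nat_lit 78) (PT.lf (nat_lit 47348) (nat_lit 6) (nat_lit 623) (nat_lit 0) (nat_lit 277) (nat_lit 253) (nat_lit 250)) (PT.lf (nat_lit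 45980) (nat_lit 6) (nat_lit 605) (nat_lit 0) (nat_lit 278) (nat_lit 253) (nat_lit 249)))) (PT.nd (nat_lit 156) (PT.nd (nat_lit 78) (PT.lf (nat_lit 44536) (nat_lit 6) (nat_lit 586) (nat_lit 0) (nat_lit 279) (nat_lit 253) (nat_lit 248)) (PT.lf (nat_lit 43016) (nat_lit 6) (nat_lit 566) (nat_lit 0) (nat_lit 280) (nat_lit 253) (nat_lit 247))) (PT.nd (nat_lit 78) (PT.lf (nat_lit 41420) (nat_lit 6) (nat_lit 545) (nat_lit 0) (nat_lit 281) (nat_lit 253) (nat_lit 246)) (PT.lf (nat_lit 39748) (nat_lit 6) (nat_lit 523) (nat_lit 0) (nat_lit 282) (nat_lit 253) (nat_lit 245))))) (PT.nd (nat_lit 78156) (PT.nd (nat_lit 78000) (PT.nd (nat_lit 78) (PT.lf (nat_lit 38000) (nat_lit 6) (nat_lit 500) (nat_lit 0) (nat_lit 283) (nat_lit 253) (nat_lit 244)) (PT.lf (nat_lit 36176) (nat_lit 6) (nat_lit 476) (nat_lit 0) (nat_lit 284) (nat_lit 253) (nat_lit 243))) (PT.nd (nat_lit 78) (PT.lf (nat_lit 36252) (nat_lit 6) (nat_lit 477) (nat_lit 5) (nat_lit 242) (nat_lit 254) (nat_lit 284)) (PT.lf (nat_lit 38076) (nat_lit 6) (nat_lit 501) (nat_lit 5) (nat_lit 243) (nat_lit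 254) (nat_lit 283)))) (PT.nd (nat_lit 156) (PT.nd (nat_lit 78) (PT.lf (nat_lit 39824) (nat_lit 6) (nat_lit 524) (nat_lit 5) (nat_lit 244) (nat_lit 254) (nat_lit 282)) (PT.lf (nat_lit 41496) (nat_lit 6) (nat_lit 546) (nat_lit 5) (nat_lit 245) (nat_lit 254) (nat_lit 281))) (PT.nd (nat_lit 78) (PT.lf (nat_lit 43092) (nat_lit 6) (nat_lit 567) (nat_lit 5) (nat_lit 246) (nat_lit 254) (nat_lit 280)) (PT.lf (nat_lit 44612) (nat_lit 6) (nat_lit 587) (nat_lit 5) (nat_lit 247) (nat_lit 254) (nat_lit 279))))))) (PT.nd (nat_lit 1092) (PT.nd (nat_lit 546) (PT.nd (nat_lit 234) (PT.nd (nat_lit 78) (PT.lf (nat_lit 46056) (nat_lit 6) (nat_lit 606) (nat_lit 5) (nat_lit 248) (nat_lit 254) (nat_lit 278)) (PT.nd (nat_lit 78) (PT.lf (nat_lit 47424) (nat_lit 6) (nat_lit 624) (nat_lit 5) (nat_lit 249) (nat_lit 254) (nat_lit 277)) (PT.lf (nat_lit 48716) (nat_lit 6) (nat_lit 641) (nat_lit 5) (nat_lit 250) (nat_lit 254) (nat_lit 276)))) (PT.nd (nat_lit 156) (PT.nd (nat_lit 78) (PT.lf (nat_lit 49932) (nat_lit 6) (nat_lit 657) (nat_lit 5) (nat_lit 251) (nat_lit 254)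 (nat_lit 275)) (PT.lf (nat_lit 51072) (nat_lit 6) (nat_lit 672) (nat_lit 5) (nat_lit 252) (nat_lit 254) (nat_lit 274))) (PT.nd (nat_lit 78) (PT.lf (nat_lit 52136) (nat_lit 6) (nat_lit 686) (nat_lit 5) (nat_lit 253) (nat_lit 254) (nat_lit 273)) (PT.lf (nat_lit 53124) (nat_lit 3) (nat_lit 699) (nat_lit 3) (nat_lit 254) (nat_lit 254) (nat_lit 272))))) (PT.nd (nat_lit 234) (PT.nd (nat_lit 78) (PT.lf (nat_lit 54112) (nat_lit 6) (nat_lit 712) (nat_lit 3) (nat_lit 255) (nat_lit 254) (nat_lit 271)) (PT.nd (nat_lit 78) (PT.lf (nat_lit 55024) (nat_lit 6) (nat_lit 724) (nat_lit 3) (nat_lit 256) (nat_lit 254) (nat_lit 270)) (PT.lf (nat_lit 55860) (nat_lit 6) (nat_lit 735) (nat_lit 3) (nat_lit 257) (nat_lit 254) (nat_lit 269)))) (PT.nd (nat_lit 156) (PT.nd (nat_lit 78) (PT.lf (nat_lit 56620) (nat_lit 6) (nat_lit 745) (nat_lit 3) (nat_lit 258) (nat_lit 254) (nat_lit 268)) (PT.lf (nat_lit 57304) (nat_lit 6) (nat_lit 754) (nat_lit 3) (nat_lit 259) (nat_lit 254) (nat_lit 267))) (PT.nd (nat_lit 78) (PT.lf (nat_lit 57912) (nat_lit 6) (nat_lit 762) (nat_lit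 3) (nat_lit 260) (nat_lit 254) (nat_lit 266)) (PT.lf (nat_lit 57988) (nat_lit 6) (nat_lit 763) (nat_lit 3) (nat_lit 261) (nat_lit 254) (nat_lit 265)))))) (PT.nd (nat_lit 546) (PT.nd (nat_lit 234) (PT.nd (nat_lit 78) (PT.lf (nat_lit 58064) (nat_lit 6) (nat_lit 764) (nat_lit 3) (nat_lit 262) (nat_lit 254) (nat_lit 264)) (PT.nd (nat_lit 78) (PT.lf (nat_lit 58140) (nat_lit 3) (nat_lit 765) (nat_lit 1) (nat_lit 263) (nat_lit 254) (nat_lit 263)) (PT.lf (nat_lit 58064) (nat_lit 6) (nat_lit 764) (nat_lit 1) (nat_lit 264) (nat_lit 254) (nat_lit 262)))) (PT.nd (nat_lit 156) (PT.nd (nat_lit 78) (PT.lf (nat_lit 57988) (nat_lit 6) (nat_lit 763) (nat_lit 1) (nat_lit 265) (nat_lit 254) (nat_lit 261)) (PT.lf (nat_lit 57912) (nat_lit 6) (nat_lit 762) (nat_lit 1) (nat_lit 266) (nat_lit 254) (nat_lit 260))) (PT.nd (nat_lit 78) (PT.lf (nat_lit 57304) (nat_lit 6) (nat_lit 754) (nat_lit 1) (nat_lit 267) (nat_lit 254) (nat_lit 259)) (PT.lf (nat_lit 56620) (nat_lit 6) (nat_lit 745) (nat_lit 1) (nat_lit 268) (nat_lit 254) (nat_lit 258))))) (PT.nd (nat_lit 312) (PT.nd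 (nat_lit 156) (PT.nd (nat_lit 78) (PT.lf (nat_lit 55860) (nat_lit 6) (nat_lit 735) (nat_lit 1) (nat_lit 269) (nat_lit 254) (nat_lit 257)) (PT.lf (nat_lit 55024) (nat_lit 6) (nat_lit 724) (nat_lit 1) (nat_lit 270) (nat_lit 254) (nat_lit 256))) (PT.nd (nat_lit 78) (PT.lf (nat_lit 54112) (nat_lit 6) (nat_lit 712) (nat_lit 1) (nat_lit 271) (nat_lit 254) (nat_lit 255)) (PT.lf (nat_lit 53124) (nat_lit 3) (nat_lit 699) (nat_lit 0) (nat_lit 272) (nat_lit 254) (nat_lit 254)))) (PT.nd (nat_lit 156) (PT.nd (nat_lit 78) (PT.lf (nat_lit 52136) (nat_lit 6) (nat_lit 686) (nat_lit 0) (nat_lit 273) (nat_lit 254) (nat_lit 253)) (PT.lf (nat_lit 51072) (nat_lit 6) (nat_lit 672) (nat_lit 0) (nat_lit 274) (nat_lit 254) (nat_lit 252))) (PT.nd (nat_lit 78) (PT.lf (nat_lit 49932) (nat_lit 6) (nat_lit 657) (nat_lit 0) (nat_lit 275) (nat_lit 254) (nat_lit 251)) (PT.lf (nat_lit 48716) (nat_lit 6) (nat_lit 641) (nat_lit 0) (nat_lit 276) (nat_lit 254) (nat_lit 250))))))))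
noncomputable def pc22 : PT := (PT.nd (nat_lit 79950) (PT.nd (nat_lit 78858) (PT.nd (nat_lit 546) (PT.nd (nat_lit 234) (PT.nd (nat_lit 78) (PT.lf (nat_lit 47424) (nat_lit 6) (nat_lit 624) (nat_lit 0) (nat_lit 277) (nat_lit 254) (nat_lit 249)) (PT.nd (nat_lit 78) (PT.lf (nat_lit 46056) (nat_lit 6) (nat_lit 606) (nat_lit 0) (nat_lit 278) (nat_lit 254) (nat_lit 248)) (PT.lf (nat_lit 44612) (nat_lit 6) (nat_lit 587) (nat_lit 0) (nat_lit 279) (nat_lit 254) (nat_lit 247)))) (PT.nd (nat_lit 156) (PT.nd (nat_lit 78) (PT.lf (nat_lit 43092) (nat_lit 6) (nat_lit 567) (nat_lit 0) (nat_lit 280) (nat_lit 254) (nat_lit 246)) (PT.lf (nat_lit 41496) (nat_lit 6) (nat_lit 546) (nat_lit 0) (nat_lit 281) (nat_lit 254) (nat_lit 245))) (PT.nd (nat_lit 78) (PT.lf (nat_lit 39824) (nat_lit 6) (nat_lit 524) (nat_lit 0) (nat_lit 282) (nat_lit 254) (nat_lit 244)) (PT.lf (nat_lit 38076) (nat_lit 6) (nat_lit 501) (nat_lit 0) (nat_lit 283) (nat_lit 254) (nat_lit 243))))) (PT.nd (nat_lit 78000) (PT.nd (nat_lit 77844) (PT.lf (nat_lit 36252) (nat_lit 6) (nat_lit 477) (nat_lit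 0) (nat_lit 284) (nat_lit 254) (nat_lit 242)) (PT.nd (nat_lit 78) (PT.lf (nat_lit 36328) (nat_lit 6) (nat_lit 478) (nat_lit 5) (nat_lit 241) (nat_lit 255) (nat_lit 284)) (PT.lf (nat_lit 38152) (nat_lit 6) (nat_lit 502) (nat_lit 5) (nat_lit 242) (nat_lit 255) (nat_lit 283)))) (PT.nd (nat_lit 156) (PT.nd (nat_lit 78) (PT.lf (nat_lit 39900) (nat_lit 6) (nat_lit 525) (nat_lit 5) (nat_lit 243) (nat_lit 255) (nat_lit 282)) (PT.lf (nat_lit 41572) (nat_lit 6) (nat_lit 547) (nat_lit 5) (nat_lit 244) (nat_lit 255) (nat_lit 281))) (PT.nd (nat_lit 78) (PT.lf (nat_lit 43168) (nat_lit 6) (nat_lit 568) (nat_lit 5) (nat_lit 245) (nat_lit 255) (nat_lit 280)) (PT.lf (nat_lit 44688) (nat_lit 6) (nat_lit 588) (nat_lit 5) (nat_lit 246) (nat_lit 255) (nat_lit 279)))))) (PT.nd (nat_lit 546) (PT.nd (nat_lit 234) (PT.nd (nat_lit 78) (PT.lf (nat_lit 46132) (nat_lit 6) (nat_lit 607) (nat_lit 5) (nat_lit 247) (nat_lit 255) (nat_lit 278)) (PT.nd (nat_lit 78) (PT.lf (nat_lit 47500) (nat_lit 6) (nat_lit 625) (nat_lit 5) (nat_lit 248) (nat_lit 255) (nat_lit 277)) (PT.lf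 (nat_lit 48792) (nat_lit 6) (nat_lit 642) (nat_lit 5) (nat_lit 249) (nat_lit 255) (nat_lit 276)))) (PT.nd (nat_lit 156) (PT.nd (nat_lit 78) (PT.lf (nat_lit 50008) (nat_lit 6) (nat_lit 658) (nat_lit 5) (nat_lit 250) (nat_lit 255) (nat_lit 275)) (PT.lf (nat_lit 51148) (nat_lit 6) (nat_lit 673) (nat_lit 5) (nat_lit 251) (nat_lit 255) (nat_lit 274))) (PT.nd (nat_lit 78) (PT.lf (nat_lit 52212) (nat_lit 6) (nat_lit 687) (nat_lit 5) (nat_lit 252) (nat_lit 255) (nat_lit 273)) (PT.lf (nat_lit 53200) (nat_lit 6) (nat_lit 700) (nat_lit 5) (nat_lit 253) (nat_lit 255) (nat_lit 272))))) (PT.nd (nat_lit 234) (PT.nd (nat_lit 78) (PT.lf (nat_lit 54112) (nat_lit 6) (nat_lit 712) (nat_lit 5) (nat_lit 254) (nat_lit 255) (nat_lit 271)) (PT.nd (nat_lit 78) (PT.lf (nat_lit 54948) (nat_lit 3) (nat_lit 723) (nat_lit 3) (nat_lit 255) (nat_lit 255) (nat_lit 270)) (PT.lf (nat_lit 55784) (nat_lit 6) (nat_lit 734) (nat_lit 3) (nat_lit 256) (nat_lit 255) (nat_lit 269)))) (PT.nd (nat_lit 156) (PT.nd (nat_lit 78) (PT.lf (nat_lit 56544) (nat_lit 6) (nat_lit 744) (nat_lit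 3) (nat_lit 257) (nat_lit 255) (nat_lit 268)) (PT.lf (nat_lit 57228) (nat_lit 6) (nat_lit 753) (nat_lit 3) (nat_lit 258) (nat_lit 255) (nat_lit 267))) (PT.nd (nat_lit 78) (PT.lf (nat_lit 57836) (nat_lit 6) (nat_lit 761) (nat_lit 3) (nat_lit 259) (nat_lit 255) (nat_lit 266)) (PT.lf (nat_lit 58368) (nat_lit 6) (nat_lit 768) (nat_lit 3) (nat_lit 260) (nat_lit 255) (nat_lit 265))))))) (PT.nd (nat_lit 1092) (PT.nd (nat_lit 546) (PT.nd (nat_lit 234) (PT.nd (nat_lit 78) (PT.lf (nat_lit 58444) (nat_lit 6) (nat_lit 769) (nat_lit 3) (nat_lit 261) (nat_lit 255) (nat_lit 264)) (PT.nd (nat_lit 78) (PT.lf (nat_lit 58520) (nat_lit 6) (nat_lit 770) (nat_lit 3) (nat_lit 262) (nat_lit 255) (nat_lit 263)) (PT.lf (nat_lit 58520) (nat_lit 6) (nat_lit 770) (nat_lit 1) (nat_lit 263) (nat_lit 255) (nat_lit 262)))) (PT.nd (nat_lit 156) (PT.nd (nat_lit 78) (PT.lf (nat_lit 58444) (nat_lit 6) (nat_lit 769) (nat_lit 1) (nat_lit 264) (nat_lit 255) (nat_lit 261)) (PT.lf (nat_lit 58368) (nat_lit 6) (nat_lit 768) (nat_lit 1) (nat_lit 265) (nat_lit 255) (nat_lit 260))) (PT.nd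 (nat_lit 78) (PT.lf (nat_lit 57836) (nat_lit 6) (nat_lit 761) (nat_lit 1) (nat_lit 266) (nat_lit 255) (nat_lit 259)) (PT.lf (nat_lit 57228) (nat_lit 6) (nat_lit 753) (nat_lit 1) (nat_lit 267) (nat_lit 255) (nat_lit 258))))) (PT.nd (nat_lit 234) (PT.nd (nat_lit 78) (PT.lf (nat_lit 56544) (nat_lit 6) (nat_lit 744) (nat_lit 1) (nat_lit 268) (nat_lit 255) (nat_lit 257)) (PT.nd (nat_lit 78) (PT.lf (nat_lit 55784) (nat_lit 6) (nat_lit 734) (nat_lit 1) (nat_lit 269) (nat_lit 255) (nat_lit 256)) (PT.lf (nat_lit 54948) (nat_lit 3) (nat_lit 723) (nat_lit 0) (nat_lit 270) (nat_lit 255) (nat_lit 255)))) (PT.nd (nat_lit 156) (PT.nd (nat_lit 78) (PT.lf (nat_lit 54112) (nat_lit 6) (nat_lit 712) (nat_lit 0) (nat_lit 271) (nat_lit 255) (nat_lit 254)) (PT.lf (nat_lit 53200) (nat_lit 6) (nat_lit 700) (nat_lit 0) (nat_lit 272) (nat_lit 255) (nat_lit 253))) (PT.nd (nat_lit 78) (PT.lf (nat_lit 52212) (nat_lit 6) (nat_lit 687) (nat_lit 0) (nat_lit 273) (nat_lit 255) (nat_lit 252)) (PT.lf (nat_lit 51148) (nat_lit 6) (nat_lit 673) (nat_lit 0) (nat_lit 274) (nat_lit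 255) (nat_lit 251)))))) (PT.nd (nat_lit 546) (PT.nd (nat_lit 234) (PT.nd (nat_lit 78) (PT.lf (nat_lit 50008) (nat_lit 6) (nat_lit 658) (nat_lit 0) (nat_lit 275) (nat_lit 255) (nat_lit 250)) (PT.nd (nat_lit 78) (PT.lf (nat_lit 48792) (nat_lit 6) (nat_lit 642) (nat_lit 0) (nat_lit 276) (nat_lit 255) (nat_lit 249)) (PT.lf (nat_lit 47500) (nat_lit 6) (nat_lit 625) (nat_lit 0) (nat_lit 277) (nat_lit 255) (nat_lit 248)))) (PT.nd (nat_lit 156) (PT.nd (nat_lit 78) (PT.lf (nat_lit 46132) (nat_lit 6) (nat_lit 607) (nat_lit 0) (nat_lit 278) (nat_lit 255) (nat_lit 247)) (PT.lf (nat_lit 44688) (nat_lit 6) (nat_lit 588) (nat_lit 0) (nat_lit 279) (nat_lit 255) (nat_lit 246))) (PT.nd (nat_lit 78) (PT.lf (nat_lit 43168) (nat_lit 6) (nat_lit 568) (nat_lit 0) (nat_lit 280) (nat_lit 255) (nat_lit 245)) (PT.lf (nat_lit 41572) (nat_lit 6) (nat_lit 547) (nat_lit 0) (nat_lit 281) (nat_lit 255) (nat_lit 244))))) (PT.nd (nat_lit 78000) (PT.nd (nat_lit 156) (PT.nd (nat_lit 78) (PT.lf (nat_lit 39900) (nat_lit 6) (nat_lit 525) (nat_lit 0) (nat_lit 282) (nat_lit 255)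 (nat_lit 243)) (PT.lf (nat_lit 38152) (nat_lit 6) (nat_lit 502) (nat_lit 0) (nat_lit 283) (nat_lit 255) (nat_lit 242))) (PT.nd (nat_lit 77766) (PT.lf (nat_lit 36328) (nat_lit 6) (nat_lit 478) (nat_lit 0) (nat_lit 284) (nat_lit 255) (nat_lit 241)) (PT.lf (nat_lit 36404) (nat_lit 6) (nat_lit 479) (nat_lit 5) (nat_lit 240) (nat_lit 256) (nat_lit 284)))) (PT.nd (nat_lit 156) (PT.nd (nat_lit 78) (PT.lf (nat_lit 38228) (nat_lit 6) (nat_lit 503) (nat_lit 5) (nat_lit 241) (nat_lit 256) (nat_lit 283)) (PT.lf (nat_lit 39976) (nat_lit 6) (nat_lit 526) (nat_lit 5) (nat_lit 242) (nat_lit 256) (nat_lit 282))) (PT.nd (nat_lit 78) (PT.lf (nat_lit 41648) (nat_lit 6) (nat_lit 548) (nat_lit 5) (nat_lit 243) (nat_lit 256) (nat_lit 281)) (PT.lf (nat_lit 43244) (nat_lit 6) (nat_lit 569) (nat_lit 5) (nat_lit 244) (nat_lit 256) (nat_lit 280))))))))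
noncomputable def pc23 : PT := (PT.nd (nat_lit 2262) (PT.nd (nat_lit 1092) (PT.nd (nat_lit 546) (PT.nd (nat_lit 234) (PT.nd (nat_lit 78) (PT.lf (nat_lit 44764) (nat_lit 6) (nat_lit 589) (nat_lit 5) (nat_lit 245) (nat_lit 256) (nat_lit 279)) (PT.nd (nat_lit 78) (PT.lf (nat_lit 46208) (nat_lit 6) (nat_lit 608) (nat_lit 5) (nat_lit 246) (nat_lit 256) (nat_lit 278)) (PT.lf (nat_lit 47576) (nat_lit 6) (nat_lit 626) (nat_lit 5) (nat_lit 247) (nat_lit 256) (nat_lit 277)))) (PT.nd (nat_lit 156) (PT.nd (nat_lit 78) (PT.lf (nat_lit 48868) (nat_lit 6) (nat_lit 643) (nat_lit 5) (nat_lit 248) (nat_lit 256) (nat_lit 276)) (PT.lf (nat_lit 50084) (nat_lit 6) (nat_lit 659) (nat_lit 5) (nat_lit 249) (nat_lit 256) (nat_lit 275))) (PT.nd (nat_lit 78) (PT.lf (nat_lit 51224) (nat_lit 6) (nat_lit 674) (nat_lit 5) (nat_lit 250) (nat_lit 256) (nat_lit 274)) (PT.lf (nat_lit 52288) (nat_lit 6) (nat_lit 688) (nat_lit 5) (nat_lit 251) (nat_lit 256) (nat_lit 273))))) (PT.nd (nat_lit 234) (PT.nd (nat_lit 78) (PT.lf (nat_lit 53276) (nat_lit 6) (nat_lit 701) (nat_lit 5)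 (nat_lit 252) (nat_lit 256) (nat_lit 272)) (PT.nd (nat_lit 78) (PT.lf (nat_lit 54188) (nat_lit 6) (nat_lit 713) (nat_lit 5) (nat_lit 253) (nat_lit 256) (nat_lit 271)) (PT.lf (nat_lit 55024) (nat_lit 6) (nat_lit 724) (nat_lit 5) (nat_lit 254) (nat_lit 256) (nat_lit 270)))) (PT.nd (nat_lit 156) (PT.nd (nat_lit 78) (PT.lf (nat_lit 55784) (nat_lit 6) (nat_lit 734) (nat_lit 5) (nat_lit 255) (nat_lit 256) (nat_lit 269)) (PT.lf (nat_lit 56468) (nat_lit 3) (nat_lit 743) (nat_lit 3) (nat_lit 256) (nat_lit 256) (nat_lit 268))) (PT.nd (nat_lit 78) (PT.lf (nat_lit 57152) (nat_lit 6) (nat_lit 752) (nat_lit 3) (nat_lit 257) (nat_lit 256) (nat_lit 267)) (PT.lf (nat_lit 57760) (nat_lit 6) (nat_lit 760) (nat_lit 3) (nat_lit 258) (nat_lit 256) (nat_lit 266)))))) (PT.nd (nat_lit 546) (PT.nd (nat_lit 234) (PT.nd (nat_lit 78) (PT.lf (nat_lit 58292) (nat_lit 6) (nat_lit 767) (nat_lit 3) (nat_lit 259) (nat_lit 256) (nat_lit 265)) (PT.nd (nat_lit 78) (PT.lf (nat_lit 58748) (nat_lit 6) (nat_lit 773) (nat_lit 3) (nat_lit 260) (nat_lit 256) (nat_lit 264)) (PT.lf (nat_lit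 58824) (nat_lit 6) (nat_lit 774) (nat_lit 3) (nat_lit 261) (nat_lit 256) (nat_lit 263)))) (PT.nd (nat_lit 156) (PT.nd (nat_lit 78) (PT.lf (nat_lit 58900) (nat_lit 3) (nat_lit 775) (nat_lit 1) (nat_lit 262) (nat_lit 256) (nat_lit 262)) (PT.lf (nat_lit 58824) (nat_lit 6) (nat_lit 774) (nat_lit 1) (nat_lit 263) (nat_lit 256) (nat_lit 261))) (PT.nd (nat_lit 78) (PT.lf (nat_lit 58748) (nat_lit 6) (nat_lit 773) (nat_lit 1) (nat_lit 264) (nat_lit 256) (nat_lit 260)) (PT.lf (nat_lit 58292) (nat_lit 6) (nat_lit 767) (nat_lit 1) (nat_lit 265) (nat_lit 256) (nat_lit 259))))) (PT.nd (nat_lit 312) (PT.nd (nat_lit 156) (PT.nd (nat_lit 78) (PT.lf (nat_lit 57760) (nat_lit 6) (nat_lit 760) (nat_lit 1) (nat_lit 266) (nat_lit 256) (nat_lit 258)) (PT.lf (nat_lit 57152) (nat_lit 6) (nat_lit 752) (nat_lit 1) (nat_lit 267) (nat_lit 256) (nat_lit 257))) (PT.nd (nat_lit 78) (PT.lf (nat_lit 56468) (nat_lit 3) (nat_lit 743) (nat_lit 0) (nat_lit 268) (nat_lit 256) (nat_lit 256)) (PT.lf (nat_lit 55784) (nat_lit 6) (nat_lit 734) (nat_lit 0) (nat_lit 269) (nat_lit 256)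 (nat_lit 255)))) (PT.nd (nat_lit 156) (PT.nd (nat_lit 78) (PT.lf (nat_lit 55024) (nat_lit 6) (nat_lit 724) (nat_lit 0) (nat_lit 270) (nat_lit 256) (nat_lit 254)) (PT.lf (nat_lit 54188) (nat_lit 6) (nat_lit 713) (nat_lit 0) (nat_lit 271) (nat_lit 256) (nat_lit 253))) (PT.nd (nat_lit 78) (PT.lf (nat_lit 53276) (nat_lit 6) (nat_lit 701) (nat_lit 0) (nat_lit 272) (nat_lit 256) (nat_lit 252)) (PT.lf (nat_lit 52288) (nat_lit 6) (nat_lit 688) (nat_lit 0) (nat_lit 273) (nat_lit 256) (nat_lit 251))))))) (PT.nd (nat_lit 78702) (PT.nd (nat_lit 546) (PT.nd (nat_lit 234) (PT.nd (nat_lit 78) (PT.lf (nat_lit 51224) (nat_lit 6) (nat_lit 674) (nat_lit 0) (nat_lit 274) (nat_lit 256) (nat_lit 250)) (PT.nd (nat_lit 78) (PT.lf (nat_lit 50084) (nat_lit 6) (nat_lit 659) (nat_lit 0) (nat_lit 275) (nat_lit 256) (nat_lit 249)) (PT.lf (nat_lit 48868) (nat_lit 6) (nat_lit 643) (nat_lit 0) (nat_lit 276) (nat_lit 256) (nat_lit 248)))) (PT.nd (nat_lit 156) (PT.nd (nat_lit 78) (PT.lf (nat_lit 47576) (nat_lit 6) (nat_lit 626) (nat_lit 0) (nat_lit 277) (nat_lit 256) (nat_lit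 247)) (PT.lf (nat_lit 46208) (nat_lit 6) (nat_lit 608) (nat_lit 0) (nat_lit 278) (nat_lit 256) (nat_lit 246))) (PT.nd (nat_lit 78) (PT.lf (nat_lit 44764) (nat_lit 6) (nat_lit 589) (nat_lit 0) (nat_lit 279) (nat_lit 256) (nat_lit 245)) (PT.lf (nat_lit 43244) (nat_lit 6) (nat_lit 569) (nat_lit 0) (nat_lit 280) (nat_lit 256) (nat_lit 244))))) (PT.nd (nat_lit 234) (PT.nd (nat_lit 78) (PT.lf (nat_lit 41648) (nat_lit 6) (nat_lit 548) (nat_lit 0) (nat_lit 281) (nat_lit 256) (nat_lit 243)) (PT.nd (nat_lit 78) (PT.lf (nat_lit 39976) (nat_lit 6) (nat_lit 526) (nat_lit 0) (nat_lit 282) (nat_lit 256) (nat_lit 242)) (PT.lf (nat_lit 38228) (nat_lit 6) (nat_lit 503) (nat_lit 0) (nat_lit 283) (nat_lit 256) (nat_lit 241)))) (PT.nd (nat_lit 77766) (PT.nd (nat_lit 77688) (PT.lf (nat_lit 36404) (nat_lit 6) (nat_lit 479) (nat_lit 0) (nat_lit 284) (nat_lit 256) (nat_lit 240)) (PT.lf (nat_lit 36480) (nat_lit 6) (nat_lit 480) (nat_lit 5) (nat_lit 239) (nat_lit 257) (nat_lit 284))) (PT.nd (nat_lit 78) (PT.lf (nat_lit 38304) (nat_lit 6) (nat_lit 504) (nat_lit 5)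 (nat_lit 240) (nat_lit 257) (nat_lit 283)) (PT.lf (nat_lit 40052) (nat_lit 6) (nat_lit 527) (nat_lit 5) (nat_lit 241) (nat_lit 257) (nat_lit 282)))))) (PT.nd (nat_lit 546) (PT.nd (nat_lit 234) (PT.nd (nat_lit 78) (PT.lf (nat_lit 41724) (nat_lit 6) (nat_lit 549) (nat_lit 5) (nat_lit 242) (nat_lit 257) (nat_lit 281)) (PT.nd (nat_lit 78) (PT.lf (nat_lit 43320) (nat_lit 6) (nat_lit 570) (nat_lit 5) (nat_lit 243) (nat_lit 257) (nat_lit 280)) (PT.lf (nat_lit 44840) (nat_lit 6) (nat_lit 590) (nat_lit 5) (nat_lit 244) (nat_lit 257) (nat_lit 279)))) (PT.nd (nat_lit 156) (PT.nd (nat_lit 78) (PT.lf (nat_lit 46284) (nat_lit 6) (nat_lit 609) (nat_lit 5) (nat_lit 245) (nat_lit 257) (nat_lit 278)) (PT.lf (nat_lit 47652) (nat_lit 6) (nat_lit 627) (nat_lit 5) (nat_lit 246) (nat_lit 257) (nat_lit 277))) (PT.nd (nat_lit 78) (PT.lf (nat_lit 48944) (nat_lit 6) (nat_lit 644) (nat_lit 5) (nat_lit 247) (nat_lit 257) (nat_lit 276)) (PT.lf (nat_lit 50160) (nat_lit 6) (nat_lit 660) (nat_lit 5) (nat_lit 248) (nat_lit 257) (nat_lit 275))))) (PT.nd (nat_lit 312) (PT.nd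 (nat_lit 156) (PT.nd (nat_lit 78) (PT.lf (nat_lit 51300) (nat_lit 6) (nat_lit 675) (nat_lit 5) (nat_lit 249) (nat_lit 257) (nat_lit 274)) (PT.lf (nat_lit 52364) (nat_lit 6) (nat_lit 689) (nat_lit 5) (nat_lit 250) (nat_lit 257) (nat_lit 273))) (PT.nd (nat_lit 78) (PT.lf (nat_lit 53352) (nat_lit 6) (nat_lit 702) (nat_lit 5) (nat_lit 251) (nat_lit 257) (nat_lit 272)) (PT.lf (nat_lit 54264) (nat_lit 6) (nat_lit 714) (nat_lit 5) (nat_lit 252) (nat_lit 257) (nat_lit 271)))) (PT.nd (nat_lit 156) (PT.nd (nat_lit 78) (PT.lf (nat_lit 55100) (nat_lit 6) (nat_lit 725) (nat_lit 5) (nat_lit 253) (nat_lit 257) (nat_lit 270)) (PT.lf (nat_lit 55860) (nat_lit 6) (nat_lit 735) (nat_lit 5) (nat_lit 254) (nat_lit 257) (nat_lit 269))) (PT.nd (nat_lit 78) (PT.lf (nat_lit 56544) (nat_lit 6) (nat_lit 744) (nat_lit 5) (nat_lit 255) (nat_lit 257) (nat_lit 268)) (PT.lf (nat_lit 57152) (nat_lit 6) (nat_lit 752) (nat_lit 5) (nat_lit 256) (nat_lit 257) (nat_lit 267))))))))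
noncomputable def pc24 : PT := (PT.nd (nat_lit 79716) (PT.nd (nat_lit 1092) (PT.nd (nat_lit 546) (PT.nd (nat_lit 234) (PT.nd (nat_lit 78) (PT.lf (nat_lit 57684) (nat_lit 3) (nat_lit 759) (nat_lit 3) (nat_lit 257) (nat_lit 257) (nat_lit 266)) (PT.nd (nat_lit 78) (PT.lf (nat_lit 58216) (nat_lit 6) (nat_lit 766) (nat_lit 3) (nat_lit 258) (nat_lit 257) (nat_lit 265)) (PT.lf (nat_lit 58672) (nat_lit 6) (nat_lit 772) (nat_lit 3) (nat_lit 259) (nat_lit 257) (nat_lit 264)))) (PT.nd (nat_lit 156) (PT.nd (nat_lit 78) (PT.lf (nat_lit 59052) (nat_lit 6) (nat_lit 777) (nat_lit 3) (nat_lit 260) (nat_lit 257) (nat_lit 263)) (PT.lf (nat_lit 59128) (nat_lit 6) (nat_lit 778) (nat_lit 3) (nat_lit 261) (nat_lit 257) (nat_lit 262))) (PT.nd (nat_lit 78) (PT.lf (nat_lit 59128) (nat_lit 6) (nat_lit 778) (nat_lit 1) (nat_lit 262) (nat_lit 257) (nat_lit 261)) (PT.lf (nat_lit 59052) (nat_lit 6) (nat_lit 777) (nat_lit 1) (nat_lit 263) (nat_lit 257) (nat_lit 260))))) (PT.nd (nat_lit 234) (PT.nd (nat_lit 78) (PT.lf (nat_lit 58672) (nat_lit 6) (nat_lit 772) (nat_lit 1)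 (nat_lit 264) (nat_lit 257) (nat_lit 259)) (PT.nd (nat_lit 78) (PT.lf (nat_lit 58216) (nat_lit 6) (nat_lit 766) (nat_lit 1) (nat_lit 265) (nat_lit 257) (nat_lit 258)) (PT.lf (nat_lit 57684) (nat_lit 3) (nat_lit 759) (nat_lit 0) (nat_lit 266) (nat_lit 257) (nat_lit 257)))) (PT.nd (nat_lit 156) (PT.nd (nat_lit 78) (PT.lf (nat_lit 57152) (nat_lit 6) (nat_lit 752) (nat_lit 0) (nat_lit 267) (nat_lit 257) (nat_lit 256)) (PT.lf (nat_lit 56544) (nat_lit 6) (nat_lit 744) (nat_lit 0) (nat_lit 268) (nat_lit 257) (nat_lit 255))) (PT.nd (nat_lit 78) (PT.lf (nat_lit 55860) (nat_lit 6) (nat_lit 735) (nat_lit 0) (nat_lit 269) (nat_lit 257) (nat_lit 254)) (PT.lf (nat_lit 55100) (nat_lit 6) (nat_lit 725) (nat_lit 0) (nat_lit 270) (nat_lit 257) (nat_lit 253)))))) (PT.nd (nat_lit 546) (PT.nd (nat_lit 234) (PT.nd (nat_lit 78) (PT.lf (nat_lit 54264) (nat_lit 6) (nat_lit 714) (nat_lit 0) (nat_lit 271) (nat_lit 257) (nat_lit 252)) (PT.nd (nat_lit 78) (PT.lf (nat_lit 53352) (nat_lit 6) (nat_lit 702) (nat_lit 0) (nat_lit 272) (nat_lit 257) (nat_lit 251)) (PT.lf (nat_lit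 52364) (nat_lit 6) (nat_lit 689) (nat_lit 0) (nat_lit 273) (nat_lit 257) (nat_lit 250)))) (PT.nd (nat_lit 156) (PT.nd (nat_lit 78) (PT.lf (nat_lit 51300) (nat_lit 6) (nat_lit 675) (nat_lit 0) (nat_lit 274) (nat_lit 257) (nat_lit 249)) (PT.lf (nat_lit 50160) (nat_lit 6) (nat_lit 660) (nat_lit 0) (nat_lit 275) (nat_lit 257) (nat_lit 248))) (PT.nd (nat_lit 78) (PT.lf (nat_lit 48944) (nat_lit 6) (nat_lit 644) (nat_lit 0) (nat_lit 276) (nat_lit 257) (nat_lit 247)) (PT.lf (nat_lit 47652) (nat_lit 6) (nat_lit 627) (nat_lit 0) (nat_lit 277) (nat_lit 257) (nat_lit 246))))) (PT.nd (nat_lit 234) (PT.nd (nat_lit 78) (PT.lf (nat_lit 46284) (nat_lit 6) (nat_lit 609) (nat_lit 0) (nat_lit 278) (nat_lit 257) (nat_lit 245)) (PT.nd (nat_lit 78) (PT.lf (nat_lit 44840) (nat_lit 6) (nat_lit 590) (nat_lit 0) (nat_lit 279) (nat_lit 257) (nat_lit 244)) (PT.lf (nat_lit 43320) (nat_lit 6) (nat_lit 570) (nat_lit 0) (nat_lit 280) (nat_lit 257) (nat_lit 243)))) (PT.nd (nat_lit 156) (PT.nd (nat_lit 78) (PT.lf (nat_lit 41724) (nat_lit 6) (nat_lit 549) (nat_lit 0) (nat_lit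 281) (nat_lit 257) (nat_lit 242)) (PT.lf (nat_lit 40052) (nat_lit 6) (nat_lit 527) (nat_lit 0) (nat_lit 282) (nat_lit 257) (nat_lit 241))) (PT.nd (nat_lit 78) (PT.lf (nat_lit 38304) (nat_lit 6) (nat_lit 504) (nat_lit 0) (nat_lit 283) (nat_lit 257) (nat_lit 240)) (PT.lf (nat_lit 36480) (nat_lit 6) (nat_lit 480) (nat_lit 0) (nat_lit 284) (nat_lit 257) (nat_lit 239))))))) (PT.nd (nat_lit 1092) (PT.nd (nat_lit 546) (PT.nd (nat_lit 234) (PT.nd (nat_lit 78) (PT.lf (nat_lit 36556) (nat_lit 6) (nat_lit 481) (nat_lit 5) (nat_lit 238) (nat_lit 258) (nat_lit 284)) (PT.nd (nat_lit 78) (PT.lf (nat_lit 38380) (nat_lit 6) (nat_lit 505) (nat_lit 5) (nat_lit 239) (nat_lit 258) (nat_lit 283)) (PT.lf (nat_lit 40128) (nat_lit 6) (nat_lit 528) (nat_lit 5) (nat_lit 240) (nat_lit 258) (nat_lit 282)))) (PT.nd (nat_lit 156) (PT.nd (nat_lit 78) (PT.lf (nat_lit 41800) (nat_lit 6) (nat_lit 550) (nat_lit 5) (nat_lit 241) (nat_lit 258) (nat_lit 281)) (PT.lf (nat_lit 43396) (nat_lit 6) (nat_lit 571) (nat_lit 5) (nat_lit 242) (nat_lit 258) (nat_lit 280))) (PT.nd (nat_lit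 78) (PT.lf (nat_lit 44916) (nat_lit 6) (nat_lit 591) (nat_lit 5) (nat_lit 243) (nat_lit 258) (nat_lit 279)) (PT.lf (nat_lit 46360) (nat_lit 6) (nat_lit 610) (nat_lit 5) (nat_lit 244) (nat_lit 258) (nat_lit 278))))) (PT.nd (nat_lit 234) (PT.nd (nat_lit 78) (PT.lf (nat_lit 47728) (nat_lit 6) (nat_lit 628) (nat_lit 5) (nat_lit 245) (nat_lit 258) (nat_lit 277)) (PT.nd (nat_lit 78) (PT.lf (nat_lit 49020) (nat_lit 6) (nat_lit 645) (nat_lit 5) (nat_lit 246) (nat_lit 258) (nat_lit 276)) (PT.lf (nat_lit 50236) (nat_lit 6) (nat_lit 661) (nat_lit 5) (nat_lit 247) (nat_lit 258) (nat_lit 275)))) (PT.nd (nat_lit 156) (PT.nd (nat_lit 78) (PT.lf (nat_lit 51376) (nat_lit 6) (nat_lit 676) (nat_lit 5) (nat_lit 248) (nat_lit 258) (nat_lit 274)) (PT.lf (nat_lit 52440) (nat_lit 6) (nat_lit 690) (nat_lit 5) (nat_lit 249) (nat_lit 258) (nat_lit 273))) (PT.nd (nat_lit 78) (PT.lf (nat_lit 53428) (nat_lit 6) (nat_lit 703) (nat_lit 5) (nat_lit 250) (nat_lit 258) (nat_lit 272)) (PT.lf (nat_lit 54340) (nat_lit 6) (nat_lit 715) (nat_lit 5) (nat_lit 251) (nat_lit 258)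 (nat_lit 271)))))) (PT.nd (nat_lit 546) (PT.nd (nat_lit 234) (PT.nd (nat_lit 78) (PT.lf (nat_lit 55176) (nat_lit 6) (nat_lit 726) (nat_lit 5) (nat_lit 252) (nat_lit 258) (nat_lit 270)) (PT.nd (nat_lit 78) (PT.lf (nat_lit 55936) (nat_lit 6) (nat_lit 736) (nat_lit 5) (nat_lit 253) (nat_lit 258) (nat_lit 269)) (PT.lf (nat_lit 56620) (nat_lit 6) (nat_lit 745) (nat_lit 5) (nat_lit 254) (nat_lit 258) (nat_lit 268)))) (PT.nd (nat_lit 156) (PT.nd (nat_lit 78) (PT.lf (nat_lit 57228) (nat_lit 6) (nat_lit 753) (nat_lit 5) (nat_lit 255) (nat_lit 258) (nat_lit 267)) (PT.lf (nat_lit 57760) (nat_lit 6) (nat_lit 760) (nat_lit 5) (nat_lit 256) (nat_lit 258) (nat_lit 266))) (PT.nd (nat_lit 78) (PT.lf (nat_lit 58216) (nat_lit 6) (nat_lit 766) (nat_lit 5) (nat_lit 257) (nat_lit 258) (nat_lit 265)) (PT.lf (nat_lit 58596) (nat_lit 3) (nat_lit 771) (nat_lit 3) (nat_lit 258) (nat_lit 258) (nat_lit 264))))) (PT.nd (nat_lit 312) (PT.nd (nat_lit 156) (PT.nd (nat_lit 78) (PT.lf (nat_lit 58976) (nat_lit 6) (nat_lit 776) (nat_lit 3) (nat_lit 259) (nat_lit 258) (nat_lit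 263)) (PT.lf (nat_lit 59280) (nat_lit 6) (nat_lit 780) (nat_lit 3) (nat_lit 260) (nat_lit 258) (nat_lit 262))) (PT.nd (nat_lit 78) (PT.lf (nat_lit 59356) (nat_lit 3) (nat_lit 781) (nat_lit 1) (nat_lit 261) (nat_lit 258) (nat_lit 261)) (PT.lf (nat_lit 59280) (nat_lit 6) (nat_lit 780) (nat_lit 1) (nat_lit 262) (nat_lit 258) (nat_lit 260)))) (PT.nd (nat_lit 156) (PT.nd (nat_lit 78) (PT.lf (nat_lit 58976) (nat_lit 6) (nat_lit 776) (nat_lit 1) (nat_lit 263) (nat_lit 258) (nat_lit 259)) (PT.lf (nat_lit 58596) (nat_lit 3) (nat_lit 771) (nat_lit 0) (nat_lit 264) (nat_lit 258) (nat_lit 258))) (PT.nd (nat_lit 78) (PT.lf (nat_lit 58216) (nat_lit 6) (nat_lit 766) (nat_lit 0) (nat_lit 265) (nat_lit 258) (nat_lit 257)) (PT.lf (nat_lit 57760) (nat_lit 6) (nat_lit 760) (nat_lit 0) (nat_lit 266) (nat_lit 258) (nat_lit 256))))))))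
noncomputable def pc25 : PT := (PT.nd (nat_lit 79638) (PT.nd (nat_lit 1092) (PT.nd (nat_lit 546) (PT.nd (nat_lit 234) (PT.nd (nat_lit 78) (PT.lf (nat_lit 57228) (nat_lit 6) (nat_lit 753) (nat_lit 0) (nat_lit 267) (nat_lit 258) (nat_lit 255)) (PT.nd (nat_lit 78) (PT.lf (nat_lit 56620) (nat_lit 6) (nat_lit 745) (nat_lit 0) (nat_lit 268) (nat_lit 258) (nat_lit 254)) (PT.lf (nat_lit 55936) (nat_lit 6) (nat_lit 736) (nat_lit 0) (nat_lit 269) (nat_lit 258) (nat_lit 253)))) (PT.nd (nat_lit 156) (PT.nd (nat_lit 78) (PT.lf (nat_lit 55176) (nat_lit 6) (nat_lit 726) (nat_lit 0) (nat_lit 270) (nat_lit 258) (nat_lit 252)) (PT.lf (nat_lit 54340) (nat_lit 6) (nat_lit 715) (nat_lit 0) (nat_lit 271) (nat_lit 258) (nat_lit 251))) (PT.nd (nat_lit 78) (PT.lf (nat_lit 53428) (nat_lit 6) (nat_lit 703) (nat_lit 0) (nat_lit 272) (nat_lit 258) (nat_lit 250)) (PT.lf (nat_lit 52440) (nat_lit 6) (nat_lit 690) (nat_lit 0) (nat_lit 273) (nat_lit 258) (nat_lit 249))))) (PT.nd (nat_lit 234) (PT.nd (nat_lit 78) (PT.lf (nat_lit 51376) (nat_lit 6) (nat_lit 676) (nat_lit 0)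 (nat_lit 274) (nat_lit 258) (nat_lit 248)) (PT.nd (nat_lit 78) (PT.lf (nat_lit 50236) (nat_lit 6) (nat_lit 661) (nat_lit 0) (nat_lit 275) (nat_lit 258) (nat_lit 247)) (PT.lf (nat_lit 49020) (nat_lit 6) (nat_lit 645) (nat_lit 0) (nat_lit 276) (nat_lit 258) (nat_lit 246)))) (PT.nd (nat_lit 156) (PT.nd (nat_lit 78) (PT.lf (nat_lit 47728) (nat_lit 6) (nat_lit 628) (nat_lit 0) (nat_lit 277) (nat_lit 258) (nat_lit 245)) (PT.lf (nat_lit 46360) (nat_lit 6) (nat_lit 610) (nat_lit 0) (nat_lit 278) (nat_lit 258) (nat_lit 244))) (PT.nd (nat_lit 78) (PT.lf (nat_lit 44916) (nat_lit 6) (nat_lit 591) (nat_lit 0) (nat_lit 279) (nat_lit 258) (nat_lit 243)) (PT.lf (nat_lit 43396) (nat_lit 6) (nat_lit 571) (nat_lit 0) (nat_lit 280) (nat_lit 258) (nat_lit 242)))))) (PT.nd (nat_lit 77922) (PT.nd (nat_lit 234) (PT.nd (nat_lit 78) (PT.lf (nat_lit 41800) (nat_lit 6) (nat_lit 550) (nat_lit 0) (nat_lit 281) (nat_lit 258) (nat_lit 241)) (PT.nd (nat_lit 78) (PT.lf (nat_lit 40128) (nat_lit 6) (nat_lit 528) (nat_lit 0) (nat_lit 282) (nat_lit 258) (nat_lit 240)) (PT.lf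 (nat_lit 38380) (nat_lit 6) (nat_lit 505) (nat_lit 0) (nat_lit 283) (nat_lit 258) (nat_lit 239)))) (PT.nd (nat_lit 77532) (PT.nd (nat_lit 77454) (PT.lf (nat_lit 36556) (nat_lit 6) (nat_lit 481) (nat_lit 0) (nat_lit 284) (nat_lit 258) (nat_lit 238)) (PT.lf (nat_lit 34732) (nat_lit 6) (nat_lit 457) (nat_lit 5) (nat_lit 236) (nat_lit 259) (nat_lit 285))) (PT.nd (nat_lit 78) (PT.lf (nat_lit 36632) (nat_lit 6) (nat_lit 482) (nat_lit 5) (nat_lit 237) (nat_lit 259) (nat_lit 284)) (PT.lf (nat_lit 38456) (nat_lit 6) (nat_lit 506) (nat_lit 5) (nat_lit 238) (nat_lit 259) (nat_lit 283))))) (PT.nd (nat_lit 312) (PT.nd (nat_lit 156) (PT.nd (nat_lit 78) (PT.lf (nat_lit 40204) (nat_lit 6) (nat_lit 529) (nat_lit 5) (nat_lit 239) (nat_lit 259) (nat_lit 282)) (PT.lf (nat_lit 41876) (nat_lit 6) (nat_lit 551) (nat_lit 5) (nat_lit 240) (nat_lit 259) (nat_lit 281))) (PT.nd (nat_lit 78) (PT.lf (nat_lit 43472) (nat_lit 6) (nat_lit 572) (nat_lit 5) (nat_lit 241) (nat_lit 259) (nat_lit 280)) (PT.lf (nat_lit 44992) (nat_lit 6) (nat_lit 592) (nat_lit 5) (nat_lit 242)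 (nat_lit 259) (nat_lit 279)))) (PT.nd (nat_lit 156) (PT.nd (nat_lit 78) (PT.lf (nat_lit 46436) (nat_lit 6) (nat_lit 611) (nat_lit 5) (nat_lit 243) (nat_lit 259) (nat_lit 278)) (PT.lf (nat_lit 47804) (nat_lit 6) (nat_lit 629) (nat_lit 5) (nat_lit 244) (nat_lit 259) (nat_lit 277))) (PT.nd (nat_lit 78) (PT.lf (nat_lit 49096) (nat_lit 6) (nat_lit 646) (nat_lit 5) (nat_lit 245) (nat_lit 259) (nat_lit 276)) (PT.lf (nat_lit 50312) (nat_lit 6) (nat_lit 662) (nat_lit 5) (nat_lit 246) (nat_lit 259) (nat_lit 275))))))) (PT.nd (nat_lit 1092) (PT.nd (nat_lit 546) (PT.nd (nat_lit 234) (PT.nd (nat_lit 78) (PT.lf (nat_lit 51452) (nat_lit 6) (nat_lit 677) (nat_lit 5) (nat_lit 247) (nat_lit 259) (nat_lit 274)) (PT.nd (nat_lit 78) (PT.lf (nat_lit 52516) (nat_lit 6) (nat_lit 691) (nat_lit 5) (nat_lit 248) (nat_lit 259) (nat_lit 273)) (PT.lf (nat_lit 53504) (nat_lit 6) (nat_lit 704) (nat_lit 5) (nat_lit 249) (nat_lit 259) (nat_lit 272)))) (PT.nd (nat_lit 156) (PT.nd (nat_lit 78) (PT.lf (nat_lit 54416) (nat_lit 6) (nat_lit 716) (nat_lit 5) (nat_lit 250) (nat_lit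 259) (nat_lit 271)) (PT.lf (nat_lit 55252) (nat_lit 6) (nat_lit 727) (nat_lit 5) (nat_lit 251) (nat_lit 259) (nat_lit 270))) (PT.nd (nat_lit 78) (PT.lf (nat_lit 56012) (nat_lit 6) (nat_lit 737) (nat_lit 5) (nat_lit 252) (nat_lit 259) (nat_lit 269)) (PT.lf (nat_lit 56696) (nat_lit 6) (nat_lit 746) (nat_lit 5) (nat_lit 253) (nat_lit 259) (nat_lit 268))))) (PT.nd (nat_lit 234) (PT.nd (nat_lit 78) (PT.lf (nat_lit 57304) (nat_lit 6) (nat_lit 754) (nat_lit 5) (nat_lit 254) (nat_lit 259) (nat_lit 267)) (PT.nd (nat_lit 78) (PT.lf (nat_lit 57836) (nat_lit 6) (nat_lit 761) (nat_lit 5) (nat_lit 255) (nat_lit 259) (nat_lit 266)) (PT.lf (nat_lit 58292) (nat_lit 6) (nat_lit 767) (nat_lit 5) (nat_lit 256) (nat_lit 259) (nat_lit 265)))) (PT.nd (nat_lit 156) (PT.nd (nat_lit 78) (PT.lf (nat_lit 58672) (nat_lit 6) (nat_lit 772) (nat_lit 5) (nat_lit 257) (nat_lit 259) (nat_lit 264)) (PT.lf (nat_lit 58976) (nat_lit 6) (nat_lit 776) (nat_lit 5) (nat_lit 258) (nat_lit 259) (nat_lit 263))) (PT.nd (nat_lit 78) (PT.lf (nat_lit 59204) (nat_lit 3) (nat_lit 779) (nat_lit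 3) (nat_lit 259) (nat_lit 259) (nat_lit 262)) (PT.lf (nat_lit 59432) (nat_lit 6) (nat_lit 782) (nat_lit 3) (nat_lit 260) (nat_lit 259) (nat_lit 261)))))) (PT.nd (nat_lit 546) (PT.nd (nat_lit 234) (PT.nd (nat_lit 78) (PT.lf (nat_lit 59432) (nat_lit 6) (nat_lit 782) (nat_lit 1) (nat_lit 261) (nat_lit 259) (nat_lit 260)) (PT.nd (nat_lit 78) (PT.lf (nat_lit 59204) (nat_lit 3) (nat_lit 779) (nat_lit 0) (nat_lit 262) (nat_lit 259) (nat_lit 259)) (PT.lf (nat_lit 58976) (nat_lit 6) (nat_lit 776) (nat_lit 0) (nat_lit 263) (nat_lit 259) (nat_lit 258)))) (PT.nd (nat_lit 156) (PT.nd (nat_lit 78) (PT.lf (nat_lit 58672) (nat_lit 6) (nat_lit 772) (nat_lit 0) (nat_lit 264) (nat_lit 259) (nat_lit 257)) (PT.lf (nat_lit 58292) (nat_lit 6) (nat_lit 767) (nat_lit 0) (nat_lit 265) (nat_lit 259) (nat_lit 256))) (PT.nd (nat_lit 78) (PT.lf (nat_lit 57836) (nat_lit 6) (nat_lit 761) (nat_lit 0) (nat_lit 266) (nat_lit 259) (nat_lit 255)) (PT.lf (nat_lit 57304) (nat_lit 6) (nat_lit 754) (nat_lit 0) (nat_lit 267) (nat_lit 259) (nat_lit 254))))) (PT.nd (nat_lit 312) (PT.nd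 (nat_lit 156) (PT.nd (nat_lit 78) (PT.lf (nat_lit 56696) (nat_lit 6) (nat_lit 746) (nat_lit 0) (nat_lit 268) (nat_lit 259) (nat_lit 253)) (PT.lf (nat_lit 56012) (nat_lit 6) (nat_lit 737) (nat_lit 0) (nat_lit 269) (nat_lit 259) (nat_lit 252))) (PT.nd (nat_lit 78) (PT.lf (nat_lit 55252) (nat_lit 6) (nat_lit 727) (nat_lit 0) (nat_lit 270) (nat_lit 259) (nat_lit 251)) (PT.lf (nat_lit 54416) (nat_lit 6) (nat_lit 716) (nat_lit 0) (nat_lit 271) (nat_lit 259) (nat_lit 250)))) (PT.nd (nat_lit 156) (PT.nd (nat_lit 78) (PT.lf (nat_lit 53504) (nat_lit 6) (nat_lit 704) (nat_lit 0) (nat_lit 272) (nat_lit 259) (nat_lit 249)) (PT.lf (nat_lit 52516) (nat_lit 6) (nat_lit 691) (nat_lit 0) (nat_lit 273) (nat_lit 259) (nat_lit 248))) (PT.nd (nat_lit 78) (PT.lf (nat_lit 51452) (nat_lit 6) (nat_lit 677) (nat_lit 0) (nat_lit 274) (nat_lit 259) (nat_lit 247)) (PT.lf (nat_lit 50312) (nat_lit 6) (nat_lit 662) (nat_lit 0) (nat_lit 275) (nat_lit 259) (nat_lit 246))))))))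
noncomputable def pc26 : PT := (PT.nd (nat_lit 79404) (PT.nd (nat_lit 78312) (PT.nd (nat_lit 546) (PT.nd (nat_lit 234) (PT.nd (nat_lit 78) (PT.lf (nat_lit 49096) (nat_lit 6) (nat_lit 646) (nat_lit 0) (nat_lit 276) (nat_lit 259) (nat_lit 245)) (PT.nd (nat_lit 78) (PT.lf (nat_lit 47804) (nat_lit 6) (nat_lit 629) (nat_lit 0) (nat_lit 277) (nat_lit 259) (nat_lit 244)) (PT.lf (nat_lit 46436) (nat_lit 6) (nat_lit 611) (nat_lit 0) (nat_lit 278) (nat_lit 259) (nat_lit 243)))) (PT.nd (nat_lit 156) (PT.nd (nat_lit 78) (PT.lf (nat_lit 44992) (nat_lit 6) (nat_lit 592) (nat_lit 0) (nat_lit 279) (nat_lit 259) (nat_lit 242)) (PT.lf (nat_lit 43472) (nat_lit 6) (nat_lit 572) (nat_lit 0) (nat_lit 280) (nat_lit 259) (nat_lit 241))) (PT.nd (nat_lit 78) (PT.lf (nat_lit 41876) (nat_lit 6) (nat_lit 551) (nat_lit 0) (nat_lit 281) (nat_lit 259) (nat_lit 240)) (PT.lf (nat_lit 40204) (nat_lit 6) (nat_lit 529) (nat_lit 0) (nat_lit 282) (nat_lit 259) (nat_lit 239))))) (PT.nd (nat_lit 77454) (PT.nd (nat_lit 78) (PT.lf (nat_lit 38456) (nat_lit 6) (nat_lit 506) (nat_lit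 0) (nat_lit 283) (nat_lit 259) (nat_lit 238)) (PT.nd (nat_lit 78) (PT.lf (nat_lit 36632) (nat_lit 6) (nat_lit 482) (nat_lit 0) (nat_lit 284) (nat_lit 259) (nat_lit 237)) (PT.lf (nat_lit 34732) (nat_lit 6) (nat_lit 457) (nat_lit 0) (nat_lit 285) (nat_lit 259) (nat_lit 236)))) (PT.nd (nat_lit 156) (PT.nd (nat_lit 78) (PT.lf (nat_lit 34808) (nat_lit 6) (nat_lit 458) (nat_lit 5) (nat_lit 235) (nat_lit 260) (nat_lit 285)) (PT.lf (nat_lit 36708) (nat_lit 6) (nat_lit 483) (nat_lit 5) (nat_lit 236) (nat_lit 260) (nat_lit 284))) (PT.nd (nat_lit 78) (PT.lf (nat_lit 38532) (nat_lit 6) (nat_lit 507) (nat_lit 5) (nat_lit 237) (nat_lit 260) (nat_lit 283)) (PT.lf (nat_lit 40280) (nat_lit 6) (nat_lit 530) (nat_lit 5) (nat_lit 238) (nat_lit 260) (nat_lit 282)))))) (PT.nd (nat_lit 546) (PT.nd (nat_lit 234) (PT.nd (nat_lit 78) (PT.lf (nat_lit 41952) (nat_lit 6) (nat_lit 552) (nat_lit 5) (nat_lit 239) (nat_lit 260) (nat_lit 281)) (PT.nd (nat_lit 78) (PT.lf (nat_lit 43548) (nat_lit 6) (nat_lit 573) (nat_lit 5) (nat_lit 240) (nat_lit 260) (nat_lit 280)) (PT.lf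 (nat_lit 45068) (nat_lit 6) (nat_lit 593) (nat_lit 5) (nat_lit 241) (nat_lit 260) (nat_lit 279)))) (PT.nd (nat_lit 156) (PT.nd (nat_lit 78) (PT.lf (nat_lit 46512) (nat_lit 6) (nat_lit 612) (nat_lit 5) (nat_lit 242) (nat_lit 260) (nat_lit 278)) (PT.lf (nat_lit 47880) (nat_lit 6) (nat_lit 630) (nat_lit 5) (nat_lit 243) (nat_lit 260) (nat_lit 277))) (PT.nd (nat_lit 78) (PT.lf (nat_lit 49172) (nat_lit 6) (nat_lit 647) (nat_lit 5) (nat_lit 244) (nat_lit 260) (nat_lit 276)) (PT.lf (nat_lit 50388) (nat_lit 6) (nat_lit 663) (nat_lit 5) (nat_lit 245) (nat_lit 260) (nat_lit 275))))) (PT.nd (nat_lit 234) (PT.nd (nat_lit 78) (PT.lf (nat_lit 51528) (nat_lit 6) (nat_lit 678) (nat_lit 5) (nat_lit 246) (nat_lit 260) (nat_lit 274)) (PT.nd (nat_lit 78) (PT.lf (nat_lit 52592) (nat_lit 6) (nat_lit 692) (nat_lit 5) (nat_lit 247) (nat_lit 260) (nat_lit 273)) (PT.lf (nat_lit 53580) (nat_lit 6) (nat_lit 705) (nat_lit 5) (nat_lit 248) (nat_lit 260) (nat_lit 272)))) (PT.nd (nat_lit 156) (PT.nd (nat_lit 78) (PT.lf (nat_lit 54492) (nat_lit 6) (nat_lit 717) (nat_lit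 5) (nat_lit 249) (nat_lit 260) (nat_lit 271)) (PT.lf (nat_lit 55328) (nat_lit 6) (nat_lit 728) (nat_lit 5) (nat_lit 250) (nat_lit 260) (nat_lit 270))) (PT.nd (nat_lit 78) (PT.lf (nat_lit 56088) (nat_lit 6) (nat_lit 738) (nat_lit 5) (nat_lit 251) (nat_lit 260) (nat_lit 269)) (PT.lf (nat_lit 56772) (nat_lit 6) (nat_lit 747) (nat_lit 5) (nat_lit 252) (nat_lit 260) (nat_lit 268))))))) (PT.nd (nat_lit 1092) (PT.nd (nat_lit 546) (PT.nd (nat_lit 234) (PT.nd (nat_lit 78) (PT.lf (nat_lit 57380) (nat_lit 6) (nat_lit 755) (nat_lit 5) (nat_lit 253) (nat_lit 260) (nat_lit 267)) (PT.nd (nat_lit 78) (PT.lf (nat_lit 57912) (nat_lit 6) (nat_lit 762) (nat_lit 5) (nat_lit 254) (nat_lit 260) (nat_lit 266)) (PT.lf (nat_lit 58368) (nat_lit 6) (nat_lit 768) (nat_lit 5) (nat_lit 255) (nat_lit 260) (nat_lit 265)))) (PT.nd (nat_lit 156) (PT.nd (nat_lit 78) (PT.lf (nat_lit 58748) (nat_lit 6) (nat_lit 773) (nat_lit 5) (nat_lit 256) (nat_lit 260) (nat_lit 264)) (PT.lf (nat_lit 59052) (nat_lit 6) (nat_lit 777) (nat_lit 5) (nat_lit 257) (nat_lit 260) (nat_lit 263))) (PT.nd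 (nat_lit 78) (PT.lf (nat_lit 59280) (nat_lit 6) (nat_lit 780) (nat_lit 5) (nat_lit 258) (nat_lit 260) (nat_lit 262)) (PT.lf (nat_lit 59432) (nat_lit 6) (nat_lit 782) (nat_lit 5) (nat_lit 259) (nat_lit 260) (nat_lit 261))))) (PT.nd (nat_lit 234) (PT.nd (nat_lit 78) (PT.lf (nat_lit 59508) (nat_lit 1) (nat_lit 783) (nat_lit 0) (nat_lit 260) (nat_lit 260) (nat_lit 260)) (PT.nd (nat_lit 78) (PT.lf (nat_lit 59432) (nat_lit 6) (nat_lit 782) (nat_lit 0) (nat_lit 261) (nat_lit 260) (nat_lit 259)) (PT.lf (nat_lit 59280) (nat_lit 6) (nat_lit 780) (nat_lit 0) (nat_lit 262) (nat_lit 260) (nat_lit 258)))) (PT.nd (nat_lit 156) (PT.nd (nat_lit 78) (PT.lf (nat_lit 59052) (nat_lit 6) (nat_lit 777) (nat_lit 0) (nat_lit 263) (nat_lit 260) (nat_lit 257)) (PT.lf (nat_lit 58748) (nat_lit 6) (nat_lit 773) (nat_lit 0) (nat_lit 264) (nat_lit 260) (nat_lit 256))) (PT.nd (nat_lit 78) (PT.lf (nat_lit 58368) (nat_lit 6) (nat_lit 768) (nat_lit 0) (nat_lit 265) (nat_lit 260) (nat_lit 255)) (PT.lf (nat_lit 57912) (nat_lit 6) (nat_lit 762) (nat_lit 0) (nat_lit 266) (nat_lit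 260) (nat_lit 254)))))) (PT.nd (nat_lit 546) (PT.nd (nat_lit 234) (PT.nd (nat_lit 78) (PT.lf (nat_lit 57380) (nat_lit 6) (nat_lit 755) (nat_lit 0) (nat_lit 267) (nat_lit 260) (nat_lit 253)) (PT.nd (nat_lit 78) (PT.lf (nat_lit 56772) (nat_lit 6) (nat_lit 747) (nat_lit 0) (nat_lit 268) (nat_lit 260) (nat_lit 252)) (PT.lf (nat_lit 56088) (nat_lit 6) (nat_lit 738) (nat_lit 0) (nat_lit 269) (nat_lit 260) (nat_lit 251)))) (PT.nd (nat_lit 156) (PT.nd (nat_lit 78) (PT.lf (nat_lit 55328) (nat_lit 6) (nat_lit 728) (nat_lit 0) (nat_lit 270) (nat_lit 260) (nat_lit 250)) (PT.lf (nat_lit 54492) (nat_lit 6) (nat_lit 717) (nat_lit 0) (nat_lit 271) (nat_lit 260) (nat_lit 249))) (PT.nd (nat_lit 78) (PT.lf (nat_lit 53580) (nat_lit 6) (nat_lit 705) (nat_lit 0) (nat_lit 272) (nat_lit 260) (nat_lit 248)) (PT.lf (nat_lit 52592) (nat_lit 6) (nat_lit 692) (nat_lit 0) (nat_lit 273) (nat_lit 260) (nat_lit 247))))) (PT.nd (nat_lit 312) (PT.nd (nat_lit 156) (PT.nd (nat_lit 78) (PT.lf (nat_lit 51528) (nat_lit 6) (nat_lit 678) (nat_lit 0) (nat_lit 274) (nat_lit 260) (nat_lit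 246)) (PT.lf (nat_lit 50388) (nat_lit 6) (nat_lit 663) (nat_lit 0) (nat_lit 275) (nat_lit 260) (nat_lit 245))) (PT.nd (nat_lit 78) (PT.lf (nat_lit 49172) (nat_lit 6) (nat_lit 647) (nat_lit 0) (nat_lit 276) (nat_lit 260) (nat_lit 244)) (PT.lf (nat_lit 47880) (nat_lit 6) (nat_lit 630) (nat_lit 0) (nat_lit 277) (nat_lit 260) (nat_lit 243)))) (PT.nd (nat_lit 156) (PT.nd (nat_lit 78) (PT.lf (nat_lit 46512) (nat_lit 6) (nat_lit 612) (nat_lit 0) (nat_lit 278) (nat_lit 260) (nat_lit 242)) (PT.lf (nat_lit 45068) (nat_lit 6) (nat_lit 593) (nat_lit 0) (nat_lit 279) (nat_lit 260) (nat_lit 241))) (PT.nd (nat_lit 78) (PT.lf (nat_lit 43548) (nat_lit 6) (nat_lit 573) (nat_lit 0) (nat_lit 280) (nat_lit 260) (nat_lit 240)) (PT.lf (nat_lit 41952) (nat_lit 6) (nat_lit 552) (nat_lit 0) (nat_lit 281) (nat_lit 260) (nat_lit 239))))))))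
noncomputable def pc27 : PT := (PT.nd (nat_lit 79404) (PT.nd (nat_lit 78234) (PT.nd (nat_lit 77688) (PT.nd (nat_lit 234) (PT.nd (nat_lit 78) (PT.lf (nat_lit 40280) (nat_lit 6) (nat_lit 530) (nat_lit 0) (nat_lit 282) (nat_lit 260) (nat_lit 238)) (PT.nd (nat_lit 78) (PT.lf (nat_lit 38532) (nat_lit 6) (nat_lit 507) (nat_lit 0) (nat_lit 283) (nat_lit 260) (nat_lit 237)) (PT.lf (nat_lit 36708) (nat_lit 6) (nat_lit 483) (nat_lit 0) (nat_lit 284) (nat_lit 260) (nat_lit 236)))) (PT.nd (nat_lit 77298) (PT.nd (nat_lit 77220) (PT.lf (nat_lit 34808) (nat_lit 6) (nat_lit 458) (nat_lit 0) (nat_lit 285) (nat_lit 260) (nat_lit 235)) (PT.lf (nat_lit 33744) (nat_lit 6) (nat_lit 444) (nat_lit 5) (nat_lit 234) (nat_lit 261) (nat_lit 285))) (PT.nd (nat_lit 78) (PT.lf (nat_lit 34884) (nat_lit 6) (nat_lit 459) (nat_lit 5) (nat_lit 235) (nat_lit 261) (nat_lit 284)) (PT.lf (nat_lit 36784) (nat_lit 6) (nat_lit 484) (nat_lit 5) (nat_lit 236) (nat_lit 261) (nat_lit 283))))) (PT.nd (nat_lit 234) (PT.nd (nat_lit 78) (PT.lf (nat_lit 38608) (nat_lit 6) (nat_lit 508) (nat_lit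 5) (nat_lit 237) (nat_lit 261) (nat_lit 282)) (PT.nd (nat_lit 78) (PT.lf (nat_lit 40356) (nat_lit 6) (nat_lit 531) (nat_lit 5) (nat_lit 238) (nat_lit 261) (nat_lit 281)) (PT.lf (nat_lit 42028) (nat_lit 6) (nat_lit 553) (nat_lit 5) (nat_lit 239) (nat_lit 261) (nat_lit 280)))) (PT.nd (nat_lit 156) (PT.nd (nat_lit 78) (PT.lf (nat_lit 43624) (nat_lit 6) (nat_lit 574) (nat_lit 5) (nat_lit 240) (nat_lit 261) (nat_lit 279)) (PT.lf (nat_lit 45144) (nat_lit 6) (nat_lit 594) (nat_lit 5) (nat_lit 241) (nat_lit 261) (nat_lit 278))) (PT.nd (nat_lit 78) (PT.lf (nat_lit 46588) (nat_lit 6) (nat_lit 613) (nat_lit 5) (nat_lit 242) (nat_lit 261) (nat_lit 277)) (PT.lf (nat_lit 47956) (nat_lit 6) (nat_lit 631) (nat_lit 5) (nat_lit 243) (nat_lit 261) (nat_lit 276)))))) (PT.nd (nat_lit 546) (PT.nd (nat_lit 234) (PT.nd (nat_lit 78) (PT.lf (nat_lit 49248) (nat_lit 6) (nat_lit 648) (nat_lit 5) (nat_lit 244) (nat_lit 261) (nat_lit 275)) (PT.nd (nat_lit 78) (PT.lf (nat_lit 50464) (nat_lit 6) (nat_lit 664) (nat_lit 5) (nat_lit 245) (nat_lit 261) (nat_lit 274)) (PT.lf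 (nat_lit 51604) (nat_lit 6) (nat_lit 679) (nat_lit 5) (nat_lit 246) (nat_lit 261) (nat_lit 273)))) (PT.nd (nat_lit 156) (PT.nd (nat_lit 78) (PT.lf (nat_lit 52668) (nat_lit 6) (nat_lit 693) (nat_lit 5) (nat_lit 247) (nat_lit 261) (nat_lit 272)) (PT.lf (nat_lit 53656) (nat_lit 6) (nat_lit 706) (nat_lit 5) (nat_lit 248) (nat_lit 261) (nat_lit 271))) (PT.nd (nat_lit 78) (PT.lf (nat_lit 54568) (nat_lit 6) (nat_lit 718) (nat_lit 5) (nat_lit 249) (nat_lit 261) (nat_lit 270)) (PT.lf (nat_lit 55404) (nat_lit 6) (nat_lit 729) (nat_lit 5) (nat_lit 250) (nat_lit 261) (nat_lit 269))))) (PT.nd (nat_lit 312) (PT.nd (nat_lit 156) (PT.nd (nat_lit 78) (PT.lf (nat_lit 56164) (nat_lit 6) (nat_lit 739) (nat_lit 5) (nat_lit 251) (nat_lit 261) (nat_lit 268)) (PT.lf (nat_lit 56848) (nat_lit 6) (nat_lit 748) (nat_lit 5) (nat_lit 252) (nat_lit 261) (nat_lit 267))) (PT.nd (nat_lit 78) (PT.lf (nat_lit 57456) (nat_lit 6) (nat_lit 756) (nat_lit 5) (nat_lit 253) (nat_lit 261) (nat_lit 266)) (PT.lf (nat_lit 57988) (nat_lit 6) (nat_lit 763) (nat_lit 5) (nat_lit 254) (nat_lit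 261) (nat_lit 265)))) (PT.nd (nat_lit 156) (PT.nd (nat_lit 78) (PT.lf (nat_lit 58444) (nat_lit 6) (nat_lit 769) (nat_lit 5) (nat_lit 255) (nat_lit 261) (nat_lit 264)) (PT.lf (nat_lit 58824) (nat_lit 6) (nat_lit 774) (nat_lit 5) (nat_lit 256) (nat_lit 261) (nat_lit 263))) (PT.nd (nat_lit 78) (PT.lf (nat_lit 59128) (nat_lit 6) (nat_lit 778) (nat_lit 5) (nat_lit 257) (nat_lit 261) (nat_lit 262)) (PT.lf (nat_lit 59356) (nat_lit 3) (nat_lit 781) (nat_lit 4) (nat_lit 258) (nat_lit 261) (nat_lit 261))))))) (PT.nd (nat_lit 1092) (PT.nd (nat_lit 546) (PT.nd (nat_lit 234) (PT.nd (nat_lit 78) (PT.lf (nat_lit 59432) (nat_lit 6) (nat_lit 782) (nat_lit 4) (nat_lit 259) (nat_lit 261) (nat_lit 260)) (PT.nd (nat_lit 78) (PT.lf (nat_lit 59432) (nat_lit 6) (nat_lit 782) (nat_lit 2) (nat_lit 260) (nat_lit 261) (nat_lit 259)) (PT.lf (nat_lit 59356) (nat_lit 3) (nat_lit 781) (nat_lit 0) (nat_lit 261) (nat_lit 261) (nat_lit 258)))) (PT.nd (nat_lit 156) (PT.nd (nat_lit 78) (PT.lf (nat_lit 59128) (nat_lit 6) (nat_lit 778) (nat_lit 0) (nat_lit 262) (nat_lit 261)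 (nat_lit 257)) (PT.lf (nat_lit 58824) (nat_lit 6) (nat_lit 774) (nat_lit 0) (nat_lit 263) (nat_lit 261) (nat_lit 256))) (PT.nd (nat_lit 78) (PT.lf (nat_lit 58444) (nat_lit 6) (nat_lit 769) (nat_lit 0) (nat_lit 264) (nat_lit 261) (nat_lit 255)) (PT.lf (nat_lit 57988) (nat_lit 6) (nat_lit 763) (nat_lit 0) (nat_lit 265) (nat_lit 261) (nat_lit 254))))) (PT.nd (nat_lit 234) (PT.nd (nat_lit 78) (PT.lf (nat_lit 57456) (nat_lit 6) (nat_lit 756) (nat_lit 0) (nat_lit 266) (nat_lit 261) (nat_lit 253)) (PT.nd (nat_lit 78) (PT.lf (nat_lit 56848) (nat_lit 6) (nat_lit 748) (nat_lit 0) (nat_lit 267) (nat_lit 261) (nat_lit 252)) (PT.lf (nat_lit 56164) (nat_lit 6) (nat_lit 739) (nat_lit 0) (nat_lit 268) (nat_lit 261) (nat_lit 251)))) (PT.nd (nat_lit 156) (PT.nd (nat_lit 78) (PT.lf (nat_lit 55404) (nat_lit 6) (nat_lit 729) (nat_lit 0) (nat_lit 269) (nat_lit 261) (nat_lit 250)) (PT.lf (nat_lit 54568) (nat_lit 6) (nat_lit 718) (nat_lit 0) (nat_lit 270) (nat_lit 261) (nat_lit 249))) (PT.nd (nat_lit 78) (PT.lf (nat_lit 53656) (nat_lit 6) (nat_lit 706) (nat_lit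 0) (nat_lit 271) (nat_lit 261) (nat_lit 248)) (PT.lf (nat_lit 52668) (nat_lit 6) (nat_lit 693) (nat_lit 0) (nat_lit 272) (nat_lit 261) (nat_lit 247)))))) (PT.nd (nat_lit 546) (PT.nd (nat_lit 234) (PT.nd (nat_lit 78) (PT.lf (nat_lit 51604) (nat_lit 6) (nat_lit 679) (nat_lit 0) (nat_lit 273) (nat_lit 261) (nat_lit 246)) (PT.nd (nat_lit 78) (PT.lf (nat_lit 50464) (nat_lit 6) (nat_lit 664) (nat_lit 0) (nat_lit 274) (nat_lit 261) (nat_lit 245)) (PT.lf (nat_lit 49248) (nat_lit 6) (nat_lit 648) (nat_lit 0) (nat_lit 275) (nat_lit 261) (nat_lit 244)))) (PT.nd (nat_lit 156) (PT.nd (nat_lit 78) (PT.lf (nat_lit 47956) (nat_lit 6) (nat_lit 631) (nat_lit 0) (nat_lit 276) (nat_lit 261) (nat_lit 243)) (PT.lf (nat_lit 46588) (nat_lit 6) (nat_lit 613) (nat_lit 0) (nat_lit 277) (nat_lit 261) (nat_lit 242))) (PT.nd (nat_lit 78) (PT.lf (nat_lit 45144) (nat_lit 6) (nat_lit 594) (nat_lit 0) (nat_lit 278) (nat_lit 261) (nat_lit 241)) (PT.lf (nat_lit 43624) (nat_lit 6) (nat_lit 574) (nat_lit 0) (nat_lit 279) (nat_lit 261) (nat_lit 240))))) (PT.nd (nat_lit 312) (PT.nd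 (nat_lit 156) (PT.nd (nat_lit 78) (PT.lf (nat_lit 42028) (nat_lit 6) (nat_lit 553) (nat_lit 0) (nat_lit 280) (nat_lit 261) (nat_lit 239)) (PT.lf (nat_lit 40356) (nat_lit 6) (nat_lit 531) (nat_lit 0) (nat_lit 281) (nat_lit 261) (nat_lit 238))) (PT.nd (nat_lit 78) (PT.lf (nat_lit 38608) (nat_lit 6) (nat_lit 508) (nat_lit 0) (nat_lit 282) (nat_lit 261) (nat_lit 237)) (PT.lf (nat_lit 36784) (nat_lit 6) (nat_lit 484) (nat_lit 0) (nat_lit 283) (nat_lit 261) (nat_lit 236)))) (PT.nd (nat_lit 77220) (PT.nd (nat_lit 78) (PT.lf (nat_lit 34884) (nat_lit 6) (nat_lit 459) (nat_lit 0) (nat_lit 284) (nat_lit 261) (nat_lit 235)) (PT.lf (nat_lit 33744) (nat_lit 6) (nat_lit 444) (nat_lit 0) (nat_lit 285) (nat_lit 261) (nat_lit 234))) (PT.nd (nat_lit 78) (PT.lf (nat_lit 32832) (nat_lit 6) (nat_lit 432) (nat_lit 5) (nat_lit 233) (nat_lit 262) (nat_lit 285)) (PT.lf (nat_lit 33820) (nat_lit 6) (nat_lit 445) (nat_lit 5) (nat_lit 234) (nat_lit 262) (nat_lit 284))))))))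
noncomputable def pc28 : PT := (PT.nd (nat_lit 2184) (PT.nd (nat_lit 1092) (PT.nd (nat_lit 546) (PT.nd (nat_lit 234) (PT.nd (nat_lit 78) (PT.lf (nat_lit 34960) (nat_lit 6) (nat_lit 460) (nat_lit 5) (nat_lit 235) (nat_lit 262) (nat_lit 283)) (PT.nd (nat_lit 78) (PT.lf (nat_lit 36860) (nat_lit 6) (nat_lit 485) (nat_lit 5) (nat_lit 236) (nat_lit 262) (nat_lit 282)) (PT.lf (nat_lit 38684) (nat_lit 6) (nat_lit 509) (nat_lit 5) (nat_lit 237) (nat_lit 262) (nat_lit 281)))) (PT.nd (nat_lit 156) (PT.nd (nat_lit 78) (PT.lf (nat_lit 40432) (nat_lit 6) (nat_lit 532) (nat_lit 5) (nat_lit 238) (nat_lit 262) (nat_lit 280)) (PT.lf (nat_lit 42104) (nat_lit 6) (nat_lit 554) (nat_lit 5) (nat_lit 239) (nat_lit 262) (nat_lit 279))) (PT.nd (nat_lit 78) (PT.lf (nat_lit 43700) (nat_lit 6) (nat_lit 575) (nat_lit 5) (nat_lit 240) (nat_lit 262) (nat_lit 278)) (PT.lf (nat_lit 45220) (nat_lit 6) (nat_lit 595) (nat_lit 5) (nat_lit 241) (nat_lit 262) (nat_lit 277))))) (PT.nd (nat_lit 234) (PT.nd (nat_lit 78) (PT.lf (nat_lit 46664) (nat_lit 6) (nat_lit 614) (nat_lit 5)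 (nat_lit 242) (nat_lit 262) (nat_lit 276)) (PT.nd (nat_lit 78) (PT.lf (nat_lit 48032) (nat_lit 6) (nat_lit 632) (nat_lit 5) (nat_lit 243) (nat_lit 262) (nat_lit 275)) (PT.lf (nat_lit 49324) (nat_lit 6) (nat_lit 649) (nat_lit 5) (nat_lit 244) (nat_lit 262) (nat_lit 274)))) (PT.nd (nat_lit 156) (PT.nd (nat_lit 78) (PT.lf (nat_lit 50540) (nat_lit 6) (nat_lit 665) (nat_lit 5) (nat_lit 245) (nat_lit 262) (nat_lit 273)) (PT.lf (nat_lit 51680) (nat_lit 6) (nat_lit 680) (nat_lit 5) (nat_lit 246) (nat_lit 262) (nat_lit 272))) (PT.nd (nat_lit 78) (PT.lf (nat_lit 52744) (nat_lit 6) (nat_lit 694) (nat_lit 5) (nat_lit 247) (nat_lit 262) (nat_lit 271)) (PT.lf (nat_lit 53732) (nat_lit 6) (nat_lit 707) (nat_lit 5) (nat_lit 248) (nat_lit 262) (nat_lit 270)))))) (PT.nd (nat_lit 546) (PT.nd (nat_lit 234) (PT.nd (nat_lit 78) (PT.lf (nat_lit 54644) (nat_lit 6) (nat_lit 719) (nat_lit 5) (nat_lit 249) (nat_lit 262) (nat_lit 269)) (PT.nd (nat_lit 78) (PT.lf (nat_lit 55480) (nat_lit 6) (nat_lit 730) (nat_lit 5) (nat_lit 250) (nat_lit 262) (nat_lit 268)) (PT.lf (nat_lit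 56240) (nat_lit 6) (nat_lit 740) (nat_lit 5) (nat_lit 251) (nat_lit 262) (nat_lit 267)))) (PT.nd (nat_lit 156) (PT.nd (nat_lit 78) (PT.lf (nat_lit 56924) (nat_lit 6) (nat_lit 749) (nat_lit 5) (nat_lit 252) (nat_lit 262) (nat_lit 266)) (PT.lf (nat_lit 57532) (nat_lit 6) (nat_lit 757) (nat_lit 5) (nat_lit 253) (nat_lit 262) (nat_lit 265))) (PT.nd (nat_lit 78) (PT.lf (nat_lit 58064) (nat_lit 6) (nat_lit 764) (nat_lit 5) (nat_lit 254) (nat_lit 262) (nat_lit 264)) (PT.lf (nat_lit 58520) (nat_lit 6) (nat_lit 770) (nat_lit 5) (nat_lit 255) (nat_lit 262) (nat_lit 263))))) (PT.nd (nat_lit 234) (PT.nd (nat_lit 78) (PT.lf (nat_lit 58900) (nat_lit 3) (nat_lit 775) (nat_lit 4) (nat_lit 256) (nat_lit 262) (nat_lit 262)) (PT.nd (nat_lit 78) (PT.lf (nat_lit 59128) (nat_lit 6) (nat_lit 778) (nat_lit 4) (nat_lit 257) (nat_lit 262) (nat_lit 261)) (PT.lf (nat_lit 59280) (nat_lit 6) (nat_lit 780) (nat_lit 4) (nat_lit 258) (nat_lit 262) (nat_lit 260)))) (PT.nd (nat_lit 156) (PT.nd (nat_lit 78) (PT.lf (nat_lit 59204) (nat_lit 3) (nat_lit 779) (nat_lit 2) (nat_lit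 259) (nat_lit 262) (nat_lit 259)) (PT.lf (nat_lit 59280) (nat_lit 6) (nat_lit 780) (nat_lit 2) (nat_lit 260) (nat_lit 262) (nat_lit 258))) (PT.nd (nat_lit 78) (PT.lf (nat_lit 59128) (nat_lit 6) (nat_lit 778) (nat_lit 2) (nat_lit 261) (nat_lit 262) (nat_lit 257)) (PT.lf (nat_lit 58900) (nat_lit 3) (nat_lit 775) (nat_lit 0) (nat_lit 262) (nat_lit 262) (nat_lit 256))))))) (PT.nd (nat_lit 1092) (PT.nd (nat_lit 546) (PT.nd (nat_lit 234) (PT.nd (nat_lit 78) (PT.lf (nat_lit 58520) (nat_lit 6) (nat_lit 770) (nat_lit 0) (nat_lit 263) (nat_lit 262) (nat_lit 255)) (PT.nd (nat_lit 78) (PT.lf (nat_lit 58064) (nat_lit 6) (nat_lit 764) (nat_lit 0) (nat_lit 264) (nat_lit 262) (nat_lit 254)) (PT.lf (nat_lit 57532) (nat_lit 6) (nat_lit 757) (nat_lit 0) (nat_lit 265) (nat_lit 262) (nat_lit 253)))) (PT.nd (nat_lit 156) (PT.nd (nat_lit 78) (PT.lf (nat_lit 56924) (nat_lit 6) (nat_lit 749) (nat_lit 0) (nat_lit 266) (nat_lit 262) (nat_lit 252)) (PT.lf (nat_lit 56240) (nat_lit 6) (nat_lit 740) (nat_lit 0) (nat_lit 267) (nat_lit 262) (nat_lit 251))) (PT.nd (nat_lit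 78) (PT.lf (nat_lit 55480) (nat_lit 6) (nat_lit 730) (nat_lit 0) (nat_lit 268) (nat_lit 262) (nat_lit 250)) (PT.lf (nat_lit 54644) (nat_lit 6) (nat_lit 719) (nat_lit 0) (nat_lit 269) (nat_lit 262) (nat_lit 249))))) (PT.nd (nat_lit 234) (PT.nd (nat_lit 78) (PT.lf (nat_lit 53732) (nat_lit 6) (nat_lit 707) (nat_lit 0) (nat_lit 270) (nat_lit 262) (nat_lit 248)) (PT.nd (nat_lit 78) (PT.lf (nat_lit 52744) (nat_lit 6) (nat_lit 694) (nat_lit 0) (nat_lit 271) (nat_lit 262) (nat_lit 247)) (PT.lf (nat_lit 51680) (nat_lit 6) (nat_lit 680) (nat_lit 0) (nat_lit 272) (nat_lit 262) (nat_lit 246)))) (PT.nd (nat_lit 156) (PT.nd (nat_lit 78) (PT.lf (nat_lit 50540) (nat_lit 6) (nat_lit 665) (nat_lit 0) (nat_lit 273) (nat_lit 262) (nat_lit 245)) (PT.lf (nat_lit 49324) (nat_lit 6) (nat_lit 649) (nat_lit 0) (nat_lit 274) (nat_lit 262) (nat_lit 244))) (PT.nd (nat_lit 78) (PT.lf (nat_lit 48032) (nat_lit 6) (nat_lit 632) (nat_lit 0) (nat_lit 275) (nat_lit 262) (nat_lit 243)) (PT.lf (nat_lit 46664) (nat_lit 6) (nat_lit 614) (nat_lit 0) (nat_lit 276) (nat_lit 262)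 (nat_lit 242)))))) (PT.nd (nat_lit 546) (PT.nd (nat_lit 234) (PT.nd (nat_lit 78) (PT.lf (nat_lit 45220) (nat_lit 6) (nat_lit 595) (nat_lit 0) (nat_lit 277) (nat_lit 262) (nat_lit 241)) (PT.nd (nat_lit 78) (PT.lf (nat_lit 43700) (nat_lit 6) (nat_lit 575) (nat_lit 0) (nat_lit 278) (nat_lit 262) (nat_lit 240)) (PT.lf (nat_lit 42104) (nat_lit 6) (nat_lit 554) (nat_lit 0) (nat_lit 279) (nat_lit 262) (nat_lit 239)))) (PT.nd (nat_lit 156) (PT.nd (nat_lit 78) (PT.lf (nat_lit 40432) (nat_lit 6) (nat_lit 532) (nat_lit 0) (nat_lit 280) (nat_lit 262) (nat_lit 238)) (PT.lf (nat_lit 38684) (nat_lit 6) (nat_lit 509) (nat_lit 0) (nat_lit 281) (nat_lit 262) (nat_lit 237))) (PT.nd (nat_lit 78) (PT.lf (nat_lit 36860) (nat_lit 6) (nat_lit 485) (nat_lit 0) (nat_lit 282) (nat_lit 262) (nat_lit 236)) (PT.lf (nat_lit 34960) (nat_lit 6) (nat_lit 460) (nat_lit 0) (nat_lit 283) (nat_lit 262) (nat_lit 235))))) (PT.nd (nat_lit 77298) (PT.nd (nat_lit 77142) (PT.nd (nat_lit 78) (PT.lf (nat_lit 33820) (nat_lit 6) (nat_lit 445) (nat_lit 0) (nat_lit 284) (nat_lit 262) (nat_lit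 234)) (PT.lf (nat_lit 32832) (nat_lit 6) (nat_lit 432) (nat_lit 0) (nat_lit 285) (nat_lit 262) (nat_lit 233))) (PT.nd (nat_lit 78) (PT.lf (nat_lit 31920) (nat_lit 6) (nat_lit 420) (nat_lit 5) (nat_lit 232) (nat_lit 263) (nat_lit 285)) (PT.lf (nat_lit 32908) (nat_lit 6) (nat_lit 433) (nat_lit 5) (nat_lit 233) (nat_lit 263) (nat_lit 284)))) (PT.nd (nat_lit 156) (PT.nd (nat_lit 78) (PT.lf (nat_lit 33896) (nat_lit 6) (nat_lit 446) (nat_lit 5) (nat_lit 234) (nat_lit 263) (nat_lit 283)) (PT.lf (nat_lit 35036) (nat_lit 6) (nat_lit 461) (nat_lit 5) (nat_lit 235) (nat_lit 263) (nat_lit 282))) (PT.nd (nat_lit 78) (PT.lf (nat_lit 36936) (nat_lit 6) (nat_lit 486) (nat_lit 5) (nat_lit 236) (nat_lit 263) (nat_lit 281)) (PT.lf (nat_lit 38760) (nat_lit 6) (nat_lit 510) (nat_lit 5) (nat_lit 237) (nat_lit 263) (nat_lit 280))))))))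
noncomputable def pc29 : PT := (PT.nd (nat_lit 2262) (PT.nd (nat_lit 1092) (PT.nd (nat_lit 546) (PT.nd (nat_lit 234) (PT.nd (nat_lit 78) (PT.lf (nat_lit 40508) (nat_lit 6) (nat_lit 533) (nat_lit 5) (nat_lit 238) (nat_lit 263) (nat_lit 279)) (PT.nd (nat_lit 78) (PT.lf (nat_lit 42180) (nat_lit 6) (nat_lit 555) (nat_lit 5) (nat_lit 239) (nat_lit 263) (nat_lit 278)) (PT.lf (nat_lit 43776) (nat_lit 6) (nat_lit 576) (nat_lit 5) (nat_lit 240) (nat_lit 263) (nat_lit 277)))) (PT.nd (nat_lit 156) (PT.nd (nat_lit 78) (PT.lf (nat_lit 45296) (nat_lit 6) (nat_lit 596) (nat_lit 5) (nat_lit 241) (nat_lit 263) (nat_lit 276)) (PT.lf (nat_lit 46740) (nat_lit 6) (nat_lit 615) (nat_lit 5) (nat_lit 242) (nat_lit 263) (nat_lit 275))) (PT.nd (nat_lit 78) (PT.lf (nat_lit 48108) (nat_lit 6) (nat_lit 633) (nat_lit 5) (nat_lit 243) (nat_lit 263) (nat_lit 274)) (PT.lf (nat_lit 49400) (nat_lit 6) (nat_lit 650) (nat_lit 5) (nat_lit 244) (nat_lit 263) (nat_lit 273))))) (PT.nd (nat_lit 234) (PT.nd (nat_lit 78) (PT.lf (nat_lit 50616) (nat_lit 6) (nat_lit 666) (nat_lit 5)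 (nat_lit 245) (nat_lit 263) (nat_lit 272)) (PT.nd (nat_lit 78) (PT.lf (nat_lit 51756) (nat_lit 6) (nat_lit 681) (nat_lit 5) (nat_lit 246) (nat_lit 263) (nat_lit 271)) (PT.lf (nat_lit 52820) (nat_lit 6) (nat_lit 695) (nat_lit 5) (nat_lit 247) (nat_lit 263) (nat_lit 270)))) (PT.nd (nat_lit 156) (PT.nd (nat_lit 78) (PT.lf (nat_lit 53808) (nat_lit 6) (nat_lit 708) (nat_lit 5) (nat_lit 248) (nat_lit 263) (nat_lit 269)) (PT.lf (nat_lit 54720) (nat_lit 6) (nat_lit 720) (nat_lit 5) (nat_lit 249) (nat_lit 263) (nat_lit 268))) (PT.nd (nat_lit 78) (PT.lf (nat_lit 55556) (nat_lit 6) (nat_lit 731) (nat_lit 5) (nat_lit 250) (nat_lit 263) (nat_lit 267)) (PT.lf (nat_lit 56316) (nat_lit 6) (nat_lit 741) (nat_lit 5) (nat_lit 251) (nat_lit 263) (nat_lit 266)))))) (PT.nd (nat_lit 546) (PT.nd (nat_lit 234) (PT.nd (nat_lit 78) (PT.lf (nat_lit 57000) (nat_lit 6) (nat_lit 750) (nat_lit 5) (nat_lit 252) (nat_lit 263) (nat_lit 265)) (PT.nd (nat_lit 78) (PT.lf (nat_lit 57608) (nat_lit 6) (nat_lit 758) (nat_lit 5) (nat_lit 253) (nat_lit 263) (nat_lit 264)) (PT.lf (nat_lit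 58140) (nat_lit 3) (nat_lit 765) (nat_lit 4) (nat_lit 254) (nat_lit 263) (nat_lit 263)))) (PT.nd (nat_lit 156) (PT.nd (nat_lit 78) (PT.lf (nat_lit 58520) (nat_lit 6) (nat_lit 770) (nat_lit 4) (nat_lit 255) (nat_lit 263) (nat_lit 262)) (PT.lf (nat_lit 58824) (nat_lit 6) (nat_lit 774) (nat_lit 4) (nat_lit 256) (nat_lit 263) (nat_lit 261))) (PT.nd (nat_lit 78) (PT.lf (nat_lit 59052) (nat_lit 6) (nat_lit 777) (nat_lit 4) (nat_lit 257) (nat_lit 263) (nat_lit 260)) (PT.lf (nat_lit 58976) (nat_lit 6) (nat_lit 776) (nat_lit 4) (nat_lit 258) (nat_lit 263) (nat_lit 259))))) (PT.nd (nat_lit 312) (PT.nd (nat_lit 156) (PT.nd (nat_lit 78) (PT.lf (nat_lit 58976) (nat_lit 6) (nat_lit 776) (nat_lit 2) (nat_lit 259) (nat_lit 263) (nat_lit 258)) (PT.lf (nat_lit 59052) (nat_lit 6) (nat_lit 777) (nat_lit 2) (nat_lit 260) (nat_lit 263) (nat_lit 257))) (PT.nd (nat_lit 78) (PT.lf (nat_lit 58824) (nat_lit 6) (nat_lit 774) (nat_lit 2) (nat_lit 261) (nat_lit 263) (nat_lit 256)) (PT.lf (nat_lit 58520) (nat_lit 6) (nat_lit 770) (nat_lit 2) (nat_lit 262) (nat_lit 263)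 (nat_lit 255)))) (PT.nd (nat_lit 156) (PT.nd (nat_lit 78) (PT.lf (nat_lit 58140) (nat_lit 3) (nat_lit 765) (nat_lit 0) (nat_lit 263) (nat_lit 263) (nat_lit 254)) (PT.lf (nat_lit 57608) (nat_lit 6) (nat_lit 758) (nat_lit 0) (nat_lit 264) (nat_lit 263) (nat_lit 253))) (PT.nd (nat_lit 78) (PT.lf (nat_lit 57000) (nat_lit 6) (nat_lit 750) (nat_lit 0) (nat_lit 265) (nat_lit 263) (nat_lit 252)) (PT.lf (nat_lit 56316) (nat_lit 6) (nat_lit 741) (nat_lit 0) (nat_lit 266) (nat_lit 263) (nat_lit 251))))))) (PT.nd (nat_lit 1092) (PT.nd (nat_lit 546) (PT.nd (nat_lit 234) (PT.nd (nat_lit 78) (PT.lf (nat_lit 55556) (nat_lit 6) (nat_lit 731) (nat_lit 0) (nat_lit 267) (nat_lit 263) (nat_lit 250)) (PT.nd (nat_lit 78) (PT.lf (nat_lit 54720) (nat_lit 6) (nat_lit 720) (nat_lit 0) (nat_lit 268) (nat_lit 263) (nat_lit 249)) (PT.lf (nat_lit 53808) (nat_lit 6) (nat_lit 708) (nat_lit 0) (nat_lit 269) (nat_lit 263) (nat_lit 248)))) (PT.nd (nat_lit 156) (PT.nd (nat_lit 78) (PT.lf (nat_lit 52820) (nat_lit 6) (nat_lit 695) (nat_lit 0) (nat_lit 270) (nat_lit 263) (nat_lit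 247)) (PT.lf (nat_lit 51756) (nat_lit 6) (nat_lit 681) (nat_lit 0) (nat_lit 271) (nat_lit 263) (nat_lit 246))) (PT.nd (nat_lit 78) (PT.lf (nat_lit 50616) (nat_lit 6) (nat_lit 666) (nat_lit 0) (nat_lit 272) (nat_lit 263) (nat_lit 245)) (PT.lf (nat_lit 49400) (nat_lit 6) (nat_lit 650) (nat_lit 0) (nat_lit 273) (nat_lit 263) (nat_lit 244))))) (PT.nd (nat_lit 234) (PT.nd (nat_lit 78) (PT.lf (nat_lit 48108) (nat_lit 6) (nat_lit 633) (nat_lit 0) (nat_lit 274) (nat_lit 263) (nat_lit 243)) (PT.nd (nat_lit 78) (PT.lf (nat_lit 46740) (nat_lit 6) (nat_lit 615) (nat_lit 0) (nat_lit 275) (nat_lit 263) (nat_lit 242)) (PT.lf (nat_lit 45296) (nat_lit 6) (nat_lit 596) (nat_lit 0) (nat_lit 276) (nat_lit 263) (nat_lit 241)))) (PT.nd (nat_lit 156) (PT.nd (nat_lit 78) (PT.lf (nat_lit 43776) (nat_lit 6) (nat_lit 576) (nat_lit 0) (nat_lit 277) (nat_lit 263) (nat_lit 240)) (PT.lf (nat_lit 42180) (nat_lit 6) (nat_lit 555) (nat_lit 0) (nat_lit 278) (nat_lit 263) (nat_lit 239))) (PT.nd (nat_lit 78) (PT.lf (nat_lit 40508) (nat_lit 6) (nat_lit 533) (nat_lit 0) (nat_lit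 279) (nat_lit 263) (nat_lit 238)) (PT.lf (nat_lit 38760) (nat_lit 6) (nat_lit 510) (nat_lit 0) (nat_lit 280) (nat_lit 263) (nat_lit 237)))))) (PT.nd (nat_lit 77376) (PT.nd (nat_lit 234) (PT.nd (nat_lit 78) (PT.lf (nat_lit 36936) (nat_lit 6) (nat_lit 486) (nat_lit 0) (nat_lit 281) (nat_lit 263) (nat_lit 236)) (PT.nd (nat_lit 78) (PT.lf (nat_lit 35036) (nat_lit 6) (nat_lit 461) (nat_lit 0) (nat_lit 282) (nat_lit 263) (nat_lit 235)) (PT.lf (nat_lit 33896) (nat_lit 6) (nat_lit 446) (nat_lit 0) (nat_lit 283) (nat_lit 263) (nat_lit 234)))) (PT.nd (nat_lit 76986) (PT.nd (nat_lit 78) (PT.lf (nat_lit 32908) (nat_lit 6) (nat_lit 433) (nat_lit 0) (nat_lit 284) (nat_lit 263) (nat_lit 233)) (PT.lf (nat_lit 31920) (nat_lit 6) (nat_lit 420) (nat_lit 0) (nat_lit 285) (nat_lit 263) (nat_lit 232))) (PT.nd (nat_lit 78) (PT.lf (nat_lit 30172) (nat_lit 6) (nat_lit 397) (nat_lit 5) (nat_lit 230) (nat_lit 264) (nat_lit 286)) (PT.lf (nat_lit 31084) (nat_lit 6) (nat_lit 409) (nat_lit 5) (nat_lit 231) (nat_lit 264) (nat_lit 285))))) (PT.nd (nat_lit 312) (PT.nd (nat_lit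 156) (PT.nd (nat_lit 78) (PT.lf (nat_lit 31996) (nat_lit 6) (nat_lit 421) (nat_lit 5) (nat_lit 232) (nat_lit 264) (nat_lit 284)) (PT.lf (nat_lit 32984) (nat_lit 6) (nat_lit 434) (nat_lit 5) (nat_lit 233) (nat_lit 264) (nat_lit 283))) (PT.nd (nat_lit 78) (PT.lf (nat_lit 33972) (nat_lit 6) (nat_lit 447) (nat_lit 5) (nat_lit 234) (nat_lit 264) (nat_lit 282)) (PT.lf (nat_lit 35112) (nat_lit 6) (nat_lit 462) (nat_lit 5) (nat_lit 235) (nat_lit 264) (nat_lit 281)))) (PT.nd (nat_lit 156) (PT.nd (nat_lit 78) (PT.lf (nat_lit 37012) (nat_lit 6) (nat_lit 487) (nat_lit 5) (nat_lit 236) (nat_lit 264) (nat_lit 280)) (PT.lf (nat_lit 38836) (nat_lit 6) (nat_lit 511) (nat_lit 5) (nat_lit 237) (nat_lit 264) (nat_lit 279))) (PT.nd (nat_lit 78) (PT.lf (nat_lit 40584) (nat_lit 6) (nat_lit 534) (nat_lit 5) (nat_lit 238) (nat_lit 264) (nat_lit 278)) (PT.lf (nat_lit 42256) (nat_lit 6) (nat_lit 556) (nat_lit 5) (nat_lit 239) (nat_lit 264) (nat_lit 277))))))))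
noncomputable def pc30 : PT := (PT.nd (nat_lit 2262) (PT.nd (nat_lit 1092) (PT.nd (nat_lit 546) (PT.nd (nat_lit 234) (PT.nd (nat_lit 78) (PT.lf (nat_lit 43852) (nat_lit 6) (nat_lit 577) (nat_lit 5) (nat_lit 240) (nat_lit 264) (nat_lit 276)) (PT.nd (nat_lit 78) (PT.lf (nat_lit 45372) (nat_lit 6) (nat_lit 597) (nat_lit 5) (nat_lit 241) (nat_lit 264) (nat_lit 275)) (PT.lf (nat_lit 46816) (nat_lit 6) (nat_lit 616) (nat_lit 5) (nat_lit 242) (nat_lit 264) (nat_lit 274)))) (PT.nd (nat_lit 156) (PT.nd (nat_lit 78) (PT.lf (nat_lit 48184) (nat_lit 6) (nat_lit 634) (nat_lit 5) (nat_lit 243) (nat_lit 264) (nat_lit 273)) (PT.lf (nat_lit 49476) (nat_lit 6) (nat_lit 651) (nat_lit 5) (nat_lit 244) (nat_lit 264) (nat_lit 272))) (PT.nd (nat_lit 78) (PT.lf (nat_lit 50692) (nat_lit 6) (nat_lit 667) (nat_lit 5) (nat_lit 245) (nat_lit 264) (nat_lit 271)) (PT.lf (nat_lit 51832) (nat_lit 6) (nat_lit 682) (nat_lit 5) (nat_lit 246) (nat_lit 264) (nat_lit 270))))) (PT.nd (nat_lit 234) (PT.nd (nat_lit 78) (PT.lf (nat_lit 52896) (nat_lit 6) (nat_lit 696) (nat_lit 5)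 (nat_lit 247) (nat_lit 264) (nat_lit 269)) (PT.nd (nat_lit 78) (PT.lf (nat_lit 53884) (nat_lit 6) (nat_lit 709) (nat_lit 5) (nat_lit 248) (nat_lit 264) (nat_lit 268)) (PT.lf (nat_lit 54796) (nat_lit 6) (nat_lit 721) (nat_lit 5) (nat_lit 249) (nat_lit 264) (nat_lit 267)))) (PT.nd (nat_lit 156) (PT.nd (nat_lit 78) (PT.lf (nat_lit 55632) (nat_lit 6) (nat_lit 732) (nat_lit 5) (nat_lit 250) (nat_lit 264) (nat_lit 266)) (PT.lf (nat_lit 56392) (nat_lit 6) (nat_lit 742) (nat_lit 5) (nat_lit 251) (nat_lit 264) (nat_lit 265))) (PT.nd (nat_lit 78) (PT.lf (nat_lit 57076) (nat_lit 3) (nat_lit 751) (nat_lit 4) (nat_lit 252) (nat_lit 264) (nat_lit 264)) (PT.lf (nat_lit 57608) (nat_lit 6) (nat_lit 758) (nat_lit 4) (nat_lit 253) (nat_lit 264) (nat_lit 263)))))) (PT.nd (nat_lit 546) (PT.nd (nat_lit 234) (PT.nd (nat_lit 78) (PT.lf (nat_lit 58064) (nat_lit 6) (nat_lit 764) (nat_lit 4) (nat_lit 254) (nat_lit 264) (nat_lit 262)) (PT.nd (nat_lit 78) (PT.lf (nat_lit 58444) (nat_lit 6) (nat_lit 769) (nat_lit 4) (nat_lit 255) (nat_lit 264) (nat_lit 261)) (PT.lf (nat_lit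 58748) (nat_lit 6) (nat_lit 773) (nat_lit 4) (nat_lit 256) (nat_lit 264) (nat_lit 260)))) (PT.nd (nat_lit 156) (PT.nd (nat_lit 78) (PT.lf (nat_lit 58672) (nat_lit 6) (nat_lit 772) (nat_lit 4) (nat_lit 257) (nat_lit 264) (nat_lit 259)) (PT.lf (nat_lit 58596) (nat_lit 3) (nat_lit 771) (nat_lit 2) (nat_lit 258) (nat_lit 264) (nat_lit 258))) (PT.nd (nat_lit 78) (PT.lf (nat_lit 58672) (nat_lit 6) (nat_lit 772) (nat_lit 2) (nat_lit 259) (nat_lit 264) (nat_lit 257)) (PT.lf (nat_lit 58748) (nat_lit 6) (nat_lit 773) (nat_lit 2) (nat_lit 260) (nat_lit 264) (nat_lit 256))))) (PT.nd (nat_lit 312) (PT.nd (nat_lit 156) (PT.nd (nat_lit 78) (PT.lf (nat_lit 58444) (nat_lit 6) (nat_lit 769) (nat_lit 2) (nat_lit 261) (nat_lit 264) (nat_lit 255)) (PT.lf (nat_lit 58064) (nat_lit 6) (nat_lit 764) (nat_lit 2) (nat_lit 262) (nat_lit 264) (nat_lit 254))) (PT.nd (nat_lit 78) (PT.lf (nat_lit 57608) (nat_lit 6) (nat_lit 758) (nat_lit 2) (nat_lit 263) (nat_lit 264) (nat_lit 253)) (PT.lf (nat_lit 57076) (nat_lit 3) (nat_lit 751) (nat_lit 0) (nat_lit 264) (nat_lit 264)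 (nat_lit 252)))) (PT.nd (nat_lit 156) (PT.nd (nat_lit 78) (PT.lf (nat_lit 56392) (nat_lit 6) (nat_lit 742) (nat_lit 0) (nat_lit 265) (nat_lit 264) (nat_lit 251)) (PT.lf (nat_lit 55632) (nat_lit 6) (nat_lit 732) (nat_lit 0) (nat_lit 266) (nat_lit 264) (nat_lit 250))) (PT.nd (nat_lit 78) (PT.lf (nat_lit 54796) (nat_lit 6) (nat_lit 721) (nat_lit 0) (nat_lit 267) (nat_lit 264) (nat_lit 249)) (PT.lf (nat_lit 53884) (nat_lit 6) (nat_lit 709) (nat_lit 0) (nat_lit 268) (nat_lit 264) (nat_lit 248))))))) (PT.nd (nat_lit 1092) (PT.nd (nat_lit 546) (PT.nd (nat_lit 234) (PT.nd (nat_lit 78) (PT.lf (nat_lit 52896) (nat_lit 6) (nat_lit 696) (nat_lit 0) (nat_lit 269) (nat_lit 264) (nat_lit 247)) (PT.nd (nat_lit 78) (PT.lf (nat_lit 51832) (nat_lit 6) (nat_lit 682) (nat_lit 0) (nat_lit 270) (nat_lit 264) (nat_lit 246)) (PT.lf (nat_lit 50692) (nat_lit 6) (nat_lit 667) (nat_lit 0) (nat_lit 271) (nat_lit 264) (nat_lit 245)))) (PT.nd (nat_lit 156) (PT.nd (nat_lit 78) (PT.lf (nat_lit 49476) (nat_lit 6) (nat_lit 651) (nat_lit 0) (nat_lit 272) (nat_lit 264) (nat_lit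 244)) (PT.lf (nat_lit 48184) (nat_lit 6) (nat_lit 634) (nat_lit 0) (nat_lit 273) (nat_lit 264) (nat_lit 243))) (PT.nd (nat_lit 78) (PT.lf (nat_lit 46816) (nat_lit 6) (nat_lit 616) (nat_lit 0) (nat_lit 274) (nat_lit 264) (nat_lit 242)) (PT.lf (nat_lit 45372) (nat_lit 6) (nat_lit 597) (nat_lit 0) (nat_lit 275) (nat_lit 264) (nat_lit 241))))) (PT.nd (nat_lit 234) (PT.nd (nat_lit 78) (PT.lf (nat_lit 43852) (nat_lit 6) (nat_lit 577) (nat_lit 0) (nat_lit 276) (nat_lit 264) (nat_lit 240)) (PT.nd (nat_lit 78) (PT.lf (nat_lit 42256) (nat_lit 6) (nat_lit 556) (nat_lit 0) (nat_lit 277) (nat_lit 264) (nat_lit 239)) (PT.lf (nat_lit 40584) (nat_lit 6) (nat_lit 534) (nat_lit 0) (nat_lit 278) (nat_lit 264) (nat_lit 238)))) (PT.nd (nat_lit 156) (PT.nd (nat_lit 78) (PT.lf (nat_lit 38836) (nat_lit 6) (nat_lit 511) (nat_lit 0) (nat_lit 279) (nat_lit 264) (nat_lit 237)) (PT.lf (nat_lit 37012) (nat_lit 6) (nat_lit 487) (nat_lit 0) (nat_lit 280) (nat_lit 264) (nat_lit 236))) (PT.nd (nat_lit 78) (PT.lf (nat_lit 35112) (nat_lit 6) (nat_lit 462) (nat_lit 0) (nat_lit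 281) (nat_lit 264) (nat_lit 235)) (PT.lf (nat_lit 33972) (nat_lit 6) (nat_lit 447) (nat_lit 0) (nat_lit 282) (nat_lit 264) (nat_lit 234)))))) (PT.nd (nat_lit 77220) (PT.nd (nat_lit 234) (PT.nd (nat_lit 78) (PT.lf (nat_lit 32984) (nat_lit 6) (nat_lit 434) (nat_lit 0) (nat_lit 283) (nat_lit 264) (nat_lit 233)) (PT.nd (nat_lit 78) (PT.lf (nat_lit 31996) (nat_lit 6) (nat_lit 421) (nat_lit 0) (nat_lit 284) (nat_lit 264) (nat_lit 232)) (PT.lf (nat_lit 31084) (nat_lit 6) (nat_lit 409) (nat_lit 0) (nat_lit 285) (nat_lit 264) (nat_lit 231)))) (PT.nd (nat_lit 76830) (PT.nd (nat_lit 76752) (PT.lf (nat_lit 30172) (nat_lit 6) (nat_lit 397) (nat_lit 0) (nat_lit 286) (nat_lit 264) (nat_lit 230)) (PT.lf (nat_lit 29336) (nat_lit 6) (nat_lit 386) (nat_lit 5) (nat_lit 229) (nat_lit 265) (nat_lit 286))) (PT.nd (nat_lit 78) (PT.lf (nat_lit 30248) (nat_lit 6) (nat_lit 398) (nat_lit 5) (nat_lit 230) (nat_lit 265) (nat_lit 285)) (PT.lf (nat_lit 31160) (nat_lit 6) (nat_lit 410) (nat_lit 5) (nat_lit 231) (nat_lit 265) (nat_lit 284))))) (PT.nd (nat_lit 312) (PT.nd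 (nat_lit 156) (PT.nd (nat_lit 78) (PT.lf (nat_lit 32072) (nat_lit 6) (nat_lit 422) (nat_lit 5) (nat_lit 232) (nat_lit 265) (nat_lit 283)) (PT.lf (nat_lit 33060) (nat_lit 6) (nat_lit 435) (nat_lit 5) (nat_lit 233) (nat_lit 265) (nat_lit 282))) (PT.nd (nat_lit 78) (PT.lf (nat_lit 34048) (nat_lit 6) (nat_lit 448) (nat_lit 5) (nat_lit 234) (nat_lit 265) (nat_lit 281)) (PT.lf (nat_lit 35188) (nat_lit 6) (nat_lit 463) (nat_lit 5) (nat_lit 235) (nat_lit 265) (nat_lit 280)))) (PT.nd (nat_lit 156) (PT.nd (nat_lit 78) (PT.lf (nat_lit 37088) (nat_lit 6) (nat_lit 488) (nat_lit 5) (nat_lit 236) (nat_lit 265) (nat_lit 279)) (PT.lf (nat_lit 38912) (nat_lit 6) (nat_lit 512) (nat_lit 5) (nat_lit 237) (nat_lit 265) (nat_lit 278))) (PT.nd (nat_lit 78) (PT.lf (nat_lit 40660) (nat_lit 6) (nat_lit 535) (nat_lit 5) (nat_lit 238) (nat_lit 265) (nat_lit 277)) (PT.lf (nat_lit 42332) (nat_lit 6) (nat_lit 557) (nat_lit 5) (nat_lit 239) (nat_lit 265) (nat_lit 276))))))))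
noncomputable def pc31 : PT := (PT.nd (nat_lit 2262) (PT.nd (nat_lit 1092) (PT.nd (nat_lit 546) (PT.nd (nat_lit 234) (PT.nd (nat_lit 78) (PT.lf (nat_lit 43928) (nat_lit 6) (nat_lit 578) (nat_lit 5) (nat_lit 240) (nat_lit 265) (nat_lit 275)) (PT.nd (nat_lit 78) (PT.lf (nat_lit 45448) (nat_lit 6) (nat_lit 598) (nat_lit 5) (nat_lit 241) (nat_lit 265) (nat_lit 274)) (PT.lf (nat_lit 46892) (nat_lit 6) (nat_lit 617) (nat_lit 5) (nat_lit 242) (nat_lit 265) (nat_lit 273)))) (PT.nd (nat_lit 156) (PT.nd (nat_lit 78) (PT.lf (nat_lit 48260) (nat_lit 6) (nat_lit 635) (nat_lit 5) (nat_lit 243) (nat_lit 265) (nat_lit 272)) (PT.lf (nat_lit 49552) (nat_lit 6) (nat_lit 652) (nat_lit 5) (nat_lit 244) (nat_lit 265) (nat_lit 271))) (PT.nd (nat_lit 78) (PT.lf (nat_lit 50768) (nat_lit 6) (nat_lit 668) (nat_lit 5) (nat_lit 245) (nat_lit 265) (nat_lit 270)) (PT.lf (nat_lit 51908) (nat_lit 6) (nat_lit 683) (nat_lit 5) (nat_lit 246) (nat_lit 265) (nat_lit 269))))) (PT.nd (nat_lit 234) (PT.nd (nat_lit 78) (PT.lf (nat_lit 52972) (nat_lit 6) (nat_lit 697) (nat_lit 5)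 (nat_lit 247) (nat_lit 265) (nat_lit 268)) (PT.nd (nat_lit 78) (PT.lf (nat_lit 53960) (nat_lit 6) (nat_lit 710) (nat_lit 5) (nat_lit 248) (nat_lit 265) (nat_lit 267)) (PT.lf (nat_lit 54872) (nat_lit 6) (nat_lit 722) (nat_lit 5) (nat_lit 249) (nat_lit 265) (nat_lit 266)))) (PT.nd (nat_lit 156) (PT.nd (nat_lit 78) (PT.lf (nat_lit 55708) (nat_lit 3) (nat_lit 733) (nat_lit 4) (nat_lit 250) (nat_lit 265) (nat_lit 265)) (PT.lf (nat_lit 56392) (nat_lit 6) (nat_lit 742) (nat_lit 4) (nat_lit 251) (nat_lit 265) (nat_lit 264))) (PT.nd (nat_lit 78) (PT.lf (nat_lit 57000) (nat_lit 6) (nat_lit 750) (nat_lit 4) (nat_lit 252) (nat_lit 265) (nat_lit 263)) (PT.lf (nat_lit 57532) (nat_lit 6) (nat_lit 757) (nat_lit 4) (nat_lit 253) (nat_lit 265) (nat_lit 262)))))) (PT.nd (nat_lit 546) (PT.nd (nat_lit 234) (PT.nd (nat_lit 78) (PT.lf (nat_lit 57988) (nat_lit 6) (nat_lit 763) (nat_lit 4) (nat_lit 254) (nat_lit 265) (nat_lit 261)) (PT.nd (nat_lit 78) (PT.lf (nat_lit 58368) (nat_lit 6) (nat_lit 768) (nat_lit 4) (nat_lit 255) (nat_lit 265) (nat_lit 260)) (PT.lf (nat_lit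 58292) (nat_lit 6) (nat_lit 767) (nat_lit 4) (nat_lit 256) (nat_lit 265) (nat_lit 259)))) (PT.nd (nat_lit 156) (PT.nd (nat_lit 78) (PT.lf (nat_lit 58216) (nat_lit 6) (nat_lit 766) (nat_lit 4) (nat_lit 257) (nat_lit 265) (nat_lit 258)) (PT.lf (nat_lit 58216) (nat_lit 6) (nat_lit 766) (nat_lit 2) (nat_lit 258) (nat_lit 265) (nat_lit 257))) (PT.nd (nat_lit 78) (PT.lf (nat_lit 58292) (nat_lit 6) (nat_lit 767) (nat_lit 2) (nat_lit 259) (nat_lit 265) (nat_lit 256)) (PT.lf (nat_lit 58368) (nat_lit 6) (nat_lit 768) (nat_lit 2) (nat_lit 260) (nat_lit 265) (nat_lit 255))))) (PT.nd (nat_lit 312) (PT.nd (nat_lit 156) (PT.nd (nat_lit 78) (PT.lf (nat_lit 57988) (nat_lit 6) (nat_lit 763) (nat_lit 2) (nat_lit 261) (nat_lit 265) (nat_lit 254)) (PT.lf (nat_lit 57532) (nat_lit 6) (nat_lit 757) (nat_lit 2) (nat_lit 262) (nat_lit 265) (nat_lit 253))) (PT.nd (nat_lit 78) (PT.lf (nat_lit 57000) (nat_lit 6) (nat_lit 750) (nat_lit 2) (nat_lit 263) (nat_lit 265) (nat_lit 252)) (PT.lf (nat_lit 56392) (nat_lit 6) (nat_lit 742) (nat_lit 2) (nat_lit 264) (nat_lit 265)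 (nat_lit 251)))) (PT.nd (nat_lit 156) (PT.nd (nat_lit 78) (PT.lf (nat_lit 55708) (nat_lit 3) (nat_lit 733) (nat_lit 0) (nat_lit 265) (nat_lit 265) (nat_lit 250)) (PT.lf (nat_lit 54872) (nat_lit 6) (nat_lit 722) (nat_lit 0) (nat_lit 266) (nat_lit 265) (nat_lit 249))) (PT.nd (nat_lit 78) (PT.lf (nat_lit 53960) (nat_lit 6) (nat_lit 710) (nat_lit 0) (nat_lit 267) (nat_lit 265) (nat_lit 248)) (PT.lf (nat_lit 52972) (nat_lit 6) (nat_lit 697) (nat_lit 0) (nat_lit 268) (nat_lit 265) (nat_lit 247))))))) (PT.nd (nat_lit 1092) (PT.nd (nat_lit 546) (PT.nd (nat_lit 234) (PT.nd (nat_lit 78) (PT.lf (nat_lit 51908) (nat_lit 6) (nat_lit 683) (nat_lit 0) (nat_lit 269) (nat_lit 265) (nat_lit 246)) (PT.nd (nat_lit 78) (PT.lf (nat_lit 50768) (nat_lit 6) (nat_lit 668) (nat_lit 0) (nat_lit 270) (nat_lit 265) (nat_lit 245)) (PT.lf (nat_lit 49552) (nat_lit 6) (nat_lit 652) (nat_lit 0) (nat_lit 271) (nat_lit 265) (nat_lit 244)))) (PT.nd (nat_lit 156) (PT.nd (nat_lit 78) (PT.lf (nat_lit 48260) (nat_lit 6) (nat_lit 635) (nat_lit 0) (nat_lit 272) (nat_lit 265) (nat_lit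 243)) (PT.lf (nat_lit 46892) (nat_lit 6) (nat_lit 617) (nat_lit 0) (nat_lit 273) (nat_lit 265) (nat_lit 242))) (PT.nd (nat_lit 78) (PT.lf (nat_lit 45448) (nat_lit 6) (nat_lit 598) (nat_lit 0) (nat_lit 274) (nat_lit 265) (nat_lit 241)) (PT.lf (nat_lit 43928) (nat_lit 6) (nat_lit 578) (nat_lit 0) (nat_lit 275) (nat_lit 265) (nat_lit 240))))) (PT.nd (nat_lit 234) (PT.nd (nat_lit 78) (PT.lf (nat_lit 42332) (nat_lit 6) (nat_lit 557) (nat_lit 0) (nat_lit 276) (nat_lit 265) (nat_lit 239)) (PT.nd (nat_lit 78) (PT.lf (nat_lit 40660) (nat_lit 6) (nat_lit 535) (nat_lit 0) (nat_lit 277) (nat_lit 265) (nat_lit 238)) (PT.lf (nat_lit 38912) (nat_lit 6) (nat_lit 512) (nat_lit 0) (nat_lit 278) (nat_lit 265) (nat_lit 237)))) (PT.nd (nat_lit 156) (PT.nd (nat_lit 78) (PT.lf (nat_lit 37088) (nat_lit 6) (nat_lit 488) (nat_lit 0) (nat_lit 279) (nat_lit 265) (nat_lit 236)) (PT.lf (nat_lit 35188) (nat_lit 6) (nat_lit 463) (nat_lit 0) (nat_lit 280) (nat_lit 265) (nat_lit 235))) (PT.nd (nat_lit 78) (PT.lf (nat_lit 34048) (nat_lit 6) (nat_lit 448) (nat_lit 0) (nat_lit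 281) (nat_lit 265) (nat_lit 234)) (PT.lf (nat_lit 33060) (nat_lit 6) (nat_lit 435) (nat_lit 0) (nat_lit 282) (nat_lit 265) (nat_lit 233)))))) (PT.nd (nat_lit 77142) (PT.nd (nat_lit 234) (PT.nd (nat_lit 78) (PT.lf (nat_lit 32072) (nat_lit 6) (nat_lit 422) (nat_lit 0) (nat_lit 283) (nat_lit 265) (nat_lit 232)) (PT.nd (nat_lit 78) (PT.lf (nat_lit 31160) (nat_lit 6) (nat_lit 410) (nat_lit 0) (nat_lit 284) (nat_lit 265) (nat_lit 231)) (PT.lf (nat_lit 30248) (nat_lit 6) (nat_lit 398) (nat_lit 0) (nat_lit 285) (nat_lit 265) (nat_lit 230)))) (PT.nd (nat_lit 76752) (PT.nd (nat_lit 76674) (PT.lf (nat_lit 29336) (nat_lit 6) (nat_lit 386) (nat_lit 0) (nat_lit 286) (nat_lit 265) (nat_lit 229)) (PT.lf (nat_lit 28500) (nat_lit 6) (nat_lit 375) (nat_lit 5) (nat_lit 228) (nat_lit 266) (nat_lit 286))) (PT.nd (nat_lit 78) (PT.lf (nat_lit 29412) (nat_lit 6) (nat_lit 387) (nat_lit 5) (nat_lit 229) (nat_lit 266) (nat_lit 285)) (PT.lf (nat_lit 30324) (nat_lit 6) (nat_lit 399) (nat_lit 5) (nat_lit 230) (nat_lit 266) (nat_lit 284))))) (PT.nd (nat_lit 312) (PT.nd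 (nat_lit 156) (PT.nd (nat_lit 78) (PT.lf (nat_lit 31236) (nat_lit 6) (nat_lit 411) (nat_lit 5) (nat_lit 231) (nat_lit 266) (nat_lit 283)) (PT.lf (nat_lit 32148) (nat_lit 6) (nat_lit 423) (nat_lit 5) (nat_lit 232) (nat_lit 266) (nat_lit 282))) (PT.nd (nat_lit 78) (PT.lf (nat_lit 33136) (nat_lit 6) (nat_lit 436) (nat_lit 5) (nat_lit 233) (nat_lit 266) (nat_lit 281)) (PT.lf (nat_lit 34124) (nat_lit 6) (nat_lit 449) (nat_lit 5) (nat_lit 234) (nat_lit 266) (nat_lit 280)))) (PT.nd (nat_lit 156) (PT.nd (nat_lit 78) (PT.lf (nat_lit 35264) (nat_lit 6) (nat_lit 464) (nat_lit 5) (nat_lit 235) (nat_lit 266) (nat_lit 279)) (PT.lf (nat_lit 37164) (nat_lit 6) (nat_lit 489) (nat_lit 5) (nat_lit 236) (nat_lit 266) (nat_lit 278))) (PT.nd (nat_lit 78) (PT.lf (nat_lit 38988) (nat_lit 6) (nat_lit 513) (nat_lit 5) (nat_lit 237) (nat_lit 266) (nat_lit 277)) (PT.lf (nat_lit 40736) (nat_lit 6) (nat_lit 536) (nat_lit 5) (nat_lit 238) (nat_lit 266) (nat_lit 276))))))))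
noncomputable def pc32 : PT := (PT.nd (nat_lit 2184) (PT.nd (nat_lit 1092) (PT.nd (nat_lit 546) (PT.nd (nat_lit 234) (PT.nd (nat_lit 78) (PT.lf (nat_lit 42408) (nat_lit 6) (nat_lit 558) (nat_lit 5) (nat_lit 239) (nat_lit 266) (nat_lit 275)) (PT.nd (nat_lit 78) (PT.lf (nat_lit 44004) (nat_lit 6) (nat_lit 579) (nat_lit 5) (nat_lit 240) (nat_lit 266) (nat_lit 274)) (PT.lf (nat_lit 45524) (nat_lit 6) (nat_lit 599) (nat_lit 5) (nat_lit 241) (nat_lit 266) (nat_lit 273)))) (PT.nd (nat_lit 156) (PT.nd (nat_lit 78) (PT.lf (nat_lit 46968) (nat_lit 6) (nat_lit 618) (nat_lit 5) (nat_lit 242) (nat_lit 266) (nat_lit 272)) (PT.lf (nat_lit 48336) (nat_lit 6) (nat_lit 636) (nat_lit 5) (nat_lit 243) (nat_lit 266) (nat_lit 271))) (PT.nd (nat_lit 78) (PT.lf (nat_lit 49628) (nat_lit 6) (nat_lit 653) (nat_lit 5) (nat_lit 244) (nat_lit 266) (nat_lit 270)) (PT.lf (nat_lit 50844) (nat_lit 6) (nat_lit 669) (nat_lit 5) (nat_lit 245) (nat_lit 266) (nat_lit 269))))) (PT.nd (nat_lit 234) (PT.nd (nat_lit 78) (PT.lf (nat_lit 51984) (nat_lit 6) (nat_lit 684) (nat_lit 5)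 (nat_lit 246) (nat_lit 266) (nat_lit 268)) (PT.nd (nat_lit 78) (PT.lf (nat_lit 53048) (nat_lit 6) (nat_lit 698) (nat_lit 5) (nat_lit 247) (nat_lit 266) (nat_lit 267)) (PT.lf (nat_lit 54036) (nat_lit 3) (nat_lit 711) (nat_lit 4) (nat_lit 248) (nat_lit 266) (nat_lit 266)))) (PT.nd (nat_lit 156) (PT.nd (nat_lit 78) (PT.lf (nat_lit 54872) (nat_lit 6) (nat_lit 722) (nat_lit 4) (nat_lit 249) (nat_lit 266) (nat_lit 265)) (PT.lf (nat_lit 55632) (nat_lit 6) (nat_lit 732) (nat_lit 4) (nat_lit 250) (nat_lit 266) (nat_lit 264))) (PT.nd (nat_lit 78) (PT.lf (nat_lit 56316) (nat_lit 6) (nat_lit 741) (nat_lit 4) (nat_lit 251) (nat_lit 266) (nat_lit 263)) (PT.lf (nat_lit 56924) (nat_lit 6) (nat_lit 749) (nat_lit 4) (nat_lit 252) (nat_lit 266) (nat_lit 262)))))) (PT.nd (nat_lit 546) (PT.nd (nat_lit 234) (PT.nd (nat_lit 78) (PT.lf (nat_lit 57456) (nat_lit 6) (nat_lit 756) (nat_lit 4) (nat_lit 253) (nat_lit 266) (nat_lit 261)) (PT.nd (nat_lit 78) (PT.lf (nat_lit 57912) (nat_lit 6) (nat_lit 762) (nat_lit 4) (nat_lit 254) (nat_lit 266) (nat_lit 260)) (PT.lf (nat_lit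 57836) (nat_lit 6) (nat_lit 761) (nat_lit 4) (nat_lit 255) (nat_lit 266) (nat_lit 259)))) (PT.nd (nat_lit 156) (PT.nd (nat_lit 78) (PT.lf (nat_lit 57760) (nat_lit 6) (nat_lit 760) (nat_lit 4) (nat_lit 256) (nat_lit 266) (nat_lit 258)) (PT.lf (nat_lit 57684) (nat_lit 3) (nat_lit 759) (nat_lit 2) (nat_lit 257) (nat_lit 266) (nat_lit 257))) (PT.nd (nat_lit 78) (PT.lf (nat_lit 57760) (nat_lit 6) (nat_lit 760) (nat_lit 2) (nat_lit 258) (nat_lit 266) (nat_lit 256)) (PT.lf (nat_lit 57836) (nat_lit 6) (nat_lit 761) (nat_lit 2) (nat_lit 259) (nat_lit 266) (nat_lit 255))))) (PT.nd (nat_lit 234) (PT.nd (nat_lit 78) (PT.lf (nat_lit 57912) (nat_lit 6) (nat_lit 762) (nat_lit 2) (nat_lit 260) (nat_lit 266) (nat_lit 254)) (PT.nd (nat_lit 78) (PT.lf (nat_lit 57456) (nat_lit 6) (nat_lit 756) (nat_lit 2) (nat_lit 261) (nat_lit 266) (nat_lit 253)) (PT.lf (nat_lit 56924) (nat_lit 6) (nat_lit 749) (nat_lit 2) (nat_lit 262) (nat_lit 266) (nat_lit 252)))) (PT.nd (nat_lit 156) (PT.nd (nat_lit 78) (PT.lf (nat_lit 56316) (nat_lit 6) (nat_lit 741) (nat_lit 2) (nat_lit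 263) (nat_lit 266) (nat_lit 251)) (PT.lf (nat_lit 55632) (nat_lit 6) (nat_lit 732) (nat_lit 2) (nat_lit 264) (nat_lit 266) (nat_lit 250))) (PT.nd (nat_lit 78) (PT.lf (nat_lit 54872) (nat_lit 6) (nat_lit 722) (nat_lit 2) (nat_lit 265) (nat_lit 266) (nat_lit 249)) (PT.lf (nat_lit 54036) (nat_lit 3) (nat_lit 711) (nat_lit 0) (nat_lit 266) (nat_lit 266) (nat_lit 248))))))) (PT.nd (nat_lit 1092) (PT.nd (nat_lit 546) (PT.nd (nat_lit 234) (PT.nd (nat_lit 78) (PT.lf (nat_lit 53048) (nat_lit 6) (nat_lit 698) (nat_lit 0) (nat_lit 267) (nat_lit 266) (nat_lit 247)) (PT.nd (nat_lit 78) (PT.lf (nat_lit 51984) (nat_lit 6) (nat_lit 684) (nat_lit 0) (nat_lit 268) (nat_lit 266) (nat_lit 246)) (PT.lf (nat_lit 50844) (nat_lit 6) (nat_lit 669) (nat_lit 0) (nat_lit 269) (nat_lit 266) (nat_lit 245)))) (PT.nd (nat_lit 156) (PT.nd (nat_lit 78) (PT.lf (nat_lit 49628) (nat_lit 6) (nat_lit 653) (nat_lit 0) (nat_lit 270) (nat_lit 266) (nat_lit 244)) (PT.lf (nat_lit 48336) (nat_lit 6) (nat_lit 636) (nat_lit 0) (nat_lit 271) (nat_lit 266) (nat_lit 243))) (PT.nd (nat_lit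 78) (PT.lf (nat_lit 46968) (nat_lit 6) (nat_lit 618) (nat_lit 0) (nat_lit 272) (nat_lit 266) (nat_lit 242)) (PT.lf (nat_lit 45524) (nat_lit 6) (nat_lit 599) (nat_lit 0) (nat_lit 273) (nat_lit 266) (nat_lit 241))))) (PT.nd (nat_lit 234) (PT.nd (nat_lit 78) (PT.lf (nat_lit 44004) (nat_lit 6) (nat_lit 579) (nat_lit 0) (nat_lit 274) (nat_lit 266) (nat_lit 240)) (PT.nd (nat_lit 78) (PT.lf (nat_lit 42408) (nat_lit 6) (nat_lit 558) (nat_lit 0) (nat_lit 275) (nat_lit 266) (nat_lit 239)) (PT.lf (nat_lit 40736) (nat_lit 6) (nat_lit 536) (nat_lit 0) (nat_lit 276) (nat_lit 266) (nat_lit 238)))) (PT.nd (nat_lit 156) (PT.nd (nat_lit 78) (PT.lf (nat_lit 38988) (nat_lit 6) (nat_lit 513) (nat_lit 0) (nat_lit 277) (nat_lit 266) (nat_lit 237)) (PT.lf (nat_lit 37164) (nat_lit 6) (nat_lit 489) (nat_lit 0) (nat_lit 278) (nat_lit 266) (nat_lit 236))) (PT.nd (nat_lit 78) (PT.lf (nat_lit 35264) (nat_lit 6) (nat_lit 464) (nat_lit 0) (nat_lit 279) (nat_lit 266) (nat_lit 235)) (PT.lf (nat_lit 34124) (nat_lit 6) (nat_lit 449) (nat_lit 0) (nat_lit 280) (nat_lit 266)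 (nat_lit 234)))))) (PT.nd (nat_lit 77064) (PT.nd (nat_lit 234) (PT.nd (nat_lit 78) (PT.lf (nat_lit 33136) (nat_lit 6) (nat_lit 436) (nat_lit 0) (nat_lit 281) (nat_lit 266) (nat_lit 233)) (PT.nd (nat_lit 78) (PT.lf (nat_lit 32148) (nat_lit 6) (nat_lit 423) (nat_lit 0) (nat_lit 282) (nat_lit 266) (nat_lit 232)) (PT.lf (nat_lit 31236) (nat_lit 6) (nat_lit 411) (nat_lit 0) (nat_lit 283) (nat_lit 266) (nat_lit 231)))) (PT.nd (nat_lit 156) (PT.nd (nat_lit 78) (PT.lf (nat_lit 30324) (nat_lit 6) (nat_lit 399) (nat_lit 0) (nat_lit 284) (nat_lit 266) (nat_lit 230)) (PT.lf (nat_lit 29412) (nat_lit 6) (nat_lit 387) (nat_lit 0) (nat_lit 285) (nat_lit 266) (nat_lit 229))) (PT.nd (nat_lit 76596) (PT.lf (nat_lit 28500) (nat_lit 6) (nat_lit 375) (nat_lit 0) (nat_lit 286) (nat_lit 266) (nat_lit 228)) (PT.lf (nat_lit 27740) (nat_lit 6) (nat_lit 365) (nat_lit 5) (nat_lit 227) (nat_lit 267) (nat_lit 286))))) (PT.nd (nat_lit 312) (PT.nd (nat_lit 156) (PT.nd (nat_lit 78) (PT.lf (nat_lit 28576) (nat_lit 6) (nat_lit 376) (nat_lit 5) (nat_lit 228) (nat_lit 267) (nat_lit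 285)) (PT.lf (nat_lit 29488) (nat_lit 6) (nat_lit 388) (nat_lit 5) (nat_lit 229) (nat_lit 267) (nat_lit 284))) (PT.nd (nat_lit 78) (PT.lf (nat_lit 30400) (nat_lit 6) (nat_lit 400) (nat_lit 5) (nat_lit 230) (nat_lit 267) (nat_lit 283)) (PT.lf (nat_lit 31312) (nat_lit 6) (nat_lit 412) (nat_lit 5) (nat_lit 231) (nat_lit 267) (nat_lit 282)))) (PT.nd (nat_lit 156) (PT.nd (nat_lit 78) (PT.lf (nat_lit 32224) (nat_lit 6) (nat_lit 424) (nat_lit 5) (nat_lit 232) (nat_lit 267) (nat_lit 281)) (PT.lf (nat_lit 33212) (nat_lit 6) (nat_lit 437) (nat_lit 5) (nat_lit 233) (nat_lit 267) (nat_lit 280))) (PT.nd (nat_lit 78) (PT.lf (nat_lit 34200) (nat_lit 6) (nat_lit 450) (nat_lit 5) (nat_lit 234) (nat_lit 267) (nat_lit 279)) (PT.lf (nat_lit 35340) (nat_lit 6) (nat_lit 465) (nat_lit 5) (nat_lit 235) (nat_lit 267) (nat_lit 278))))))))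
noncomputable def pc33 : PT := (PT.nd (nat_lit 2262) (PT.nd (nat_lit 1092) (PT.nd (nat_lit 546) (PT.nd (nat_lit 234) (PT.nd (nat_lit 78) (PT.lf (nat_lit 37240) (nat_lit 6) (nat_lit 490) (nat_lit 5) (nat_lit 236) (nat_lit 267) (nat_lit 277)) (PT.nd (nat_lit 78) (PT.lf (nat_lit 39064) (nat_lit 6) (nat_lit 514) (nat_lit 5) (nat_lit 237) (nat_lit 267) (nat_lit 276)) (PT.lf (nat_lit 40812) (nat_lit 6) (nat_lit 537) (nat_lit 5) (nat_lit 238) (nat_lit 267) (nat_lit 275)))) (PT.nd (nat_lit 156) (PT.nd (nat_lit 78) (PT.lf (nat_lit 42484) (nat_lit 6) (nat_lit 559) (nat_lit 5) (nat_lit 239) (nat_lit 267) (nat_lit 274)) (PT.lf (nat_lit 44080) (nat_lit 6) (nat_lit 580) (nat_lit 5) (nat_lit 240) (nat_lit 267) (nat_lit 273))) (PT.nd (nat_lit 78) (PT.lf (nat_lit 45600) (nat_lit 6) (nat_lit 600) (nat_lit 5) (nat_lit 241) (nat_lit 267) (nat_lit 272)) (PT.lf (nat_lit 47044) (nat_lit 6) (nat_lit 619) (nat_lit 5) (nat_lit 242) (nat_lit 267) (nat_lit 271))))) (PT.nd (nat_lit 234) (PT.nd (nat_lit 78) (PT.lf (nat_lit 48412) (nat_lit 6) (nat_lit 637) (nat_lit 5)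 (nat_lit 243) (nat_lit 267) (nat_lit 270)) (PT.nd (nat_lit 78) (PT.lf (nat_lit 49704) (nat_lit 6) (nat_lit 654) (nat_lit 5) (nat_lit 244) (nat_lit 267) (nat_lit 269)) (PT.lf (nat_lit 50920) (nat_lit 6) (nat_lit 670) (nat_lit 5) (nat_lit 245) (nat_lit 267) (nat_lit 268)))) (PT.nd (nat_lit 156) (PT.nd (nat_lit 78) (PT.lf (nat_lit 52060) (nat_lit 3) (nat_lit 685) (nat_lit 4) (nat_lit 246) (nat_lit 267) (nat_lit 267)) (PT.lf (nat_lit 53048) (nat_lit 6) (nat_lit 698) (nat_lit 4) (nat_lit 247) (nat_lit 267) (nat_lit 266))) (PT.nd (nat_lit 78) (PT.lf (nat_lit 53960) (nat_lit 6) (nat_lit 710) (nat_lit 4) (nat_lit 248) (nat_lit 267) (nat_lit 265)) (PT.lf (nat_lit 54796) (nat_lit 6) (nat_lit 721) (nat_lit 4) (nat_lit 249) (nat_lit 267) (nat_lit 264)))))) (PT.nd (nat_lit 546) (PT.nd (nat_lit 234) (PT.nd (nat_lit 78) (PT.lf (nat_lit 55556) (nat_lit 6) (nat_lit 731) (nat_lit 4) (nat_lit 250) (nat_lit 267) (nat_lit 263)) (PT.nd (nat_lit 78) (PT.lf (nat_lit 56240) (nat_lit 6) (nat_lit 740) (nat_lit 4) (nat_lit 251) (nat_lit 267) (nat_lit 262)) (PT.lf (nat_lit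 56848) (nat_lit 6) (nat_lit 748) (nat_lit 4) (nat_lit 252) (nat_lit 267) (nat_lit 261)))) (PT.nd (nat_lit 156) (PT.nd (nat_lit 78) (PT.lf (nat_lit 57380) (nat_lit 6) (nat_lit 755) (nat_lit 4) (nat_lit 253) (nat_lit 267) (nat_lit 260)) (PT.lf (nat_lit 57304) (nat_lit 6) (nat_lit 754) (nat_lit 4) (nat_lit 254) (nat_lit 267) (nat_lit 259))) (PT.nd (nat_lit 78) (PT.lf (nat_lit 57228) (nat_lit 6) (nat_lit 753) (nat_lit 4) (nat_lit 255) (nat_lit 267) (nat_lit 258)) (PT.lf (nat_lit 57152) (nat_lit 6) (nat_lit 752) (nat_lit 4) (nat_lit 256) (nat_lit 267) (nat_lit 257))))) (PT.nd (nat_lit 312) (PT.nd (nat_lit 156) (PT.nd (nat_lit 78) (PT.lf (nat_lit 57152) (nat_lit 6) (nat_lit 752) (nat_lit 2) (nat_lit 257) (nat_lit 267) (nat_lit 256)) (PT.lf (nat_lit 57228) (nat_lit 6) (nat_lit 753) (nat_lit 2) (nat_lit 258) (nat_lit 267) (nat_lit 255))) (PT.nd (nat_lit 78) (PT.lf (nat_lit 57304) (nat_lit 6) (nat_lit 754) (nat_lit 2) (nat_lit 259) (nat_lit 267) (nat_lit 254)) (PT.lf (nat_lit 57380) (nat_lit 6) (nat_lit 755) (nat_lit 2) (nat_lit 260) (nat_lit 267)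 (nat_lit 253)))) (PT.nd (nat_lit 156) (PT.nd (nat_lit 78) (PT.lf (nat_lit 56848) (nat_lit 6) (nat_lit 748) (nat_lit 2) (nat_lit 261) (nat_lit 267) (nat_lit 252)) (PT.lf (nat_lit 56240) (nat_lit 6) (nat_lit 740) (nat_lit 2) (nat_lit 262) (nat_lit 267) (nat_lit 251))) (PT.nd (nat_lit 78) (PT.lf (nat_lit 55556) (nat_lit 6) (nat_lit 731) (nat_lit 2) (nat_lit 263) (nat_lit 267) (nat_lit 250)) (PT.lf (nat_lit 54796) (nat_lit 6) (nat_lit 721) (nat_lit 2) (nat_lit 264) (nat_lit 267) (nat_lit 249))))))) (PT.nd (nat_lit 1092) (PT.nd (nat_lit 546) (PT.nd (nat_lit 234) (PT.nd (nat_lit 78) (PT.lf (nat_lit 53960) (nat_lit 6) (nat_lit 710) (nat_lit 2) (nat_lit 265) (nat_lit 267) (nat_lit 248)) (PT.nd (nat_lit 78) (PT.lf (nat_lit 53048) (nat_lit 6) (nat_lit 698) (nat_lit 2) (nat_lit 266) (nat_lit 267) (nat_lit 247)) (PT.lf (nat_lit 52060) (nat_lit 3) (nat_lit 685) (nat_lit 0) (nat_lit 267) (nat_lit 267) (nat_lit 246)))) (PT.nd (nat_lit 156) (PT.nd (nat_lit 78) (PT.lf (nat_lit 50920) (nat_lit 6) (nat_lit 670) (nat_lit 0) (nat_lit 268) (nat_lit 267) (nat_lit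 245)) (PT.lf (nat_lit 49704) (nat_lit 6) (nat_lit 654) (nat_lit 0) (nat_lit 269) (nat_lit 267) (nat_lit 244))) (PT.nd (nat_lit 78) (PT.lf (nat_lit 48412) (nat_lit 6) (nat_lit 637) (nat_lit 0) (nat_lit 270) (nat_lit 267) (nat_lit 243)) (PT.lf (nat_lit 47044) (nat_lit 6) (nat_lit 619) (nat_lit 0) (nat_lit 271) (nat_lit 267) (nat_lit 242))))) (PT.nd (nat_lit 234) (PT.nd (nat_lit 78) (PT.lf (nat_lit 45600) (nat_lit 6) (nat_lit 600) (nat_lit 0) (nat_lit 272) (nat_lit 267) (nat_lit 241)) (PT.nd (nat_lit 78) (PT.lf (nat_lit 44080) (nat_lit 6) (nat_lit 580) (nat_lit 0) (nat_lit 273) (nat_lit 267) (nat_lit 240)) (PT.lf (nat_lit 42484) (nat_lit 6) (nat_lit 559) (nat_lit 0) (nat_lit 274) (nat_lit 267) (nat_lit 239)))) (PT.nd (nat_lit 156) (PT.nd (nat_lit 78) (PT.lf (nat_lit 40812) (nat_lit 6) (nat_lit 537) (nat_lit 0) (nat_lit 275) (nat_lit 267) (nat_lit 238)) (PT.lf (nat_lit 39064) (nat_lit 6) (nat_lit 514) (nat_lit 0) (nat_lit 276) (nat_lit 267) (nat_lit 237))) (PT.nd (nat_lit 78) (PT.lf (nat_lit 37240) (nat_lit 6) (nat_lit 490) (nat_lit 0) (nat_lit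 277) (nat_lit 267) (nat_lit 236)) (PT.lf (nat_lit 35340) (nat_lit 6) (nat_lit 465) (nat_lit 0) (nat_lit 278) (nat_lit 267) (nat_lit 235)))))) (PT.nd (nat_lit 546) (PT.nd (nat_lit 234) (PT.nd (nat_lit 78) (PT.lf (nat_lit 34200) (nat_lit 6) (nat_lit 450) (nat_lit 0) (nat_lit 279) (nat_lit 267) (nat_lit 234)) (PT.nd (nat_lit 78) (PT.lf (nat_lit 33212) (nat_lit 6) (nat_lit 437) (nat_lit 0) (nat_lit 280) (nat_lit 267) (nat_lit 233)) (PT.lf (nat_lit 32224) (nat_lit 6) (nat_lit 424) (nat_lit 0) (nat_lit 281) (nat_lit 267) (nat_lit 232)))) (PT.nd (nat_lit 156) (PT.nd (nat_lit 78) (PT.lf (nat_lit 31312) (nat_lit 6) (nat_lit 412) (nat_lit 0) (nat_lit 282) (nat_lit 267) (nat_lit 231)) (PT.lf (nat_lit 30400) (nat_lit 6) (nat_lit 400) (nat_lit 0) (nat_lit 283) (nat_lit 267) (nat_lit 230))) (PT.nd (nat_lit 78) (PT.lf (nat_lit 29488) (nat_lit 6) (nat_lit 388) (nat_lit 0) (nat_lit 284) (nat_lit 267) (nat_lit 229)) (PT.lf (nat_lit 28576) (nat_lit 6) (nat_lit 376) (nat_lit 0) (nat_lit 285) (nat_lit 267) (nat_lit 228))))) (PT.nd (nat_lit 76674) (PT.nd (nat_lit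 76518) (PT.nd (nat_lit 76440) (PT.lf (nat_lit 27740) (nat_lit 6) (nat_lit 365) (nat_lit 0) (nat_lit 286) (nat_lit 267) (nat_lit 227)) (PT.lf (nat_lit 26220) (nat_lit 6) (nat_lit 345) (nat_lit 5) (nat_lit 225) (nat_lit 268) (nat_lit 287))) (PT.nd (nat_lit 78) (PT.lf (nat_lit 26980) (nat_lit 6) (nat_lit 355) (nat_lit 5) (nat_lit 226) (nat_lit 268) (nat_lit 286)) (PT.lf (nat_lit 27816) (nat_lit 6) (nat_lit 366) (nat_lit 5) (nat_lit 227) (nat_lit 268) (nat_lit 285)))) (PT.nd (nat_lit 156) (PT.nd (nat_lit 78) (PT.lf (nat_lit 28652) (nat_lit 6) (nat_lit 377) (nat_lit 5) (nat_lit 228) (nat_lit 268) (nat_lit 284)) (PT.lf (nat_lit 29564) (nat_lit 6) (nat_lit 389) (nat_lit 5) (nat_lit 229) (nat_lit 268) (nat_lit 283))) (PT.nd (nat_lit 78) (PT.lf (nat_lit 30476) (nat_lit 6) (nat_lit 401) (nat_lit 5) (nat_lit 230) (nat_lit 268) (nat_lit 282)) (PT.lf (nat_lit 31388) (nat_lit 6) (nat_lit 413) (nat_lit 5) (nat_lit 231) (nat_lit 268) (nat_lit 281))))))))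
noncomputable def pc34 : PT := (PT.nd (nat_lit 2184) (PT.nd (nat_lit 1092) (PT.nd (nat_lit 546) (PT.nd (nat_lit 234) (PT.nd (nat_lit 78) (PT.lf (nat_lit 32300) (nat_lit 6) (nat_lit 425) (nat_lit 5) (nat_lit 232) (nat_lit 268) (nat_lit 280)) (PT.nd (nat_lit 78) (PT.lf (nat_lit 33288) (nat_lit 6) (nat_lit 438) (nat_lit 5) (nat_lit 233) (nat_lit 268) (nat_lit 279)) (PT.lf (nat_lit 34276) (nat_lit 6) (nat_lit 451) (nat_lit 5) (nat_lit 234) (nat_lit 268) (nat_lit 278)))) (PT.nd (nat_lit 156) (PT.nd (nat_lit 78) (PT.lf (nat_lit 35416) (nat_lit 6) (nat_lit 466) (nat_lit 5) (nat_lit 235) (nat_lit 268) (nat_lit 277)) (PT.lf (nat_lit 37316) (nat_lit 6) (nat_lit 491) (nat_lit 5) (nat_lit 236) (nat_lit 268) (nat_lit 276))) (PT.nd (nat_lit 78) (PT.lf (nat_lit 39140) (nat_lit 6) (nat_lit 515) (nat_lit 5) (nat_lit 237) (nat_lit 268) (nat_lit 275)) (PT.lf (nat_lit 40888) (nat_lit 6) (nat_lit 538) (nat_lit 5) (nat_lit 238) (nat_lit 268) (nat_lit 274))))) (PT.nd (nat_lit 234) (PT.nd (nat_lit 78) (PT.lf (nat_lit 42560) (nat_lit 6) (nat_lit 560) (nat_lit 5)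 (nat_lit 239) (nat_lit 268) (nat_lit 273)) (PT.nd (nat_lit 78) (PT.lf (nat_lit 44156) (nat_lit 6) (nat_lit 581) (nat_lit 5) (nat_lit 240) (nat_lit 268) (nat_lit 272)) (PT.lf (nat_lit 45676) (nat_lit 6) (nat_lit 601) (nat_lit 5) (nat_lit 241) (nat_lit 268) (nat_lit 271)))) (PT.nd (nat_lit 156) (PT.nd (nat_lit 78) (PT.lf (nat_lit 47120) (nat_lit 6) (nat_lit 620) (nat_lit 5) (nat_lit 242) (nat_lit 268) (nat_lit 270)) (PT.lf (nat_lit 48488) (nat_lit 6) (nat_lit 638) (nat_lit 5) (nat_lit 243) (nat_lit 268) (nat_lit 269))) (PT.nd (nat_lit 78) (PT.lf (nat_lit 49780) (nat_lit 3) (nat_lit 655) (nat_lit 4) (nat_lit 244) (nat_lit 268) (nat_lit 268)) (PT.lf (nat_lit 50920) (nat_lit 6) (nat_lit 670) (nat_lit 4) (nat_lit 245) (nat_lit 268) (nat_lit 267)))))) (PT.nd (nat_lit 546) (PT.nd (nat_lit 234) (PT.nd (nat_lit 78) (PT.lf (nat_lit 51984) (nat_lit 6) (nat_lit 684) (nat_lit 4) (nat_lit 246) (nat_lit 268) (nat_lit 266)) (PT.nd (nat_lit 78) (PT.lf (nat_lit 52972) (nat_lit 6) (nat_lit 697) (nat_lit 4) (nat_lit 247) (nat_lit 268) (nat_lit 265)) (PT.lf (nat_lit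 53884) (nat_lit 6) (nat_lit 709) (nat_lit 4) (nat_lit 248) (nat_lit 268) (nat_lit 264)))) (PT.nd (nat_lit 156) (PT.nd (nat_lit 78) (PT.lf (nat_lit 54720) (nat_lit 6) (nat_lit 720) (nat_lit 4) (nat_lit 249) (nat_lit 268) (nat_lit 263)) (PT.lf (nat_lit 55480) (nat_lit 6) (nat_lit 730) (nat_lit 4) (nat_lit 250) (nat_lit 268) (nat_lit 262))) (PT.nd (nat_lit 78) (PT.lf (nat_lit 56164) (nat_lit 6) (nat_lit 739) (nat_lit 4) (nat_lit 251) (nat_lit 268) (nat_lit 261)) (PT.lf (nat_lit 56772) (nat_lit 6) (nat_lit 747) (nat_lit 4) (nat_lit 252) (nat_lit 268) (nat_lit 260))))) (PT.nd (nat_lit 234) (PT.nd (nat_lit 78) (PT.lf (nat_lit 56696) (nat_lit 6) (nat_lit 746) (nat_lit 4) (nat_lit 253) (nat_lit 268) (nat_lit 259)) (PT.nd (nat_lit 78) (PT.lf (nat_lit 56620) (nat_lit 6) (nat_lit 745) (nat_lit 4) (nat_lit 254) (nat_lit 268) (nat_lit 258)) (PT.lf (nat_lit 56544) (nat_lit 6) (nat_lit 744) (nat_lit 4) (nat_lit 255) (nat_lit 268) (nat_lit 257)))) (PT.nd (nat_lit 156) (PT.nd (nat_lit 78) (PT.lf (nat_lit 56468) (nat_lit 3) (nat_lit 743) (nat_lit 2) (nat_lit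 256) (nat_lit 268) (nat_lit 256)) (PT.lf (nat_lit 56544) (nat_lit 6) (nat_lit 744) (nat_lit 2) (nat_lit 257) (nat_lit 268) (nat_lit 255))) (PT.nd (nat_lit 78) (PT.lf (nat_lit 56620) (nat_lit 6) (nat_lit 745) (nat_lit 2) (nat_lit 258) (nat_lit 268) (nat_lit 254)) (PT.lf (nat_lit 56696) (nat_lit 6) (nat_lit 746) (nat_lit 2) (nat_lit 259) (nat_lit 268) (nat_lit 253))))))) (PT.nd (nat_lit 1092) (PT.nd (nat_lit 546) (PT.nd (nat_lit 234) (PT.nd (nat_lit 78) (PT.lf (nat_lit 56772) (nat_lit 6) (nat_lit 747) (nat_lit 2) (nat_lit 260) (nat_lit 268) (nat_lit 252)) (PT.nd (nat_lit 78) (PT.lf (nat_lit 56164) (nat_lit 6) (nat_lit 739) (nat_lit 2) (nat_lit 261) (nat_lit 268) (nat_lit 251)) (PT.lf (nat_lit 55480) (nat_lit 6) (nat_lit 730) (nat_lit 2) (nat_lit 262) (nat_lit 268) (nat_lit 250)))) (PT.nd (nat_lit 156) (PT.nd (nat_lit 78) (PT.lf (nat_lit 54720) (nat_lit 6) (nat_lit 720) (nat_lit 2) (nat_lit 263) (nat_lit 268) (nat_lit 249)) (PT.lf (nat_lit 53884) (nat_lit 6) (nat_lit 709) (nat_lit 2) (nat_lit 264) (nat_lit 268) (nat_lit 248))) (PT.nd (nat_lit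 78) (PT.lf (nat_lit 52972) (nat_lit 6) (nat_lit 697) (nat_lit 2) (nat_lit 265) (nat_lit 268) (nat_lit 247)) (PT.lf (nat_lit 51984) (nat_lit 6) (nat_lit 684) (nat_lit 2) (nat_lit 266) (nat_lit 268) (nat_lit 246))))) (PT.nd (nat_lit 234) (PT.nd (nat_lit 78) (PT.lf (nat_lit 50920) (nat_lit 6) (nat_lit 670) (nat_lit 2) (nat_lit 267) (nat_lit 268) (nat_lit 245)) (PT.nd (nat_lit 78) (PT.lf (nat_lit 49780) (nat_lit 3) (nat_lit 655) (nat_lit 0) (nat_lit 268) (nat_lit 268) (nat_lit 244)) (PT.lf (nat_lit 48488) (nat_lit 6) (nat_lit 638) (nat_lit 0) (nat_lit 269) (nat_lit 268) (nat_lit 243)))) (PT.nd (nat_lit 156) (PT.nd (nat_lit 78) (PT.lf (nat_lit 47120) (nat_lit 6) (nat_lit 620) (nat_lit 0) (nat_lit 270) (nat_lit 268) (nat_lit 242)) (PT.lf (nat_lit 45676) (nat_lit 6) (nat_lit 601) (nat_lit 0) (nat_lit 271) (nat_lit 268) (nat_lit 241))) (PT.nd (nat_lit 78) (PT.lf (nat_lit 44156) (nat_lit 6) (nat_lit 581) (nat_lit 0) (nat_lit 272) (nat_lit 268) (nat_lit 240)) (PT.lf (nat_lit 42560) (nat_lit 6) (nat_lit 560) (nat_lit 0) (nat_lit 273) (nat_lit 268)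 (nat_lit 239)))))) (PT.nd (nat_lit 546) (PT.nd (nat_lit 234) (PT.nd (nat_lit 78) (PT.lf (nat_lit 40888) (nat_lit 6) (nat_lit 538) (nat_lit 0) (nat_lit 274) (nat_lit 268) (nat_lit 238)) (PT.nd (nat_lit 78) (PT.lf (nat_lit 39140) (nat_lit 6) (nat_lit 515) (nat_lit 0) (nat_lit 275) (nat_lit 268) (nat_lit 237)) (PT.lf (nat_lit 37316) (nat_lit 6) (nat_lit 491) (nat_lit 0) (nat_lit 276) (nat_lit 268) (nat_lit 236)))) (PT.nd (nat_lit 156) (PT.nd (nat_lit 78) (PT.lf (nat_lit 35416) (nat_lit 6) (nat_lit 466) (nat_lit 0) (nat_lit 277) (nat_lit 268) (nat_lit 235)) (PT.lf (nat_lit 34276) (nat_lit 6) (nat_lit 451) (nat_lit 0) (nat_lit 278) (nat_lit 268) (nat_lit 234))) (PT.nd (nat_lit 78) (PT.lf (nat_lit 33288) (nat_lit 6) (nat_lit 438) (nat_lit 0) (nat_lit 279) (nat_lit 268) (nat_lit 233)) (PT.lf (nat_lit 32300) (nat_lit 6) (nat_lit 425) (nat_lit 0) (nat_lit 280) (nat_lit 268) (nat_lit 232))))) (PT.nd (nat_lit 312) (PT.nd (nat_lit 156) (PT.nd (nat_lit 78) (PT.lf (nat_lit 31388) (nat_lit 6) (nat_lit 413) (nat_lit 0) (nat_lit 281) (nat_lit 268) (nat_lit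 231)) (PT.lf (nat_lit 30476) (nat_lit 6) (nat_lit 401) (nat_lit 0) (nat_lit 282) (nat_lit 268) (nat_lit 230))) (PT.nd (nat_lit 78) (PT.lf (nat_lit 29564) (nat_lit 6) (nat_lit 389) (nat_lit 0) (nat_lit 283) (nat_lit 268) (nat_lit 229)) (PT.lf (nat_lit 28652) (nat_lit 6) (nat_lit 377) (nat_lit 0) (nat_lit 284) (nat_lit 268) (nat_lit 228)))) (PT.nd (nat_lit 156) (PT.nd (nat_lit 78) (PT.lf (nat_lit 27816) (nat_lit 6) (nat_lit 366) (nat_lit 0) (nat_lit 285) (nat_lit 268) (nat_lit 227)) (PT.lf (nat_lit 26980) (nat_lit 6) (nat_lit 355) (nat_lit 0) (nat_lit 286) (nat_lit 268) (nat_lit 226))) (PT.nd (nat_lit 76284) (PT.lf (nat_lit 26220) (nat_lit 6) (nat_lit 345) (nat_lit 0) (nat_lit 287) (nat_lit 268) (nat_lit 225)) (PT.lf (nat_lit 25460) (nat_lit 6) (nat_lit 335) (nat_lit 5) (nat_lit 224) (nat_lit 269) (nat_lit 287))))))))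
noncomputable def pc35 : PT := (PT.nd (nat_lit 2262) (PT.nd (nat_lit 1092) (PT.nd (nat_lit 546) (PT.nd (nat_lit 234) (PT.nd (nat_lit 78) (PT.lf (nat_lit 26296) (nat_lit 6) (nat_lit 346) (nat_lit 5) (nat_lit 225) (nat_lit 269) (nat_lit 286)) (PT.nd (nat_lit 78) (PT.lf (nat_lit 27056) (nat_lit 6) (nat_lit 356) (nat_lit 5) (nat_lit 226) (nat_lit 269) (nat_lit 285)) (PT.lf (nat_lit 27892) (nat_lit 6) (nat_lit 367) (nat_lit 5) (nat_lit 227) (nat_lit 269) (nat_lit 284)))) (PT.nd (nat_lit 156) (PT.nd (nat_lit 78) (PT.lf (nat_lit 28728) (nat_lit 6) (nat_lit 378) (nat_lit 5) (nat_lit 228) (nat_lit 269) (nat_lit 283)) (PT.lf (nat_lit 29640) (nat_lit 6) (nat_lit 390) (nat_lit 5) (nat_lit 229) (nat_lit 269) (nat_lit 282))) (PT.nd (nat_lit 78) (PT.lf (nat_lit 30552) (nat_lit 6) (nat_lit 402) (nat_lit 5) (nat_lit 230) (nat_lit 269) (nat_lit 281)) (PT.lf (nat_lit 31464) (nat_lit 6) (nat_lit 414) (nat_lit 5) (nat_lit 231) (nat_lit 269) (nat_lit 280))))) (PT.nd (nat_lit 234) (PT.nd (nat_lit 78) (PT.lf (nat_lit 32376) (nat_lit 6) (nat_lit 426) (nat_lit 5)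 (nat_lit 232) (nat_lit 269) (nat_lit 279)) (PT.nd (nat_lit 78) (PT.lf (nat_lit 33364) (nat_lit 6) (nat_lit 439) (nat_lit 5) (nat_lit 233) (nat_lit 269) (nat_lit 278)) (PT.lf (nat_lit 34352) (nat_lit 6) (nat_lit 452) (nat_lit 5) (nat_lit 234) (nat_lit 269) (nat_lit 277)))) (PT.nd (nat_lit 156) (PT.nd (nat_lit 78) (PT.lf (nat_lit 35492) (nat_lit 6) (nat_lit 467) (nat_lit 5) (nat_lit 235) (nat_lit 269) (nat_lit 276)) (PT.lf (nat_lit 37392) (nat_lit 6) (nat_lit 492) (nat_lit 5) (nat_lit 236) (nat_lit 269) (nat_lit 275))) (PT.nd (nat_lit 78) (PT.lf (nat_lit 39216) (nat_lit 6) (nat_lit 516) (nat_lit 5) (nat_lit 237) (nat_lit 269) (nat_lit 274)) (PT.lf (nat_lit 40964) (nat_lit 6) (nat_lit 539) (nat_lit 5) (nat_lit 238) (nat_lit 269) (nat_lit 273)))))) (PT.nd (nat_lit 546) (PT.nd (nat_lit 234) (PT.nd (nat_lit 78) (PT.lf (nat_lit 42636) (nat_lit 6) (nat_lit 561) (nat_lit 5) (nat_lit 239) (nat_lit 269) (nat_lit 272)) (PT.nd (nat_lit 78) (PT.lf (nat_lit 44232) (nat_lit 6) (nat_lit 582) (nat_lit 5) (nat_lit 240) (nat_lit 269) (nat_lit 271)) (PT.lf (nat_lit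 45752) (nat_lit 6) (nat_lit 602) (nat_lit 5) (nat_lit 241) (nat_lit 269) (nat_lit 270)))) (PT.nd (nat_lit 156) (PT.nd (nat_lit 78) (PT.lf (nat_lit 47196) (nat_lit 3) (nat_lit 621) (nat_lit 4) (nat_lit 242) (nat_lit 269) (nat_lit 269)) (PT.lf (nat_lit 48488) (nat_lit 6) (nat_lit 638) (nat_lit 4) (nat_lit 243) (nat_lit 269) (nat_lit 268))) (PT.nd (nat_lit 78) (PT.lf (nat_lit 49704) (nat_lit 6) (nat_lit 654) (nat_lit 4) (nat_lit 244) (nat_lit 269) (nat_lit 267)) (PT.lf (nat_lit 50844) (nat_lit 6) (nat_lit 669) (nat_lit 4) (nat_lit 245) (nat_lit 269) (nat_lit 266))))) (PT.nd (nat_lit 312) (PT.nd (nat_lit 156) (PT.nd (nat_lit 78) (PT.lf (nat_lit 51908) (nat_lit 6) (nat_lit 683) (nat_lit 4) (nat_lit 246) (nat_lit 269) (nat_lit 265)) (PT.lf (nat_lit 52896) (nat_lit 6) (nat_lit 696) (nat_lit 4) (nat_lit 247) (nat_lit 269) (nat_lit 264))) (PT.nd (nat_lit 78) (PT.lf (nat_lit 53808) (nat_lit 6) (nat_lit 708) (nat_lit 4) (nat_lit 248) (nat_lit 269) (nat_lit 263)) (PT.lf (nat_lit 54644) (nat_lit 6) (nat_lit 719) (nat_lit 4) (nat_lit 249) (nat_lit 269)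 (nat_lit 262)))) (PT.nd (nat_lit 156) (PT.nd (nat_lit 78) (PT.lf (nat_lit 55404) (nat_lit 6) (nat_lit 729) (nat_lit 4) (nat_lit 250) (nat_lit 269) (nat_lit 261)) (PT.lf (nat_lit 56088) (nat_lit 6) (nat_lit 738) (nat_lit 4) (nat_lit 251) (nat_lit 269) (nat_lit 260))) (PT.nd (nat_lit 78) (PT.lf (nat_lit 56012) (nat_lit 6) (nat_lit 737) (nat_lit 4) (nat_lit 252) (nat_lit 269) (nat_lit 259)) (PT.lf (nat_lit 55936) (nat_lit 6) (nat_lit 736) (nat_lit 4) (nat_lit 253) (nat_lit 269) (nat_lit 258))))))) (PT.nd (nat_lit 1092) (PT.nd (nat_lit 546) (PT.nd (nat_lit 234) (PT.nd (nat_lit 78) (PT.lf (nat_lit 55860) (nat_lit 6) (nat_lit 735) (nat_lit 4) (nat_lit 254) (nat_lit 269) (nat_lit 257)) (PT.nd (nat_lit 78) (PT.lf (nat_lit 55784) (nat_lit 6) (nat_lit 734) (nat_lit 4) (nat_lit 255) (nat_lit 269) (nat_lit 256)) (PT.lf (nat_lit 55784) (nat_lit 6) (nat_lit 734) (nat_lit 2) (nat_lit 256) (nat_lit 269) (nat_lit 255)))) (PT.nd (nat_lit 156) (PT.nd (nat_lit 78) (PT.lf (nat_lit 55860) (nat_lit 6) (nat_lit 735) (nat_lit 2) (nat_lit 257) (nat_lit 269) (nat_lit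 254)) (PT.lf (nat_lit 55936) (nat_lit 6) (nat_lit 736) (nat_lit 2) (nat_lit 258) (nat_lit 269) (nat_lit 253))) (PT.nd (nat_lit 78) (PT.lf (nat_lit 56012) (nat_lit 6) (nat_lit 737) (nat_lit 2) (nat_lit 259) (nat_lit 269) (nat_lit 252)) (PT.lf (nat_lit 56088) (nat_lit 6) (nat_lit 738) (nat_lit 2) (nat_lit 260) (nat_lit 269) (nat_lit 251))))) (PT.nd (nat_lit 234) (PT.nd (nat_lit 78) (PT.lf (nat_lit 55404) (nat_lit 6) (nat_lit 729) (nat_lit 2) (nat_lit 261) (nat_lit 269) (nat_lit 250)) (PT.nd (nat_lit 78) (PT.lf (nat_lit 54644) (nat_lit 6) (nat_lit 719) (nat_lit 2) (nat_lit 262) (nat_lit 269) (nat_lit 249)) (PT.lf (nat_lit 53808) (nat_lit 6) (nat_lit 708) (nat_lit 2) (nat_lit 263) (nat_lit 269) (nat_lit 248)))) (PT.nd (nat_lit 156) (PT.nd (nat_lit 78) (PT.lf (nat_lit 52896) (nat_lit 6) (nat_lit 696) (nat_lit 2) (nat_lit 264) (nat_lit 269) (nat_lit 247)) (PT.lf (nat_lit 51908) (nat_lit 6) (nat_lit 683) (nat_lit 2) (nat_lit 265) (nat_lit 269) (nat_lit 246))) (PT.nd (nat_lit 78) (PT.lf (nat_lit 50844) (nat_lit 6) (nat_lit 669) (nat_lit 2) (nat_lit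 266) (nat_lit 269) (nat_lit 245)) (PT.lf (nat_lit 49704) (nat_lit 6) (nat_lit 654) (nat_lit 2) (nat_lit 267) (nat_lit 269) (nat_lit 244)))))) (PT.nd (nat_lit 546) (PT.nd (nat_lit 234) (PT.nd (nat_lit 78) (PT.lf (nat_lit 48488) (nat_lit 6) (nat_lit 638) (nat_lit 2) (nat_lit 268) (nat_lit 269) (nat_lit 243)) (PT.nd (nat_lit 78) (PT.lf (nat_lit 47196) (nat_lit 3) (nat_lit 621) (nat_lit 0) (nat_lit 269) (nat_lit 269) (nat_lit 242)) (PT.lf (nat_lit 45752) (nat_lit 6) (nat_lit 602) (nat_lit 0) (nat_lit 270) (nat_lit 269) (nat_lit 241)))) (PT.nd (nat_lit 156) (PT.nd (nat_lit 78) (PT.lf (nat_lit 44232) (nat_lit 6) (nat_lit 582) (nat_lit 0) (nat_lit 271) (nat_lit 269) (nat_lit 240)) (PT.lf (nat_lit 42636) (nat_lit 6) (nat_lit 561) (nat_lit 0) (nat_lit 272) (nat_lit 269) (nat_lit 239))) (PT.nd (nat_lit 78) (PT.lf (nat_lit 40964) (nat_lit 6) (nat_lit 539) (nat_lit 0) (nat_lit 273) (nat_lit 269) (nat_lit 238)) (PT.lf (nat_lit 39216) (nat_lit 6) (nat_lit 516) (nat_lit 0) (nat_lit 274) (nat_lit 269) (nat_lit 237))))) (PT.nd (nat_lit 312) (PT.nd (nat_lit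 156) (PT.nd (nat_lit 78) (PT.lf (nat_lit 37392) (nat_lit 6) (nat_lit 492) (nat_lit 0) (nat_lit 275) (nat_lit 269) (nat_lit 236)) (PT.lf (nat_lit 35492) (nat_lit 6) (nat_lit 467) (nat_lit 0) (nat_lit 276) (nat_lit 269) (nat_lit 235))) (PT.nd (nat_lit 78) (PT.lf (nat_lit 34352) (nat_lit 6) (nat_lit 452) (nat_lit 0) (nat_lit 277) (nat_lit 269) (nat_lit 234)) (PT.lf (nat_lit 33364) (nat_lit 6) (nat_lit 439) (nat_lit 0) (nat_lit 278) (nat_lit 269) (nat_lit 233)))) (PT.nd (nat_lit 156) (PT.nd (nat_lit 78) (PT.lf (nat_lit 32376) (nat_lit 6) (nat_lit 426) (nat_lit 0) (nat_lit 279) (nat_lit 269) (nat_lit 232)) (PT.lf (nat_lit 31464) (nat_lit 6) (nat_lit 414) (nat_lit 0) (nat_lit 280) (nat_lit 269) (nat_lit 231))) (PT.nd (nat_lit 78) (PT.lf (nat_lit 30552) (nat_lit 6) (nat_lit 402) (nat_lit 0) (nat_lit 281) (nat_lit 269) (nat_lit 230)) (PT.lf (nat_lit 29640) (nat_lit 6) (nat_lit 390) (nat_lit 0) (nat_lit 282) (nat_lit 269) (nat_lit 229))))))))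
noncomputable def pc36 : PT := (PT.nd (nat_lit 78312) (PT.nd (nat_lit 77220) (PT.nd (nat_lit 76674) (PT.nd (nat_lit 234) (PT.nd (nat_lit 78) (PT.lf (nat_lit 28728) (nat_lit 6) (nat_lit 378) (nat_lit 0) (nat_lit 283) (nat_lit 269) (nat_lit 228)) (PT.nd (nat_lit 78) (PT.lf (nat_lit 27892) (nat_lit 6) (nat_lit 367) (nat_lit 0) (nat_lit 284) (nat_lit 269) (nat_lit 227)) (PT.lf (nat_lit 27056) (nat_lit 6) (nat_lit 356) (nat_lit 0) (nat_lit 285) (nat_lit 269) (nat_lit 226)))) (PT.nd (nat_lit 76284) (PT.nd (nat_lit 78) (PT.lf (nat_lit 26296) (nat_lit 6) (nat_lit 346) (nat_lit 0) (nat_lit 286) (nat_lit 269) (nat_lit 225)) (PT.lf (nat_lit 25460) (nat_lit 6) (nat_lit 335) (nat_lit 0) (nat_lit 287) (nat_lit 269) (nat_lit 224))) (PT.nd (nat_lit 78) (PT.lf (nat_lit 24776) (nat_lit 6) (nat_lit 326) (nat_lit 5) (nat_lit 223) (nat_lit 270) (nat_lit 287)) (PT.lf (nat_lit 25536) (nat_lit 6) (nat_lit 336) (nat_lit 5) (nat_lit 224) (nat_lit 270) (nat_lit 286))))) (PT.nd (nat_lit 234) (PT.nd (nat_lit 78) (PT.lf (nat_lit 26372) (nat_lit 6) (nat_lit 347) (nat_lit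 5) (nat_lit 225) (nat_lit 270) (nat_lit 285)) (PT.nd (nat_lit 78) (PT.lf (nat_lit 27132) (nat_lit 6) (nat_lit 357) (nat_lit 5) (nat_lit 226) (nat_lit 270) (nat_lit 284)) (PT.lf (nat_lit 27968) (nat_lit 6) (nat_lit 368) (nat_lit 5) (nat_lit 227) (nat_lit 270) (nat_lit 283)))) (PT.nd (nat_lit 156) (PT.nd (nat_lit 78) (PT.lf (nat_lit 28804) (nat_lit 6) (nat_lit 379) (nat_lit 5) (nat_lit 228) (nat_lit 270) (nat_lit 282)) (PT.lf (nat_lit 29716) (nat_lit 6) (nat_lit 391) (nat_lit 5) (nat_lit 229) (nat_lit 270) (nat_lit 281))) (PT.nd (nat_lit 78) (PT.lf (nat_lit 30628) (nat_lit 6) (nat_lit 403) (nat_lit 5) (nat_lit 230) (nat_lit 270) (nat_lit 280)) (PT.lf (nat_lit 31540) (nat_lit 6) (nat_lit 415) (nat_lit 5) (nat_lit 231) (nat_lit 270) (nat_lit 279)))))) (PT.nd (nat_lit 546) (PT.nd (nat_lit 234) (PT.nd (nat_lit 78) (PT.lf (nat_lit 32452) (nat_lit 6) (nat_lit 427) (nat_lit 5) (nat_lit 232) (nat_lit 270) (nat_lit 278)) (PT.nd (nat_lit 78) (PT.lf (nat_lit 33440) (nat_lit 6) (nat_lit 440) (nat_lit 5) (nat_lit 233) (nat_lit 270) (nat_lit 277)) (PT.lf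 (nat_lit 34428) (nat_lit 6) (nat_lit 453) (nat_lit 5) (nat_lit 234) (nat_lit 270) (nat_lit 276)))) (PT.nd (nat_lit 156) (PT.nd (nat_lit 78) (PT.lf (nat_lit 35568) (nat_lit 6) (nat_lit 468) (nat_lit 5) (nat_lit 235) (nat_lit 270) (nat_lit 275)) (PT.lf (nat_lit 37468) (nat_lit 6) (nat_lit 493) (nat_lit 5) (nat_lit 236) (nat_lit 270) (nat_lit 274))) (PT.nd (nat_lit 78) (PT.lf (nat_lit 39292) (nat_lit 6) (nat_lit 517) (nat_lit 5) (nat_lit 237) (nat_lit 270) (nat_lit 273)) (PT.lf (nat_lit 41040) (nat_lit 6) (nat_lit 540) (nat_lit 5) (nat_lit 238) (nat_lit 270) (nat_lit 272))))) (PT.nd (nat_lit 234) (PT.nd (nat_lit 78) (PT.lf (nat_lit 42712) (nat_lit 6) (nat_lit 562) (nat_lit 5) (nat_lit 239) (nat_lit 270) (nat_lit 271)) (PT.nd (nat_lit 78) (PT.lf (nat_lit 44308) (nat_lit 3) (nat_lit 583) (nat_lit 4) (nat_lit 240) (nat_lit 270) (nat_lit 270)) (PT.lf (nat_lit 45752) (nat_lit 6) (nat_lit 602) (nat_lit 4) (nat_lit 241) (nat_lit 270) (nat_lit 269)))) (PT.nd (nat_lit 156) (PT.nd (nat_lit 78) (PT.lf (nat_lit 47120) (nat_lit 6) (nat_lit 620) (nat_lit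 4) (nat_lit 242) (nat_lit 270) (nat_lit 268)) (PT.lf (nat_lit 48412) (nat_lit 6) (nat_lit 637) (nat_lit 4) (nat_lit 243) (nat_lit 270) (nat_lit 267))) (PT.nd (nat_lit 78) (PT.lf (nat_lit 49628) (nat_lit 6) (nat_lit 653) (nat_lit 4) (nat_lit 244) (nat_lit 270) (nat_lit 266)) (PT.lf (nat_lit 50768) (nat_lit 6) (nat_lit 668) (nat_lit 4) (nat_lit 245) (nat_lit 270) (nat_lit 265))))))) (PT.nd (nat_lit 1092) (PT.nd (nat_lit 546) (PT.nd (nat_lit 234) (PT.nd (nat_lit 78) (PT.lf (nat_lit 51832) (nat_lit 6) (nat_lit 682) (nat_lit 4) (nat_lit 246) (nat_lit 270) (nat_lit 264)) (PT.nd (nat_lit 78) (PT.lf (nat_lit 52820) (nat_lit 6) (nat_lit 695) (nat_lit 4) (nat_lit 247) (nat_lit 270) (nat_lit 263)) (PT.lf (nat_lit 53732) (nat_lit 6) (nat_lit 707) (nat_lit 4) (nat_lit 248) (nat_lit 270) (nat_lit 262)))) (PT.nd (nat_lit 156) (PT.nd (nat_lit 78) (PT.lf (nat_lit 54568) (nat_lit 6) (nat_lit 718) (nat_lit 4) (nat_lit 249) (nat_lit 270) (nat_lit 261)) (PT.lf (nat_lit 55328) (nat_lit 6) (nat_lit 728) (nat_lit 4) (nat_lit 250) (nat_lit 270) (nat_lit 260))) (PT.nd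 (nat_lit 78) (PT.lf (nat_lit 55252) (nat_lit 6) (nat_lit 727) (nat_lit 4) (nat_lit 251) (nat_lit 270) (nat_lit 259)) (PT.lf (nat_lit 55176) (nat_lit 6) (nat_lit 726) (nat_lit 4) (nat_lit 252) (nat_lit 270) (nat_lit 258))))) (PT.nd (nat_lit 234) (PT.nd (nat_lit 78) (PT.lf (nat_lit 55100) (nat_lit 6) (nat_lit 725) (nat_lit 4) (nat_lit 253) (nat_lit 270) (nat_lit 257)) (PT.nd (nat_lit 78) (PT.lf (nat_lit 55024) (nat_lit 6) (nat_lit 724) (nat_lit 4) (nat_lit 254) (nat_lit 270) (nat_lit 256)) (PT.lf (nat_lit 54948) (nat_lit 3) (nat_lit 723) (nat_lit 2) (nat_lit 255) (nat_lit 270) (nat_lit 255)))) (PT.nd (nat_lit 156) (PT.nd (nat_lit 78) (PT.lf (nat_lit 55024) (nat_lit 6) (nat_lit 724) (nat_lit 2) (nat_lit 256) (nat_lit 270) (nat_lit 254)) (PT.lf (nat_lit 55100) (nat_lit 6) (nat_lit 725) (nat_lit 2) (nat_lit 257) (nat_lit 270) (nat_lit 253))) (PT.nd (nat_lit 78) (PT.lf (nat_lit 55176) (nat_lit 6) (nat_lit 726) (nat_lit 2) (nat_lit 258) (nat_lit 270) (nat_lit 252)) (PT.lf (nat_lit 55252) (nat_lit 6) (nat_lit 727) (nat_lit 2) (nat_lit 259) (nat_lit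 270) (nat_lit 251)))))) (PT.nd (nat_lit 546) (PT.nd (nat_lit 234) (PT.nd (nat_lit 78) (PT.lf (nat_lit 55328) (nat_lit 6) (nat_lit 728) (nat_lit 2) (nat_lit 260) (nat_lit 270) (nat_lit 250)) (PT.nd (nat_lit 78) (PT.lf (nat_lit 54568) (nat_lit 6) (nat_lit 718) (nat_lit 2) (nat_lit 261) (nat_lit 270) (nat_lit 249)) (PT.lf (nat_lit 53732) (nat_lit 6) (nat_lit 707) (nat_lit 2) (nat_lit 262) (nat_lit 270) (nat_lit 248)))) (PT.nd (nat_lit 156) (PT.nd (nat_lit 78) (PT.lf (nat_lit 52820) (nat_lit 6) (nat_lit 695) (nat_lit 2) (nat_lit 263) (nat_lit 270) (nat_lit 247)) (PT.lf (nat_lit 51832) (nat_lit 6) (nat_lit 682) (nat_lit 2) (nat_lit 264) (nat_lit 270) (nat_lit 246))) (PT.nd (nat_lit 78) (PT.lf (nat_lit 50768) (nat_lit 6) (nat_lit 668) (nat_lit 2) (nat_lit 265) (nat_lit 270) (nat_lit 245)) (PT.lf (nat_lit 49628) (nat_lit 6) (nat_lit 653) (nat_lit 2) (nat_lit 266) (nat_lit 270) (nat_lit 244))))) (PT.nd (nat_lit 312) (PT.nd (nat_lit 156) (PT.nd (nat_lit 78) (PT.lf (nat_lit 48412) (nat_lit 6) (nat_lit 637) (nat_lit 2) (nat_lit 267) (nat_lit 270) (nat_lit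 243)) (PT.lf (nat_lit 47120) (nat_lit 6) (nat_lit 620) (nat_lit 2) (nat_lit 268) (nat_lit 270) (nat_lit 242))) (PT.nd (nat_lit 78) (PT.lf (nat_lit 45752) (nat_lit 6) (nat_lit 602) (nat_lit 2) (nat_lit 269) (nat_lit 270) (nat_lit 241)) (PT.lf (nat_lit 44308) (nat_lit 3) (nat_lit 583) (nat_lit 0) (nat_lit 270) (nat_lit 270) (nat_lit 240)))) (PT.nd (nat_lit 156) (PT.nd (nat_lit 78) (PT.lf (nat_lit 42712) (nat_lit 6) (nat_lit 562) (nat_lit 0) (nat_lit 271) (nat_lit 270) (nat_lit 239)) (PT.lf (nat_lit 41040) (nat_lit 6) (nat_lit 540) (nat_lit 0) (nat_lit 272) (nat_lit 270) (nat_lit 238))) (PT.nd (nat_lit 78) (PT.lf (nat_lit 39292) (nat_lit 6) (nat_lit 517) (nat_lit 0) (nat_lit 273) (nat_lit 270) (nat_lit 237)) (PT.lf (nat_lit 37468) (nat_lit 6) (nat_lit 493) (nat_lit 0) (nat_lit 274) (nat_lit 270) (nat_lit 236))))))))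
noncomputable def pc37 : PT := (PT.nd (nat_lit 78234) (PT.nd (nat_lit 77064) (PT.nd (nat_lit 546) (PT.nd (nat_lit 234) (PT.nd (nat_lit 78) (PT.lf (nat_lit 35568) (nat_lit 6) (nat_lit 468) (nat_lit 0) (nat_lit 275) (nat_lit 270) (nat_lit 235)) (PT.nd (nat_lit 78) (PT.lf (nat_lit 34428) (nat_lit 6) (nat_lit 453) (nat_lit 0) (nat_lit 276) (nat_lit 270) (nat_lit 234)) (PT.lf (nat_lit 33440) (nat_lit 6) (nat_lit 440) (nat_lit 0) (nat_lit 277) (nat_lit 270) (nat_lit 233)))) (PT.nd (nat_lit 156) (PT.nd (nat_lit 78) (PT.lf (nat_lit 32452) (nat_lit 6) (nat_lit 427) (nat_lit 0) (nat_lit 278) (nat_lit 270) (nat_lit 232)) (PT.lf (nat_lit 31540) (nat_lit 6) (nat_lit 415) (nat_lit 0) (nat_lit 279) (nat_lit 270) (nat_lit 231))) (PT.nd (nat_lit 78) (PT.lf (nat_lit 30628) (nat_lit 6) (nat_lit 403) (nat_lit 0) (nat_lit 280) (nat_lit 270) (nat_lit 230)) (PT.lf (nat_lit 29716) (nat_lit 6) (nat_lit 391) (nat_lit 0) (nat_lit 281) (nat_lit 270) (nat_lit 229))))) (PT.nd (nat_lit 234) (PT.nd (nat_lit 78) (PT.lf (nat_lit 28804) (nat_lit 6) (nat_lit 379) (nat_lit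 0) (nat_lit 282) (nat_lit 270) (nat_lit 228)) (PT.nd (nat_lit 78) (PT.lf (nat_lit 27968) (nat_lit 6) (nat_lit 368) (nat_lit 0) (nat_lit 283) (nat_lit 270) (nat_lit 227)) (PT.lf (nat_lit 27132) (nat_lit 6) (nat_lit 357) (nat_lit 0) (nat_lit 284) (nat_lit 270) (nat_lit 226)))) (PT.nd (nat_lit 156) (PT.nd (nat_lit 78) (PT.lf (nat_lit 26372) (nat_lit 6) (nat_lit 347) (nat_lit 0) (nat_lit 285) (nat_lit 270) (nat_lit 225)) (PT.lf (nat_lit 25536) (nat_lit 6) (nat_lit 336) (nat_lit 0) (nat_lit 286) (nat_lit 270) (nat_lit 224))) (PT.nd (nat_lit 76050) (PT.lf (nat_lit 24776) (nat_lit 6) (nat_lit 326) (nat_lit 0) (nat_lit 287) (nat_lit 270) (nat_lit 223)) (PT.lf (nat_lit 23408) (nat_lit 6) (nat_lit 308) (nat_lit 5) (nat_lit 221) (nat_lit 271) (nat_lit 288)))))) (PT.nd (nat_lit 546) (PT.nd (nat_lit 234) (PT.nd (nat_lit 78) (PT.lf (nat_lit 24092) (nat_lit 6) (nat_lit 317) (nat_lit 5) (nat_lit 222) (nat_lit 271) (nat_lit 287)) (PT.nd (nat_lit 78) (PT.lf (nat_lit 24852) (nat_lit 6) (nat_lit 327) (nat_lit 5) (nat_lit 223) (nat_lit 271) (nat_lit 286)) (PT.lf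 (nat_lit 25612) (nat_lit 6) (nat_lit 337) (nat_lit 5) (nat_lit 224) (nat_lit 271) (nat_lit 285)))) (PT.nd (nat_lit 156) (PT.nd (nat_lit 78) (PT.lf (nat_lit 26448) (nat_lit 6) (nat_lit 348) (nat_lit 5) (nat_lit 225) (nat_lit 271) (nat_lit 284)) (PT.lf (nat_lit 27208) (nat_lit 6) (nat_lit 358) (nat_lit 5) (nat_lit 226) (nat_lit 271) (nat_lit 283))) (PT.nd (nat_lit 78) (PT.lf (nat_lit 28044) (nat_lit 6) (nat_lit 369) (nat_lit 5) (nat_lit 227) (nat_lit 271) (nat_lit 282)) (PT.lf (nat_lit 28880) (nat_lit 6) (nat_lit 380) (nat_lit 5) (nat_lit 228) (nat_lit 271) (nat_lit 281))))) (PT.nd (nat_lit 312) (PT.nd (nat_lit 156) (PT.nd (nat_lit 78) (PT.lf (nat_lit 29792) (nat_lit 6) (nat_lit 392) (nat_lit 5) (nat_lit 229) (nat_lit 271) (nat_lit 280)) (PT.lf (nat_lit 30704) (nat_lit 6) (nat_lit 404) (nat_lit 5) (nat_lit 230) (nat_lit 271) (nat_lit 279))) (PT.nd (nat_lit 78) (PT.lf (nat_lit 31616) (nat_lit 6) (nat_lit 416) (nat_lit 5) (nat_lit 231) (nat_lit 271) (nat_lit 278)) (PT.lf (nat_lit 32528) (nat_lit 6) (nat_lit 428) (nat_lit 5) (nat_lit 232) (nat_lit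 271) (nat_lit 277)))) (PT.nd (nat_lit 156) (PT.nd (nat_lit 78) (PT.lf (nat_lit 33516) (nat_lit 6) (nat_lit 441) (nat_lit 5) (nat_lit 233) (nat_lit 271) (nat_lit 276)) (PT.lf (nat_lit 34504) (nat_lit 6) (nat_lit 454) (nat_lit 5) (nat_lit 234) (nat_lit 271) (nat_lit 275))) (PT.nd (nat_lit 78) (PT.lf (nat_lit 35644) (nat_lit 6) (nat_lit 469) (nat_lit 5) (nat_lit 235) (nat_lit 271) (nat_lit 274)) (PT.lf (nat_lit 37544) (nat_lit 6) (nat_lit 494) (nat_lit 5) (nat_lit 236) (nat_lit 271) (nat_lit 273))))))) (PT.nd (nat_lit 1092) (PT.nd (nat_lit 546) (PT.nd (nat_lit 234) (PT.nd (nat_lit 78) (PT.lf (nat_lit 39368) (nat_lit 6) (nat_lit 518) (nat_lit 5) (nat_lit 237) (nat_lit 271) (nat_lit 272)) (PT.nd (nat_lit 78) (PT.lf (nat_lit 41116) (nat_lit 3) (nat_lit 541) (nat_lit 4) (nat_lit 238) (nat_lit 271) (nat_lit 271)) (PT.lf (nat_lit 42712) (nat_lit 6) (nat_lit 562) (nat_lit 4) (nat_lit 239) (nat_lit 271) (nat_lit 270)))) (PT.nd (nat_lit 156) (PT.nd (nat_lit 78) (PT.lf (nat_lit 44232) (nat_lit 6) (nat_lit 582) (nat_lit 4) (nat_lit 240) (nat_lit 271)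 (nat_lit 269)) (PT.lf (nat_lit 45676) (nat_lit 6) (nat_lit 601) (nat_lit 4) (nat_lit 241) (nat_lit 271) (nat_lit 268))) (PT.nd (nat_lit 78) (PT.lf (nat_lit 47044) (nat_lit 6) (nat_lit 619) (nat_lit 4) (nat_lit 242) (nat_lit 271) (nat_lit 267)) (PT.lf (nat_lit 48336) (nat_lit 6) (nat_lit 636) (nat_lit 4) (nat_lit 243) (nat_lit 271) (nat_lit 266))))) (PT.nd (nat_lit 234) (PT.nd (nat_lit 78) (PT.lf (nat_lit 49552) (nat_lit 6) (nat_lit 652) (nat_lit 4) (nat_lit 244) (nat_lit 271) (nat_lit 265)) (PT.nd (nat_lit 78) (PT.lf (nat_lit 50692) (nat_lit 6) (nat_lit 667) (nat_lit 4) (nat_lit 245) (nat_lit 271) (nat_lit 264)) (PT.lf (nat_lit 51756) (nat_lit 6) (nat_lit 681) (nat_lit 4) (nat_lit 246) (nat_lit 271) (nat_lit 263)))) (PT.nd (nat_lit 156) (PT.nd (nat_lit 78) (PT.lf (nat_lit 52744) (nat_lit 6) (nat_lit 694) (nat_lit 4) (nat_lit 247) (nat_lit 271) (nat_lit 262)) (PT.lf (nat_lit 53656) (nat_lit 6) (nat_lit 706) (nat_lit 4) (nat_lit 248) (nat_lit 271) (nat_lit 261))) (PT.nd (nat_lit 78) (PT.lf (nat_lit 54492) (nat_lit 6) (nat_lit 717) (nat_lit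 4) (nat_lit 249) (nat_lit 271) (nat_lit 260)) (PT.lf (nat_lit 54416) (nat_lit 6) (nat_lit 716) (nat_lit 4) (nat_lit 250) (nat_lit 271) (nat_lit 259)))))) (PT.nd (nat_lit 546) (PT.nd (nat_lit 234) (PT.nd (nat_lit 78) (PT.lf (nat_lit 54340) (nat_lit 6) (nat_lit 715) (nat_lit 4) (nat_lit 251) (nat_lit 271) (nat_lit 258)) (PT.nd (nat_lit 78) (PT.lf (nat_lit 54264) (nat_lit 6) (nat_lit 714) (nat_lit 4) (nat_lit 252) (nat_lit 271) (nat_lit 257)) (PT.lf (nat_lit 54188) (nat_lit 6) (nat_lit 713) (nat_lit 4) (nat_lit 253) (nat_lit 271) (nat_lit 256)))) (PT.nd (nat_lit 156) (PT.nd (nat_lit 78) (PT.lf (nat_lit 54112) (nat_lit 6) (nat_lit 712) (nat_lit 4) (nat_lit 254) (nat_lit 271) (nat_lit 255)) (PT.lf (nat_lit 54112) (nat_lit 6) (nat_lit 712) (nat_lit 2) (nat_lit 255) (nat_lit 271) (nat_lit 254))) (PT.nd (nat_lit 78) (PT.lf (nat_lit 54188) (nat_lit 6) (nat_lit 713) (nat_lit 2) (nat_lit 256) (nat_lit 271) (nat_lit 253)) (PT.lf (nat_lit 54264) (nat_lit 6) (nat_lit 714) (nat_lit 2) (nat_lit 257) (nat_lit 271) (nat_lit 252))))) (PT.nd (nat_lit 312) (PT.nd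 (nat_lit 156) (PT.nd (nat_lit 78) (PT.lf (nat_lit 54340) (nat_lit 6) (nat_lit 715) (nat_lit 2) (nat_lit 258) (nat_lit 271) (nat_lit 251)) (PT.lf (nat_lit 54416) (nat_lit 6) (nat_lit 716) (nat_lit 2) (nat_lit 259) (nat_lit 271) (nat_lit 250))) (PT.nd (nat_lit 78) (PT.lf (nat_lit 54492) (nat_lit 6) (nat_lit 717) (nat_lit 2) (nat_lit 260) (nat_lit 271) (nat_lit 249)) (PT.lf (nat_lit 53656) (nat_lit 6) (nat_lit 706) (nat_lit 2) (nat_lit 261) (nat_lit 271) (nat_lit 248)))) (PT.nd (nat_lit 156) (PT.nd (nat_lit 78) (PT.lf (nat_lit 52744) (nat_lit 6) (nat_lit 694) (nat_lit 2) (nat_lit 262) (nat_lit 271) (nat_lit 247)) (PT.lf (nat_lit 51756) (nat_lit 6) (nat_lit 681) (nat_lit 2) (nat_lit 263) (nat_lit 271) (nat_lit 246))) (PT.nd (nat_lit 78) (PT.lf (nat_lit 50692) (nat_lit 6) (nat_lit 667) (nat_lit 2) (nat_lit 264) (nat_lit 271) (nat_lit 245)) (PT.lf (nat_lit 49552) (nat_lit 6) (nat_lit 652) (nat_lit 2) (nat_lit 265) (nat_lit 271) (nat_lit 244))))))))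
noncomputable def pc38 : PT := (PT.nd (nat_lit 78000) (PT.nd (nat_lit 1092) (PT.nd (nat_lit 546) (PT.nd (nat_lit 234) (PT.nd (nat_lit 78) (PT.lf (nat_lit 48336) (nat_lit 6) (nat_lit 636) (nat_lit 2) (nat_lit 266) (nat_lit 271) (nat_lit 243)) (PT.nd (nat_lit 78) (PT.lf (nat_lit 47044) (nat_lit 6) (nat_lit 619) (nat_lit 2) (nat_lit 267) (nat_lit 271) (nat_lit 242)) (PT.lf (nat_lit 45676) (nat_lit 6) (nat_lit 601) (nat_lit 2) (nat_lit 268) (nat_lit 271) (nat_lit 241)))) (PT.nd (nat_lit 156) (PT.nd (nat_lit 78) (PT.lf (nat_lit 44232) (nat_lit 6) (nat_lit 582) (nat_lit 2) (nat_lit 269) (nat_lit 271) (nat_lit 240)) (PT.lf (nat_lit 42712) (nat_lit 6) (nat_lit 562) (nat_lit 2) (nat_lit 270) (nat_lit 271) (nat_lit 239))) (PT.nd (nat_lit 78) (PT.lf (nat_lit 41116) (nat_lit 3) (nat_lit 541) (nat_lit 0) (nat_lit 271) (nat_lit 271) (nat_lit 238)) (PT.lf (nat_lit 39368) (nat_lit 6) (nat_lit 518) (nat_lit 0) (nat_lit 272) (nat_lit 271) (nat_lit 237))))) (PT.nd (nat_lit 234) (PT.nd (nat_lit 78) (PT.lf (nat_lit 37544) (nat_lit 6) (nat_lit 494) (nat_lit 0)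 (nat_lit 273) (nat_lit 271) (nat_lit 236)) (PT.nd (nat_lit 78) (PT.lf (nat_lit 35644) (nat_lit 6) (nat_lit 469) (nat_lit 0) (nat_lit 274) (nat_lit 271) (nat_lit 235)) (PT.lf (nat_lit 34504) (nat_lit 6) (nat_lit 454) (nat_lit 0) (nat_lit 275) (nat_lit 271) (nat_lit 234)))) (PT.nd (nat_lit 156) (PT.nd (nat_lit 78) (PT.lf (nat_lit 33516) (nat_lit 6) (nat_lit 441) (nat_lit 0) (nat_lit 276) (nat_lit 271) (nat_lit 233)) (PT.lf (nat_lit 32528) (nat_lit 6) (nat_lit 428) (nat_lit 0) (nat_lit 277) (nat_lit 271) (nat_lit 232))) (PT.nd (nat_lit 78) (PT.lf (nat_lit 31616) (nat_lit 6) (nat_lit 416) (nat_lit 0) (nat_lit 278) (nat_lit 271) (nat_lit 231)) (PT.lf (nat_lit 30704) (nat_lit 6) (nat_lit 404) (nat_lit 0) (nat_lit 279) (nat_lit 271) (nat_lit 230)))))) (PT.nd (nat_lit 546) (PT.nd (nat_lit 234) (PT.nd (nat_lit 78) (PT.lf (nat_lit 29792) (nat_lit 6) (nat_lit 392) (nat_lit 0) (nat_lit 280) (nat_lit 271) (nat_lit 229)) (PT.nd (nat_lit 78) (PT.lf (nat_lit 28880) (nat_lit 6) (nat_lit 380) (nat_lit 0) (nat_lit 281) (nat_lit 271) (nat_lit 228)) (PT.lf (nat_lit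 28044) (nat_lit 6) (nat_lit 369) (nat_lit 0) (nat_lit 282) (nat_lit 271) (nat_lit 227)))) (PT.nd (nat_lit 156) (PT.nd (nat_lit 78) (PT.lf (nat_lit 27208) (nat_lit 6) (nat_lit 358) (nat_lit 0) (nat_lit 283) (nat_lit 271) (nat_lit 226)) (PT.lf (nat_lit 26448) (nat_lit 6) (nat_lit 348) (nat_lit 0) (nat_lit 284) (nat_lit 271) (nat_lit 225))) (PT.nd (nat_lit 78) (PT.lf (nat_lit 25612) (nat_lit 6) (nat_lit 337) (nat_lit 0) (nat_lit 285) (nat_lit 271) (nat_lit 224)) (PT.lf (nat_lit 24852) (nat_lit 6) (nat_lit 327) (nat_lit 0) (nat_lit 286) (nat_lit 271) (nat_lit 223))))) (PT.nd (nat_lit 76050) (PT.nd (nat_lit 78) (PT.lf (nat_lit 24092) (nat_lit 6) (nat_lit 317) (nat_lit 0) (nat_lit 287) (nat_lit 271) (nat_lit 222)) (PT.nd (nat_lit 75894) (PT.lf (nat_lit 23408) (nat_lit 6) (nat_lit 308) (nat_lit 0) (nat_lit 288) (nat_lit 271) (nat_lit 221)) (PT.lf (nat_lit 22724) (nat_lit 6) (nat_lit 299) (nat_lit 5) (nat_lit 220) (nat_lit 272) (nat_lit 288)))) (PT.nd (nat_lit 156) (PT.nd (nat_lit 78) (PT.lf (nat_lit 23484) (nat_lit 6) (nat_lit 309) (nat_lit 5)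 (nat_lit 221) (nat_lit 272) (nat_lit 287)) (PT.lf (nat_lit 24168) (nat_lit 6) (nat_lit 318) (nat_lit 5) (nat_lit 222) (nat_lit 272) (nat_lit 286))) (PT.nd (nat_lit 78) (PT.lf (nat_lit 24928) (nat_lit 6) (nat_lit 328) (nat_lit 5) (nat_lit 223) (nat_lit 272) (nat_lit 285)) (PT.lf (nat_lit 25688) (nat_lit 6) (nat_lit 338) (nat_lit 5) (nat_lit 224) (nat_lit 272) (nat_lit 284))))))) (PT.nd (nat_lit 1092) (PT.nd (nat_lit 546) (PT.nd (nat_lit 234) (PT.nd (nat_lit 78) (PT.lf (nat_lit 26524) (nat_lit 6) (nat_lit 349) (nat_lit 5) (nat_lit 225) (nat_lit 272) (nat_lit 283)) (PT.nd (nat_lit 78) (PT.lf (nat_lit 27284) (nat_lit 6) (nat_lit 359) (nat_lit 5) (nat_lit 226) (nat_lit 272) (nat_lit 282)) (PT.lf (nat_lit 28120) (nat_lit 6) (nat_lit 370) (nat_lit 5) (nat_lit 227) (nat_lit 272) (nat_lit 281)))) (PT.nd (nat_lit 156) (PT.nd (nat_lit 78) (PT.lf (nat_lit 28956) (nat_lit 6) (nat_lit 381) (nat_lit 5) (nat_lit 228) (nat_lit 272) (nat_lit 280)) (PT.lf (nat_lit 29868) (nat_lit 6) (nat_lit 393) (nat_lit 5) (nat_lit 229) (nat_lit 272) (nat_lit 279))) (PT.nd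 (nat_lit 78) (PT.lf (nat_lit 30780) (nat_lit 6) (nat_lit 405) (nat_lit 5) (nat_lit 230) (nat_lit 272) (nat_lit 278)) (PT.lf (nat_lit 31692) (nat_lit 6) (nat_lit 417) (nat_lit 5) (nat_lit 231) (nat_lit 272) (nat_lit 277))))) (PT.nd (nat_lit 234) (PT.nd (nat_lit 78) (PT.lf (nat_lit 32604) (nat_lit 6) (nat_lit 429) (nat_lit 5) (nat_lit 232) (nat_lit 272) (nat_lit 276)) (PT.nd (nat_lit 78) (PT.lf (nat_lit 33592) (nat_lit 6) (nat_lit 442) (nat_lit 5) (nat_lit 233) (nat_lit 272) (nat_lit 275)) (PT.lf (nat_lit 34580) (nat_lit 6) (nat_lit 455) (nat_lit 5) (nat_lit 234) (nat_lit 272) (nat_lit 274)))) (PT.nd (nat_lit 156) (PT.nd (nat_lit 78) (PT.lf (nat_lit 35720) (nat_lit 6) (nat_lit 470) (nat_lit 5) (nat_lit 235) (nat_lit 272) (nat_lit 273)) (PT.lf (nat_lit 37620) (nat_lit 3) (nat_lit 495) (nat_lit 4) (nat_lit 236) (nat_lit 272) (nat_lit 272))) (PT.nd (nat_lit 78) (PT.lf (nat_lit 39368) (nat_lit 6) (nat_lit 518) (nat_lit 4) (nat_lit 237) (nat_lit 272) (nat_lit 271)) (PT.lf (nat_lit 41040) (nat_lit 6) (nat_lit 540) (nat_lit 4) (nat_lit 238) (nat_lit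 272) (nat_lit 270)))))) (PT.nd (nat_lit 546) (PT.nd (nat_lit 234) (PT.nd (nat_lit 78) (PT.lf (nat_lit 42636) (nat_lit 6) (nat_lit 561) (nat_lit 4) (nat_lit 239) (nat_lit 272) (nat_lit 269)) (PT.nd (nat_lit 78) (PT.lf (nat_lit 44156) (nat_lit 6) (nat_lit 581) (nat_lit 4) (nat_lit 240) (nat_lit 272) (nat_lit 268)) (PT.lf (nat_lit 45600) (nat_lit 6) (nat_lit 600) (nat_lit 4) (nat_lit 241) (nat_lit 272) (nat_lit 267)))) (PT.nd (nat_lit 156) (PT.nd (nat_lit 78) (PT.lf (nat_lit 46968) (nat_lit 6) (nat_lit 618) (nat_lit 4) (nat_lit 242) (nat_lit 272) (nat_lit 266)) (PT.lf (nat_lit 48260) (nat_lit 6) (nat_lit 635) (nat_lit 4) (nat_lit 243) (nat_lit 272) (nat_lit 265))) (PT.nd (nat_lit 78) (PT.lf (nat_lit 49476) (nat_lit 6) (nat_lit 651) (nat_lit 4) (nat_lit 244) (nat_lit 272) (nat_lit 264)) (PT.lf (nat_lit 50616) (nat_lit 6) (nat_lit 666) (nat_lit 4) (nat_lit 245) (nat_lit 272) (nat_lit 263))))) (PT.nd (nat_lit 312) (PT.nd (nat_lit 156) (PT.nd (nat_lit 78) (PT.lf (nat_lit 51680) (nat_lit 6) (nat_lit 680) (nat_lit 4) (nat_lit 246) (nat_lit 272) (nat_lit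 262)) (PT.lf (nat_lit 52668) (nat_lit 6) (nat_lit 693) (nat_lit 4) (nat_lit 247) (nat_lit 272) (nat_lit 261))) (PT.nd (nat_lit 78) (PT.lf (nat_lit 53580) (nat_lit 6) (nat_lit 705) (nat_lit 4) (nat_lit 248) (nat_lit 272) (nat_lit 260)) (PT.lf (nat_lit 53504) (nat_lit 6) (nat_lit 704) (nat_lit 4) (nat_lit 249) (nat_lit 272) (nat_lit 259)))) (PT.nd (nat_lit 156) (PT.nd (nat_lit 78) (PT.lf (nat_lit 53428) (nat_lit 6) (nat_lit 703) (nat_lit 4) (nat_lit 250) (nat_lit 272) (nat_lit 258)) (PT.lf (nat_lit 53352) (nat_lit 6) (nat_lit 702) (nat_lit 4) (nat_lit 251) (nat_lit 272) (nat_lit 257))) (PT.nd (nat_lit 78) (PT.lf (nat_lit 53276) (nat_lit 6) (nat_lit 701) (nat_lit 4) (nat_lit 252) (nat_lit 272) (nat_lit 256)) (PT.lf (nat_lit 53200) (nat_lit 6) (nat_lit 700) (nat_lit 4) (nat_lit 253) (nat_lit 272) (nat_lit 255))))))))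
noncomputable def pc39 : PT := (PT.nd (nat_lit 2262) (PT.nd (nat_lit 1092) (PT.nd (nat_lit 546) (PT.nd (nat_lit 234) (PT.nd (nat_lit 78) (PT.lf (nat_lit 53124) (nat_lit 3) (nat_lit 699) (nat_lit 2) (nat_lit 254) (nat_lit 272) (nat_lit 254)) (PT.nd (nat_lit 78) (PT.lf (nat_lit 53200) (nat_lit 6) (nat_lit 700) (nat_lit 2) (nat_lit 255) (nat_lit 272) (nat_lit 253)) (PT.lf (nat_lit 53276) (nat_lit 6) (nat_lit 701) (nat_lit 2) (nat_lit 256) (nat_lit 272) (nat_lit 252)))) (PT.nd (nat_lit 156) (PT.nd (nat_lit 78) (PT.lf (nat_lit 53352) (nat_lit 6) (nat_lit 702) (nat_lit 2) (nat_lit 257) (nat_lit 272) (nat_lit 251)) (PT.lf (nat_lit 53428) (nat_lit 6) (nat_lit 703) (nat_lit 2) (nat_lit 258) (nat_lit 272) (nat_lit 250))) (PT.nd (nat_lit 78) (PT.lf (nat_lit 53504) (nat_lit 6) (nat_lit 704) (nat_lit 2) (nat_lit 259) (nat_lit 272) (nat_lit 249)) (PT.lf (nat_lit 53580) (nat_lit 6) (nat_lit 705) (nat_lit 2) (nat_lit 260) (nat_lit 272) (nat_lit 248))))) (PT.nd (nat_lit 234) (PT.nd (nat_lit 78) (PT.lf (nat_lit 52668) (nat_lit 6) (nat_lit 693) (nat_lit 2)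 (nat_lit 261) (nat_lit 272) (nat_lit 247)) (PT.nd (nat_lit 78) (PT.lf (nat_lit 51680) (nat_lit 6) (nat_lit 680) (nat_lit 2) (nat_lit 262) (nat_lit 272) (nat_lit 246)) (PT.lf (nat_lit 50616) (nat_lit 6) (nat_lit 666) (nat_lit 2) (nat_lit 263) (nat_lit 272) (nat_lit 245)))) (PT.nd (nat_lit 156) (PT.nd (nat_lit 78) (PT.lf (nat_lit 49476) (nat_lit 6) (nat_lit 651) (nat_lit 2) (nat_lit 264) (nat_lit 272) (nat_lit 244)) (PT.lf (nat_lit 48260) (nat_lit 6) (nat_lit 635) (nat_lit 2) (nat_lit 265) (nat_lit 272) (nat_lit 243))) (PT.nd (nat_lit 78) (PT.lf (nat_lit 46968) (nat_lit 6) (nat_lit 618) (nat_lit 2) (nat_lit 266) (nat_lit 272) (nat_lit 242)) (PT.lf (nat_lit 45600) (nat_lit 6) (nat_lit 600) (nat_lit 2) (nat_lit 267) (nat_lit 272) (nat_lit 241)))))) (PT.nd (nat_lit 546) (PT.nd (nat_lit 234) (PT.nd (nat_lit 78) (PT.lf (nat_lit 44156) (nat_lit 6) (nat_lit 581) (nat_lit 2) (nat_lit 268) (nat_lit 272) (nat_lit 240)) (PT.nd (nat_lit 78) (PT.lf (nat_lit 42636) (nat_lit 6) (nat_lit 561) (nat_lit 2) (nat_lit 269) (nat_lit 272) (nat_lit 239)) (PT.lf (nat_lit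 41040) (nat_lit 6) (nat_lit 540) (nat_lit 2) (nat_lit 270) (nat_lit 272) (nat_lit 238)))) (PT.nd (nat_lit 156) (PT.nd (nat_lit 78) (PT.lf (nat_lit 39368) (nat_lit 6) (nat_lit 518) (nat_lit 2) (nat_lit 271) (nat_lit 272) (nat_lit 237)) (PT.lf (nat_lit 37620) (nat_lit 3) (nat_lit 495) (nat_lit 0) (nat_lit 272) (nat_lit 272) (nat_lit 236))) (PT.nd (nat_lit 78) (PT.lf (nat_lit 35720) (nat_lit 6) (nat_lit 470) (nat_lit 0) (nat_lit 273) (nat_lit 272) (nat_lit 235)) (PT.lf (nat_lit 34580) (nat_lit 6) (nat_lit 455) (nat_lit 0) (nat_lit 274) (nat_lit 272) (nat_lit 234))))) (PT.nd (nat_lit 312) (PT.nd (nat_lit 156) (PT.nd (nat_lit 78) (PT.lf (nat_lit 33592) (nat_lit 6) (nat_lit 442) (nat_lit 0) (nat_lit 275) (nat_lit 272) (nat_lit 233)) (PT.lf (nat_lit 32604) (nat_lit 6) (nat_lit 429) (nat_lit 0) (nat_lit 276) (nat_lit 272) (nat_lit 232))) (PT.nd (nat_lit 78) (PT.lf (nat_lit 31692) (nat_lit 6) (nat_lit 417) (nat_lit 0) (nat_lit 277) (nat_lit 272) (nat_lit 231)) (PT.lf (nat_lit 30780) (nat_lit 6) (nat_lit 405) (nat_lit 0) (nat_lit 278) (nat_lit 272)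 (nat_lit 230)))) (PT.nd (nat_lit 156) (PT.nd (nat_lit 78) (PT.lf (nat_lit 29868) (nat_lit 6) (nat_lit 393) (nat_lit 0) (nat_lit 279) (nat_lit 272) (nat_lit 229)) (PT.lf (nat_lit 28956) (nat_lit 6) (nat_lit 381) (nat_lit 0) (nat_lit 280) (nat_lit 272) (nat_lit 228))) (PT.nd (nat_lit 78) (PT.lf (nat_lit 28120) (nat_lit 6) (nat_lit 370) (nat_lit 0) (nat_lit 281) (nat_lit 272) (nat_lit 227)) (PT.lf (nat_lit 27284) (nat_lit 6) (nat_lit 359) (nat_lit 0) (nat_lit 282) (nat_lit 272) (nat_lit 226))))))) (PT.nd (nat_lit 76830) (PT.nd (nat_lit 76284) (PT.nd (nat_lit 234) (PT.nd (nat_lit 78) (PT.lf (nat_lit 26524) (nat_lit 6) (nat_lit 349) (nat_lit 0) (nat_lit 283) (nat_lit 272) (nat_lit 225)) (PT.nd (nat_lit 78) (PT.lf (nat_lit 25688) (nat_lit 6) (nat_lit 338) (nat_lit 0) (nat_lit 284) (nat_lit 272) (nat_lit 224)) (PT.lf (nat_lit 24928) (nat_lit 6) (nat_lit 328) (nat_lit 0) (nat_lit 285) (nat_lit 272) (nat_lit 223)))) (PT.nd (nat_lit 156) (PT.nd (nat_lit 78) (PT.lf (nat_lit 24168) (nat_lit 6) (nat_lit 318) (nat_lit 0) (nat_lit 286) (nat_lit 272) (nat_lit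 222)) (PT.lf (nat_lit 23484) (nat_lit 6) (nat_lit 309) (nat_lit 0) (nat_lit 287) (nat_lit 272) (nat_lit 221))) (PT.nd (nat_lit 75816) (PT.lf (nat_lit 22724) (nat_lit 6) (nat_lit 299) (nat_lit 0) (nat_lit 288) (nat_lit 272) (nat_lit 220)) (PT.lf (nat_lit 22116) (nat_lit 6) (nat_lit 291) (nat_lit 5) (nat_lit 219) (nat_lit 273) (nat_lit 288))))) (PT.nd (nat_lit 234) (PT.nd (nat_lit 78) (PT.lf (nat_lit 22800) (nat_lit 6) (nat_lit 300) (nat_lit 5) (nat_lit 220) (nat_lit 273) (nat_lit 287)) (PT.nd (nat_lit 78) (PT.lf (nat_lit 23560) (nat_lit 6) (nat_lit 310) (nat_lit 5) (nat_lit 221) (nat_lit 273) (nat_lit 286)) (PT.lf (nat_lit 24244) (nat_lit 6) (nat_lit 319) (nat_lit 5) (nat_lit 222) (nat_lit 273) (nat_lit 285)))) (PT.nd (nat_lit 156) (PT.nd (nat_lit 78) (PT.lf (nat_lit 25004) (nat_lit 6) (nat_lit 329) (nat_lit 5) (nat_lit 223) (nat_lit 273) (nat_lit 284)) (PT.lf (nat_lit 25764) (nat_lit 6) (nat_lit 339) (nat_lit 5) (nat_lit 224) (nat_lit 273) (nat_lit 283))) (PT.nd (nat_lit 78) (PT.lf (nat_lit 26600) (nat_lit 6) (nat_lit 350) (nat_lit 5) (nat_lit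 225) (nat_lit 273) (nat_lit 282)) (PT.lf (nat_lit 27360) (nat_lit 6) (nat_lit 360) (nat_lit 5) (nat_lit 226) (nat_lit 273) (nat_lit 281)))))) (PT.nd (nat_lit 546) (PT.nd (nat_lit 234) (PT.nd (nat_lit 78) (PT.lf (nat_lit 28196) (nat_lit 6) (nat_lit 371) (nat_lit 5) (nat_lit 227) (nat_lit 273) (nat_lit 280)) (PT.nd (nat_lit 78) (PT.lf (nat_lit 29032) (nat_lit 6) (nat_lit 382) (nat_lit 5) (nat_lit 228) (nat_lit 273) (nat_lit 279)) (PT.lf (nat_lit 29944) (nat_lit 6) (nat_lit 394) (nat_lit 5) (nat_lit 229) (nat_lit 273) (nat_lit 278)))) (PT.nd (nat_lit 156) (PT.nd (nat_lit 78) (PT.lf (nat_lit 30856) (nat_lit 6) (nat_lit 406) (nat_lit 5) (nat_lit 230) (nat_lit 273) (nat_lit 277)) (PT.lf (nat_lit 31768) (nat_lit 6) (nat_lit 418) (nat_lit 5) (nat_lit 231) (nat_lit 273) (nat_lit 276))) (PT.nd (nat_lit 78) (PT.lf (nat_lit 32680) (nat_lit 6) (nat_lit 430) (nat_lit 5) (nat_lit 232) (nat_lit 273) (nat_lit 275)) (PT.lf (nat_lit 33668) (nat_lit 6) (nat_lit 443) (nat_lit 5) (nat_lit 233) (nat_lit 273) (nat_lit 274))))) (PT.nd (nat_lit 312) (PT.nd (nat_lit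 156) (PT.nd (nat_lit 78) (PT.lf (nat_lit 34656) (nat_lit 3) (nat_lit 456) (nat_lit 4) (nat_lit 234) (nat_lit 273) (nat_lit 273)) (PT.lf (nat_lit 35720) (nat_lit 6) (nat_lit 470) (nat_lit 4) (nat_lit 235) (nat_lit 273) (nat_lit 272))) (PT.nd (nat_lit 78) (PT.lf (nat_lit 37544) (nat_lit 6) (nat_lit 494) (nat_lit 4) (nat_lit 236) (nat_lit 273) (nat_lit 271)) (PT.lf (nat_lit 39292) (nat_lit 6) (nat_lit 517) (nat_lit 4) (nat_lit 237) (nat_lit 273) (nat_lit 270)))) (PT.nd (nat_lit 156) (PT.nd (nat_lit 78) (PT.lf (nat_lit 40964) (nat_lit 6) (nat_lit 539) (nat_lit 4) (nat_lit 238) (nat_lit 273) (nat_lit 269)) (PT.lf (nat_lit 42560) (nat_lit 6) (nat_lit 560) (nat_lit 4) (nat_lit 239) (nat_lit 273) (nat_lit 268))) (PT.nd (nat_lit 78) (PT.lf (nat_lit 44080) (nat_lit 6) (nat_lit 580) (nat_lit 4) (nat_lit 240) (nat_lit 273) (nat_lit 267)) (PT.lf (nat_lit 45524) (nat_lit 6) (nat_lit 599) (nat_lit 4) (nat_lit 241) (nat_lit 273) (nat_lit 266))))))))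
noncomputable def pc40 : PT := (PT.nd (nat_lit 2184) (PT.nd (nat_lit 1092) (PT.nd (nat_lit 546) (PT.nd (nat_lit 234) (PT.nd (nat_lit 78) (PT.lf (nat_lit 46892) (nat_lit 6) (nat_lit 617) (nat_lit 4) (nat_lit 242) (nat_lit 273) (nat_lit 265)) (PT.nd (nat_lit 78) (PT.lf (nat_lit 48184) (nat_lit 6) (nat_lit 634) (nat_lit 4) (nat_lit 243) (nat_lit 273) (nat_lit 264)) (PT.lf (nat_lit 49400) (nat_lit 6) (nat_lit 650) (nat_lit 4) (nat_lit 244) (nat_lit 273) (nat_lit 263)))) (PT.nd (nat_lit 156) (PT.nd (nat_lit 78) (PT.lf (nat_lit 50540) (nat_lit 6) (nat_lit 665) (nat_lit 4) (nat_lit 245) (nat_lit 273) (nat_lit 262)) (PT.lf (nat_lit 51604) (nat_lit 6) (nat_lit 679) (nat_lit 4) (nat_lit 246) (nat_lit 273) (nat_lit 261))) (PT.nd (nat_lit 78) (PT.lf (nat_lit 52592) (nat_lit 6) (nat_lit 692) (nat_lit 4) (nat_lit 247) (nat_lit 273) (nat_lit 260)) (PT.lf (nat_lit 52516) (nat_lit 6) (nat_lit 691) (nat_lit 4) (nat_lit 248) (nat_lit 273) (nat_lit 259))))) (PT.nd (nat_lit 234) (PT.nd (nat_lit 78) (PT.lf (nat_lit 52440) (nat_lit 6) (nat_lit 690) (nat_lit 4)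 (nat_lit 249) (nat_lit 273) (nat_lit 258)) (PT.nd (nat_lit 78) (PT.lf (nat_lit 52364) (nat_lit 6) (nat_lit 689) (nat_lit 4) (nat_lit 250) (nat_lit 273) (nat_lit 257)) (PT.lf (nat_lit 52288) (nat_lit 6) (nat_lit 688) (nat_lit 4) (nat_lit 251) (nat_lit 273) (nat_lit 256)))) (PT.nd (nat_lit 156) (PT.nd (nat_lit 78) (PT.lf (nat_lit 52212) (nat_lit 6) (nat_lit 687) (nat_lit 4) (nat_lit 252) (nat_lit 273) (nat_lit 255)) (PT.lf (nat_lit 52136) (nat_lit 6) (nat_lit 686) (nat_lit 4) (nat_lit 253) (nat_lit 273) (nat_lit 254))) (PT.nd (nat_lit 78) (PT.lf (nat_lit 52136) (nat_lit 6) (nat_lit 686) (nat_lit 2) (nat_lit 254) (nat_lit 273) (nat_lit 253)) (PT.lf (nat_lit 52212) (nat_lit 6) (nat_lit 687) (nat_lit 2) (nat_lit 255) (nat_lit 273) (nat_lit 252)))))) (PT.nd (nat_lit 546) (PT.nd (nat_lit 234) (PT.nd (nat_lit 78) (PT.lf (nat_lit 52288) (nat_lit 6) (nat_lit 688) (nat_lit 2) (nat_lit 256) (nat_lit 273) (nat_lit 251)) (PT.nd (nat_lit 78) (PT.lf (nat_lit 52364) (nat_lit 6) (nat_lit 689) (nat_lit 2) (nat_lit 257) (nat_lit 273) (nat_lit 250)) (PT.lf (nat_lit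 52440) (nat_lit 6) (nat_lit 690) (nat_lit 2) (nat_lit 258) (nat_lit 273) (nat_lit 249)))) (PT.nd (nat_lit 156) (PT.nd (nat_lit 78) (PT.lf (nat_lit 52516) (nat_lit 6) (nat_lit 691) (nat_lit 2) (nat_lit 259) (nat_lit 273) (nat_lit 248)) (PT.lf (nat_lit 52592) (nat_lit 6) (nat_lit 692) (nat_lit 2) (nat_lit 260) (nat_lit 273) (nat_lit 247))) (PT.nd (nat_lit 78) (PT.lf (nat_lit 51604) (nat_lit 6) (nat_lit 679) (nat_lit 2) (nat_lit 261) (nat_lit 273) (nat_lit 246)) (PT.lf (nat_lit 50540) (nat_lit 6) (nat_lit 665) (nat_lit 2) (nat_lit 262) (nat_lit 273) (nat_lit 245))))) (PT.nd (nat_lit 234) (PT.nd (nat_lit 78) (PT.lf (nat_lit 49400) (nat_lit 6) (nat_lit 650) (nat_lit 2) (nat_lit 263) (nat_lit 273) (nat_lit 244)) (PT.nd (nat_lit 78) (PT.lf (nat_lit 48184) (nat_lit 6) (nat_lit 634) (nat_lit 2) (nat_lit 264) (nat_lit 273) (nat_lit 243)) (PT.lf (nat_lit 46892) (nat_lit 6) (nat_lit 617) (nat_lit 2) (nat_lit 265) (nat_lit 273) (nat_lit 242)))) (PT.nd (nat_lit 156) (PT.nd (nat_lit 78) (PT.lf (nat_lit 45524) (nat_lit 6) (nat_lit 599) (nat_lit 2) (nat_lit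 266) (nat_lit 273) (nat_lit 241)) (PT.lf (nat_lit 44080) (nat_lit 6) (nat_lit 580) (nat_lit 2) (nat_lit 267) (nat_lit 273) (nat_lit 240))) (PT.nd (nat_lit 78) (PT.lf (nat_lit 42560) (nat_lit 6) (nat_lit 560) (nat_lit 2) (nat_lit 268) (nat_lit 273) (nat_lit 239)) (PT.lf (nat_lit 40964) (nat_lit 6) (nat_lit 539) (nat_lit 2) (nat_lit 269) (nat_lit 273) (nat_lit 238))))))) (PT.nd (nat_lit 1092) (PT.nd (nat_lit 546) (PT.nd (nat_lit 234) (PT.nd (nat_lit 78) (PT.lf (nat_lit 39292) (nat_lit 6) (nat_lit 517) (nat_lit 2) (nat_lit 270) (nat_lit 273) (nat_lit 237)) (PT.nd (nat_lit 78) (PT.lf (nat_lit 37544) (nat_lit 6) (nat_lit 494) (nat_lit 2) (nat_lit 271) (nat_lit 273) (nat_lit 236)) (PT.lf (nat_lit 35720) (nat_lit 6) (nat_lit 470) (nat_lit 2) (nat_lit 272) (nat_lit 273) (nat_lit 235)))) (PT.nd (nat_lit 156) (PT.nd (nat_lit 78) (PT.lf (nat_lit 34656) (nat_lit 3) (nat_lit 456) (nat_lit 0) (nat_lit 273) (nat_lit 273) (nat_lit 234)) (PT.lf (nat_lit 33668) (nat_lit 6) (nat_lit 443) (nat_lit 0) (nat_lit 274) (nat_lit 273) (nat_lit 233))) (PT.nd (nat_lit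 78) (PT.lf (nat_lit 32680) (nat_lit 6) (nat_lit 430) (nat_lit 0) (nat_lit 275) (nat_lit 273) (nat_lit 232)) (PT.lf (nat_lit 31768) (nat_lit 6) (nat_lit 418) (nat_lit 0) (nat_lit 276) (nat_lit 273) (nat_lit 231))))) (PT.nd (nat_lit 234) (PT.nd (nat_lit 78) (PT.lf (nat_lit 30856) (nat_lit 6) (nat_lit 406) (nat_lit 0) (nat_lit 277) (nat_lit 273) (nat_lit 230)) (PT.nd (nat_lit 78) (PT.lf (nat_lit 29944) (nat_lit 6) (nat_lit 394) (nat_lit 0) (nat_lit 278) (nat_lit 273) (nat_lit 229)) (PT.lf (nat_lit 29032) (nat_lit 6) (nat_lit 382) (nat_lit 0) (nat_lit 279) (nat_lit 273) (nat_lit 228)))) (PT.nd (nat_lit 156) (PT.nd (nat_lit 78) (PT.lf (nat_lit 28196) (nat_lit 6) (nat_lit 371) (nat_lit 0) (nat_lit 280) (nat_lit 273) (nat_lit 227)) (PT.lf (nat_lit 27360) (nat_lit 6) (nat_lit 360) (nat_lit 0) (nat_lit 281) (nat_lit 273) (nat_lit 226))) (PT.nd (nat_lit 78) (PT.lf (nat_lit 26600) (nat_lit 6) (nat_lit 350) (nat_lit 0) (nat_lit 282) (nat_lit 273) (nat_lit 225)) (PT.lf (nat_lit 25764) (nat_lit 6) (nat_lit 339) (nat_lit 0) (nat_lit 283) (nat_lit 273)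 (nat_lit 224)))))) (PT.nd (nat_lit 76128) (PT.nd (nat_lit 234) (PT.nd (nat_lit 78) (PT.lf (nat_lit 25004) (nat_lit 6) (nat_lit 329) (nat_lit 0) (nat_lit 284) (nat_lit 273) (nat_lit 223)) (PT.nd (nat_lit 78) (PT.lf (nat_lit 24244) (nat_lit 6) (nat_lit 319) (nat_lit 0) (nat_lit 285) (nat_lit 273) (nat_lit 222)) (PT.lf (nat_lit 23560) (nat_lit 6) (nat_lit 310) (nat_lit 0) (nat_lit 286) (nat_lit 273) (nat_lit 221)))) (PT.nd (nat_lit 75738) (PT.nd (nat_lit 78) (PT.lf (nat_lit 22800) (nat_lit 6) (nat_lit 300) (nat_lit 0) (nat_lit 287) (nat_lit 273) (nat_lit 220)) (PT.lf (nat_lit 22116) (nat_lit 6) (nat_lit 291) (nat_lit 0) (nat_lit 288) (nat_lit 273) (nat_lit 219))) (PT.nd (nat_lit 78) (PT.lf (nat_lit 20824) (nat_lit 6) (nat_lit 274) (nat_lit 5) (nat_lit 217) (nat_lit 274) (nat_lit 289)) (PT.lf (nat_lit 21508) (nat_lit 6) (nat_lit 283) (nat_lit 5) (nat_lit 218) (nat_lit 274) (nat_lit 288))))) (PT.nd (nat_lit 312) (PT.nd (nat_lit 156) (PT.nd (nat_lit 78) (PT.lf (nat_lit 22192) (nat_lit 6) (nat_lit 292) (nat_lit 5) (nat_lit 219) (nat_lit 274) (nat_lit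 287)) (PT.lf (nat_lit 22876) (nat_lit 6) (nat_lit 301) (nat_lit 5) (nat_lit 220) (nat_lit 274) (nat_lit 286))) (PT.nd (nat_lit 78) (PT.lf (nat_lit 23636) (nat_lit 6) (nat_lit 311) (nat_lit 5) (nat_lit 221) (nat_lit 274) (nat_lit 285)) (PT.lf (nat_lit 24320) (nat_lit 6) (nat_lit 320) (nat_lit 5) (nat_lit 222) (nat_lit 274) (nat_lit 284)))) (PT.nd (nat_lit 156) (PT.nd (nat_lit 78) (PT.lf (nat_lit 25080) (nat_lit 6) (nat_lit 330) (nat_lit 5) (nat_lit 223) (nat_lit 274) (nat_lit 283)) (PT.lf (nat_lit 25840) (nat_lit 6) (nat_lit 340) (nat_lit 5) (nat_lit 224) (nat_lit 274) (nat_lit 282))) (PT.nd (nat_lit 78) (PT.lf (nat_lit 26676) (nat_lit 6) (nat_lit 351) (nat_lit 5) (nat_lit 225) (nat_lit 274) (nat_lit 281)) (PT.lf (nat_lit 27436) (nat_lit 6) (nat_lit 361) (nat_lit 5) (nat_lit 226) (nat_lit 274) (nat_lit 280))))))))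
noncomputable def pc41 : PT := (PT.nd (nat_lit 2262) (PT.nd (nat_lit 1092) (PT.nd (nat_lit 546) (PT.nd (nat_lit 234) (PT.nd (nat_lit 78) (PT.lf (nat_lit 28272) (nat_lit 6) (nat_lit 372) (nat_lit 5) (nat_lit 227) (nat_lit 274) (nat_lit 279)) (PT.nd (nat_lit 78) (PT.lf (nat_lit 29108) (nat_lit 6) (nat_lit 383) (nat_lit 5) (nat_lit 228) (nat_lit 274) (nat_lit 278)) (PT.lf (nat_lit 30020) (nat_lit 6) (nat_lit 395) (nat_lit 5) (nat_lit 229) (nat_lit 274) (nat_lit 277)))) (PT.nd (nat_lit 156) (PT.nd (nat_lit 78) (PT.lf (nat_lit 30932) (nat_lit 6) (nat_lit 407) (nat_lit 5) (nat_lit 230) (nat_lit 274) (nat_lit 276)) (PT.lf (nat_lit 31844) (nat_lit 6) (nat_lit 419) (nat_lit 5) (nat_lit 231) (nat_lit 274) (nat_lit 275))) (PT.nd (nat_lit 78) (PT.lf (nat_lit 32756) (nat_lit 3) (nat_lit 431) (nat_lit 4) (nat_lit 232) (nat_lit 274) (nat_lit 274)) (PT.lf (nat_lit 33668) (nat_lit 6) (nat_lit 443) (nat_lit 4) (nat_lit 233) (nat_lit 274) (nat_lit 273))))) (PT.nd (nat_lit 234) (PT.nd (nat_lit 78) (PT.lf (nat_lit 34580) (nat_lit 6) (nat_lit 455) (nat_lit 4)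 (nat_lit 234) (nat_lit 274) (nat_lit 272)) (PT.nd (nat_lit 78) (PT.lf (nat_lit 35644) (nat_lit 6) (nat_lit 469) (nat_lit 4) (nat_lit 235) (nat_lit 274) (nat_lit 271)) (PT.lf (nat_lit 37468) (nat_lit 6) (nat_lit 493) (nat_lit 4) (nat_lit 236) (nat_lit 274) (nat_lit 270)))) (PT.nd (nat_lit 156) (PT.nd (nat_lit 78) (PT.lf (nat_lit 39216) (nat_lit 6) (nat_lit 516) (nat_lit 4) (nat_lit 237) (nat_lit 274) (nat_lit 269)) (PT.lf (nat_lit 40888) (nat_lit 6) (nat_lit 538) (nat_lit 4) (nat_lit 238) (nat_lit 274) (nat_lit 268))) (PT.nd (nat_lit 78) (PT.lf (nat_lit 42484) (nat_lit 6) (nat_lit 559) (nat_lit 4) (nat_lit 239) (nat_lit 274) (nat_lit 267)) (PT.lf (nat_lit 44004) (nat_lit 6) (nat_lit 579) (nat_lit 4) (nat_lit 240) (nat_lit 274) (nat_lit 266)))))) (PT.nd (nat_lit 546) (PT.nd (nat_lit 234) (PT.nd (nat_lit 78) (PT.lf (nat_lit 45448) (nat_lit 6) (nat_lit 598) (nat_lit 4) (nat_lit 241) (nat_lit 274) (nat_lit 265)) (PT.nd (nat_lit 78) (PT.lf (nat_lit 46816) (nat_lit 6) (nat_lit 616) (nat_lit 4) (nat_lit 242) (nat_lit 274) (nat_lit 264)) (PT.lf (nat_lit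 48108) (nat_lit 6) (nat_lit 633) (nat_lit 4) (nat_lit 243) (nat_lit 274) (nat_lit 263)))) (PT.nd (nat_lit 156) (PT.nd (nat_lit 78) (PT.lf (nat_lit 49324) (nat_lit 6) (nat_lit 649) (nat_lit 4) (nat_lit 244) (nat_lit 274) (nat_lit 262)) (PT.lf (nat_lit 50464) (nat_lit 6) (nat_lit 664) (nat_lit 4) (nat_lit 245) (nat_lit 274) (nat_lit 261))) (PT.nd (nat_lit 78) (PT.lf (nat_lit 51528) (nat_lit 6) (nat_lit 678) (nat_lit 4) (nat_lit 246) (nat_lit 274) (nat_lit 260)) (PT.lf (nat_lit 51452) (nat_lit 6) (nat_lit 677) (nat_lit 4) (nat_lit 247) (nat_lit 274) (nat_lit 259))))) (PT.nd (nat_lit 312) (PT.nd (nat_lit 156) (PT.nd (nat_lit 78) (PT.lf (nat_lit 51376) (nat_lit 6) (nat_lit 676) (nat_lit 4) (nat_lit 248) (nat_lit 274) (nat_lit 258)) (PT.lf (nat_lit 51300) (nat_lit 6) (nat_lit 675) (nat_lit 4) (nat_lit 249) (nat_lit 274) (nat_lit 257))) (PT.nd (nat_lit 78) (PT.lf (nat_lit 51224) (nat_lit 6) (nat_lit 674) (nat_lit 4) (nat_lit 250) (nat_lit 274) (nat_lit 256)) (PT.lf (nat_lit 51148) (nat_lit 6) (nat_lit 673) (nat_lit 4) (nat_lit 251) (nat_lit 274)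 (nat_lit 255)))) (PT.nd (nat_lit 156) (PT.nd (nat_lit 78) (PT.lf (nat_lit 51072) (nat_lit 6) (nat_lit 672) (nat_lit 4) (nat_lit 252) (nat_lit 274) (nat_lit 254)) (PT.lf (nat_lit 50996) (nat_lit 3) (nat_lit 671) (nat_lit 2) (nat_lit 253) (nat_lit 274) (nat_lit 253))) (PT.nd (nat_lit 78) (PT.lf (nat_lit 51072) (nat_lit 6) (nat_lit 672) (nat_lit 2) (nat_lit 254) (nat_lit 274) (nat_lit 252)) (PT.lf (nat_lit 51148) (nat_lit 6) (nat_lit 673) (nat_lit 2) (nat_lit 255) (nat_lit 274) (nat_lit 251))))))) (PT.nd (nat_lit 1092) (PT.nd (nat_lit 546) (PT.nd (nat_lit 234) (PT.nd (nat_lit 78) (PT.lf (nat_lit 51224) (nat_lit 6) (nat_lit 674) (nat_lit 2) (nat_lit 256) (nat_lit 274) (nat_lit 250)) (PT.nd (nat_lit 78) (PT.lf (nat_lit 51300) (nat_lit 6) (nat_lit 675) (nat_lit 2) (nat_lit 257) (nat_lit 274) (nat_lit 249)) (PT.lf (nat_lit 51376) (nat_lit 6) (nat_lit 676) (nat_lit 2) (nat_lit 258) (nat_lit 274) (nat_lit 248)))) (PT.nd (nat_lit 156) (PT.nd (nat_lit 78) (PT.lf (nat_lit 51452) (nat_lit 6) (nat_lit 677) (nat_lit 2) (nat_lit 259) (nat_lit 274) (nat_lit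 247)) (PT.lf (nat_lit 51528) (nat_lit 6) (nat_lit 678) (nat_lit 2) (nat_lit 260) (nat_lit 274) (nat_lit 246))) (PT.nd (nat_lit 78) (PT.lf (nat_lit 50464) (nat_lit 6) (nat_lit 664) (nat_lit 2) (nat_lit 261) (nat_lit 274) (nat_lit 245)) (PT.lf (nat_lit 49324) (nat_lit 6) (nat_lit 649) (nat_lit 2) (nat_lit 262) (nat_lit 274) (nat_lit 244))))) (PT.nd (nat_lit 234) (PT.nd (nat_lit 78) (PT.lf (nat_lit 48108) (nat_lit 6) (nat_lit 633) (nat_lit 2) (nat_lit 263) (nat_lit 274) (nat_lit 243)) (PT.nd (nat_lit 78) (PT.lf (nat_lit 46816) (nat_lit 6) (nat_lit 616) (nat_lit 2) (nat_lit 264) (nat_lit 274) (nat_lit 242)) (PT.lf (nat_lit 45448) (nat_lit 6) (nat_lit 598) (nat_lit 2) (nat_lit 265) (nat_lit 274) (nat_lit 241)))) (PT.nd (nat_lit 156) (PT.nd (nat_lit 78) (PT.lf (nat_lit 44004) (nat_lit 6) (nat_lit 579) (nat_lit 2) (nat_lit 266) (nat_lit 274) (nat_lit 240)) (PT.lf (nat_lit 42484) (nat_lit 6) (nat_lit 559) (nat_lit 2) (nat_lit 267) (nat_lit 274) (nat_lit 239))) (PT.nd (nat_lit 78) (PT.lf (nat_lit 40888) (nat_lit 6) (nat_lit 538) (nat_lit 2) (nat_lit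 268) (nat_lit 274) (nat_lit 238)) (PT.lf (nat_lit 39216) (nat_lit 6) (nat_lit 516) (nat_lit 2) (nat_lit 269) (nat_lit 274) (nat_lit 237)))))) (PT.nd (nat_lit 546) (PT.nd (nat_lit 234) (PT.nd (nat_lit 78) (PT.lf (nat_lit 37468) (nat_lit 6) (nat_lit 493) (nat_lit 2) (nat_lit 270) (nat_lit 274) (nat_lit 236)) (PT.nd (nat_lit 78) (PT.lf (nat_lit 35644) (nat_lit 6) (nat_lit 469) (nat_lit 2) (nat_lit 271) (nat_lit 274) (nat_lit 235)) (PT.lf (nat_lit 34580) (nat_lit 6) (nat_lit 455) (nat_lit 2) (nat_lit 272) (nat_lit 274) (nat_lit 234)))) (PT.nd (nat_lit 156) (PT.nd (nat_lit 78) (PT.lf (nat_lit 33668) (nat_lit 6) (nat_lit 443) (nat_lit 2) (nat_lit 273) (nat_lit 274) (nat_lit 233)) (PT.lf (nat_lit 32756) (nat_lit 3) (nat_lit 431) (nat_lit 0) (nat_lit 274) (nat_lit 274) (nat_lit 232))) (PT.nd (nat_lit 78) (PT.lf (nat_lit 31844) (nat_lit 6) (nat_lit 419) (nat_lit 0) (nat_lit 275) (nat_lit 274) (nat_lit 231)) (PT.lf (nat_lit 30932) (nat_lit 6) (nat_lit 407) (nat_lit 0) (nat_lit 276) (nat_lit 274) (nat_lit 230))))) (PT.nd (nat_lit 312) (PT.nd (nat_lit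 156) (PT.nd (nat_lit 78) (PT.lf (nat_lit 30020) (nat_lit 6) (nat_lit 395) (nat_lit 0) (nat_lit 277) (nat_lit 274) (nat_lit 229)) (PT.lf (nat_lit 29108) (nat_lit 6) (nat_lit 383) (nat_lit 0) (nat_lit 278) (nat_lit 274) (nat_lit 228))) (PT.nd (nat_lit 78) (PT.lf (nat_lit 28272) (nat_lit 6) (nat_lit 372) (nat_lit 0) (nat_lit 279) (nat_lit 274) (nat_lit 227)) (PT.lf (nat_lit 27436) (nat_lit 6) (nat_lit 361) (nat_lit 0) (nat_lit 280) (nat_lit 274) (nat_lit 226)))) (PT.nd (nat_lit 156) (PT.nd (nat_lit 78) (PT.lf (nat_lit 26676) (nat_lit 6) (nat_lit 351) (nat_lit 0) (nat_lit 281) (nat_lit 274) (nat_lit 225)) (PT.lf (nat_lit 25840) (nat_lit 6) (nat_lit 340) (nat_lit 0) (nat_lit 282) (nat_lit 274) (nat_lit 224))) (PT.nd (nat_lit 78) (PT.lf (nat_lit 25080) (nat_lit 6) (nat_lit 330) (nat_lit 0) (nat_lit 283) (nat_lit 274) (nat_lit 223)) (PT.lf (nat_lit 24320) (nat_lit 6) (nat_lit 320) (nat_lit 0) (nat_lit 284) (nat_lit 274) (nat_lit 222))))))))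
noncomputable def pc42 : PT := (PT.nd (nat_lit 77610) (PT.nd (nat_lit 76518) (PT.nd (nat_lit 75972) (PT.nd (nat_lit 234) (PT.nd (nat_lit 78) (PT.lf (nat_lit 23636) (nat_lit 6) (nat_lit 311) (nat_lit 0) (nat_lit 285) (nat_lit 274) (nat_lit 221)) (PT.nd (nat_lit 78) (PT.lf (nat_lit 22876) (nat_lit 6) (nat_lit 301) (nat_lit 0) (nat_lit 286) (nat_lit 274) (nat_lit 220)) (PT.lf (nat_lit 22192) (nat_lit 6) (nat_lit 292) (nat_lit 0) (nat_lit 287) (nat_lit 274) (nat_lit 219)))) (PT.nd (nat_lit 75582) (PT.nd (nat_lit 78) (PT.lf (nat_lit 21508) (nat_lit 6) (nat_lit 283) (nat_lit 0) (nat_lit 288) (nat_lit 274) (nat_lit 218)) (PT.lf (nat_lit 20824) (nat_lit 6) (nat_lit 274) (nat_lit 0) (nat_lit 289) (nat_lit 274) (nat_lit 217))) (PT.nd (nat_lit 78) (PT.lf (nat_lit 20216) (nat_lit 6) (nat_lit 266) (nat_lit 5) (nat_lit 216) (nat_lit 275) (nat_lit 289)) (PT.lf (nat_lit 20900) (nat_lit 6) (nat_lit 275) (nat_lit 5) (nat_lit 217) (nat_lit 275) (nat_lit 288))))) (PT.nd (nat_lit 234) (PT.nd (nat_lit 78) (PT.lf (nat_lit 21584) (nat_lit 6) (nat_lit 284) (nat_lit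 5) (nat_lit 218) (nat_lit 275) (nat_lit 287)) (PT.nd (nat_lit 78) (PT.lf (nat_lit 22268) (nat_lit 6) (nat_lit 293) (nat_lit 5) (nat_lit 219) (nat_lit 275) (nat_lit 286)) (PT.lf (nat_lit 22952) (nat_lit 6) (nat_lit 302) (nat_lit 5) (nat_lit 220) (nat_lit 275) (nat_lit 285)))) (PT.nd (nat_lit 156) (PT.nd (nat_lit 78) (PT.lf (nat_lit 23712) (nat_lit 6) (nat_lit 312) (nat_lit 5) (nat_lit 221) (nat_lit 275) (nat_lit 284)) (PT.lf (nat_lit 24396) (nat_lit 6) (nat_lit 321) (nat_lit 5) (nat_lit 222) (nat_lit 275) (nat_lit 283))) (PT.nd (nat_lit 78) (PT.lf (nat_lit 25156) (nat_lit 6) (nat_lit 331) (nat_lit 5) (nat_lit 223) (nat_lit 275) (nat_lit 282)) (PT.lf (nat_lit 25916) (nat_lit 6) (nat_lit 341) (nat_lit 5) (nat_lit 224) (nat_lit 275) (nat_lit 281)))))) (PT.nd (nat_lit 546) (PT.nd (nat_lit 234) (PT.nd (nat_lit 78) (PT.lf (nat_lit 26752) (nat_lit 6) (nat_lit 352) (nat_lit 5) (nat_lit 225) (nat_lit 275) (nat_lit 280)) (PT.nd (nat_lit 78) (PT.lf (nat_lit 27512) (nat_lit 6) (nat_lit 362) (nat_lit 5) (nat_lit 226) (nat_lit 275) (nat_lit 279)) (PT.lf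 (nat_lit 28348) (nat_lit 6) (nat_lit 373) (nat_lit 5) (nat_lit 227) (nat_lit 275) (nat_lit 278)))) (PT.nd (nat_lit 156) (PT.nd (nat_lit 78) (PT.lf (nat_lit 29184) (nat_lit 6) (nat_lit 384) (nat_lit 5) (nat_lit 228) (nat_lit 275) (nat_lit 277)) (PT.lf (nat_lit 30096) (nat_lit 6) (nat_lit 396) (nat_lit 5) (nat_lit 229) (nat_lit 275) (nat_lit 276))) (PT.nd (nat_lit 78) (PT.lf (nat_lit 31008) (nat_lit 3) (nat_lit 408) (nat_lit 4) (nat_lit 230) (nat_lit 275) (nat_lit 275)) (PT.lf (nat_lit 31844) (nat_lit 6) (nat_lit 419) (nat_lit 4) (nat_lit 231) (nat_lit 275) (nat_lit 274))))) (PT.nd (nat_lit 234) (PT.nd (nat_lit 78) (PT.lf (nat_lit 32680) (nat_lit 6) (nat_lit 430) (nat_lit 4) (nat_lit 232) (nat_lit 275) (nat_lit 273)) (PT.nd (nat_lit 78) (PT.lf (nat_lit 33592) (nat_lit 6) (nat_lit 442) (nat_lit 4) (nat_lit 233) (nat_lit 275) (nat_lit 272)) (PT.lf (nat_lit 34504) (nat_lit 6) (nat_lit 454) (nat_lit 4) (nat_lit 234) (nat_lit 275) (nat_lit 271)))) (PT.nd (nat_lit 156) (PT.nd (nat_lit 78) (PT.lf (nat_lit 35568) (nat_lit 6) (nat_lit 468) (nat_lit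 4) (nat_lit 235) (nat_lit 275) (nat_lit 270)) (PT.lf (nat_lit 37392) (nat_lit 6) (nat_lit 492) (nat_lit 4) (nat_lit 236) (nat_lit 275) (nat_lit 269))) (PT.nd (nat_lit 78) (PT.lf (nat_lit 39140) (nat_lit 6) (nat_lit 515) (nat_lit 4) (nat_lit 237) (nat_lit 275) (nat_lit 268)) (PT.lf (nat_lit 40812) (nat_lit 6) (nat_lit 537) (nat_lit 4) (nat_lit 238) (nat_lit 275) (nat_lit 267))))))) (PT.nd (nat_lit 1092) (PT.nd (nat_lit 546) (PT.nd (nat_lit 234) (PT.nd (nat_lit 78) (PT.lf (nat_lit 42408) (nat_lit 6) (nat_lit 558) (nat_lit 4) (nat_lit 239) (nat_lit 275) (nat_lit 266)) (PT.nd (nat_lit 78) (PT.lf (nat_lit 43928) (nat_lit 6) (nat_lit 578) (nat_lit 4) (nat_lit 240) (nat_lit 275) (nat_lit 265)) (PT.lf (nat_lit 45372) (nat_lit 6) (nat_lit 597) (nat_lit 4) (nat_lit 241) (nat_lit 275) (nat_lit 264)))) (PT.nd (nat_lit 156) (PT.nd (nat_lit 78) (PT.lf (nat_lit 46740) (nat_lit 6) (nat_lit 615) (nat_lit 4) (nat_lit 242) (nat_lit 275) (nat_lit 263)) (PT.lf (nat_lit 48032) (nat_lit 6) (nat_lit 632) (nat_lit 4) (nat_lit 243) (nat_lit 275) (nat_lit 262))) (PT.nd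 (nat_lit 78) (PT.lf (nat_lit 49248) (nat_lit 6) (nat_lit 648) (nat_lit 4) (nat_lit 244) (nat_lit 275) (nat_lit 261)) (PT.lf (nat_lit 50388) (nat_lit 6) (nat_lit 663) (nat_lit 4) (nat_lit 245) (nat_lit 275) (nat_lit 260))))) (PT.nd (nat_lit 234) (PT.nd (nat_lit 78) (PT.lf (nat_lit 50312) (nat_lit 6) (nat_lit 662) (nat_lit 4) (nat_lit 246) (nat_lit 275) (nat_lit 259)) (PT.nd (nat_lit 78) (PT.lf (nat_lit 50236) (nat_lit 6) (nat_lit 661) (nat_lit 4) (nat_lit 247) (nat_lit 275) (nat_lit 258)) (PT.lf (nat_lit 50160) (nat_lit 6) (nat_lit 660) (nat_lit 4) (nat_lit 248) (nat_lit 275) (nat_lit 257)))) (PT.nd (nat_lit 156) (PT.nd (nat_lit 78) (PT.lf (nat_lit 50084) (nat_lit 6) (nat_lit 659) (nat_lit 4) (nat_lit 249) (nat_lit 275) (nat_lit 256)) (PT.lf (nat_lit 50008) (nat_lit 6) (nat_lit 658) (nat_lit 4) (nat_lit 250) (nat_lit 275) (nat_lit 255))) (PT.nd (nat_lit 78) (PT.lf (nat_lit 49932) (nat_lit 6) (nat_lit 657) (nat_lit 4) (nat_lit 251) (nat_lit 275) (nat_lit 254)) (PT.lf (nat_lit 49856) (nat_lit 6) (nat_lit 656) (nat_lit 4) (nat_lit 252) (nat_lit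 275) (nat_lit 253)))))) (PT.nd (nat_lit 546) (PT.nd (nat_lit 234) (PT.nd (nat_lit 78) (PT.lf (nat_lit 49856) (nat_lit 6) (nat_lit 656) (nat_lit 2) (nat_lit 253) (nat_lit 275) (nat_lit 252)) (PT.nd (nat_lit 78) (PT.lf (nat_lit 49932) (nat_lit 6) (nat_lit 657) (nat_lit 2) (nat_lit 254) (nat_lit 275) (nat_lit 251)) (PT.lf (nat_lit 50008) (nat_lit 6) (nat_lit 658) (nat_lit 2) (nat_lit 255) (nat_lit 275) (nat_lit 250)))) (PT.nd (nat_lit 156) (PT.nd (nat_lit 78) (PT.lf (nat_lit 50084) (nat_lit 6) (nat_lit 659) (nat_lit 2) (nat_lit 256) (nat_lit 275) (nat_lit 249)) (PT.lf (nat_lit 50160) (nat_lit 6) (nat_lit 660) (nat_lit 2) (nat_lit 257) (nat_lit 275) (nat_lit 248))) (PT.nd (nat_lit 78) (PT.lf (nat_lit 50236) (nat_lit 6) (nat_lit 661) (nat_lit 2) (nat_lit 258) (nat_lit 275) (nat_lit 247)) (PT.lf (nat_lit 50312) (nat_lit 6) (nat_lit 662) (nat_lit 2) (nat_lit 259) (nat_lit 275) (nat_lit 246))))) (PT.nd (nat_lit 312) (PT.nd (nat_lit 156) (PT.nd (nat_lit 78) (PT.lf (nat_lit 50388) (nat_lit 6) (nat_lit 663) (nat_lit 2) (nat_lit 260) (nat_lit 275) (nat_lit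 245)) (PT.lf (nat_lit 49248) (nat_lit 6) (nat_lit 648) (nat_lit 2) (nat_lit 261) (nat_lit 275) (nat_lit 244))) (PT.nd (nat_lit 78) (PT.lf (nat_lit 48032) (nat_lit 6) (nat_lit 632) (nat_lit 2) (nat_lit 262) (nat_lit 275) (nat_lit 243)) (PT.lf (nat_lit 46740) (nat_lit 6) (nat_lit 615) (nat_lit 2) (nat_lit 263) (nat_lit 275) (nat_lit 242)))) (PT.nd (nat_lit 156) (PT.nd (nat_lit 78) (PT.lf (nat_lit 45372) (nat_lit 6) (nat_lit 597) (nat_lit 2) (nat_lit 264) (nat_lit 275) (nat_lit 241)) (PT.lf (nat_lit 43928) (nat_lit 6) (nat_lit 578) (nat_lit 2) (nat_lit 265) (nat_lit 275) (nat_lit 240))) (PT.nd (nat_lit 78) (PT.lf (nat_lit 42408) (nat_lit 6) (nat_lit 558) (nat_lit 2) (nat_lit 266) (nat_lit 275) (nat_lit 239)) (PT.lf (nat_lit 40812) (nat_lit 6) (nat_lit 537) (nat_lit 2) (nat_lit 267) (nat_lit 275) (nat_lit 238))))))))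
noncomputable def pc43 : PT := (PT.nd (nat_lit 77532) (PT.nd (nat_lit 1092) (PT.nd (nat_lit 546) (PT.nd (nat_lit 234) (PT.nd (nat_lit 78) (PT.lf (nat_lit 39140) (nat_lit 6) (nat_lit 515) (nat_lit 2) (nat_lit 268) (nat_lit 275) (nat_lit 237)) (PT.nd (nat_lit 78) (PT.lf (nat_lit 37392) (nat_lit 6) (nat_lit 492) (nat_lit 2) (nat_lit 269) (nat_lit 275) (nat_lit 236)) (PT.lf (nat_lit 35568) (nat_lit 6) (nat_lit 468) (nat_lit 2) (nat_lit 270) (nat_lit 275) (nat_lit 235)))) (PT.nd (nat_lit 156) (PT.nd (nat_lit 78) (PT.lf (nat_lit 34504) (nat_lit 6) (nat_lit 454) (nat_lit 2) (nat_lit 271) (nat_lit 275) (nat_lit 234)) (PT.lf (nat_lit 33592) (nat_lit 6) (nat_lit 442) (nat_lit 2) (nat_lit 272) (nat_lit 275) (nat_lit 233))) (PT.nd (nat_lit 78) (PT.lf (nat_lit 32680) (nat_lit 6) (nat_lit 430) (nat_lit 2) (nat_lit 273) (nat_lit 275) (nat_lit 232)) (PT.lf (nat_lit 31844) (nat_lit 6) (nat_lit 419) (nat_lit 2) (nat_lit 274) (nat_lit 275) (nat_lit 231))))) (PT.nd (nat_lit 234) (PT.nd (nat_lit 78) (PT.lf (nat_lit 31008) (nat_lit 3) (nat_lit 408) (nat_lit 0)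 (nat_lit 275) (nat_lit 275) (nat_lit 230)) (PT.nd (nat_lit 78) (PT.lf (nat_lit 30096) (nat_lit 6) (nat_lit 396) (nat_lit 0) (nat_lit 276) (nat_lit 275) (nat_lit 229)) (PT.lf (nat_lit 29184) (nat_lit 6) (nat_lit 384) (nat_lit 0) (nat_lit 277) (nat_lit 275) (nat_lit 228)))) (PT.nd (nat_lit 156) (PT.nd (nat_lit 78) (PT.lf (nat_lit 28348) (nat_lit 6) (nat_lit 373) (nat_lit 0) (nat_lit 278) (nat_lit 275) (nat_lit 227)) (PT.lf (nat_lit 27512) (nat_lit 6) (nat_lit 362) (nat_lit 0) (nat_lit 279) (nat_lit 275) (nat_lit 226))) (PT.nd (nat_lit 78) (PT.lf (nat_lit 26752) (nat_lit 6) (nat_lit 352) (nat_lit 0) (nat_lit 280) (nat_lit 275) (nat_lit 225)) (PT.lf (nat_lit 25916) (nat_lit 6) (nat_lit 341) (nat_lit 0) (nat_lit 281) (nat_lit 275) (nat_lit 224)))))) (PT.nd (nat_lit 546) (PT.nd (nat_lit 234) (PT.nd (nat_lit 78) (PT.lf (nat_lit 25156) (nat_lit 6) (nat_lit 331) (nat_lit 0) (nat_lit 282) (nat_lit 275) (nat_lit 223)) (PT.nd (nat_lit 78) (PT.lf (nat_lit 24396) (nat_lit 6) (nat_lit 321) (nat_lit 0) (nat_lit 283) (nat_lit 275) (nat_lit 222)) (PT.lf (nat_lit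 23712) (nat_lit 6) (nat_lit 312) (nat_lit 0) (nat_lit 284) (nat_lit 275) (nat_lit 221)))) (PT.nd (nat_lit 156) (PT.nd (nat_lit 78) (PT.lf (nat_lit 22952) (nat_lit 6) (nat_lit 302) (nat_lit 0) (nat_lit 285) (nat_lit 275) (nat_lit 220)) (PT.lf (nat_lit 22268) (nat_lit 6) (nat_lit 293) (nat_lit 0) (nat_lit 286) (nat_lit 275) (nat_lit 219))) (PT.nd (nat_lit 78) (PT.lf (nat_lit 21584) (nat_lit 6) (nat_lit 284) (nat_lit 0) (nat_lit 287) (nat_lit 275) (nat_lit 218)) (PT.lf (nat_lit 20900) (nat_lit 6) (nat_lit 275) (nat_lit 0) (nat_lit 288) (nat_lit 275) (nat_lit 217))))) (PT.nd (nat_lit 75582) (PT.nd (nat_lit 75426) (PT.nd (nat_lit 75348) (PT.lf (nat_lit 20216) (nat_lit 6) (nat_lit 266) (nat_lit 0) (nat_lit 289) (nat_lit 275) (nat_lit 216)) (PT.lf (nat_lit 19076) (nat_lit 6) (nat_lit 251) (nat_lit 5) (nat_lit 214) (nat_lit 276) (nat_lit 290))) (PT.nd (nat_lit 78) (PT.lf (nat_lit 19684) (nat_lit 6) (nat_lit 259) (nat_lit 5) (nat_lit 215) (nat_lit 276) (nat_lit 289)) (PT.lf (nat_lit 20292) (nat_lit 6) (nat_lit 267) (nat_lit 5) (nat_lit 216) (nat_lit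 276) (nat_lit 288)))) (PT.nd (nat_lit 156) (PT.nd (nat_lit 78) (PT.lf (nat_lit 20976) (nat_lit 6) (nat_lit 276) (nat_lit 5) (nat_lit 217) (nat_lit 276) (nat_lit 287)) (PT.lf (nat_lit 21660) (nat_lit 6) (nat_lit 285) (nat_lit 5) (nat_lit 218) (nat_lit 276) (nat_lit 286))) (PT.nd (nat_lit 78) (PT.lf (nat_lit 22344) (nat_lit 6) (nat_lit 294) (nat_lit 5) (nat_lit 219) (nat_lit 276) (nat_lit 285)) (PT.lf (nat_lit 23028) (nat_lit 6) (nat_lit 303) (nat_lit 5) (nat_lit 220) (nat_lit 276) (nat_lit 284))))))) (PT.nd (nat_lit 1092) (PT.nd (nat_lit 546) (PT.nd (nat_lit 234) (PT.nd (nat_lit 78) (PT.lf (nat_lit 23788) (nat_lit 6) (nat_lit 313) (nat_lit 5) (nat_lit 221) (nat_lit 276) (nat_lit 283)) (PT.nd (nat_lit 78) (PT.lf (nat_lit 24472) (nat_lit 6) (nat_lit 322) (nat_lit 5) (nat_lit 222) (nat_lit 276) (nat_lit 282)) (PT.lf (nat_lit 25232) (nat_lit 6) (nat_lit 332) (nat_lit 5) (nat_lit 223) (nat_lit 276) (nat_lit 281)))) (PT.nd (nat_lit 156) (PT.nd (nat_lit 78) (PT.lf (nat_lit 25992) (nat_lit 6) (nat_lit 342) (nat_lit 5) (nat_lit 224) (nat_lit 276)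 (nat_lit 280)) (PT.lf (nat_lit 26828) (nat_lit 6) (nat_lit 353) (nat_lit 5) (nat_lit 225) (nat_lit 276) (nat_lit 279))) (PT.nd (nat_lit 78) (PT.lf (nat_lit 27588) (nat_lit 6) (nat_lit 363) (nat_lit 5) (nat_lit 226) (nat_lit 276) (nat_lit 278)) (PT.lf (nat_lit 28424) (nat_lit 6) (nat_lit 374) (nat_lit 5) (nat_lit 227) (nat_lit 276) (nat_lit 277))))) (PT.nd (nat_lit 234) (PT.nd (nat_lit 78) (PT.lf (nat_lit 29260) (nat_lit 3) (nat_lit 385) (nat_lit 4) (nat_lit 228) (nat_lit 276) (nat_lit 276)) (PT.nd (nat_lit 78) (PT.lf (nat_lit 30096) (nat_lit 6) (nat_lit 396) (nat_lit 4) (nat_lit 229) (nat_lit 276) (nat_lit 275)) (PT.lf (nat_lit 30932) (nat_lit 6) (nat_lit 407) (nat_lit 4) (nat_lit 230) (nat_lit 276) (nat_lit 274)))) (PT.nd (nat_lit 156) (PT.nd (nat_lit 78) (PT.lf (nat_lit 31768) (nat_lit 6) (nat_lit 418) (nat_lit 4) (nat_lit 231) (nat_lit 276) (nat_lit 273)) (PT.lf (nat_lit 32604) (nat_lit 6) (nat_lit 429) (nat_lit 4) (nat_lit 232) (nat_lit 276) (nat_lit 272))) (PT.nd (nat_lit 78) (PT.lf (nat_lit 33516) (nat_lit 6) (nat_lit 441) (nat_lit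 4) (nat_lit 233) (nat_lit 276) (nat_lit 271)) (PT.lf (nat_lit 34428) (nat_lit 6) (nat_lit 453) (nat_lit 4) (nat_lit 234) (nat_lit 276) (nat_lit 270)))))) (PT.nd (nat_lit 546) (PT.nd (nat_lit 234) (PT.nd (nat_lit 78) (PT.lf (nat_lit 35492) (nat_lit 6) (nat_lit 467) (nat_lit 4) (nat_lit 235) (nat_lit 276) (nat_lit 269)) (PT.nd (nat_lit 78) (PT.lf (nat_lit 37316) (nat_lit 6) (nat_lit 491) (nat_lit 4) (nat_lit 236) (nat_lit 276) (nat_lit 268)) (PT.lf (nat_lit 39064) (nat_lit 6) (nat_lit 514) (nat_lit 4) (nat_lit 237) (nat_lit 276) (nat_lit 267)))) (PT.nd (nat_lit 156) (PT.nd (nat_lit 78) (PT.lf (nat_lit 40736) (nat_lit 6) (nat_lit 536) (nat_lit 4) (nat_lit 238) (nat_lit 276) (nat_lit 266)) (PT.lf (nat_lit 42332) (nat_lit 6) (nat_lit 557) (nat_lit 4) (nat_lit 239) (nat_lit 276) (nat_lit 265))) (PT.nd (nat_lit 78) (PT.lf (nat_lit 43852) (nat_lit 6) (nat_lit 577) (nat_lit 4) (nat_lit 240) (nat_lit 276) (nat_lit 264)) (PT.lf (nat_lit 45296) (nat_lit 6) (nat_lit 596) (nat_lit 4) (nat_lit 241) (nat_lit 276) (nat_lit 263))))) (PT.nd (nat_lit 312) (PT.nd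 (nat_lit 156) (PT.nd (nat_lit 78) (PT.lf (nat_lit 46664) (nat_lit 6) (nat_lit 614) (nat_lit 4) (nat_lit 242) (nat_lit 276) (nat_lit 262)) (PT.lf (nat_lit 47956) (nat_lit 6) (nat_lit 631) (nat_lit 4) (nat_lit 243) (nat_lit 276) (nat_lit 261))) (PT.nd (nat_lit 78) (PT.lf (nat_lit 49172) (nat_lit 6) (nat_lit 647) (nat_lit 4) (nat_lit 244) (nat_lit 276) (nat_lit 260)) (PT.lf (nat_lit 49096) (nat_lit 6) (nat_lit 646) (nat_lit 4) (nat_lit 245) (nat_lit 276) (nat_lit 259)))) (PT.nd (nat_lit 156) (PT.nd (nat_lit 78) (PT.lf (nat_lit 49020) (nat_lit 6) (nat_lit 645) (nat_lit 4) (nat_lit 246) (nat_lit 276) (nat_lit 258)) (PT.lf (nat_lit 48944) (nat_lit 6) (nat_lit 644) (nat_lit 4) (nat_lit 247) (nat_lit 276) (nat_lit 257))) (PT.nd (nat_lit 78) (PT.lf (nat_lit 48868) (nat_lit 6) (nat_lit 643) (nat_lit 4) (nat_lit 248) (nat_lit 276) (nat_lit 256)) (PT.lf (nat_lit 48792) (nat_lit 6) (nat_lit 642) (nat_lit 4) (nat_lit 249) (nat_lit 276) (nat_lit 255))))))))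
noncomputable def pc44 : PT := (PT.nd (nat_lit 2184) (PT.nd (nat_lit 1092) (PT.nd (nat_lit 546) (PT.nd (nat_lit 234) (PT.nd (nat_lit 78) (PT.lf (nat_lit 48716) (nat_lit 6) (nat_lit 641) (nat_lit 4) (nat_lit 250) (nat_lit 276) (nat_lit 254)) (PT.nd (nat_lit 78) (PT.lf (nat_lit 48640) (nat_lit 6) (nat_lit 640) (nat_lit 4) (nat_lit 251) (nat_lit 276) (nat_lit 253)) (PT.lf (nat_lit 48564) (nat_lit 3) (nat_lit 639) (nat_lit 2) (nat_lit 252) (nat_lit 276) (nat_lit 252)))) (PT.nd (nat_lit 156) (PT.nd (nat_lit 78) (PT.lf (nat_lit 48640) (nat_lit 6) (nat_lit 640) (nat_lit 2) (nat_lit 253) (nat_lit 276) (nat_lit 251)) (PT.lf (nat_lit 48716) (nat_lit 6) (nat_lit 641) (nat_lit 2) (nat_lit 254) (nat_lit 276) (nat_lit 250))) (PT.nd (nat_lit 78) (PT.lf (nat_lit 48792) (nat_lit 6) (nat_lit 642) (nat_lit 2) (nat_lit 255) (nat_lit 276) (nat_lit 249)) (PT.lf (nat_lit 48868) (nat_lit 6) (nat_lit 643) (nat_lit 2) (nat_lit 256) (nat_lit 276) (nat_lit 248))))) (PT.nd (nat_lit 234) (PT.nd (nat_lit 78) (PT.lf (nat_lit 48944) (nat_lit 6) (nat_lit 644) (nat_lit 2)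 (nat_lit 257) (nat_lit 276) (nat_lit 247)) (PT.nd (nat_lit 78) (PT.lf (nat_lit 49020) (nat_lit 6) (nat_lit 645) (nat_lit 2) (nat_lit 258) (nat_lit 276) (nat_lit 246)) (PT.lf (nat_lit 49096) (nat_lit 6) (nat_lit 646) (nat_lit 2) (nat_lit 259) (nat_lit 276) (nat_lit 245)))) (PT.nd (nat_lit 156) (PT.nd (nat_lit 78) (PT.lf (nat_lit 49172) (nat_lit 6) (nat_lit 647) (nat_lit 2) (nat_lit 260) (nat_lit 276) (nat_lit 244)) (PT.lf (nat_lit 47956) (nat_lit 6) (nat_lit 631) (nat_lit 2) (nat_lit 261) (nat_lit 276) (nat_lit 243))) (PT.nd (nat_lit 78) (PT.lf (nat_lit 46664) (nat_lit 6) (nat_lit 614) (nat_lit 2) (nat_lit 262) (nat_lit 276) (nat_lit 242)) (PT.lf (nat_lit 45296) (nat_lit 6) (nat_lit 596) (nat_lit 2) (nat_lit 263) (nat_lit 276) (nat_lit 241)))))) (PT.nd (nat_lit 546) (PT.nd (nat_lit 234) (PT.nd (nat_lit 78) (PT.lf (nat_lit 43852) (nat_lit 6) (nat_lit 577) (nat_lit 2) (nat_lit 264) (nat_lit 276) (nat_lit 240)) (PT.nd (nat_lit 78) (PT.lf (nat_lit 42332) (nat_lit 6) (nat_lit 557) (nat_lit 2) (nat_lit 265) (nat_lit 276) (nat_lit 239)) (PT.lf (nat_lit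 40736) (nat_lit 6) (nat_lit 536) (nat_lit 2) (nat_lit 266) (nat_lit 276) (nat_lit 238)))) (PT.nd (nat_lit 156) (PT.nd (nat_lit 78) (PT.lf (nat_lit 39064) (nat_lit 6) (nat_lit 514) (nat_lit 2) (nat_lit 267) (nat_lit 276) (nat_lit 237)) (PT.lf (nat_lit 37316) (nat_lit 6) (nat_lit 491) (nat_lit 2) (nat_lit 268) (nat_lit 276) (nat_lit 236))) (PT.nd (nat_lit 78) (PT.lf (nat_lit 35492) (nat_lit 6) (nat_lit 467) (nat_lit 2) (nat_lit 269) (nat_lit 276) (nat_lit 235)) (PT.lf (nat_lit 34428) (nat_lit 6) (nat_lit 453) (nat_lit 2) (nat_lit 270) (nat_lit 276) (nat_lit 234))))) (PT.nd (nat_lit 234) (PT.nd (nat_lit 78) (PT.lf (nat_lit 33516) (nat_lit 6) (nat_lit 441) (nat_lit 2) (nat_lit 271) (nat_lit 276) (nat_lit 233)) (PT.nd (nat_lit 78) (PT.lf (nat_lit 32604) (nat_lit 6) (nat_lit 429) (nat_lit 2) (nat_lit 272) (nat_lit 276) (nat_lit 232)) (PT.lf (nat_lit 31768) (nat_lit 6) (nat_lit 418) (nat_lit 2) (nat_lit 273) (nat_lit 276) (nat_lit 231)))) (PT.nd (nat_lit 156) (PT.nd (nat_lit 78) (PT.lf (nat_lit 30932) (nat_lit 6) (nat_lit 407) (nat_lit 2) (nat_lit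 274) (nat_lit 276) (nat_lit 230)) (PT.lf (nat_lit 30096) (nat_lit 6) (nat_lit 396) (nat_lit 2) (nat_lit 275) (nat_lit 276) (nat_lit 229))) (PT.nd (nat_lit 78) (PT.lf (nat_lit 29260) (nat_lit 3) (nat_lit 385) (nat_lit 0) (nat_lit 276) (nat_lit 276) (nat_lit 228)) (PT.lf (nat_lit 28424) (nat_lit 6) (nat_lit 374) (nat_lit 0) (nat_lit 277) (nat_lit 276) (nat_lit 227))))))) (PT.nd (nat_lit 76206) (PT.nd (nat_lit 546) (PT.nd (nat_lit 234) (PT.nd (nat_lit 78) (PT.lf (nat_lit 27588) (nat_lit 6) (nat_lit 363) (nat_lit 0) (nat_lit 278) (nat_lit 276) (nat_lit 226)) (PT.nd (nat_lit 78) (PT.lf (nat_lit 26828) (nat_lit 6) (nat_lit 353) (nat_lit 0) (nat_lit 279) (nat_lit 276) (nat_lit 225)) (PT.lf (nat_lit 25992) (nat_lit 6) (nat_lit 342) (nat_lit 0) (nat_lit 280) (nat_lit 276) (nat_lit 224)))) (PT.nd (nat_lit 156) (PT.nd (nat_lit 78) (PT.lf (nat_lit 25232) (nat_lit 6) (nat_lit 332) (nat_lit 0) (nat_lit 281) (nat_lit 276) (nat_lit 223)) (PT.lf (nat_lit 24472) (nat_lit 6) (nat_lit 322) (nat_lit 0) (nat_lit 282) (nat_lit 276) (nat_lit 222))) (PT.nd (nat_lit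 78) (PT.lf (nat_lit 23788) (nat_lit 6) (nat_lit 313) (nat_lit 0) (nat_lit 283) (nat_lit 276) (nat_lit 221)) (PT.lf (nat_lit 23028) (nat_lit 6) (nat_lit 303) (nat_lit 0) (nat_lit 284) (nat_lit 276) (nat_lit 220))))) (PT.nd (nat_lit 234) (PT.nd (nat_lit 78) (PT.lf (nat_lit 22344) (nat_lit 6) (nat_lit 294) (nat_lit 0) (nat_lit 285) (nat_lit 276) (nat_lit 219)) (PT.nd (nat_lit 78) (PT.lf (nat_lit 21660) (nat_lit 6) (nat_lit 285) (nat_lit 0) (nat_lit 286) (nat_lit 276) (nat_lit 218)) (PT.lf (nat_lit 20976) (nat_lit 6) (nat_lit 276) (nat_lit 0) (nat_lit 287) (nat_lit 276) (nat_lit 217)))) (PT.nd (nat_lit 156) (PT.nd (nat_lit 78) (PT.lf (nat_lit 20292) (nat_lit 6) (nat_lit 267) (nat_lit 0) (nat_lit 288) (nat_lit 276) (nat_lit 216)) (PT.lf (nat_lit 19684) (nat_lit 6) (nat_lit 259) (nat_lit 0) (nat_lit 289) (nat_lit 276) (nat_lit 215))) (PT.nd (nat_lit 75192) (PT.lf (nat_lit 19076) (nat_lit 6) (nat_lit 251) (nat_lit 0) (nat_lit 290) (nat_lit 276) (nat_lit 214)) (PT.lf (nat_lit 18544) (nat_lit 6) (nat_lit 244) (nat_lit 5) (nat_lit 213) (nat_lit 277)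 (nat_lit 290)))))) (PT.nd (nat_lit 546) (PT.nd (nat_lit 234) (PT.nd (nat_lit 78) (PT.lf (nat_lit 19152) (nat_lit 6) (nat_lit 252) (nat_lit 5) (nat_lit 214) (nat_lit 277) (nat_lit 289)) (PT.nd (nat_lit 78) (PT.lf (nat_lit 19760) (nat_lit 6) (nat_lit 260) (nat_lit 5) (nat_lit 215) (nat_lit 277) (nat_lit 288)) (PT.lf (nat_lit 20368) (nat_lit 6) (nat_lit 268) (nat_lit 5) (nat_lit 216) (nat_lit 277) (nat_lit 287)))) (PT.nd (nat_lit 156) (PT.nd (nat_lit 78) (PT.lf (nat_lit 21052) (nat_lit 6) (nat_lit 277) (nat_lit 5) (nat_lit 217) (nat_lit 277) (nat_lit 286)) (PT.lf (nat_lit 21736) (nat_lit 6) (nat_lit 286) (nat_lit 5) (nat_lit 218) (nat_lit 277) (nat_lit 285))) (PT.nd (nat_lit 78) (PT.lf (nat_lit 22420) (nat_lit 6) (nat_lit 295) (nat_lit 5) (nat_lit 219) (nat_lit 277) (nat_lit 284)) (PT.lf (nat_lit 23104) (nat_lit 6) (nat_lit 304) (nat_lit 5) (nat_lit 220) (nat_lit 277) (nat_lit 283))))) (PT.nd (nat_lit 312) (PT.nd (nat_lit 156) (PT.nd (nat_lit 78) (PT.lf (nat_lit 23864) (nat_lit 6) (nat_lit 314) (nat_lit 5) (nat_lit 221) (nat_lit 277) (nat_lit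 282)) (PT.lf (nat_lit 24548) (nat_lit 6) (nat_lit 323) (nat_lit 5) (nat_lit 222) (nat_lit 277) (nat_lit 281))) (PT.nd (nat_lit 78) (PT.lf (nat_lit 25308) (nat_lit 6) (nat_lit 333) (nat_lit 5) (nat_lit 223) (nat_lit 277) (nat_lit 280)) (PT.lf (nat_lit 26068) (nat_lit 6) (nat_lit 343) (nat_lit 5) (nat_lit 224) (nat_lit 277) (nat_lit 279)))) (PT.nd (nat_lit 156) (PT.nd (nat_lit 78) (PT.lf (nat_lit 26904) (nat_lit 6) (nat_lit 354) (nat_lit 5) (nat_lit 225) (nat_lit 277) (nat_lit 278)) (PT.lf (nat_lit 27664) (nat_lit 3) (nat_lit 364) (nat_lit 4) (nat_lit 226) (nat_lit 277) (nat_lit 277))) (PT.nd (nat_lit 78) (PT.lf (nat_lit 28424) (nat_lit 6) (nat_lit 374) (nat_lit 4) (nat_lit 227) (nat_lit 277) (nat_lit 276)) (PT.lf (nat_lit 29184) (nat_lit 6) (nat_lit 384) (nat_lit 4) (nat_lit 228) (nat_lit 277) (nat_lit 275))))))))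
noncomputable def pc45 : PT := (PT.nd (nat_lit 2262) (PT.nd (nat_lit 1092) (PT.nd (nat_lit 546) (PT.nd (nat_lit 234) (PT.nd (nat_lit 78) (PT.lf (nat_lit 30020) (nat_lit 6) (nat_lit 395) (nat_lit 4) (nat_lit 229) (nat_lit 277) (nat_lit 274)) (PT.nd (nat_lit 78) (PT.lf (nat_lit 30856) (nat_lit 6) (nat_lit 406) (nat_lit 4) (nat_lit 230) (nat_lit 277) (nat_lit 273)) (PT.lf (nat_lit 31692) (nat_lit 6) (nat_lit 417) (nat_lit 4) (nat_lit 231) (nat_lit 277) (nat_lit 272)))) (PT.nd (nat_lit 156) (PT.nd (nat_lit 78) (PT.lf (nat_lit 32528) (nat_lit 6) (nat_lit 428) (nat_lit 4) (nat_lit 232) (nat_lit 277) (nat_lit 271)) (PT.lf (nat_lit 33440) (nat_lit 6) (nat_lit 440) (nat_lit 4) (nat_lit 233) (nat_lit 277) (nat_lit 270))) (PT.nd (nat_lit 78) (PT.lf (nat_lit 34352) (nat_lit 6) (nat_lit 452) (nat_lit 4) (nat_lit 234) (nat_lit 277) (nat_lit 269)) (PT.lf (nat_lit 35416) (nat_lit 6) (nat_lit 466) (nat_lit 4) (nat_lit 235) (nat_lit 277) (nat_lit 268))))) (PT.nd (nat_lit 234) (PT.nd (nat_lit 78) (PT.lf (nat_lit 37240) (nat_lit 6) (nat_lit 490) (nat_lit 4)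 (nat_lit 236) (nat_lit 277) (nat_lit 267)) (PT.nd (nat_lit 78) (PT.lf (nat_lit 38988) (nat_lit 6) (nat_lit 513) (nat_lit 4) (nat_lit 237) (nat_lit 277) (nat_lit 266)) (PT.lf (nat_lit 40660) (nat_lit 6) (nat_lit 535) (nat_lit 4) (nat_lit 238) (nat_lit 277) (nat_lit 265)))) (PT.nd (nat_lit 156) (PT.nd (nat_lit 78) (PT.lf (nat_lit 42256) (nat_lit 6) (nat_lit 556) (nat_lit 4) (nat_lit 239) (nat_lit 277) (nat_lit 264)) (PT.lf (nat_lit 43776) (nat_lit 6) (nat_lit 576) (nat_lit 4) (nat_lit 240) (nat_lit 277) (nat_lit 263))) (PT.nd (nat_lit 78) (PT.lf (nat_lit 45220) (nat_lit 6) (nat_lit 595) (nat_lit 4) (nat_lit 241) (nat_lit 277) (nat_lit 262)) (PT.lf (nat_lit 46588) (nat_lit 6) (nat_lit 613) (nat_lit 4) (nat_lit 242) (nat_lit 277) (nat_lit 261)))))) (PT.nd (nat_lit 546) (PT.nd (nat_lit 234) (PT.nd (nat_lit 78) (PT.lf (nat_lit 47880) (nat_lit 6) (nat_lit 630) (nat_lit 4) (nat_lit 243) (nat_lit 277) (nat_lit 260)) (PT.nd (nat_lit 78) (PT.lf (nat_lit 47804) (nat_lit 6) (nat_lit 629) (nat_lit 4) (nat_lit 244) (nat_lit 277) (nat_lit 259)) (PT.lf (nat_lit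 47728) (nat_lit 6) (nat_lit 628) (nat_lit 4) (nat_lit 245) (nat_lit 277) (nat_lit 258)))) (PT.nd (nat_lit 156) (PT.nd (nat_lit 78) (PT.lf (nat_lit 47652) (nat_lit 6) (nat_lit 627) (nat_lit 4) (nat_lit 246) (nat_lit 277) (nat_lit 257)) (PT.lf (nat_lit 47576) (nat_lit 6) (nat_lit 626) (nat_lit 4) (nat_lit 247) (nat_lit 277) (nat_lit 256))) (PT.nd (nat_lit 78) (PT.lf (nat_lit 47500) (nat_lit 6) (nat_lit 625) (nat_lit 4) (nat_lit 248) (nat_lit 277) (nat_lit 255)) (PT.lf (nat_lit 47424) (nat_lit 6) (nat_lit 624) (nat_lit 4) (nat_lit 249) (nat_lit 277) (nat_lit 254))))) (PT.nd (nat_lit 312) (PT.nd (nat_lit 156) (PT.nd (nat_lit 78) (PT.lf (nat_lit 47348) (nat_lit 6) (nat_lit 623) (nat_lit 4) (nat_lit 250) (nat_lit 277) (nat_lit 253)) (PT.lf (nat_lit 47272) (nat_lit 6) (nat_lit 622) (nat_lit 4) (nat_lit 251) (nat_lit 277) (nat_lit 252))) (PT.nd (nat_lit 78) (PT.lf (nat_lit 47272) (nat_lit 6) (nat_lit 622) (nat_lit 2) (nat_lit 252) (nat_lit 277) (nat_lit 251)) (PT.lf (nat_lit 47348) (nat_lit 6) (nat_lit 623) (nat_lit 2) (nat_lit 253) (nat_lit 277)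 (nat_lit 250)))) (PT.nd (nat_lit 156) (PT.nd (nat_lit 78) (PT.lf (nat_lit 47424) (nat_lit 6) (nat_lit 624) (nat_lit 2) (nat_lit 254) (nat_lit 277) (nat_lit 249)) (PT.lf (nat_lit 47500) (nat_lit 6) (nat_lit 625) (nat_lit 2) (nat_lit 255) (nat_lit 277) (nat_lit 248))) (PT.nd (nat_lit 78) (PT.lf (nat_lit 47576) (nat_lit 6) (nat_lit 626) (nat_lit 2) (nat_lit 256) (nat_lit 277) (nat_lit 247)) (PT.lf (nat_lit 47652) (nat_lit 6) (nat_lit 627) (nat_lit 2) (nat_lit 257) (nat_lit 277) (nat_lit 246))))))) (PT.nd (nat_lit 1092) (PT.nd (nat_lit 546) (PT.nd (nat_lit 234) (PT.nd (nat_lit 78) (PT.lf (nat_lit 47728) (nat_lit 6) (nat_lit 628) (nat_lit 2) (nat_lit 258) (nat_lit 277) (nat_lit 245)) (PT.nd (nat_lit 78) (PT.lf (nat_lit 47804) (nat_lit 6) (nat_lit 629) (nat_lit 2) (nat_lit 259) (nat_lit 277) (nat_lit 244)) (PT.lf (nat_lit 47880) (nat_lit 6) (nat_lit 630) (nat_lit 2) (nat_lit 260) (nat_lit 277) (nat_lit 243)))) (PT.nd (nat_lit 156) (PT.nd (nat_lit 78) (PT.lf (nat_lit 46588) (nat_lit 6) (nat_lit 613) (nat_lit 2) (nat_lit 261) (nat_lit 277) (nat_lit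 242)) (PT.lf (nat_lit 45220) (nat_lit 6) (nat_lit 595) (nat_lit 2) (nat_lit 262) (nat_lit 277) (nat_lit 241))) (PT.nd (nat_lit 78) (PT.lf (nat_lit 43776) (nat_lit 6) (nat_lit 576) (nat_lit 2) (nat_lit 263) (nat_lit 277) (nat_lit 240)) (PT.lf (nat_lit 42256) (nat_lit 6) (nat_lit 556) (nat_lit 2) (nat_lit 264) (nat_lit 277) (nat_lit 239))))) (PT.nd (nat_lit 234) (PT.nd (nat_lit 78) (PT.lf (nat_lit 40660) (nat_lit 6) (nat_lit 535) (nat_lit 2) (nat_lit 265) (nat_lit 277) (nat_lit 238)) (PT.nd (nat_lit 78) (PT.lf (nat_lit 38988) (nat_lit 6) (nat_lit 513) (nat_lit 2) (nat_lit 266) (nat_lit 277) (nat_lit 237)) (PT.lf (nat_lit 37240) (nat_lit 6) (nat_lit 490) (nat_lit 2) (nat_lit 267) (nat_lit 277) (nat_lit 236)))) (PT.nd (nat_lit 156) (PT.nd (nat_lit 78) (PT.lf (nat_lit 35416) (nat_lit 6) (nat_lit 466) (nat_lit 2) (nat_lit 268) (nat_lit 277) (nat_lit 235)) (PT.lf (nat_lit 34352) (nat_lit 6) (nat_lit 452) (nat_lit 2) (nat_lit 269) (nat_lit 277) (nat_lit 234))) (PT.nd (nat_lit 78) (PT.lf (nat_lit 33440) (nat_lit 6) (nat_lit 440) (nat_lit 2) (nat_lit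 270) (nat_lit 277) (nat_lit 233)) (PT.lf (nat_lit 32528) (nat_lit 6) (nat_lit 428) (nat_lit 2) (nat_lit 271) (nat_lit 277) (nat_lit 232)))))) (PT.nd (nat_lit 546) (PT.nd (nat_lit 234) (PT.nd (nat_lit 78) (PT.lf (nat_lit 31692) (nat_lit 6) (nat_lit 417) (nat_lit 2) (nat_lit 272) (nat_lit 277) (nat_lit 231)) (PT.nd (nat_lit 78) (PT.lf (nat_lit 30856) (nat_lit 6) (nat_lit 406) (nat_lit 2) (nat_lit 273) (nat_lit 277) (nat_lit 230)) (PT.lf (nat_lit 30020) (nat_lit 6) (nat_lit 395) (nat_lit 2) (nat_lit 274) (nat_lit 277) (nat_lit 229)))) (PT.nd (nat_lit 156) (PT.nd (nat_lit 78) (PT.lf (nat_lit 29184) (nat_lit 6) (nat_lit 384) (nat_lit 2) (nat_lit 275) (nat_lit 277) (nat_lit 228)) (PT.lf (nat_lit 28424) (nat_lit 6) (nat_lit 374) (nat_lit 2) (nat_lit 276) (nat_lit 277) (nat_lit 227))) (PT.nd (nat_lit 78) (PT.lf (nat_lit 27664) (nat_lit 3) (nat_lit 364) (nat_lit 0) (nat_lit 277) (nat_lit 277) (nat_lit 226)) (PT.lf (nat_lit 26904) (nat_lit 6) (nat_lit 354) (nat_lit 0) (nat_lit 278) (nat_lit 277) (nat_lit 225))))) (PT.nd (nat_lit 312) (PT.nd (nat_lit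 156) (PT.nd (nat_lit 78) (PT.lf (nat_lit 26068) (nat_lit 6) (nat_lit 343) (nat_lit 0) (nat_lit 279) (nat_lit 277) (nat_lit 224)) (PT.lf (nat_lit 25308) (nat_lit 6) (nat_lit 333) (nat_lit 0) (nat_lit 280) (nat_lit 277) (nat_lit 223))) (PT.nd (nat_lit 78) (PT.lf (nat_lit 24548) (nat_lit 6) (nat_lit 323) (nat_lit 0) (nat_lit 281) (nat_lit 277) (nat_lit 222)) (PT.lf (nat_lit 23864) (nat_lit 6) (nat_lit 314) (nat_lit 0) (nat_lit 282) (nat_lit 277) (nat_lit 221)))) (PT.nd (nat_lit 156) (PT.nd (nat_lit 78) (PT.lf (nat_lit 23104) (nat_lit 6) (nat_lit 304) (nat_lit 0) (nat_lit 283) (nat_lit 277) (nat_lit 220)) (PT.lf (nat_lit 22420) (nat_lit 6) (nat_lit 295) (nat_lit 0) (nat_lit 284) (nat_lit 277) (nat_lit 219))) (PT.nd (nat_lit 78) (PT.lf (nat_lit 21736) (nat_lit 6) (nat_lit 286) (nat_lit 0) (nat_lit 285) (nat_lit 277) (nat_lit 218)) (PT.lf (nat_lit 21052) (nat_lit 6) (nat_lit 277) (nat_lit 0) (nat_lit 286) (nat_lit 277) (nat_lit 217))))))))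
noncomputable def pc46 : PT := (PT.nd (nat_lit 77142) (PT.nd (nat_lit 76050) (PT.nd (nat_lit 75504) (PT.nd (nat_lit 234) (PT.nd (nat_lit 78) (PT.lf (nat_lit 20368) (nat_lit 6) (nat_lit 268) (nat_lit 0) (nat_lit 287) (nat_lit 277) (nat_lit 216)) (PT.nd (nat_lit 78) (PT.lf (nat_lit 19760) (nat_lit 6) (nat_lit 260) (nat_lit 0) (nat_lit 288) (nat_lit 277) (nat_lit 215)) (PT.lf (nat_lit 19152) (nat_lit 6) (nat_lit 252) (nat_lit 0) (nat_lit 289) (nat_lit 277) (nat_lit 214)))) (PT.nd (nat_lit 75114) (PT.nd (nat_lit 75036) (PT.lf (nat_lit 18544) (nat_lit 6) (nat_lit 244) (nat_lit 0) (nat_lit 290) (nat_lit 277) (nat_lit 213)) (PT.lf (nat_lit 17480) (nat_lit 6) (nat_lit 230) (nat_lit 5) (nat_lit 211) (nat_lit 278) (nat_lit 291))) (PT.nd (nat_lit 78) (PT.lf (nat_lit 18012) (nat_lit 6) (nat_lit 237) (nat_lit 5) (nat_lit 212) (nat_lit 278) (nat_lit 290)) (PT.lf (nat_lit 18620) (nat_lit 6) (nat_lit 245) (nat_lit 5) (nat_lit 213) (nat_lit 278) (nat_lit 289))))) (PT.nd (nat_lit 234) (PT.nd (nat_lit 78) (PT.lf (nat_lit 19228) (nat_lit 6) (nat_lit 253) (nat_lit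 5) (nat_lit 214) (nat_lit 278) (nat_lit 288)) (PT.nd (nat_lit 78) (PT.lf (nat_lit 19836) (nat_lit 6) (nat_lit 261) (nat_lit 5) (nat_lit 215) (nat_lit 278) (nat_lit 287)) (PT.lf (nat_lit 20444) (nat_lit 6) (nat_lit 269) (nat_lit 5) (nat_lit 216) (nat_lit 278) (nat_lit 286)))) (PT.nd (nat_lit 156) (PT.nd (nat_lit 78) (PT.lf (nat_lit 21128) (nat_lit 6) (nat_lit 278) (nat_lit 5) (nat_lit 217) (nat_lit 278) (nat_lit 285)) (PT.lf (nat_lit 21812) (nat_lit 6) (nat_lit 287) (nat_lit 5) (nat_lit 218) (nat_lit 278) (nat_lit 284))) (PT.nd (nat_lit 78) (PT.lf (nat_lit 22496) (nat_lit 6) (nat_lit 296) (nat_lit 5) (nat_lit 219) (nat_lit 278) (nat_lit 283)) (PT.lf (nat_lit 23180) (nat_lit 6) (nat_lit 305) (nat_lit 5) (nat_lit 220) (nat_lit 278) (nat_lit 282)))))) (PT.nd (nat_lit 546) (PT.nd (nat_lit 234) (PT.nd (nat_lit 78) (PT.lf (nat_lit 23940) (nat_lit 6) (nat_lit 315) (nat_lit 5) (nat_lit 221) (nat_lit 278) (nat_lit 281)) (PT.nd (nat_lit 78) (PT.lf (nat_lit 24624) (nat_lit 6) (nat_lit 324) (nat_lit 5) (nat_lit 222) (nat_lit 278) (nat_lit 280)) (PT.lf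 (nat_lit 25384) (nat_lit 6) (nat_lit 334) (nat_lit 5) (nat_lit 223) (nat_lit 278) (nat_lit 279)))) (PT.nd (nat_lit 156) (PT.nd (nat_lit 78) (PT.lf (nat_lit 26144) (nat_lit 3) (nat_lit 344) (nat_lit 4) (nat_lit 224) (nat_lit 278) (nat_lit 278)) (PT.lf (nat_lit 26904) (nat_lit 6) (nat_lit 354) (nat_lit 4) (nat_lit 225) (nat_lit 278) (nat_lit 277))) (PT.nd (nat_lit 78) (PT.lf (nat_lit 27588) (nat_lit 6) (nat_lit 363) (nat_lit 4) (nat_lit 226) (nat_lit 278) (nat_lit 276)) (PT.lf (nat_lit 28348) (nat_lit 6) (nat_lit 373) (nat_lit 4) (nat_lit 227) (nat_lit 278) (nat_lit 275))))) (PT.nd (nat_lit 234) (PT.nd (nat_lit 78) (PT.lf (nat_lit 29108) (nat_lit 6) (nat_lit 383) (nat_lit 4) (nat_lit 228) (nat_lit 278) (nat_lit 274)) (PT.nd (nat_lit 78) (PT.lf (nat_lit 29944) (nat_lit 6) (nat_lit 394) (nat_lit 4) (nat_lit 229) (nat_lit 278) (nat_lit 273)) (PT.lf (nat_lit 30780) (nat_lit 6) (nat_lit 405) (nat_lit 4) (nat_lit 230) (nat_lit 278) (nat_lit 272)))) (PT.nd (nat_lit 156) (PT.nd (nat_lit 78) (PT.lf (nat_lit 31616) (nat_lit 6) (nat_lit 416) (nat_lit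 4) (nat_lit 231) (nat_lit 278) (nat_lit 271)) (PT.lf (nat_lit 32452) (nat_lit 6) (nat_lit 427) (nat_lit 4) (nat_lit 232) (nat_lit 278) (nat_lit 270))) (PT.nd (nat_lit 78) (PT.lf (nat_lit 33364) (nat_lit 6) (nat_lit 439) (nat_lit 4) (nat_lit 233) (nat_lit 278) (nat_lit 269)) (PT.lf (nat_lit 34276) (nat_lit 6) (nat_lit 451) (nat_lit 4) (nat_lit 234) (nat_lit 278) (nat_lit 268))))))) (PT.nd (nat_lit 1092) (PT.nd (nat_lit 546) (PT.nd (nat_lit 234) (PT.nd (nat_lit 78) (PT.lf (nat_lit 35340) (nat_lit 6) (nat_lit 465) (nat_lit 4) (nat_lit 235) (nat_lit 278) (nat_lit 267)) (PT.nd (nat_lit 78) (PT.lf (nat_lit 37164) (nat_lit 6) (nat_lit 489) (nat_lit 4) (nat_lit 236) (nat_lit 278) (nat_lit 266)) (PT.lf (nat_lit 38912) (nat_lit 6) (nat_lit 512) (nat_lit 4) (nat_lit 237) (nat_lit 278) (nat_lit 265)))) (PT.nd (nat_lit 156) (PT.nd (nat_lit 78) (PT.lf (nat_lit 40584) (nat_lit 6) (nat_lit 534) (nat_lit 4) (nat_lit 238) (nat_lit 278) (nat_lit 264)) (PT.lf (nat_lit 42180) (nat_lit 6) (nat_lit 555) (nat_lit 4) (nat_lit 239) (nat_lit 278) (nat_lit 263))) (PT.nd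 (nat_lit 78) (PT.lf (nat_lit 43700) (nat_lit 6) (nat_lit 575) (nat_lit 4) (nat_lit 240) (nat_lit 278) (nat_lit 262)) (PT.lf (nat_lit 45144) (nat_lit 6) (nat_lit 594) (nat_lit 4) (nat_lit 241) (nat_lit 278) (nat_lit 261))))) (PT.nd (nat_lit 234) (PT.nd (nat_lit 78) (PT.lf (nat_lit 46512) (nat_lit 6) (nat_lit 612) (nat_lit 4) (nat_lit 242) (nat_lit 278) (nat_lit 260)) (PT.nd (nat_lit 78) (PT.lf (nat_lit 46436) (nat_lit 6) (nat_lit 611) (nat_lit 4) (nat_lit 243) (nat_lit 278) (nat_lit 259)) (PT.lf (nat_lit 46360) (nat_lit 6) (nat_lit 610) (nat_lit 4) (nat_lit 244) (nat_lit 278) (nat_lit 258)))) (PT.nd (nat_lit 156) (PT.nd (nat_lit 78) (PT.lf (nat_lit 46284) (nat_lit 6) (nat_lit 609) (nat_lit 4) (nat_lit 245) (nat_lit 278) (nat_lit 257)) (PT.lf (nat_lit 46208) (nat_lit 6) (nat_lit 608) (nat_lit 4) (nat_lit 246) (nat_lit 278) (nat_lit 256))) (PT.nd (nat_lit 78) (PT.lf (nat_lit 46132) (nat_lit 6) (nat_lit 607) (nat_lit 4) (nat_lit 247) (nat_lit 278) (nat_lit 255)) (PT.lf (nat_lit 46056) (nat_lit 6) (nat_lit 606) (nat_lit 4) (nat_lit 248) (nat_lit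 278) (nat_lit 254)))))) (PT.nd (nat_lit 546) (PT.nd (nat_lit 234) (PT.nd (nat_lit 78) (PT.lf (nat_lit 45980) (nat_lit 6) (nat_lit 605) (nat_lit 4) (nat_lit 249) (nat_lit 278) (nat_lit 253)) (PT.nd (nat_lit 78) (PT.lf (nat_lit 45904) (nat_lit 6) (nat_lit 604) (nat_lit 4) (nat_lit 250) (nat_lit 278) (nat_lit 252)) (PT.lf (nat_lit 45828) (nat_lit 3) (nat_lit 603) (nat_lit 2) (nat_lit 251) (nat_lit 278) (nat_lit 251)))) (PT.nd (nat_lit 156) (PT.nd (nat_lit 78) (PT.lf (nat_lit 45904) (nat_lit 6) (nat_lit 604) (nat_lit 2) (nat_lit 252) (nat_lit 278) (nat_lit 250)) (PT.lf (nat_lit 45980) (nat_lit 6) (nat_lit 605) (nat_lit 2) (nat_lit 253) (nat_lit 278) (nat_lit 249))) (PT.nd (nat_lit 78) (PT.lf (nat_lit 46056) (nat_lit 6) (nat_lit 606) (nat_lit 2) (nat_lit 254) (nat_lit 278) (nat_lit 248)) (PT.lf (nat_lit 46132) (nat_lit 6) (nat_lit 607) (nat_lit 2) (nat_lit 255) (nat_lit 278) (nat_lit 247))))) (PT.nd (nat_lit 312) (PT.nd (nat_lit 156) (PT.nd (nat_lit 78) (PT.lf (nat_lit 46208) (nat_lit 6) (nat_lit 608) (nat_lit 2) (nat_lit 256) (nat_lit 278) (nat_lit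 246)) (PT.lf (nat_lit 46284) (nat_lit 6) (nat_lit 609) (nat_lit 2) (nat_lit 257) (nat_lit 278) (nat_lit 245))) (PT.nd (nat_lit 78) (PT.lf (nat_lit 46360) (nat_lit 6) (nat_lit 610) (nat_lit 2) (nat_lit 258) (nat_lit 278) (nat_lit 244)) (PT.lf (nat_lit 46436) (nat_lit 6) (nat_lit 611) (nat_lit 2) (nat_lit 259) (nat_lit 278) (nat_lit 243)))) (PT.nd (nat_lit 156) (PT.nd (nat_lit 78) (PT.lf (nat_lit 46512) (nat_lit 6) (nat_lit 612) (nat_lit 2) (nat_lit 260) (nat_lit 278) (nat_lit 242)) (PT.lf (nat_lit 45144) (nat_lit 6) (nat_lit 594) (nat_lit 2) (nat_lit 261) (nat_lit 278) (nat_lit 241))) (PT.nd (nat_lit 78) (PT.lf (nat_lit 43700) (nat_lit 6) (nat_lit 575) (nat_lit 2) (nat_lit 262) (nat_lit 278) (nat_lit 240)) (PT.lf (nat_lit 42180) (nat_lit 6) (nat_lit 555) (nat_lit 2) (nat_lit 263) (nat_lit 278) (nat_lit 239))))))))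
noncomputable def pc47 : PT := (PT.nd (nat_lit 77064) (PT.nd (nat_lit 1092) (PT.nd (nat_lit 546) (PT.nd (nat_lit 234) (PT.nd (nat_lit 78) (PT.lf (nat_lit 40584) (nat_lit 6) (nat_lit 534) (nat_lit 2) (nat_lit 264) (nat_lit 278) (nat_lit 238)) (PT.nd (nat_lit 78) (PT.lf (nat_lit 38912) (nat_lit 6) (nat_lit 512) (nat_lit 2) (nat_lit 265) (nat_lit 278) (nat_lit 237)) (PT.lf (nat_lit 37164) (nat_lit 6) (nat_lit 489) (nat_lit 2) (nat_lit 266) (nat_lit 278) (nat_lit 236)))) (PT.nd (nat_lit 156) (PT.nd (nat_lit 78) (PT.lf (nat_lit 35340) (nat_lit 6) (nat_lit 465) (nat_lit 2) (nat_lit 267) (nat_lit 278) (nat_lit 235)) (PT.lf (nat_lit 34276) (nat_lit 6) (nat_lit 451) (nat_lit 2) (nat_lit 268) (nat_lit 278) (nat_lit 234))) (PT.nd (nat_lit 78) (PT.lf (nat_lit 33364) (nat_lit 6) (nat_lit 439) (nat_lit 2) (nat_lit 269) (nat_lit 278) (nat_lit 233)) (PT.lf (nat_lit 32452) (nat_lit 6) (nat_lit 427) (nat_lit 2) (nat_lit 270) (nat_lit 278) (nat_lit 232))))) (PT.nd (nat_lit 234) (PT.nd (nat_lit 78) (PT.lf (nat_lit 31616) (nat_lit 6) (nat_lit 416) (nat_lit 2)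 (nat_lit 271) (nat_lit 278) (nat_lit 231)) (PT.nd (nat_lit 78) (PT.lf (nat_lit 30780) (nat_lit 6) (nat_lit 405) (nat_lit 2) (nat_lit 272) (nat_lit 278) (nat_lit 230)) (PT.lf (nat_lit 29944) (nat_lit 6) (nat_lit 394) (nat_lit 2) (nat_lit 273) (nat_lit 278) (nat_lit 229)))) (PT.nd (nat_lit 156) (PT.nd (nat_lit 78) (PT.lf (nat_lit 29108) (nat_lit 6) (nat_lit 383) (nat_lit 2) (nat_lit 274) (nat_lit 278) (nat_lit 228)) (PT.lf (nat_lit 28348) (nat_lit 6) (nat_lit 373) (nat_lit 2) (nat_lit 275) (nat_lit 278) (nat_lit 227))) (PT.nd (nat_lit 78) (PT.lf (nat_lit 27588) (nat_lit 6) (nat_lit 363) (nat_lit 2) (nat_lit 276) (nat_lit 278) (nat_lit 226)) (PT.lf (nat_lit 26904) (nat_lit 6) (nat_lit 354) (nat_lit 2) (nat_lit 277) (nat_lit 278) (nat_lit 225)))))) (PT.nd (nat_lit 546) (PT.nd (nat_lit 234) (PT.nd (nat_lit 78) (PT.lf (nat_lit 26144) (nat_lit 3) (nat_lit 344) (nat_lit 0) (nat_lit 278) (nat_lit 278) (nat_lit 224)) (PT.nd (nat_lit 78) (PT.lf (nat_lit 25384) (nat_lit 6) (nat_lit 334) (nat_lit 0) (nat_lit 279) (nat_lit 278) (nat_lit 223)) (PT.lf (nat_lit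 24624) (nat_lit 6) (nat_lit 324) (nat_lit 0) (nat_lit 280) (nat_lit 278) (nat_lit 222)))) (PT.nd (nat_lit 156) (PT.nd (nat_lit 78) (PT.lf (nat_lit 23940) (nat_lit 6) (nat_lit 315) (nat_lit 0) (nat_lit 281) (nat_lit 278) (nat_lit 221)) (PT.lf (nat_lit 23180) (nat_lit 6) (nat_lit 305) (nat_lit 0) (nat_lit 282) (nat_lit 278) (nat_lit 220))) (PT.nd (nat_lit 78) (PT.lf (nat_lit 22496) (nat_lit 6) (nat_lit 296) (nat_lit 0) (nat_lit 283) (nat_lit 278) (nat_lit 219)) (PT.lf (nat_lit 21812) (nat_lit 6) (nat_lit 287) (nat_lit 0) (nat_lit 284) (nat_lit 278) (nat_lit 218))))) (PT.nd (nat_lit 312) (PT.nd (nat_lit 156) (PT.nd (nat_lit 78) (PT.lf (nat_lit 21128) (nat_lit 6) (nat_lit 278) (nat_lit 0) (nat_lit 285) (nat_lit 278) (nat_lit 217)) (PT.lf (nat_lit 20444) (nat_lit 6) (nat_lit 269) (nat_lit 0) (nat_lit 286) (nat_lit 278) (nat_lit 216))) (PT.nd (nat_lit 78) (PT.lf (nat_lit 19836) (nat_lit 6) (nat_lit 261) (nat_lit 0) (nat_lit 287) (nat_lit 278) (nat_lit 215)) (PT.lf (nat_lit 19228) (nat_lit 6) (nat_lit 253) (nat_lit 0) (nat_lit 288) (nat_lit 278)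 (nat_lit 214)))) (PT.nd (nat_lit 156) (PT.nd (nat_lit 78) (PT.lf (nat_lit 18620) (nat_lit 6) (nat_lit 245) (nat_lit 0) (nat_lit 289) (nat_lit 278) (nat_lit 213)) (PT.lf (nat_lit 18012) (nat_lit 6) (nat_lit 237) (nat_lit 0) (nat_lit 290) (nat_lit 278) (nat_lit 212))) (PT.nd (nat_lit 74880) (PT.lf (nat_lit 17480) (nat_lit 6) (nat_lit 230) (nat_lit 0) (nat_lit 291) (nat_lit 278) (nat_lit 211)) (PT.lf (nat_lit 16948) (nat_lit 6) (nat_lit 223) (nat_lit 5) (nat_lit 210) (nat_lit 279) (nat_lit 291))))))) (PT.nd (nat_lit 1092) (PT.nd (nat_lit 546) (PT.nd (nat_lit 234) (PT.nd (nat_lit 78) (PT.lf (nat_lit 17556) (nat_lit 6) (nat_lit 231) (nat_lit 5) (nat_lit 211) (nat_lit 279) (nat_lit 290)) (PT.nd (nat_lit 78) (PT.lf (nat_lit 18088) (nat_lit 6) (nat_lit 238) (nat_lit 5) (nat_lit 212) (nat_lit 279) (nat_lit 289)) (PT.lf (nat_lit 18696) (nat_lit 6) (nat_lit 246) (nat_lit 5) (nat_lit 213) (nat_lit 279) (nat_lit 288)))) (PT.nd (nat_lit 156) (PT.nd (nat_lit 78) (PT.lf (nat_lit 19304) (nat_lit 6) (nat_lit 254) (nat_lit 5) (nat_lit 214) (nat_lit 279) (nat_lit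 287)) (PT.lf (nat_lit 19912) (nat_lit 6) (nat_lit 262) (nat_lit 5) (nat_lit 215) (nat_lit 279) (nat_lit 286))) (PT.nd (nat_lit 78) (PT.lf (nat_lit 20520) (nat_lit 6) (nat_lit 270) (nat_lit 5) (nat_lit 216) (nat_lit 279) (nat_lit 285)) (PT.lf (nat_lit 21204) (nat_lit 6) (nat_lit 279) (nat_lit 5) (nat_lit 217) (nat_lit 279) (nat_lit 284))))) (PT.nd (nat_lit 234) (PT.nd (nat_lit 78) (PT.lf (nat_lit 21888) (nat_lit 6) (nat_lit 288) (nat_lit 5) (nat_lit 218) (nat_lit 279) (nat_lit 283)) (PT.nd (nat_lit 78) (PT.lf (nat_lit 22572) (nat_lit 6) (nat_lit 297) (nat_lit 5) (nat_lit 219) (nat_lit 279) (nat_lit 282)) (PT.lf (nat_lit 23256) (nat_lit 6) (nat_lit 306) (nat_lit 5) (nat_lit 220) (nat_lit 279) (nat_lit 281)))) (PT.nd (nat_lit 156) (PT.nd (nat_lit 78) (PT.lf (nat_lit 24016) (nat_lit 6) (nat_lit 316) (nat_lit 5) (nat_lit 221) (nat_lit 279) (nat_lit 280)) (PT.lf (nat_lit 24700) (nat_lit 3) (nat_lit 325) (nat_lit 4) (nat_lit 222) (nat_lit 279) (nat_lit 279))) (PT.nd (nat_lit 78) (PT.lf (nat_lit 25384) (nat_lit 6) (nat_lit 334) (nat_lit 4) (nat_lit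 223) (nat_lit 279) (nat_lit 278)) (PT.lf (nat_lit 26068) (nat_lit 6) (nat_lit 343) (nat_lit 4) (nat_lit 224) (nat_lit 279) (nat_lit 277)))))) (PT.nd (nat_lit 546) (PT.nd (nat_lit 234) (PT.nd (nat_lit 78) (PT.lf (nat_lit 26828) (nat_lit 6) (nat_lit 353) (nat_lit 4) (nat_lit 225) (nat_lit 279) (nat_lit 276)) (PT.nd (nat_lit 78) (PT.lf (nat_lit 27512) (nat_lit 6) (nat_lit 362) (nat_lit 4) (nat_lit 226) (nat_lit 279) (nat_lit 275)) (PT.lf (nat_lit 28272) (nat_lit 6) (nat_lit 372) (nat_lit 4) (nat_lit 227) (nat_lit 279) (nat_lit 274)))) (PT.nd (nat_lit 156) (PT.nd (nat_lit 78) (PT.lf (nat_lit 29032) (nat_lit 6) (nat_lit 382) (nat_lit 4) (nat_lit 228) (nat_lit 279) (nat_lit 273)) (PT.lf (nat_lit 29868) (nat_lit 6) (nat_lit 393) (nat_lit 4) (nat_lit 229) (nat_lit 279) (nat_lit 272))) (PT.nd (nat_lit 78) (PT.lf (nat_lit 30704) (nat_lit 6) (nat_lit 404) (nat_lit 4) (nat_lit 230) (nat_lit 279) (nat_lit 271)) (PT.lf (nat_lit 31540) (nat_lit 6) (nat_lit 415) (nat_lit 4) (nat_lit 231) (nat_lit 279) (nat_lit 270))))) (PT.nd (nat_lit 312) (PT.nd (nat_lit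 156) (PT.nd (nat_lit 78) (PT.lf (nat_lit 32376) (nat_lit 6) (nat_lit 426) (nat_lit 4) (nat_lit 232) (nat_lit 279) (nat_lit 269)) (PT.lf (nat_lit 33288) (nat_lit 6) (nat_lit 438) (nat_lit 4) (nat_lit 233) (nat_lit 279) (nat_lit 268))) (PT.nd (nat_lit 78) (PT.lf (nat_lit 34200) (nat_lit 6) (nat_lit 450) (nat_lit 4) (nat_lit 234) (nat_lit 279) (nat_lit 267)) (PT.lf (nat_lit 35264) (nat_lit 6) (nat_lit 464) (nat_lit 4) (nat_lit 235) (nat_lit 279) (nat_lit 266)))) (PT.nd (nat_lit 156) (PT.nd (nat_lit 78) (PT.lf (nat_lit 37088) (nat_lit 6) (nat_lit 488) (nat_lit 4) (nat_lit 236) (nat_lit 279) (nat_lit 265)) (PT.lf (nat_lit 38836) (nat_lit 6) (nat_lit 511) (nat_lit 4) (nat_lit 237) (nat_lit 279) (nat_lit 264))) (PT.nd (nat_lit 78) (PT.lf (nat_lit 40508) (nat_lit 6) (nat_lit 533) (nat_lit 4) (nat_lit 238) (nat_lit 279) (nat_lit 263)) (PT.lf (nat_lit 42104) (nat_lit 6) (nat_lit 554) (nat_lit 4) (nat_lit 239) (nat_lit 279) (nat_lit 262))))))))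
noncomputable def pc48 : PT := (PT.nd (nat_lit 2184) (PT.nd (nat_lit 1092) (PT.nd (nat_lit 546) (PT.nd (nat_lit 234) (PT.nd (nat_lit 78) (PT.lf (nat_lit 43624) (nat_lit 6) (nat_lit 574) (nat_lit 4) (nat_lit 240) (nat_lit 279) (nat_lit 261)) (PT.nd (nat_lit 78) (PT.lf (nat_lit 45068) (nat_lit 6) (nat_lit 593) (nat_lit 4) (nat_lit 241) (nat_lit 279) (nat_lit 260)) (PT.lf (nat_lit 44992) (nat_lit 6) (nat_lit 592) (nat_lit 4) (nat_lit 242) (nat_lit 279) (nat_lit 259)))) (PT.nd (nat_lit 156) (PT.nd (nat_lit 78) (PT.lf (nat_lit 44916) (nat_lit 6) (nat_lit 591) (nat_lit 4) (nat_lit 243) (nat_lit 279) (nat_lit 258)) (PT.lf (nat_lit 44840) (nat_lit 6) (nat_lit 590) (nat_lit 4) (nat_lit 244) (nat_lit 279) (nat_lit 257))) (PT.nd (nat_lit 78) (PT.lf (nat_lit 44764) (nat_lit 6) (nat_lit 589) (nat_lit 4) (nat_lit 245) (nat_lit 279) (nat_lit 256)) (PT.lf (nat_lit 44688) (nat_lit 6) (nat_lit 588) (nat_lit 4) (nat_lit 246) (nat_lit 279) (nat_lit 255))))) (PT.nd (nat_lit 234) (PT.nd (nat_lit 78) (PT.lf (nat_lit 44612) (nat_lit 6) (nat_lit 587) (nat_lit 4)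 (nat_lit 247) (nat_lit 279) (nat_lit 254)) (PT.nd (nat_lit 78) (PT.lf (nat_lit 44536) (nat_lit 6) (nat_lit 586) (nat_lit 4) (nat_lit 248) (nat_lit 279) (nat_lit 253)) (PT.lf (nat_lit 44460) (nat_lit 6) (nat_lit 585) (nat_lit 4) (nat_lit 249) (nat_lit 279) (nat_lit 252)))) (PT.nd (nat_lit 156) (PT.nd (nat_lit 78) (PT.lf (nat_lit 44384) (nat_lit 6) (nat_lit 584) (nat_lit 4) (nat_lit 250) (nat_lit 279) (nat_lit 251)) (PT.lf (nat_lit 44384) (nat_lit 6) (nat_lit 584) (nat_lit 2) (nat_lit 251) (nat_lit 279) (nat_lit 250))) (PT.nd (nat_lit 78) (PT.lf (nat_lit 44460) (nat_lit 6) (nat_lit 585) (nat_lit 2) (nat_lit 252) (nat_lit 279) (nat_lit 249)) (PT.lf (nat_lit 44536) (nat_lit 6) (nat_lit 586) (nat_lit 2) (nat_lit 253) (nat_lit 279) (nat_lit 248)))))) (PT.nd (nat_lit 546) (PT.nd (nat_lit 234) (PT.nd (nat_lit 78) (PT.lf (nat_lit 44612) (nat_lit 6) (nat_lit 587) (nat_lit 2) (nat_lit 254) (nat_lit 279) (nat_lit 247)) (PT.nd (nat_lit 78) (PT.lf (nat_lit 44688) (nat_lit 6) (nat_lit 588) (nat_lit 2) (nat_lit 255) (nat_lit 279) (nat_lit 246)) (PT.lf (nat_lit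 44764) (nat_lit 6) (nat_lit 589) (nat_lit 2) (nat_lit 256) (nat_lit 279) (nat_lit 245)))) (PT.nd (nat_lit 156) (PT.nd (nat_lit 78) (PT.lf (nat_lit 44840) (nat_lit 6) (nat_lit 590) (nat_lit 2) (nat_lit 257) (nat_lit 279) (nat_lit 244)) (PT.lf (nat_lit 44916) (nat_lit 6) (nat_lit 591) (nat_lit 2) (nat_lit 258) (nat_lit 279) (nat_lit 243))) (PT.nd (nat_lit 78) (PT.lf (nat_lit 44992) (nat_lit 6) (nat_lit 592) (nat_lit 2) (nat_lit 259) (nat_lit 279) (nat_lit 242)) (PT.lf (nat_lit 45068) (nat_lit 6) (nat_lit 593) (nat_lit 2) (nat_lit 260) (nat_lit 279) (nat_lit 241))))) (PT.nd (nat_lit 234) (PT.nd (nat_lit 78) (PT.lf (nat_lit 43624) (nat_lit 6) (nat_lit 574) (nat_lit 2) (nat_lit 261) (nat_lit 279) (nat_lit 240)) (PT.nd (nat_lit 78) (PT.lf (nat_lit 42104) (nat_lit 6) (nat_lit 554) (nat_lit 2) (nat_lit 262) (nat_lit 279) (nat_lit 239)) (PT.lf (nat_lit 40508) (nat_lit 6) (nat_lit 533) (nat_lit 2) (nat_lit 263) (nat_lit 279) (nat_lit 238)))) (PT.nd (nat_lit 156) (PT.nd (nat_lit 78) (PT.lf (nat_lit 38836) (nat_lit 6) (nat_lit 511) (nat_lit 2) (nat_lit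 264) (nat_lit 279) (nat_lit 237)) (PT.lf (nat_lit 37088) (nat_lit 6) (nat_lit 488) (nat_lit 2) (nat_lit 265) (nat_lit 279) (nat_lit 236))) (PT.nd (nat_lit 78) (PT.lf (nat_lit 35264) (nat_lit 6) (nat_lit 464) (nat_lit 2) (nat_lit 266) (nat_lit 279) (nat_lit 235)) (PT.lf (nat_lit 34200) (nat_lit 6) (nat_lit 450) (nat_lit 2) (nat_lit 267) (nat_lit 279) (nat_lit 234))))))) (PT.nd (nat_lit 1092) (PT.nd (nat_lit 546) (PT.nd (nat_lit 234) (PT.nd (nat_lit 78) (PT.lf (nat_lit 33288) (nat_lit 6) (nat_lit 438) (nat_lit 2) (nat_lit 268) (nat_lit 279) (nat_lit 233)) (PT.nd (nat_lit 78) (PT.lf (nat_lit 32376) (nat_lit 6) (nat_lit 426) (nat_lit 2) (nat_lit 269) (nat_lit 279) (nat_lit 232)) (PT.lf (nat_lit 31540) (nat_lit 6) (nat_lit 415) (nat_lit 2) (nat_lit 270) (nat_lit 279) (nat_lit 231)))) (PT.nd (nat_lit 156) (PT.nd (nat_lit 78) (PT.lf (nat_lit 30704) (nat_lit 6) (nat_lit 404) (nat_lit 2) (nat_lit 271) (nat_lit 279) (nat_lit 230)) (PT.lf (nat_lit 29868) (nat_lit 6) (nat_lit 393) (nat_lit 2) (nat_lit 272) (nat_lit 279) (nat_lit 229))) (PT.nd (nat_lit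 78) (PT.lf (nat_lit 29032) (nat_lit 6) (nat_lit 382) (nat_lit 2) (nat_lit 273) (nat_lit 279) (nat_lit 228)) (PT.lf (nat_lit 28272) (nat_lit 6) (nat_lit 372) (nat_lit 2) (nat_lit 274) (nat_lit 279) (nat_lit 227))))) (PT.nd (nat_lit 234) (PT.nd (nat_lit 78) (PT.lf (nat_lit 27512) (nat_lit 6) (nat_lit 362) (nat_lit 2) (nat_lit 275) (nat_lit 279) (nat_lit 226)) (PT.nd (nat_lit 78) (PT.lf (nat_lit 26828) (nat_lit 6) (nat_lit 353) (nat_lit 2) (nat_lit 276) (nat_lit 279) (nat_lit 225)) (PT.lf (nat_lit 26068) (nat_lit 6) (nat_lit 343) (nat_lit 2) (nat_lit 277) (nat_lit 279) (nat_lit 224)))) (PT.nd (nat_lit 156) (PT.nd (nat_lit 78) (PT.lf (nat_lit 25384) (nat_lit 6) (nat_lit 334) (nat_lit 2) (nat_lit 278) (nat_lit 279) (nat_lit 223)) (PT.lf (nat_lit 24700) (nat_lit 3) (nat_lit 325) (nat_lit 0) (nat_lit 279) (nat_lit 279) (nat_lit 222))) (PT.nd (nat_lit 78) (PT.lf (nat_lit 24016) (nat_lit 6) (nat_lit 316) (nat_lit 0) (nat_lit 280) (nat_lit 279) (nat_lit 221)) (PT.lf (nat_lit 23256) (nat_lit 6) (nat_lit 306) (nat_lit 0) (nat_lit 281) (nat_lit 279)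 (nat_lit 220)))))) (PT.nd (nat_lit 546) (PT.nd (nat_lit 234) (PT.nd (nat_lit 78) (PT.lf (nat_lit 22572) (nat_lit 6) (nat_lit 297) (nat_lit 0) (nat_lit 282) (nat_lit 279) (nat_lit 219)) (PT.nd (nat_lit 78) (PT.lf (nat_lit 21888) (nat_lit 6) (nat_lit 288) (nat_lit 0) (nat_lit 283) (nat_lit 279) (nat_lit 218)) (PT.lf (nat_lit 21204) (nat_lit 6) (nat_lit 279) (nat_lit 0) (nat_lit 284) (nat_lit 279) (nat_lit 217)))) (PT.nd (nat_lit 156) (PT.nd (nat_lit 78) (PT.lf (nat_lit 20520) (nat_lit 6) (nat_lit 270) (nat_lit 0) (nat_lit 285) (nat_lit 279) (nat_lit 216)) (PT.lf (nat_lit 19912) (nat_lit 6) (nat_lit 262) (nat_lit 0) (nat_lit 286) (nat_lit 279) (nat_lit 215))) (PT.nd (nat_lit 78) (PT.lf (nat_lit 19304) (nat_lit 6) (nat_lit 254) (nat_lit 0) (nat_lit 287) (nat_lit 279) (nat_lit 214)) (PT.lf (nat_lit 18696) (nat_lit 6) (nat_lit 246) (nat_lit 0) (nat_lit 288) (nat_lit 279) (nat_lit 213))))) (PT.nd (nat_lit 74958) (PT.nd (nat_lit 156) (PT.nd (nat_lit 78) (PT.lf (nat_lit 18088) (nat_lit 6) (nat_lit 238) (nat_lit 0) (nat_lit 289) (nat_lit 279) (nat_lit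 212)) (PT.lf (nat_lit 17556) (nat_lit 6) (nat_lit 231) (nat_lit 0) (nat_lit 290) (nat_lit 279) (nat_lit 211))) (PT.nd (nat_lit 74724) (PT.lf (nat_lit 16948) (nat_lit 6) (nat_lit 223) (nat_lit 0) (nat_lit 291) (nat_lit 279) (nat_lit 210)) (PT.lf (nat_lit 15960) (nat_lit 6) (nat_lit 210) (nat_lit 5) (nat_lit 208) (nat_lit 280) (nat_lit 292)))) (PT.nd (nat_lit 156) (PT.nd (nat_lit 78) (PT.lf (nat_lit 16492) (nat_lit 6) (nat_lit 217) (nat_lit 5) (nat_lit 209) (nat_lit 280) (nat_lit 291)) (PT.lf (nat_lit 17024) (nat_lit 6) (nat_lit 224) (nat_lit 5) (nat_lit 210) (nat_lit 280) (nat_lit 290))) (PT.nd (nat_lit 78) (PT.lf (nat_lit 17632) (nat_lit 6) (nat_lit 232) (nat_lit 5) (nat_lit 211) (nat_lit 280) (nat_lit 289)) (PT.lf (nat_lit 18164) (nat_lit 6) (nat_lit 239) (nat_lit 5) (nat_lit 212) (nat_lit 280) (nat_lit 288))))))))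
noncomputable def pc49 : PT := (PT.nd (nat_lit 2262) (PT.nd (nat_lit 1092) (PT.nd (nat_lit 546) (PT.nd (nat_lit 234) (PT.nd (nat_lit 78) (PT.lf (nat_lit 18772) (nat_lit 6) (nat_lit 247) (nat_lit 5) (nat_lit 213) (nat_lit 280) (nat_lit 287)) (PT.nd (nat_lit 78) (PT.lf (nat_lit 19380) (nat_lit 6) (nat_lit 255) (nat_lit 5) (nat_lit 214) (nat_lit 280) (nat_lit 286)) (PT.lf (nat_lit 19988) (nat_lit 6) (nat_lit 263) (nat_lit 5) (nat_lit 215) (nat_lit 280) (nat_lit 285)))) (PT.nd (nat_lit 156) (PT.nd (nat_lit 78) (PT.lf (nat_lit 20596) (nat_lit 6) (nat_lit 271) (nat_lit 5) (nat_lit 216) (nat_lit 280) (nat_lit 284)) (PT.lf (nat_lit 21280) (nat_lit 6) (nat_lit 280) (nat_lit 5) (nat_lit 217) (nat_lit 280) (nat_lit 283))) (PT.nd (nat_lit 78) (PT.lf (nat_lit 21964) (nat_lit 6) (nat_lit 289) (nat_lit 5) (nat_lit 218) (nat_lit 280) (nat_lit 282)) (PT.lf (nat_lit 22648) (nat_lit 6) (nat_lit 298) (nat_lit 5) (nat_lit 219) (nat_lit 280) (nat_lit 281))))) (PT.nd (nat_lit 234) (PT.nd (nat_lit 78) (PT.lf (nat_lit 23332) (nat_lit 3) (nat_lit 307) (nat_lit 4)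 (nat_lit 220) (nat_lit 280) (nat_lit 280)) (PT.nd (nat_lit 78) (PT.lf (nat_lit 24016) (nat_lit 6) (nat_lit 316) (nat_lit 4) (nat_lit 221) (nat_lit 280) (nat_lit 279)) (PT.lf (nat_lit 24624) (nat_lit 6) (nat_lit 324) (nat_lit 4) (nat_lit 222) (nat_lit 280) (nat_lit 278)))) (PT.nd (nat_lit 156) (PT.nd (nat_lit 78) (PT.lf (nat_lit 25308) (nat_lit 6) (nat_lit 333) (nat_lit 4) (nat_lit 223) (nat_lit 280) (nat_lit 277)) (PT.lf (nat_lit 25992) (nat_lit 6) (nat_lit 342) (nat_lit 4) (nat_lit 224) (nat_lit 280) (nat_lit 276))) (PT.nd (nat_lit 78) (PT.lf (nat_lit 26752) (nat_lit 6) (nat_lit 352) (nat_lit 4) (nat_lit 225) (nat_lit 280) (nat_lit 275)) (PT.lf (nat_lit 27436) (nat_lit 6) (nat_lit 361) (nat_lit 4) (nat_lit 226) (nat_lit 280) (nat_lit 274)))))) (PT.nd (nat_lit 546) (PT.nd (nat_lit 234) (PT.nd (nat_lit 78) (PT.lf (nat_lit 28196) (nat_lit 6) (nat_lit 371) (nat_lit 4) (nat_lit 227) (nat_lit 280) (nat_lit 273)) (PT.nd (nat_lit 78) (PT.lf (nat_lit 28956) (nat_lit 6) (nat_lit 381) (nat_lit 4) (nat_lit 228) (nat_lit 280) (nat_lit 272)) (PT.lf (nat_lit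 29792) (nat_lit 6) (nat_lit 392) (nat_lit 4) (nat_lit 229) (nat_lit 280) (nat_lit 271)))) (PT.nd (nat_lit 156) (PT.nd (nat_lit 78) (PT.lf (nat_lit 30628) (nat_lit 6) (nat_lit 403) (nat_lit 4) (nat_lit 230) (nat_lit 280) (nat_lit 270)) (PT.lf (nat_lit 31464) (nat_lit 6) (nat_lit 414) (nat_lit 4) (nat_lit 231) (nat_lit 280) (nat_lit 269))) (PT.nd (nat_lit 78) (PT.lf (nat_lit 32300) (nat_lit 6) (nat_lit 425) (nat_lit 4) (nat_lit 232) (nat_lit 280) (nat_lit 268)) (PT.lf (nat_lit 33212) (nat_lit 6) (nat_lit 437) (nat_lit 4) (nat_lit 233) (nat_lit 280) (nat_lit 267))))) (PT.nd (nat_lit 312) (PT.nd (nat_lit 156) (PT.nd (nat_lit 78) (PT.lf (nat_lit 34124) (nat_lit 6) (nat_lit 449) (nat_lit 4) (nat_lit 234) (nat_lit 280) (nat_lit 266)) (PT.lf (nat_lit 35188) (nat_lit 6) (nat_lit 463) (nat_lit 4) (nat_lit 235) (nat_lit 280) (nat_lit 265))) (PT.nd (nat_lit 78) (PT.lf (nat_lit 37012) (nat_lit 6) (nat_lit 487) (nat_lit 4) (nat_lit 236) (nat_lit 280) (nat_lit 264)) (PT.lf (nat_lit 38760) (nat_lit 6) (nat_lit 510) (nat_lit 4) (nat_lit 237) (nat_lit 280)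 (nat_lit 263)))) (PT.nd (nat_lit 156) (PT.nd (nat_lit 78) (PT.lf (nat_lit 40432) (nat_lit 6) (nat_lit 532) (nat_lit 4) (nat_lit 238) (nat_lit 280) (nat_lit 262)) (PT.lf (nat_lit 42028) (nat_lit 6) (nat_lit 553) (nat_lit 4) (nat_lit 239) (nat_lit 280) (nat_lit 261))) (PT.nd (nat_lit 78) (PT.lf (nat_lit 43548) (nat_lit 6) (nat_lit 573) (nat_lit 4) (nat_lit 240) (nat_lit 280) (nat_lit 260)) (PT.lf (nat_lit 43472) (nat_lit 6) (nat_lit 572) (nat_lit 4) (nat_lit 241) (nat_lit 280) (nat_lit 259))))))) (PT.nd (nat_lit 1092) (PT.nd (nat_lit 546) (PT.nd (nat_lit 234) (PT.nd (nat_lit 78) (PT.lf (nat_lit 43396) (nat_lit 6) (nat_lit 571) (nat_lit 4) (nat_lit 242) (nat_lit 280) (nat_lit 258)) (PT.nd (nat_lit 78) (PT.lf (nat_lit 43320) (nat_lit 6) (nat_lit 570) (nat_lit 4) (nat_lit 243) (nat_lit 280) (nat_lit 257)) (PT.lf (nat_lit 43244) (nat_lit 6) (nat_lit 569) (nat_lit 4) (nat_lit 244) (nat_lit 280) (nat_lit 256)))) (PT.nd (nat_lit 156) (PT.nd (nat_lit 78) (PT.lf (nat_lit 43168) (nat_lit 6) (nat_lit 568) (nat_lit 4) (nat_lit 245) (nat_lit 280) (nat_lit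 255)) (PT.lf (nat_lit 43092) (nat_lit 6) (nat_lit 567) (nat_lit 4) (nat_lit 246) (nat_lit 280) (nat_lit 254))) (PT.nd (nat_lit 78) (PT.lf (nat_lit 43016) (nat_lit 6) (nat_lit 566) (nat_lit 4) (nat_lit 247) (nat_lit 280) (nat_lit 253)) (PT.lf (nat_lit 42940) (nat_lit 6) (nat_lit 565) (nat_lit 4) (nat_lit 248) (nat_lit 280) (nat_lit 252))))) (PT.nd (nat_lit 234) (PT.nd (nat_lit 78) (PT.lf (nat_lit 42864) (nat_lit 6) (nat_lit 564) (nat_lit 4) (nat_lit 249) (nat_lit 280) (nat_lit 251)) (PT.nd (nat_lit 78) (PT.lf (nat_lit 42788) (nat_lit 3) (nat_lit 563) (nat_lit 2) (nat_lit 250) (nat_lit 280) (nat_lit 250)) (PT.lf (nat_lit 42864) (nat_lit 6) (nat_lit 564) (nat_lit 2) (nat_lit 251) (nat_lit 280) (nat_lit 249)))) (PT.nd (nat_lit 156) (PT.nd (nat_lit 78) (PT.lf (nat_lit 42940) (nat_lit 6) (nat_lit 565) (nat_lit 2) (nat_lit 252) (nat_lit 280) (nat_lit 248)) (PT.lf (nat_lit 43016) (nat_lit 6) (nat_lit 566) (nat_lit 2) (nat_lit 253) (nat_lit 280) (nat_lit 247))) (PT.nd (nat_lit 78) (PT.lf (nat_lit 43092) (nat_lit 6) (nat_lit 567) (nat_lit 2) (nat_lit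 254) (nat_lit 280) (nat_lit 246)) (PT.lf (nat_lit 43168) (nat_lit 6) (nat_lit 568) (nat_lit 2) (nat_lit 255) (nat_lit 280) (nat_lit 245)))))) (PT.nd (nat_lit 546) (PT.nd (nat_lit 234) (PT.nd (nat_lit 78) (PT.lf (nat_lit 43244) (nat_lit 6) (nat_lit 569) (nat_lit 2) (nat_lit 256) (nat_lit 280) (nat_lit 244)) (PT.nd (nat_lit 78) (PT.lf (nat_lit 43320) (nat_lit 6) (nat_lit 570) (nat_lit 2) (nat_lit 257) (nat_lit 280) (nat_lit 243)) (PT.lf (nat_lit 43396) (nat_lit 6) (nat_lit 571) (nat_lit 2) (nat_lit 258) (nat_lit 280) (nat_lit 242)))) (PT.nd (nat_lit 156) (PT.nd (nat_lit 78) (PT.lf (nat_lit 43472) (nat_lit 6) (nat_lit 572) (nat_lit 2) (nat_lit 259) (nat_lit 280) (nat_lit 241)) (PT.lf (nat_lit 43548) (nat_lit 6) (nat_lit 573) (nat_lit 2) (nat_lit 260) (nat_lit 280) (nat_lit 240))) (PT.nd (nat_lit 78) (PT.lf (nat_lit 42028) (nat_lit 6) (nat_lit 553) (nat_lit 2) (nat_lit 261) (nat_lit 280) (nat_lit 239)) (PT.lf (nat_lit 40432) (nat_lit 6) (nat_lit 532) (nat_lit 2) (nat_lit 262) (nat_lit 280) (nat_lit 238))))) (PT.nd (nat_lit 312) (PT.nd (nat_lit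 156) (PT.nd (nat_lit 78) (PT.lf (nat_lit 38760) (nat_lit 6) (nat_lit 510) (nat_lit 2) (nat_lit 263) (nat_lit 280) (nat_lit 237)) (PT.lf (nat_lit 37012) (nat_lit 6) (nat_lit 487) (nat_lit 2) (nat_lit 264) (nat_lit 280) (nat_lit 236))) (PT.nd (nat_lit 78) (PT.lf (nat_lit 35188) (nat_lit 6) (nat_lit 463) (nat_lit 2) (nat_lit 265) (nat_lit 280) (nat_lit 235)) (PT.lf (nat_lit 34124) (nat_lit 6) (nat_lit 449) (nat_lit 2) (nat_lit 266) (nat_lit 280) (nat_lit 234)))) (PT.nd (nat_lit 156) (PT.nd (nat_lit 78) (PT.lf (nat_lit 33212) (nat_lit 6) (nat_lit 437) (nat_lit 2) (nat_lit 267) (nat_lit 280) (nat_lit 233)) (PT.lf (nat_lit 32300) (nat_lit 6) (nat_lit 425) (nat_lit 2) (nat_lit 268) (nat_lit 280) (nat_lit 232))) (PT.nd (nat_lit 78) (PT.lf (nat_lit 31464) (nat_lit 6) (nat_lit 414) (nat_lit 2) (nat_lit 269) (nat_lit 280) (nat_lit 231)) (PT.lf (nat_lit 30628) (nat_lit 6) (nat_lit 403) (nat_lit 2) (nat_lit 270) (nat_lit 280) (nat_lit 230))))))))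
noncomputable def pc50 : PT := (PT.nd (nat_lit 76674) (PT.nd (nat_lit 1092) (PT.nd (nat_lit 546) (PT.nd (nat_lit 234) (PT.nd (nat_lit 78) (PT.lf (nat_lit 29792) (nat_lit 6) (nat_lit 392) (nat_lit 2) (nat_lit 271) (nat_lit 280) (nat_lit 229)) (PT.nd (nat_lit 78) (PT.lf (nat_lit 28956) (nat_lit 6) (nat_lit 381) (nat_lit 2) (nat_lit 272) (nat_lit 280) (nat_lit 228)) (PT.lf (nat_lit 28196) (nat_lit 6) (nat_lit 371) (nat_lit 2) (nat_lit 273) (nat_lit 280) (nat_lit 227)))) (PT.nd (nat_lit 156) (PT.nd (nat_lit 78) (PT.lf (nat_lit 27436) (nat_lit 6) (nat_lit 361) (nat_lit 2) (nat_lit 274) (nat_lit 280) (nat_lit 226)) (PT.lf (nat_lit 26752) (nat_lit 6) (nat_lit 352) (nat_lit 2) (nat_lit 275) (nat_lit 280) (nat_lit 225))) (PT.nd (nat_lit 78) (PT.lf (nat_lit 25992) (nat_lit 6) (nat_lit 342) (nat_lit 2) (nat_lit 276) (nat_lit 280) (nat_lit 224)) (PT.lf (nat_lit 25308) (nat_lit 6) (nat_lit 333) (nat_lit 2) (nat_lit 277) (nat_lit 280) (nat_lit 223))))) (PT.nd (nat_lit 234) (PT.nd (nat_lit 78) (PT.lf (nat_lit 24624) (nat_lit 6) (nat_lit 324) (nat_lit 2)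 (nat_lit 278) (nat_lit 280) (nat_lit 222)) (PT.nd (nat_lit 78) (PT.lf (nat_lit 24016) (nat_lit 6) (nat_lit 316) (nat_lit 2) (nat_lit 279) (nat_lit 280) (nat_lit 221)) (PT.lf (nat_lit 23332) (nat_lit 3) (nat_lit 307) (nat_lit 0) (nat_lit 280) (nat_lit 280) (nat_lit 220)))) (PT.nd (nat_lit 156) (PT.nd (nat_lit 78) (PT.lf (nat_lit 22648) (nat_lit 6) (nat_lit 298) (nat_lit 0) (nat_lit 281) (nat_lit 280) (nat_lit 219)) (PT.lf (nat_lit 21964) (nat_lit 6) (nat_lit 289) (nat_lit 0) (nat_lit 282) (nat_lit 280) (nat_lit 218))) (PT.nd (nat_lit 78) (PT.lf (nat_lit 21280) (nat_lit 6) (nat_lit 280) (nat_lit 0) (nat_lit 283) (nat_lit 280) (nat_lit 217)) (PT.lf (nat_lit 20596) (nat_lit 6) (nat_lit 271) (nat_lit 0) (nat_lit 284) (nat_lit 280) (nat_lit 216)))))) (PT.nd (nat_lit 546) (PT.nd (nat_lit 234) (PT.nd (nat_lit 78) (PT.lf (nat_lit 19988) (nat_lit 6) (nat_lit 263) (nat_lit 0) (nat_lit 285) (nat_lit 280) (nat_lit 215)) (PT.nd (nat_lit 78) (PT.lf (nat_lit 19380) (nat_lit 6) (nat_lit 255) (nat_lit 0) (nat_lit 286) (nat_lit 280) (nat_lit 214)) (PT.lf (nat_lit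 18772) (nat_lit 6) (nat_lit 247) (nat_lit 0) (nat_lit 287) (nat_lit 280) (nat_lit 213)))) (PT.nd (nat_lit 156) (PT.nd (nat_lit 78) (PT.lf (nat_lit 18164) (nat_lit 6) (nat_lit 239) (nat_lit 0) (nat_lit 288) (nat_lit 280) (nat_lit 212)) (PT.lf (nat_lit 17632) (nat_lit 6) (nat_lit 232) (nat_lit 0) (nat_lit 289) (nat_lit 280) (nat_lit 211))) (PT.nd (nat_lit 78) (PT.lf (nat_lit 17024) (nat_lit 6) (nat_lit 224) (nat_lit 0) (nat_lit 290) (nat_lit 280) (nat_lit 210)) (PT.lf (nat_lit 16492) (nat_lit 6) (nat_lit 217) (nat_lit 0) (nat_lit 291) (nat_lit 280) (nat_lit 209))))) (PT.nd (nat_lit 74724) (PT.nd (nat_lit 74568) (PT.lf (nat_lit 15960) (nat_lit 6) (nat_lit 210) (nat_lit 0) (nat_lit 292) (nat_lit 280) (nat_lit 208)) (PT.nd (nat_lit 78) (PT.lf (nat_lit 15504) (nat_lit 6) (nat_lit 204) (nat_lit 5) (nat_lit 207) (nat_lit 281) (nat_lit 292)) (PT.lf (nat_lit 16036) (nat_lit 6) (nat_lit 211) (nat_lit 5) (nat_lit 208) (nat_lit 281) (nat_lit 291)))) (PT.nd (nat_lit 156) (PT.nd (nat_lit 78) (PT.lf (nat_lit 16568) (nat_lit 6) (nat_lit 218) (nat_lit 5)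 (nat_lit 209) (nat_lit 281) (nat_lit 290)) (PT.lf (nat_lit 17100) (nat_lit 6) (nat_lit 225) (nat_lit 5) (nat_lit 210) (nat_lit 281) (nat_lit 289))) (PT.nd (nat_lit 78) (PT.lf (nat_lit 17708) (nat_lit 6) (nat_lit 233) (nat_lit 5) (nat_lit 211) (nat_lit 281) (nat_lit 288)) (PT.lf (nat_lit 18240) (nat_lit 6) (nat_lit 240) (nat_lit 5) (nat_lit 212) (nat_lit 281) (nat_lit 287))))))) (PT.nd (nat_lit 1092) (PT.nd (nat_lit 546) (PT.nd (nat_lit 234) (PT.nd (nat_lit 78) (PT.lf (nat_lit 18848) (nat_lit 6) (nat_lit 248) (nat_lit 5) (nat_lit 213) (nat_lit 281) (nat_lit 286)) (PT.nd (nat_lit 78) (PT.lf (nat_lit 19456) (nat_lit 6) (nat_lit 256) (nat_lit 5) (nat_lit 214) (nat_lit 281) (nat_lit 285)) (PT.lf (nat_lit 20064) (nat_lit 6) (nat_lit 264) (nat_lit 5) (nat_lit 215) (nat_lit 281) (nat_lit 284)))) (PT.nd (nat_lit 156) (PT.nd (nat_lit 78) (PT.lf (nat_lit 20672) (nat_lit 6) (nat_lit 272) (nat_lit 5) (nat_lit 216) (nat_lit 281) (nat_lit 283)) (PT.lf (nat_lit 21356) (nat_lit 6) (nat_lit 281) (nat_lit 5) (nat_lit 217) (nat_lit 281) (nat_lit 282))) (PT.nd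 (nat_lit 78) (PT.lf (nat_lit 22040) (nat_lit 3) (nat_lit 290) (nat_lit 4) (nat_lit 218) (nat_lit 281) (nat_lit 281)) (PT.lf (nat_lit 22648) (nat_lit 6) (nat_lit 298) (nat_lit 4) (nat_lit 219) (nat_lit 281) (nat_lit 280))))) (PT.nd (nat_lit 234) (PT.nd (nat_lit 78) (PT.lf (nat_lit 23256) (nat_lit 6) (nat_lit 306) (nat_lit 4) (nat_lit 220) (nat_lit 281) (nat_lit 279)) (PT.nd (nat_lit 78) (PT.lf (nat_lit 23940) (nat_lit 6) (nat_lit 315) (nat_lit 4) (nat_lit 221) (nat_lit 281) (nat_lit 278)) (PT.lf (nat_lit 24548) (nat_lit 6) (nat_lit 323) (nat_lit 4) (nat_lit 222) (nat_lit 281) (nat_lit 277)))) (PT.nd (nat_lit 156) (PT.nd (nat_lit 78) (PT.lf (nat_lit 25232) (nat_lit 6) (nat_lit 332) (nat_lit 4) (nat_lit 223) (nat_lit 281) (nat_lit 276)) (PT.lf (nat_lit 25916) (nat_lit 6) (nat_lit 341) (nat_lit 4) (nat_lit 224) (nat_lit 281) (nat_lit 275))) (PT.nd (nat_lit 78) (PT.lf (nat_lit 26676) (nat_lit 6) (nat_lit 351) (nat_lit 4) (nat_lit 225) (nat_lit 281) (nat_lit 274)) (PT.lf (nat_lit 27360) (nat_lit 6) (nat_lit 360) (nat_lit 4) (nat_lit 226) (nat_lit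 281) (nat_lit 273)))))) (PT.nd (nat_lit 546) (PT.nd (nat_lit 234) (PT.nd (nat_lit 78) (PT.lf (nat_lit 28120) (nat_lit 6) (nat_lit 370) (nat_lit 4) (nat_lit 227) (nat_lit 281) (nat_lit 272)) (PT.nd (nat_lit 78) (PT.lf (nat_lit 28880) (nat_lit 6) (nat_lit 380) (nat_lit 4) (nat_lit 228) (nat_lit 281) (nat_lit 271)) (PT.lf (nat_lit 29716) (nat_lit 6) (nat_lit 391) (nat_lit 4) (nat_lit 229) (nat_lit 281) (nat_lit 270)))) (PT.nd (nat_lit 156) (PT.nd (nat_lit 78) (PT.lf (nat_lit 30552) (nat_lit 6) (nat_lit 402) (nat_lit 4) (nat_lit 230) (nat_lit 281) (nat_lit 269)) (PT.lf (nat_lit 31388) (nat_lit 6) (nat_lit 413) (nat_lit 4) (nat_lit 231) (nat_lit 281) (nat_lit 268))) (PT.nd (nat_lit 78) (PT.lf (nat_lit 32224) (nat_lit 6) (nat_lit 424) (nat_lit 4) (nat_lit 232) (nat_lit 281) (nat_lit 267)) (PT.lf (nat_lit 33136) (nat_lit 6) (nat_lit 436) (nat_lit 4) (nat_lit 233) (nat_lit 281) (nat_lit 266))))) (PT.nd (nat_lit 312) (PT.nd (nat_lit 156) (PT.nd (nat_lit 78) (PT.lf (nat_lit 34048) (nat_lit 6) (nat_lit 448) (nat_lit 4) (nat_lit 234) (nat_lit 281) (nat_lit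 265)) (PT.lf (nat_lit 35112) (nat_lit 6) (nat_lit 462) (nat_lit 4) (nat_lit 235) (nat_lit 281) (nat_lit 264))) (PT.nd (nat_lit 78) (PT.lf (nat_lit 36936) (nat_lit 6) (nat_lit 486) (nat_lit 4) (nat_lit 236) (nat_lit 281) (nat_lit 263)) (PT.lf (nat_lit 38684) (nat_lit 6) (nat_lit 509) (nat_lit 4) (nat_lit 237) (nat_lit 281) (nat_lit 262)))) (PT.nd (nat_lit 156) (PT.nd (nat_lit 78) (PT.lf (nat_lit 40356) (nat_lit 6) (nat_lit 531) (nat_lit 4) (nat_lit 238) (nat_lit 281) (nat_lit 261)) (PT.lf (nat_lit 41952) (nat_lit 6) (nat_lit 552) (nat_lit 4) (nat_lit 239) (nat_lit 281) (nat_lit 260))) (PT.nd (nat_lit 78) (PT.lf (nat_lit 41876) (nat_lit 6) (nat_lit 551) (nat_lit 4) (nat_lit 240) (nat_lit 281) (nat_lit 259)) (PT.lf (nat_lit 41800) (nat_lit 6) (nat_lit 550) (nat_lit 4) (nat_lit 241) (nat_lit 281) (nat_lit 258))))))))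
noncomputable def pc51 : PT := (PT.nd (nat_lit 2262) (PT.nd (nat_lit 1092) (PT.nd (nat_lit 546) (PT.nd (nat_lit 234) (PT.nd (nat_lit 78) (PT.lf (nat_lit 41724) (nat_lit 6) (nat_lit 549) (nat_lit 4) (nat_lit 242) (nat_lit 281) (nat_lit 257)) (PT.nd (nat_lit 78) (PT.lf (nat_lit 41648) (nat_lit 6) (nat_lit 548) (nat_lit 4) (nat_lit 243) (nat_lit 281) (nat_lit 256)) (PT.lf (nat_lit 41572) (nat_lit 6) (nat_lit 547) (nat_lit 4) (nat_lit 244) (nat_lit 281) (nat_lit 255)))) (PT.nd (nat_lit 156) (PT.nd (nat_lit 78) (PT.lf (nat_lit 41496) (nat_lit 6) (nat_lit 546) (nat_lit 4) (nat_lit 245) (nat_lit 281) (nat_lit 254)) (PT.lf (nat_lit 41420) (nat_lit 6) (nat_lit 545) (nat_lit 4) (nat_lit 246) (nat_lit 281) (nat_lit 253))) (PT.nd (nat_lit 78) (PT.lf (nat_lit 41344) (nat_lit 6) (nat_lit 544) (nat_lit 4) (nat_lit 247) (nat_lit 281) (nat_lit 252)) (PT.lf (nat_lit 41268) (nat_lit 6) (nat_lit 543) (nat_lit 4) (nat_lit 248) (nat_lit 281) (nat_lit 251))))) (PT.nd (nat_lit 234) (PT.nd (nat_lit 78) (PT.lf (nat_lit 41192) (nat_lit 6) (nat_lit 542) (nat_lit 4)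 (nat_lit 249) (nat_lit 281) (nat_lit 250)) (PT.nd (nat_lit 78) (PT.lf (nat_lit 41192) (nat_lit 6) (nat_lit 542) (nat_lit 2) (nat_lit 250) (nat_lit 281) (nat_lit 249)) (PT.lf (nat_lit 41268) (nat_lit 6) (nat_lit 543) (nat_lit 2) (nat_lit 251) (nat_lit 281) (nat_lit 248)))) (PT.nd (nat_lit 156) (PT.nd (nat_lit 78) (PT.lf (nat_lit 41344) (nat_lit 6) (nat_lit 544) (nat_lit 2) (nat_lit 252) (nat_lit 281) (nat_lit 247)) (PT.lf (nat_lit 41420) (nat_lit 6) (nat_lit 545) (nat_lit 2) (nat_lit 253) (nat_lit 281) (nat_lit 246))) (PT.nd (nat_lit 78) (PT.lf (nat_lit 41496) (nat_lit 6) (nat_lit 546) (nat_lit 2) (nat_lit 254) (nat_lit 281) (nat_lit 245)) (PT.lf (nat_lit 41572) (nat_lit 6) (nat_lit 547) (nat_lit 2) (nat_lit 255) (nat_lit 281) (nat_lit 244)))))) (PT.nd (nat_lit 546) (PT.nd (nat_lit 234) (PT.nd (nat_lit 78) (PT.lf (nat_lit 41648) (nat_lit 6) (nat_lit 548) (nat_lit 2) (nat_lit 256) (nat_lit 281) (nat_lit 243)) (PT.nd (nat_lit 78) (PT.lf (nat_lit 41724) (nat_lit 6) (nat_lit 549) (nat_lit 2) (nat_lit 257) (nat_lit 281) (nat_lit 242)) (PT.lf (nat_lit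 41800) (nat_lit 6) (nat_lit 550) (nat_lit 2) (nat_lit 258) (nat_lit 281) (nat_lit 241)))) (PT.nd (nat_lit 156) (PT.nd (nat_lit 78) (PT.lf (nat_lit 41876) (nat_lit 6) (nat_lit 551) (nat_lit 2) (nat_lit 259) (nat_lit 281) (nat_lit 240)) (PT.lf (nat_lit 41952) (nat_lit 6) (nat_lit 552) (nat_lit 2) (nat_lit 260) (nat_lit 281) (nat_lit 239))) (PT.nd (nat_lit 78) (PT.lf (nat_lit 40356) (nat_lit 6) (nat_lit 531) (nat_lit 2) (nat_lit 261) (nat_lit 281) (nat_lit 238)) (PT.lf (nat_lit 38684) (nat_lit 6) (nat_lit 509) (nat_lit 2) (nat_lit 262) (nat_lit 281) (nat_lit 237))))) (PT.nd (nat_lit 312) (PT.nd (nat_lit 156) (PT.nd (nat_lit 78) (PT.lf (nat_lit 36936) (nat_lit 6) (nat_lit 486) (nat_lit 2) (nat_lit 263) (nat_lit 281) (nat_lit 236)) (PT.lf (nat_lit 35112) (nat_lit 6) (nat_lit 462) (nat_lit 2) (nat_lit 264) (nat_lit 281) (nat_lit 235))) (PT.nd (nat_lit 78) (PT.lf (nat_lit 34048) (nat_lit 6) (nat_lit 448) (nat_lit 2) (nat_lit 265) (nat_lit 281) (nat_lit 234)) (PT.lf (nat_lit 33136) (nat_lit 6) (nat_lit 436) (nat_lit 2) (nat_lit 266) (nat_lit 281)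 (nat_lit 233)))) (PT.nd (nat_lit 156) (PT.nd (nat_lit 78) (PT.lf (nat_lit 32224) (nat_lit 6) (nat_lit 424) (nat_lit 2) (nat_lit 267) (nat_lit 281) (nat_lit 232)) (PT.lf (nat_lit 31388) (nat_lit 6) (nat_lit 413) (nat_lit 2) (nat_lit 268) (nat_lit 281) (nat_lit 231))) (PT.nd (nat_lit 78) (PT.lf (nat_lit 30552) (nat_lit 6) (nat_lit 402) (nat_lit 2) (nat_lit 269) (nat_lit 281) (nat_lit 230)) (PT.lf (nat_lit 29716) (nat_lit 6) (nat_lit 391) (nat_lit 2) (nat_lit 270) (nat_lit 281) (nat_lit 229))))))) (PT.nd (nat_lit 1092) (PT.nd (nat_lit 546) (PT.nd (nat_lit 234) (PT.nd (nat_lit 78) (PT.lf (nat_lit 28880) (nat_lit 6) (nat_lit 380) (nat_lit 2) (nat_lit 271) (nat_lit 281) (nat_lit 228)) (PT.nd (nat_lit 78) (PT.lf (nat_lit 28120) (nat_lit 6) (nat_lit 370) (nat_lit 2) (nat_lit 272) (nat_lit 281) (nat_lit 227)) (PT.lf (nat_lit 27360) (nat_lit 6) (nat_lit 360) (nat_lit 2) (nat_lit 273) (nat_lit 281) (nat_lit 226)))) (PT.nd (nat_lit 156) (PT.nd (nat_lit 78) (PT.lf (nat_lit 26676) (nat_lit 6) (nat_lit 351) (nat_lit 2) (nat_lit 274) (nat_lit 281) (nat_lit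 225)) (PT.lf (nat_lit 25916) (nat_lit 6) (nat_lit 341) (nat_lit 2) (nat_lit 275) (nat_lit 281) (nat_lit 224))) (PT.nd (nat_lit 78) (PT.lf (nat_lit 25232) (nat_lit 6) (nat_lit 332) (nat_lit 2) (nat_lit 276) (nat_lit 281) (nat_lit 223)) (PT.lf (nat_lit 24548) (nat_lit 6) (nat_lit 323) (nat_lit 2) (nat_lit 277) (nat_lit 281) (nat_lit 222))))) (PT.nd (nat_lit 234) (PT.nd (nat_lit 78) (PT.lf (nat_lit 23940) (nat_lit 6) (nat_lit 315) (nat_lit 2) (nat_lit 278) (nat_lit 281) (nat_lit 221)) (PT.nd (nat_lit 78) (PT.lf (nat_lit 23256) (nat_lit 6) (nat_lit 306) (nat_lit 2) (nat_lit 279) (nat_lit 281) (nat_lit 220)) (PT.lf (nat_lit 22648) (nat_lit 6) (nat_lit 298) (nat_lit 2) (nat_lit 280) (nat_lit 281) (nat_lit 219)))) (PT.nd (nat_lit 156) (PT.nd (nat_lit 78) (PT.lf (nat_lit 22040) (nat_lit 3) (nat_lit 290) (nat_lit 0) (nat_lit 281) (nat_lit 281) (nat_lit 218)) (PT.lf (nat_lit 21356) (nat_lit 6) (nat_lit 281) (nat_lit 0) (nat_lit 282) (nat_lit 281) (nat_lit 217))) (PT.nd (nat_lit 78) (PT.lf (nat_lit 20672) (nat_lit 6) (nat_lit 272) (nat_lit 0) (nat_lit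 283) (nat_lit 281) (nat_lit 216)) (PT.lf (nat_lit 20064) (nat_lit 6) (nat_lit 264) (nat_lit 0) (nat_lit 284) (nat_lit 281) (nat_lit 215)))))) (PT.nd (nat_lit 546) (PT.nd (nat_lit 234) (PT.nd (nat_lit 78) (PT.lf (nat_lit 19456) (nat_lit 6) (nat_lit 256) (nat_lit 0) (nat_lit 285) (nat_lit 281) (nat_lit 214)) (PT.nd (nat_lit 78) (PT.lf (nat_lit 18848) (nat_lit 6) (nat_lit 248) (nat_lit 0) (nat_lit 286) (nat_lit 281) (nat_lit 213)) (PT.lf (nat_lit 18240) (nat_lit 6) (nat_lit 240) (nat_lit 0) (nat_lit 287) (nat_lit 281) (nat_lit 212)))) (PT.nd (nat_lit 156) (PT.nd (nat_lit 78) (PT.lf (nat_lit 17708) (nat_lit 6) (nat_lit 233) (nat_lit 0) (nat_lit 288) (nat_lit 281) (nat_lit 211)) (PT.lf (nat_lit 17100) (nat_lit 6) (nat_lit 225) (nat_lit 0) (nat_lit 289) (nat_lit 281) (nat_lit 210))) (PT.nd (nat_lit 78) (PT.lf (nat_lit 16568) (nat_lit 6) (nat_lit 218) (nat_lit 0) (nat_lit 290) (nat_lit 281) (nat_lit 209)) (PT.lf (nat_lit 16036) (nat_lit 6) (nat_lit 211) (nat_lit 0) (nat_lit 291) (nat_lit 281) (nat_lit 208))))) (PT.nd (nat_lit 74646) (PT.nd (nat_lit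 74490) (PT.nd (nat_lit 74412) (PT.lf (nat_lit 15504) (nat_lit 6) (nat_lit 204) (nat_lit 0) (nat_lit 292) (nat_lit 281) (nat_lit 207)) (PT.lf (nat_lit 14592) (nat_lit 6) (nat_lit 192) (nat_lit 5) (nat_lit 205) (nat_lit 282) (nat_lit 293))) (PT.nd (nat_lit 78) (PT.lf (nat_lit 15048) (nat_lit 6) (nat_lit 198) (nat_lit 5) (nat_lit 206) (nat_lit 282) (nat_lit 292)) (PT.lf (nat_lit 15580) (nat_lit 6) (nat_lit 205) (nat_lit 5) (nat_lit 207) (nat_lit 282) (nat_lit 291)))) (PT.nd (nat_lit 156) (PT.nd (nat_lit 78) (PT.lf (nat_lit 16112) (nat_lit 6) (nat_lit 212) (nat_lit 5) (nat_lit 208) (nat_lit 282) (nat_lit 290)) (PT.lf (nat_lit 16644) (nat_lit 6) (nat_lit 219) (nat_lit 5) (nat_lit 209) (nat_lit 282) (nat_lit 289))) (PT.nd (nat_lit 78) (PT.lf (nat_lit 17176) (nat_lit 6) (nat_lit 226) (nat_lit 5) (nat_lit 210) (nat_lit 282) (nat_lit 288)) (PT.lf (nat_lit 17784) (nat_lit 6) (nat_lit 234) (nat_lit 5) (nat_lit 211) (nat_lit 282) (nat_lit 287))))))))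
noncomputable def pc52 : PT := (PT.nd (nat_lit 2184) (PT.nd (nat_lit 1092) (PT.nd (nat_lit 546) (PT.nd (nat_lit 234) (PT.nd (nat_lit 78) (PT.lf (nat_lit 18316) (nat_lit 6) (nat_lit 241) (nat_lit 5) (nat_lit 212) (nat_lit 282) (nat_lit 286)) (PT.nd (nat_lit 78) (PT.lf (nat_lit 18924) (nat_lit 6) (nat_lit 249) (nat_lit 5) (nat_lit 213) (nat_lit 282) (nat_lit 285)) (PT.lf (nat_lit 19532) (nat_lit 6) (nat_lit 257) (nat_lit 5) (nat_lit 214) (nat_lit 282) (nat_lit 284)))) (PT.nd (nat_lit 156) (PT.nd (nat_lit 78) (PT.lf (nat_lit 20140) (nat_lit 6) (nat_lit 265) (nat_lit 5) (nat_lit 215) (nat_lit 282) (nat_lit 283)) (PT.lf (nat_lit 20748) (nat_lit 3) (nat_lit 273) (nat_lit 4) (nat_lit 216) (nat_lit 282) (nat_lit 282))) (PT.nd (nat_lit 78) (PT.lf (nat_lit 21356) (nat_lit 6) (nat_lit 281) (nat_lit 4) (nat_lit 217) (nat_lit 282) (nat_lit 281)) (PT.lf (nat_lit 21964) (nat_lit 6) (nat_lit 289) (nat_lit 4) (nat_lit 218) (nat_lit 282) (nat_lit 280))))) (PT.nd (nat_lit 234) (PT.nd (nat_lit 78) (PT.lf (nat_lit 22572) (nat_lit 6) (nat_lit 297) (nat_lit 4)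 (nat_lit 219) (nat_lit 282) (nat_lit 279)) (PT.nd (nat_lit 78) (PT.lf (nat_lit 23180) (nat_lit 6) (nat_lit 305) (nat_lit 4) (nat_lit 220) (nat_lit 282) (nat_lit 278)) (PT.lf (nat_lit 23864) (nat_lit 6) (nat_lit 314) (nat_lit 4) (nat_lit 221) (nat_lit 282) (nat_lit 277)))) (PT.nd (nat_lit 156) (PT.nd (nat_lit 78) (PT.lf (nat_lit 24472) (nat_lit 6) (nat_lit 322) (nat_lit 4) (nat_lit 222) (nat_lit 282) (nat_lit 276)) (PT.lf (nat_lit 25156) (nat_lit 6) (nat_lit 331) (nat_lit 4) (nat_lit 223) (nat_lit 282) (nat_lit 275))) (PT.nd (nat_lit 78) (PT.lf (nat_lit 25840) (nat_lit 6) (nat_lit 340) (nat_lit 4) (nat_lit 224) (nat_lit 282) (nat_lit 274)) (PT.lf (nat_lit 26600) (nat_lit 6) (nat_lit 350) (nat_lit 4) (nat_lit 225) (nat_lit 282) (nat_lit 273)))))) (PT.nd (nat_lit 546) (PT.nd (nat_lit 234) (PT.nd (nat_lit 78) (PT.lf (nat_lit 27284) (nat_lit 6) (nat_lit 359) (nat_lit 4) (nat_lit 226) (nat_lit 282) (nat_lit 272)) (PT.nd (nat_lit 78) (PT.lf (nat_lit 28044) (nat_lit 6) (nat_lit 369) (nat_lit 4) (nat_lit 227) (nat_lit 282) (nat_lit 271)) (PT.lf (nat_lit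 28804) (nat_lit 6) (nat_lit 379) (nat_lit 4) (nat_lit 228) (nat_lit 282) (nat_lit 270)))) (PT.nd (nat_lit 156) (PT.nd (nat_lit 78) (PT.lf (nat_lit 29640) (nat_lit 6) (nat_lit 390) (nat_lit 4) (nat_lit 229) (nat_lit 282) (nat_lit 269)) (PT.lf (nat_lit 30476) (nat_lit 6) (nat_lit 401) (nat_lit 4) (nat_lit 230) (nat_lit 282) (nat_lit 268))) (PT.nd (nat_lit 78) (PT.lf (nat_lit 31312) (nat_lit 6) (nat_lit 412) (nat_lit 4) (nat_lit 231) (nat_lit 282) (nat_lit 267)) (PT.lf (nat_lit 32148) (nat_lit 6) (nat_lit 423) (nat_lit 4) (nat_lit 232) (nat_lit 282) (nat_lit 266))))) (PT.nd (nat_lit 234) (PT.nd (nat_lit 78) (PT.lf (nat_lit 33060) (nat_lit 6) (nat_lit 435) (nat_lit 4) (nat_lit 233) (nat_lit 282) (nat_lit 265)) (PT.nd (nat_lit 78) (PT.lf (nat_lit 33972) (nat_lit 6) (nat_lit 447) (nat_lit 4) (nat_lit 234) (nat_lit 282) (nat_lit 264)) (PT.lf (nat_lit 35036) (nat_lit 6) (nat_lit 461) (nat_lit 4) (nat_lit 235) (nat_lit 282) (nat_lit 263)))) (PT.nd (nat_lit 156) (PT.nd (nat_lit 78) (PT.lf (nat_lit 36860) (nat_lit 6) (nat_lit 485) (nat_lit 4) (nat_lit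 236) (nat_lit 282) (nat_lit 262)) (PT.lf (nat_lit 38608) (nat_lit 6) (nat_lit 508) (nat_lit 4) (nat_lit 237) (nat_lit 282) (nat_lit 261))) (PT.nd (nat_lit 78) (PT.lf (nat_lit 40280) (nat_lit 6) (nat_lit 530) (nat_lit 4) (nat_lit 238) (nat_lit 282) (nat_lit 260)) (PT.lf (nat_lit 40204) (nat_lit 6) (nat_lit 529) (nat_lit 4) (nat_lit 239) (nat_lit 282) (nat_lit 259))))))) (PT.nd (nat_lit 1092) (PT.nd (nat_lit 546) (PT.nd (nat_lit 234) (PT.nd (nat_lit 78) (PT.lf (nat_lit 40128) (nat_lit 6) (nat_lit 528) (nat_lit 4) (nat_lit 240) (nat_lit 282) (nat_lit 258)) (PT.nd (nat_lit 78) (PT.lf (nat_lit 40052) (nat_lit 6) (nat_lit 527) (nat_lit 4) (nat_lit 241) (nat_lit 282) (nat_lit 257)) (PT.lf (nat_lit 39976) (nat_lit 6) (nat_lit 526) (nat_lit 4) (nat_lit 242) (nat_lit 282) (nat_lit 256)))) (PT.nd (nat_lit 156) (PT.nd (nat_lit 78) (PT.lf (nat_lit 39900) (nat_lit 6) (nat_lit 525) (nat_lit 4) (nat_lit 243) (nat_lit 282) (nat_lit 255)) (PT.lf (nat_lit 39824) (nat_lit 6) (nat_lit 524) (nat_lit 4) (nat_lit 244) (nat_lit 282) (nat_lit 254))) (PT.nd (nat_lit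 78) (PT.lf (nat_lit 39748) (nat_lit 6) (nat_lit 523) (nat_lit 4) (nat_lit 245) (nat_lit 282) (nat_lit 253)) (PT.lf (nat_lit 39672) (nat_lit 6) (nat_lit 522) (nat_lit 4) (nat_lit 246) (nat_lit 282) (nat_lit 252))))) (PT.nd (nat_lit 234) (PT.nd (nat_lit 78) (PT.lf (nat_lit 39596) (nat_lit 6) (nat_lit 521) (nat_lit 4) (nat_lit 247) (nat_lit 282) (nat_lit 251)) (PT.nd (nat_lit 78) (PT.lf (nat_lit 39520) (nat_lit 6) (nat_lit 520) (nat_lit 4) (nat_lit 248) (nat_lit 282) (nat_lit 250)) (PT.lf (nat_lit 39444) (nat_lit 3) (nat_lit 519) (nat_lit 2) (nat_lit 249) (nat_lit 282) (nat_lit 249)))) (PT.nd (nat_lit 156) (PT.nd (nat_lit 78) (PT.lf (nat_lit 39520) (nat_lit 6) (nat_lit 520) (nat_lit 2) (nat_lit 250) (nat_lit 282) (nat_lit 248)) (PT.lf (nat_lit 39596) (nat_lit 6) (nat_lit 521) (nat_lit 2) (nat_lit 251) (nat_lit 282) (nat_lit 247))) (PT.nd (nat_lit 78) (PT.lf (nat_lit 39672) (nat_lit 6) (nat_lit 522) (nat_lit 2) (nat_lit 252) (nat_lit 282) (nat_lit 246)) (PT.lf (nat_lit 39748) (nat_lit 6) (nat_lit 523) (nat_lit 2) (nat_lit 253) (nat_lit 282)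 (nat_lit 245)))))) (PT.nd (nat_lit 546) (PT.nd (nat_lit 234) (PT.nd (nat_lit 78) (PT.lf (nat_lit 39824) (nat_lit 6) (nat_lit 524) (nat_lit 2) (nat_lit 254) (nat_lit 282) (nat_lit 244)) (PT.nd (nat_lit 78) (PT.lf (nat_lit 39900) (nat_lit 6) (nat_lit 525) (nat_lit 2) (nat_lit 255) (nat_lit 282) (nat_lit 243)) (PT.lf (nat_lit 39976) (nat_lit 6) (nat_lit 526) (nat_lit 2) (nat_lit 256) (nat_lit 282) (nat_lit 242)))) (PT.nd (nat_lit 156) (PT.nd (nat_lit 78) (PT.lf (nat_lit 40052) (nat_lit 6) (nat_lit 527) (nat_lit 2) (nat_lit 257) (nat_lit 282) (nat_lit 241)) (PT.lf (nat_lit 40128) (nat_lit 6) (nat_lit 528) (nat_lit 2) (nat_lit 258) (nat_lit 282) (nat_lit 240))) (PT.nd (nat_lit 78) (PT.lf (nat_lit 40204) (nat_lit 6) (nat_lit 529) (nat_lit 2) (nat_lit 259) (nat_lit 282) (nat_lit 239)) (PT.lf (nat_lit 40280) (nat_lit 6) (nat_lit 530) (nat_lit 2) (nat_lit 260) (nat_lit 282) (nat_lit 238))))) (PT.nd (nat_lit 312) (PT.nd (nat_lit 156) (PT.nd (nat_lit 78) (PT.lf (nat_lit 38608) (nat_lit 6) (nat_lit 508) (nat_lit 2) (nat_lit 261) (nat_lit 282) (nat_lit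 237)) (PT.lf (nat_lit 36860) (nat_lit 6) (nat_lit 485) (nat_lit 2) (nat_lit 262) (nat_lit 282) (nat_lit 236))) (PT.nd (nat_lit 78) (PT.lf (nat_lit 35036) (nat_lit 6) (nat_lit 461) (nat_lit 2) (nat_lit 263) (nat_lit 282) (nat_lit 235)) (PT.lf (nat_lit 33972) (nat_lit 6) (nat_lit 447) (nat_lit 2) (nat_lit 264) (nat_lit 282) (nat_lit 234)))) (PT.nd (nat_lit 156) (PT.nd (nat_lit 78) (PT.lf (nat_lit 33060) (nat_lit 6) (nat_lit 435) (nat_lit 2) (nat_lit 265) (nat_lit 282) (nat_lit 233)) (PT.lf (nat_lit 32148) (nat_lit 6) (nat_lit 423) (nat_lit 2) (nat_lit 266) (nat_lit 282) (nat_lit 232))) (PT.nd (nat_lit 78) (PT.lf (nat_lit 31312) (nat_lit 6) (nat_lit 412) (nat_lit 2) (nat_lit 267) (nat_lit 282) (nat_lit 231)) (PT.lf (nat_lit 30476) (nat_lit 6) (nat_lit 401) (nat_lit 2) (nat_lit 268) (nat_lit 282) (nat_lit 230))))))))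
noncomputable def pc53 : PT := (PT.nd (nat_lit 76440) (PT.nd (nat_lit 1092) (PT.nd (nat_lit 546) (PT.nd (nat_lit 234) (PT.nd (nat_lit 78) (PT.lf (nat_lit 29640) (nat_lit 6) (nat_lit 390) (nat_lit 2) (nat_lit 269) (nat_lit 282) (nat_lit 229)) (PT.nd (nat_lit 78) (PT.lf (nat_lit 28804) (nat_lit 6) (nat_lit 379) (nat_lit 2) (nat_lit 270) (nat_lit 282) (nat_lit 228)) (PT.lf (nat_lit 28044) (nat_lit 6) (nat_lit 369) (nat_lit 2) (nat_lit 271) (nat_lit 282) (nat_lit 227)))) (PT.nd (nat_lit 156) (PT.nd (nat_lit 78) (PT.lf (nat_lit 27284) (nat_lit 6) (nat_lit 359) (nat_lit 2) (nat_lit 272) (nat_lit 282) (nat_lit 226)) (PT.lf (nat_lit 26600) (nat_lit 6) (nat_lit 350) (nat_lit 2) (nat_lit 273) (nat_lit 282) (nat_lit 225))) (PT.nd (nat_lit 78) (PT.lf (nat_lit 25840) (nat_lit 6) (nat_lit 340) (nat_lit 2) (nat_lit 274) (nat_lit 282) (nat_lit 224)) (PT.lf (nat_lit 25156) (nat_lit 6) (nat_lit 331) (nat_lit 2) (nat_lit 275) (nat_lit 282) (nat_lit 223))))) (PT.nd (nat_lit 234) (PT.nd (nat_lit 78) (PT.lf (nat_lit 24472) (nat_lit 6) (nat_lit 322) (nat_lit 2)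 (nat_lit 276) (nat_lit 282) (nat_lit 222)) (PT.nd (nat_lit 78) (PT.lf (nat_lit 23864) (nat_lit 6) (nat_lit 314) (nat_lit 2) (nat_lit 277) (nat_lit 282) (nat_lit 221)) (PT.lf (nat_lit 23180) (nat_lit 6) (nat_lit 305) (nat_lit 2) (nat_lit 278) (nat_lit 282) (nat_lit 220)))) (PT.nd (nat_lit 156) (PT.nd (nat_lit 78) (PT.lf (nat_lit 22572) (nat_lit 6) (nat_lit 297) (nat_lit 2) (nat_lit 279) (nat_lit 282) (nat_lit 219)) (PT.lf (nat_lit 21964) (nat_lit 6) (nat_lit 289) (nat_lit 2) (nat_lit 280) (nat_lit 282) (nat_lit 218))) (PT.nd (nat_lit 78) (PT.lf (nat_lit 21356) (nat_lit 6) (nat_lit 281) (nat_lit 2) (nat_lit 281) (nat_lit 282) (nat_lit 217)) (PT.lf (nat_lit 20748) (nat_lit 3) (nat_lit 273) (nat_lit 0) (nat_lit 282) (nat_lit 282) (nat_lit 216)))))) (PT.nd (nat_lit 546) (PT.nd (nat_lit 234) (PT.nd (nat_lit 78) (PT.lf (nat_lit 20140) (nat_lit 6) (nat_lit 265) (nat_lit 0) (nat_lit 283) (nat_lit 282) (nat_lit 215)) (PT.nd (nat_lit 78) (PT.lf (nat_lit 19532) (nat_lit 6) (nat_lit 257) (nat_lit 0) (nat_lit 284) (nat_lit 282) (nat_lit 214)) (PT.lf (nat_lit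 18924) (nat_lit 6) (nat_lit 249) (nat_lit 0) (nat_lit 285) (nat_lit 282) (nat_lit 213)))) (PT.nd (nat_lit 156) (PT.nd (nat_lit 78) (PT.lf (nat_lit 18316) (nat_lit 6) (nat_lit 241) (nat_lit 0) (nat_lit 286) (nat_lit 282) (nat_lit 212)) (PT.lf (nat_lit 17784) (nat_lit 6) (nat_lit 234) (nat_lit 0) (nat_lit 287) (nat_lit 282) (nat_lit 211))) (PT.nd (nat_lit 78) (PT.lf (nat_lit 17176) (nat_lit 6) (nat_lit 226) (nat_lit 0) (nat_lit 288) (nat_lit 282) (nat_lit 210)) (PT.lf (nat_lit 16644) (nat_lit 6) (nat_lit 219) (nat_lit 0) (nat_lit 289) (nat_lit 282) (nat_lit 209))))) (PT.nd (nat_lit 74490) (PT.nd (nat_lit 156) (PT.nd (nat_lit 78) (PT.lf (nat_lit 16112) (nat_lit 6) (nat_lit 212) (nat_lit 0) (nat_lit 290) (nat_lit 282) (nat_lit 208)) (PT.lf (nat_lit 15580) (nat_lit 6) (nat_lit 205) (nat_lit 0) (nat_lit 291) (nat_lit 282) (nat_lit 207))) (PT.nd (nat_lit 78) (PT.lf (nat_lit 15048) (nat_lit 6) (nat_lit 198) (nat_lit 0) (nat_lit 292) (nat_lit 282) (nat_lit 206)) (PT.lf (nat_lit 14592) (nat_lit 6) (nat_lit 192) (nat_lit 0) (nat_lit 293) (nat_lit 282)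 (nat_lit 205)))) (PT.nd (nat_lit 156) (PT.nd (nat_lit 78) (PT.lf (nat_lit 14136) (nat_lit 6) (nat_lit 186) (nat_lit 5) (nat_lit 204) (nat_lit 283) (nat_lit 293)) (PT.lf (nat_lit 14668) (nat_lit 6) (nat_lit 193) (nat_lit 5) (nat_lit 205) (nat_lit 283) (nat_lit 292))) (PT.nd (nat_lit 78) (PT.lf (nat_lit 15124) (nat_lit 6) (nat_lit 199) (nat_lit 5) (nat_lit 206) (nat_lit 283) (nat_lit 291)) (PT.lf (nat_lit 15656) (nat_lit 6) (nat_lit 206) (nat_lit 5) (nat_lit 207) (nat_lit 283) (nat_lit 290))))))) (PT.nd (nat_lit 1092) (PT.nd (nat_lit 546) (PT.nd (nat_lit 234) (PT.nd (nat_lit 78) (PT.lf (nat_lit 16188) (nat_lit 6) (nat_lit 213) (nat_lit 5) (nat_lit 208) (nat_lit 283) (nat_lit 289)) (PT.nd (nat_lit 78) (PT.lf (nat_lit 16720) (nat_lit 6) (nat_lit 220) (nat_lit 5) (nat_lit 209) (nat_lit 283) (nat_lit 288)) (PT.lf (nat_lit 17252) (nat_lit 6) (nat_lit 227) (nat_lit 5) (nat_lit 210) (nat_lit 283) (nat_lit 287)))) (PT.nd (nat_lit 156) (PT.nd (nat_lit 78) (PT.lf (nat_lit 17860) (nat_lit 6) (nat_lit 235) (nat_lit 5) (nat_lit 211) (nat_lit 283) (nat_lit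 286)) (PT.lf (nat_lit 18392) (nat_lit 6) (nat_lit 242) (nat_lit 5) (nat_lit 212) (nat_lit 283) (nat_lit 285))) (PT.nd (nat_lit 78) (PT.lf (nat_lit 19000) (nat_lit 6) (nat_lit 250) (nat_lit 5) (nat_lit 213) (nat_lit 283) (nat_lit 284)) (PT.lf (nat_lit 19608) (nat_lit 3) (nat_lit 258) (nat_lit 4) (nat_lit 214) (nat_lit 283) (nat_lit 283))))) (PT.nd (nat_lit 234) (PT.nd (nat_lit 78) (PT.lf (nat_lit 20140) (nat_lit 6) (nat_lit 265) (nat_lit 4) (nat_lit 215) (nat_lit 283) (nat_lit 282)) (PT.nd (nat_lit 78) (PT.lf (nat_lit 20672) (nat_lit 6) (nat_lit 272) (nat_lit 4) (nat_lit 216) (nat_lit 283) (nat_lit 281)) (PT.lf (nat_lit 21280) (nat_lit 6) (nat_lit 280) (nat_lit 4) (nat_lit 217) (nat_lit 283) (nat_lit 280)))) (PT.nd (nat_lit 156) (PT.nd (nat_lit 78) (PT.lf (nat_lit 21888) (nat_lit 6) (nat_lit 288) (nat_lit 4) (nat_lit 218) (nat_lit 283) (nat_lit 279)) (PT.lf (nat_lit 22496) (nat_lit 6) (nat_lit 296) (nat_lit 4) (nat_lit 219) (nat_lit 283) (nat_lit 278))) (PT.nd (nat_lit 78) (PT.lf (nat_lit 23104) (nat_lit 6) (nat_lit 304) (nat_lit 4) (nat_lit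 220) (nat_lit 283) (nat_lit 277)) (PT.lf (nat_lit 23788) (nat_lit 6) (nat_lit 313) (nat_lit 4) (nat_lit 221) (nat_lit 283) (nat_lit 276)))))) (PT.nd (nat_lit 546) (PT.nd (nat_lit 234) (PT.nd (nat_lit 78) (PT.lf (nat_lit 24396) (nat_lit 6) (nat_lit 321) (nat_lit 4) (nat_lit 222) (nat_lit 283) (nat_lit 275)) (PT.nd (nat_lit 78) (PT.lf (nat_lit 25080) (nat_lit 6) (nat_lit 330) (nat_lit 4) (nat_lit 223) (nat_lit 283) (nat_lit 274)) (PT.lf (nat_lit 25764) (nat_lit 6) (nat_lit 339) (nat_lit 4) (nat_lit 224) (nat_lit 283) (nat_lit 273)))) (PT.nd (nat_lit 156) (PT.nd (nat_lit 78) (PT.lf (nat_lit 26524) (nat_lit 6) (nat_lit 349) (nat_lit 4) (nat_lit 225) (nat_lit 283) (nat_lit 272)) (PT.lf (nat_lit 27208) (nat_lit 6) (nat_lit 358) (nat_lit 4) (nat_lit 226) (nat_lit 283) (nat_lit 271))) (PT.nd (nat_lit 78) (PT.lf (nat_lit 27968) (nat_lit 6) (nat_lit 368) (nat_lit 4) (nat_lit 227) (nat_lit 283) (nat_lit 270)) (PT.lf (nat_lit 28728) (nat_lit 6) (nat_lit 378) (nat_lit 4) (nat_lit 228) (nat_lit 283) (nat_lit 269))))) (PT.nd (nat_lit 312) (PT.nd (nat_lit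 156) (PT.nd (nat_lit 78) (PT.lf (nat_lit 29564) (nat_lit 6) (nat_lit 389) (nat_lit 4) (nat_lit 229) (nat_lit 283) (nat_lit 268)) (PT.lf (nat_lit 30400) (nat_lit 6) (nat_lit 400) (nat_lit 4) (nat_lit 230) (nat_lit 283) (nat_lit 267))) (PT.nd (nat_lit 78) (PT.lf (nat_lit 31236) (nat_lit 6) (nat_lit 411) (nat_lit 4) (nat_lit 231) (nat_lit 283) (nat_lit 266)) (PT.lf (nat_lit 32072) (nat_lit 6) (nat_lit 422) (nat_lit 4) (nat_lit 232) (nat_lit 283) (nat_lit 265)))) (PT.nd (nat_lit 156) (PT.nd (nat_lit 78) (PT.lf (nat_lit 32984) (nat_lit 6) (nat_lit 434) (nat_lit 4) (nat_lit 233) (nat_lit 283) (nat_lit 264)) (PT.lf (nat_lit 33896) (nat_lit 6) (nat_lit 446) (nat_lit 4) (nat_lit 234) (nat_lit 283) (nat_lit 263))) (PT.nd (nat_lit 78) (PT.lf (nat_lit 34960) (nat_lit 6) (nat_lit 460) (nat_lit 4) (nat_lit 235) (nat_lit 283) (nat_lit 262)) (PT.lf (nat_lit 36784) (nat_lit 6) (nat_lit 484) (nat_lit 4) (nat_lit 236) (nat_lit 283) (nat_lit 261))))))))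
noncomputable def pc54 : PT := (PT.nd (nat_lit 2184) (PT.nd (nat_lit 1092) (PT.nd (nat_lit 546) (PT.nd (nat_lit 234) (PT.nd (nat_lit 78) (PT.lf (nat_lit 38532) (nat_lit 6) (nat_lit 507) (nat_lit 4) (nat_lit 237) (nat_lit 283) (nat_lit 260)) (PT.nd (nat_lit 78) (PT.lf (nat_lit 38456) (nat_lit 6) (nat_lit 506) (nat_lit 4) (nat_lit 238) (nat_lit 283) (nat_lit 259)) (PT.lf (nat_lit 38380) (nat_lit 6) (nat_lit 505) (nat_lit 4) (nat_lit 239) (nat_lit 283) (nat_lit 258)))) (PT.nd (nat_lit 156) (PT.nd (nat_lit 78) (PT.lf (nat_lit 38304) (nat_lit 6) (nat_lit 504) (nat_lit 4) (nat_lit 240) (nat_lit 283) (nat_lit 257)) (PT.lf (nat_lit 38228) (nat_lit 6) (nat_lit 503) (nat_lit 4) (nat_lit 241) (nat_lit 283) (nat_lit 256))) (PT.nd (nat_lit 78) (PT.lf (nat_lit 38152) (nat_lit 6) (nat_lit 502) (nat_lit 4) (nat_lit 242) (nat_lit 283) (nat_lit 255)) (PT.lf (nat_lit 38076) (nat_lit 6) (nat_lit 501) (nat_lit 4) (nat_lit 243) (nat_lit 283) (nat_lit 254))))) (PT.nd (nat_lit 234) (PT.nd (nat_lit 78) (PT.lf (nat_lit 38000) (nat_lit 6) (nat_lit 500) (nat_lit 4)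 (nat_lit 244) (nat_lit 283) (nat_lit 253)) (PT.nd (nat_lit 78) (PT.lf (nat_lit 37924) (nat_lit 6) (nat_lit 499) (nat_lit 4) (nat_lit 245) (nat_lit 283) (nat_lit 252)) (PT.lf (nat_lit 37848) (nat_lit 6) (nat_lit 498) (nat_lit 4) (nat_lit 246) (nat_lit 283) (nat_lit 251)))) (PT.nd (nat_lit 156) (PT.nd (nat_lit 78) (PT.lf (nat_lit 37772) (nat_lit 6) (nat_lit 497) (nat_lit 4) (nat_lit 247) (nat_lit 283) (nat_lit 250)) (PT.lf (nat_lit 37696) (nat_lit 6) (nat_lit 496) (nat_lit 4) (nat_lit 248) (nat_lit 283) (nat_lit 249))) (PT.nd (nat_lit 78) (PT.lf (nat_lit 37696) (nat_lit 6) (nat_lit 496) (nat_lit 2) (nat_lit 249) (nat_lit 283) (nat_lit 248)) (PT.lf (nat_lit 37772) (nat_lit 6) (nat_lit 497) (nat_lit 2) (nat_lit 250) (nat_lit 283) (nat_lit 247)))))) (PT.nd (nat_lit 546) (PT.nd (nat_lit 234) (PT.nd (nat_lit 78) (PT.lf (nat_lit 37848) (nat_lit 6) (nat_lit 498) (nat_lit 2) (nat_lit 251) (nat_lit 283) (nat_lit 246)) (PT.nd (nat_lit 78) (PT.lf (nat_lit 37924) (nat_lit 6) (nat_lit 499) (nat_lit 2) (nat_lit 252) (nat_lit 283) (nat_lit 245)) (PT.lf (nat_lit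 38000) (nat_lit 6) (nat_lit 500) (nat_lit 2) (nat_lit 253) (nat_lit 283) (nat_lit 244)))) (PT.nd (nat_lit 156) (PT.nd (nat_lit 78) (PT.lf (nat_lit 38076) (nat_lit 6) (nat_lit 501) (nat_lit 2) (nat_lit 254) (nat_lit 283) (nat_lit 243)) (PT.lf (nat_lit 38152) (nat_lit 6) (nat_lit 502) (nat_lit 2) (nat_lit 255) (nat_lit 283) (nat_lit 242))) (PT.nd (nat_lit 78) (PT.lf (nat_lit 38228) (nat_lit 6) (nat_lit 503) (nat_lit 2) (nat_lit 256) (nat_lit 283) (nat_lit 241)) (PT.lf (nat_lit 38304) (nat_lit 6) (nat_lit 504) (nat_lit 2) (nat_lit 257) (nat_lit 283) (nat_lit 240))))) (PT.nd (nat_lit 234) (PT.nd (nat_lit 78) (PT.lf (nat_lit 38380) (nat_lit 6) (nat_lit 505) (nat_lit 2) (nat_lit 258) (nat_lit 283) (nat_lit 239)) (PT.nd (nat_lit 78) (PT.lf (nat_lit 38456) (nat_lit 6) (nat_lit 506) (nat_lit 2) (nat_lit 259) (nat_lit 283) (nat_lit 238)) (PT.lf (nat_lit 38532) (nat_lit 6) (nat_lit 507) (nat_lit 2) (nat_lit 260) (nat_lit 283) (nat_lit 237)))) (PT.nd (nat_lit 156) (PT.nd (nat_lit 78) (PT.lf (nat_lit 36784) (nat_lit 6) (nat_lit 484) (nat_lit 2) (nat_lit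 261) (nat_lit 283) (nat_lit 236)) (PT.lf (nat_lit 34960) (nat_lit 6) (nat_lit 460) (nat_lit 2) (nat_lit 262) (nat_lit 283) (nat_lit 235))) (PT.nd (nat_lit 78) (PT.lf (nat_lit 33896) (nat_lit 6) (nat_lit 446) (nat_lit 2) (nat_lit 263) (nat_lit 283) (nat_lit 234)) (PT.lf (nat_lit 32984) (nat_lit 6) (nat_lit 434) (nat_lit 2) (nat_lit 264) (nat_lit 283) (nat_lit 233))))))) (PT.nd (nat_lit 1092) (PT.nd (nat_lit 546) (PT.nd (nat_lit 234) (PT.nd (nat_lit 78) (PT.lf (nat_lit 32072) (nat_lit 6) (nat_lit 422) (nat_lit 2) (nat_lit 265) (nat_lit 283) (nat_lit 232)) (PT.nd (nat_lit 78) (PT.lf (nat_lit 31236) (nat_lit 6) (nat_lit 411) (nat_lit 2) (nat_lit 266) (nat_lit 283) (nat_lit 231)) (PT.lf (nat_lit 30400) (nat_lit 6) (nat_lit 400) (nat_lit 2) (nat_lit 267) (nat_lit 283) (nat_lit 230)))) (PT.nd (nat_lit 156) (PT.nd (nat_lit 78) (PT.lf (nat_lit 29564) (nat_lit 6) (nat_lit 389) (nat_lit 2) (nat_lit 268) (nat_lit 283) (nat_lit 229)) (PT.lf (nat_lit 28728) (nat_lit 6) (nat_lit 378) (nat_lit 2) (nat_lit 269) (nat_lit 283) (nat_lit 228))) (PT.nd (nat_lit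 78) (PT.lf (nat_lit 27968) (nat_lit 6) (nat_lit 368) (nat_lit 2) (nat_lit 270) (nat_lit 283) (nat_lit 227)) (PT.lf (nat_lit 27208) (nat_lit 6) (nat_lit 358) (nat_lit 2) (nat_lit 271) (nat_lit 283) (nat_lit 226))))) (PT.nd (nat_lit 234) (PT.nd (nat_lit 78) (PT.lf (nat_lit 26524) (nat_lit 6) (nat_lit 349) (nat_lit 2) (nat_lit 272) (nat_lit 283) (nat_lit 225)) (PT.nd (nat_lit 78) (PT.lf (nat_lit 25764) (nat_lit 6) (nat_lit 339) (nat_lit 2) (nat_lit 273) (nat_lit 283) (nat_lit 224)) (PT.lf (nat_lit 25080) (nat_lit 6) (nat_lit 330) (nat_lit 2) (nat_lit 274) (nat_lit 283) (nat_lit 223)))) (PT.nd (nat_lit 156) (PT.nd (nat_lit 78) (PT.lf (nat_lit 24396) (nat_lit 6) (nat_lit 321) (nat_lit 2) (nat_lit 275) (nat_lit 283) (nat_lit 222)) (PT.lf (nat_lit 23788) (nat_lit 6) (nat_lit 313) (nat_lit 2) (nat_lit 276) (nat_lit 283) (nat_lit 221))) (PT.nd (nat_lit 78) (PT.lf (nat_lit 23104) (nat_lit 6) (nat_lit 304) (nat_lit 2) (nat_lit 277) (nat_lit 283) (nat_lit 220)) (PT.lf (nat_lit 22496) (nat_lit 6) (nat_lit 296) (nat_lit 2) (nat_lit 278) (nat_lit 283)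 (nat_lit 219)))))) (PT.nd (nat_lit 546) (PT.nd (nat_lit 234) (PT.nd (nat_lit 78) (PT.lf (nat_lit 21888) (nat_lit 6) (nat_lit 288) (nat_lit 2) (nat_lit 279) (nat_lit 283) (nat_lit 218)) (PT.nd (nat_lit 78) (PT.lf (nat_lit 21280) (nat_lit 6) (nat_lit 280) (nat_lit 2) (nat_lit 280) (nat_lit 283) (nat_lit 217)) (PT.lf (nat_lit 20672) (nat_lit 6) (nat_lit 272) (nat_lit 2) (nat_lit 281) (nat_lit 283) (nat_lit 216)))) (PT.nd (nat_lit 156) (PT.nd (nat_lit 78) (PT.lf (nat_lit 20140) (nat_lit 6) (nat_lit 265) (nat_lit 2) (nat_lit 282) (nat_lit 283) (nat_lit 215)) (PT.lf (nat_lit 19608) (nat_lit 3) (nat_lit 258) (nat_lit 0) (nat_lit 283) (nat_lit 283) (nat_lit 214))) (PT.nd (nat_lit 78) (PT.lf (nat_lit 19000) (nat_lit 6) (nat_lit 250) (nat_lit 0) (nat_lit 284) (nat_lit 283) (nat_lit 213)) (PT.lf (nat_lit 18392) (nat_lit 6) (nat_lit 242) (nat_lit 0) (nat_lit 285) (nat_lit 283) (nat_lit 212))))) (PT.nd (nat_lit 312) (PT.nd (nat_lit 156) (PT.nd (nat_lit 78) (PT.lf (nat_lit 17860) (nat_lit 6) (nat_lit 235) (nat_lit 0) (nat_lit 286) (nat_lit 283) (nat_lit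 211)) (PT.lf (nat_lit 17252) (nat_lit 6) (nat_lit 227) (nat_lit 0) (nat_lit 287) (nat_lit 283) (nat_lit 210))) (PT.nd (nat_lit 78) (PT.lf (nat_lit 16720) (nat_lit 6) (nat_lit 220) (nat_lit 0) (nat_lit 288) (nat_lit 283) (nat_lit 209)) (PT.lf (nat_lit 16188) (nat_lit 6) (nat_lit 213) (nat_lit 0) (nat_lit 289) (nat_lit 283) (nat_lit 208)))) (PT.nd (nat_lit 156) (PT.nd (nat_lit 78) (PT.lf (nat_lit 15656) (nat_lit 6) (nat_lit 206) (nat_lit 0) (nat_lit 290) (nat_lit 283) (nat_lit 207)) (PT.lf (nat_lit 15124) (nat_lit 6) (nat_lit 199) (nat_lit 0) (nat_lit 291) (nat_lit 283) (nat_lit 206))) (PT.nd (nat_lit 78) (PT.lf (nat_lit 14668) (nat_lit 6) (nat_lit 193) (nat_lit 0) (nat_lit 292) (nat_lit 283) (nat_lit 205)) (PT.lf (nat_lit 14136) (nat_lit 6) (nat_lit 186) (nat_lit 0) (nat_lit 293) (nat_lit 283) (nat_lit 204))))))))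
noncomputable def pc55 : PT := (PT.nd (nat_lit 2262) (PT.nd (nat_lit 1092) (PT.nd (nat_lit 546) (PT.nd (nat_lit 234) (PT.nd (nat_lit 78) (PT.lf (nat_lit 13756) (nat_lit 6) (nat_lit 181) (nat_lit 5) (nat_lit 203) (nat_lit 284) (nat_lit 293)) (PT.nd (nat_lit 78) (PT.lf (nat_lit 14212) (nat_lit 6) (nat_lit 187) (nat_lit 5) (nat_lit 204) (nat_lit 284) (nat_lit 292)) (PT.lf (nat_lit 14744) (nat_lit 6) (nat_lit 194) (nat_lit 5) (nat_lit 205) (nat_lit 284) (nat_lit 291)))) (PT.nd (nat_lit 156) (PT.nd (nat_lit 78) (PT.lf (nat_lit 15200) (nat_lit 6) (nat_lit 200) (nat_lit 5) (nat_lit 206) (nat_lit 284) (nat_lit 290)) (PT.lf (nat_lit 15732) (nat_lit 6) (nat_lit 207) (nat_lit 5) (nat_lit 207) (nat_lit 284) (nat_lit 289))) (PT.nd (nat_lit 78) (PT.lf (nat_lit 16264) (nat_lit 6) (nat_lit 214) (nat_lit 5) (nat_lit 208) (nat_lit 284) (nat_lit 288)) (PT.lf (nat_lit 16796) (nat_lit 6) (nat_lit 221) (nat_lit 5) (nat_lit 209) (nat_lit 284) (nat_lit 287))))) (PT.nd (nat_lit 234) (PT.nd (nat_lit 78) (PT.lf (nat_lit 17328) (nat_lit 6) (nat_lit 228) (nat_lit 5)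 (nat_lit 210) (nat_lit 284) (nat_lit 286)) (PT.nd (nat_lit 78) (PT.lf (nat_lit 17936) (nat_lit 6) (nat_lit 236) (nat_lit 5) (nat_lit 211) (nat_lit 284) (nat_lit 285)) (PT.lf (nat_lit 18468) (nat_lit 3) (nat_lit 243) (nat_lit 4) (nat_lit 212) (nat_lit 284) (nat_lit 284)))) (PT.nd (nat_lit 156) (PT.nd (nat_lit 78) (PT.lf (nat_lit 19000) (nat_lit 6) (nat_lit 250) (nat_lit 4) (nat_lit 213) (nat_lit 284) (nat_lit 283)) (PT.lf (nat_lit 19532) (nat_lit 6) (nat_lit 257) (nat_lit 4) (nat_lit 214) (nat_lit 284) (nat_lit 282))) (PT.nd (nat_lit 78) (PT.lf (nat_lit 20064) (nat_lit 6) (nat_lit 264) (nat_lit 4) (nat_lit 215) (nat_lit 284) (nat_lit 281)) (PT.lf (nat_lit 20596) (nat_lit 6) (nat_lit 271) (nat_lit 4) (nat_lit 216) (nat_lit 284) (nat_lit 280)))))) (PT.nd (nat_lit 546) (PT.nd (nat_lit 234) (PT.nd (nat_lit 78) (PT.lf (nat_lit 21204) (nat_lit 6) (nat_lit 279) (nat_lit 4) (nat_lit 217) (nat_lit 284) (nat_lit 279)) (PT.nd (nat_lit 78) (PT.lf (nat_lit 21812) (nat_lit 6) (nat_lit 287) (nat_lit 4) (nat_lit 218) (nat_lit 284) (nat_lit 278)) (PT.lf (nat_lit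 22420) (nat_lit 6) (nat_lit 295) (nat_lit 4) (nat_lit 219) (nat_lit 284) (nat_lit 277)))) (PT.nd (nat_lit 156) (PT.nd (nat_lit 78) (PT.lf (nat_lit 23028) (nat_lit 6) (nat_lit 303) (nat_lit 4) (nat_lit 220) (nat_lit 284) (nat_lit 276)) (PT.lf (nat_lit 23712) (nat_lit 6) (nat_lit 312) (nat_lit 4) (nat_lit 221) (nat_lit 284) (nat_lit 275))) (PT.nd (nat_lit 78) (PT.lf (nat_lit 24320) (nat_lit 6) (nat_lit 320) (nat_lit 4) (nat_lit 222) (nat_lit 284) (nat_lit 274)) (PT.lf (nat_lit 25004) (nat_lit 6) (nat_lit 329) (nat_lit 4) (nat_lit 223) (nat_lit 284) (nat_lit 273))))) (PT.nd (nat_lit 312) (PT.nd (nat_lit 156) (PT.nd (nat_lit 78) (PT.lf (nat_lit 25688) (nat_lit 6) (nat_lit 338) (nat_lit 4) (nat_lit 224) (nat_lit 284) (nat_lit 272)) (PT.lf (nat_lit 26448) (nat_lit 6) (nat_lit 348) (nat_lit 4) (nat_lit 225) (nat_lit 284) (nat_lit 271))) (PT.nd (nat_lit 78) (PT.lf (nat_lit 27132) (nat_lit 6) (nat_lit 357) (nat_lit 4) (nat_lit 226) (nat_lit 284) (nat_lit 270)) (PT.lf (nat_lit 27892) (nat_lit 6) (nat_lit 367) (nat_lit 4) (nat_lit 227) (nat_lit 284)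 (nat_lit 269)))) (PT.nd (nat_lit 156) (PT.nd (nat_lit 78) (PT.lf (nat_lit 28652) (nat_lit 6) (nat_lit 377) (nat_lit 4) (nat_lit 228) (nat_lit 284) (nat_lit 268)) (PT.lf (nat_lit 29488) (nat_lit 6) (nat_lit 388) (nat_lit 4) (nat_lit 229) (nat_lit 284) (nat_lit 267))) (PT.nd (nat_lit 78) (PT.lf (nat_lit 30324) (nat_lit 6) (nat_lit 399) (nat_lit 4) (nat_lit 230) (nat_lit 284) (nat_lit 266)) (PT.lf (nat_lit 31160) (nat_lit 6) (nat_lit 410) (nat_lit 4) (nat_lit 231) (nat_lit 284) (nat_lit 265))))))) (PT.nd (nat_lit 1092) (PT.nd (nat_lit 546) (PT.nd (nat_lit 234) (PT.nd (nat_lit 78) (PT.lf (nat_lit 31996) (nat_lit 6) (nat_lit 421) (nat_lit 4) (nat_lit 232) (nat_lit 284) (nat_lit 264)) (PT.nd (nat_lit 78) (PT.lf (nat_lit 32908) (nat_lit 6) (nat_lit 433) (nat_lit 4) (nat_lit 233) (nat_lit 284) (nat_lit 263)) (PT.lf (nat_lit 33820) (nat_lit 6) (nat_lit 445) (nat_lit 4) (nat_lit 234) (nat_lit 284) (nat_lit 262)))) (PT.nd (nat_lit 156) (PT.nd (nat_lit 78) (PT.lf (nat_lit 34884) (nat_lit 6) (nat_lit 459) (nat_lit 4) (nat_lit 235) (nat_lit 284) (nat_lit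 261)) (PT.lf (nat_lit 36708) (nat_lit 6) (nat_lit 483) (nat_lit 4) (nat_lit 236) (nat_lit 284) (nat_lit 260))) (PT.nd (nat_lit 78) (PT.lf (nat_lit 36632) (nat_lit 6) (nat_lit 482) (nat_lit 4) (nat_lit 237) (nat_lit 284) (nat_lit 259)) (PT.lf (nat_lit 36556) (nat_lit 6) (nat_lit 481) (nat_lit 4) (nat_lit 238) (nat_lit 284) (nat_lit 258))))) (PT.nd (nat_lit 234) (PT.nd (nat_lit 78) (PT.lf (nat_lit 36480) (nat_lit 6) (nat_lit 480) (nat_lit 4) (nat_lit 239) (nat_lit 284) (nat_lit 257)) (PT.nd (nat_lit 78) (PT.lf (nat_lit 36404) (nat_lit 6) (nat_lit 479) (nat_lit 4) (nat_lit 240) (nat_lit 284) (nat_lit 256)) (PT.lf (nat_lit 36328) (nat_lit 6) (nat_lit 478) (nat_lit 4) (nat_lit 241) (nat_lit 284) (nat_lit 255)))) (PT.nd (nat_lit 156) (PT.nd (nat_lit 78) (PT.lf (nat_lit 36252) (nat_lit 6) (nat_lit 477) (nat_lit 4) (nat_lit 242) (nat_lit 284) (nat_lit 254)) (PT.lf (nat_lit 36176) (nat_lit 6) (nat_lit 476) (nat_lit 4) (nat_lit 243) (nat_lit 284) (nat_lit 253))) (PT.nd (nat_lit 78) (PT.lf (nat_lit 36100) (nat_lit 6) (nat_lit 475) (nat_lit 4) (nat_lit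 244) (nat_lit 284) (nat_lit 252)) (PT.lf (nat_lit 36024) (nat_lit 6) (nat_lit 474) (nat_lit 4) (nat_lit 245) (nat_lit 284) (nat_lit 251)))))) (PT.nd (nat_lit 546) (PT.nd (nat_lit 234) (PT.nd (nat_lit 78) (PT.lf (nat_lit 35948) (nat_lit 6) (nat_lit 473) (nat_lit 4) (nat_lit 246) (nat_lit 284) (nat_lit 250)) (PT.nd (nat_lit 78) (PT.lf (nat_lit 35872) (nat_lit 6) (nat_lit 472) (nat_lit 4) (nat_lit 247) (nat_lit 284) (nat_lit 249)) (PT.lf (nat_lit 35796) (nat_lit 3) (nat_lit 471) (nat_lit 2) (nat_lit 248) (nat_lit 284) (nat_lit 248)))) (PT.nd (nat_lit 156) (PT.nd (nat_lit 78) (PT.lf (nat_lit 35872) (nat_lit 6) (nat_lit 472) (nat_lit 2) (nat_lit 249) (nat_lit 284) (nat_lit 247)) (PT.lf (nat_lit 35948) (nat_lit 6) (nat_lit 473) (nat_lit 2) (nat_lit 250) (nat_lit 284) (nat_lit 246))) (PT.nd (nat_lit 78) (PT.lf (nat_lit 36024) (nat_lit 6) (nat_lit 474) (nat_lit 2) (nat_lit 251) (nat_lit 284) (nat_lit 245)) (PT.lf (nat_lit 36100) (nat_lit 6) (nat_lit 475) (nat_lit 2) (nat_lit 252) (nat_lit 284) (nat_lit 244))))) (PT.nd (nat_lit 312) (PT.nd (nat_lit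 156) (PT.nd (nat_lit 78) (PT.lf (nat_lit 36176) (nat_lit 6) (nat_lit 476) (nat_lit 2) (nat_lit 253) (nat_lit 284) (nat_lit 243)) (PT.lf (nat_lit 36252) (nat_lit 6) (nat_lit 477) (nat_lit 2) (nat_lit 254) (nat_lit 284) (nat_lit 242))) (PT.nd (nat_lit 78) (PT.lf (nat_lit 36328) (nat_lit 6) (nat_lit 478) (nat_lit 2) (nat_lit 255) (nat_lit 284) (nat_lit 241)) (PT.lf (nat_lit 36404) (nat_lit 6) (nat_lit 479) (nat_lit 2) (nat_lit 256) (nat_lit 284) (nat_lit 240)))) (PT.nd (nat_lit 156) (PT.nd (nat_lit 78) (PT.lf (nat_lit 36480) (nat_lit 6) (nat_lit 480) (nat_lit 2) (nat_lit 257) (nat_lit 284) (nat_lit 239)) (PT.lf (nat_lit 36556) (nat_lit 6) (nat_lit 481) (nat_lit 2) (nat_lit 258) (nat_lit 284) (nat_lit 238))) (PT.nd (nat_lit 78) (PT.lf (nat_lit 36632) (nat_lit 6) (nat_lit 482) (nat_lit 2) (nat_lit 259) (nat_lit 284) (nat_lit 237)) (PT.lf (nat_lit 36708) (nat_lit 6) (nat_lit 483) (nat_lit 2) (nat_lit 260) (nat_lit 284) (nat_lit 236))))))))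
noncomputable def pc56 : PT := (PT.nd (nat_lit 2184) (PT.nd (nat_lit 1092) (PT.nd (nat_lit 546) (PT.nd (nat_lit 234) (PT.nd (nat_lit 78) (PT.lf (nat_lit 34884) (nat_lit 6) (nat_lit 459) (nat_lit 2) (nat_lit 261) (nat_lit 284) (nat_lit 235)) (PT.nd (nat_lit 78) (PT.lf (nat_lit 33820) (nat_lit 6) (nat_lit 445) (nat_lit 2) (nat_lit 262) (nat_lit 284) (nat_lit 234)) (PT.lf (nat_lit 32908) (nat_lit 6) (nat_lit 433) (nat_lit 2) (nat_lit 263) (nat_lit 284) (nat_lit 233)))) (PT.nd (nat_lit 156) (PT.nd (nat_lit 78) (PT.lf (nat_lit 31996) (nat_lit 6) (nat_lit 421) (nat_lit 2) (nat_lit 264) (nat_lit 284) (nat_lit 232)) (PT.lf (nat_lit 31160) (nat_lit 6) (nat_lit 410) (nat_lit 2) (nat_lit 265) (nat_lit 284) (nat_lit 231))) (PT.nd (nat_lit 78) (PT.lf (nat_lit 30324) (nat_lit 6) (nat_lit 399) (nat_lit 2) (nat_lit 266) (nat_lit 284) (nat_lit 230)) (PT.lf (nat_lit 29488) (nat_lit 6) (nat_lit 388) (nat_lit 2) (nat_lit 267) (nat_lit 284) (nat_lit 229))))) (PT.nd (nat_lit 234) (PT.nd (nat_lit 78) (PT.lf (nat_lit 28652) (nat_lit 6) (nat_lit 377) (nat_lit 2)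 (nat_lit 268) (nat_lit 284) (nat_lit 228)) (PT.nd (nat_lit 78) (PT.lf (nat_lit 27892) (nat_lit 6) (nat_lit 367) (nat_lit 2) (nat_lit 269) (nat_lit 284) (nat_lit 227)) (PT.lf (nat_lit 27132) (nat_lit 6) (nat_lit 357) (nat_lit 2) (nat_lit 270) (nat_lit 284) (nat_lit 226)))) (PT.nd (nat_lit 156) (PT.nd (nat_lit 78) (PT.lf (nat_lit 26448) (nat_lit 6) (nat_lit 348) (nat_lit 2) (nat_lit 271) (nat_lit 284) (nat_lit 225)) (PT.lf (nat_lit 25688) (nat_lit 6) (nat_lit 338) (nat_lit 2) (nat_lit 272) (nat_lit 284) (nat_lit 224))) (PT.nd (nat_lit 78) (PT.lf (nat_lit 25004) (nat_lit 6) (nat_lit 329) (nat_lit 2) (nat_lit 273) (nat_lit 284) (nat_lit 223)) (PT.lf (nat_lit 24320) (nat_lit 6) (nat_lit 320) (nat_lit 2) (nat_lit 274) (nat_lit 284) (nat_lit 222)))))) (PT.nd (nat_lit 546) (PT.nd (nat_lit 234) (PT.nd (nat_lit 78) (PT.lf (nat_lit 23712) (nat_lit 6) (nat_lit 312) (nat_lit 2) (nat_lit 275) (nat_lit 284) (nat_lit 221)) (PT.nd (nat_lit 78) (PT.lf (nat_lit 23028) (nat_lit 6) (nat_lit 303) (nat_lit 2) (nat_lit 276) (nat_lit 284) (nat_lit 220)) (PT.lf (nat_lit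 22420) (nat_lit 6) (nat_lit 295) (nat_lit 2) (nat_lit 277) (nat_lit 284) (nat_lit 219)))) (PT.nd (nat_lit 156) (PT.nd (nat_lit 78) (PT.lf (nat_lit 21812) (nat_lit 6) (nat_lit 287) (nat_lit 2) (nat_lit 278) (nat_lit 284) (nat_lit 218)) (PT.lf (nat_lit 21204) (nat_lit 6) (nat_lit 279) (nat_lit 2) (nat_lit 279) (nat_lit 284) (nat_lit 217))) (PT.nd (nat_lit 78) (PT.lf (nat_lit 20596) (nat_lit 6) (nat_lit 271) (nat_lit 2) (nat_lit 280) (nat_lit 284) (nat_lit 216)) (PT.lf (nat_lit 20064) (nat_lit 6) (nat_lit 264) (nat_lit 2) (nat_lit 281) (nat_lit 284) (nat_lit 215))))) (PT.nd (nat_lit 234) (PT.nd (nat_lit 78) (PT.lf (nat_lit 19532) (nat_lit 6) (nat_lit 257) (nat_lit 2) (nat_lit 282) (nat_lit 284) (nat_lit 214)) (PT.nd (nat_lit 78) (PT.lf (nat_lit 19000) (nat_lit 6) (nat_lit 250) (nat_lit 2) (nat_lit 283) (nat_lit 284) (nat_lit 213)) (PT.lf (nat_lit 18468) (nat_lit 3) (nat_lit 243) (nat_lit 0) (nat_lit 284) (nat_lit 284) (nat_lit 212)))) (PT.nd (nat_lit 156) (PT.nd (nat_lit 78) (PT.lf (nat_lit 17936) (nat_lit 6) (nat_lit 236) (nat_lit 0) (nat_lit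 285) (nat_lit 284) (nat_lit 211)) (PT.lf (nat_lit 17328) (nat_lit 6) (nat_lit 228) (nat_lit 0) (nat_lit 286) (nat_lit 284) (nat_lit 210))) (PT.nd (nat_lit 78) (PT.lf (nat_lit 16796) (nat_lit 6) (nat_lit 221) (nat_lit 0) (nat_lit 287) (nat_lit 284) (nat_lit 209)) (PT.lf (nat_lit 16264) (nat_lit 6) (nat_lit 214) (nat_lit 0) (nat_lit 288) (nat_lit 284) (nat_lit 208))))))) (PT.nd (nat_lit 75114) (PT.nd (nat_lit 74568) (PT.nd (nat_lit 234) (PT.nd (nat_lit 78) (PT.lf (nat_lit 15732) (nat_lit 6) (nat_lit 207) (nat_lit 0) (nat_lit 289) (nat_lit 284) (nat_lit 207)) (PT.nd (nat_lit 78) (PT.lf (nat_lit 15200) (nat_lit 6) (nat_lit 200) (nat_lit 0) (nat_lit 290) (nat_lit 284) (nat_lit 206)) (PT.lf (nat_lit 14744) (nat_lit 6) (nat_lit 194) (nat_lit 0) (nat_lit 291) (nat_lit 284) (nat_lit 205)))) (PT.nd (nat_lit 74178) (PT.nd (nat_lit 78) (PT.lf (nat_lit 14212) (nat_lit 6) (nat_lit 187) (nat_lit 0) (nat_lit 292) (nat_lit 284) (nat_lit 204)) (PT.lf (nat_lit 13756) (nat_lit 6) (nat_lit 181) (nat_lit 0) (nat_lit 293) (nat_lit 284) (nat_lit 203))) (PT.nd (nat_lit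 78) (PT.lf (nat_lit 13376) (nat_lit 6) (nat_lit 176) (nat_lit 5) (nat_lit 202) (nat_lit 285) (nat_lit 293)) (PT.lf (nat_lit 13832) (nat_lit 6) (nat_lit 182) (nat_lit 5) (nat_lit 203) (nat_lit 285) (nat_lit 292))))) (PT.nd (nat_lit 234) (PT.nd (nat_lit 78) (PT.lf (nat_lit 14288) (nat_lit 6) (nat_lit 188) (nat_lit 5) (nat_lit 204) (nat_lit 285) (nat_lit 291)) (PT.nd (nat_lit 78) (PT.lf (nat_lit 14820) (nat_lit 6) (nat_lit 195) (nat_lit 5) (nat_lit 205) (nat_lit 285) (nat_lit 290)) (PT.lf (nat_lit 15276) (nat_lit 6) (nat_lit 201) (nat_lit 5) (nat_lit 206) (nat_lit 285) (nat_lit 289)))) (PT.nd (nat_lit 156) (PT.nd (nat_lit 78) (PT.lf (nat_lit 15808) (nat_lit 6) (nat_lit 208) (nat_lit 5) (nat_lit 207) (nat_lit 285) (nat_lit 288)) (PT.lf (nat_lit 16340) (nat_lit 6) (nat_lit 215) (nat_lit 5) (nat_lit 208) (nat_lit 285) (nat_lit 287))) (PT.nd (nat_lit 78) (PT.lf (nat_lit 16872) (nat_lit 6) (nat_lit 222) (nat_lit 5) (nat_lit 209) (nat_lit 285) (nat_lit 286)) (PT.lf (nat_lit 17404) (nat_lit 3) (nat_lit 229) (nat_lit 4) (nat_lit 210) (nat_lit 285)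 (nat_lit 285)))))) (PT.nd (nat_lit 546) (PT.nd (nat_lit 234) (PT.nd (nat_lit 78) (PT.lf (nat_lit 17936) (nat_lit 6) (nat_lit 236) (nat_lit 4) (nat_lit 211) (nat_lit 285) (nat_lit 284)) (PT.nd (nat_lit 78) (PT.lf (nat_lit 18392) (nat_lit 6) (nat_lit 242) (nat_lit 4) (nat_lit 212) (nat_lit 285) (nat_lit 283)) (PT.lf (nat_lit 18924) (nat_lit 6) (nat_lit 249) (nat_lit 4) (nat_lit 213) (nat_lit 285) (nat_lit 282)))) (PT.nd (nat_lit 156) (PT.nd (nat_lit 78) (PT.lf (nat_lit 19456) (nat_lit 6) (nat_lit 256) (nat_lit 4) (nat_lit 214) (nat_lit 285) (nat_lit 281)) (PT.lf (nat_lit 19988) (nat_lit 6) (nat_lit 263) (nat_lit 4) (nat_lit 215) (nat_lit 285) (nat_lit 280))) (PT.nd (nat_lit 78) (PT.lf (nat_lit 20520) (nat_lit 6) (nat_lit 270) (nat_lit 4) (nat_lit 216) (nat_lit 285) (nat_lit 279)) (PT.lf (nat_lit 21128) (nat_lit 6) (nat_lit 278) (nat_lit 4) (nat_lit 217) (nat_lit 285) (nat_lit 278))))) (PT.nd (nat_lit 312) (PT.nd (nat_lit 156) (PT.nd (nat_lit 78) (PT.lf (nat_lit 21736) (nat_lit 6) (nat_lit 286) (nat_lit 4) (nat_lit 218) (nat_lit 285) (nat_lit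 277)) (PT.lf (nat_lit 22344) (nat_lit 6) (nat_lit 294) (nat_lit 4) (nat_lit 219) (nat_lit 285) (nat_lit 276))) (PT.nd (nat_lit 78) (PT.lf (nat_lit 22952) (nat_lit 6) (nat_lit 302) (nat_lit 4) (nat_lit 220) (nat_lit 285) (nat_lit 275)) (PT.lf (nat_lit 23636) (nat_lit 6) (nat_lit 311) (nat_lit 4) (nat_lit 221) (nat_lit 285) (nat_lit 274)))) (PT.nd (nat_lit 156) (PT.nd (nat_lit 78) (PT.lf (nat_lit 24244) (nat_lit 6) (nat_lit 319) (nat_lit 4) (nat_lit 222) (nat_lit 285) (nat_lit 273)) (PT.lf (nat_lit 24928) (nat_lit 6) (nat_lit 328) (nat_lit 4) (nat_lit 223) (nat_lit 285) (nat_lit 272))) (PT.nd (nat_lit 78) (PT.lf (nat_lit 25612) (nat_lit 6) (nat_lit 337) (nat_lit 4) (nat_lit 224) (nat_lit 285) (nat_lit 271)) (PT.lf (nat_lit 26372) (nat_lit 6) (nat_lit 347) (nat_lit 4) (nat_lit 225) (nat_lit 285) (nat_lit 270))))))))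
noncomputable def pc57 : PT := (PT.nd (nat_lit 3978) (PT.nd (nat_lit 2808) (PT.nd (nat_lit 546) (PT.nd (nat_lit 234) (PT.nd (nat_lit 78) (PT.lf (nat_lit 27056) (nat_lit 6) (nat_lit 356) (nat_lit 4) (nat_lit 226) (nat_lit 285) (nat_lit 269)) (PT.nd (nat_lit 78) (PT.lf (nat_lit 27816) (nat_lit 6) (nat_lit 366) (nat_lit 4) (nat_lit 227) (nat_lit 285) (nat_lit 268)) (PT.lf (nat_lit 28576) (nat_lit 6) (nat_lit 376) (nat_lit 4) (nat_lit 228) (nat_lit 285) (nat_lit 267)))) (PT.nd (nat_lit 156) (PT.nd (nat_lit 78) (PT.lf (nat_lit 29412) (nat_lit 6) (nat_lit 387) (nat_lit 4) (nat_lit 229) (nat_lit 285) (nat_lit 266)) (PT.lf (nat_lit 30248) (nat_lit 6) (nat_lit 398) (nat_lit 4) (nat_lit 230) (nat_lit 285) (nat_lit 265))) (PT.nd (nat_lit 78) (PT.lf (nat_lit 31084) (nat_lit 6) (nat_lit 409) (nat_lit 4) (nat_lit 231) (nat_lit 285) (nat_lit 264)) (PT.lf (nat_lit 31920) (nat_lit 6) (nat_lit 420) (nat_lit 4) (nat_lit 232) (nat_lit 285) (nat_lit 263))))) (PT.nd (nat_lit 234) (PT.nd (nat_lit 78) (PT.lf (nat_lit 32832) (nat_lit 6) (nat_lit 432) (nat_lit 4)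 (nat_lit 233) (nat_lit 285) (nat_lit 262)) (PT.nd (nat_lit 78) (PT.lf (nat_lit 33744) (nat_lit 6) (nat_lit 444) (nat_lit 4) (nat_lit 234) (nat_lit 285) (nat_lit 261)) (PT.lf (nat_lit 34808) (nat_lit 6) (nat_lit 458) (nat_lit 4) (nat_lit 235) (nat_lit 285) (nat_lit 260)))) (PT.nd (nat_lit 1872) (PT.nd (nat_lit 1794) (PT.lf (nat_lit 34732) (nat_lit 6) (nat_lit 457) (nat_lit 4) (nat_lit 236) (nat_lit 285) (nat_lit 259)) (PT.lf (nat_lit 34732) (nat_lit 6) (nat_lit 457) (nat_lit 2) (nat_lit 259) (nat_lit 285) (nat_lit 236))) (PT.nd (nat_lit 78) (PT.lf (nat_lit 34808) (nat_lit 6) (nat_lit 458) (nat_lit 2) (nat_lit 260) (nat_lit 285) (nat_lit 235)) (PT.lf (nat_lit 33744) (nat_lit 6) (nat_lit 444) (nat_lit 2) (nat_lit 261) (nat_lit 285) (nat_lit 234)))))) (PT.nd (nat_lit 546) (PT.nd (nat_lit 234) (PT.nd (nat_lit 78) (PT.lf (nat_lit 32832) (nat_lit 6) (nat_lit 432) (nat_lit 2) (nat_lit 262) (nat_lit 285) (nat_lit 233)) (PT.nd (nat_lit 78) (PT.lf (nat_lit 31920) (nat_lit 6) (nat_lit 420) (nat_lit 2) (nat_lit 263) (nat_lit 285) (nat_lit 232)) (PT.lf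 (nat_lit 31084) (nat_lit 6) (nat_lit 409) (nat_lit 2) (nat_lit 264) (nat_lit 285) (nat_lit 231)))) (PT.nd (nat_lit 156) (PT.nd (nat_lit 78) (PT.lf (nat_lit 30248) (nat_lit 6) (nat_lit 398) (nat_lit 2) (nat_lit 265) (nat_lit 285) (nat_lit 230)) (PT.lf (nat_lit 29412) (nat_lit 6) (nat_lit 387) (nat_lit 2) (nat_lit 266) (nat_lit 285) (nat_lit 229))) (PT.nd (nat_lit 78) (PT.lf (nat_lit 28576) (nat_lit 6) (nat_lit 376) (nat_lit 2) (nat_lit 267) (nat_lit 285) (nat_lit 228)) (PT.lf (nat_lit 27816) (nat_lit 6) (nat_lit 366) (nat_lit 2) (nat_lit 268) (nat_lit 285) (nat_lit 227))))) (PT.nd (nat_lit 312) (PT.nd (nat_lit 156) (PT.nd (nat_lit 78) (PT.lf (nat_lit 27056) (nat_lit 6) (nat_lit 356) (nat_lit 2) (nat_lit 269) (nat_lit 285) (nat_lit 226)) (PT.lf (nat_lit 26372) (nat_lit 6) (nat_lit 347) (nat_lit 2) (nat_lit 270) (nat_lit 285) (nat_lit 225))) (PT.nd (nat_lit 78) (PT.lf (nat_lit 25612) (nat_lit 6) (nat_lit 337) (nat_lit 2) (nat_lit 271) (nat_lit 285) (nat_lit 224)) (PT.lf (nat_lit 24928) (nat_lit 6) (nat_lit 328) (nat_lit 2) (nat_lit 272) (nat_lit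 285) (nat_lit 223)))) (PT.nd (nat_lit 156) (PT.nd (nat_lit 78) (PT.lf (nat_lit 24244) (nat_lit 6) (nat_lit 319) (nat_lit 2) (nat_lit 273) (nat_lit 285) (nat_lit 222)) (PT.lf (nat_lit 23636) (nat_lit 6) (nat_lit 311) (nat_lit 2) (nat_lit 274) (nat_lit 285) (nat_lit 221))) (PT.nd (nat_lit 78) (PT.lf (nat_lit 22952) (nat_lit 6) (nat_lit 302) (nat_lit 2) (nat_lit 275) (nat_lit 285) (nat_lit 220)) (PT.lf (nat_lit 22344) (nat_lit 6) (nat_lit 294) (nat_lit 2) (nat_lit 276) (nat_lit 285) (nat_lit 219))))))) (PT.nd (nat_lit 1092) (PT.nd (nat_lit 546) (PT.nd (nat_lit 234) (PT.nd (nat_lit 78) (PT.lf (nat_lit 21736) (nat_lit 6) (nat_lit 286) (nat_lit 2) (nat_lit 277) (nat_lit 285) (nat_lit 218)) (PT.nd (nat_lit 78) (PT.lf (nat_lit 21128) (nat_lit 6) (nat_lit 278) (nat_lit 2) (nat_lit 278) (nat_lit 285) (nat_lit 217)) (PT.lf (nat_lit 20520) (nat_lit 6) (nat_lit 270) (nat_lit 2) (nat_lit 279) (nat_lit 285) (nat_lit 216)))) (PT.nd (nat_lit 156) (PT.nd (nat_lit 78) (PT.lf (nat_lit 19988) (nat_lit 6) (nat_lit 263) (nat_lit 2) (nat_lit 280) (nat_lit 285)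 (nat_lit 215)) (PT.lf (nat_lit 19456) (nat_lit 6) (nat_lit 256) (nat_lit 2) (nat_lit 281) (nat_lit 285) (nat_lit 214))) (PT.nd (nat_lit 78) (PT.lf (nat_lit 18924) (nat_lit 6) (nat_lit 249) (nat_lit 2) (nat_lit 282) (nat_lit 285) (nat_lit 213)) (PT.lf (nat_lit 18392) (nat_lit 6) (nat_lit 242) (nat_lit 2) (nat_lit 283) (nat_lit 285) (nat_lit 212))))) (PT.nd (nat_lit 234) (PT.nd (nat_lit 78) (PT.lf (nat_lit 17936) (nat_lit 6) (nat_lit 236) (nat_lit 2) (nat_lit 284) (nat_lit 285) (nat_lit 211)) (PT.nd (nat_lit 78) (PT.lf (nat_lit 17404) (nat_lit 3) (nat_lit 229) (nat_lit 0) (nat_lit 285) (nat_lit 285) (nat_lit 210)) (PT.lf (nat_lit 16872) (nat_lit 6) (nat_lit 222) (nat_lit 0) (nat_lit 286) (nat_lit 285) (nat_lit 209)))) (PT.nd (nat_lit 156) (PT.nd (nat_lit 78) (PT.lf (nat_lit 16340) (nat_lit 6) (nat_lit 215) (nat_lit 0) (nat_lit 287) (nat_lit 285) (nat_lit 208)) (PT.lf (nat_lit 15808) (nat_lit 6) (nat_lit 208) (nat_lit 0) (nat_lit 288) (nat_lit 285) (nat_lit 207))) (PT.nd (nat_lit 78) (PT.lf (nat_lit 15276) (nat_lit 6) (nat_lit 201) (nat_lit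 0) (nat_lit 289) (nat_lit 285) (nat_lit 206)) (PT.lf (nat_lit 14820) (nat_lit 6) (nat_lit 195) (nat_lit 0) (nat_lit 290) (nat_lit 285) (nat_lit 205)))))) (PT.nd (nat_lit 74568) (PT.nd (nat_lit 74256) (PT.nd (nat_lit 78) (PT.lf (nat_lit 14288) (nat_lit 6) (nat_lit 188) (nat_lit 0) (nat_lit 291) (nat_lit 285) (nat_lit 204)) (PT.nd (nat_lit 78) (PT.lf (nat_lit 13832) (nat_lit 6) (nat_lit 182) (nat_lit 0) (nat_lit 292) (nat_lit 285) (nat_lit 203)) (PT.lf (nat_lit 13376) (nat_lit 6) (nat_lit 176) (nat_lit 0) (nat_lit 293) (nat_lit 285) (nat_lit 202)))) (PT.nd (nat_lit 156) (PT.nd (nat_lit 78) (PT.lf (nat_lit 13452) (nat_lit 6) (nat_lit 177) (nat_lit 5) (nat_lit 202) (nat_lit 286) (nat_lit 292)) (PT.lf (nat_lit 13908) (nat_lit 6) (nat_lit 183) (nat_lit 5) (nat_lit 203) (nat_lit 286) (nat_lit 291))) (PT.nd (nat_lit 78) (PT.lf (nat_lit 14364) (nat_lit 6) (nat_lit 189) (nat_lit 5) (nat_lit 204) (nat_lit 286) (nat_lit 290)) (PT.lf (nat_lit 14896) (nat_lit 6) (nat_lit 196) (nat_lit 5) (nat_lit 205) (nat_lit 286) (nat_lit 289))))) (PT.nd (nat_lit 312)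 (PT.nd (nat_lit 156) (PT.nd (nat_lit 78) (PT.lf (nat_lit 15352) (nat_lit 6) (nat_lit 202) (nat_lit 5) (nat_lit 206) (nat_lit 286) (nat_lit 288)) (PT.lf (nat_lit 15884) (nat_lit 6) (nat_lit 209) (nat_lit 5) (nat_lit 207) (nat_lit 286) (nat_lit 287))) (PT.nd (nat_lit 78) (PT.lf (nat_lit 16416) (nat_lit 3) (nat_lit 216) (nat_lit 4) (nat_lit 208) (nat_lit 286) (nat_lit 286)) (PT.lf (nat_lit 16872) (nat_lit 6) (nat_lit 222) (nat_lit 4) (nat_lit 209) (nat_lit 286) (nat_lit 285)))) (PT.nd (nat_lit 156) (PT.nd (nat_lit 78) (PT.lf (nat_lit 17328) (nat_lit 6) (nat_lit 228) (nat_lit 4) (nat_lit 210) (nat_lit 286) (nat_lit 284)) (PT.lf (nat_lit 17860) (nat_lit 6) (nat_lit 235) (nat_lit 4) (nat_lit 211) (nat_lit 286) (nat_lit 283))) (PT.nd (nat_lit 78) (PT.lf (nat_lit 18316) (nat_lit 6) (nat_lit 241) (nat_lit 4) (nat_lit 212) (nat_lit 286) (nat_lit 282)) (PT.lf (nat_lit 18848) (nat_lit 6) (nat_lit 248) (nat_lit 4) (nat_lit 213) (nat_lit 286) (nat_lit 281))))))))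
noncomputable def pc58 : PT := (PT.nd (nat_lit 4758) (PT.nd (nat_lit 1092) (PT.nd (nat_lit 546) (PT.nd (nat_lit 234) (PT.nd (nat_lit 78) (PT.lf (nat_lit 19380) (nat_lit 6) (nat_lit 255) (nat_lit 4) (nat_lit 214) (nat_lit 286) (nat_lit 280)) (PT.nd (nat_lit 78) (PT.lf (nat_lit 19912) (nat_lit 6) (nat_lit 262) (nat_lit 4) (nat_lit 215) (nat_lit 286) (nat_lit 279)) (PT.lf (nat_lit 20444) (nat_lit 6) (nat_lit 269) (nat_lit 4) (nat_lit 216) (nat_lit 286) (nat_lit 278)))) (PT.nd (nat_lit 156) (PT.nd (nat_lit 78) (PT.lf (nat_lit 21052) (nat_lit 6) (nat_lit 277) (nat_lit 4) (nat_lit 217) (nat_lit 286) (nat_lit 277)) (PT.lf (nat_lit 21660) (nat_lit 6) (nat_lit 285) (nat_lit 4) (nat_lit 218) (nat_lit 286) (nat_lit 276))) (PT.nd (nat_lit 78) (PT.lf (nat_lit 22268) (nat_lit 6) (nat_lit 293) (nat_lit 4) (nat_lit 219) (nat_lit 286) (nat_lit 275)) (PT.lf (nat_lit 22876) (nat_lit 6) (nat_lit 301) (nat_lit 4) (nat_lit 220) (nat_lit 286) (nat_lit 274))))) (PT.nd (nat_lit 234) (PT.nd (nat_lit 78) (PT.lf (nat_lit 23560) (nat_lit 6) (nat_lit 310) (nat_lit 4)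 (nat_lit 221) (nat_lit 286) (nat_lit 273)) (PT.nd (nat_lit 78) (PT.lf (nat_lit 24168) (nat_lit 6) (nat_lit 318) (nat_lit 4) (nat_lit 222) (nat_lit 286) (nat_lit 272)) (PT.lf (nat_lit 24852) (nat_lit 6) (nat_lit 327) (nat_lit 4) (nat_lit 223) (nat_lit 286) (nat_lit 271)))) (PT.nd (nat_lit 156) (PT.nd (nat_lit 78) (PT.lf (nat_lit 25536) (nat_lit 6) (nat_lit 336) (nat_lit 4) (nat_lit 224) (nat_lit 286) (nat_lit 270)) (PT.lf (nat_lit 26296) (nat_lit 6) (nat_lit 346) (nat_lit 4) (nat_lit 225) (nat_lit 286) (nat_lit 269))) (PT.nd (nat_lit 78) (PT.lf (nat_lit 26980) (nat_lit 6) (nat_lit 355) (nat_lit 4) (nat_lit 226) (nat_lit 286) (nat_lit 268)) (PT.lf (nat_lit 27740) (nat_lit 6) (nat_lit 365) (nat_lit 4) (nat_lit 227) (nat_lit 286) (nat_lit 267)))))) (PT.nd (nat_lit 3120) (PT.nd (nat_lit 2808) (PT.nd (nat_lit 78) (PT.lf (nat_lit 28500) (nat_lit 6) (nat_lit 375) (nat_lit 4) (nat_lit 228) (nat_lit 286) (nat_lit 266)) (PT.nd (nat_lit 78) (PT.lf (nat_lit 29336) (nat_lit 6) (nat_lit 386) (nat_lit 4) (nat_lit 229) (nat_lit 286) (nat_lit 265)) (PT.lf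 (nat_lit 30172) (nat_lit 6) (nat_lit 397) (nat_lit 4) (nat_lit 230) (nat_lit 286) (nat_lit 264)))) (PT.nd (nat_lit 156) (PT.nd (nat_lit 78) (PT.lf (nat_lit 30172) (nat_lit 6) (nat_lit 397) (nat_lit 2) (nat_lit 264) (nat_lit 286) (nat_lit 230)) (PT.lf (nat_lit 29336) (nat_lit 6) (nat_lit 386) (nat_lit 2) (nat_lit 265) (nat_lit 286) (nat_lit 229))) (PT.nd (nat_lit 78) (PT.lf (nat_lit 28500) (nat_lit 6) (nat_lit 375) (nat_lit 2) (nat_lit 266) (nat_lit 286) (nat_lit 228)) (PT.lf (nat_lit 27740) (nat_lit 6) (nat_lit 365) (nat_lit 2) (nat_lit 267) (nat_lit 286) (nat_lit 227))))) (PT.nd (nat_lit 234) (PT.nd (nat_lit 78) (PT.lf (nat_lit 26980) (nat_lit 6) (nat_lit 355) (nat_lit 2) (nat_lit 268) (nat_lit 286) (nat_lit 226)) (PT.nd (nat_lit 78) (PT.lf (nat_lit 26296) (nat_lit 6) (nat_lit 346) (nat_lit 2) (nat_lit 269) (nat_lit 286) (nat_lit 225)) (PT.lf (nat_lit 25536) (nat_lit 6) (nat_lit 336) (nat_lit 2) (nat_lit 270) (nat_lit 286) (nat_lit 224)))) (PT.nd (nat_lit 156) (PT.nd (nat_lit 78) (PT.lf (nat_lit 24852) (nat_lit 6) (nat_lit 327) (nat_lit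 2) (nat_lit 271) (nat_lit 286) (nat_lit 223)) (PT.lf (nat_lit 24168) (nat_lit 6) (nat_lit 318) (nat_lit 2) (nat_lit 272) (nat_lit 286) (nat_lit 222))) (PT.nd (nat_lit 78) (PT.lf (nat_lit 23560) (nat_lit 6) (nat_lit 310) (nat_lit 2) (nat_lit 273) (nat_lit 286) (nat_lit 221)) (PT.lf (nat_lit 22876) (nat_lit 6) (nat_lit 301) (nat_lit 2) (nat_lit 274) (nat_lit 286) (nat_lit 220))))))) (PT.nd (nat_lit 1092) (PT.nd (nat_lit 546) (PT.nd (nat_lit 234) (PT.nd (nat_lit 78) (PT.lf (nat_lit 22268) (nat_lit 6) (nat_lit 293) (nat_lit 2) (nat_lit 275) (nat_lit 286) (nat_lit 219)) (PT.nd (nat_lit 78) (PT.lf (nat_lit 21660) (nat_lit 6) (nat_lit 285) (nat_lit 2) (nat_lit 276) (nat_lit 286) (nat_lit 218)) (PT.lf (nat_lit 21052) (nat_lit 6) (nat_lit 277) (nat_lit 2) (nat_lit 277) (nat_lit 286) (nat_lit 217)))) (PT.nd (nat_lit 156) (PT.nd (nat_lit 78) (PT.lf (nat_lit 20444) (nat_lit 6) (nat_lit 269) (nat_lit 2) (nat_lit 278) (nat_lit 286) (nat_lit 216)) (PT.lf (nat_lit 19912) (nat_lit 6) (nat_lit 262) (nat_lit 2) (nat_lit 279) (nat_lit 286) (nat_lit 215))) (PT.nd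 (nat_lit 78) (PT.lf (nat_lit 19380) (nat_lit 6) (nat_lit 255) (nat_lit 2) (nat_lit 280) (nat_lit 286) (nat_lit 214)) (PT.lf (nat_lit 18848) (nat_lit 6) (nat_lit 248) (nat_lit 2) (nat_lit 281) (nat_lit 286) (nat_lit 213))))) (PT.nd (nat_lit 234) (PT.nd (nat_lit 78) (PT.lf (nat_lit 18316) (nat_lit 6) (nat_lit 241) (nat_lit 2) (nat_lit 282) (nat_lit 286) (nat_lit 212)) (PT.nd (nat_lit 78) (PT.lf (nat_lit 17860) (nat_lit 6) (nat_lit 235) (nat_lit 2) (nat_lit 283) (nat_lit 286) (nat_lit 211)) (PT.lf (nat_lit 17328) (nat_lit 6) (nat_lit 228) (nat_lit 2) (nat_lit 284) (nat_lit 286) (nat_lit 210)))) (PT.nd (nat_lit 156) (PT.nd (nat_lit 78) (PT.lf (nat_lit 16872) (nat_lit 6) (nat_lit 222) (nat_lit 2) (nat_lit 285) (nat_lit 286) (nat_lit 209)) (PT.lf (nat_lit 16416) (nat_lit 3) (nat_lit 216) (nat_lit 0) (nat_lit 286) (nat_lit 286) (nat_lit 208))) (PT.nd (nat_lit 78) (PT.lf (nat_lit 15884) (nat_lit 6) (nat_lit 209) (nat_lit 0) (nat_lit 287) (nat_lit 286) (nat_lit 207)) (PT.lf (nat_lit 15352) (nat_lit 6) (nat_lit 202) (nat_lit 0) (nat_lit 288) (nat_lit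 286) (nat_lit 206)))))) (PT.nd (nat_lit 74490) (PT.nd (nat_lit 234) (PT.nd (nat_lit 78) (PT.lf (nat_lit 14896) (nat_lit 6) (nat_lit 196) (nat_lit 0) (nat_lit 289) (nat_lit 286) (nat_lit 205)) (PT.nd (nat_lit 78) (PT.lf (nat_lit 14364) (nat_lit 6) (nat_lit 189) (nat_lit 0) (nat_lit 290) (nat_lit 286) (nat_lit 204)) (PT.lf (nat_lit 13908) (nat_lit 6) (nat_lit 183) (nat_lit 0) (nat_lit 291) (nat_lit 286) (nat_lit 203)))) (PT.nd (nat_lit 74100) (PT.nd (nat_lit 74022) (PT.lf (nat_lit 13452) (nat_lit 6) (nat_lit 177) (nat_lit 0) (nat_lit 292) (nat_lit 286) (nat_lit 202)) (PT.lf (nat_lit 12616) (nat_lit 6) (nat_lit 166) (nat_lit 5) (nat_lit 200) (nat_lit 287) (nat_lit 293))) (PT.nd (nat_lit 78) (PT.lf (nat_lit 13072) (nat_lit 6) (nat_lit 172) (nat_lit 5) (nat_lit 201) (nat_lit 287) (nat_lit 292)) (PT.lf (nat_lit 13528) (nat_lit 6) (nat_lit 178) (nat_lit 5) (nat_lit 202) (nat_lit 287) (nat_lit 291))))) (PT.nd (nat_lit 312) (PT.nd (nat_lit 156) (PT.nd (nat_lit 78) (PT.lf (nat_lit 13984) (nat_lit 6) (nat_lit 184) (nat_lit 5) (nat_lit 203) (nat_lit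 287) (nat_lit 290)) (PT.lf (nat_lit 14440) (nat_lit 6) (nat_lit 190) (nat_lit 5) (nat_lit 204) (nat_lit 287) (nat_lit 289))) (PT.nd (nat_lit 78) (PT.lf (nat_lit 14972) (nat_lit 6) (nat_lit 197) (nat_lit 5) (nat_lit 205) (nat_lit 287) (nat_lit 288)) (PT.lf (nat_lit 15428) (nat_lit 3) (nat_lit 203) (nat_lit 4) (nat_lit 206) (nat_lit 287) (nat_lit 287)))) (PT.nd (nat_lit 156) (PT.nd (nat_lit 78) (PT.lf (nat_lit 15884) (nat_lit 6) (nat_lit 209) (nat_lit 4) (nat_lit 207) (nat_lit 287) (nat_lit 286)) (PT.lf (nat_lit 16340) (nat_lit 6) (nat_lit 215) (nat_lit 4) (nat_lit 208) (nat_lit 287) (nat_lit 285))) (PT.nd (nat_lit 78) (PT.lf (nat_lit 16796) (nat_lit 6) (nat_lit 221) (nat_lit 4) (nat_lit 209) (nat_lit 287) (nat_lit 284)) (PT.lf (nat_lit 17252) (nat_lit 6) (nat_lit 227) (nat_lit 4) (nat_lit 210) (nat_lit 287) (nat_lit 283))))))))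
noncomputable def pc59 : PT := (PT.nd (nat_lit 5538) (PT.nd (nat_lit 1092) (PT.nd (nat_lit 546) (PT.nd (nat_lit 234) (PT.nd (nat_lit 78) (PT.lf (nat_lit 17784) (nat_lit 6) (nat_lit 234) (nat_lit 4) (nat_lit 211) (nat_lit 287) (nat_lit 282)) (PT.nd (nat_lit 78) (PT.lf (nat_lit 18240) (nat_lit 6) (nat_lit 240) (nat_lit 4) (nat_lit 212) (nat_lit 287) (nat_lit 281)) (PT.lf (nat_lit 18772) (nat_lit 6) (nat_lit 247) (nat_lit 4) (nat_lit 213) (nat_lit 287) (nat_lit 280)))) (PT.nd (nat_lit 156) (PT.nd (nat_lit 78) (PT.lf (nat_lit 19304) (nat_lit 6) (nat_lit 254) (nat_lit 4) (nat_lit 214) (nat_lit 287) (nat_lit 279)) (PT.lf (nat_lit 19836) (nat_lit 6) (nat_lit 261) (nat_lit 4) (nat_lit 215) (nat_lit 287) (nat_lit 278))) (PT.nd (nat_lit 78) (PT.lf (nat_lit 20368) (nat_lit 6) (nat_lit 268) (nat_lit 4) (nat_lit 216) (nat_lit 287) (nat_lit 277)) (PT.lf (nat_lit 20976) (nat_lit 6) (nat_lit 276) (nat_lit 4) (nat_lit 217) (nat_lit 287) (nat_lit 276))))) (PT.nd (nat_lit 234) (PT.nd (nat_lit 78) (PT.lf (nat_lit 21584) (nat_lit 6) (nat_lit 284) (nat_lit 4)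 (nat_lit 218) (nat_lit 287) (nat_lit 275)) (PT.nd (nat_lit 78) (PT.lf (nat_lit 22192) (nat_lit 6) (nat_lit 292) (nat_lit 4) (nat_lit 219) (nat_lit 287) (nat_lit 274)) (PT.lf (nat_lit 22800) (nat_lit 6) (nat_lit 300) (nat_lit 4) (nat_lit 220) (nat_lit 287) (nat_lit 273)))) (PT.nd (nat_lit 156) (PT.nd (nat_lit 78) (PT.lf (nat_lit 23484) (nat_lit 6) (nat_lit 309) (nat_lit 4) (nat_lit 221) (nat_lit 287) (nat_lit 272)) (PT.lf (nat_lit 24092) (nat_lit 6) (nat_lit 317) (nat_lit 4) (nat_lit 222) (nat_lit 287) (nat_lit 271))) (PT.nd (nat_lit 78) (PT.lf (nat_lit 24776) (nat_lit 6) (nat_lit 326) (nat_lit 4) (nat_lit 223) (nat_lit 287) (nat_lit 270)) (PT.lf (nat_lit 25460) (nat_lit 6) (nat_lit 335) (nat_lit 4) (nat_lit 224) (nat_lit 287) (nat_lit 269)))))) (PT.nd (nat_lit 3822) (PT.nd (nat_lit 3510) (PT.nd (nat_lit 3354) (PT.lf (nat_lit 26220) (nat_lit 6) (nat_lit 345) (nat_lit 4) (nat_lit 225) (nat_lit 287) (nat_lit 268)) (PT.nd (nat_lit 78) (PT.lf (nat_lit 26220) (nat_lit 6) (nat_lit 345) (nat_lit 2) (nat_lit 268) (nat_lit 287) (nat_lit 225)) (PT.lf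 (nat_lit 25460) (nat_lit 6) (nat_lit 335) (nat_lit 2) (nat_lit 269) (nat_lit 287) (nat_lit 224)))) (PT.nd (nat_lit 156) (PT.nd (nat_lit 78) (PT.lf (nat_lit 24776) (nat_lit 6) (nat_lit 326) (nat_lit 2) (nat_lit 270) (nat_lit 287) (nat_lit 223)) (PT.lf (nat_lit 24092) (nat_lit 6) (nat_lit 317) (nat_lit 2) (nat_lit 271) (nat_lit 287) (nat_lit 222))) (PT.nd (nat_lit 78) (PT.lf (nat_lit 23484) (nat_lit 6) (nat_lit 309) (nat_lit 2) (nat_lit 272) (nat_lit 287) (nat_lit 221)) (PT.lf (nat_lit 22800) (nat_lit 6) (nat_lit 300) (nat_lit 2) (nat_lit 273) (nat_lit 287) (nat_lit 220))))) (PT.nd (nat_lit 312) (PT.nd (nat_lit 156) (PT.nd (nat_lit 78) (PT.lf (nat_lit 22192) (nat_lit 6) (nat_lit 292) (nat_lit 2) (nat_lit 274) (nat_lit 287) (nat_lit 219)) (PT.lf (nat_lit 21584) (nat_lit 6) (nat_lit 284) (nat_lit 2) (nat_lit 275) (nat_lit 287) (nat_lit 218))) (PT.nd (nat_lit 78) (PT.lf (nat_lit 20976) (nat_lit 6) (nat_lit 276) (nat_lit 2) (nat_lit 276) (nat_lit 287) (nat_lit 217)) (PT.lf (nat_lit 20368) (nat_lit 6) (nat_lit 268) (nat_lit 2) (nat_lit 277) (nat_lit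 287) (nat_lit 216)))) (PT.nd (nat_lit 156) (PT.nd (nat_lit 78) (PT.lf (nat_lit 19836) (nat_lit 6) (nat_lit 261) (nat_lit 2) (nat_lit 278) (nat_lit 287) (nat_lit 215)) (PT.lf (nat_lit 19304) (nat_lit 6) (nat_lit 254) (nat_lit 2) (nat_lit 279) (nat_lit 287) (nat_lit 214))) (PT.nd (nat_lit 78) (PT.lf (nat_lit 18772) (nat_lit 6) (nat_lit 247) (nat_lit 2) (nat_lit 280) (nat_lit 287) (nat_lit 213)) (PT.lf (nat_lit 18240) (nat_lit 6) (nat_lit 240) (nat_lit 2) (nat_lit 281) (nat_lit 287) (nat_lit 212))))))) (PT.nd (nat_lit 74880) (PT.nd (nat_lit 546) (PT.nd (nat_lit 234) (PT.nd (nat_lit 78) (PT.lf (nat_lit 17784) (nat_lit 6) (nat_lit 234) (nat_lit 2) (nat_lit 282) (nat_lit 287) (nat_lit 211)) (PT.nd (nat_lit 78) (PT.lf (nat_lit 17252) (nat_lit 6) (nat_lit 227) (nat_lit 2) (nat_lit 283) (nat_lit 287) (nat_lit 210)) (PT.lf (nat_lit 16796) (nat_lit 6) (nat_lit 221) (nat_lit 2) (nat_lit 284) (nat_lit 287) (nat_lit 209)))) (PT.nd (nat_lit 156) (PT.nd (nat_lit 78) (PT.lf (nat_lit 16340) (nat_lit 6) (nat_lit 215) (nat_lit 2) (nat_lit 285) (nat_lit 287)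 (nat_lit 208)) (PT.lf (nat_lit 15884) (nat_lit 6) (nat_lit 209) (nat_lit 2) (nat_lit 286) (nat_lit 287) (nat_lit 207))) (PT.nd (nat_lit 78) (PT.lf (nat_lit 15428) (nat_lit 3) (nat_lit 203) (nat_lit 0) (nat_lit 287) (nat_lit 287) (nat_lit 206)) (PT.lf (nat_lit 14972) (nat_lit 6) (nat_lit 197) (nat_lit 0) (nat_lit 288) (nat_lit 287) (nat_lit 205))))) (PT.nd (nat_lit 234) (PT.nd (nat_lit 78) (PT.lf (nat_lit 14440) (nat_lit 6) (nat_lit 190) (nat_lit 0) (nat_lit 289) (nat_lit 287) (nat_lit 204)) (PT.nd (nat_lit 78) (PT.lf (nat_lit 13984) (nat_lit 6) (nat_lit 184) (nat_lit 0) (nat_lit 290) (nat_lit 287) (nat_lit 203)) (PT.lf (nat_lit 13528) (nat_lit 6) (nat_lit 178) (nat_lit 0) (nat_lit 291) (nat_lit 287) (nat_lit 202)))) (PT.nd (nat_lit 73944) (PT.nd (nat_lit 78) (PT.lf (nat_lit 13072) (nat_lit 6) (nat_lit 172) (nat_lit 0) (nat_lit 292) (nat_lit 287) (nat_lit 201)) (PT.lf (nat_lit 12616) (nat_lit 6) (nat_lit 166) (nat_lit 0) (nat_lit 293) (nat_lit 287) (nat_lit 200))) (PT.nd (nat_lit 78) (PT.lf (nat_lit 12236) (nat_lit 6) (nat_lit 161) (nat_lit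 5) (nat_lit 199) (nat_lit 288) (nat_lit 293)) (PT.lf (nat_lit 12692) (nat_lit 6) (nat_lit 167) (nat_lit 5) (nat_lit 200) (nat_lit 288) (nat_lit 292)))))) (PT.nd (nat_lit 546) (PT.nd (nat_lit 234) (PT.nd (nat_lit 78) (PT.lf (nat_lit 13148) (nat_lit 6) (nat_lit 173) (nat_lit 5) (nat_lit 201) (nat_lit 288) (nat_lit 291)) (PT.nd (nat_lit 78) (PT.lf (nat_lit 13604) (nat_lit 6) (nat_lit 179) (nat_lit 5) (nat_lit 202) (nat_lit 288) (nat_lit 290)) (PT.lf (nat_lit 14060) (nat_lit 6) (nat_lit 185) (nat_lit 5) (nat_lit 203) (nat_lit 288) (nat_lit 289)))) (PT.nd (nat_lit 156) (PT.nd (nat_lit 78) (PT.lf (nat_lit 14516) (nat_lit 3) (nat_lit 191) (nat_lit 4) (nat_lit 204) (nat_lit 288) (nat_lit 288)) (PT.lf (nat_lit 14972) (nat_lit 6) (nat_lit 197) (nat_lit 4) (nat_lit 205) (nat_lit 288) (nat_lit 287))) (PT.nd (nat_lit 78) (PT.lf (nat_lit 15352) (nat_lit 6) (nat_lit 202) (nat_lit 4) (nat_lit 206) (nat_lit 288) (nat_lit 286)) (PT.lf (nat_lit 15808) (nat_lit 6) (nat_lit 208) (nat_lit 4) (nat_lit 207) (nat_lit 288) (nat_lit 285))))) (PT.nd (nat_lit 312) (PT.nd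 (nat_lit 156) (PT.nd (nat_lit 78) (PT.lf (nat_lit 16264) (nat_lit 6) (nat_lit 214) (nat_lit 4) (nat_lit 208) (nat_lit 288) (nat_lit 284)) (PT.lf (nat_lit 16720) (nat_lit 6) (nat_lit 220) (nat_lit 4) (nat_lit 209) (nat_lit 288) (nat_lit 283))) (PT.nd (nat_lit 78) (PT.lf (nat_lit 17176) (nat_lit 6) (nat_lit 226) (nat_lit 4) (nat_lit 210) (nat_lit 288) (nat_lit 282)) (PT.lf (nat_lit 17708) (nat_lit 6) (nat_lit 233) (nat_lit 4) (nat_lit 211) (nat_lit 288) (nat_lit 281)))) (PT.nd (nat_lit 156) (PT.nd (nat_lit 78) (PT.lf (nat_lit 18164) (nat_lit 6) (nat_lit 239) (nat_lit 4) (nat_lit 212) (nat_lit 288) (nat_lit 280)) (PT.lf (nat_lit 18696) (nat_lit 6) (nat_lit 246) (nat_lit 4) (nat_lit 213) (nat_lit 288) (nat_lit 279))) (PT.nd (nat_lit 78) (PT.lf (nat_lit 19228) (nat_lit 6) (nat_lit 253) (nat_lit 4) (nat_lit 214) (nat_lit 288) (nat_lit 278)) (PT.lf (nat_lit 19760) (nat_lit 6) (nat_lit 260) (nat_lit 4) (nat_lit 215) (nat_lit 288) (nat_lit 277))))))))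
noncomputable def pc60 : PT := (PT.nd (nat_lit 6006) (PT.nd (nat_lit 4914) (PT.nd (nat_lit 4368) (PT.nd (nat_lit 234) (PT.nd (nat_lit 78) (PT.lf (nat_lit 20292) (nat_lit 6) (nat_lit 267) (nat_lit 4) (nat_lit 216) (nat_lit 288) (nat_lit 276)) (PT.nd (nat_lit 78) (PT.lf (nat_lit 20900) (nat_lit 6) (nat_lit 275) (nat_lit 4) (nat_lit 217) (nat_lit 288) (nat_lit 275)) (PT.lf (nat_lit 21508) (nat_lit 6) (nat_lit 283) (nat_lit 4) (nat_lit 218) (nat_lit 288) (nat_lit 274)))) (PT.nd (nat_lit 156) (PT.nd (nat_lit 78) (PT.lf (nat_lit 22116) (nat_lit 6) (nat_lit 291) (nat_lit 4) (nat_lit 219) (nat_lit 288) (nat_lit 273)) (PT.lf (nat_lit 22724) (nat_lit 6) (nat_lit 299) (nat_lit 4) (nat_lit 220) (nat_lit 288) (nat_lit 272))) (PT.nd (nat_lit 3900) (PT.lf (nat_lit 23408) (nat_lit 6) (nat_lit 308) (nat_lit 4) (nat_lit 221) (nat_lit 288) (nat_lit 271)) (PT.lf (nat_lit 23408) (nat_lit 6) (nat_lit 308) (nat_lit 2) (nat_lit 271) (nat_lit 288) (nat_lit 221))))) (PT.nd (nat_lit 234) (PT.nd (nat_lit 78) (PT.lf (nat_lit 22724) (nat_lit 6) (nat_lit 299) (nat_lit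 2) (nat_lit 272) (nat_lit 288) (nat_lit 220)) (PT.nd (nat_lit 78) (PT.lf (nat_lit 22116) (nat_lit 6) (nat_lit 291) (nat_lit 2) (nat_lit 273) (nat_lit 288) (nat_lit 219)) (PT.lf (nat_lit 21508) (nat_lit 6) (nat_lit 283) (nat_lit 2) (nat_lit 274) (nat_lit 288) (nat_lit 218)))) (PT.nd (nat_lit 156) (PT.nd (nat_lit 78) (PT.lf (nat_lit 20900) (nat_lit 6) (nat_lit 275) (nat_lit 2) (nat_lit 275) (nat_lit 288) (nat_lit 217)) (PT.lf (nat_lit 20292) (nat_lit 6) (nat_lit 267) (nat_lit 2) (nat_lit 276) (nat_lit 288) (nat_lit 216))) (PT.nd (nat_lit 78) (PT.lf (nat_lit 19760) (nat_lit 6) (nat_lit 260) (nat_lit 2) (nat_lit 277) (nat_lit 288) (nat_lit 215)) (PT.lf (nat_lit 19228) (nat_lit 6) (nat_lit 253) (nat_lit 2) (nat_lit 278) (nat_lit 288) (nat_lit 214)))))) (PT.nd (nat_lit 546) (PT.nd (nat_lit 234) (PT.nd (nat_lit 78) (PT.lf (nat_lit 18696) (nat_lit 6) (nat_lit 246) (nat_lit 2) (nat_lit 279) (nat_lit 288) (nat_lit 213)) (PT.nd (nat_lit 78) (PT.lf (nat_lit 18164) (nat_lit 6) (nat_lit 239) (nat_lit 2) (nat_lit 280) (nat_lit 288) (nat_lit 212)) (PT.lf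 (nat_lit 17708) (nat_lit 6) (nat_lit 233) (nat_lit 2) (nat_lit 281) (nat_lit 288) (nat_lit 211)))) (PT.nd (nat_lit 156) (PT.nd (nat_lit 78) (PT.lf (nat_lit 17176) (nat_lit 6) (nat_lit 226) (nat_lit 2) (nat_lit 282) (nat_lit 288) (nat_lit 210)) (PT.lf (nat_lit 16720) (nat_lit 6) (nat_lit 220) (nat_lit 2) (nat_lit 283) (nat_lit 288) (nat_lit 209))) (PT.nd (nat_lit 78) (PT.lf (nat_lit 16264) (nat_lit 6) (nat_lit 214) (nat_lit 2) (nat_lit 284) (nat_lit 288) (nat_lit 208)) (PT.lf (nat_lit 15808) (nat_lit 6) (nat_lit 208) (nat_lit 2) (nat_lit 285) (nat_lit 288) (nat_lit 207))))) (PT.nd (nat_lit 234) (PT.nd (nat_lit 78) (PT.lf (nat_lit 15352) (nat_lit 6) (nat_lit 202) (nat_lit 2) (nat_lit 286) (nat_lit 288) (nat_lit 206)) (PT.nd (nat_lit 78) (PT.lf (nat_lit 14972) (nat_lit 6) (nat_lit 197) (nat_lit 2) (nat_lit 287) (nat_lit 288) (nat_lit 205)) (PT.lf (nat_lit 14516) (nat_lit 3) (nat_lit 191) (nat_lit 0) (nat_lit 288) (nat_lit 288) (nat_lit 204)))) (PT.nd (nat_lit 156) (PT.nd (nat_lit 78) (PT.lf (nat_lit 14060) (nat_lit 6) (nat_lit 185) (nat_lit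 0) (nat_lit 289) (nat_lit 288) (nat_lit 203)) (PT.lf (nat_lit 13604) (nat_lit 6) (nat_lit 179) (nat_lit 0) (nat_lit 290) (nat_lit 288) (nat_lit 202))) (PT.nd (nat_lit 78) (PT.lf (nat_lit 13148) (nat_lit 6) (nat_lit 173) (nat_lit 0) (nat_lit 291) (nat_lit 288) (nat_lit 201)) (PT.lf (nat_lit 12692) (nat_lit 6) (nat_lit 167) (nat_lit 0) (nat_lit 292) (nat_lit 288) (nat_lit 200))))))) (PT.nd (nat_lit 74724) (PT.nd (nat_lit 74178) (PT.nd (nat_lit 73866) (PT.nd (nat_lit 73710) (PT.lf (nat_lit 12236) (nat_lit 6) (nat_lit 161) (nat_lit 0) (nat_lit 293) (nat_lit 288) (nat_lit 199)) (PT.nd (nat_lit 78) (PT.lf (nat_lit 11476) (nat_lit 6) (nat_lit 151) (nat_lit 5) (nat_lit 197) (nat_lit 289) (nat_lit 294)) (PT.lf (nat_lit 11856) (nat_lit 6) (nat_lit 156) (nat_lit 5) (nat_lit 198) (nat_lit 289) (nat_lit 293)))) (PT.nd (nat_lit 156) (PT.nd (nat_lit 78) (PT.lf (nat_lit 12312) (nat_lit 6) (nat_lit 162) (nat_lit 5) (nat_lit 199) (nat_lit 289) (nat_lit 292)) (PT.lf (nat_lit 12768) (nat_lit 6) (nat_lit 168) (nat_lit 5) (nat_lit 200) (nat_lit 289) (nat_lit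 291))) (PT.nd (nat_lit 78) (PT.lf (nat_lit 13224) (nat_lit 6) (nat_lit 174) (nat_lit 5) (nat_lit 201) (nat_lit 289) (nat_lit 290)) (PT.lf (nat_lit 13680) (nat_lit 3) (nat_lit 180) (nat_lit 4) (nat_lit 202) (nat_lit 289) (nat_lit 289))))) (PT.nd (nat_lit 234) (PT.nd (nat_lit 78) (PT.lf (nat_lit 14060) (nat_lit 6) (nat_lit 185) (nat_lit 4) (nat_lit 203) (nat_lit 289) (nat_lit 288)) (PT.nd (nat_lit 78) (PT.lf (nat_lit 14440) (nat_lit 6) (nat_lit 190) (nat_lit 4) (nat_lit 204) (nat_lit 289) (nat_lit 287)) (PT.lf (nat_lit 14896) (nat_lit 6) (nat_lit 196) (nat_lit 4) (nat_lit 205) (nat_lit 289) (nat_lit 286)))) (PT.nd (nat_lit 156) (PT.nd (nat_lit 78) (PT.lf (nat_lit 15276) (nat_lit 6) (nat_lit 201) (nat_lit 4) (nat_lit 206) (nat_lit 289) (nat_lit 285)) (PT.lf (nat_lit 15732) (nat_lit 6) (nat_lit 207) (nat_lit 4) (nat_lit 207) (nat_lit 289) (nat_lit 284))) (PT.nd (nat_lit 78) (PT.lf (nat_lit 16188) (nat_lit 6) (nat_lit 213) (nat_lit 4) (nat_lit 208) (nat_lit 289) (nat_lit 283)) (PT.lf (nat_lit 16644) (nat_lit 6) (nat_lit 219) (nat_lit 4) (nat_lit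 209) (nat_lit 289) (nat_lit 282)))))) (PT.nd (nat_lit 546) (PT.nd (nat_lit 234) (PT.nd (nat_lit 78) (PT.lf (nat_lit 17100) (nat_lit 6) (nat_lit 225) (nat_lit 4) (nat_lit 210) (nat_lit 289) (nat_lit 281)) (PT.nd (nat_lit 78) (PT.lf (nat_lit 17632) (nat_lit 6) (nat_lit 232) (nat_lit 4) (nat_lit 211) (nat_lit 289) (nat_lit 280)) (PT.lf (nat_lit 18088) (nat_lit 6) (nat_lit 238) (nat_lit 4) (nat_lit 212) (nat_lit 289) (nat_lit 279)))) (PT.nd (nat_lit 156) (PT.nd (nat_lit 78) (PT.lf (nat_lit 18620) (nat_lit 6) (nat_lit 245) (nat_lit 4) (nat_lit 213) (nat_lit 289) (nat_lit 278)) (PT.lf (nat_lit 19152) (nat_lit 6) (nat_lit 252) (nat_lit 4) (nat_lit 214) (nat_lit 289) (nat_lit 277))) (PT.nd (nat_lit 78) (PT.lf (nat_lit 19684) (nat_lit 6) (nat_lit 259) (nat_lit 4) (nat_lit 215) (nat_lit 289) (nat_lit 276)) (PT.lf (nat_lit 20216) (nat_lit 6) (nat_lit 266) (nat_lit 4) (nat_lit 216) (nat_lit 289) (nat_lit 275))))) (PT.nd (nat_lit 4680) (PT.nd (nat_lit 4524) (PT.nd (nat_lit 4446) (PT.lf (nat_lit 20824) (nat_lit 6) (nat_lit 274) (nat_lit 4) (nat_lit 217)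 (nat_lit 289) (nat_lit 274)) (PT.lf (nat_lit 20824) (nat_lit 6) (nat_lit 274) (nat_lit 2) (nat_lit 274) (nat_lit 289) (nat_lit 217))) (PT.nd (nat_lit 78) (PT.lf (nat_lit 20216) (nat_lit 6) (nat_lit 266) (nat_lit 2) (nat_lit 275) (nat_lit 289) (nat_lit 216)) (PT.lf (nat_lit 19684) (nat_lit 6) (nat_lit 259) (nat_lit 2) (nat_lit 276) (nat_lit 289) (nat_lit 215)))) (PT.nd (nat_lit 156) (PT.nd (nat_lit 78) (PT.lf (nat_lit 19152) (nat_lit 6) (nat_lit 252) (nat_lit 2) (nat_lit 277) (nat_lit 289) (nat_lit 214)) (PT.lf (nat_lit 18620) (nat_lit 6) (nat_lit 245) (nat_lit 2) (nat_lit 278) (nat_lit 289) (nat_lit 213))) (PT.nd (nat_lit 78) (PT.lf (nat_lit 18088) (nat_lit 6) (nat_lit 238) (nat_lit 2) (nat_lit 279) (nat_lit 289) (nat_lit 212)) (PT.lf (nat_lit 17632) (nat_lit 6) (nat_lit 232) (nat_lit 2) (nat_lit 280) (nat_lit 289) (nat_lit 211))))))))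
noncomputable def pc61 : PT := (PT.nd (nat_lit 75738) (PT.nd (nat_lit 74568) (PT.nd (nat_lit 546) (PT.nd (nat_lit 234) (PT.nd (nat_lit 78) (PT.lf (nat_lit 17100) (nat_lit 6) (nat_lit 225) (nat_lit 2) (nat_lit 281) (nat_lit 289) (nat_lit 210)) (PT.nd (nat_lit 78) (PT.lf (nat_lit 16644) (nat_lit 6) (nat_lit 219) (nat_lit 2) (nat_lit 282) (nat_lit 289) (nat_lit 209)) (PT.lf (nat_lit 16188) (nat_lit 6) (nat_lit 213) (nat_lit 2) (nat_lit 283) (nat_lit 289) (nat_lit 208)))) (PT.nd (nat_lit 156) (PT.nd (nat_lit 78) (PT.lf (nat_lit 15732) (nat_lit 6) (nat_lit 207) (nat_lit 2) (nat_lit 284) (nat_lit 289) (nat_lit 207)) (PT.lf (nat_lit 15276) (nat_lit 6) (nat_lit 201) (nat_lit 2) (nat_lit 285) (nat_lit 289) (nat_lit 206))) (PT.nd (nat_lit 78) (PT.lf (nat_lit 14896) (nat_lit 6) (nat_lit 196) (nat_lit 2) (nat_lit 286) (nat_lit 289) (nat_lit 205)) (PT.lf (nat_lit 14440) (nat_lit 6) (nat_lit 190) (nat_lit 2) (nat_lit 287) (nat_lit 289) (nat_lit 204))))) (PT.nd (nat_lit 234) (PT.nd (nat_lit 78) (PT.lf (nat_lit 14060) (nat_lit 6) (nat_lit 185) (nat_lit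 2) (nat_lit 288) (nat_lit 289) (nat_lit 203)) (PT.nd (nat_lit 78) (PT.lf (nat_lit 13680) (nat_lit 3) (nat_lit 180) (nat_lit 0) (nat_lit 289) (nat_lit 289) (nat_lit 202)) (PT.lf (nat_lit 13224) (nat_lit 6) (nat_lit 174) (nat_lit 0) (nat_lit 290) (nat_lit 289) (nat_lit 201)))) (PT.nd (nat_lit 156) (PT.nd (nat_lit 78) (PT.lf (nat_lit 12768) (nat_lit 6) (nat_lit 168) (nat_lit 0) (nat_lit 291) (nat_lit 289) (nat_lit 200)) (PT.lf (nat_lit 12312) (nat_lit 6) (nat_lit 162) (nat_lit 0) (nat_lit 292) (nat_lit 289) (nat_lit 199))) (PT.nd (nat_lit 78) (PT.lf (nat_lit 11856) (nat_lit 6) (nat_lit 156) (nat_lit 0) (nat_lit 293) (nat_lit 289) (nat_lit 198)) (PT.lf (nat_lit 11476) (nat_lit 6) (nat_lit 151) (nat_lit 0) (nat_lit 294) (nat_lit 289) (nat_lit 197)))))) (PT.nd (nat_lit 546) (PT.nd (nat_lit 234) (PT.nd (nat_lit 78) (PT.lf (nat_lit 11096) (nat_lit 6) (nat_lit 146) (nat_lit 5) (nat_lit 196) (nat_lit 290) (nat_lit 294)) (PT.nd (nat_lit 78) (PT.lf (nat_lit 11552) (nat_lit 6) (nat_lit 152) (nat_lit 5) (nat_lit 197) (nat_lit 290) (nat_lit 293)) (PT.lf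 (nat_lit 11932) (nat_lit 6) (nat_lit 157) (nat_lit 5) (nat_lit 198) (nat_lit 290) (nat_lit 292)))) (PT.nd (nat_lit 156) (PT.nd (nat_lit 78) (PT.lf (nat_lit 12388) (nat_lit 6) (nat_lit 163) (nat_lit 5) (nat_lit 199) (nat_lit 290) (nat_lit 291)) (PT.lf (nat_lit 12844) (nat_lit 3) (nat_lit 169) (nat_lit 4) (nat_lit 200) (nat_lit 290) (nat_lit 290))) (PT.nd (nat_lit 78) (PT.lf (nat_lit 13224) (nat_lit 6) (nat_lit 174) (nat_lit 4) (nat_lit 201) (nat_lit 290) (nat_lit 289)) (PT.lf (nat_lit 13604) (nat_lit 6) (nat_lit 179) (nat_lit 4) (nat_lit 202) (nat_lit 290) (nat_lit 288))))) (PT.nd (nat_lit 312) (PT.nd (nat_lit 156) (PT.nd (nat_lit 78) (PT.lf (nat_lit 13984) (nat_lit 6) (nat_lit 184) (nat_lit 4) (nat_lit 203) (nat_lit 290) (nat_lit 287)) (PT.lf (nat_lit 14364) (nat_lit 6) (nat_lit 189) (nat_lit 4) (nat_lit 204) (nat_lit 290) (nat_lit 286))) (PT.nd (nat_lit 78) (PT.lf (nat_lit 14820) (nat_lit 6) (nat_lit 195) (nat_lit 4) (nat_lit 205) (nat_lit 290) (nat_lit 285)) (PT.lf (nat_lit 15200) (nat_lit 6) (nat_lit 200) (nat_lit 4) (nat_lit 206) (nat_lit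 290) (nat_lit 284)))) (PT.nd (nat_lit 156) (PT.nd (nat_lit 78) (PT.lf (nat_lit 15656) (nat_lit 6) (nat_lit 206) (nat_lit 4) (nat_lit 207) (nat_lit 290) (nat_lit 283)) (PT.lf (nat_lit 16112) (nat_lit 6) (nat_lit 212) (nat_lit 4) (nat_lit 208) (nat_lit 290) (nat_lit 282))) (PT.nd (nat_lit 78) (PT.lf (nat_lit 16568) (nat_lit 6) (nat_lit 218) (nat_lit 4) (nat_lit 209) (nat_lit 290) (nat_lit 281)) (PT.lf (nat_lit 17024) (nat_lit 6) (nat_lit 224) (nat_lit 4) (nat_lit 210) (nat_lit 290) (nat_lit 280))))))) (PT.nd (nat_lit 5850) (PT.nd (nat_lit 5304) (PT.nd (nat_lit 234) (PT.nd (nat_lit 78) (PT.lf (nat_lit 17556) (nat_lit 6) (nat_lit 231) (nat_lit 4) (nat_lit 211) (nat_lit 290) (nat_lit 279)) (PT.nd (nat_lit 78) (PT.lf (nat_lit 18012) (nat_lit 6) (nat_lit 237) (nat_lit 4) (nat_lit 212) (nat_lit 290) (nat_lit 278)) (PT.lf (nat_lit 18544) (nat_lit 6) (nat_lit 244) (nat_lit 4) (nat_lit 213) (nat_lit 290) (nat_lit 277)))) (PT.nd (nat_lit 4914) (PT.nd (nat_lit 4836) (PT.lf (nat_lit 19076) (nat_lit 6) (nat_lit 251) (nat_lit 4) (nat_lit 214) (nat_lit 290)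 (nat_lit 276)) (PT.lf (nat_lit 19076) (nat_lit 6) (nat_lit 251) (nat_lit 2) (nat_lit 276) (nat_lit 290) (nat_lit 214))) (PT.nd (nat_lit 78) (PT.lf (nat_lit 18544) (nat_lit 6) (nat_lit 244) (nat_lit 2) (nat_lit 277) (nat_lit 290) (nat_lit 213)) (PT.lf (nat_lit 18012) (nat_lit 6) (nat_lit 237) (nat_lit 2) (nat_lit 278) (nat_lit 290) (nat_lit 212))))) (PT.nd (nat_lit 234) (PT.nd (nat_lit 78) (PT.lf (nat_lit 17556) (nat_lit 6) (nat_lit 231) (nat_lit 2) (nat_lit 279) (nat_lit 290) (nat_lit 211)) (PT.nd (nat_lit 78) (PT.lf (nat_lit 17024) (nat_lit 6) (nat_lit 224) (nat_lit 2) (nat_lit 280) (nat_lit 290) (nat_lit 210)) (PT.lf (nat_lit 16568) (nat_lit 6) (nat_lit 218) (nat_lit 2) (nat_lit 281) (nat_lit 290) (nat_lit 209)))) (PT.nd (nat_lit 156) (PT.nd (nat_lit 78) (PT.lf (nat_lit 16112) (nat_lit 6) (nat_lit 212) (nat_lit 2) (nat_lit 282) (nat_lit 290) (nat_lit 208)) (PT.lf (nat_lit 15656) (nat_lit 6) (nat_lit 206) (nat_lit 2) (nat_lit 283) (nat_lit 290) (nat_lit 207))) (PT.nd (nat_lit 78) (PT.lf (nat_lit 15200) (nat_lit 6) (nat_lit 200) (nat_lit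 2) (nat_lit 284) (nat_lit 290) (nat_lit 206)) (PT.lf (nat_lit 14820) (nat_lit 6) (nat_lit 195) (nat_lit 2) (nat_lit 285) (nat_lit 290) (nat_lit 205)))))) (PT.nd (nat_lit 546) (PT.nd (nat_lit 234) (PT.nd (nat_lit 78) (PT.lf (nat_lit 14364) (nat_lit 6) (nat_lit 189) (nat_lit 2) (nat_lit 286) (nat_lit 290) (nat_lit 204)) (PT.nd (nat_lit 78) (PT.lf (nat_lit 13984) (nat_lit 6) (nat_lit 184) (nat_lit 2) (nat_lit 287) (nat_lit 290) (nat_lit 203)) (PT.lf (nat_lit 13604) (nat_lit 6) (nat_lit 179) (nat_lit 2) (nat_lit 288) (nat_lit 290) (nat_lit 202)))) (PT.nd (nat_lit 156) (PT.nd (nat_lit 78) (PT.lf (nat_lit 13224) (nat_lit 6) (nat_lit 174) (nat_lit 2) (nat_lit 289) (nat_lit 290) (nat_lit 201)) (PT.lf (nat_lit 12844) (nat_lit 3) (nat_lit 169) (nat_lit 0) (nat_lit 290) (nat_lit 290) (nat_lit 200))) (PT.nd (nat_lit 78) (PT.lf (nat_lit 12388) (nat_lit 6) (nat_lit 163) (nat_lit 0) (nat_lit 291) (nat_lit 290) (nat_lit 199)) (PT.lf (nat_lit 11932) (nat_lit 6) (nat_lit 157) (nat_lit 0) (nat_lit 292) (nat_lit 290) (nat_lit 198))))) (PT.nd (nat_lit 73632)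 (PT.nd (nat_lit 73476) (PT.nd (nat_lit 78) (PT.lf (nat_lit 11552) (nat_lit 6) (nat_lit 152) (nat_lit 0) (nat_lit 293) (nat_lit 290) (nat_lit 197)) (PT.lf (nat_lit 11096) (nat_lit 6) (nat_lit 146) (nat_lit 0) (nat_lit 294) (nat_lit 290) (nat_lit 196))) (PT.nd (nat_lit 78) (PT.lf (nat_lit 10336) (nat_lit 6) (nat_lit 136) (nat_lit 5) (nat_lit 194) (nat_lit 291) (nat_lit 295)) (PT.lf (nat_lit 10792) (nat_lit 6) (nat_lit 142) (nat_lit 5) (nat_lit 195) (nat_lit 291) (nat_lit 294)))) (PT.nd (nat_lit 156) (PT.nd (nat_lit 78) (PT.lf (nat_lit 11172) (nat_lit 6) (nat_lit 147) (nat_lit 5) (nat_lit 196) (nat_lit 291) (nat_lit 293)) (PT.lf (nat_lit 11628) (nat_lit 6) (nat_lit 153) (nat_lit 5) (nat_lit 197) (nat_lit 291) (nat_lit 292))) (PT.nd (nat_lit 78) (PT.lf (nat_lit 12008) (nat_lit 3) (nat_lit 158) (nat_lit 4) (nat_lit 198) (nat_lit 291) (nat_lit 291)) (PT.lf (nat_lit 12388) (nat_lit 6) (nat_lit 163) (nat_lit 4) (nat_lit 199) (nat_lit 291) (nat_lit 290))))))))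
noncomputable def pc62 : PT := (PT.nd (nat_lit 7410) (PT.nd (nat_lit 6240) (PT.nd (nat_lit 546) (PT.nd (nat_lit 234) (PT.nd (nat_lit 78) (PT.lf (nat_lit 12768) (nat_lit 6) (nat_lit 168) (nat_lit 4) (nat_lit 200) (nat_lit 291) (nat_lit 289)) (PT.nd (nat_lit 78) (PT.lf (nat_lit 13148) (nat_lit 6) (nat_lit 173) (nat_lit 4) (nat_lit 201) (nat_lit 291) (nat_lit 288)) (PT.lf (nat_lit 13528) (nat_lit 6) (nat_lit 178) (nat_lit 4) (nat_lit 202) (nat_lit 291) (nat_lit 287)))) (PT.nd (nat_lit 156) (PT.nd (nat_lit 78) (PT.lf (nat_lit 13908) (nat_lit 6) (nat_lit 183) (nat_lit 4) (nat_lit 203) (nat_lit 291) (nat_lit 286)) (PT.lf (nat_lit 14288) (nat_lit 6) (nat_lit 188) (nat_lit 4) (nat_lit 204) (nat_lit 291) (nat_lit 285))) (PT.nd (nat_lit 78) (PT.lf (nat_lit 14744) (nat_lit 6) (nat_lit 194) (nat_lit 4) (nat_lit 205) (nat_lit 291) (nat_lit 284)) (PT.lf (nat_lit 15124) (nat_lit 6) (nat_lit 199) (nat_lit 4) (nat_lit 206) (nat_lit 291) (nat_lit 283))))) (PT.nd (nat_lit 234) (PT.nd (nat_lit 78) (PT.lf (nat_lit 15580) (nat_lit 6) (nat_lit 205) (nat_lit 4)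 (nat_lit 207) (nat_lit 291) (nat_lit 282)) (PT.nd (nat_lit 78) (PT.lf (nat_lit 16036) (nat_lit 6) (nat_lit 211) (nat_lit 4) (nat_lit 208) (nat_lit 291) (nat_lit 281)) (PT.lf (nat_lit 16492) (nat_lit 6) (nat_lit 217) (nat_lit 4) (nat_lit 209) (nat_lit 291) (nat_lit 280)))) (PT.nd (nat_lit 5304) (PT.nd (nat_lit 78) (PT.lf (nat_lit 16948) (nat_lit 6) (nat_lit 223) (nat_lit 4) (nat_lit 210) (nat_lit 291) (nat_lit 279)) (PT.lf (nat_lit 17480) (nat_lit 6) (nat_lit 230) (nat_lit 4) (nat_lit 211) (nat_lit 291) (nat_lit 278))) (PT.nd (nat_lit 78) (PT.lf (nat_lit 17480) (nat_lit 6) (nat_lit 230) (nat_lit 2) (nat_lit 278) (nat_lit 291) (nat_lit 211)) (PT.lf (nat_lit 16948) (nat_lit 6) (nat_lit 223) (nat_lit 2) (nat_lit 279) (nat_lit 291) (nat_lit 210)))))) (PT.nd (nat_lit 546) (PT.nd (nat_lit 234) (PT.nd (nat_lit 78) (PT.lf (nat_lit 16492) (nat_lit 6) (nat_lit 217) (nat_lit 2) (nat_lit 280) (nat_lit 291) (nat_lit 209)) (PT.nd (nat_lit 78) (PT.lf (nat_lit 16036) (nat_lit 6) (nat_lit 211) (nat_lit 2) (nat_lit 281) (nat_lit 291) (nat_lit 208)) (PT.lf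 (nat_lit 15580) (nat_lit 6) (nat_lit 205) (nat_lit 2) (nat_lit 282) (nat_lit 291) (nat_lit 207)))) (PT.nd (nat_lit 156) (PT.nd (nat_lit 78) (PT.lf (nat_lit 15124) (nat_lit 6) (nat_lit 199) (nat_lit 2) (nat_lit 283) (nat_lit 291) (nat_lit 206)) (PT.lf (nat_lit 14744) (nat_lit 6) (nat_lit 194) (nat_lit 2) (nat_lit 284) (nat_lit 291) (nat_lit 205))) (PT.nd (nat_lit 78) (PT.lf (nat_lit 14288) (nat_lit 6) (nat_lit 188) (nat_lit 2) (nat_lit 285) (nat_lit 291) (nat_lit 204)) (PT.lf (nat_lit 13908) (nat_lit 6) (nat_lit 183) (nat_lit 2) (nat_lit 286) (nat_lit 291) (nat_lit 203))))) (PT.nd (nat_lit 312) (PT.nd (nat_lit 156) (PT.nd (nat_lit 78) (PT.lf (nat_lit 13528) (nat_lit 6) (nat_lit 178) (nat_lit 2) (nat_lit 287) (nat_lit 291) (nat_lit 202)) (PT.lf (nat_lit 13148) (nat_lit 6) (nat_lit 173) (nat_lit 2) (nat_lit 288) (nat_lit 291) (nat_lit 201))) (PT.nd (nat_lit 78) (PT.lf (nat_lit 12768) (nat_lit 6) (nat_lit 168) (nat_lit 2) (nat_lit 289) (nat_lit 291) (nat_lit 200)) (PT.lf (nat_lit 12388) (nat_lit 6) (nat_lit 163) (nat_lit 2) (nat_lit 290) (nat_lit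 291) (nat_lit 199)))) (PT.nd (nat_lit 156) (PT.nd (nat_lit 78) (PT.lf (nat_lit 12008) (nat_lit 3) (nat_lit 158) (nat_lit 0) (nat_lit 291) (nat_lit 291) (nat_lit 198)) (PT.lf (nat_lit 11628) (nat_lit 6) (nat_lit 153) (nat_lit 0) (nat_lit 292) (nat_lit 291) (nat_lit 197))) (PT.nd (nat_lit 78) (PT.lf (nat_lit 11172) (nat_lit 6) (nat_lit 147) (nat_lit 0) (nat_lit 293) (nat_lit 291) (nat_lit 196)) (PT.lf (nat_lit 10792) (nat_lit 6) (nat_lit 142) (nat_lit 0) (nat_lit 294) (nat_lit 291) (nat_lit 195))))))) (PT.nd (nat_lit 74256) (PT.nd (nat_lit 73710) (PT.nd (nat_lit 73398) (PT.nd (nat_lit 73242) (PT.lf (nat_lit 10336) (nat_lit 6) (nat_lit 136) (nat_lit 0) (nat_lit 295) (nat_lit 291) (nat_lit 194)) (PT.nd (nat_lit 78) (PT.lf (nat_lit 10032) (nat_lit 6) (nat_lit 132) (nat_lit 5) (nat_lit 193) (nat_lit 292) (nat_lit 295)) (PT.lf (nat_lit 10412) (nat_lit 6) (nat_lit 137) (nat_lit 5) (nat_lit 194) (nat_lit 292) (nat_lit 294)))) (PT.nd (nat_lit 156) (PT.nd (nat_lit 78) (PT.lf (nat_lit 10868) (nat_lit 6) (nat_lit 143) (nat_lit 5) (nat_lit 195) (nat_lit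 292) (nat_lit 293)) (PT.lf (nat_lit 11248) (nat_lit 3) (nat_lit 148) (nat_lit 4) (nat_lit 196) (nat_lit 292) (nat_lit 292))) (PT.nd (nat_lit 78) (PT.lf (nat_lit 11628) (nat_lit 6) (nat_lit 153) (nat_lit 4) (nat_lit 197) (nat_lit 292) (nat_lit 291)) (PT.lf (nat_lit 11932) (nat_lit 6) (nat_lit 157) (nat_lit 4) (nat_lit 198) (nat_lit 292) (nat_lit 290))))) (PT.nd (nat_lit 234) (PT.nd (nat_lit 78) (PT.lf (nat_lit 12312) (nat_lit 6) (nat_lit 162) (nat_lit 4) (nat_lit 199) (nat_lit 292) (nat_lit 289)) (PT.nd (nat_lit 78) (PT.lf (nat_lit 12692) (nat_lit 6) (nat_lit 167) (nat_lit 4) (nat_lit 200) (nat_lit 292) (nat_lit 288)) (PT.lf (nat_lit 13072) (nat_lit 6) (nat_lit 172) (nat_lit 4) (nat_lit 201) (nat_lit 292) (nat_lit 287)))) (PT.nd (nat_lit 156) (PT.nd (nat_lit 78) (PT.lf (nat_lit 13452) (nat_lit 6) (nat_lit 177) (nat_lit 4) (nat_lit 202) (nat_lit 292) (nat_lit 286)) (PT.lf (nat_lit 13832) (nat_lit 6) (nat_lit 182) (nat_lit 4) (nat_lit 203) (nat_lit 292) (nat_lit 285))) (PT.nd (nat_lit 78) (PT.lf (nat_lit 14212) (nat_lit 6) (nat_lit 187) (nat_lit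 4) (nat_lit 204) (nat_lit 292) (nat_lit 284)) (PT.lf (nat_lit 14668) (nat_lit 6) (nat_lit 193) (nat_lit 4) (nat_lit 205) (nat_lit 292) (nat_lit 283)))))) (PT.nd (nat_lit 6084) (PT.nd (nat_lit 5772) (PT.nd (nat_lit 78) (PT.lf (nat_lit 15048) (nat_lit 6) (nat_lit 198) (nat_lit 4) (nat_lit 206) (nat_lit 292) (nat_lit 282)) (PT.nd (nat_lit 78) (PT.lf (nat_lit 15504) (nat_lit 6) (nat_lit 204) (nat_lit 4) (nat_lit 207) (nat_lit 292) (nat_lit 281)) (PT.lf (nat_lit 15960) (nat_lit 6) (nat_lit 210) (nat_lit 4) (nat_lit 208) (nat_lit 292) (nat_lit 280)))) (PT.nd (nat_lit 156) (PT.nd (nat_lit 78) (PT.lf (nat_lit 15960) (nat_lit 6) (nat_lit 210) (nat_lit 2) (nat_lit 280) (nat_lit 292) (nat_lit 208)) (PT.lf (nat_lit 15504) (nat_lit 6) (nat_lit 204) (nat_lit 2) (nat_lit 281) (nat_lit 292) (nat_lit 207))) (PT.nd (nat_lit 78) (PT.lf (nat_lit 15048) (nat_lit 6) (nat_lit 198) (nat_lit 2) (nat_lit 282) (nat_lit 292) (nat_lit 206)) (PT.lf (nat_lit 14668) (nat_lit 6) (nat_lit 193) (nat_lit 2) (nat_lit 283) (nat_lit 292) (nat_lit 205))))) (PT.nd (nat_lit 312)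 (PT.nd (nat_lit 156) (PT.nd (nat_lit 78) (PT.lf (nat_lit 14212) (nat_lit 6) (nat_lit 187) (nat_lit 2) (nat_lit 284) (nat_lit 292) (nat_lit 204)) (PT.lf (nat_lit 13832) (nat_lit 6) (nat_lit 182) (nat_lit 2) (nat_lit 285) (nat_lit 292) (nat_lit 203))) (PT.nd (nat_lit 78) (PT.lf (nat_lit 13452) (nat_lit 6) (nat_lit 177) (nat_lit 2) (nat_lit 286) (nat_lit 292) (nat_lit 202)) (PT.lf (nat_lit 13072) (nat_lit 6) (nat_lit 172) (nat_lit 2) (nat_lit 287) (nat_lit 292) (nat_lit 201)))) (PT.nd (nat_lit 156) (PT.nd (nat_lit 78) (PT.lf (nat_lit 12692) (nat_lit 6) (nat_lit 167) (nat_lit 2) (nat_lit 288) (nat_lit 292) (nat_lit 200)) (PT.lf (nat_lit 12312) (nat_lit 6) (nat_lit 162) (nat_lit 2) (nat_lit 289) (nat_lit 292) (nat_lit 199))) (PT.nd (nat_lit 78) (PT.lf (nat_lit 11932) (nat_lit 6) (nat_lit 157) (nat_lit 2) (nat_lit 290) (nat_lit 292) (nat_lit 198)) (PT.lf (nat_lit 11628) (nat_lit 6) (nat_lit 153) (nat_lit 2) (nat_lit 291) (nat_lit 292) (nat_lit 197))))))))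
noncomputable def pc63 : PT := (PT.nd (nat_lit 81432) (PT.nd (nat_lit 74256) (PT.nd (nat_lit 73632) (PT.nd (nat_lit 234) (PT.nd (nat_lit 78) (PT.lf (nat_lit 11248) (nat_lit 3) (nat_lit 148) (nat_lit 0) (nat_lit 292) (nat_lit 292) (nat_lit 196)) (PT.nd (nat_lit 78) (PT.lf (nat_lit 10868) (nat_lit 6) (nat_lit 143) (nat_lit 0) (nat_lit 293) (nat_lit 292) (nat_lit 195)) (PT.lf (nat_lit 10412) (nat_lit 6) (nat_lit 137) (nat_lit 0) (nat_lit 294) (nat_lit 292) (nat_lit 194)))) (PT.nd (nat_lit 73242) (PT.nd (nat_lit 73164) (PT.lf (nat_lit 10032) (nat_lit 6) (nat_lit 132) (nat_lit 0) (nat_lit 295) (nat_lit 292) (nat_lit 193)) (PT.lf (nat_lit 9728) (nat_lit 6) (nat_lit 128) (nat_lit 5) (nat_lit 192) (nat_lit 293) (nat_lit 295))) (PT.nd (nat_lit 78) (PT.lf (nat_lit 10108) (nat_lit 6) (nat_lit 133) (nat_lit 5) (nat_lit 193) (nat_lit 293) (nat_lit 294)) (PT.lf (nat_lit 10488) (nat_lit 3) (nat_lit 138) (nat_lit 4) (nat_lit 194) (nat_lit 293) (nat_lit 293))))) (PT.nd (nat_lit 234) (PT.nd (nat_lit 78) (PT.lf (nat_lit 10868) (nat_lit 6) (nat_lit 143) (nat_lit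 4) (nat_lit 195) (nat_lit 293) (nat_lit 292)) (PT.nd (nat_lit 78) (PT.lf (nat_lit 11172) (nat_lit 6) (nat_lit 147) (nat_lit 4) (nat_lit 196) (nat_lit 293) (nat_lit 291)) (PT.lf (nat_lit 11552) (nat_lit 6) (nat_lit 152) (nat_lit 4) (nat_lit 197) (nat_lit 293) (nat_lit 290)))) (PT.nd (nat_lit 156) (PT.nd (nat_lit 78) (PT.lf (nat_lit 11856) (nat_lit 6) (nat_lit 156) (nat_lit 4) (nat_lit 198) (nat_lit 293) (nat_lit 289)) (PT.lf (nat_lit 12236) (nat_lit 6) (nat_lit 161) (nat_lit 4) (nat_lit 199) (nat_lit 293) (nat_lit 288))) (PT.nd (nat_lit 156) (PT.lf (nat_lit 12616) (nat_lit 6) (nat_lit 166) (nat_lit 4) (nat_lit 200) (nat_lit 293) (nat_lit 287)) (PT.lf (nat_lit 13376) (nat_lit 6) (nat_lit 176) (nat_lit 4) (nat_lit 202) (nat_lit 293) (nat_lit 285)))))) (PT.nd (nat_lit 6552) (PT.nd (nat_lit 6162) (PT.nd (nat_lit 78) (PT.lf (nat_lit 13756) (nat_lit 6) (nat_lit 181) (nat_lit 4) (nat_lit 203) (nat_lit 293) (nat_lit 284)) (PT.nd (nat_lit 78) (PT.lf (nat_lit 14136) (nat_lit 6) (nat_lit 186) (nat_lit 4) (nat_lit 204) (nat_lit 293) (nat_lit 283)) (PT.lf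 (nat_lit 14592) (nat_lit 6) (nat_lit 192) (nat_lit 4) (nat_lit 205) (nat_lit 293) (nat_lit 282)))) (PT.nd (nat_lit 156) (PT.nd (nat_lit 78) (PT.lf (nat_lit 14592) (nat_lit 6) (nat_lit 192) (nat_lit 2) (nat_lit 282) (nat_lit 293) (nat_lit 205)) (PT.lf (nat_lit 14136) (nat_lit 6) (nat_lit 186) (nat_lit 2) (nat_lit 283) (nat_lit 293) (nat_lit 204))) (PT.nd (nat_lit 78) (PT.lf (nat_lit 13756) (nat_lit 6) (nat_lit 181) (nat_lit 2) (nat_lit 284) (nat_lit 293) (nat_lit 203)) (PT.lf (nat_lit 13376) (nat_lit 6) (nat_lit 176) (nat_lit 2) (nat_lit 285) (nat_lit 293) (nat_lit 202))))) (PT.nd (nat_lit 312) (PT.nd (nat_lit 156) (PT.nd (nat_lit 78) (PT.lf (nat_lit 12616) (nat_lit 6) (nat_lit 166) (nat_lit 2) (nat_lit 287) (nat_lit 293) (nat_lit 200)) (PT.lf (nat_lit 12236) (nat_lit 6) (nat_lit 161) (nat_lit 2) (nat_lit 288) (nat_lit 293) (nat_lit 199))) (PT.nd (nat_lit 78) (PT.lf (nat_lit 11856) (nat_lit 6) (nat_lit 156) (nat_lit 2) (nat_lit 289) (nat_lit 293) (nat_lit 198)) (PT.lf (nat_lit 11552) (nat_lit 6) (nat_lit 152) (nat_lit 2) (nat_lit 290) (nat_lit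 293) (nat_lit 197)))) (PT.nd (nat_lit 156) (PT.nd (nat_lit 78) (PT.lf (nat_lit 11172) (nat_lit 6) (nat_lit 147) (nat_lit 2) (nat_lit 291) (nat_lit 293) (nat_lit 196)) (PT.lf (nat_lit 10868) (nat_lit 6) (nat_lit 143) (nat_lit 2) (nat_lit 292) (nat_lit 293) (nat_lit 195))) (PT.nd (nat_lit 78) (PT.lf (nat_lit 10488) (nat_lit 3) (nat_lit 138) (nat_lit 0) (nat_lit 293) (nat_lit 293) (nat_lit 194)) (PT.lf (nat_lit 10108) (nat_lit 6) (nat_lit 133) (nat_lit 0) (nat_lit 294) (nat_lit 293) (nat_lit 193))))))) (PT.nd (nat_lit 81198) (PT.nd (nat_lit 73554) (PT.nd (nat_lit 73242) (PT.nd (nat_lit 73086) (PT.lf (nat_lit 9728) (nat_lit 6) (nat_lit 128) (nat_lit 0) (nat_lit 295) (nat_lit 293) (nat_lit 192)) (PT.nd (nat_lit 78) (PT.lf (nat_lit 9424) (nat_lit 6) (nat_lit 124) (nat_lit 5) (nat_lit 191) (nat_lit 294) (nat_lit 295)) (PT.lf (nat_lit 9804) (nat_lit 3) (nat_lit 129) (nat_lit 4) (nat_lit 192) (nat_lit 294) (nat_lit 294)))) (PT.nd (nat_lit 156) (PT.nd (nat_lit 78) (PT.lf (nat_lit 10108) (nat_lit 6) (nat_lit 133) (nat_lit 4) (nat_lit 193) (nat_lit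 294) (nat_lit 293)) (PT.lf (nat_lit 10412) (nat_lit 6) (nat_lit 137) (nat_lit 4) (nat_lit 194) (nat_lit 294) (nat_lit 292))) (PT.nd (nat_lit 78) (PT.lf (nat_lit 10792) (nat_lit 6) (nat_lit 142) (nat_lit 4) (nat_lit 195) (nat_lit 294) (nat_lit 291)) (PT.lf (nat_lit 11096) (nat_lit 6) (nat_lit 146) (nat_lit 4) (nat_lit 196) (nat_lit 294) (nat_lit 290))))) (PT.nd (nat_lit 7332) (PT.nd (nat_lit 7176) (PT.lf (nat_lit 11476) (nat_lit 6) (nat_lit 151) (nat_lit 4) (nat_lit 197) (nat_lit 294) (nat_lit 289)) (PT.nd (nat_lit 78) (PT.lf (nat_lit 11476) (nat_lit 6) (nat_lit 151) (nat_lit 2) (nat_lit 289) (nat_lit 294) (nat_lit 197)) (PT.lf (nat_lit 11096) (nat_lit 6) (nat_lit 146) (nat_lit 2) (nat_lit 290) (nat_lit 294) (nat_lit 196)))) (PT.nd (nat_lit 156) (PT.nd (nat_lit 78) (PT.lf (nat_lit 10792) (nat_lit 6) (nat_lit 142) (nat_lit 2) (nat_lit 291) (nat_lit 294) (nat_lit 195)) (PT.lf (nat_lit 10412) (nat_lit 6) (nat_lit 137) (nat_lit 2) (nat_lit 292) (nat_lit 294) (nat_lit 194))) (PT.nd (nat_lit 78) (PT.lf (nat_lit 10108) (nat_lit 6) (nat_lit 133)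 (nat_lit 2) (nat_lit 293) (nat_lit 294) (nat_lit 193)) (PT.lf (nat_lit 9804) (nat_lit 3) (nat_lit 129) (nat_lit 0) (nat_lit 294) (nat_lit 294) (nat_lit 192)))))) (PT.nd (nat_lit 81042) (PT.nd (nat_lit 73242) (PT.nd (nat_lit 73086) (PT.lf (nat_lit 9424) (nat_lit 6) (nat_lit 124) (nat_lit 0) (nat_lit 295) (nat_lit 294) (nat_lit 191)) (PT.nd (nat_lit 78) (PT.lf (nat_lit 9424) (nat_lit 6) (nat_lit 124) (nat_lit 4) (nat_lit 191) (nat_lit 295) (nat_lit 294)) (PT.lf (nat_lit 9728) (nat_lit 6) (nat_lit 128) (nat_lit 4) (nat_lit 192) (nat_lit 295) (nat_lit 293)))) (PT.nd (nat_lit 7644) (PT.nd (nat_lit 78) (PT.lf (nat_lit 10032) (nat_lit 6) (nat_lit 132) (nat_lit 4) (nat_lit 193) (nat_lit 295) (nat_lit 292)) (PT.lf (nat_lit 10336) (nat_lit 6) (nat_lit 136) (nat_lit 4) (nat_lit 194) (nat_lit 295) (nat_lit 291))) (PT.nd (nat_lit 78) (PT.lf (nat_lit 10336) (nat_lit 6) (nat_lit 136) (nat_lit 2) (nat_lit 291) (nat_lit 295) (nat_lit 194)) (PT.lf (nat_lit 10032) (nat_lit 6) (nat_lit 132) (nat_lit 2) (nat_lit 292) (nat_lit 295) (nat_lit 193))))) (PT.nd (nat_lit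 4692402) (PT.nd (nat_lit 4611282) (PT.nd (nat_lit 78) (PT.lf (nat_lit 9728) (nat_lit 6) (nat_lit 128) (nat_lit 2) (nat_lit 293) (nat_lit 295) (nat_lit 192)) (PT.lf (nat_lit 9424) (nat_lit 6) (nat_lit 124) (nat_lit 2) (nat_lit 294) (nat_lit 295) (nat_lit 191))) (PT.nd (nat_lit 21684) (PT.lf (nat_lit 152) (nat_lit 6) (nat_lit 2) (nat_lit 5) (nat_lit 75) (nat_lit 352) (nat_lit 353)) (PT.lf (nat_lit 152) (nat_lit 6) (nat_lit 2) (nat_lit 0) (nat_lit 353) (nat_lit 352) (nat_lit 75)))) (PT.nd (nat_lit 21684) (PT.nd (nat_lit 78) (PT.lf (nat_lit 76) (nat_lit 3) (nat_lit 1) (nat_lit 4) (nat_lit 74) (nat_lit 353) (nat_lit 353)) (PT.lf (nat_lit 152) (nat_lit 6) (nat_lit 2) (nat_lit 4) (nat_lit 75) (nat_lit 353) (nat_lit 352))) (PT.nd (nat_lit 78) (PT.lf (nat_lit 152) (nat_lit 6) (nat_lit 2) (nat_lit 2) (nat_lit 352) (nat_lit 353) (nat_lit 75)) (PT.lf (nat_lit 76) (nat_lit 3) (nat_lit 1) (nat_lit 0) (nat_lit 353) (nat_lit 353) (nat_lit 74))))))))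
noncomputable def xc0 : XT := (XT.nd (nat_lit 405132) (nat_lit 0) (nat_lit 0) (XT.nd (nat_lit 243282) (nat_lit 0) (nat_lit 0) (XT.nd (nat_lit 162162) (nat_lit 0) (nat_lit 0) (XT.nd (nat_lit 81120) (nat_lit 0) (nat_lit 0) (XT.nd (nat_lit 80964) (nat_lit 0) (nat_lit 380) (XT.lf (nat_lit 0) (nat_lit 4861460937) (nat_lit 380) (nat_lit 1451232585) (nat_lit 0) (nat_lit 4204720484) (nat_lit 124) (nat_lit 5) (nat_lit 129) (nat_lit 4) (nat_lit 124) (nat_lit 4) (nat_lit 611) (nat_lit 475) (nat_lit 474)) (XT.nd (nat_lit 78) (nat_lit 304) (nat_lit 0) (XT.lf (nat_lit 0) (nat_lit 372170926) (nat_lit 380) (nat_lit 4376223075) (nat_lit 0) (nat_lit 372170926) (nat_lit 133) (nat_lit 5) (nat_lit 138) (nat_lit 4) (nat_lit 133) (nat_lit 4) (nat_lit 608) (nat_lit 476) (nat_lit 476)) (XT.lf (nat_lit 0) (nat_lit 491481573) (nat_lit 304) (nat_lit 5261877549) (nat_lit 304) (nat_lit 4578604782) (nat_lit 129) (nat_lit 4) (nat_lit 133) (nat_lit 5) (nat_lit 133) (nat_lit 4) (nat_lit 609) (nat_lit 476) (nat_lit 475)))) (XT.nd (nat_lit 80886) (nat_lit 0) (nat_lit 1064)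 (XT.nd (nat_lit 78) (nat_lit 304) (nat_lit 0) (XT.lf (nat_lit 0) (nat_lit 415909057) (nat_lit 380) (nat_lit 513011732) (nat_lit 76) (nat_lit 9495964899) (nat_lit 128) (nat_lit 5) (nat_lit 133) (nat_lit 5) (nat_lit 129) (nat_lit 4) (nat_lit 610) (nat_lit 476) (nat_lit 474)) (XT.lf (nat_lit 0) (nat_lit 5456272336) (nat_lit 380) (nat_lit 1576851609) (nat_lit 0) (nat_lit 3485793432) (nat_lit 124) (nat_lit 5) (nat_lit 129) (nat_lit 4) (nat_lit 124) (nat_lit 4) (nat_lit 611) (nat_lit 476) (nat_lit 473))) (XT.nd (nat_lit 78) (nat_lit 380) (nat_lit 0) (XT.lf (nat_lit 0) (nat_lit 850698206) (nat_lit 380) (nat_lit 3330127963) (nat_lit 0) (nat_lit 850698206) (nat_lit 143) (nat_lit 5) (nat_lit 148) (nat_lit 4) (nat_lit 143) (nat_lit 4) (nat_lit 606) (nat_lit 477) (nat_lit 477)) (XT.lf (nat_lit 0) (nat_lit 2424705312) (nat_lit 380) (nat_lit 4218821763) (nat_lit 380) (nat_lit 3507944776) (nat_lit 138) (nat_lit 4) (nat_lit 143) (nat_lit 5) (nat_lit 143) (nat_lit 4) (nat_lit 607) (nat_lit 477) (nat_lit 476))))) (XT.nd (nat_lit 234) (nat_lit 304) (nat_lit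 0) (XT.nd (nat_lit 78) (nat_lit 380) (nat_lit 0) (XT.lf (nat_lit 0) (nat_lit 1403859828) (nat_lit 380) (nat_lit 8814370694) (nat_lit 0) (nat_lit 23648838) (nat_lit 133) (nat_lit 5) (nat_lit 138) (nat_lit 4) (nat_lit 133) (nat_lit 4) (nat_lit 608) (nat_lit 477) (nat_lit 475)) (XT.nd (nat_lit 78) (nat_lit 76) (nat_lit 0) (XT.lf (nat_lit 0) (nat_lit 367216937) (nat_lit 304) (nat_lit 6008166834) (nat_lit 304) (nat_lit 3958080583) (nat_lit 129) (nat_lit 4) (nat_lit 133) (nat_lit 5) (nat_lit 133) (nat_lit 4) (nat_lit 609) (nat_lit 477) (nat_lit 474)) (XT.lf (nat_lit 0) (nat_lit 991694388) (nat_lit 380) (nat_lit 703604038) (nat_lit 76) (nat_lit 8731740182) (nat_lit 128) (nat_lit 5) (nat_lit 133) (nat_lit 5) (nat_lit 129) (nat_lit 4) (nat_lit 610) (nat_lit 477) (nat_lit 473)))) (XT.nd (nat_lit 80730) (nat_lit 0) (nat_lit 1444) (XT.nd (nat_lit 80652) (nat_lit 0) (nat_lit 2204) (XT.lf (nat_lit 0) (nat_lit 5989387940) (nat_lit 380) (nat_lit 1828138920) (nat_lit 0) (nat_lit 2704397849) (nat_lit 124) (nat_lit 5) (nat_lit 129) (nat_lit 4) (nat_lit 124)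 (nat_lit 4) (nat_lit 611) (nat_lit 477) (nat_lit 472)) (XT.lf (nat_lit 0) (nat_lit 1324335085) (nat_lit 380) (nat_lit 2296321294) (nat_lit 0) (nat_lit 1324335085) (nat_lit 153) (nat_lit 5) (nat_lit 158) (nat_lit 4) (nat_lit 153) (nat_lit 4) (nat_lit 604) (nat_lit 478) (nat_lit 478))) (XT.nd (nat_lit 78) (nat_lit 380) (nat_lit 0) (XT.lf (nat_lit 0) (nat_lit 4335317822) (nat_lit 380) (nat_lit 3190157909) (nat_lit 380) (nat_lit 2450561492) (nat_lit 148) (nat_lit 4) (nat_lit 153) (nat_lit 5) (nat_lit 153) (nat_lit 4) (nat_lit 605) (nat_lit 478) (nat_lit 477)) (XT.lf (nat_lit 0) (nat_lit 2389534002) (nat_lit 380) (nat_lit 6720692544) (nat_lit 0) (nat_lit 953562488) (nat_lit 143) (nat_lit 5) (nat_lit 148) (nat_lit 4) (nat_lit 143) (nat_lit 4) (nat_lit 606) (nat_lit 478) (nat_lit 476)))))) (XT.nd (nat_lit 80964) (nat_lit 0) (nat_lit 0) (XT.nd (nat_lit 234) (nat_lit 380) (nat_lit 0) (XT.nd (nat_lit 78) (nat_lit 684) (nat_lit 0) (XT.lf (nat_lit 0) (nat_lit 2303426515) (nat_lit 380) (nat_lit 4991218436) (nat_lit 380) (nat_lit 2858308700) (nat_lit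 138) (nat_lit 4) (nat_lit 143) (nat_lit 5) (nat_lit 143) (nat_lit 4) (nat_lit 607) (nat_lit 478) (nat_lit 475)) (XT.nd (nat_lit 78) (nat_lit 304) (nat_lit 0) (XT.lf (nat_lit 0) (nat_lit 1238869610) (nat_lit 304) (nat_lit 768581930) (nat_lit 380) (nat_lit 8236576825) (nat_lit 133) (nat_lit 5) (nat_lit 137) (nat_lit 5) (nat_lit 138) (nat_lit 4) (nat_lit 608) (nat_lit 478) (nat_lit 474)) (XT.lf (nat_lit 0) (nat_lit 118638935) (nat_lit 304) (nat_lit 6817765299) (nat_lit 304) (nat_lit 3400061608) (nat_lit 129) (nat_lit 4) (nat_lit 133) (nat_lit 5) (nat_lit 133) (nat_lit 4) (nat_lit 609) (nat_lit 478) (nat_lit 473)))) (XT.nd (nat_lit 80574) (nat_lit 0) (nat_lit 2584) (XT.nd (nat_lit 78) (nat_lit 304) (nat_lit 0) (XT.lf (nat_lit 0) (nat_lit 1506511921) (nat_lit 380) (nat_lit 1018412799) (nat_lit 76) (nat_lit 7905761591) (nat_lit 128) (nat_lit 5) (nat_lit 133) (nat_lit 5) (nat_lit 129) (nat_lit 4) (nat_lit 610) (nat_lit 478) (nat_lit 472)) (XT.lf (nat_lit 0) (nat_lit 6461016815) (nat_lit 380) (nat_lit 2205193061) (nat_lit 0) (nat_lit 1860227304)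 (nat_lit 124) (nat_lit 5) (nat_lit 129) (nat_lit 4) (nat_lit 124) (nat_lit 4) (nat_lit 611) (nat_lit 478) (nat_lit 471))) (XT.nd (nat_lit 78) (nat_lit 380) (nat_lit 0) (XT.lf (nat_lit 0) (nat_lit 1794511537) (nat_lit 456) (nat_lit 1271901676) (nat_lit 0) (nat_lit 1794511537) (nat_lit 163) (nat_lit 5) (nat_lit 169) (nat_lit 4) (nat_lit 163) (nat_lit 4) (nat_lit 602) (nat_lit 479) (nat_lit 479)) (XT.lf (nat_lit 0) (nat_lit 6229193081) (nat_lit 380) (nat_lit 2172928789) (nat_lit 380) (nat_lit 1403452677) (nat_lit 158) (nat_lit 4) (nat_lit 163) (nat_lit 5) (nat_lit 163) (nat_lit 4) (nat_lit 603) (nat_lit 479) (nat_lit 478))))) (XT.nd (nat_lit 312) (nat_lit 1064) (nat_lit 0) (XT.nd (nat_lit 156) (nat_lit 760) (nat_lit 0) (XT.nd (nat_lit 78) (nat_lit 380) (nat_lit 0) (XT.lf (nat_lit 0) (nat_lit 3366544880) (nat_lit 380) (nat_lit 4651609397) (nat_lit 0) (nat_lit 1872560117) (nat_lit 153) (nat_lit 5) (nat_lit 158) (nat_lit 4) (nat_lit 153) (nat_lit 4) (nat_lit 604) (nat_lit 479) (nat_lit 477)) (XT.lf (nat_lit 0) (nat_lit 4216988508) (nat_lit 380)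 (nat_lit 3989795977) (nat_lit 380) (nat_lit 1770716688) (nat_lit 148) (nat_lit 4) (nat_lit 153) (nat_lit 5) (nat_lit 153) (nat_lit 4) (nat_lit 605) (nat_lit 479) (nat_lit 476))) (XT.nd (nat_lit 78) (nat_lit 380) (nat_lit 0) (XT.lf (nat_lit 0) (nat_lit 3018245114) (nat_lit 380) (nat_lit 6902026098) (nat_lit 0) (nat_lit 145738961) (nat_lit 143) (nat_lit 5) (nat_lit 148) (nat_lit 4) (nat_lit 143) (nat_lit 4) (nat_lit 606) (nat_lit 479) (nat_lit 475)) (XT.lf (nat_lit 0) (nat_lit 2060821360) (nat_lit 380) (nat_lit 5825437695) (nat_lit 380) (nat_lit 2269658775) (nat_lit 138) (nat_lit 4) (nat_lit 143) (nat_lit 5) (nat_lit 143) (nat_lit 4) (nat_lit 607) (nat_lit 479) (nat_lit 474)))) (XT.nd (nat_lit 156) (nat_lit 684) (nat_lit 0) (XT.nd (nat_lit 78) (nat_lit 0) (nat_lit 0) (XT.lf (nat_lit 0) (nat_lit 927211336) (nat_lit 304) (nat_lit 1623712187) (nat_lit 380) (nat_lit 7696742794) (nat_lit 133) (nat_lit 5) (nat_lit 137) (nat_lit 5) (nat_lit 138) (nat_lit 4) (nat_lit 608) (nat_lit 479) (nat_lit 473)) (XT.lf (nat_lit 0) (nat_lit 7438291927) (nat_lit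 380) (nat_lit 251014070) (nat_lit 0) (nat_lit 2651630520) (nat_lit 133) (nat_lit 5) (nat_lit 138) (nat_lit 4) (nat_lit 133) (nat_lit 4) (nat_lit 609) (nat_lit 479) (nat_lit 472))) (XT.nd (nat_lit 78) (nat_lit 304) (nat_lit 0) (XT.lf (nat_lit 0) (nat_lit 1960563543) (nat_lit 380) (nat_lit 1457561469) (nat_lit 76) (nat_lit 7017705212) (nat_lit 128) (nat_lit 5) (nat_lit 133) (nat_lit 5) (nat_lit 129) (nat_lit 4) (nat_lit 610) (nat_lit 479) (nat_lit 471)) (XT.lf (nat_lit 0) (nat_lit 6871343912) (nat_lit 380) (nat_lit 2708161897) (nat_lit 0) (nat_lit 952950751) (nat_lit 124) (nat_lit 5) (nat_lit 129) (nat_lit 4) (nat_lit 124) (nat_lit 4) (nat_lit 611) (nat_lit 479) (nat_lit 470))))))) (XT.nd (nat_lit 81276) (nat_lit 0) (nat_lit 0) (XT.nd (nat_lit 546) (nat_lit 1444) (nat_lit 0) (XT.nd (nat_lit 234) (nat_lit 1520) (nat_lit 0) (XT.nd (nat_lit 78) (nat_lit 836) (nat_lit 0) (XT.lf (nat_lit 0) (nat_lit 2262595618) (nat_lit 456) (nat_lit 254094429) (nat_lit 0) (nat_lit 2262595618) (nat_lit 174) (nat_lit 5) (nat_lit 180) (nat_lit 4) (nat_lit 174) (nat_lit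 4) (nat_lit 600) (nat_lit 480) (nat_lit 480)) (XT.nd (nat_lit 78) (nat_lit 456) (nat_lit 0) (XT.lf (nat_lit 0) (nat_lit 8111942779) (nat_lit 380) (nat_lit 1164312186) (nat_lit 380) (nat_lit 363749239) (nat_lit 169) (nat_lit 4) (nat_lit 174) (nat_lit 5) (nat_lit 174) (nat_lit 4) (nat_lit 601) (nat_lit 480) (nat_lit 479)) (XT.lf (nat_lit 0) (nat_lit 4337798315) (nat_lit 456) (nat_lit 2601317666) (nat_lit 0) (nat_lit 2783456567) (nat_lit 163) (nat_lit 5) (nat_lit 169) (nat_lit 4) (nat_lit 163) (nat_lit 4) (nat_lit 602) (nat_lit 480) (nat_lit 478)))) (XT.nd (nat_lit 156) (nat_lit 760) (nat_lit 0) (XT.nd (nat_lit 78) (nat_lit 380) (nat_lit 0) (XT.lf (nat_lit 0) (nat_lit 6113778504) (nat_lit 380) (nat_lit 3000986519) (nat_lit 380) (nat_lit 692256426) (nat_lit 158) (nat_lit 4) (nat_lit 163) (nat_lit 5) (nat_lit 163) (nat_lit 4) (nat_lit 603) (nat_lit 480) (nat_lit 477)) (XT.lf (nat_lit 0) (nat_lit 4026465764) (nat_lit 380) (nat_lit 4828532945) (nat_lit 0) (nat_lit 1037910362) (nat_lit 153) (nat_lit 5) (nat_lit 158) (nat_lit 4) (nat_lit 153) (nat_lit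 4) (nat_lit 604) (nat_lit 480) (nat_lit 476))) (XT.nd (nat_lit 78) (nat_lit 380) (nat_lit 0) (XT.lf (nat_lit 0) (nat_lit 3980283476) (nat_lit 380) (nat_lit 4849789279) (nat_lit 380) (nat_lit 1150356890) (nat_lit 148) (nat_lit 4) (nat_lit 153) (nat_lit 5) (nat_lit 153) (nat_lit 4) (nat_lit 605) (nat_lit 480) (nat_lit 475)) (XT.lf (nat_lit 0) (nat_lit 2860537717) (nat_lit 304) (nat_lit 731991157) (nat_lit 380) (nat_lit 6477089114) (nat_lit 143) (nat_lit 5) (nat_lit 147) (nat_lit 5) (nat_lit 148) (nat_lit 4) (nat_lit 606) (nat_lit 480) (nat_lit 474))))) (XT.nd (nat_lit 312) (nat_lit 304) (nat_lit 0) (XT.nd (nat_lit 156) (nat_lit 380) (nat_lit 0) (XT.nd (nat_lit 78) (nat_lit 380) (nat_lit 0) (XT.lf (nat_lit 0) (nat_lit 1696794709) (nat_lit 380) (nat_lit 6721806685) (nat_lit 380) (nat_lit 1741764158) (nat_lit 138) (nat_lit 4) (nat_lit 143) (nat_lit 5) (nat_lit 143) (nat_lit 4) (nat_lit 607) (nat_lit 480) (nat_lit 473)) (XT.lf (nat_lit 0) (nat_lit 492570322) (nat_lit 304) (nat_lit 2541762995) (nat_lit 380) (nat_lit 7218464438) (nat_lit 133) (nat_lit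 5) (nat_lit 137) (nat_lit 5) (nat_lit 138) (nat_lit 4) (nat_lit 608) (nat_lit 480) (nat_lit 472))) (XT.nd (nat_lit 78) (nat_lit 380) (nat_lit 0) (XT.lf (nat_lit 0) (nat_lit 7881170602) (nat_lit 380) (nat_lit 742034633) (nat_lit 0) (nat_lit 1723674357) (nat_lit 133) (nat_lit 5) (nat_lit 138) (nat_lit 4) (nat_lit 133) (nat_lit 4) (nat_lit 609) (nat_lit 480) (nat_lit 471)) (XT.lf (nat_lit 0) (nat_lit 2354027316) (nat_lit 380) (nat_lit 2021222262) (nat_lit 76) (nat_lit 6067222787) (nat_lit 128) (nat_lit 5) (nat_lit 133) (nat_lit 5) (nat_lit 129) (nat_lit 4) (nat_lit 610) (nat_lit 480) (nat_lit 470)))) (XT.nd (nat_lit 80262) (nat_lit 0) (nat_lit 3800) (XT.nd (nat_lit 80184) (nat_lit 0) (nat_lit 4256) (XT.lf (nat_lit 0) (nat_lit 7202623175) (nat_lit 304) (nat_lit 18023992) (nat_lit 380) (nat_lit 3319335701) (nat_lit 124) (nat_lit 5) (nat_lit 128) (nat_lit 5) (nat_lit 129) (nat_lit 4) (nat_lit 611) (nat_lit 480) (nat_lit 469)) (XT.lf (nat_lit 0) (nat_lit 769858413) (nat_lit 380) (nat_lit 1965040017) (nat_lit 380) (nat_lit 1965040017) (nat_lit 180)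 (nat_lit 4) (nat_lit 185) (nat_lit 5) (nat_lit 185) (nat_lit 4) (nat_lit 598) (nat_lit 481) (nat_lit 481))) (XT.nd (nat_lit 78) (nat_lit 0) (nat_lit 0) (XT.lf (nat_lit 0) (nat_lit 512048305) (nat_lit 380) (nat_lit 153770504) (nat_lit 456) (nat_lit 8813279745) (nat_lit 174) (nat_lit 5) (nat_lit 179) (nat_lit 5) (nat_lit 180) (nat_lit 4) (nat_lit 599) (nat_lit 481) (nat_lit 480)) (XT.lf (nat_lit 0) (nat_lit 5306078167) (nat_lit 456) (nat_lit 564267186) (nat_lit 0) (nat_lit 3688941013) (nat_lit 174) (nat_lit 5) (nat_lit 180) (nat_lit 4) (nat_lit 174) (nat_lit 4) (nat_lit 600) (nat_lit 481) (nat_lit 479)))))) (XT.nd (nat_lit 546) (nat_lit 1064) (nat_lit 0) (XT.nd (nat_lit 234) (nat_lit 1520) (nat_lit 0) (XT.nd (nat_lit 78) (nat_lit 760) (nat_lit 0) (XT.lf (nat_lit 0) (nat_lit 375005243) (nat_lit 456) (nat_lit 1644492196) (nat_lit 76) (nat_lit 7621888082) (nat_lit 168) (nat_lit 5) (nat_lit 174) (nat_lit 5) (nat_lit 169) (nat_lit 4) (nat_lit 601) (nat_lit 481) (nat_lit 478)) (XT.nd (nat_lit 78) (nat_lit 380) (nat_lit 0) (XT.lf (nat_lit 0) (nat_lit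 5030075926) (nat_lit 456) (nat_lit 2773883158) (nat_lit 0) (nat_lit 1920782886) (nat_lit 163) (nat_lit 5) (nat_lit 169) (nat_lit 4) (nat_lit 163) (nat_lit 4) (nat_lit 602) (nat_lit 481) (nat_lit 477)) (XT.lf (nat_lit 0) (nat_lit 5882904090) (nat_lit 380) (nat_lit 3887950594) (nat_lit 380) (nat_lit 39061137) (nat_lit 158) (nat_lit 4) (nat_lit 163) (nat_lit 5) (nat_lit 163) (nat_lit 4) (nat_lit 603) (nat_lit 481) (nat_lit 476)))) (XT.nd (nat_lit 156) (nat_lit 760) (nat_lit 0) (XT.nd (nat_lit 78) (nat_lit 380) (nat_lit 0) (XT.lf (nat_lit 0) (nat_lit 4628691615) (nat_lit 380) (nat_lit 5123482614) (nat_lit 0) (nat_lit 144393592) (nat_lit 153) (nat_lit 5) (nat_lit 158) (nat_lit 4) (nat_lit 153) (nat_lit 4) (nat_lit 604) (nat_lit 481) (nat_lit 475)) (XT.lf (nat_lit 0) (nat_lit 3625109902) (nat_lit 380) (nat_lit 5770475068) (nat_lit 380) (nat_lit 589238822) (nat_lit 148) (nat_lit 4) (nat_lit 153) (nat_lit 5) (nat_lit 153) (nat_lit 4) (nat_lit 605) (nat_lit 481) (nat_lit 474))) (XT.nd (nat_lit 78) (nat_lit 380) (nat_lit 0) (XT.lf (nat_lit 0) (nat_lit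 2436102984) (nat_lit 304) (nat_lit 1673110875) (nat_lit 380) (nat_lit 5965467968) (nat_lit 143) (nat_lit 5) (nat_lit 147) (nat_lit 5) (nat_lit 148) (nat_lit 4) (nat_lit 606) (nat_lit 481) (nat_lit 473)) (XT.lf (nat_lit 0) (nat_lit 1211203805) (nat_lit 380) (nat_lit 7680676924) (nat_lit 380) (nat_lit 1274417831) (nat_lit 138) (nat_lit 4) (nat_lit 143) (nat_lit 5) (nat_lit 143) (nat_lit 4) (nat_lit 607) (nat_lit 481) (nat_lit 472))))) (XT.nd (nat_lit 80262) (nat_lit 0) (nat_lit 3800) (XT.nd (nat_lit 156) (nat_lit 684) (nat_lit 0) (XT.nd (nat_lit 78) (nat_lit 304) (nat_lit 0) (XT.lf (nat_lit 0) (nat_lit 3458293973) (nat_lit 456) (nat_lit 64368456) (nat_lit 76) (nat_lit 6736753792) (nat_lit 137) (nat_lit 5) (nat_lit 143) (nat_lit 5) (nat_lit 138) (nat_lit 4) (nat_lit 608) (nat_lit 481) (nat_lit 471)) (XT.lf (nat_lit 0) (nat_lit 8264443654) (nat_lit 380) (nat_lit 1356171284) (nat_lit 0) (nat_lit 733697867) (nat_lit 133) (nat_lit 5) (nat_lit 138) (nat_lit 4) (nat_lit 133) (nat_lit 4) (nat_lit 609) (nat_lit 481) (nat_lit 470))) (XT.nd (nat_lit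 78) (nat_lit 304) (nat_lit 0) (XT.lf (nat_lit 0) (nat_lit 2687057537) (nat_lit 380) (nat_lit 2709616224) (nat_lit 76) (nat_lit 5053941580) (nat_lit 128) (nat_lit 5) (nat_lit 133) (nat_lit 5) (nat_lit 129) (nat_lit 4) (nat_lit 610) (nat_lit 481) (nat_lit 469)) (XT.lf (nat_lit 0) (nat_lit 6449282056) (nat_lit 304) (nat_lit 1066353868) (nat_lit 380) (nat_lit 3033251687) (nat_lit 124) (nat_lit 5) (nat_lit 128) (nat_lit 5) (nat_lit 129) (nat_lit 4) (nat_lit 611) (nat_lit 481) (nat_lit 468)))) (XT.nd (nat_lit 156) (nat_lit 836) (nat_lit 0) (XT.nd (nat_lit 78) (nat_lit 456) (nat_lit 0) (XT.lf (nat_lit 0) (nat_lit 1795778208) (nat_lit 456) (nat_lit 1413569246) (nat_lit 456) (nat_lit 1413569246) (nat_lit 191) (nat_lit 4) (nat_lit 197) (nat_lit 5) (nat_lit 197) (nat_lit 4) (nat_lit 596) (nat_lit 482) (nat_lit 482)) (XT.lf (nat_lit 0) (nat_lit 1704255329) (nat_lit 456) (nat_lit 6763636377) (nat_lit 0) (nat_lit 854691525) (nat_lit 185) (nat_lit 5) (nat_lit 191) (nat_lit 4) (nat_lit 185) (nat_lit 4) (nat_lit 597) (nat_lit 482) (nat_lit 481))) (XT.nd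 (nat_lit 78) (nat_lit 456) (nat_lit 0) (XT.lf (nat_lit 0) (nat_lit 1484332403) (nat_lit 380) (nat_lit 4799364304) (nat_lit 380) (nat_lit 3116894809) (nat_lit 180) (nat_lit 4) (nat_lit 185) (nat_lit 5) (nat_lit 185) (nat_lit 4) (nat_lit 598) (nat_lit 482) (nat_lit 480)) (XT.lf (nat_lit 0) (nat_lit 394358503) (nat_lit 380) (nat_lit 1038018825) (nat_lit 456) (nat_lit 8048050773) (nat_lit 174) (nat_lit 5) (nat_lit 179) (nat_lit 5) (nat_lit 180) (nat_lit 4) (nat_lit 599) (nat_lit 482) (nat_lit 479))))))))
noncomputable def xc1 : XT := (XT.nd (nat_lit 161772) (nat_lit 0) (nat_lit 0) (XT.nd (nat_lit 80964) (nat_lit 0) (nat_lit 0) (XT.nd (nat_lit 546) (nat_lit 1444) (nat_lit 0) (XT.nd (nat_lit 234) (nat_lit 1520) (nat_lit 0) (XT.nd (nat_lit 78) (nat_lit 836) (nat_lit 0) (XT.lf (nat_lit 0) (nat_lit 6031908033) (nat_lit 456) (nat_lit 732524161) (nat_lit 0) (nat_lit 2796999554) (nat_lit 174) (nat_lit 5) (nat_lit 180) (nat_lit 4) (nat_lit 174) (nat_lit 4) (nat_lit 600) (nat_lit 482) (nat_lit 478)) (XT.nd (nat_lit 78) (nat_lit 380) (nat_lit 0) (XT.lf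 (nat_lit 0) (nat_lit 1053197351) (nat_lit 456) (nat_lit 1876925941) (nat_lit 76) (nat_lit 6714034877) (nat_lit 168) (nat_lit 5) (nat_lit 174) (nat_lit 5) (nat_lit 169) (nat_lit 4) (nat_lit 601) (nat_lit 482) (nat_lit 477)) (XT.lf (nat_lit 0) (nat_lit 5666127391) (nat_lit 456) (nat_lit 3061567503) (nat_lit 0) (nat_lit 1000663727) (nat_lit 163) (nat_lit 5) (nat_lit 169) (nat_lit 4) (nat_lit 163) (nat_lit 4) (nat_lit 602) (nat_lit 482) (nat_lit 476)))) (XT.nd (nat_lit 156) (nat_lit 760) (nat_lit 0) (XT.nd (nat_lit 78) (nat_lit 304) (nat_lit 0) (XT.lf (nat_lit 0) (nat_lit 549092199) (nat_lit 456) (nat_lit 4281391947) (nat_lit 76) (nat_lit 4983702404) (nat_lit 157) (nat_lit 5) (nat_lit 163) (nat_lit 5) (nat_lit 158) (nat_lit 4) (nat_lit 603) (nat_lit 482) (nat_lit 475)) (XT.lf (nat_lit 0) (nat_lit 4359693618) (nat_lit 304) (nat_lit 819083013) (nat_lit 380) (nat_lit 4722809089) (nat_lit 153) (nat_lit 5) (nat_lit 157) (nat_lit 5) (nat_lit 158) (nat_lit 4) (nat_lit 604) (nat_lit 482) (nat_lit 474))) (XT.nd (nat_lit 78) (nat_lit 380) (nat_lit 0)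 (XT.lf (nat_lit 0) (nat_lit 3151328500) (nat_lit 380) (nat_lit 6752214396) (nat_lit 380) (nat_lit 87142436) (nat_lit 148) (nat_lit 4) (nat_lit 153) (nat_lit 5) (nat_lit 153) (nat_lit 4) (nat_lit 605) (nat_lit 482) (nat_lit 473)) (XT.lf (nat_lit 0) (nat_lit 1891491416) (nat_lit 304) (nat_lit 2676052464) (nat_lit 380) (nat_lit 5513678972) (nat_lit 143) (nat_lit 5) (nat_lit 147) (nat_lit 5) (nat_lit 148) (nat_lit 4) (nat_lit 606) (nat_lit 482) (nat_lit 472))))) (XT.nd (nat_lit 312) (nat_lit 304) (nat_lit 0) (XT.nd (nat_lit 156) (nat_lit 684) (nat_lit 0) (XT.nd (nat_lit 78) (nat_lit 76) (nat_lit 0) (XT.lf (nat_lit 0) (nat_lit 603858221) (nat_lit 380) (nat_lit 8702424439) (nat_lit 380) (nat_lit 867436523) (nat_lit 138) (nat_lit 4) (nat_lit 143) (nat_lit 5) (nat_lit 143) (nat_lit 4) (nat_lit 607) (nat_lit 482) (nat_lit 471)) (XT.lf (nat_lit 0) (nat_lit 3826547210) (nat_lit 456) (nat_lit 736600972) (nat_lit 76) (nat_lit 5704304618) (nat_lit 137) (nat_lit 5) (nat_lit 143) (nat_lit 5) (nat_lit 138) (nat_lit 4) (nat_lit 608) (nat_lit 482) (nat_lit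 470))) (XT.nd (nat_lit 78) (nat_lit 380) (nat_lit 0) (XT.lf (nat_lit 0) (nat_lit 8267435655) (nat_lit 304) (nat_lit 322922359) (nat_lit 380) (nat_lit 1772839125) (nat_lit 133) (nat_lit 5) (nat_lit 137) (nat_lit 5) (nat_lit 138) (nat_lit 4) (nat_lit 609) (nat_lit 482) (nat_lit 469)) (XT.lf (nat_lit 0) (nat_lit 2959784808) (nat_lit 380) (nat_lit 3523013311) (nat_lit 76) (nat_lit 3977464223) (nat_lit 128) (nat_lit 5) (nat_lit 133) (nat_lit 5) (nat_lit 129) (nat_lit 4) (nat_lit 610) (nat_lit 482) (nat_lit 468)))) (XT.nd (nat_lit 79950) (nat_lit 0) (nat_lit 5092) (XT.nd (nat_lit 79872) (nat_lit 0) (nat_lit 6004) (XT.lf (nat_lit 0) (nat_lit 5570370679) (nat_lit 304) (nat_lit 2179785772) (nat_lit 380) (nat_lit 2809143218) (nat_lit 124) (nat_lit 5) (nat_lit 128) (nat_lit 5) (nat_lit 129) (nat_lit 4) (nat_lit 611) (nat_lit 482) (nat_lit 467)) (XT.lf (nat_lit 0) (nat_lit 2822791191) (nat_lit 456) (nat_lit 862715908) (nat_lit 456) (nat_lit 862715908) (nat_lit 203) (nat_lit 4) (nat_lit 209) (nat_lit 5) (nat_lit 209) (nat_lit 4) (nat_lit 594) (nat_lit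 483) (nat_lit 483))) (XT.nd (nat_lit 78) (nat_lit 456) (nat_lit 0) (XT.lf (nat_lit 0) (nat_lit 2744211503) (nat_lit 456) (nat_lit 4566197709) (nat_lit 0) (nat_lit 1860325321) (nat_lit 197) (nat_lit 5) (nat_lit 203) (nat_lit 4) (nat_lit 197) (nat_lit 4) (nat_lit 595) (nat_lit 483) (nat_lit 482)) (XT.lf (nat_lit 0) (nat_lit 3537596060) (nat_lit 456) (nat_lit 3729692921) (nat_lit 456) (nat_lit 1979251659) (nat_lit 191) (nat_lit 4) (nat_lit 197) (nat_lit 5) (nat_lit 197) (nat_lit 4) (nat_lit 596) (nat_lit 483) (nat_lit 481)))))) (XT.nd (nat_lit 546) (nat_lit 2508) (nat_lit 0) (XT.nd (nat_lit 234) (nat_lit 1292) (nat_lit 0) (XT.nd (nat_lit 78) (nat_lit 836) (nat_lit 0) (XT.lf (nat_lit 0) (nat_lit 2449634241) (nat_lit 380) (nat_lit 50187198) (nat_lit 456) (nat_lit 6824184281) (nat_lit 185) (nat_lit 5) (nat_lit 190) (nat_lit 5) (nat_lit 191) (nat_lit 4) (nat_lit 597) (nat_lit 483) (nat_lit 480)) (XT.nd (nat_lit 78) (nat_lit 456) (nat_lit 0) (XT.lf (nat_lit 0) (nat_lit 1318157416) (nat_lit 380) (nat_lit 5725088511) (nat_lit 380) (nat_lit 2359489730)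 (nat_lit 180) (nat_lit 4) (nat_lit 185) (nat_lit 5) (nat_lit 185) (nat_lit 4) (nat_lit 598) (nat_lit 483) (nat_lit 479)) (XT.lf (nat_lit 0) (nat_lit 164412388) (nat_lit 380) (nat_lit 1979436184) (nat_lit 456) (nat_lit 7339346587) (nat_lit 174) (nat_lit 5) (nat_lit 179) (nat_lit 5) (nat_lit 180) (nat_lit 4) (nat_lit 599) (nat_lit 483) (nat_lit 478)))) (XT.nd (nat_lit 156) (nat_lit 836) (nat_lit 0) (XT.nd (nat_lit 78) (nat_lit 456) (nat_lit 0) (XT.lf (nat_lit 0) (nat_lit 6702965476) (nat_lit 456) (nat_lit 1013025766) (nat_lit 0) (nat_lit 1849017080) (nat_lit 174) (nat_lit 5) (nat_lit 180) (nat_lit 4) (nat_lit 174) (nat_lit 4) (nat_lit 600) (nat_lit 483) (nat_lit 477)) (XT.lf (nat_lit 0) (nat_lit 1675863679) (nat_lit 456) (nat_lit 2223092109) (nat_lit 76) (nat_lit 5749414678) (nat_lit 168) (nat_lit 5) (nat_lit 174) (nat_lit 5) (nat_lit 169) (nat_lit 4) (nat_lit 601) (nat_lit 483) (nat_lit 476))) (XT.nd (nat_lit 78) (nat_lit 456) (nat_lit 0) (XT.lf (nat_lit 0) (nat_lit 6246202140) (nat_lit 456) (nat_lit 3464483518) (nat_lit 0) (nat_lit 22738259)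 (nat_lit 163) (nat_lit 5) (nat_lit 169) (nat_lit 4) (nat_lit 163) (nat_lit 4) (nat_lit 602) (nat_lit 483) (nat_lit 475)) (XT.lf (nat_lit 0) (nat_lit 1079976216) (nat_lit 456) (nat_lit 4752788909) (nat_lit 76) (nat_lit 3987144856) (nat_lit 157) (nat_lit 5) (nat_lit 163) (nat_lit 5) (nat_lit 158) (nat_lit 4) (nat_lit 603) (nat_lit 483) (nat_lit 474))))) (XT.nd (nat_lit 312) (nat_lit 1444) (nat_lit 0) (XT.nd (nat_lit 156) (nat_lit 304) (nat_lit 0) (XT.nd (nat_lit 78) (nat_lit 456) (nat_lit 0) (XT.lf (nat_lit 0) (nat_lit 3828096918) (nat_lit 304) (nat_lit 1844861501) (nat_lit 380) (nat_lit 4235085877) (nat_lit 153) (nat_lit 5) (nat_lit 157) (nat_lit 5) (nat_lit 158) (nat_lit 4) (nat_lit 604) (nat_lit 483) (nat_lit 473)) (XT.lf (nat_lit 0) (nat_lit 351458470) (nat_lit 456) (nat_lit 7441575318) (nat_lit 76) (nat_lit 2204936533) (nat_lit 147) (nat_lit 5) (nat_lit 153) (nat_lit 5) (nat_lit 148) (nat_lit 4) (nat_lit 605) (nat_lit 483) (nat_lit 472))) (XT.nd (nat_lit 78) (nat_lit 0) (nat_lit 0) (XT.lf (nat_lit 0) (nat_lit 1226489439) (nat_lit 304)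 (nat_lit 3741209234) (nat_lit 380) (nat_lit 5121544953) (nat_lit 143) (nat_lit 5) (nat_lit 147) (nat_lit 5) (nat_lit 148) (nat_lit 4) (nat_lit 606) (nat_lit 483) (nat_lit 471)) (XT.lf (nat_lit 0) (nat_lit 9662784400) (nat_lit 380) (nat_lit 123834521) (nat_lit 0) (nat_lit 395995115) (nat_lit 143) (nat_lit 5) (nat_lit 148) (nat_lit 4) (nat_lit 143) (nat_lit 4) (nat_lit 607) (nat_lit 483) (nat_lit 470)))) (XT.nd (nat_lit 156) (nat_lit 684) (nat_lit 0) (XT.nd (nat_lit 78) (nat_lit 304) (nat_lit 0) (XT.lf (nat_lit 0) (nat_lit 4136039349) (nat_lit 456) (nat_lit 1530850994) (nat_lit 76) (nat_lit 4610084263) (nat_lit 137) (nat_lit 5) (nat_lit 143) (nat_lit 5) (nat_lit 138) (nat_lit 4) (nat_lit 608) (nat_lit 483) (nat_lit 469)) (XT.lf (nat_lit 0) (nat_lit 7409235140) (nat_lit 304) (nat_lit 1452949159) (nat_lit 380) (nat_lit 1511288922) (nat_lit 133) (nat_lit 5) (nat_lit 137) (nat_lit 5) (nat_lit 138) (nat_lit 4) (nat_lit 609) (nat_lit 483) (nat_lit 468))) (XT.nd (nat_lit 78) (nat_lit 304) (nat_lit 0) (XT.lf (nat_lit 0) (nat_lit 3172316081) (nat_lit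 380) (nat_lit 4461732503) (nat_lit 76) (nat_lit 2837368571) (nat_lit 128) (nat_lit 5) (nat_lit 133) (nat_lit 5) (nat_lit 129) (nat_lit 4) (nat_lit 610) (nat_lit 483) (nat_lit 467)) (XT.lf (nat_lit 0) (nat_lit 4565544372) (nat_lit 304) (nat_lit 3358756343) (nat_lit 380) (nat_lit 2646922408) (nat_lit 124) (nat_lit 5) (nat_lit 128) (nat_lit 5) (nat_lit 129) (nat_lit 4) (nat_lit 611) (nat_lit 483) (nat_lit 466))))))) (XT.nd (nat_lit 1170) (nat_lit 1444) (nat_lit 0) (XT.nd (nat_lit 546) (nat_lit 2812) (nat_lit 0) (XT.nd (nat_lit 234) (nat_lit 1748) (nat_lit 0) (XT.nd (nat_lit 78) (nat_lit 988) (nat_lit 0) (XT.lf (nat_lit 0) (nat_lit 3853320434) (nat_lit 456) (nat_lit 311254303) (nat_lit 456) (nat_lit 311254303) (nat_lit 216) (nat_lit 4) (nat_lit 222) (nat_lit 5) (nat_lit 222) (nat_lit 4) (nat_lit 592) (nat_lit 484) (nat_lit 484)) (XT.nd (nat_lit 78) (nat_lit 456) (nat_lit 0) (XT.lf (nat_lit 0) (nat_lit 3787169453) (nat_lit 532) (nat_lit 2368769223) (nat_lit 0) (nat_lit 2867574269) (nat_lit 209) (nat_lit 5) (nat_lit 216) (nat_lit 4) (nat_lit 209)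 (nat_lit 4) (nat_lit 593) (nat_lit 484) (nat_lit 483)) (XT.lf (nat_lit 0) (nat_lit 5593031829) (nat_lit 456) (nat_lit 2662636771) (nat_lit 456) (nat_lit 841477682) (nat_lit 203) (nat_lit 4) (nat_lit 209) (nat_lit 5) (nat_lit 209) (nat_lit 4) (nat_lit 594) (nat_lit 484) (nat_lit 482)))) (XT.nd (nat_lit 156) (nat_lit 836) (nat_lit 0) (XT.nd (nat_lit 78) (nat_lit 456) (nat_lit 0) (XT.lf (nat_lit 0) (nat_lit 3575193045) (nat_lit 456) (nat_lit 4673768076) (nat_lit 0) (nat_lit 923187877) (nat_lit 197) (nat_lit 5) (nat_lit 203) (nat_lit 4) (nat_lit 197) (nat_lit 4) (nat_lit 595) (nat_lit 484) (nat_lit 481)) (XT.lf (nat_lit 0) (nat_lit 3375693830) (nat_lit 456) (nat_lit 4687268886) (nat_lit 456) (nat_lit 1185699913) (nat_lit 191) (nat_lit 4) (nat_lit 197) (nat_lit 5) (nat_lit 197) (nat_lit 4) (nat_lit 596) (nat_lit 484) (nat_lit 480))) (XT.nd (nat_lit 78) (nat_lit 380) (nat_lit 0) (XT.lf (nat_lit 0) (nat_lit 2225194056) (nat_lit 380) (nat_lit 1022166695) (nat_lit 456) (nat_lit 6079377323) (nat_lit 185) (nat_lit 5) (nat_lit 190) (nat_lit 5) (nat_lit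 191) (nat_lit 4) (nat_lit 597) (nat_lit 484) (nat_lit 479)) (XT.lf (nat_lit 0) (nat_lit 1041126696) (nat_lit 380) (nat_lit 6707615686) (nat_lit 380) (nat_lit 1657567775) (nat_lit 180) (nat_lit 4) (nat_lit 185) (nat_lit 5) (nat_lit 185) (nat_lit 4) (nat_lit 598) (nat_lit 484) (nat_lit 478))))) (XT.nd (nat_lit 312) (nat_lit 1520) (nat_lit 0) (XT.nd (nat_lit 156) (nat_lit 836) (nat_lit 0) (XT.nd (nat_lit 78) (nat_lit 380) (nat_lit 0) (XT.lf (nat_lit 0) (nat_lit 2801666466) (nat_lit 456) (nat_lit 175547282) (nat_lit 76) (nat_lit 6510163968) (nat_lit 179) (nat_lit 5) (nat_lit 185) (nat_lit 5) (nat_lit 180) (nat_lit 4) (nat_lit 599) (nat_lit 484) (nat_lit 477)) (XT.lf (nat_lit 0) (nat_lit 7319513653) (nat_lit 456) (nat_lit 1405882002) (nat_lit 0) (nat_lit 844621832) (nat_lit 174) (nat_lit 5) (nat_lit 180) (nat_lit 4) (nat_lit 174) (nat_lit 4) (nat_lit 600) (nat_lit 484) (nat_lit 476))) (XT.nd (nat_lit 78) (nat_lit 380) (nat_lit 0) (XT.lf (nat_lit 0) (nat_lit 2243248409) (nat_lit 456) (nat_lit 2683126450) (nat_lit 76) (nat_lit 4727649205) (nat_lit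 168) (nat_lit 5) (nat_lit 174) (nat_lit 5) (nat_lit 169) (nat_lit 4) (nat_lit 601) (nat_lit 484) (nat_lit 475)) (XT.lf (nat_lit 0) (nat_lit 5750350343) (nat_lit 380) (nat_lit 1026844265) (nat_lit 456) (nat_lit 2962611899) (nat_lit 163) (nat_lit 5) (nat_lit 168) (nat_lit 5) (nat_lit 169) (nat_lit 4) (nat_lit 602) (nat_lit 484) (nat_lit 474)))) (XT.nd (nat_lit 156) (nat_lit 760) (nat_lit 0) (XT.nd (nat_lit 78) (nat_lit 304) (nat_lit 0) (XT.lf (nat_lit 0) (nat_lit 1554311398) (nat_lit 456) (nat_lit 5341133869) (nat_lit 76) (nat_lit 2931648168) (nat_lit 157) (nat_lit 5) (nat_lit 163) (nat_lit 5) (nat_lit 158) (nat_lit 4) (nat_lit 603) (nat_lit 484) (nat_lit 473)) (XT.lf (nat_lit 0) (nat_lit 3179055595) (nat_lit 304) (nat_lit 2931425224) (nat_lit 380) (nat_lit 3805484264) (nat_lit 153) (nat_lit 5) (nat_lit 157) (nat_lit 5) (nat_lit 158) (nat_lit 4) (nat_lit 604) (nat_lit 484) (nat_lit 472))) (XT.nd (nat_lit 78) (nat_lit 304) (nat_lit 0) (XT.lf (nat_lit 0) (nat_lit 731034755) (nat_lit 456) (nat_lit 8164477365) (nat_lit 76) (nat_lit 1111212060)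 (nat_lit 147) (nat_lit 5) (nat_lit 153) (nat_lit 5) (nat_lit 148) (nat_lit 4) (nat_lit 605) (nat_lit 484) (nat_lit 471)) (XT.lf (nat_lit 0) (nat_lit 440836269) (nat_lit 304) (nat_lit 4868998893) (nat_lit 380) (nat_lit 4788912134) (nat_lit 143) (nat_lit 5) (nat_lit 147) (nat_lit 5) (nat_lit 148) (nat_lit 4) (nat_lit 606) (nat_lit 484) (nat_lit 470)))))) (XT.nd (nat_lit 80028) (nat_lit 0) (nat_lit 4180) (XT.nd (nat_lit 234) (nat_lit 684) (nat_lit 0) (XT.nd (nat_lit 78) (nat_lit 760) (nat_lit 0) (XT.lf (nat_lit 0) (nat_lit 9223681587) (nat_lit 304) (nat_lit 746591070) (nat_lit 380) (nat_lit 222539010) (nat_lit 143) (nat_lit 5) (nat_lit 147) (nat_lit 5) (nat_lit 148) (nat_lit 4) (nat_lit 607) (nat_lit 484) (nat_lit 469)) (XT.nd (nat_lit 78) (nat_lit 304) (nat_lit 0) (XT.lf (nat_lit 0) (nat_lit 4386891761) (nat_lit 456) (nat_lit 2447429993) (nat_lit 76) (nat_lit 3453663622) (nat_lit 137) (nat_lit 5) (nat_lit 143) (nat_lit 5) (nat_lit 138) (nat_lit 4) (nat_lit 608) (nat_lit 484) (nat_lit 468)) (XT.lf (nat_lit 0) (nat_lit 6428126929) (nat_lit 304)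 (nat_lit 2647075220) (nat_lit 380) (nat_lit 1310039470) (nat_lit 133) (nat_lit 5) (nat_lit 137) (nat_lit 5) (nat_lit 138) (nat_lit 4) (nat_lit 609) (nat_lit 484) (nat_lit 467)))) (XT.nd (nat_lit 79638) (nat_lit 0) (nat_lit 7448) (XT.nd (nat_lit 78) (nat_lit 304) (nat_lit 0) (XT.lf (nat_lit 0) (nat_lit 3324734700) (nat_lit 380) (nat_lit 5526141925) (nat_lit 76) (nat_lit 1633207525) (nat_lit 128) (nat_lit 5) (nat_lit 133) (nat_lit 5) (nat_lit 129) (nat_lit 4) (nat_lit 610) (nat_lit 484) (nat_lit 466)) (XT.lf (nat_lit 0) (nat_lit 3434409086) (nat_lit 304) (nat_lit 4603727923) (nat_lit 380) (nat_lit 2546525641) (nat_lit 124) (nat_lit 5) (nat_lit 128) (nat_lit 5) (nat_lit 129) (nat_lit 4) (nat_lit 611) (nat_lit 484) (nat_lit 465))) (XT.nd (nat_lit 78) (nat_lit 0) (nat_lit 0) (XT.lf (nat_lit 0) (nat_lit 243607893) (nat_lit 532) (nat_lit 3918366180) (nat_lit 0) (nat_lit 243607893) (nat_lit 222) (nat_lit 5) (nat_lit 229) (nat_lit 4) (nat_lit 222) (nat_lit 4) (nat_lit 590) (nat_lit 485) (nat_lit 485)) (XT.lf (nat_lit 0) (nat_lit 4835536298) (nat_lit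 532) (nat_lit 166538202) (nat_lit 0) (nat_lit 3878789469) (nat_lit 222) (nat_lit 5) (nat_lit 229) (nat_lit 4) (nat_lit 222) (nat_lit 4) (nat_lit 591) (nat_lit 485) (nat_lit 484))))) (XT.nd (nat_lit 312) (nat_lit 1368) (nat_lit 0) (XT.nd (nat_lit 156) (nat_lit 912) (nat_lit 0) (XT.nd (nat_lit 78) (nat_lit 456) (nat_lit 0) (XT.lf (nat_lit 0) (nat_lit 295013824) (nat_lit 532) (nat_lit 1298805990) (nat_lit 76) (nat_lit 7358493162) (nat_lit 215) (nat_lit 5) (nat_lit 222) (nat_lit 5) (nat_lit 216) (nat_lit 4) (nat_lit 592) (nat_lit 485) (nat_lit 483)) (XT.lf (nat_lit 0) (nat_lit 4655265369) (nat_lit 532) (nat_lit 2473529138) (nat_lit 0) (nat_lit 1896119193) (nat_lit 209) (nat_lit 5) (nat_lit 216) (nat_lit 4) (nat_lit 209) (nat_lit 4) (nat_lit 593) (nat_lit 485) (nat_lit 482))) (XT.nd (nat_lit 78) (nat_lit 456) (nat_lit 0) (XT.lf (nat_lit 0) (nat_lit 5435359560) (nat_lit 456) (nat_lit 3653460078) (nat_lit 456) (nat_lit 10427720) (nat_lit 203) (nat_lit 4) (nat_lit 209) (nat_lit 5) (nat_lit 209) (nat_lit 4) (nat_lit 594) (nat_lit 485) (nat_lit 481))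 (XT.lf (nat_lit 0) (nat_lit 4285574071) (nat_lit 380) (nat_lit 68466280) (nat_lit 456) (nat_lit 4820929241) (nat_lit 197) (nat_lit 5) (nat_lit 202) (nat_lit 5) (nat_lit 203) (nat_lit 4) (nat_lit 595) (nat_lit 485) (nat_lit 480)))) (XT.nd (nat_lit 156) (nat_lit 456) (nat_lit 0) (XT.nd (nat_lit 78) (nat_lit 456) (nat_lit 0) (XT.lf (nat_lit 0) (nat_lit 3105786235) (nat_lit 456) (nat_lit 5700241906) (nat_lit 456) (nat_lit 446172060) (nat_lit 191) (nat_lit 4) (nat_lit 197) (nat_lit 5) (nat_lit 197) (nat_lit 4) (nat_lit 596) (nat_lit 485) (nat_lit 479)) (XT.lf (nat_lit 0) (nat_lit 1891273714) (nat_lit 380) (nat_lit 2050269734) (nat_lit 456) (nat_lit 5389350379) (nat_lit 185) (nat_lit 5) (nat_lit 190) (nat_lit 5) (nat_lit 191) (nat_lit 4) (nat_lit 597) (nat_lit 485) (nat_lit 478))) (XT.nd (nat_lit 78) (nat_lit 76) (nat_lit 0) (XT.lf (nat_lit 0) (nat_lit 653131605) (nat_lit 380) (nat_lit 7747331133) (nat_lit 380) (nat_lit 1010853682) (nat_lit 180) (nat_lit 4) (nat_lit 185) (nat_lit 5) (nat_lit 185) (nat_lit 4) (nat_lit 598) (nat_lit 485) (nat_lit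 477)) (XT.lf (nat_lit 0) (nat_lit 3406731382) (nat_lit 456) (nat_lit 624356170) (nat_lit 76) (nat_lit 5461877011) (nat_lit 179) (nat_lit 5) (nat_lit 185) (nat_lit 5) (nat_lit 180) (nat_lit 4) (nat_lit 599) (nat_lit 485) (nat_lit 476))))))))
noncomputable def xc2 : XT := (XT.nd (nat_lit 81666) (nat_lit 0) (nat_lit 0) (XT.nd (nat_lit 80496) (nat_lit 0) (nat_lit 1748) (XT.nd (nat_lit 546) (nat_lit 1748) (nat_lit 0) (XT.nd (nat_lit 234) (nat_lit 1216) (nat_lit 0) (XT.nd (nat_lit 78) (nat_lit 836) (nat_lit 0) (XT.lf (nat_lit 0) (nat_lit 7663760914) (nat_lit 380) (nat_lit 219458305) (nat_lit 456) (nat_lit 1693213494) (nat_lit 174) (nat_lit 5) (nat_lit 179) (nat_lit 5) (nat_lit 180) (nat_lit 4) (nat_lit 600) (nat_lit 485) (nat_lit 475)) (XT.nd (nat_lit 78) (nat_lit 380) (nat_lit 0) (XT.lf (nat_lit 0) (nat_lit 2755574046) (nat_lit 456) (nat_lit 3257209372) (nat_lit 76) (nat_lit 3648337765) (nat_lit 168) (nat_lit 5) (nat_lit 174) (nat_lit 5) (nat_lit 169) (nat_lit 4) (nat_lit 601) (nat_lit 485) (nat_lit 474)) (XT.lf (nat_lit 0) (nat_lit 5117074743)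 (nat_lit 380) (nat_lit 2136103809) (nat_lit 456) (nat_lit 2494453027) (nat_lit 163) (nat_lit 5) (nat_lit 168) (nat_lit 5) (nat_lit 169) (nat_lit 4) (nat_lit 602) (nat_lit 485) (nat_lit 473)))) (XT.nd (nat_lit 156) (nat_lit 456) (nat_lit 0) (XT.nd (nat_lit 78) (nat_lit 304) (nat_lit 0) (XT.lf (nat_lit 0) (nat_lit 1972283758) (nat_lit 456) (nat_lit 6046657549) (nat_lit 76) (nat_lit 1816798419) (nat_lit 157) (nat_lit 5) (nat_lit 163) (nat_lit 5) (nat_lit 158) (nat_lit 4) (nat_lit 603) (nat_lit 485) (nat_lit 472)) (XT.lf (nat_lit 0) (nat_lit 2412315122) (nat_lit 304) (nat_lit 4079200286) (nat_lit 380) (nat_lit 3433835778) (nat_lit 153) (nat_lit 5) (nat_lit 157) (nat_lit 5) (nat_lit 158) (nat_lit 4) (nat_lit 604) (nat_lit 485) (nat_lit 471))) (XT.nd (nat_lit 78) (nat_lit 0) (nat_lit 0) (XT.lf (nat_lit 0) (nat_lit 1008887750) (nat_lit 380) (nat_lit 44277894) (nat_lit 456) (nat_lit 8963790263) (nat_lit 147) (nat_lit 5) (nat_lit 152) (nat_lit 5) (nat_lit 153) (nat_lit 5) (nat_lit 605) (nat_lit 485) (nat_lit 470)) (XT.lf (nat_lit 0) (nat_lit 5597111649)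 (nat_lit 456) (nat_lit 459667453) (nat_lit 76) (nat_lit 4052898006) (nat_lit 147) (nat_lit 5) (nat_lit 153) (nat_lit 5) (nat_lit 148) (nat_lit 4) (nat_lit 606) (nat_lit 485) (nat_lit 469))))) (XT.nd (nat_lit 312) (nat_lit 304) (nat_lit 0) (XT.nd (nat_lit 156) (nat_lit 684) (nat_lit 0) (XT.nd (nat_lit 78) (nat_lit 380) (nat_lit 0) (XT.lf (nat_lit 0) (nat_lit 18434097) (nat_lit 380) (nat_lit 1938563867) (nat_lit 76) (nat_lit 8247430842) (nat_lit 142) (nat_lit 5) (nat_lit 147) (nat_lit 5) (nat_lit 143) (nat_lit 5) (nat_lit 607) (nat_lit 485) (nat_lit 468)) (XT.lf (nat_lit 0) (nat_lit 4579202817) (nat_lit 456) (nat_lit 3486697412) (nat_lit 76) (nat_lit 2234589195) (nat_lit 137) (nat_lit 5) (nat_lit 143) (nat_lit 5) (nat_lit 138) (nat_lit 4) (nat_lit 608) (nat_lit 485) (nat_lit 467))) (XT.nd (nat_lit 78) (nat_lit 380) (nat_lit 0) (XT.lf (nat_lit 0) (nat_lit 5323726272) (nat_lit 304) (nat_lit 3905768828) (nat_lit 380) (nat_lit 1169011850) (nat_lit 133) (nat_lit 5) (nat_lit 137) (nat_lit 5) (nat_lit 138) (nat_lit 4) (nat_lit 609) (nat_lit 485)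 (nat_lit 466)) (XT.lf (nat_lit 0) (nat_lit 3417100438) (nat_lit 380) (nat_lit 6716658994) (nat_lit 76) (nat_lit 364508867) (nat_lit 128) (nat_lit 5) (nat_lit 133) (nat_lit 5) (nat_lit 129) (nat_lit 4) (nat_lit 610) (nat_lit 485) (nat_lit 465)))) (XT.nd (nat_lit 79482) (nat_lit 0) (nat_lit 7448) (XT.nd (nat_lit 79404) (nat_lit 0) (nat_lit 8512) (XT.lf (nat_lit 0) (nat_lit 2176521239) (nat_lit 304) (nat_lit 5915188736) (nat_lit 380) (nat_lit 2507913546) (nat_lit 124) (nat_lit 5) (nat_lit 128) (nat_lit 5) (nat_lit 129) (nat_lit 4) (nat_lit 611) (nat_lit 485) (nat_lit 464)) (XT.lf (nat_lit 0) (nat_lit 803507322) (nat_lit 532) (nat_lit 2730405778) (nat_lit 0) (nat_lit 803507322) (nat_lit 236) (nat_lit 5) (nat_lit 243) (nat_lit 4) (nat_lit 236) (nat_lit 4) (nat_lit 588) (nat_lit 486) (nat_lit 486))) (XT.nd (nat_lit 78) (nat_lit 532) (nat_lit 0) (XT.lf (nat_lit 0) (nat_lit 2072353456) (nat_lit 532) (nat_lit 3832757399) (nat_lit 532) (nat_lit 2837357998) (nat_lit 229) (nat_lit 4) (nat_lit 236) (nat_lit 5) (nat_lit 236) (nat_lit 4) (nat_lit 589)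 (nat_lit 486) (nat_lit 485)) (XT.lf (nat_lit 0) (nat_lit 920254008) (nat_lit 456) (nat_lit 511199048) (nat_lit 532) (nat_lit 7380345309) (nat_lit 222) (nat_lit 5) (nat_lit 228) (nat_lit 5) (nat_lit 229) (nat_lit 4) (nat_lit 590) (nat_lit 486) (nat_lit 484)))))) (XT.nd (nat_lit 546) (nat_lit 2888) (nat_lit 0) (XT.nd (nat_lit 234) (nat_lit 1824) (nat_lit 0) (XT.nd (nat_lit 78) (nat_lit 988) (nat_lit 0) (XT.lf (nat_lit 0) (nat_lit 5742176545) (nat_lit 532) (nat_lit 268514442) (nat_lit 0) (nat_lit 2871560863) (nat_lit 222) (nat_lit 5) (nat_lit 229) (nat_lit 4) (nat_lit 222) (nat_lit 4) (nat_lit 591) (nat_lit 486) (nat_lit 483)) (XT.nd (nat_lit 78) (nat_lit 456) (nat_lit 0) (XT.lf (nat_lit 0) (nat_lit 1153560654) (nat_lit 532) (nat_lit 1460018343) (nat_lit 76) (nat_lit 6340702421) (nat_lit 215) (nat_lit 5) (nat_lit 222) (nat_lit 5) (nat_lit 216) (nat_lit 4) (nat_lit 592) (nat_lit 486) (nat_lit 482)) (XT.lf (nat_lit 0) (nat_lit 5472202449) (nat_lit 532) (nat_lit 2683090049) (nat_lit 0) (nat_lit 872423261) (nat_lit 209) (nat_lit 5) (nat_lit 216)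 (nat_lit 4) (nat_lit 209) (nat_lit 4) (nat_lit 593) (nat_lit 486) (nat_lit 481)))) (XT.nd (nat_lit 156) (nat_lit 912) (nat_lit 0) (XT.nd (nat_lit 78) (nat_lit 380) (nat_lit 0) (XT.lf (nat_lit 0) (nat_lit 757970937) (nat_lit 532) (nat_lit 3935232974) (nat_lit 76) (nat_lit 4409446422) (nat_lit 202) (nat_lit 5) (nat_lit 209) (nat_lit 5) (nat_lit 203) (nat_lit 4) (nat_lit 594) (nat_lit 486) (nat_lit 480)) (XT.lf (nat_lit 0) (nat_lit 3959928918) (nat_lit 380) (nat_lit 1127114146) (nat_lit 456) (nat_lit 4092034673) (nat_lit 197) (nat_lit 5) (nat_lit 202) (nat_lit 5) (nat_lit 203) (nat_lit 4) (nat_lit 595) (nat_lit 486) (nat_lit 479))) (XT.nd (nat_lit 78) (nat_lit 380) (nat_lit 0) (XT.lf (nat_lit 0) (nat_lit 236479227) (nat_lit 532) (nat_lit 6530943100) (nat_lit 76) (nat_lit 2489701301) (nat_lit 190) (nat_lit 5) (nat_lit 197) (nat_lit 5) (nat_lit 191) (nat_lit 4) (nat_lit 596) (nat_lit 486) (nat_lit 478)) (XT.lf (nat_lit 0) (nat_lit 1447742267) (nat_lit 380) (nat_lit 3134899492) (nat_lit 456) (nat_lit 4753832849) (nat_lit 185) (nat_lit 5) (nat_lit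 190) (nat_lit 5) (nat_lit 191) (nat_lit 4) (nat_lit 597) (nat_lit 486) (nat_lit 477))))) (XT.nd (nat_lit 312) (nat_lit 1596) (nat_lit 0) (XT.nd (nat_lit 156) (nat_lit 836) (nat_lit 0) (XT.nd (nat_lit 78) (nat_lit 76) (nat_lit 0) (XT.lf (nat_lit 0) (nat_lit 154019989) (nat_lit 380) (nat_lit 8844642584) (nat_lit 380) (nat_lit 419093837) (nat_lit 180) (nat_lit 4) (nat_lit 185) (nat_lit 5) (nat_lit 185) (nat_lit 4) (nat_lit 598) (nat_lit 486) (nat_lit 476)) (XT.lf (nat_lit 0) (nat_lit 3958213126) (nat_lit 456) (nat_lit 1184346577) (nat_lit 76) (nat_lit 4357419540) (nat_lit 179) (nat_lit 5) (nat_lit 185) (nat_lit 5) (nat_lit 180) (nat_lit 4) (nat_lit 599) (nat_lit 486) (nat_lit 475))) (XT.nd (nat_lit 78) (nat_lit 456) (nat_lit 0) (XT.lf (nat_lit 0) (nat_lit 7046064699) (nat_lit 380) (nat_lit 1352746295) (nat_lit 456) (nat_lit 1185355364) (nat_lit 174) (nat_lit 5) (nat_lit 179) (nat_lit 5) (nat_lit 180) (nat_lit 4) (nat_lit 600) (nat_lit 486) (nat_lit 474)) (XT.lf (nat_lit 0) (nat_lit 3213041502) (nat_lit 456) (nat_lit 3945566004) (nat_lit 76)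 (nat_lit 2511057098) (nat_lit 168) (nat_lit 5) (nat_lit 174) (nat_lit 5) (nat_lit 169) (nat_lit 4) (nat_lit 601) (nat_lit 486) (nat_lit 473)))) (XT.nd (nat_lit 156) (nat_lit 760) (nat_lit 0) (XT.nd (nat_lit 78) (nat_lit 456) (nat_lit 0) (XT.lf (nat_lit 0) (nat_lit 4369017844) (nat_lit 380) (nat_lit 3305173198) (nat_lit 456) (nat_lit 2082714158) (nat_lit 163) (nat_lit 5) (nat_lit 168) (nat_lit 5) (nat_lit 169) (nat_lit 4) (nat_lit 602) (nat_lit 486) (nat_lit 472)) (XT.lf (nat_lit 0) (nat_lit 2334057207) (nat_lit 456) (nat_lit 6869636626) (nat_lit 76) (nat_lit 642158412) (nat_lit 157) (nat_lit 5) (nat_lit 163) (nat_lit 5) (nat_lit 158) (nat_lit 4) (nat_lit 603) (nat_lit 486) (nat_lit 471))) (XT.nd (nat_lit 78) (nat_lit 456) (nat_lit 0) (XT.lf (nat_lit 0) (nat_lit 1527574818) (nat_lit 304) (nat_lit 5288636793) (nat_lit 380) (nat_lit 3119994675) (nat_lit 153) (nat_lit 5) (nat_lit 157) (nat_lit 5) (nat_lit 158) (nat_lit 4) (nat_lit 604) (nat_lit 486) (nat_lit 470)) (XT.lf (nat_lit 0) (nat_lit 48413905) (nat_lit 380) (nat_lit 1276992078) (nat_lit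 456) (nat_lit 8703114961) (nat_lit 147) (nat_lit 5) (nat_lit 152) (nat_lit 5) (nat_lit 153) (nat_lit 5) (nat_lit 605) (nat_lit 486) (nat_lit 469))))))) (XT.nd (nat_lit 80340) (nat_lit 0) (nat_lit 684) (XT.nd (nat_lit 79716) (nat_lit 0) (nat_lit 5928) (XT.nd (nat_lit 234) (nat_lit 988) (nat_lit 0) (XT.nd (nat_lit 78) (nat_lit 760) (nat_lit 0) (XT.lf (nat_lit 0) (nat_lit 5830265332) (nat_lit 456) (nat_lit 1474113291) (nat_lit 76) (nat_lit 2817646232) (nat_lit 147) (nat_lit 5) (nat_lit 153) (nat_lit 5) (nat_lit 148) (nat_lit 4) (nat_lit 606) (nat_lit 486) (nat_lit 468)) (XT.nd (nat_lit 78) (nat_lit 380) (nat_lit 0) (XT.lf (nat_lit 0) (nat_lit 198622297) (nat_lit 380) (nat_lit 3030853669) (nat_lit 76) (nat_lit 6988027289) (nat_lit 142) (nat_lit 5) (nat_lit 147) (nat_lit 5) (nat_lit 143) (nat_lit 5) (nat_lit 607) (nat_lit 486) (nat_lit 467)) (XT.lf (nat_lit 0) (nat_lit 4713047935) (nat_lit 456) (nat_lit 4649060806) (nat_lit 76) (nat_lit 952382914) (nat_lit 137) (nat_lit 5) (nat_lit 143) (nat_lit 5) (nat_lit 138) (nat_lit 4) (nat_lit 608) (nat_lit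 486) (nat_lit 466)))) (XT.nd (nat_lit 156) (nat_lit 304) (nat_lit 0) (XT.nd (nat_lit 78) (nat_lit 380) (nat_lit 0) (XT.lf (nat_lit 0) (nat_lit 4095600071) (nat_lit 304) (nat_lit 5229523588) (nat_lit 380) (nat_lit 1088150756) (nat_lit 133) (nat_lit 5) (nat_lit 137) (nat_lit 5) (nat_lit 138) (nat_lit 4) (nat_lit 609) (nat_lit 486) (nat_lit 465)) (XT.lf (nat_lit 0) (nat_lit 2473720574) (nat_lit 304) (nat_lit 982105422) (nat_lit 380) (nat_lit 7058021635) (nat_lit 128) (nat_lit 5) (nat_lit 132) (nat_lit 5) (nat_lit 133) (nat_lit 5) (nat_lit 610) (nat_lit 486) (nat_lit 464))) (XT.nd (nat_lit 79248) (nat_lit 0) (nat_lit 9576) (XT.lf (nat_lit 0) (nat_lit 791387541) (nat_lit 304) (nat_lit 7293653081) (nat_lit 380) (nat_lit 2531070980) (nat_lit 124) (nat_lit 5) (nat_lit 128) (nat_lit 5) (nat_lit 129) (nat_lit 4) (nat_lit 611) (nat_lit 486) (nat_lit 463)) (XT.lf (nat_lit 0) (nat_lit 1367522052) (nat_lit 608) (nat_lit 1536441842) (nat_lit 0) (nat_lit 1367522052) (nat_lit 250) (nat_lit 5) (nat_lit 258) (nat_lit 4) (nat_lit 250) (nat_lit 4) (nat_lit 586)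 (nat_lit 487) (nat_lit 487))))) (XT.nd (nat_lit 312) (nat_lit 1520) (nat_lit 0) (XT.nd (nat_lit 156) (nat_lit 1064) (nat_lit 0) (XT.nd (nat_lit 78) (nat_lit 532) (nat_lit 0) (XT.lf (nat_lit 0) (nat_lit 4327690076) (nat_lit 532) (nat_lit 2658225740) (nat_lit 532) (nat_lit 1622612203) (nat_lit 243) (nat_lit 4) (nat_lit 250) (nat_lit 5) (nat_lit 250) (nat_lit 4) (nat_lit 587) (nat_lit 487) (nat_lit 486)) (XT.lf (nat_lit 0) (nat_lit 2587665400) (nat_lit 532) (nat_lit 5510911569) (nat_lit 0) (nat_lit 576958610) (nat_lit 236) (nat_lit 5) (nat_lit 243) (nat_lit 4) (nat_lit 236) (nat_lit 4) (nat_lit 588) (nat_lit 487) (nat_lit 485))) (XT.nd (nat_lit 78) (nat_lit 532) (nat_lit 0) (XT.lf (nat_lit 0) (nat_lit 1971817233) (nat_lit 532) (nat_lit 4879314539) (nat_lit 532) (nat_lit 1892725983) (nat_lit 229) (nat_lit 4) (nat_lit 236) (nat_lit 5) (nat_lit 236) (nat_lit 4) (nat_lit 589) (nat_lit 487) (nat_lit 484)) (XT.lf (nat_lit 0) (nat_lit 760859313) (nat_lit 456) (nat_lit 1567949942) (nat_lit 532) (nat_lit 6484954593) (nat_lit 222) (nat_lit 5) (nat_lit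 228) (nat_lit 5) (nat_lit 229) (nat_lit 4) (nat_lit 590) (nat_lit 487) (nat_lit 483)))) (XT.nd (nat_lit 156) (nat_lit 988) (nat_lit 0) (XT.nd (nat_lit 78) (nat_lit 532) (nat_lit 0) (XT.lf (nat_lit 0) (nat_lit 6599065755) (nat_lit 532) (nat_lit 472506911) (nat_lit 0) (nat_lit 1813455488) (nat_lit 222) (nat_lit 5) (nat_lit 229) (nat_lit 4) (nat_lit 222) (nat_lit 4) (nat_lit 591) (nat_lit 487) (nat_lit 482)) (XT.lf (nat_lit 0) (nat_lit 1961632880) (nat_lit 532) (nat_lit 1724675754) (nat_lit 76) (nat_lit 5271336379) (nat_lit 215) (nat_lit 5) (nat_lit 222) (nat_lit 5) (nat_lit 216) (nat_lit 4) (nat_lit 592) (nat_lit 487) (nat_lit 481))) (XT.nd (nat_lit 78) (nat_lit 532) (nat_lit 0) (XT.lf (nat_lit 0) (nat_lit 6033017707) (nat_lit 456) (nat_lit 206624897) (nat_lit 532) (nat_lit 2792250786) (nat_lit 209) (nat_lit 5) (nat_lit 215) (nat_lit 5) (nat_lit 216) (nat_lit 4) (nat_lit 593) (nat_lit 487) (nat_lit 480)) (XT.lf (nat_lit 0) (nat_lit 1474645416) (nat_lit 532) (nat_lit 4312996096) (nat_lit 76) (nat_lit 3319820235) (nat_lit 202) (nat_lit 5) (nat_lit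 209) (nat_lit 5) (nat_lit 203) (nat_lit 4) (nat_lit 594) (nat_lit 487) (nat_lit 479)))))) (XT.nd (nat_lit 546) (nat_lit 2660) (nat_lit 0) (XT.nd (nat_lit 234) (nat_lit 1292) (nat_lit 0) (XT.nd (nat_lit 78) (nat_lit 912) (nat_lit 0) (XT.lf (nat_lit 0) (nat_lit 3527512837) (nat_lit 380) (nat_lit 2240902195) (nat_lit 456) (nat_lit 3416181484) (nat_lit 197) (nat_lit 5) (nat_lit 202) (nat_lit 5) (nat_lit 203) (nat_lit 4) (nat_lit 595) (nat_lit 487) (nat_lit 478)) (XT.nd (nat_lit 78) (nat_lit 380) (nat_lit 0) (XT.lf (nat_lit 0) (nat_lit 860515148) (nat_lit 532) (nat_lit 7027700316) (nat_lit 76) (nat_lit 1375199511) (nat_lit 190) (nat_lit 5) (nat_lit 197) (nat_lit 5) (nat_lit 191) (nat_lit 4) (nat_lit 596) (nat_lit 487) (nat_lit 477)) (XT.lf (nat_lit 0) (nat_lit 894425780) (nat_lit 380) (nat_lit 4276481314) (nat_lit 456) (nat_lit 4172575511) (nat_lit 185) (nat_lit 5) (nat_lit 190) (nat_lit 5) (nat_lit 191) (nat_lit 4) (nat_lit 597) (nat_lit 487) (nat_lit 476)))) (XT.nd (nat_lit 156) (nat_lit 836) (nat_lit 0) (XT.nd (nat_lit 78) (nat_lit 380) (nat_lit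 0) (XT.lf (nat_lit 0) (nat_lit 123163872) (nat_lit 456) (nat_lit 454987461) (nat_lit 76) (nat_lit 8847330663) (nat_lit 184) (nat_lit 5) (nat_lit 190) (nat_lit 5) (nat_lit 185) (nat_lit 5) (nat_lit 598) (nat_lit 487) (nat_lit 475)) (XT.lf (nat_lit 0) (nat_lit 4456327965) (nat_lit 456) (nat_lit 1855738106) (nat_lit 76) (nat_lit 3196358432) (nat_lit 179) (nat_lit 5) (nat_lit 185) (nat_lit 5) (nat_lit 180) (nat_lit 4) (nat_lit 599) (nat_lit 487) (nat_lit 474))) (XT.nd (nat_lit 78) (nat_lit 456) (nat_lit 0) (XT.lf (nat_lit 0) (nat_lit 6316472465) (nat_lit 380) (nat_lit 2544461984) (nat_lit 456) (nat_lit 732398141) (nat_lit 174) (nat_lit 5) (nat_lit 179) (nat_lit 5) (nat_lit 180) (nat_lit 4) (nat_lit 600) (nat_lit 487) (nat_lit 473)) (XT.lf (nat_lit 0) (nat_lit 3615830176) (nat_lit 456) (nat_lit 4748466290) (nat_lit 76) (nat_lit 1315361212) (nat_lit 168) (nat_lit 5) (nat_lit 174) (nat_lit 5) (nat_lit 169) (nat_lit 4) (nat_lit 601) (nat_lit 487) (nat_lit 472))))) (XT.nd (nat_lit 312) (nat_lit 1444) (nat_lit 0) (XT.nd (nat_lit 156) (nat_lit 380)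 (nat_lit 0) (XT.nd (nat_lit 78) (nat_lit 456) (nat_lit 0) (XT.lf (nat_lit 0) (nat_lit 3505886288) (nat_lit 380) (nat_lit 4534510890) (nat_lit 456) (nat_lit 1727233824) (nat_lit 163) (nat_lit 5) (nat_lit 168) (nat_lit 5) (nat_lit 169) (nat_lit 4) (nat_lit 602) (nat_lit 487) (nat_lit 471)) (XT.lf (nat_lit 0) (nat_lit 2043063576) (nat_lit 380) (nat_lit 600609597) (nat_lit 456) (nat_lit 7213683794) (nat_lit 157) (nat_lit 5) (nat_lit 162) (nat_lit 5) (nat_lit 163) (nat_lit 5) (nat_lit 603) (nat_lit 487) (nat_lit 470))) (XT.nd (nat_lit 78) (nat_lit 76) (nat_lit 0) (XT.lf (nat_lit 0) (nat_lit 524487726) (nat_lit 304) (nat_lit 6560209035) (nat_lit 380) (nat_lit 2863837880) (nat_lit 153) (nat_lit 5) (nat_lit 157) (nat_lit 5) (nat_lit 158) (nat_lit 4) (nat_lit 604) (nat_lit 487) (nat_lit 469)) (XT.lf (nat_lit 0) (nat_lit 1547252972) (nat_lit 380) (nat_lit 1018558450) (nat_lit 76) (nat_lit 7475624595) (nat_lit 152) (nat_lit 5) (nat_lit 157) (nat_lit 5) (nat_lit 153) (nat_lit 5) (nat_lit 605) (nat_lit 487) (nat_lit 468)))) (XT.nd (nat_lit 156) (nat_lit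 684) (nat_lit 0) (XT.nd (nat_lit 78) (nat_lit 380) (nat_lit 0) (XT.lf (nat_lit 0) (nat_lit 6006525444) (nat_lit 456) (nat_lit 2608680711) (nat_lit 76) (nat_lit 1520646469) (nat_lit 147) (nat_lit 5) (nat_lit 153) (nat_lit 5) (nat_lit 148) (nat_lit 4) (nat_lit 606) (nat_lit 487) (nat_lit 467)) (XT.lf (nat_lit 0) (nat_lit 321014891) (nat_lit 380) (nat_lit 4244982963) (nat_lit 76) (nat_lit 5666071186) (nat_lit 142) (nat_lit 5) (nat_lit 147) (nat_lit 5) (nat_lit 143) (nat_lit 5) (nat_lit 607) (nat_lit 487) (nat_lit 466))) (XT.nd (nat_lit 78) (nat_lit 304) (nat_lit 0) (XT.lf (nat_lit 0) (nat_lit 4392381247) (nat_lit 380) (nat_lit 398686895) (nat_lit 456) (nat_lit 5538877649) (nat_lit 137) (nat_lit 5) (nat_lit 142) (nat_lit 5) (nat_lit 143) (nat_lit 5) (nat_lit 608) (nat_lit 487) (nat_lit 465)) (XT.lf (nat_lit 0) (nat_lit 2743266708) (nat_lit 304) (nat_lit 6618858620) (nat_lit 380) (nat_lit 1067424478) (nat_lit 133) (nat_lit 5) (nat_lit 137) (nat_lit 5) (nat_lit 138) (nat_lit 4) (nat_lit 609) (nat_lit 487) (nat_lit 464))))))))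
noncomputable def xc3 : XT := (XT.nd (nat_lit 160212) (nat_lit 0) (nat_lit 0) (XT.nd (nat_lit 80184) (nat_lit 0) (nat_lit 0) (XT.nd (nat_lit 79560) (nat_lit 0) (nat_lit 4712) (XT.nd (nat_lit 79248) (nat_lit 0) (nat_lit 8208) (XT.nd (nat_lit 78) (nat_lit 0) (nat_lit 0) (XT.lf (nat_lit 0) (nat_lit 1037383719) (nat_lit 304) (nat_lit 2399993250) (nat_lit 380) (nat_lit 7093522280) (nat_lit 128) (nat_lit 5) (nat_lit 132) (nat_lit 5) (nat_lit 133) (nat_lit 5) (nat_lit 610) (nat_lit 487) (nat_lit 463)) (XT.nd (nat_lit 79092) (nat_lit 0) (nat_lit 10412) (XT.lf (nat_lit 0) (nat_lit 8022811020) (nat_lit 380) (nat_lit 712072132) (nat_lit 76) (nat_lit 1899156514) (nat_lit 128) (nat_lit 5) (nat_lit 133) (nat_lit 5) (nat_lit 129) (nat_lit 4) (nat_lit 611) (nat_lit 487) (nat_lit 462)) (XT.lf (nat_lit 0) (nat_lit 1936769030) (nat_lit 608) (nat_lit 334221037) (nat_lit 0) (nat_lit 1936769030) (nat_lit 265) (nat_lit 5) (nat_lit 273) (nat_lit 4) (nat_lit 265) (nat_lit 4) (nat_lit 584) (nat_lit 488) (nat_lit 488)))) (XT.nd (nat_lit 156) (nat_lit 1064) (nat_lit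 0) (XT.nd (nat_lit 78) (nat_lit 608) (nat_lit 0) (XT.lf (nat_lit 0) (nat_lit 6601784279) (nat_lit 532) (nat_lit 1477345271) (nat_lit 532) (nat_lit 399892947) (nat_lit 258) (nat_lit 4) (nat_lit 265) (nat_lit 5) (nat_lit 265) (nat_lit 4) (nat_lit 585) (nat_lit 488) (nat_lit 487)) (XT.lf (nat_lit 0) (nat_lit 3756998870) (nat_lit 608) (nat_lit 3121602587) (nat_lit 0) (nat_lit 1665059526) (nat_lit 250) (nat_lit 5) (nat_lit 258) (nat_lit 4) (nat_lit 250) (nat_lit 4) (nat_lit 586) (nat_lit 488) (nat_lit 486))) (XT.nd (nat_lit 78) (nat_lit 532) (nat_lit 0) (XT.lf (nat_lit 0) (nat_lit 4229925344) (nat_lit 532) (nat_lit 3743613384) (nat_lit 532) (nat_lit 636366650) (nat_lit 243) (nat_lit 4) (nat_lit 250) (nat_lit 5) (nat_lit 250) (nat_lit 4) (nat_lit 587) (nat_lit 488) (nat_lit 485)) (XT.lf (nat_lit 0) (nat_lit 3013014034) (nat_lit 456) (nat_lit 509590009) (nat_lit 532) (nat_lit 5154949841) (nat_lit 236) (nat_lit 5) (nat_lit 242) (nat_lit 5) (nat_lit 243) (nat_lit 4) (nat_lit 588) (nat_lit 488) (nat_lit 484))))) (XT.nd (nat_lit 312) (nat_lit 1900)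 (nat_lit 0) (XT.nd (nat_lit 156) (nat_lit 532) (nat_lit 0) (XT.nd (nat_lit 78) (nat_lit 532) (nat_lit 0) (XT.lf (nat_lit 0) (nat_lit 1770705360) (nat_lit 532) (nat_lit 5977439833) (nat_lit 532) (nat_lit 998490911) (nat_lit 229) (nat_lit 4) (nat_lit 236) (nat_lit 5) (nat_lit 236) (nat_lit 4) (nat_lit 589) (nat_lit 488) (nat_lit 483)) (XT.lf (nat_lit 0) (nat_lit 499454457) (nat_lit 456) (nat_lit 2676976466) (nat_lit 532) (nat_lit 5640694344) (nat_lit 222) (nat_lit 5) (nat_lit 228) (nat_lit 5) (nat_lit 229) (nat_lit 4) (nat_lit 590) (nat_lit 488) (nat_lit 482))) (XT.nd (nat_lit 78) (nat_lit 532) (nat_lit 0) (XT.lf (nat_lit 0) (nat_lit 7406539962) (nat_lit 532) (nat_lit 778595609) (nat_lit 0) (nat_lit 704058401) (nat_lit 222) (nat_lit 5) (nat_lit 229) (nat_lit 4) (nat_lit 222) (nat_lit 4) (nat_lit 591) (nat_lit 488) (nat_lit 481)) (XT.lf (nat_lit 0) (nat_lit 2719547392) (nat_lit 532) (nat_lit 2092882011) (nat_lit 76) (nat_lit 4149975677) (nat_lit 215) (nat_lit 5) (nat_lit 222) (nat_lit 5) (nat_lit 216) (nat_lit 4) (nat_lit 592) (nat_lit 488)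 (nat_lit 480)))) (XT.nd (nat_lit 156) (nat_lit 912) (nat_lit 0) (XT.nd (nat_lit 78) (nat_lit 532) (nat_lit 0) (XT.lf (nat_lit 0) (nat_lit 5611596758) (nat_lit 456) (nat_lit 1351036698) (nat_lit 532) (nat_lit 2074719843) (nat_lit 209) (nat_lit 5) (nat_lit 215) (nat_lit 5) (nat_lit 216) (nat_lit 4) (nat_lit 593) (nat_lit 488) (nat_lit 479)) (XT.lf (nat_lit 0) (nat_lit 2140013527) (nat_lit 532) (nat_lit 4797257605) (nat_lit 76) (nat_lit 2176413710) (nat_lit 202) (nat_lit 5) (nat_lit 209) (nat_lit 5) (nat_lit 203) (nat_lit 4) (nat_lit 594) (nat_lit 488) (nat_lit 478))) (XT.nd (nat_lit 78) (nat_lit 532) (nat_lit 0) (XT.lf (nat_lit 0) (nat_lit 2988156252) (nat_lit 380) (nat_lit 3410267207) (nat_lit 456) (nat_lit 2793104634) (nat_lit 197) (nat_lit 5) (nat_lit 202) (nat_lit 5) (nat_lit 203) (nat_lit 4) (nat_lit 595) (nat_lit 488) (nat_lit 477)) (XT.lf (nat_lit 0) (nat_lit 1432032049) (nat_lit 532) (nat_lit 7633983576) (nat_lit 76) (nat_lit 205119021) (nat_lit 190) (nat_lit 5) (nat_lit 197) (nat_lit 5) (nat_lit 191) (nat_lit 4) (nat_lit 596) (nat_lit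 488) (nat_lit 476)))))) (XT.nd (nat_lit 546) (nat_lit 2204) (nat_lit 0) (XT.nd (nat_lit 234) (nat_lit 1672) (nat_lit 0) (XT.nd (nat_lit 78) (nat_lit 456) (nat_lit 0) (XT.lf (nat_lit 0) (nat_lit 231107267) (nat_lit 380) (nat_lit 5475462879) (nat_lit 456) (nat_lit 3645350421) (nat_lit 185) (nat_lit 5) (nat_lit 190) (nat_lit 5) (nat_lit 191) (nat_lit 4) (nat_lit 597) (nat_lit 488) (nat_lit 475)) (XT.nd (nat_lit 78) (nat_lit 380) (nat_lit 0) (XT.lf (nat_lit 0) (nat_lit 612025908) (nat_lit 456) (nat_lit 1178603845) (nat_lit 76) (nat_lit 7643851878) (nat_lit 184) (nat_lit 5) (nat_lit 190) (nat_lit 5) (nat_lit 185) (nat_lit 5) (nat_lit 598) (nat_lit 488) (nat_lit 474)) (XT.lf (nat_lit 0) (nat_lit 4901271239) (nat_lit 456) (nat_lit 2638794048) (nat_lit 76) (nat_lit 1978238371) (nat_lit 179) (nat_lit 5) (nat_lit 185) (nat_lit 5) (nat_lit 180) (nat_lit 4) (nat_lit 599) (nat_lit 488) (nat_lit 473)))) (XT.nd (nat_lit 156) (nat_lit 836) (nat_lit 0) (XT.nd (nat_lit 78) (nat_lit 456) (nat_lit 0) (XT.lf (nat_lit 0) (nat_lit 5474698097) (nat_lit 380) (nat_lit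 3795072713) (nat_lit 456) (nat_lit 334164195) (nat_lit 174) (nat_lit 5) (nat_lit 179) (nat_lit 5) (nat_lit 180) (nat_lit 4) (nat_lit 600) (nat_lit 488) (nat_lit 472)) (XT.lf (nat_lit 0) (nat_lit 3964098023) (nat_lit 456) (nat_lit 5666225093) (nat_lit 76) (nat_lit 60781206) (nat_lit 168) (nat_lit 5) (nat_lit 174) (nat_lit 5) (nat_lit 169) (nat_lit 4) (nat_lit 601) (nat_lit 488) (nat_lit 471))) (XT.nd (nat_lit 78) (nat_lit 456) (nat_lit 0) (XT.lf (nat_lit 0) (nat_lit 2527341593) (nat_lit 380) (nat_lit 5824598978) (nat_lit 456) (nat_lit 1427872622) (nat_lit 163) (nat_lit 5) (nat_lit 168) (nat_lit 5) (nat_lit 169) (nat_lit 4) (nat_lit 602) (nat_lit 488) (nat_lit 470)) (XT.lf (nat_lit 0) (nat_lit 988522424) (nat_lit 380) (nat_lit 1913453864) (nat_lit 456) (nat_lit 6968267651) (nat_lit 157) (nat_lit 5) (nat_lit 162) (nat_lit 5) (nat_lit 163) (nat_lit 5) (nat_lit 603) (nat_lit 488) (nat_lit 469))))) (XT.nd (nat_lit 312) (nat_lit 1064) (nat_lit 0) (XT.nd (nat_lit 156) (nat_lit 760) (nat_lit 0) (XT.nd (nat_lit 78) (nat_lit 380) (nat_lit 0) (XT.lf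 (nat_lit 0) (nat_lit 7300954470) (nat_lit 456) (nat_lit 589505306) (nat_lit 76) (nat_lit 2071803742) (nat_lit 157) (nat_lit 5) (nat_lit 163) (nat_lit 5) (nat_lit 158) (nat_lit 4) (nat_lit 604) (nat_lit 488) (nat_lit 468)) (XT.lf (nat_lit 0) (nat_lit 1713186368) (nat_lit 380) (nat_lit 2203774362) (nat_lit 76) (nat_lit 6138857607) (nat_lit 152) (nat_lit 5) (nat_lit 157) (nat_lit 5) (nat_lit 153) (nat_lit 5) (nat_lit 605) (nat_lit 488) (nat_lit 467))) (XT.nd (nat_lit 78) (nat_lit 380) (nat_lit 0) (XT.lf (nat_lit 0) (nat_lit 6125961105) (nat_lit 456) (nat_lit 3863814642) (nat_lit 76) (nat_lit 161390089) (nat_lit 147) (nat_lit 5) (nat_lit 153) (nat_lit 5) (nat_lit 148) (nat_lit 4) (nat_lit 606) (nat_lit 488) (nat_lit 466)) (XT.lf (nat_lit 0) (nat_lit 385659876) (nat_lit 380) (nat_lit 5581427879) (nat_lit 76) (nat_lit 4281044117) (nat_lit 142) (nat_lit 5) (nat_lit 147) (nat_lit 5) (nat_lit 143) (nat_lit 5) (nat_lit 607) (nat_lit 488) (nat_lit 465)))) (XT.nd (nat_lit 156) (nat_lit 380) (nat_lit 0) (XT.nd (nat_lit 78) (nat_lit 304) (nat_lit 0) (XT.lf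 (nat_lit 0) (nat_lit 2989963760) (nat_lit 380) (nat_lit 1827428518) (nat_lit 456) (nat_lit 5529383646) (nat_lit 137) (nat_lit 5) (nat_lit 142) (nat_lit 5) (nat_lit 143) (nat_lit 5) (nat_lit 608) (nat_lit 488) (nat_lit 464)) (XT.lf (nat_lit 0) (nat_lit 1266195856) (nat_lit 304) (nat_lit 8074318760) (nat_lit 380) (nat_lit 1106824887) (nat_lit 133) (nat_lit 5) (nat_lit 137) (nat_lit 5) (nat_lit 138) (nat_lit 4) (nat_lit 609) (nat_lit 488) (nat_lit 463))) (XT.nd (nat_lit 78) (nat_lit 304) (nat_lit 0) (XT.lf (nat_lit 0) (nat_lit 3362760054) (nat_lit 380) (nat_lit 518626212) (nat_lit 76) (nat_lit 6668023296) (nat_lit 132) (nat_lit 5) (nat_lit 137) (nat_lit 5) (nat_lit 133) (nat_lit 5) (nat_lit 610) (nat_lit 488) (nat_lit 462)) (XT.lf (nat_lit 0) (nat_lit 7906281998) (nat_lit 380) (nat_lit 2331851202) (nat_lit 76) (nat_lit 415255838) (nat_lit 128) (nat_lit 5) (nat_lit 133) (nat_lit 5) (nat_lit 129) (nat_lit 4) (nat_lit 611) (nat_lit 488) (nat_lit 461))))))) (XT.nd (nat_lit 1170) (nat_lit 4712) (nat_lit 0) (XT.nd (nat_lit 546) (nat_lit 3496) (nat_lit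 0) (XT.nd (nat_lit 234) (nat_lit 2204) (nat_lit 0) (XT.nd (nat_lit 78) (nat_lit 608) (nat_lit 0) (XT.lf (nat_lit 0) (nat_lit 890145572) (nat_lit 608) (nat_lit 1627980759) (nat_lit 608) (nat_lit 1627980759) (nat_lit 273) (nat_lit 4) (nat_lit 281) (nat_lit 5) (nat_lit 281) (nat_lit 4) (nat_lit 582) (nat_lit 489) (nat_lit 489)) (XT.nd (nat_lit 78) (nat_lit 0) (nat_lit 0) (XT.lf (nat_lit 0) (nat_lit 546928588) (nat_lit 532) (nat_lit 278769424) (nat_lit 608) (nat_lit 7528038745) (nat_lit 265) (nat_lit 5) (nat_lit 272) (nat_lit 5) (nat_lit 273) (nat_lit 4) (nat_lit 583) (nat_lit 489) (nat_lit 488)) (XT.lf (nat_lit 0) (nat_lit 4938432463) (nat_lit 608) (nat_lit 715790835) (nat_lit 0) (nat_lit 2761978769) (nat_lit 265) (nat_lit 5) (nat_lit 273) (nat_lit 4) (nat_lit 265) (nat_lit 4) (nat_lit 584) (nat_lit 489) (nat_lit 487)))) (XT.nd (nat_lit 156) (nat_lit 1064) (nat_lit 0) (XT.nd (nat_lit 78) (nat_lit 532) (nat_lit 0) (XT.lf (nat_lit 0) (nat_lit 621322624) (nat_lit 608) (nat_lit 1977707800) (nat_lit 76) (nat_lit 5881276997) (nat_lit 257) (nat_lit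 5) (nat_lit 265) (nat_lit 5) (nat_lit 258) (nat_lit 4) (nat_lit 585) (nat_lit 489) (nat_lit 486)) (XT.lf (nat_lit 0) (nat_lit 4731324589) (nat_lit 608) (nat_lit 3267778396) (nat_lit 0) (nat_lit 546625531) (nat_lit 250) (nat_lit 5) (nat_lit 258) (nat_lit 4) (nat_lit 250) (nat_lit 4) (nat_lit 586) (nat_lit 489) (nat_lit 485))) (XT.nd (nat_lit 78) (nat_lit 456) (nat_lit 0) (XT.lf (nat_lit 0) (nat_lit 296951353) (nat_lit 608) (nat_lit 4580256724) (nat_lit 76) (nat_lit 3735413487) (nat_lit 242) (nat_lit 5) (nat_lit 250) (nat_lit 5) (nat_lit 243) (nat_lit 4) (nat_lit 587) (nat_lit 489) (nat_lit 484)) (XT.lf (nat_lit 0) (nat_lit 2758307212) (nat_lit 456) (nat_lit 1654706370) (nat_lit 532) (nat_lit 4267866643) (nat_lit 236) (nat_lit 5) (nat_lit 242) (nat_lit 5) (nat_lit 243) (nat_lit 4) (nat_lit 588) (nat_lit 489) (nat_lit 483))))) (XT.nd (nat_lit 312) (nat_lit 1900) (nat_lit 0) (XT.nd (nat_lit 156) (nat_lit 532) (nat_lit 0) (XT.nd (nat_lit 78) (nat_lit 532) (nat_lit 0) (XT.lf (nat_lit 0) (nat_lit 1468938972) (nat_lit 532) (nat_lit 7127563918) (nat_lit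 532) (nat_lit 154302102) (nat_lit 229) (nat_lit 4) (nat_lit 236) (nat_lit 5) (nat_lit 236) (nat_lit 4) (nat_lit 589) (nat_lit 489) (nat_lit 482)) (XT.lf (nat_lit 0) (nat_lit 135936928) (nat_lit 456) (nat_lit 3838713531) (nat_lit 532) (nat_lit 4847233477) (nat_lit 222) (nat_lit 5) (nat_lit 228) (nat_lit 5) (nat_lit 229) (nat_lit 4) (nat_lit 590) (nat_lit 489) (nat_lit 481))) (XT.nd (nat_lit 78) (nat_lit 532) (nat_lit 0) (XT.lf (nat_lit 0) (nat_lit 7704783219) (nat_lit 456) (nat_lit 463139614) (nat_lit 532) (nat_lit 726767963) (nat_lit 222) (nat_lit 5) (nat_lit 228) (nat_lit 5) (nat_lit 229) (nat_lit 4) (nat_lit 591) (nat_lit 489) (nat_lit 480)) (XT.lf (nat_lit 0) (nat_lit 3427601411) (nat_lit 532) (nat_lit 2564781509) (nat_lit 76) (nat_lit 2976180567) (nat_lit 215) (nat_lit 5) (nat_lit 222) (nat_lit 5) (nat_lit 216) (nat_lit 4) (nat_lit 592) (nat_lit 489) (nat_lit 479)))) (XT.nd (nat_lit 156) (nat_lit 912) (nat_lit 0) (XT.nd (nat_lit 78) (nat_lit 532) (nat_lit 0) (XT.lf (nat_lit 0) (nat_lit 5086052018) (nat_lit 456) (nat_lit 2549666884) (nat_lit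 532) (nat_lit 1408493516) (nat_lit 209) (nat_lit 5) (nat_lit 215) (nat_lit 5) (nat_lit 216) (nat_lit 4) (nat_lit 593) (nat_lit 489) (nat_lit 478)) (XT.lf (nat_lit 0) (nat_lit 2754336197) (nat_lit 532) (nat_lit 5388207405) (nat_lit 76) (nat_lit 978778455) (nat_lit 202) (nat_lit 5) (nat_lit 209) (nat_lit 5) (nat_lit 203) (nat_lit 4) (nat_lit 594) (nat_lit 489) (nat_lit 477))) (XT.nd (nat_lit 78) (nat_lit 532) (nat_lit 0) (XT.lf (nat_lit 0) (nat_lit 2341647652) (nat_lit 380) (nat_lit 4635667756) (nat_lit 456) (nat_lit 2222559779) (nat_lit 197) (nat_lit 5) (nat_lit 202) (nat_lit 5) (nat_lit 203) (nat_lit 4) (nat_lit 595) (nat_lit 489) (nat_lit 476)) (XT.lf (nat_lit 0) (nat_lit 923403589) (nat_lit 456) (nat_lit 1034567564) (nat_lit 532) (nat_lit 7322180172) (nat_lit 190) (nat_lit 5) (nat_lit 196) (nat_lit 5) (nat_lit 197) (nat_lit 5) (nat_lit 596) (nat_lit 489) (nat_lit 475)))))) (XT.nd (nat_lit 546) (nat_lit 2584) (nat_lit 0) (XT.nd (nat_lit 234) (nat_lit 1292) (nat_lit 0) (XT.nd (nat_lit 78) (nat_lit 836) (nat_lit 0) (XT.lf (nat_lit 0) (nat_lit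 6193363076) (nat_lit 532) (nat_lit 535358760) (nat_lit 76) (nat_lit 2632999524) (nat_lit 190) (nat_lit 5) (nat_lit 197) (nat_lit 5) (nat_lit 191) (nat_lit 4) (nat_lit 597) (nat_lit 489) (nat_lit 474)) (XT.nd (nat_lit 78) (nat_lit 380) (nat_lit 0) (XT.lf (nat_lit 0) (nat_lit 1048385019) (nat_lit 456) (nat_lit 2012616441) (nat_lit 76) (nat_lit 6383907714) (nat_lit 184) (nat_lit 5) (nat_lit 190) (nat_lit 5) (nat_lit 185) (nat_lit 5) (nat_lit 598) (nat_lit 489) (nat_lit 473)) (XT.lf (nat_lit 0) (nat_lit 5293217435) (nat_lit 456) (nat_lit 3533821485) (nat_lit 76) (nat_lit 702581661) (nat_lit 179) (nat_lit 5) (nat_lit 185) (nat_lit 5) (nat_lit 180) (nat_lit 4) (nat_lit 599) (nat_lit 489) (nat_lit 472)))) (XT.nd (nat_lit 156) (nat_lit 456) (nat_lit 0) (XT.nd (nat_lit 78) (nat_lit 380) (nat_lit 0) (XT.lf (nat_lit 0) (nat_lit 9378013) (nat_lit 456) (nat_lit 5095627971) (nat_lit 76) (nat_lit 4510970542) (nat_lit 173) (nat_lit 5) (nat_lit 179) (nat_lit 5) (nat_lit 174) (nat_lit 5) (nat_lit 600) (nat_lit 489) (nat_lit 471)) (XT.lf (nat_lit 0) (nat_lit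 2996397246) (nat_lit 380) (nat_lit 1269828945) (nat_lit 456) (nat_lit 5437617945) (nat_lit 168) (nat_lit 5) (nat_lit 173) (nat_lit 5) (nat_lit 174) (nat_lit 5) (nat_lit 601) (nat_lit 489) (nat_lit 470))) (XT.nd (nat_lit 78) (nat_lit 76) (nat_lit 0) (XT.lf (nat_lit 0) (nat_lit 1433000016) (nat_lit 380) (nat_lit 7175943379) (nat_lit 456) (nat_lit 1184513155) (nat_lit 163) (nat_lit 5) (nat_lit 168) (nat_lit 5) (nat_lit 169) (nat_lit 4) (nat_lit 602) (nat_lit 489) (nat_lit 469)) (XT.lf (nat_lit 0) (nat_lit 3106034605) (nat_lit 456) (nat_lit 181105363) (nat_lit 76) (nat_lit 6597438912) (nat_lit 162) (nat_lit 5) (nat_lit 168) (nat_lit 5) (nat_lit 163) (nat_lit 5) (nat_lit 603) (nat_lit 489) (nat_lit 468))))) (XT.nd (nat_lit 312) (nat_lit 1064) (nat_lit 0) (XT.nd (nat_lit 156) (nat_lit 760) (nat_lit 0) (XT.nd (nat_lit 78) (nat_lit 380) (nat_lit 0) (XT.lf (nat_lit 0) (nat_lit 7465368817) (nat_lit 456) (nat_lit 1814236609) (nat_lit 76) (nat_lit 697786889) (nat_lit 157) (nat_lit 5) (nat_lit 163) (nat_lit 5) (nat_lit 158) (nat_lit 4) (nat_lit 604)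 (nat_lit 489) (nat_lit 467)) (XT.lf (nat_lit 0) (nat_lit 1822956909) (nat_lit 380) (nat_lit 3508333578) (nat_lit 76) (nat_lit 4740389342) (nat_lit 152) (nat_lit 5) (nat_lit 157) (nat_lit 5) (nat_lit 153) (nat_lit 5) (nat_lit 605) (nat_lit 489) (nat_lit 466))) (XT.nd (nat_lit 78) (nat_lit 380) (nat_lit 0) (XT.lf (nat_lit 0) (nat_lit 4919503540) (nat_lit 380) (nat_lit 1277409403) (nat_lit 456) (nat_lit 3970891681) (nat_lit 147) (nat_lit 5) (nat_lit 152) (nat_lit 5) (nat_lit 153) (nat_lit 5) (nat_lit 606) (nat_lit 489) (nat_lit 465)) (XT.lf (nat_lit 0) (nat_lit 392582604) (nat_lit 380) (nat_lit 7040712513) (nat_lit 76) (nat_lit 2832402934) (nat_lit 142) (nat_lit 5) (nat_lit 147) (nat_lit 5) (nat_lit 143) (nat_lit 5) (nat_lit 607) (nat_lit 489) (nat_lit 464)))) (XT.nd (nat_lit 156) (nat_lit 684) (nat_lit 0) (XT.nd (nat_lit 78) (nat_lit 0) (nat_lit 0) (XT.lf (nat_lit 0) (nat_lit 1464019411) (nat_lit 380) (nat_lit 3321745578) (nat_lit 456) (nat_lit 5579348981) (nat_lit 137) (nat_lit 5) (nat_lit 142) (nat_lit 5) (nat_lit 143) (nat_lit 5) (nat_lit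 608) (nat_lit 489) (nat_lit 463)) (XT.lf (nat_lit 0) (nat_lit 9262465829) (nat_lit 456) (nat_lit 331782512) (nat_lit 76) (nat_lit 872358488) (nat_lit 137) (nat_lit 5) (nat_lit 143) (nat_lit 5) (nat_lit 138) (nat_lit 4) (nat_lit 609) (nat_lit 489) (nat_lit 462))) (XT.nd (nat_lit 78) (nat_lit 304) (nat_lit 0) (XT.lf (nat_lit 0) (nat_lit 3236093742) (nat_lit 380) (nat_lit 2186540955) (nat_lit 76) (nat_lit 5146668176) (nat_lit 132) (nat_lit 5) (nat_lit 137) (nat_lit 5) (nat_lit 133) (nat_lit 5) (nat_lit 610) (nat_lit 489) (nat_lit 461)) (XT.lf (nat_lit 0) (nat_lit 6587689802) (nat_lit 304) (nat_lit 1150046709) (nat_lit 380) (nat_lit 2936384222) (nat_lit 128) (nat_lit 5) (nat_lit 132) (nat_lit 5) (nat_lit 133) (nat_lit 5) (nat_lit 611) (nat_lit 489) (nat_lit 460))))))))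
noncomputable def xc4 : XT := (XT.nd (nat_lit 2340) (nat_lit 380) (nat_lit 0) (XT.nd (nat_lit 1170) (nat_lit 4940) (nat_lit 0) (XT.nd (nat_lit 546) (nat_lit 3648) (nat_lit 0) (XT.nd (nat_lit 234) (nat_lit 1748) (nat_lit 0) (XT.nd (nat_lit 78) (nat_lit 1292) (nat_lit 0) (XT.lf (nat_lit 0) (nat_lit 2131776923) (nat_lit 608) (nat_lit 977403991) (nat_lit 608) (nat_lit 977403991) (nat_lit 290) (nat_lit 4) (nat_lit 298) (nat_lit 5) (nat_lit 298) (nat_lit 4) (nat_lit 580) (nat_lit 490) (nat_lit 490)) (XT.nd (nat_lit 78) (nat_lit 608) (nat_lit 0) (XT.lf (nat_lit 0) (nat_lit 2076994046) (nat_lit 684) (nat_lit 5221804964) (nat_lit 0) (nat_lit 933593021) (nat_lit 281) (nat_lit 5) (nat_lit 290) (nat_lit 4) (nat_lit 281) (nat_lit 4) (nat_lit 581) (nat_lit 490) (nat_lit 489)) (XT.lf (nat_lit 0) (nat_lit 1733691254) (nat_lit 608) (nat_lit 4411795250) (nat_lit 608) (nat_lit 2147412826) (nat_lit 273) (nat_lit 4) (nat_lit 281) (nat_lit 5) (nat_lit 281) (nat_lit 4) (nat_lit 582) (nat_lit 490) (nat_lit 488)))) (XT.nd (nat_lit 156) (nat_lit 1140) (nat_lit 0)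 (XT.nd (nat_lit 78) (nat_lit 0) (nat_lit 0) (XT.lf (nat_lit 0) (nat_lit 444972915) (nat_lit 532) (nat_lit 1440352187) (nat_lit 608) (nat_lit 6469642244) (nat_lit 265) (nat_lit 5) (nat_lit 272) (nat_lit 5) (nat_lit 273) (nat_lit 4) (nat_lit 583) (nat_lit 490) (nat_lit 487)) (XT.lf (nat_lit 0) (nat_lit 5957079585) (nat_lit 608) (nat_lit 857855685) (nat_lit 0) (nat_lit 1603318686) (nat_lit 265) (nat_lit 5) (nat_lit 273) (nat_lit 4) (nat_lit 265) (nat_lit 4) (nat_lit 584) (nat_lit 490) (nat_lit 486))) (XT.nd (nat_lit 78) (nat_lit 532) (nat_lit 0) (XT.lf (nat_lit 0) (nat_lit 1590341509) (nat_lit 608) (nat_lit 2176884586) (nat_lit 76) (nat_lit 4715687711) (nat_lit 257) (nat_lit 5) (nat_lit 265) (nat_lit 5) (nat_lit 258) (nat_lit 4) (nat_lit 585) (nat_lit 490) (nat_lit 485)) (XT.lf (nat_lit 0) (nat_lit 5033541670) (nat_lit 532) (nat_lit 628945208) (nat_lit 608) (nat_lit 2886606758) (nat_lit 250) (nat_lit 5) (nat_lit 257) (nat_lit 5) (nat_lit 258) (nat_lit 4) (nat_lit 586) (nat_lit 490) (nat_lit 484))))) (XT.nd (nat_lit 312) (nat_lit 1976) (nat_lit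 0) (XT.nd (nat_lit 156) (nat_lit 608) (nat_lit 0) (XT.nd (nat_lit 78) (nat_lit 456) (nat_lit 0) (XT.lf (nat_lit 0) (nat_lit 1173947205) (nat_lit 608) (nat_lit 4883608239) (nat_lit 76) (nat_lit 2559084964) (nat_lit 242) (nat_lit 5) (nat_lit 250) (nat_lit 5) (nat_lit 243) (nat_lit 4) (nat_lit 587) (nat_lit 490) (nat_lit 483)) (XT.lf (nat_lit 0) (nat_lit 2404275354) (nat_lit 456) (nat_lit 2851172060) (nat_lit 532) (nat_lit 3430144405) (nat_lit 236) (nat_lit 5) (nat_lit 242) (nat_lit 5) (nat_lit 243) (nat_lit 4) (nat_lit 588) (nat_lit 490) (nat_lit 482))) (XT.nd (nat_lit 78) (nat_lit 0) (nat_lit 0) (XT.lf (nat_lit 0) (nat_lit 631775535) (nat_lit 608) (nat_lit 7694122742) (nat_lit 76) (nat_lit 430384644) (nat_lit 228) (nat_lit 5) (nat_lit 236) (nat_lit 5) (nat_lit 229) (nat_lit 4) (nat_lit 589) (nat_lit 490) (nat_lit 481)) (XT.lf (nat_lit 0) (nat_lit 4725922403) (nat_lit 608) (nat_lit 325509974) (nat_lit 76) (nat_lit 3776566514) (nat_lit 228) (nat_lit 5) (nat_lit 236) (nat_lit 5) (nat_lit 229) (nat_lit 4) (nat_lit 590) (nat_lit 490) (nat_lit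 480)))) (XT.nd (nat_lit 156) (nat_lit 988) (nat_lit 0) (XT.nd (nat_lit 78) (nat_lit 532) (nat_lit 0) (XT.lf (nat_lit 0) (nat_lit 7192910248) (nat_lit 456) (nat_lit 1692569781) (nat_lit 532) (nat_lit 16001413) (nat_lit 222) (nat_lit 5) (nat_lit 228) (nat_lit 5) (nat_lit 229) (nat_lit 4) (nat_lit 591) (nat_lit 490) (nat_lit 479)) (XT.lf (nat_lit 0) (nat_lit 4086072607) (nat_lit 532) (nat_lit 3140559305) (nat_lit 76) (nat_lit 1749490736) (nat_lit 215) (nat_lit 5) (nat_lit 222) (nat_lit 5) (nat_lit 216) (nat_lit 4) (nat_lit 592) (nat_lit 490) (nat_lit 478))) (XT.nd (nat_lit 78) (nat_lit 532) (nat_lit 0) (XT.lf (nat_lit 0) (nat_lit 4456177392) (nat_lit 456) (nat_lit 3802985506) (nat_lit 532) (nat_lit 793310539) (nat_lit 209) (nat_lit 5) (nat_lit 215) (nat_lit 5) (nat_lit 216) (nat_lit 4) (nat_lit 593) (nat_lit 490) (nat_lit 477)) (XT.lf (nat_lit 0) (nat_lit 3042463447) (nat_lit 456) (nat_lit 277190597) (nat_lit 532) (nat_lit 5810686351) (nat_lit 202) (nat_lit 5) (nat_lit 208) (nat_lit 5) (nat_lit 209) (nat_lit 5) (nat_lit 594) (nat_lit 490) (nat_lit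 476)))))) (XT.nd (nat_lit 546) (nat_lit 2356) (nat_lit 0) (XT.nd (nat_lit 234) (nat_lit 1672) (nat_lit 0) (XT.nd (nat_lit 78) (nat_lit 532) (nat_lit 0) (XT.lf (nat_lit 0) (nat_lit 1587733502) (nat_lit 380) (nat_lit 5917584391) (nat_lit 456) (nat_lit 1704323176) (nat_lit 197) (nat_lit 5) (nat_lit 202) (nat_lit 5) (nat_lit 203) (nat_lit 4) (nat_lit 595) (nat_lit 490) (nat_lit 475)) (XT.nd (nat_lit 78) (nat_lit 0) (nat_lit 0) (XT.lf (nat_lit 0) (nat_lit 99290717) (nat_lit 456) (nat_lit 2334249560) (nat_lit 532) (nat_lit 6857028242) (nat_lit 190) (nat_lit 5) (nat_lit 196) (nat_lit 5) (nat_lit 197) (nat_lit 5) (nat_lit 596) (nat_lit 490) (nat_lit 474)) (XT.lf (nat_lit 0) (nat_lit 6630171671) (nat_lit 532) (nat_lit 1407909205) (nat_lit 76) (nat_lit 1334834056) (nat_lit 190) (nat_lit 5) (nat_lit 197) (nat_lit 5) (nat_lit 191) (nat_lit 4) (nat_lit 597) (nat_lit 490) (nat_lit 473)))) (XT.nd (nat_lit 156) (nat_lit 836) (nat_lit 0) (XT.nd (nat_lit 78) (nat_lit 380) (nat_lit 0) (XT.lf (nat_lit 0) (nat_lit 1432412323) (nat_lit 456) (nat_lit 2957352314)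 (nat_lit 76) (nat_lit 5067004076) (nat_lit 184) (nat_lit 5) (nat_lit 190) (nat_lit 5) (nat_lit 185) (nat_lit 5) (nat_lit 598) (nat_lit 490) (nat_lit 472)) (XT.lf (nat_lit 0) (nat_lit 4996973210) (nat_lit 380) (nat_lit 639499099) (nat_lit 456) (nat_lit 3905824359) (nat_lit 179) (nat_lit 5) (nat_lit 184) (nat_lit 5) (nat_lit 185) (nat_lit 5) (nat_lit 599) (nat_lit 490) (nat_lit 471))) (XT.nd (nat_lit 78) (nat_lit 380) (nat_lit 0) (XT.lf (nat_lit 0) (nat_lit 294819153) (nat_lit 456) (nat_lit 6178166772) (nat_lit 76) (nat_lit 3156440859) (nat_lit 173) (nat_lit 5) (nat_lit 179) (nat_lit 5) (nat_lit 174) (nat_lit 5) (nat_lit 600) (nat_lit 490) (nat_lit 470)) (XT.lf (nat_lit 0) (nat_lit 1852945096) (nat_lit 380) (nat_lit 2661934160) (nat_lit 456) (nat_lit 5203151936) (nat_lit 168) (nat_lit 5) (nat_lit 173) (nat_lit 5) (nat_lit 174) (nat_lit 5) (nat_lit 601) (nat_lit 490) (nat_lit 469))))) (XT.nd (nat_lit 312) (nat_lit 1140) (nat_lit 0) (XT.nd (nat_lit 156) (nat_lit 760) (nat_lit 0) (XT.nd (nat_lit 78) (nat_lit 76) (nat_lit 0) (XT.lf (nat_lit 0)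 (nat_lit 222432404) (nat_lit 380) (nat_lit 8589074032) (nat_lit 456) (nat_lit 997059987) (nat_lit 163) (nat_lit 5) (nat_lit 168) (nat_lit 5) (nat_lit 169) (nat_lit 4) (nat_lit 602) (nat_lit 490) (nat_lit 468)) (XT.lf (nat_lit 0) (nat_lit 3261920169) (nat_lit 456) (nat_lit 1454174581) (nat_lit 76) (nat_lit 5184152822) (nat_lit 162) (nat_lit 5) (nat_lit 168) (nat_lit 5) (nat_lit 163) (nat_lit 5) (nat_lit 603) (nat_lit 490) (nat_lit 467))) (XT.nd (nat_lit 78) (nat_lit 380) (nat_lit 0) (XT.lf (nat_lit 0) (nat_lit 6831979707) (nat_lit 380) (nat_lit 747472337) (nat_lit 456) (nat_lit 2414445968) (nat_lit 157) (nat_lit 5) (nat_lit 162) (nat_lit 5) (nat_lit 163) (nat_lit 5) (nat_lit 604) (nat_lit 490) (nat_lit 466)) (XT.lf (nat_lit 0) (nat_lit 1876607643) (nat_lit 380) (nat_lit 4932747689) (nat_lit 76) (nat_lit 3279671384) (nat_lit 152) (nat_lit 5) (nat_lit 157) (nat_lit 5) (nat_lit 153) (nat_lit 5) (nat_lit 605) (nat_lit 490) (nat_lit 465)))) (XT.nd (nat_lit 156) (nat_lit 380) (nat_lit 0) (XT.nd (nat_lit 78) (nat_lit 380) (nat_lit 0) (XT.lf (nat_lit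 0) (nat_lit 3430047415) (nat_lit 380) (nat_lit 2782542861) (nat_lit 456) (nat_lit 3973321604) (nat_lit 147) (nat_lit 5) (nat_lit 152) (nat_lit 5) (nat_lit 153) (nat_lit 5) (nat_lit 606) (nat_lit 490) (nat_lit 464)) (XT.lf (nat_lit 0) (nat_lit 341785789) (nat_lit 380) (nat_lit 8623409133) (nat_lit 76) (nat_lit 1319579544) (nat_lit 142) (nat_lit 5) (nat_lit 147) (nat_lit 5) (nat_lit 143) (nat_lit 5) (nat_lit 607) (nat_lit 490) (nat_lit 463))) (XT.nd (nat_lit 78) (nat_lit 380) (nat_lit 0) (XT.lf (nat_lit 0) (nat_lit 4697381835) (nat_lit 380) (nat_lit 183610125) (nat_lit 76) (nat_lit 5503951002) (nat_lit 142) (nat_lit 5) (nat_lit 147) (nat_lit 5) (nat_lit 143) (nat_lit 5) (nat_lit 608) (nat_lit 490) (nat_lit 462)) (XT.lf (nat_lit 0) (nat_lit 8445177513) (nat_lit 380) (nat_lit 694132683) (nat_lit 456) (nat_lit 1347821908) (nat_lit 137) (nat_lit 5) (nat_lit 142) (nat_lit 5) (nat_lit 143) (nat_lit 5) (nat_lit 609) (nat_lit 490) (nat_lit 461))))))) (XT.nd (nat_lit 79794) (nat_lit 0) (nat_lit 1140) (XT.nd (nat_lit 79170) (nat_lit 0) (nat_lit 6764)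 (XT.nd (nat_lit 78858) (nat_lit 0) (nat_lit 10108) (XT.nd (nat_lit 78702) (nat_lit 0) (nat_lit 12616) (XT.lf (nat_lit 0) (nat_lit 3050592979) (nat_lit 380) (nat_lit 3980620067) (nat_lit 76) (nat_lit 3559508645) (nat_lit 132) (nat_lit 5) (nat_lit 137) (nat_lit 5) (nat_lit 133) (nat_lit 5) (nat_lit 610) (nat_lit 490) (nat_lit 460)) (XT.nd (nat_lit 78) (nat_lit 684) (nat_lit 0) (XT.lf (nat_lit 0) (nat_lit 3388420169) (nat_lit 684) (nat_lit 320401638) (nat_lit 684) (nat_lit 320401638) (nat_lit 307) (nat_lit 4) (nat_lit 316) (nat_lit 5) (nat_lit 316) (nat_lit 4) (nat_lit 578) (nat_lit 491) (nat_lit 491)) (XT.lf (nat_lit 0) (nat_lit 3344873089) (nat_lit 684) (nat_lit 2615191769) (nat_lit 0) (nat_lit 2155278662) (nat_lit 298) (nat_lit 5) (nat_lit 307) (nat_lit 4) (nat_lit 298) (nat_lit 4) (nat_lit 579) (nat_lit 491) (nat_lit 490)))) (XT.nd (nat_lit 156) (nat_lit 1216) (nat_lit 0) (XT.nd (nat_lit 78) (nat_lit 684) (nat_lit 0) (XT.lf (nat_lit 0) (nat_lit 4218322713) (nat_lit 608) (nat_lit 3155695603) (nat_lit 608) (nat_lit 799832130) (nat_lit 290)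 (nat_lit 4) (nat_lit 298) (nat_lit 5) (nat_lit 298) (nat_lit 4) (nat_lit 580) (nat_lit 491) (nat_lit 489)) (XT.lf (nat_lit 0) (nat_lit 2917345101) (nat_lit 608) (nat_lit 259194304) (nat_lit 684) (nat_lit 5057190745) (nat_lit 281) (nat_lit 5) (nat_lit 289) (nat_lit 5) (nat_lit 290) (nat_lit 4) (nat_lit 581) (nat_lit 491) (nat_lit 488))) (XT.nd (nat_lit 78) (nat_lit 608) (nat_lit 0) (XT.lf (nat_lit 0) (nat_lit 1593873308) (nat_lit 608) (nat_lit 5615367287) (nat_lit 608) (nat_lit 1085714448) (nat_lit 273) (nat_lit 4) (nat_lit 281) (nat_lit 5) (nat_lit 281) (nat_lit 4) (nat_lit 582) (nat_lit 491) (nat_lit 487)) (XT.lf (nat_lit 0) (nat_lit 248396465) (nat_lit 532) (nat_lit 2650366717) (nat_lit 608) (nat_lit 5458810432) (nat_lit 265) (nat_lit 5) (nat_lit 272) (nat_lit 5) (nat_lit 273) (nat_lit 4) (nat_lit 583) (nat_lit 491) (nat_lit 486))))) (XT.nd (nat_lit 312) (nat_lit 1596) (nat_lit 0) (XT.nd (nat_lit 156) (nat_lit 1140) (nat_lit 0) (XT.nd (nat_lit 78) (nat_lit 608) (nat_lit 0) (XT.lf (nat_lit 0) (nat_lit 6929878896) (nat_lit 608) (nat_lit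 1094692335) (nat_lit 0) (nat_lit 397103434) (nat_lit 265) (nat_lit 5) (nat_lit 273) (nat_lit 4) (nat_lit 265) (nat_lit 4) (nat_lit 584) (nat_lit 491) (nat_lit 485)) (XT.lf (nat_lit 0) (nat_lit 2512788384) (nat_lit 608) (nat_lit 2472250314) (nat_lit 76) (nat_lit 3501855906) (nat_lit 257) (nat_lit 5) (nat_lit 265) (nat_lit 5) (nat_lit 258) (nat_lit 4) (nat_lit 585) (nat_lit 491) (nat_lit 484))) (XT.nd (nat_lit 78) (nat_lit 608) (nat_lit 0) (XT.lf (nat_lit 0) (nat_lit 4688904749) (nat_lit 532) (nat_lit 1861781884) (nat_lit 608) (nat_lit 2003074314) (nat_lit 250) (nat_lit 5) (nat_lit 257) (nat_lit 5) (nat_lit 258) (nat_lit 4) (nat_lit 586) (nat_lit 491) (nat_lit 483)) (XT.lf (nat_lit 0) (nat_lit 2003310886) (nat_lit 608) (nat_lit 5286021829) (nat_lit 76) (nat_lit 1332713405) (nat_lit 242) (nat_lit 5) (nat_lit 250) (nat_lit 5) (nat_lit 243) (nat_lit 4) (nat_lit 587) (nat_lit 491) (nat_lit 482)))) (XT.nd (nat_lit 156) (nat_lit 532) (nat_lit 0) (XT.nd (nat_lit 78) (nat_lit 608) (nat_lit 0) (XT.lf (nat_lit 0) (nat_lit 1950779626) (nat_lit 456) (nat_lit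 4099456281) (nat_lit 532) (nat_lit 2641454608) (nat_lit 236) (nat_lit 5) (nat_lit 242) (nat_lit 5) (nat_lit 243) (nat_lit 4) (nat_lit 588) (nat_lit 491) (nat_lit 481)) (XT.lf (nat_lit 0) (nat_lit 548298191) (nat_lit 532) (nat_lit 824126344) (nat_lit 608) (nat_lit 7390610031) (nat_lit 228) (nat_lit 5) (nat_lit 235) (nat_lit 5) (nat_lit 236) (nat_lit 5) (nat_lit 589) (nat_lit 491) (nat_lit 480))) (XT.nd (nat_lit 78) (nat_lit 532) (nat_lit 0) (XT.lf (nat_lit 0) (nat_lit 5429946707) (nat_lit 608) (nat_lit 886268433) (nat_lit 76) (nat_lit 2519269286) (nat_lit 228) (nat_lit 5) (nat_lit 236) (nat_lit 5) (nat_lit 229) (nat_lit 4) (nat_lit 590) (nat_lit 491) (nat_lit 479)) (XT.lf (nat_lit 0) (nat_lit 636737856) (nat_lit 532) (nat_lit 2334346960) (nat_lit 76) (nat_lit 5938492614) (nat_lit 221) (nat_lit 5) (nat_lit 228) (nat_lit 5) (nat_lit 222) (nat_lit 5) (nat_lit 591) (nat_lit 491) (nat_lit 478)))))) (XT.nd (nat_lit 546) (nat_lit 2812) (nat_lit 0) (XT.nd (nat_lit 234) (nat_lit 1368) (nat_lit 0) (XT.nd (nat_lit 78) (nat_lit 988) (nat_lit 0) (XT.lf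 (nat_lit 0) (nat_lit 4695219202) (nat_lit 532) (nat_lit 3820441197) (nat_lit 76) (nat_lit 469425129) (nat_lit 215) (nat_lit 5) (nat_lit 222) (nat_lit 5) (nat_lit 216) (nat_lit 4) (nat_lit 592) (nat_lit 491) (nat_lit 477)) (XT.nd (nat_lit 78) (nat_lit 532) (nat_lit 0) (XT.lf (nat_lit 0) (nat_lit 3721725871) (nat_lit 456) (nat_lit 5111484061) (nat_lit 532) (nat_lit 228929665) (nat_lit 209) (nat_lit 5) (nat_lit 215) (nat_lit 5) (nat_lit 216) (nat_lit 4) (nat_lit 593) (nat_lit 491) (nat_lit 476)) (XT.lf (nat_lit 0) (nat_lit 2239100727) (nat_lit 456) (nat_lit 1602090043) (nat_lit 532) (nat_lit 5299452580) (nat_lit 202) (nat_lit 5) (nat_lit 208) (nat_lit 5) (nat_lit 209) (nat_lit 5) (nat_lit 594) (nat_lit 491) (nat_lit 475)))) (XT.nd (nat_lit 156) (nat_lit 912) (nat_lit 0) (XT.nd (nat_lit 78) (nat_lit 76) (nat_lit 0) (XT.lf (nat_lit 0) (nat_lit 726118152) (nat_lit 380) (nat_lit 7256519825) (nat_lit 456) (nat_lit 1238191595) (nat_lit 197) (nat_lit 5) (nat_lit 202) (nat_lit 5) (nat_lit 203) (nat_lit 4) (nat_lit 595) (nat_lit 491) (nat_lit 474))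 (XT.lf (nat_lit 0) (nat_lit 2862992204) (nat_lit 456) (nat_lit 823194449) (nat_lit 76) (nat_lit 5616122332) (nat_lit 196) (nat_lit 5) (nat_lit 202) (nat_lit 5) (nat_lit 197) (nat_lit 5) (nat_lit 596) (nat_lit 491) (nat_lit 473))) (XT.nd (nat_lit 78) (nat_lit 456) (nat_lit 0) (XT.lf (nat_lit 0) (nat_lit 6995483890) (nat_lit 456) (nat_lit 20314733) (nat_lit 532) (nat_lit 2369734419) (nat_lit 190) (nat_lit 5) (nat_lit 196) (nat_lit 5) (nat_lit 197) (nat_lit 5) (nat_lit 597) (nat_lit 491) (nat_lit 472)) (XT.lf (nat_lit 0) (nat_lit 1764258422) (nat_lit 456) (nat_lit 4013181948) (nat_lit 76) (nat_lit 3692624531) (nat_lit 184) (nat_lit 5) (nat_lit 190) (nat_lit 5) (nat_lit 185) (nat_lit 5) (nat_lit 598) (nat_lit 491) (nat_lit 471))))) (XT.nd (nat_lit 312) (nat_lit 1596) (nat_lit 0) (XT.nd (nat_lit 156) (nat_lit 380) (nat_lit 0) (XT.nd (nat_lit 78) (nat_lit 456) (nat_lit 0) (XT.lf (nat_lit 0) (nat_lit 3881769349) (nat_lit 380) (nat_lit 2050254955) (nat_lit 456) (nat_lit 3624295513) (nat_lit 179) (nat_lit 5) (nat_lit 184) (nat_lit 5) (nat_lit 185)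 (nat_lit 5) (nat_lit 599) (nat_lit 491) (nat_lit 470)) (XT.lf (nat_lit 0) (nat_lit 526653786) (nat_lit 456) (nat_lit 7375108222) (nat_lit 76) (nat_lit 1742572442) (nat_lit 173) (nat_lit 5) (nat_lit 179) (nat_lit 5) (nat_lit 174) (nat_lit 5) (nat_lit 600) (nat_lit 491) (nat_lit 469))) (XT.nd (nat_lit 78) (nat_lit 0) (nat_lit 0) (XT.lf (nat_lit 0) (nat_lit 594482240) (nat_lit 380) (nat_lit 4115272613) (nat_lit 456) (nat_lit 5023924201) (nat_lit 168) (nat_lit 5) (nat_lit 173) (nat_lit 5) (nat_lit 174) (nat_lit 5) (nat_lit 601) (nat_lit 491) (nat_lit 468)) (XT.lf (nat_lit 0) (nat_lit 8733101082) (nat_lit 380) (nat_lit 235309160) (nat_lit 456) (nat_lit 856564476) (nat_lit 168) (nat_lit 5) (nat_lit 173) (nat_lit 5) (nat_lit 174) (nat_lit 5) (nat_lit 602) (nat_lit 491) (nat_lit 467)))) (XT.nd (nat_lit 156) (nat_lit 760) (nat_lit 0) (XT.nd (nat_lit 78) (nat_lit 380) (nat_lit 0) (XT.lf (nat_lit 0) (nat_lit 3363275968) (nat_lit 456) (nat_lit 2844149119) (nat_lit 76) (nat_lit 3709959434) (nat_lit 162) (nat_lit 5) (nat_lit 168) (nat_lit 5) (nat_lit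 163) (nat_lit 5) (nat_lit 603) (nat_lit 491) (nat_lit 466)) (XT.lf (nat_lit 0) (nat_lit 5378561687) (nat_lit 380) (nat_lit 2264830822) (nat_lit 456) (nat_lit 2368391696) (nat_lit 157) (nat_lit 5) (nat_lit 162) (nat_lit 5) (nat_lit 163) (nat_lit 5) (nat_lit 604) (nat_lit 491) (nat_lit 465))) (XT.nd (nat_lit 78) (nat_lit 380) (nat_lit 0) (XT.lf (nat_lit 0) (nat_lit 1874159607) (nat_lit 380) (nat_lit 6477575290) (nat_lit 76) (nat_lit 1756130900) (nat_lit 152) (nat_lit 5) (nat_lit 157) (nat_lit 5) (nat_lit 153) (nat_lit 5) (nat_lit 605) (nat_lit 491) (nat_lit 464)) (XT.lf (nat_lit 0) (nat_lit 1819481732) (nat_lit 380) (nat_lit 4352455743) (nat_lit 456) (nat_lit 4033578466) (nat_lit 147) (nat_lit 5) (nat_lit 152) (nat_lit 5) (nat_lit 153) (nat_lit 5) (nat_lit 606) (nat_lit 491) (nat_lit 463))))))))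
noncomputable def xc5 : XT := (XT.nd (nat_lit 80808) (nat_lit 0) (nat_lit 0) (XT.nd (nat_lit 79638) (nat_lit 0) (nat_lit 3116) (XT.nd (nat_lit 79014) (nat_lit 0) (nat_lit 8968) (XT.nd (nat_lit 234) (nat_lit 380) (nat_lit 0) (XT.nd (nat_lit 78) (nat_lit 684) (nat_lit 0) (XT.lf (nat_lit 0) (nat_lit 235119069) (nat_lit 456) (nat_lit 26153684) (nat_lit 76) (nat_lit 10044058452) (nat_lit 146) (nat_lit 5) (nat_lit 152) (nat_lit 5) (nat_lit 147) (nat_lit 5) (nat_lit 607) (nat_lit 491) (nat_lit 462)) (XT.nd (nat_lit 78) (nat_lit 380) (nat_lit 0) (XT.lf (nat_lit 0) (nat_lit 4561315210) (nat_lit 380) (nat_lit 1935174729) (nat_lit 76) (nat_lit 3909598594) (nat_lit 142) (nat_lit 5) (nat_lit 147) (nat_lit 5) (nat_lit 143) (nat_lit 5) (nat_lit 608) (nat_lit 491) (nat_lit 461)) (XT.lf (nat_lit 0) (nat_lit 6625795174) (nat_lit 380) (nat_lit 2338645223) (nat_lit 456) (nat_lit 1544614159) (nat_lit 137) (nat_lit 5) (nat_lit 142) (nat_lit 5) (nat_lit 143) (nat_lit 5) (nat_lit 609) (nat_lit 491) (nat_lit 460)))) (XT.nd (nat_lit 78624) (nat_lit 0) (nat_lit 13224)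 (XT.nd (nat_lit 78546) (nat_lit 0) (nat_lit 13984) (XT.lf (nat_lit 0) (nat_lit 2806185019) (nat_lit 380) (nat_lit 5901567108) (nat_lit 76) (nat_lit 1905922289) (nat_lit 132) (nat_lit 5) (nat_lit 137) (nat_lit 5) (nat_lit 133) (nat_lit 5) (nat_lit 610) (nat_lit 491) (nat_lit 459)) (XT.lf (nat_lit 0) (nat_lit 346396771) (nat_lit 684) (nat_lit 3281037743) (nat_lit 0) (nat_lit 346396771) (nat_lit 316) (nat_lit 5) (nat_lit 325) (nat_lit 4) (nat_lit 316) (nat_lit 4) (nat_lit 576) (nat_lit 492) (nat_lit 492))) (XT.nd (nat_lit 78) (nat_lit 76) (nat_lit 0) (XT.lf (nat_lit 0) (nat_lit 19465806) (nat_lit 684) (nat_lit 4610394442) (nat_lit 684) (nat_lit 3372740400) (nat_lit 307) (nat_lit 4) (nat_lit 316) (nat_lit 5) (nat_lit 316) (nat_lit 4) (nat_lit 577) (nat_lit 492) (nat_lit 491)) (XT.lf (nat_lit 0) (nat_lit 555066655) (nat_lit 760) (nat_lit 1329805712) (nat_lit 76) (nat_lit 6174178063) (nat_lit 306) (nat_lit 5) (nat_lit 316) (nat_lit 5) (nat_lit 307) (nat_lit 4) (nat_lit 578) (nat_lit 492) (nat_lit 490))))) (XT.nd (nat_lit 312) (nat_lit 1748) (nat_lit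 0) (XT.nd (nat_lit 156) (nat_lit 1216) (nat_lit 0) (XT.nd (nat_lit 78) (nat_lit 684) (nat_lit 0) (XT.lf (nat_lit 0) (nat_lit 4490297983) (nat_lit 684) (nat_lit 2705360364) (nat_lit 0) (nat_lit 921048194) (nat_lit 298) (nat_lit 5) (nat_lit 307) (nat_lit 4) (nat_lit 298) (nat_lit 4) (nat_lit 579) (nat_lit 492) (nat_lit 489)) (XT.lf (nat_lit 0) (nat_lit 305623311) (nat_lit 684) (nat_lit 4095291724) (nat_lit 76) (nat_lit 3774937372) (nat_lit 289) (nat_lit 5) (nat_lit 298) (nat_lit 5) (nat_lit 290) (nat_lit 4) (nat_lit 580) (nat_lit 492) (nat_lit 488))) (XT.nd (nat_lit 78) (nat_lit 608) (nat_lit 0) (XT.lf (nat_lit 0) (nat_lit 2725965167) (nat_lit 608) (nat_lit 1511459277) (nat_lit 684) (nat_lit 3998887184) (nat_lit 281) (nat_lit 5) (nat_lit 289) (nat_lit 5) (nat_lit 290) (nat_lit 4) (nat_lit 581) (nat_lit 492) (nat_lit 487)) (XT.lf (nat_lit 0) (nat_lit 1360782475) (nat_lit 608) (nat_lit 6867149621) (nat_lit 608) (nat_lit 70450031) (nat_lit 273) (nat_lit 4) (nat_lit 281) (nat_lit 5) (nat_lit 281) (nat_lit 4) (nat_lit 582) (nat_lit 492) (nat_lit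 486)))) (XT.nd (nat_lit 156) (nat_lit 1140) (nat_lit 0) (XT.nd (nat_lit 78) (nat_lit 532) (nat_lit 0) (XT.lf (nat_lit 0) (nat_lit 3866688067) (nat_lit 684) (nat_lit 42315500) (nat_lit 76) (nat_lit 4452547444) (nat_lit 272) (nat_lit 5) (nat_lit 281) (nat_lit 5) (nat_lit 273) (nat_lit 4) (nat_lit 583) (nat_lit 492) (nat_lit 485)) (XT.lf (nat_lit 0) (nat_lit 6994320012) (nat_lit 532) (nat_lit 868530951) (nat_lit 608) (nat_lit 563501792) (nat_lit 265) (nat_lit 5) (nat_lit 272) (nat_lit 5) (nat_lit 273) (nat_lit 4) (nat_lit 584) (nat_lit 492) (nat_lit 484))) (XT.nd (nat_lit 78) (nat_lit 532) (nat_lit 0) (XT.lf (nat_lit 0) (nat_lit 3389024990) (nat_lit 608) (nat_lit 2863920815) (nat_lit 76) (nat_lit 2239305569) (nat_lit 257) (nat_lit 5) (nat_lit 265) (nat_lit 5) (nat_lit 258) (nat_lit 4) (nat_lit 585) (nat_lit 492) (nat_lit 483)) (XT.lf (nat_lit 0) (nat_lit 4247572352) (nat_lit 532) (nat_lit 3145103595) (nat_lit 608) (nat_lit 1167128256) (nat_lit 250) (nat_lit 5) (nat_lit 257) (nat_lit 5) (nat_lit 258) (nat_lit 4) (nat_lit 586) (nat_lit 492) (nat_lit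 482)))))) (XT.nd (nat_lit 546) (nat_lit 2660) (nat_lit 0) (XT.nd (nat_lit 234) (nat_lit 2052) (nat_lit 0) (XT.nd (nat_lit 78) (nat_lit 532) (nat_lit 0) (XT.lf (nat_lit 0) (nat_lit 2785367639) (nat_lit 608) (nat_lit 5787655301) (nat_lit 76) (nat_lit 55817881) (nat_lit 242) (nat_lit 5) (nat_lit 250) (nat_lit 5) (nat_lit 243) (nat_lit 4) (nat_lit 587) (nat_lit 492) (nat_lit 481)) (XT.nd (nat_lit 78) (nat_lit 76) (nat_lit 0) (XT.lf (nat_lit 0) (nat_lit 1397642186) (nat_lit 456) (nat_lit 5400048558) (nat_lit 532) (nat_lit 1901487963) (nat_lit 236) (nat_lit 5) (nat_lit 242) (nat_lit 5) (nat_lit 243) (nat_lit 4) (nat_lit 588) (nat_lit 492) (nat_lit 480)) (XT.lf (nat_lit 0) (nat_lit 2068233897) (nat_lit 532) (nat_lit 68693120) (nat_lit 76) (nat_lit 6634190098) (nat_lit 235) (nat_lit 5) (nat_lit 242) (nat_lit 5) (nat_lit 236) (nat_lit 5) (nat_lit 589) (nat_lit 492) (nat_lit 479)))) (XT.nd (nat_lit 156) (nat_lit 988) (nat_lit 0) (XT.nd (nat_lit 78) (nat_lit 532) (nat_lit 0) (XT.lf (nat_lit 0) (nat_lit 6086116865) (nat_lit 608) (nat_lit 1548341191)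 (nat_lit 76) (nat_lit 1209903069) (nat_lit 228) (nat_lit 5) (nat_lit 236) (nat_lit 5) (nat_lit 229) (nat_lit 4) (nat_lit 590) (nat_lit 492) (nat_lit 478)) (XT.lf (nat_lit 0) (nat_lit 1240607850) (nat_lit 532) (nat_lit 3063073330) (nat_lit 76) (nat_lit 4615388892) (nat_lit 221) (nat_lit 5) (nat_lit 228) (nat_lit 5) (nat_lit 222) (nat_lit 5) (nat_lit 591) (nat_lit 492) (nat_lit 477))) (XT.nd (nat_lit 78) (nat_lit 532) (nat_lit 0) (XT.lf (nat_lit 0) (nat_lit 4384960468) (nat_lit 456) (nat_lit 876007231) (nat_lit 532) (nat_lit 3734374191) (nat_lit 215) (nat_lit 5) (nat_lit 221) (nat_lit 5) (nat_lit 222) (nat_lit 5) (nat_lit 592) (nat_lit 492) (nat_lit 476)) (XT.lf (nat_lit 0) (nat_lit 281134304) (nat_lit 532) (nat_lit 6192654824) (nat_lit 76) (nat_lit 2599388569) (nat_lit 208) (nat_lit 5) (nat_lit 215) (nat_lit 5) (nat_lit 209) (nat_lit 5) (nat_lit 593) (nat_lit 492) (nat_lit 475))))) (XT.nd (nat_lit 312) (nat_lit 1292) (nat_lit 0) (XT.nd (nat_lit 156) (nat_lit 912) (nat_lit 0) (XT.nd (nat_lit 78) (nat_lit 0) (nat_lit 0) (XT.lf (nat_lit 0) (nat_lit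 1329279567) (nat_lit 456) (nat_lit 2983432001) (nat_lit 532) (nat_lit 4839652183) (nat_lit 202) (nat_lit 5) (nat_lit 208) (nat_lit 5) (nat_lit 209) (nat_lit 5) (nat_lit 594) (nat_lit 492) (nat_lit 474)) (XT.lf (nat_lit 0) (nat_lit 8411044043) (nat_lit 532) (nat_lit 240342265) (nat_lit 76) (nat_lit 582027150) (nat_lit 202) (nat_lit 5) (nat_lit 209) (nat_lit 5) (nat_lit 203) (nat_lit 4) (nat_lit 595) (nat_lit 492) (nat_lit 473))) (XT.nd (nat_lit 78) (nat_lit 456) (nat_lit 0) (XT.lf (nat_lit 0) (nat_lit 3242434234) (nat_lit 456) (nat_lit 1852617115) (nat_lit 76) (nat_lit 4220407202) (nat_lit 196) (nat_lit 5) (nat_lit 202) (nat_lit 5) (nat_lit 197) (nat_lit 5) (nat_lit 596) (nat_lit 492) (nat_lit 472)) (XT.lf (nat_lit 0) (nat_lit 5908209866) (nat_lit 456) (nat_lit 1451211781) (nat_lit 532) (nat_lit 2039978463) (nat_lit 190) (nat_lit 5) (nat_lit 196) (nat_lit 5) (nat_lit 197) (nat_lit 5) (nat_lit 597) (nat_lit 492) (nat_lit 471)))) (XT.nd (nat_lit 156) (nat_lit 456) (nat_lit 0) (XT.nd (nat_lit 78) (nat_lit 380) (nat_lit 0) (XT.lf (nat_lit 0)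 (nat_lit 2044053449) (nat_lit 456) (nat_lit 5180519394) (nat_lit 76) (nat_lit 2260230106) (nat_lit 184) (nat_lit 5) (nat_lit 190) (nat_lit 5) (nat_lit 185) (nat_lit 5) (nat_lit 598) (nat_lit 492) (nat_lit 470)) (XT.lf (nat_lit 0) (nat_lit 2654464870) (nat_lit 380) (nat_lit 3520902201) (nat_lit 456) (nat_lit 3396420897) (nat_lit 179) (nat_lit 5) (nat_lit 184) (nat_lit 5) (nat_lit 185) (nat_lit 5) (nat_lit 599) (nat_lit 492) (nat_lit 469))) (XT.nd (nat_lit 78) (nat_lit 0) (nat_lit 0) (XT.lf (nat_lit 0) (nat_lit 704972825) (nat_lit 456) (nat_lit 8686921708) (nat_lit 76) (nat_lit 268810832) (nat_lit 173) (nat_lit 5) (nat_lit 179) (nat_lit 5) (nat_lit 174) (nat_lit 5) (nat_lit 600) (nat_lit 492) (nat_lit 468)) (XT.lf (nat_lit 0) (nat_lit 4855990336) (nat_lit 456) (nat_lit 769261752) (nat_lit 76) (nat_lit 4125440550) (nat_lit 173) (nat_lit 5) (nat_lit 179) (nat_lit 5) (nat_lit 174) (nat_lit 5) (nat_lit 601) (nat_lit 492) (nat_lit 467))))))) (XT.nd (nat_lit 79482) (nat_lit 0) (nat_lit 5320) (XT.nd (nat_lit 546) (nat_lit 760) (nat_lit 0) (XT.nd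 (nat_lit 234) (nat_lit 1140) (nat_lit 0) (XT.nd (nat_lit 78) (nat_lit 836) (nat_lit 0) (XT.lf (nat_lit 0) (nat_lit 7315290594) (nat_lit 380) (nat_lit 1766339160) (nat_lit 456) (nat_lit 761019843) (nat_lit 168) (nat_lit 5) (nat_lit 173) (nat_lit 5) (nat_lit 174) (nat_lit 5) (nat_lit 602) (nat_lit 492) (nat_lit 466)) (XT.nd (nat_lit 78) (nat_lit 380) (nat_lit 0) (XT.lf (nat_lit 0) (nat_lit 3410141749) (nat_lit 456) (nat_lit 4351574066) (nat_lit 76) (nat_lit 2174280632) (nat_lit 162) (nat_lit 5) (nat_lit 168) (nat_lit 5) (nat_lit 163) (nat_lit 5) (nat_lit 603) (nat_lit 492) (nat_lit 465)) (XT.lf (nat_lit 0) (nat_lit 3807014198) (nat_lit 380) (nat_lit 3845610389) (nat_lit 456) (nat_lit 2378525139) (nat_lit 157) (nat_lit 5) (nat_lit 162) (nat_lit 5) (nat_lit 163) (nat_lit 5) (nat_lit 604) (nat_lit 492) (nat_lit 464)))) (XT.nd (nat_lit 156) (nat_lit 380) (nat_lit 0) (XT.nd (nat_lit 78) (nat_lit 380) (nat_lit 0) (XT.lf (nat_lit 0) (nat_lit 1815611844) (nat_lit 380) (nat_lit 8143422195) (nat_lit 76) (nat_lit 169170425) (nat_lit 152) (nat_lit 5)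 (nat_lit 157) (nat_lit 5) (nat_lit 153) (nat_lit 5) (nat_lit 605) (nat_lit 492) (nat_lit 463)) (XT.lf (nat_lit 0) (nat_lit 87174896) (nat_lit 380) (nat_lit 5987763702) (nat_lit 456) (nat_lit 4151685898) (nat_lit 147) (nat_lit 5) (nat_lit 152) (nat_lit 5) (nat_lit 153) (nat_lit 5) (nat_lit 606) (nat_lit 492) (nat_lit 462))) (XT.nd (nat_lit 78) (nat_lit 304) (nat_lit 0) (XT.lf (nat_lit 0) (nat_lit 91428761) (nat_lit 456) (nat_lit 1822616295) (nat_lit 76) (nat_lit 8412953512) (nat_lit 146) (nat_lit 5) (nat_lit 152) (nat_lit 5) (nat_lit 147) (nat_lit 5) (nat_lit 607) (nat_lit 492) (nat_lit 461)) (XT.lf (nat_lit 0) (nat_lit 4368006368) (nat_lit 380) (nat_lit 3810562166) (nat_lit 76) (nat_lit 2250180550) (nat_lit 142) (nat_lit 5) (nat_lit 147) (nat_lit 5) (nat_lit 143) (nat_lit 5) (nat_lit 608) (nat_lit 492) (nat_lit 460))))) (XT.nd (nat_lit 78624) (nat_lit 0) (nat_lit 12616) (XT.nd (nat_lit 78468) (nat_lit 0) (nat_lit 14668) (XT.nd (nat_lit 78) (nat_lit 380) (nat_lit 0) (XT.lf (nat_lit 0) (nat_lit 4681817802) (nat_lit 380) (nat_lit 4050230853)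 (nat_lit 456) (nat_lit 1800448911) (nat_lit 137) (nat_lit 5) (nat_lit 142) (nat_lit 5) (nat_lit 143) (nat_lit 5) (nat_lit 609) (nat_lit 492) (nat_lit 459)) (XT.lf (nat_lit 0) (nat_lit 2502774016) (nat_lit 380) (nat_lit 7950135390) (nat_lit 76) (nat_lit 185260643) (nat_lit 132) (nat_lit 5) (nat_lit 137) (nat_lit 5) (nat_lit 133) (nat_lit 5) (nat_lit 610) (nat_lit 492) (nat_lit 458))) (XT.nd (nat_lit 78) (nat_lit 684) (nat_lit 0) (XT.lf (nat_lit 0) (nat_lit 1023976778) (nat_lit 760) (nat_lit 1872454036) (nat_lit 0) (nat_lit 1023976778) (nat_lit 334) (nat_lit 5) (nat_lit 344) (nat_lit 4) (nat_lit 334) (nat_lit 4) (nat_lit 574) (nat_lit 493) (nat_lit 493)) (XT.lf (nat_lit 0) (nat_lit 2721432669) (nat_lit 684) (nat_lit 3230010134) (nat_lit 684) (nat_lit 1942354869) (nat_lit 325) (nat_lit 4) (nat_lit 334) (nat_lit 5) (nat_lit 334) (nat_lit 4) (nat_lit 575) (nat_lit 493) (nat_lit 492)))) (XT.nd (nat_lit 156) (nat_lit 1368) (nat_lit 0) (XT.nd (nat_lit 78) (nat_lit 0) (nat_lit 0) (XT.lf (nat_lit 0) (nat_lit 1338224783) (nat_lit 608) (nat_lit 586669855)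 (nat_lit 684) (nat_lit 6023376045) (nat_lit 316) (nat_lit 5) (nat_lit 324) (nat_lit 5) (nat_lit 325) (nat_lit 4) (nat_lit 576) (nat_lit 493) (nat_lit 491)) (XT.lf (nat_lit 0) (nat_lit 5824579757) (nat_lit 684) (nat_lit 68246312) (nat_lit 0) (nat_lit 2111132277) (nat_lit 316) (nat_lit 5) (nat_lit 325) (nat_lit 4) (nat_lit 316) (nat_lit 4) (nat_lit 577) (nat_lit 493) (nat_lit 490))) (XT.nd (nat_lit 78) (nat_lit 608) (nat_lit 0) (XT.lf (nat_lit 0) (nat_lit 1699034856) (nat_lit 760) (nat_lit 1470991497) (nat_lit 76) (nat_lit 4890903539) (nat_lit 306) (nat_lit 5) (nat_lit 316) (nat_lit 5) (nat_lit 307) (nat_lit 4) (nat_lit 578) (nat_lit 493) (nat_lit 489)) (XT.lf (nat_lit 0) (nat_lit 5231295806) (nat_lit 608) (nat_lit 363063975) (nat_lit 684) (nat_lit 2525026191) (nat_lit 298) (nat_lit 5) (nat_lit 306) (nat_lit 5) (nat_lit 307) (nat_lit 4) (nat_lit 579) (nat_lit 493) (nat_lit 488)))))) (XT.nd (nat_lit 546) (nat_lit 3648) (nat_lit 0) (XT.nd (nat_lit 234) (nat_lit 1672) (nat_lit 0) (XT.nd (nat_lit 78) (nat_lit 1292) (nat_lit 0) (XT.lf (nat_lit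 0) (nat_lit 1356155573) (nat_lit 684) (nat_lit 4331851995) (nat_lit 76) (nat_lit 2491111127) (nat_lit 289) (nat_lit 5) (nat_lit 298) (nat_lit 5) (nat_lit 290) (nat_lit 4) (nat_lit 580) (nat_lit 493) (nat_lit 487)) (XT.nd (nat_lit 78) (nat_lit 684) (nat_lit 0) (XT.lf (nat_lit 0) (nat_lit 2442637115) (nat_lit 608) (nat_lit 2811286022) (nat_lit 684) (nat_lit 2986337184) (nat_lit 281) (nat_lit 5) (nat_lit 289) (nat_lit 5) (nat_lit 290) (nat_lit 4) (nat_lit 581) (nat_lit 493) (nat_lit 486)) (XT.lf (nat_lit 0) (nat_lit 886990924) (nat_lit 684) (nat_lit 7274690045) (nat_lit 76) (nat_lit 141384248) (nat_lit 272) (nat_lit 5) (nat_lit 281) (nat_lit 5) (nat_lit 273) (nat_lit 4) (nat_lit 582) (nat_lit 493) (nat_lit 485)))) (XT.nd (nat_lit 156) (nat_lit 1064) (nat_lit 0) (XT.nd (nat_lit 78) (nat_lit 608) (nat_lit 0) (XT.lf (nat_lit 0) (nat_lit 4791429174) (nat_lit 684) (nat_lit 423338316) (nat_lit 76) (nat_lit 3152094615) (nat_lit 272) (nat_lit 5) (nat_lit 281) (nat_lit 5) (nat_lit 273) (nat_lit 4) (nat_lit 583) (nat_lit 493) (nat_lit 484)) (XT.lf (nat_lit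 0) (nat_lit 317093841) (nat_lit 608) (nat_lit 1869385786) (nat_lit 76) (nat_lit 6245822901) (nat_lit 264) (nat_lit 5) (nat_lit 272) (nat_lit 5) (nat_lit 265) (nat_lit 5) (nat_lit 584) (nat_lit 493) (nat_lit 483))) (XT.nd (nat_lit 78) (nat_lit 532) (nat_lit 0) (XT.lf (nat_lit 0) (nat_lit 4219394952) (nat_lit 608) (nat_lit 3352049685) (nat_lit 76) (nat_lit 927541581) (nat_lit 257) (nat_lit 5) (nat_lit 265) (nat_lit 5) (nat_lit 258) (nat_lit 4) (nat_lit 585) (nat_lit 493) (nat_lit 482)) (XT.lf (nat_lit 0) (nat_lit 3709371407) (nat_lit 532) (nat_lit 4479413605) (nat_lit 608) (nat_lit 378440764) (nat_lit 250) (nat_lit 5) (nat_lit 257) (nat_lit 5) (nat_lit 258) (nat_lit 4) (nat_lit 586) (nat_lit 493) (nat_lit 481))))) (XT.nd (nat_lit 312) (nat_lit 1976) (nat_lit 0) (XT.nd (nat_lit 156) (nat_lit 608) (nat_lit 0) (XT.nd (nat_lit 78) (nat_lit 456) (nat_lit 0) (XT.lf (nat_lit 0) (nat_lit 2239785325) (nat_lit 532) (nat_lit 1289007921) (nat_lit 608) (nat_lit 5108066548) (nat_lit 242) (nat_lit 5) (nat_lit 249) (nat_lit 5) (nat_lit 250) (nat_lit 5) (nat_lit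 587) (nat_lit 493) (nat_lit 480)) (XT.lf (nat_lit 0) (nat_lit 744646116) (nat_lit 456) (nat_lit 6753458925) (nat_lit 532) (nat_lit 1209954286) (nat_lit 236) (nat_lit 5) (nat_lit 242) (nat_lit 5) (nat_lit 243) (nat_lit 4) (nat_lit 588) (nat_lit 493) (nat_lit 479))) (XT.nd (nat_lit 78) (nat_lit 532) (nat_lit 0) (XT.lf (nat_lit 0) (nat_lit 2720411149) (nat_lit 532) (nat_lit 778559997) (nat_lit 76) (nat_lit 5281543896) (nat_lit 235) (nat_lit 5) (nat_lit 242) (nat_lit 5) (nat_lit 236) (nat_lit 5) (nat_lit 589) (nat_lit 493) (nat_lit 478)) (XT.lf (nat_lit 0) (nat_lit 6541624281) (nat_lit 532) (nat_lit 154066218) (nat_lit 608) (nat_lit 2158921967) (nat_lit 228) (nat_lit 5) (nat_lit 235) (nat_lit 5) (nat_lit 236) (nat_lit 5) (nat_lit 590) (nat_lit 493) (nat_lit 477)))) (XT.nd (nat_lit 156) (nat_lit 988) (nat_lit 0) (XT.nd (nat_lit 78) (nat_lit 456) (nat_lit 0) (XT.lf (nat_lit 0) (nat_lit 1796055240) (nat_lit 532) (nat_lit 3894932190) (nat_lit 76) (nat_lit 3238977740) (nat_lit 221) (nat_lit 5) (nat_lit 228) (nat_lit 5) (nat_lit 222) (nat_lit 5) (nat_lit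 591) (nat_lit 493) (nat_lit 476)) (XT.lf (nat_lit 0) (nat_lit 3498494491) (nat_lit 456) (nat_lit 2282801841) (nat_lit 532) (nat_lit 3225644296) (nat_lit 215) (nat_lit 5) (nat_lit 221) (nat_lit 5) (nat_lit 222) (nat_lit 5) (nat_lit 592) (nat_lit 493) (nat_lit 475))) (XT.nd (nat_lit 78) (nat_lit 456) (nat_lit 0) (XT.lf (nat_lit 0) (nat_lit 738477267) (nat_lit 532) (nat_lit 7152662521) (nat_lit 76) (nat_lit 1194466097) (nat_lit 208) (nat_lit 5) (nat_lit 215) (nat_lit 5) (nat_lit 209) (nat_lit 5) (nat_lit 593) (nat_lit 493) (nat_lit 474)) (XT.lf (nat_lit 0) (nat_lit 312643174) (nat_lit 456) (nat_lit 4421758173) (nat_lit 532) (nat_lit 4431104846) (nat_lit 202) (nat_lit 5) (nat_lit 208) (nat_lit 5) (nat_lit 209) (nat_lit 5) (nat_lit 594) (nat_lit 493) (nat_lit 473))))))))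
noncomputable def xc6 : XT := (XT.nd (nat_lit 80496) (nat_lit 0) (nat_lit 304) (XT.nd (nat_lit 1170) (nat_lit 380) (nat_lit 0) (XT.nd (nat_lit 546) (nat_lit 2736) (nat_lit 0) (XT.nd (nat_lit 234) (nat_lit 1292) (nat_lit 0) (XT.nd (nat_lit 78) (nat_lit 912) (nat_lit 0) (XT.lf (nat_lit 0) (nat_lit 7937330022) (nat_lit 456) (nat_lit 862812572) (nat_lit 532) (nat_lit 447066298) (nat_lit 202) (nat_lit 5) (nat_lit 208) (nat_lit 5) (nat_lit 209) (nat_lit 5) (nat_lit 595) (nat_lit 493) (nat_lit 472)) (XT.nd (nat_lit 78) (nat_lit 456) (nat_lit 0) (XT.lf (nat_lit 0) (nat_lit 3571370506) (nat_lit 456) (nat_lit 2990683192) (nat_lit 76) (nat_lit 2767981568) (nat_lit 196) (nat_lit 5) (nat_lit 202) (nat_lit 5) (nat_lit 197) (nat_lit 5) (nat_lit 596) (nat_lit 493) (nat_lit 471)) (XT.lf (nat_lit 0) (nat_lit 4711714714) (nat_lit 456) (nat_lit 2940678979) (nat_lit 532) (nat_lit 1762303517) (nat_lit 190) (nat_lit 5) (nat_lit 196) (nat_lit 5) (nat_lit 197) (nat_lit 5) (nat_lit 597) (nat_lit 493) (nat_lit 470)))) (XT.nd (nat_lit 156) (nat_lit 456) (nat_lit 0)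 (XT.nd (nat_lit 78) (nat_lit 380) (nat_lit 0) (XT.lf (nat_lit 0) (nat_lit 2271907130) (nat_lit 456) (nat_lit 6459822431) (nat_lit 76) (nat_lit 769259078) (nat_lit 184) (nat_lit 5) (nat_lit 190) (nat_lit 5) (nat_lit 185) (nat_lit 5) (nat_lit 598) (nat_lit 493) (nat_lit 469)) (XT.lf (nat_lit 0) (nat_lit 1314578477) (nat_lit 380) (nat_lit 5052017562) (nat_lit 456) (nat_lit 3222111148) (nat_lit 179) (nat_lit 5) (nat_lit 184) (nat_lit 5) (nat_lit 185) (nat_lit 5) (nat_lit 599) (nat_lit 493) (nat_lit 468))) (XT.nd (nat_lit 78) (nat_lit 380) (nat_lit 0) (XT.lf (nat_lit 0) (nat_lit 841054526) (nat_lit 456) (nat_lit 438243339) (nat_lit 76) (nat_lit 8399023922) (nat_lit 178) (nat_lit 5) (nat_lit 184) (nat_lit 5) (nat_lit 179) (nat_lit 5) (nat_lit 600) (nat_lit 493) (nat_lit 467)) (XT.lf (nat_lit 0) (nat_lit 4953193335) (nat_lit 456) (nat_lit 2239730109) (nat_lit 76) (nat_lit 2576164165) (nat_lit 173) (nat_lit 5) (nat_lit 179) (nat_lit 5) (nat_lit 174) (nat_lit 5) (nat_lit 601) (nat_lit 493) (nat_lit 466))))) (XT.nd (nat_lit 312) (nat_lit 1140) (nat_lit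 0) (XT.nd (nat_lit 156) (nat_lit 760) (nat_lit 0) (XT.nd (nat_lit 78) (nat_lit 456) (nat_lit 0) (XT.lf (nat_lit 0) (nat_lit 5782296751) (nat_lit 380) (nat_lit 3359454969) (nat_lit 456) (nat_lit 720035426) (nat_lit 168) (nat_lit 5) (nat_lit 173) (nat_lit 5) (nat_lit 174) (nat_lit 5) (nat_lit 602) (nat_lit 493) (nat_lit 465)) (XT.lf (nat_lit 0) (nat_lit 3402535892) (nat_lit 456) (nat_lit 5977040569) (nat_lit 76) (nat_lit 576514190) (nat_lit 162) (nat_lit 5) (nat_lit 168) (nat_lit 5) (nat_lit 163) (nat_lit 5) (nat_lit 603) (nat_lit 493) (nat_lit 464))) (XT.nd (nat_lit 78) (nat_lit 380) (nat_lit 0) (XT.lf (nat_lit 0) (nat_lit 2116720945) (nat_lit 380) (nat_lit 5490430950) (nat_lit 456) (nat_lit 2444850272) (nat_lit 157) (nat_lit 5) (nat_lit 162) (nat_lit 5) (nat_lit 163) (nat_lit 5) (nat_lit 604) (nat_lit 493) (nat_lit 463)) (XT.lf (nat_lit 0) (nat_lit 209165137) (nat_lit 304) (nat_lit 1501525152) (nat_lit 380) (nat_lit 8439165423) (nat_lit 152) (nat_lit 5) (nat_lit 156) (nat_lit 5) (nat_lit 157) (nat_lit 5) (nat_lit 605) (nat_lit 493) (nat_lit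 462)))) (XT.nd (nat_lit 156) (nat_lit 760) (nat_lit 0) (XT.nd (nat_lit 78) (nat_lit 380) (nat_lit 0) (XT.lf (nat_lit 0) (nat_lit 5933031730) (nat_lit 380) (nat_lit 1744370660) (nat_lit 76) (nat_lit 2571613911) (nat_lit 152) (nat_lit 5) (nat_lit 157) (nat_lit 5) (nat_lit 153) (nat_lit 5) (nat_lit 606) (nat_lit 493) (nat_lit 461)) (XT.lf (nat_lit 0) (nat_lit 6607667847) (nat_lit 380) (nat_lit 3632179499) (nat_lit 456) (nat_lit 110313893) (nat_lit 147) (nat_lit 5) (nat_lit 152) (nat_lit 5) (nat_lit 153) (nat_lit 5) (nat_lit 607) (nat_lit 493) (nat_lit 460))) (XT.nd (nat_lit 78) (nat_lit 380) (nat_lit 0) (XT.lf (nat_lit 0) (nat_lit 4117379503) (nat_lit 380) (nat_lit 5810507882) (nat_lit 76) (nat_lit 525046116) (nat_lit 142) (nat_lit 5) (nat_lit 147) (nat_lit 5) (nat_lit 143) (nat_lit 5) (nat_lit 608) (nat_lit 493) (nat_lit 459)) (XT.lf (nat_lit 0) (nat_lit 2612483053) (nat_lit 380) (nat_lit 5829560782) (nat_lit 456) (nat_lit 2115426493) (nat_lit 137) (nat_lit 5) (nat_lit 142) (nat_lit 5) (nat_lit 143) (nat_lit 5) (nat_lit 609) (nat_lit 493)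 (nat_lit 458)))))) (XT.nd (nat_lit 78702) (nat_lit 0) (nat_lit 9500) (XT.nd (nat_lit 78390) (nat_lit 0) (nat_lit 13984) (XT.nd (nat_lit 78234) (nat_lit 0) (nat_lit 16112) (XT.lf (nat_lit 0) (nat_lit 526331934) (nat_lit 304) (nat_lit 1624456096) (nat_lit 380) (nat_lit 8513219224) (nat_lit 132) (nat_lit 5) (nat_lit 136) (nat_lit 5) (nat_lit 137) (nat_lit 5) (nat_lit 610) (nat_lit 493) (nat_lit 457)) (XT.nd (nat_lit 78) (nat_lit 760) (nat_lit 0) (XT.lf (nat_lit 0) (nat_lit 1711306707) (nat_lit 760) (nat_lit 446499846) (nat_lit 0) (nat_lit 1711306707) (nat_lit 354) (nat_lit 5) (nat_lit 364) (nat_lit 4) (nat_lit 354) (nat_lit 4) (nat_lit 572) (nat_lit 494) (nat_lit 494)) (XT.lf (nat_lit 0) (nat_lit 5460333513) (nat_lit 760) (nat_lit 1834302745) (nat_lit 760) (nat_lit 494626207) (nat_lit 344) (nat_lit 4) (nat_lit 354) (nat_lit 5) (nat_lit 354) (nat_lit 4) (nat_lit 573) (nat_lit 494) (nat_lit 493)))) (XT.nd (nat_lit 156) (nat_lit 684) (nat_lit 0) (XT.nd (nat_lit 78) (nat_lit 684) (nat_lit 0) (XT.lf (nat_lit 0) (nat_lit 3327425946) (nat_lit 760)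 (nat_lit 3787707722) (nat_lit 0) (nat_lit 726362310) (nat_lit 334) (nat_lit 5) (nat_lit 344) (nat_lit 4) (nat_lit 334) (nat_lit 4) (nat_lit 574) (nat_lit 494) (nat_lit 492)) (XT.lf (nat_lit 0) (nat_lit 2635546160) (nat_lit 684) (nat_lit 4561540829) (nat_lit 684) (nat_lit 698070070) (nat_lit 325) (nat_lit 4) (nat_lit 334) (nat_lit 5) (nat_lit 334) (nat_lit 4) (nat_lit 575) (nat_lit 494) (nat_lit 491))) (XT.nd (nat_lit 78) (nat_lit 0) (nat_lit 0) (XT.lf (nat_lit 0) (nat_lit 1198947177) (nat_lit 608) (nat_lit 1919900335) (nat_lit 684) (nat_lit 4831303195) (nat_lit 316) (nat_lit 5) (nat_lit 324) (nat_lit 5) (nat_lit 325) (nat_lit 4) (nat_lit 576) (nat_lit 494) (nat_lit 490)) (XT.lf (nat_lit 0) (nat_lit 6977086069) (nat_lit 684) (nat_lit 243194251) (nat_lit 0) (nat_lit 786388897) (nat_lit 316) (nat_lit 5) (nat_lit 325) (nat_lit 4) (nat_lit 316) (nat_lit 4) (nat_lit 577) (nat_lit 494) (nat_lit 489))))) (XT.nd (nat_lit 312) (nat_lit 1824) (nat_lit 0) (XT.nd (nat_lit 156) (nat_lit 1292) (nat_lit 0) (XT.nd (nat_lit 78) (nat_lit 608) (nat_lit 0) (XT.lf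 (nat_lit 0) (nat_lit 2799954188) (nat_lit 760) (nat_lit 1701058756) (nat_lit 76) (nat_lit 3563156281) (nat_lit 306) (nat_lit 5) (nat_lit 316) (nat_lit 5) (nat_lit 307) (nat_lit 4) (nat_lit 578) (nat_lit 494) (nat_lit 488)) (XT.lf (nat_lit 0) (nat_lit 4955848505) (nat_lit 608) (nat_lit 1705644439) (nat_lit 684) (nat_lit 1461809889) (nat_lit 298) (nat_lit 5) (nat_lit 306) (nat_lit 5) (nat_lit 307) (nat_lit 4) (nat_lit 579) (nat_lit 494) (nat_lit 487))) (XT.nd (nat_lit 78) (nat_lit 608) (nat_lit 0) (XT.lf (nat_lit 0) (nat_lit 2362666570) (nat_lit 684) (nat_lit 4660108273) (nat_lit 76) (nat_lit 1160979606) (nat_lit 289) (nat_lit 5) (nat_lit 298) (nat_lit 5) (nat_lit 290) (nat_lit 4) (nat_lit 580) (nat_lit 494) (nat_lit 486)) (XT.lf (nat_lit 0) (nat_lit 2067249837) (nat_lit 608) (nat_lit 4159184275) (nat_lit 684) (nat_lit 2019143665) (nat_lit 281) (nat_lit 5) (nat_lit 289) (nat_lit 5) (nat_lit 290) (nat_lit 4) (nat_lit 581) (nat_lit 494) (nat_lit 485)))) (XT.nd (nat_lit 156) (nat_lit 1140) (nat_lit 0) (XT.nd (nat_lit 78) (nat_lit 0) (nat_lit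 0) (XT.lf (nat_lit 0) (nat_lit 594284627) (nat_lit 608) (nat_lit 1212035682) (nat_lit 684) (nat_lit 6502641989) (nat_lit 272) (nat_lit 5) (nat_lit 280) (nat_lit 5) (nat_lit 281) (nat_lit 5) (nat_lit 582) (nat_lit 494) (nat_lit 484)) (XT.lf (nat_lit 0) (nat_lit 5671736393) (nat_lit 684) (nat_lit 898079167) (nat_lit 76) (nat_lit 1803725673) (nat_lit 272) (nat_lit 5) (nat_lit 281) (nat_lit 5) (nat_lit 273) (nat_lit 4) (nat_lit 583) (nat_lit 494) (nat_lit 483))) (XT.nd (nat_lit 78) (nat_lit 532) (nat_lit 0) (XT.lf (nat_lit 0) (nat_lit 1145097627) (nat_lit 608) (nat_lit 2405584738) (nat_lit 76) (nat_lit 4888870715) (nat_lit 264) (nat_lit 5) (nat_lit 272) (nat_lit 5) (nat_lit 265) (nat_lit 5) (nat_lit 584) (nat_lit 494) (nat_lit 482)) (XT.lf (nat_lit 0) (nat_lit 4567361396) (nat_lit 532) (nat_lit 439717445) (nat_lit 608) (nat_lit 3499965839) (nat_lit 257) (nat_lit 5) (nat_lit 264) (nat_lit 5) (nat_lit 265) (nat_lit 5) (nat_lit 585) (nat_lit 494) (nat_lit 481))))))) (XT.nd (nat_lit 1170) (nat_lit 3192) (nat_lit 0) (XT.nd (nat_lit 546) (nat_lit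 2812) (nat_lit 0) (XT.nd (nat_lit 234) (nat_lit 2052) (nat_lit 0) (XT.nd (nat_lit 78) (nat_lit 532) (nat_lit 0) (XT.lf (nat_lit 0) (nat_lit 358532741) (nat_lit 608) (nat_lit 5504296488) (nat_lit 76) (nat_lit 2713152171) (nat_lit 249) (nat_lit 5) (nat_lit 257) (nat_lit 5) (nat_lit 250) (nat_lit 5) (nat_lit 586) (nat_lit 494) (nat_lit 480)) (XT.nd (nat_lit 78) (nat_lit 0) (nat_lit 0) (XT.lf (nat_lit 0) (nat_lit 1539407220) (nat_lit 532) (nat_lit 2686805989) (nat_lit 608) (nat_lit 4420046294) (nat_lit 242) (nat_lit 5) (nat_lit 249) (nat_lit 5) (nat_lit 250) (nat_lit 5) (nat_lit 587) (nat_lit 494) (nat_lit 479)) (XT.lf (nat_lit 0) (nat_lit 8151808433) (nat_lit 608) (nat_lit 8353643) (nat_lit 76) (nat_lit 558172687) (nat_lit 242) (nat_lit 5) (nat_lit 250) (nat_lit 5) (nat_lit 243) (nat_lit 4) (nat_lit 588) (nat_lit 494) (nat_lit 478)))) (XT.nd (nat_lit 156) (nat_lit 988) (nat_lit 0) (XT.nd (nat_lit 78) (nat_lit 532) (nat_lit 0) (XT.lf (nat_lit 0) (nat_lit 3325652132) (nat_lit 532) (nat_lit 1588771849) (nat_lit 76) (nat_lit 3876879252) (nat_lit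 235) (nat_lit 5) (nat_lit 242) (nat_lit 5) (nat_lit 236) (nat_lit 5) (nat_lit 589) (nat_lit 494) (nat_lit 477)) (XT.lf (nat_lit 0) (nat_lit 5678278370) (nat_lit 532) (nat_lit 1587936936) (nat_lit 608) (nat_lit 1599880988) (nat_lit 228) (nat_lit 5) (nat_lit 235) (nat_lit 5) (nat_lit 236) (nat_lit 5) (nat_lit 590) (nat_lit 494) (nat_lit 476))) (XT.nd (nat_lit 78) (nat_lit 456) (nat_lit 0) (XT.lf (nat_lit 0) (nat_lit 2303297849) (nat_lit 532) (nat_lit 4830249759) (nat_lit 76) (nat_lit 1808719390) (nat_lit 221) (nat_lit 5) (nat_lit 228) (nat_lit 5) (nat_lit 222) (nat_lit 5) (nat_lit 591) (nat_lit 494) (nat_lit 475)) (XT.lf (nat_lit 0) (nat_lit 2508048857) (nat_lit 456) (nat_lit 3745271971) (nat_lit 532) (nat_lit 2766627227) (nat_lit 215) (nat_lit 5) (nat_lit 221) (nat_lit 5) (nat_lit 222) (nat_lit 5) (nat_lit 592) (nat_lit 494) (nat_lit 474))))) (XT.nd (nat_lit 312) (nat_lit 1368) (nat_lit 0) (XT.nd (nat_lit 156) (nat_lit 912) (nat_lit 0) (XT.nd (nat_lit 78) (nat_lit 0) (nat_lit 0) (XT.lf (nat_lit 0) (nat_lit 878345832) (nat_lit 456) (nat_lit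 269686177) (nat_lit 532) (nat_lit 7951391735) (nat_lit 208) (nat_lit 5) (nat_lit 214) (nat_lit 5) (nat_lit 215) (nat_lit 5) (nat_lit 593) (nat_lit 494) (nat_lit 473)) (XT.lf (nat_lit 0) (nat_lit 5111692372) (nat_lit 532) (nat_lit 800568003) (nat_lit 76) (nat_lit 3267710118) (nat_lit 208) (nat_lit 5) (nat_lit 215) (nat_lit 5) (nat_lit 209) (nat_lit 5) (nat_lit 594) (nat_lit 494) (nat_lit 472))) (XT.nd (nat_lit 78) (nat_lit 456) (nat_lit 0) (XT.lf (nat_lit 0) (nat_lit 6771312571) (nat_lit 456) (nat_lit 2372656014) (nat_lit 532) (nat_lit 118375052) (nat_lit 202) (nat_lit 5) (nat_lit 208) (nat_lit 5) (nat_lit 209) (nat_lit 5) (nat_lit 595) (nat_lit 494) (nat_lit 471)) (XT.lf (nat_lit 0) (nat_lit 3849930016) (nat_lit 456) (nat_lit 4237838980) (nat_lit 76) (nat_lit 1258275851) (nat_lit 196) (nat_lit 5) (nat_lit 202) (nat_lit 5) (nat_lit 197) (nat_lit 5) (nat_lit 596) (nat_lit 494) (nat_lit 470)))) (XT.nd (nat_lit 156) (nat_lit 456) (nat_lit 0) (XT.nd (nat_lit 78) (nat_lit 456) (nat_lit 0) (XT.lf (nat_lit 0) (nat_lit 3405529219) (nat_lit 456) (nat_lit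 4489300434) (nat_lit 532) (nat_lit 1536600687) (nat_lit 190) (nat_lit 5) (nat_lit 196) (nat_lit 5) (nat_lit 197) (nat_lit 5) (nat_lit 597) (nat_lit 494) (nat_lit 469)) (XT.lf (nat_lit 0) (nat_lit 1661795500) (nat_lit 380) (nat_lit 791250641) (nat_lit 456) (nat_lit 7065479430) (nat_lit 184) (nat_lit 5) (nat_lit 189) (nat_lit 5) (nat_lit 190) (nat_lit 5) (nat_lit 598) (nat_lit 494) (nat_lit 468))) (XT.nd (nat_lit 78) (nat_lit 456) (nat_lit 0) (XT.lf (nat_lit 0) (nat_lit 6506684886) (nat_lit 456) (nat_lit 136599932) (nat_lit 76) (nat_lit 2963781321) (nat_lit 184) (nat_lit 5) (nat_lit 190) (nat_lit 5) (nat_lit 185) (nat_lit 5) (nat_lit 599) (nat_lit 494) (nat_lit 467)) (XT.lf (nat_lit 0) (nat_lit 932989853) (nat_lit 456) (nat_lit 1952651852) (nat_lit 76) (nat_lit 6811588163) (nat_lit 178) (nat_lit 5) (nat_lit 184) (nat_lit 5) (nat_lit 179) (nat_lit 5) (nat_lit 600) (nat_lit 494) (nat_lit 466)))))) (XT.nd (nat_lit 546) (nat_lit 836) (nat_lit 0) (XT.nd (nat_lit 234) (nat_lit 1140) (nat_lit 0) (XT.nd (nat_lit 78) (nat_lit 836) (nat_lit 0) (XT.lf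 (nat_lit 0) (nat_lit 4997542198) (nat_lit 456) (nat_lit 3825296226) (nat_lit 76) (nat_lit 966109954) (nat_lit 173) (nat_lit 5) (nat_lit 179) (nat_lit 5) (nat_lit 174) (nat_lit 5) (nat_lit 601) (nat_lit 494) (nat_lit 465)) (XT.nd (nat_lit 78) (nat_lit 456) (nat_lit 0) (XT.lf (nat_lit 0) (nat_lit 4133518376) (nat_lit 380) (nat_lit 5015281341) (nat_lit 456) (nat_lit 733595154) (nat_lit 168) (nat_lit 5) (nat_lit 173) (nat_lit 5) (nat_lit 174) (nat_lit 5) (nat_lit 602) (nat_lit 494) (nat_lit 464)) (XT.lf (nat_lit 0) (nat_lit 2249214960) (nat_lit 380) (nat_lit 1098371812) (nat_lit 456) (nat_lit 6629945612) (nat_lit 162) (nat_lit 5) (nat_lit 167) (nat_lit 5) (nat_lit 168) (nat_lit 5) (nat_lit 603) (nat_lit 494) (nat_lit 463)))) (XT.nd (nat_lit 156) (nat_lit 684) (nat_lit 0) (XT.nd (nat_lit 78) (nat_lit 76) (nat_lit 0) (XT.lf (nat_lit 0) (nat_lit 307019070) (nat_lit 380) (nat_lit 7199937534) (nat_lit 456) (nat_lit 2567393105) (nat_lit 157) (nat_lit 5) (nat_lit 162) (nat_lit 5) (nat_lit 163) (nat_lit 5) (nat_lit 604) (nat_lit 494) (nat_lit 462))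 (XT.lf (nat_lit 0) (nat_lit 1562104952) (nat_lit 456) (nat_lit 1666728809) (nat_lit 76) (nat_lit 6943939247) (nat_lit 156) (nat_lit 5) (nat_lit 162) (nat_lit 5) (nat_lit 157) (nat_lit 5) (nat_lit 605) (nat_lit 494) (nat_lit 461))) (XT.nd (nat_lit 78) (nat_lit 380) (nat_lit 0) (XT.lf (nat_lit 0) (nat_lit 5736046150) (nat_lit 380) (nat_lit 3696305630) (nat_lit 76) (nat_lit 840550657) (nat_lit 152) (nat_lit 5) (nat_lit 157) (nat_lit 5) (nat_lit 153) (nat_lit 5) (nat_lit 606) (nat_lit 494) (nat_lit 460)) (XT.lf (nat_lit 0) (nat_lit 4588027359) (nat_lit 380) (nat_lit 5416086787) (nat_lit 456) (nat_lit 370708999) (nat_lit 147) (nat_lit 5) (nat_lit 152) (nat_lit 5) (nat_lit 153) (nat_lit 5) (nat_lit 607) (nat_lit 494) (nat_lit 459))))) (XT.nd (nat_lit 78312) (nat_lit 0) (nat_lit 15048) (XT.nd (nat_lit 156) (nat_lit 76) (nat_lit 0) (XT.nd (nat_lit 78) (nat_lit 380) (nat_lit 0) (XT.lf (nat_lit 0) (nat_lit 2534356343) (nat_lit 304) (nat_lit 1283312099) (nat_lit 380) (nat_lit 6660816184) (nat_lit 142) (nat_lit 5) (nat_lit 146) (nat_lit 5) (nat_lit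 147) (nat_lit 5) (nat_lit 608) (nat_lit 494) (nat_lit 458)) (XT.lf (nat_lit 0) (nat_lit 416979423) (nat_lit 380) (nat_lit 7677332787) (nat_lit 456) (nat_lit 2489670424) (nat_lit 137) (nat_lit 5) (nat_lit 142) (nat_lit 5) (nat_lit 143) (nat_lit 5) (nat_lit 609) (nat_lit 494) (nat_lit 457))) (XT.nd (nat_lit 78078) (nat_lit 0) (nat_lit 17328) (XT.lf (nat_lit 0) (nat_lit 1752665187) (nat_lit 456) (nat_lit 1741643403) (nat_lit 76) (nat_lit 7196836052) (nat_lit 136) (nat_lit 5) (nat_lit 142) (nat_lit 5) (nat_lit 137) (nat_lit 5) (nat_lit 610) (nat_lit 494) (nat_lit 456)) (XT.lf (nat_lit 0) (nat_lit 1012287752) (nat_lit 760) (nat_lit 1403762009) (nat_lit 760) (nat_lit 1403762009) (nat_lit 364) (nat_lit 4) (nat_lit 374) (nat_lit 5) (nat_lit 374) (nat_lit 4) (nat_lit 570) (nat_lit 495) (nat_lit 495)))) (XT.nd (nat_lit 156) (nat_lit 1520) (nat_lit 0) (XT.nd (nat_lit 78) (nat_lit 0) (nat_lit 0) (XT.lf (nat_lit 0) (nat_lit 552491163) (nat_lit 684) (nat_lit 411019050) (nat_lit 760) (nat_lit 6725274792) (nat_lit 354) (nat_lit 5) (nat_lit 363) (nat_lit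 5) (nat_lit 364) (nat_lit 4) (nat_lit 571) (nat_lit 495) (nat_lit 494)) (XT.lf (nat_lit 0) (nat_lit 4755303296) (nat_lit 760) (nat_lit 934444298) (nat_lit 0) (nat_lit 2049156690) (nat_lit 354) (nat_lit 5) (nat_lit 364) (nat_lit 4) (nat_lit 354) (nat_lit 4) (nat_lit 572) (nat_lit 495) (nat_lit 493))) (XT.nd (nat_lit 78) (nat_lit 684) (nat_lit 0) (XT.lf (nat_lit 0) (nat_lit 792520651) (nat_lit 836) (nat_lit 2418663260) (nat_lit 76) (nat_lit 4579327306) (nat_lit 343) (nat_lit 5) (nat_lit 354) (nat_lit 5) (nat_lit 344) (nat_lit 4) (nat_lit 573) (nat_lit 495) (nat_lit 492)) (XT.lf (nat_lit 0) (nat_lit 3923134749) (nat_lit 684) (nat_lit 646342969) (nat_lit 760) (nat_lit 3273976975) (nat_lit 334) (nat_lit 5) (nat_lit 343) (nat_lit 5) (nat_lit 344) (nat_lit 4) (nat_lit 574) (nat_lit 495) (nat_lit 491))))))))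
noncomputable def xc7 : XT := (XT.nd (nat_lit 2340) (nat_lit 1976) (nat_lit 0) (XT.nd (nat_lit 1170) (nat_lit 5548) (nat_lit 0) (XT.nd (nat_lit 546) (nat_lit 3496) (nat_lit 0) (XT.nd (nat_lit 234) (nat_lit 2584) (nat_lit 0) (XT.nd (nat_lit 78) (nat_lit 684) (nat_lit 0) (XT.lf (nat_lit 0) (nat_lit 496730922) (nat_lit 760) (nat_lit 5437404874) (nat_lit 76) (nat_lit 1963675214) (nat_lit 324) (nat_lit 5) (nat_lit 334) (nat_lit 5) (nat_lit 325) (nat_lit 4) (nat_lit 575) (nat_lit 495) (nat_lit 490)) (XT.nd (nat_lit 78) (nat_lit 76) (nat_lit 0) (XT.lf (nat_lit 0) (nat_lit 972348660) (nat_lit 608) (nat_lit 3298213871) (nat_lit 684) (nat_lit 3682832009) (nat_lit 316) (nat_lit 5) (nat_lit 324) (nat_lit 5) (nat_lit 325) (nat_lit 4) (nat_lit 576) (nat_lit 495) (nat_lit 489)) (XT.lf (nat_lit 0) (nat_lit 79817201) (nat_lit 684) (nat_lit 510060383) (nat_lit 76) (nat_lit 7420772099) (nat_lit 315) (nat_lit 5) (nat_lit 324) (nat_lit 5) (nat_lit 316) (nat_lit 5) (nat_lit 577) (nat_lit 495) (nat_lit 488)))) (XT.nd (nat_lit 156) (nat_lit 1292) (nat_lit 0) (XT.nd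 (nat_lit 78) (nat_lit 608) (nat_lit 0) (XT.lf (nat_lit 0) (nat_lit 3858256386) (nat_lit 760) (nat_lit 2020097712) (nat_lit 76) (nat_lit 2190415603) (nat_lit 306) (nat_lit 5) (nat_lit 316) (nat_lit 5) (nat_lit 307) (nat_lit 4) (nat_lit 578) (nat_lit 495) (nat_lit 487)) (XT.lf (nat_lit 0) (nat_lit 4591076975) (nat_lit 608) (nat_lit 3094979454) (nat_lit 684) (nat_lit 442523424) (nat_lit 298) (nat_lit 5) (nat_lit 306) (nat_lit 5) (nat_lit 307) (nat_lit 4) (nat_lit 579) (nat_lit 495) (nat_lit 486))) (XT.nd (nat_lit 78) (nat_lit 608) (nat_lit 0) (XT.lf (nat_lit 0) (nat_lit 3108122870) (nat_lit 608) (nat_lit 218849056) (nat_lit 684) (nat_lit 4862761145) (nat_lit 289) (nat_lit 5) (nat_lit 297) (nat_lit 5) (nat_lit 298) (nat_lit 5) (nat_lit 580) (nat_lit 495) (nat_lit 485)) (XT.lf (nat_lit 0) (nat_lit 1599656122) (nat_lit 608) (nat_lit 5555682622) (nat_lit 684) (nat_lit 1096927335) (nat_lit 281) (nat_lit 5) (nat_lit 289) (nat_lit 5) (nat_lit 290) (nat_lit 4) (nat_lit 581) (nat_lit 495) (nat_lit 484))))) (XT.nd (nat_lit 312) (nat_lit 1672) (nat_lit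 0) (XT.nd (nat_lit 156) (nat_lit 1140) (nat_lit 0) (XT.nd (nat_lit 78) (nat_lit 0) (nat_lit 0) (XT.lf (nat_lit 0) (nat_lit 65561756) (nat_lit 608) (nat_lit 2616638702) (nat_lit 684) (nat_lit 5634016815) (nat_lit 272) (nat_lit 5) (nat_lit 280) (nat_lit 5) (nat_lit 281) (nat_lit 5) (nat_lit 582) (nat_lit 495) (nat_lit 483)) (XT.lf (nat_lit 0) (nat_lit 6507954940) (nat_lit 684) (nat_lit 1466724225) (nat_lit 76) (nat_lit 406911845) (nat_lit 272) (nat_lit 5) (nat_lit 281) (nat_lit 5) (nat_lit 273) (nat_lit 4) (nat_lit 583) (nat_lit 495) (nat_lit 482))) (XT.nd (nat_lit 78) (nat_lit 532) (nat_lit 0) (XT.lf (nat_lit 0) (nat_lit 1928224701) (nat_lit 608) (nat_lit 3037181248) (nat_lit 76) (nat_lit 3482774481) (nat_lit 264) (nat_lit 5) (nat_lit 272) (nat_lit 5) (nat_lit 265) (nat_lit 5) (nat_lit 584) (nat_lit 495) (nat_lit 481)) (XT.lf (nat_lit 0) (nat_lit 3885729461) (nat_lit 532) (nat_lit 1870232953) (nat_lit 608) (nat_lit 2760395966) (nat_lit 257) (nat_lit 5) (nat_lit 264) (nat_lit 5) (nat_lit 265) (nat_lit 5) (nat_lit 585) (nat_lit 495) (nat_lit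 480)))) (XT.nd (nat_lit 156) (nat_lit 532) (nat_lit 0) (XT.nd (nat_lit 78) (nat_lit 532) (nat_lit 0) (XT.lf (nat_lit 0) (nat_lit 1044496463) (nat_lit 608) (nat_lit 6251606172) (nat_lit 76) (nat_lit 1289975983) (nat_lit 249) (nat_lit 5) (nat_lit 257) (nat_lit 5) (nat_lit 250) (nat_lit 5) (nat_lit 586) (nat_lit 495) (nat_lit 479)) (XT.lf (nat_lit 0) (nat_lit 740151115) (nat_lit 532) (nat_lit 4137382686) (nat_lit 608) (nat_lit 3779517177) (nat_lit 242) (nat_lit 5) (nat_lit 249) (nat_lit 5) (nat_lit 250) (nat_lit 5) (nat_lit 587) (nat_lit 495) (nat_lit 478))) (XT.nd (nat_lit 78) (nat_lit 456) (nat_lit 0) (XT.lf (nat_lit 0) (nat_lit 39997620) (nat_lit 608) (nat_lit 856767663) (nat_lit 76) (nat_lit 7833013378) (nat_lit 241) (nat_lit 5) (nat_lit 249) (nat_lit 5) (nat_lit 242) (nat_lit 5) (nat_lit 588) (nat_lit 495) (nat_lit 477)) (XT.lf (nat_lit 0) (nat_lit 3884194195) (nat_lit 532) (nat_lit 2499646404) (nat_lit 76) (nat_lit 2419645317) (nat_lit 235) (nat_lit 5) (nat_lit 242) (nat_lit 5) (nat_lit 236) (nat_lit 5) (nat_lit 589) (nat_lit 495) (nat_lit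 476)))))) (XT.nd (nat_lit 546) (nat_lit 2584) (nat_lit 0) (XT.nd (nat_lit 234) (nat_lit 1444) (nat_lit 0) (XT.nd (nat_lit 78) (nat_lit 988) (nat_lit 0) (XT.lf (nat_lit 0) (nat_lit 4713762722) (nat_lit 532) (nat_lit 3076192409) (nat_lit 608) (nat_lit 1089021180) (nat_lit 228) (nat_lit 5) (nat_lit 235) (nat_lit 5) (nat_lit 236) (nat_lit 5) (nat_lit 590) (nat_lit 495) (nat_lit 475)) (XT.nd (nat_lit 78) (nat_lit 456) (nat_lit 0) (XT.lf (nat_lit 0) (nat_lit 2762534596) (nat_lit 532) (nat_lit 5869392828) (nat_lit 76) (nat_lit 324052955) (nat_lit 221) (nat_lit 5) (nat_lit 228) (nat_lit 5) (nat_lit 222) (nat_lit 5) (nat_lit 591) (nat_lit 495) (nat_lit 474)) (XT.lf (nat_lit 0) (nat_lit 1413235157) (nat_lit 456) (nat_lit 5263991139) (nat_lit 532) (nat_lit 2357142979) (nat_lit 215) (nat_lit 5) (nat_lit 221) (nat_lit 5) (nat_lit 222) (nat_lit 5) (nat_lit 592) (nat_lit 495) (nat_lit 473)))) (XT.nd (nat_lit 156) (nat_lit 912) (nat_lit 0) (XT.nd (nat_lit 78) (nat_lit 456) (nat_lit 0) (XT.lf (nat_lit 0) (nat_lit 1518320722) (nat_lit 532) (nat_lit 286482456)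 (nat_lit 76) (nat_lit 7309666281) (nat_lit 214) (nat_lit 5) (nat_lit 221) (nat_lit 5) (nat_lit 215) (nat_lit 5) (nat_lit 593) (nat_lit 495) (nat_lit 472)) (XT.lf (nat_lit 0) (nat_lit 5442192491) (nat_lit 532) (nat_lit 2015921539) (nat_lit 76) (nat_lit 1737699095) (nat_lit 208) (nat_lit 5) (nat_lit 215) (nat_lit 5) (nat_lit 209) (nat_lit 5) (nat_lit 594) (nat_lit 495) (nat_lit 471))) (XT.nd (nat_lit 78) (nat_lit 380) (nat_lit 0) (XT.lf (nat_lit 0) (nat_lit 157830033) (nat_lit 532) (nat_lit 3781471279) (nat_lit 76) (nat_lit 5339578132) (nat_lit 201) (nat_lit 5) (nat_lit 208) (nat_lit 5) (nat_lit 202) (nat_lit 5) (nat_lit 595) (nat_lit 495) (nat_lit 470)) (XT.lf (nat_lit 0) (nat_lit 3766844434) (nat_lit 380) (nat_lit 313412449) (nat_lit 456) (nat_lit 5283195991) (nat_lit 196) (nat_lit 5) (nat_lit 201) (nat_lit 5) (nat_lit 202) (nat_lit 5) (nat_lit 596) (nat_lit 495) (nat_lit 469))))) (XT.nd (nat_lit 312) (nat_lit 1216) (nat_lit 0) (XT.nd (nat_lit 156) (nat_lit 456) (nat_lit 0) (XT.nd (nat_lit 78) (nat_lit 456) (nat_lit 0) (XT.lf (nat_lit 0)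 (nat_lit 1989141152) (nat_lit 456) (nat_lit 6097683447) (nat_lit 532) (nat_lit 1362781464) (nat_lit 190) (nat_lit 5) (nat_lit 196) (nat_lit 5) (nat_lit 197) (nat_lit 5) (nat_lit 597) (nat_lit 495) (nat_lit 468)) (XT.lf (nat_lit 0) (nat_lit 165309411) (nat_lit 380) (nat_lit 2422546903) (nat_lit 456) (nat_lit 6949558013) (nat_lit 184) (nat_lit 5) (nat_lit 189) (nat_lit 5) (nat_lit 190) (nat_lit 5) (nat_lit 598) (nat_lit 495) (nat_lit 467))) (XT.nd (nat_lit 78) (nat_lit 456) (nat_lit 0) (XT.lf (nat_lit 0) (nat_lit 6604062694) (nat_lit 456) (nat_lit 1682723673) (nat_lit 76) (nat_lit 1339918171) (nat_lit 184) (nat_lit 5) (nat_lit 190) (nat_lit 5) (nat_lit 185) (nat_lit 5) (nat_lit 599) (nat_lit 495) (nat_lit 466)) (XT.lf (nat_lit 0) (nat_lit 972712208) (nat_lit 456) (nat_lit 3581026911) (nat_lit 76) (nat_lit 5163859961) (nat_lit 178) (nat_lit 5) (nat_lit 184) (nat_lit 5) (nat_lit 179) (nat_lit 5) (nat_lit 600) (nat_lit 495) (nat_lit 465)))) (XT.nd (nat_lit 156) (nat_lit 456) (nat_lit 0) (XT.nd (nat_lit 78) (nat_lit 380) (nat_lit 0) (XT.lf (nat_lit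 0) (nat_lit 4278967546) (nat_lit 380) (nat_lit 714727251) (nat_lit 456) (nat_lit 4816495126) (nat_lit 173) (nat_lit 5) (nat_lit 178) (nat_lit 5) (nat_lit 179) (nat_lit 5) (nat_lit 601) (nat_lit 495) (nat_lit 464)) (XT.lf (nat_lit 0) (nat_lit 2368308892) (nat_lit 380) (nat_lit 6734467617) (nat_lit 456) (nat_lit 801704344) (nat_lit 168) (nat_lit 5) (nat_lit 173) (nat_lit 5) (nat_lit 174) (nat_lit 5) (nat_lit 602) (nat_lit 495) (nat_lit 463))) (XT.nd (nat_lit 78) (nat_lit 0) (nat_lit 0) (XT.lf (nat_lit 0) (nat_lit 397221557) (nat_lit 380) (nat_lit 2845126861) (nat_lit 456) (nat_lit 6758040124) (nat_lit 162) (nat_lit 5) (nat_lit 167) (nat_lit 5) (nat_lit 168) (nat_lit 5) (nat_lit 603) (nat_lit 495) (nat_lit 462)) (XT.lf (nat_lit 0) (nat_lit 7362535721) (nat_lit 456) (nat_lit 1601517786) (nat_lit 76) (nat_lit 1133936879) (nat_lit 162) (nat_lit 5) (nat_lit 168) (nat_lit 5) (nat_lit 163) (nat_lit 5) (nat_lit 604) (nat_lit 495) (nat_lit 461))))))) (XT.nd (nat_lit 79014) (nat_lit 0) (nat_lit 6460) (XT.nd (nat_lit 78390) (nat_lit 0) (nat_lit 13680)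 (XT.nd (nat_lit 234) (nat_lit 836) (nat_lit 0) (XT.nd (nat_lit 78) (nat_lit 684) (nat_lit 0) (XT.lf (nat_lit 0) (nat_lit 1359865356) (nat_lit 456) (nat_lit 3660314867) (nat_lit 76) (nat_lit 5176983762) (nat_lit 156) (nat_lit 5) (nat_lit 162) (nat_lit 5) (nat_lit 157) (nat_lit 5) (nat_lit 605) (nat_lit 495) (nat_lit 460)) (XT.nd (nat_lit 78) (nat_lit 380) (nat_lit 0) (XT.lf (nat_lit 0) (nat_lit 4521352396) (nat_lit 304) (nat_lit 968272886) (nat_lit 380) (nat_lit 4808552574) (nat_lit 152) (nat_lit 5) (nat_lit 156) (nat_lit 5) (nat_lit 157) (nat_lit 5) (nat_lit 606) (nat_lit 495) (nat_lit 459)) (XT.lf (nat_lit 0) (nat_lit 2445282328) (nat_lit 380) (nat_lit 7267080026) (nat_lit 456) (nat_lit 688643630) (nat_lit 147) (nat_lit 5) (nat_lit 152) (nat_lit 5) (nat_lit 153) (nat_lit 5) (nat_lit 607) (nat_lit 495) (nat_lit 458)))) (XT.nd (nat_lit 156) (nat_lit 456) (nat_lit 0) (XT.nd (nat_lit 78) (nat_lit 0) (nat_lit 0) (XT.lf (nat_lit 0) (nat_lit 297680903) (nat_lit 304) (nat_lit 3166635038) (nat_lit 380) (nat_lit 7041185333) (nat_lit 142) (nat_lit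 5) (nat_lit 146) (nat_lit 5) (nat_lit 147) (nat_lit 5) (nat_lit 608) (nat_lit 495) (nat_lit 457)) (XT.lf (nat_lit 0) (nat_lit 7701089537) (nat_lit 380) (nat_lit 1880562384) (nat_lit 76) (nat_lit 1030145519) (nat_lit 142) (nat_lit 5) (nat_lit 147) (nat_lit 5) (nat_lit 143) (nat_lit 5) (nat_lit 609) (nat_lit 495) (nat_lit 456))) (XT.nd (nat_lit 77922) (nat_lit 0) (nat_lit 18924) (XT.lf (nat_lit 0) (nat_lit 1299823189) (nat_lit 456) (nat_lit 4130096401) (nat_lit 76) (nat_lit 5289841786) (nat_lit 136) (nat_lit 5) (nat_lit 142) (nat_lit 5) (nat_lit 137) (nat_lit 5) (nat_lit 610) (nat_lit 495) (nat_lit 455)) (XT.lf (nat_lit 0) (nat_lit 2499046979) (nat_lit 836) (nat_lit 636761510) (nat_lit 836) (nat_lit 636761510) (nat_lit 385) (nat_lit 4) (nat_lit 396) (nat_lit 5) (nat_lit 396) (nat_lit 4) (nat_lit 568) (nat_lit 496) (nat_lit 496))))) (XT.nd (nat_lit 312) (nat_lit 2888) (nat_lit 0) (XT.nd (nat_lit 156) (nat_lit 760) (nat_lit 0) (XT.nd (nat_lit 78) (nat_lit 760) (nat_lit 0) (XT.lf (nat_lit 0) (nat_lit 2459086636) (nat_lit 836) (nat_lit 4095542778)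 (nat_lit 0) (nat_lit 1037411177) (nat_lit 374) (nat_lit 5) (nat_lit 385) (nat_lit 4) (nat_lit 374) (nat_lit 4) (nat_lit 569) (nat_lit 496) (nat_lit 495)) (XT.lf (nat_lit 0) (nat_lit 1983947370) (nat_lit 760) (nat_lit 4235915790) (nat_lit 760) (nat_lit 1420440861) (nat_lit 364) (nat_lit 4) (nat_lit 374) (nat_lit 5) (nat_lit 374) (nat_lit 4) (nat_lit 570) (nat_lit 496) (nat_lit 494))) (XT.nd (nat_lit 78) (nat_lit 0) (nat_lit 0) (XT.lf (nat_lit 0) (nat_lit 460694303) (nat_lit 684) (nat_lit 1837641984) (nat_lit 760) (nat_lit 5391632543) (nat_lit 354) (nat_lit 5) (nat_lit 363) (nat_lit 5) (nat_lit 364) (nat_lit 4) (nat_lit 571) (nat_lit 496) (nat_lit 493)) (XT.lf (nat_lit 0) (nat_lit 6047748956) (nat_lit 760) (nat_lit 1058794366) (nat_lit 0) (nat_lit 634394509) (nat_lit 354) (nat_lit 5) (nat_lit 364) (nat_lit 4) (nat_lit 354) (nat_lit 4) (nat_lit 572) (nat_lit 496) (nat_lit 492)))) (XT.nd (nat_lit 156) (nat_lit 1368) (nat_lit 0) (XT.nd (nat_lit 78) (nat_lit 684) (nat_lit 0) (XT.lf (nat_lit 0) (nat_lit 2032235927) (nat_lit 836) (nat_lit 2595893138)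 (nat_lit 76) (nat_lit 3164925623) (nat_lit 343) (nat_lit 5) (nat_lit 354) (nat_lit 5) (nat_lit 344) (nat_lit 4) (nat_lit 573) (nat_lit 496) (nat_lit 491)) (XT.lf (nat_lit 0) (nat_lit 3703013469) (nat_lit 684) (nat_lit 2072447077) (nat_lit 760) (nat_lit 2071214259) (nat_lit 334) (nat_lit 5) (nat_lit 343) (nat_lit 5) (nat_lit 344) (nat_lit 4) (nat_lit 574) (nat_lit 496) (nat_lit 490))) (XT.nd (nat_lit 78) (nat_lit 608) (nat_lit 0) (XT.lf (nat_lit 0) (nat_lit 1640521459) (nat_lit 760) (nat_lit 5706804372) (nat_lit 76) (nat_lit 554414977) (nat_lit 324) (nat_lit 5) (nat_lit 334) (nat_lit 5) (nat_lit 325) (nat_lit 4) (nat_lit 575) (nat_lit 496) (nat_lit 489)) (XT.lf (nat_lit 0) (nat_lit 658340369) (nat_lit 608) (nat_lit 4722150976) (nat_lit 684) (nat_lit 2577512106) (nat_lit 316) (nat_lit 5) (nat_lit 324) (nat_lit 5) (nat_lit 325) (nat_lit 4) (nat_lit 576) (nat_lit 496) (nat_lit 488)))))) (XT.nd (nat_lit 546) (nat_lit 3876) (nat_lit 0) (XT.nd (nat_lit 234) (nat_lit 1900) (nat_lit 0) (XT.nd (nat_lit 78) (nat_lit 1368) (nat_lit 0) (XT.lf (nat_lit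 0) (nat_lit 1138970318) (nat_lit 684) (nat_lit 876500874) (nat_lit 76) (nat_lit 6000279083) (nat_lit 315) (nat_lit 5) (nat_lit 324) (nat_lit 5) (nat_lit 316) (nat_lit 5) (nat_lit 577) (nat_lit 496) (nat_lit 487)) (XT.nd (nat_lit 78) (nat_lit 684) (nat_lit 0) (XT.lf (nat_lit 0) (nat_lit 4874356470) (nat_lit 760) (nat_lit 2428233479) (nat_lit 76) (nat_lit 772143175) (nat_lit 306) (nat_lit 5) (nat_lit 316) (nat_lit 5) (nat_lit 307) (nat_lit 4) (nat_lit 578) (nat_lit 496) (nat_lit 486)) (XT.lf (nat_lit 0) (nat_lit 526239477) (nat_lit 684) (nat_lit 4001843034) (nat_lit 76) (nat_lit 3607067345) (nat_lit 297) (nat_lit 5) (nat_lit 306) (nat_lit 5) (nat_lit 298) (nat_lit 5) (nat_lit 579) (nat_lit 496) (nat_lit 485)))) (XT.nd (nat_lit 156) (nat_lit 684) (nat_lit 0) (XT.nd (nat_lit 78) (nat_lit 608) (nat_lit 0) (XT.lf (nat_lit 0) (nat_lit 2593875090) (nat_lit 608) (nat_lit 1662102887) (nat_lit 684) (nat_lit 3940948363) (nat_lit 289) (nat_lit 5) (nat_lit 297) (nat_lit 5) (nat_lit 298) (nat_lit 5) (nat_lit 580) (nat_lit 496) (nat_lit 484)) (XT.lf (nat_lit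 0) (nat_lit 1039672599) (nat_lit 608) (nat_lit 7001328712) (nat_lit 684) (nat_lit 219326542) (nat_lit 281) (nat_lit 5) (nat_lit 289) (nat_lit 5) (nat_lit 290) (nat_lit 4) (nat_lit 581) (nat_lit 496) (nat_lit 483))) (XT.nd (nat_lit 78) (nat_lit 608) (nat_lit 0) (XT.lf (nat_lit 0) (nat_lit 3517661447) (nat_lit 684) (nat_lit 549746180) (nat_lit 76) (nat_lit 4257371630) (nat_lit 280) (nat_lit 5) (nat_lit 289) (nat_lit 5) (nat_lit 281) (nat_lit 5) (nat_lit 582) (nat_lit 496) (nat_lit 482)) (XT.lf (nat_lit 0) (nat_lit 6254546579) (nat_lit 608) (nat_lit 1052700999) (nat_lit 684) (nat_lit 1083630322) (nat_lit 272) (nat_lit 5) (nat_lit 280) (nat_lit 5) (nat_lit 281) (nat_lit 5) (nat_lit 583) (nat_lit 496) (nat_lit 481))))) (XT.nd (nat_lit 312) (nat_lit 2128) (nat_lit 0) (XT.nd (nat_lit 156) (nat_lit 608) (nat_lit 0) (XT.nd (nat_lit 78) (nat_lit 532) (nat_lit 0) (XT.lf (nat_lit 0) (nat_lit 2666782171) (nat_lit 608) (nat_lit 3764423000) (nat_lit 76) (nat_lit 2026982788) (nat_lit 264) (nat_lit 5) (nat_lit 272) (nat_lit 5) (nat_lit 265) (nat_lit 5) (nat_lit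 584) (nat_lit 496) (nat_lit 480)) (XT.lf (nat_lit 0) (nat_lit 3107997717) (nat_lit 532) (nat_lit 3352239388) (nat_lit 608) (nat_lit 2066815912) (nat_lit 257) (nat_lit 5) (nat_lit 264) (nat_lit 5) (nat_lit 265) (nat_lit 5) (nat_lit 585) (nat_lit 496) (nat_lit 479))) (XT.nd (nat_lit 78) (nat_lit 0) (nat_lit 0) (XT.lf (nat_lit 0) (nat_lit 1498711491) (nat_lit 532) (nat_lit 187186574) (nat_lit 608) (nat_lit 6911648161) (nat_lit 249) (nat_lit 5) (nat_lit 256) (nat_lit 5) (nat_lit 257) (nat_lit 5) (nat_lit 586) (nat_lit 496) (nat_lit 478)) (XT.lf (nat_lit 0) (nat_lit 5484038210) (nat_lit 608) (nat_lit 156220336) (nat_lit 76) (nat_lit 3028959352) (nat_lit 249) (nat_lit 5) (nat_lit 257) (nat_lit 5) (nat_lit 250) (nat_lit 5) (nat_lit 587) (nat_lit 496) (nat_lit 477)))) (XT.nd (nat_lit 156) (nat_lit 1064) (nat_lit 0) (XT.nd (nat_lit 78) (nat_lit 456) (nat_lit 0) (XT.lf (nat_lit 0) (nat_lit 596742853) (nat_lit 608) (nat_lit 1812021832) (nat_lit 76) (nat_lit 6333700982) (nat_lit 241) (nat_lit 5) (nat_lit 249) (nat_lit 5) (nat_lit 242) (nat_lit 5) (nat_lit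 588) (nat_lit 496) (nat_lit 476)) (XT.lf (nat_lit 0) (nat_lit 4396256376) (nat_lit 532) (nat_lit 3511540869) (nat_lit 76) (nat_lit 909270627) (nat_lit 235) (nat_lit 5) (nat_lit 242) (nat_lit 5) (nat_lit 236) (nat_lit 5) (nat_lit 589) (nat_lit 496) (nat_lit 475))) (XT.nd (nat_lit 78) (nat_lit 532) (nat_lit 0) (XT.lf (nat_lit 0) (nat_lit 3647699096) (nat_lit 532) (nat_lit 4619416269) (nat_lit 608) (nat_lit 626142205) (nat_lit 228) (nat_lit 5) (nat_lit 235) (nat_lit 5) (nat_lit 236) (nat_lit 5) (nat_lit 590) (nat_lit 496) (nat_lit 474)) (XT.lf (nat_lit 0) (nat_lit 1950184446) (nat_lit 456) (nat_lit 1231758521) (nat_lit 532) (nat_lit 5789007775) (nat_lit 221) (nat_lit 5) (nat_lit 227) (nat_lit 5) (nat_lit 228) (nat_lit 5) (nat_lit 591) (nat_lit 496) (nat_lit 473))))))))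
noncomputable def xc8 : XT := (XT.nd (nat_lit 79950) (nat_lit 0) (nat_lit 1520) (XT.nd (nat_lit 1092) (nat_lit 1520) (nat_lit 0) (XT.nd (nat_lit 546) (nat_lit 2508) (nat_lit 0) (XT.nd (nat_lit 234) (nat_lit 1444) (nat_lit 0) (XT.nd (nat_lit 78) (nat_lit 532) (nat_lit 0) (XT.lf (nat_lit 0) (nat_lit 213624051) (nat_lit 456) (nat_lit 6839554922) (nat_lit 532) (nat_lit 1997030969) (nat_lit 215) (nat_lit 5) (nat_lit 221) (nat_lit 5) (nat_lit 222) (nat_lit 5) (nat_lit 592) (nat_lit 496) (nat_lit 472)) (XT.nd (nat_lit 78) (nat_lit 456) (nat_lit 0) (XT.lf (nat_lit 0) (nat_lit 1846138944) (nat_lit 532) (nat_lit 1544875316) (nat_lit 76) (nat_lit 5739801667) (nat_lit 214) (nat_lit 5) (nat_lit 221) (nat_lit 5) (nat_lit 215) (nat_lit 5) (nat_lit 593) (nat_lit 496) (nat_lit 471)) (XT.lf (nat_lit 0) (nat_lit 5724001425) (nat_lit 532) (nat_lit 3337994414) (nat_lit 76) (nat_lit 151085061) (nat_lit 208) (nat_lit 5) (nat_lit 215) (nat_lit 5) (nat_lit 209) (nat_lit 5) (nat_lit 594) (nat_lit 496) (nat_lit 470)))) (XT.nd (nat_lit 156) (nat_lit 532) (nat_lit 0)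 (XT.nd (nat_lit 78) (nat_lit 380) (nat_lit 0) (XT.lf (nat_lit 0) (nat_lit 382862491) (nat_lit 532) (nat_lit 5181108921) (nat_lit 76) (nat_lit 3732863317) (nat_lit 201) (nat_lit 5) (nat_lit 208) (nat_lit 5) (nat_lit 202) (nat_lit 5) (nat_lit 595) (nat_lit 496) (nat_lit 469)) (XT.lf (nat_lit 0) (nat_lit 2307981972) (nat_lit 380) (nat_lit 1961086695) (nat_lit 456) (nat_lit 5113064964) (nat_lit 196) (nat_lit 5) (nat_lit 201) (nat_lit 5) (nat_lit 202) (nat_lit 5) (nat_lit 596) (nat_lit 496) (nat_lit 468))) (XT.nd (nat_lit 78) (nat_lit 76) (nat_lit 0) (XT.lf (nat_lit 0) (nat_lit 461995066) (nat_lit 456) (nat_lit 7766458758) (nat_lit 532) (nat_lit 1240777683) (nat_lit 190) (nat_lit 5) (nat_lit 196) (nat_lit 5) (nat_lit 197) (nat_lit 5) (nat_lit 597) (nat_lit 496) (nat_lit 467)) (XT.lf (nat_lit 0) (nat_lit 2680703166) (nat_lit 532) (nat_lit 1424782177) (nat_lit 76) (nat_lit 5452090716) (nat_lit 189) (nat_lit 5) (nat_lit 196) (nat_lit 5) (nat_lit 190) (nat_lit 5) (nat_lit 598) (nat_lit 496) (nat_lit 466))))) (XT.nd (nat_lit 234) (nat_lit 1292) (nat_lit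 0) (XT.nd (nat_lit 78) (nat_lit 836) (nat_lit 0) (XT.lf (nat_lit 0) (nat_lit 6303851885) (nat_lit 380) (nat_lit 348644279) (nat_lit 456) (nat_lit 2995259352) (nat_lit 184) (nat_lit 5) (nat_lit 189) (nat_lit 5) (nat_lit 190) (nat_lit 5) (nat_lit 599) (nat_lit 496) (nat_lit 465)) (XT.nd (nat_lit 78) (nat_lit 380) (nat_lit 0) (XT.lf (nat_lit 0) (nat_lit 960237167) (nat_lit 456) (nat_lit 5324007095) (nat_lit 76) (nat_lit 3455193147) (nat_lit 178) (nat_lit 5) (nat_lit 184) (nat_lit 5) (nat_lit 179) (nat_lit 5) (nat_lit 600) (nat_lit 496) (nat_lit 464)) (XT.lf (nat_lit 0) (nat_lit 2472478577) (nat_lit 380) (nat_lit 2471293053) (nat_lit 456) (nat_lit 4889006504) (nat_lit 173) (nat_lit 5) (nat_lit 178) (nat_lit 5) (nat_lit 179) (nat_lit 5) (nat_lit 601) (nat_lit 496) (nat_lit 463)))) (XT.nd (nat_lit 156) (nat_lit 836) (nat_lit 0) (XT.nd (nat_lit 78) (nat_lit 76) (nat_lit 0) (XT.lf (nat_lit 0) (nat_lit 485976058) (nat_lit 380) (nat_lit 8517687990) (nat_lit 456) (nat_lit 924389705) (nat_lit 168) (nat_lit 5) (nat_lit 173) (nat_lit 5) (nat_lit 174)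 (nat_lit 5) (nat_lit 602) (nat_lit 496) (nat_lit 462)) (XT.lf (nat_lit 0) (nat_lit 3093204780) (nat_lit 456) (nat_lit 1553147174) (nat_lit 76) (nat_lit 5378187632) (nat_lit 167) (nat_lit 5) (nat_lit 173) (nat_lit 5) (nat_lit 168) (nat_lit 5) (nat_lit 603) (nat_lit 496) (nat_lit 461))) (XT.nd (nat_lit 78) (nat_lit 456) (nat_lit 0) (XT.lf (nat_lit 0) (nat_lit 6493286238) (nat_lit 380) (nat_lit 677180818) (nat_lit 456) (nat_lit 2952533725) (nat_lit 162) (nat_lit 5) (nat_lit 167) (nat_lit 5) (nat_lit 168) (nat_lit 5) (nat_lit 604) (nat_lit 496) (nat_lit 460)) (XT.lf (nat_lit 0) (nat_lit 1102534153) (nat_lit 456) (nat_lit 5775118073) (nat_lit 76) (nat_lit 3345413143) (nat_lit 156) (nat_lit 5) (nat_lit 162) (nat_lit 5) (nat_lit 157) (nat_lit 5) (nat_lit 605) (nat_lit 496) (nat_lit 459)))))) (XT.nd (nat_lit 78234) (nat_lit 0) (nat_lit 14288) (XT.nd (nat_lit 234) (nat_lit 760) (nat_lit 0) (XT.nd (nat_lit 78) (nat_lit 456) (nat_lit 0) (XT.lf (nat_lit 0) (nat_lit 2338439490) (nat_lit 304) (nat_lit 2854906475) (nat_lit 380) (nat_lit 5131513040) (nat_lit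 152) (nat_lit 5) (nat_lit 156) (nat_lit 5) (nat_lit 157) (nat_lit 5) (nat_lit 606) (nat_lit 496) (nat_lit 458)) (XT.nd (nat_lit 78) (nat_lit 76) (nat_lit 0) (XT.lf (nat_lit 0) (nat_lit 178592463) (nat_lit 380) (nat_lit 9185885097) (nat_lit 456) (nat_lit 1064242467) (nat_lit 147) (nat_lit 5) (nat_lit 152) (nat_lit 5) (nat_lit 153) (nat_lit 5) (nat_lit 607) (nat_lit 496) (nat_lit 457)) (XT.lf (nat_lit 0) (nat_lit 3067136233) (nat_lit 456) (nat_lit 2037872241) (nat_lit 76) (nat_lit 5428786508) (nat_lit 146) (nat_lit 5) (nat_lit 152) (nat_lit 5) (nat_lit 147) (nat_lit 5) (nat_lit 608) (nat_lit 496) (nat_lit 456)))) (XT.nd (nat_lit 77844) (nat_lit 0) (nat_lit 19760) (XT.nd (nat_lit 78) (nat_lit 456) (nat_lit 0) (XT.lf (nat_lit 0) (nat_lit 6336089821) (nat_lit 304) (nat_lit 923287392) (nat_lit 380) (nat_lit 3381605328) (nat_lit 142) (nat_lit 5) (nat_lit 146) (nat_lit 5) (nat_lit 147) (nat_lit 5) (nat_lit 609) (nat_lit 496) (nat_lit 455)) (XT.lf (nat_lit 0) (nat_lit 788667157) (nat_lit 456) (nat_lit 6646866645) (nat_lit 76) (nat_lit 3314403224)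 (nat_lit 136) (nat_lit 5) (nat_lit 142) (nat_lit 5) (nat_lit 137) (nat_lit 5) (nat_lit 610) (nat_lit 496) (nat_lit 454))) (XT.nd (nat_lit 78) (nat_lit 0) (nat_lit 0) (XT.lf (nat_lit 0) (nat_lit 142251215) (nat_lit 912) (nat_lit 3442869009) (nat_lit 0) (nat_lit 142251215) (nat_lit 396) (nat_lit 5) (nat_lit 408) (nat_lit 4) (nat_lit 396) (nat_lit 4) (nat_lit 566) (nat_lit 497) (nat_lit 497)) (XT.lf (nat_lit 0) (nat_lit 3981524932) (nat_lit 912) (nat_lit 1015536611) (nat_lit 0) (nat_lit 2502413784) (nat_lit 396) (nat_lit 5) (nat_lit 408) (nat_lit 4) (nat_lit 396) (nat_lit 4) (nat_lit 567) (nat_lit 497) (nat_lit 496))))) (XT.nd (nat_lit 312) (nat_lit 2280) (nat_lit 0) (XT.nd (nat_lit 156) (nat_lit 1520) (nat_lit 0) (XT.nd (nat_lit 78) (nat_lit 760) (nat_lit 0) (XT.lf (nat_lit 0) (nat_lit 168870852) (nat_lit 912) (nat_lit 2588100993) (nat_lit 76) (nat_lit 4788824167) (nat_lit 384) (nat_lit 5) (nat_lit 396) (nat_lit 5) (nat_lit 385) (nat_lit 4) (nat_lit 568) (nat_lit 497) (nat_lit 495)) (XT.lf (nat_lit 0) (nat_lit 3414021580) (nat_lit 760) (nat_lit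 429996813) (nat_lit 836) (nat_lit 3749330274) (nat_lit 374) (nat_lit 5) (nat_lit 384) (nat_lit 5) (nat_lit 385) (nat_lit 4) (nat_lit 569) (nat_lit 497) (nat_lit 494))) (XT.nd (nat_lit 78) (nat_lit 760) (nat_lit 0) (XT.lf (nat_lit 0) (nat_lit 1862047033) (nat_lit 760) (nat_lit 5706176330) (nat_lit 760) (nat_lit 74122364) (nat_lit 364) (nat_lit 4) (nat_lit 374) (nat_lit 5) (nat_lit 374) (nat_lit 4) (nat_lit 570) (nat_lit 497) (nat_lit 493)) (XT.lf (nat_lit 0) (nat_lit 286234317) (nat_lit 684) (nat_lit 3306817574) (nat_lit 760) (nat_lit 4099464850) (nat_lit 354) (nat_lit 5) (nat_lit 363) (nat_lit 5) (nat_lit 364) (nat_lit 4) (nat_lit 571) (nat_lit 497) (nat_lit 492)))) (XT.nd (nat_lit 156) (nat_lit 1444) (nat_lit 0) (XT.nd (nat_lit 78) (nat_lit 836) (nat_lit 0) (XT.lf (nat_lit 0) (nat_lit 6472711718) (nat_lit 684) (nat_lit 833154911) (nat_lit 760) (nat_lit 438353143) (nat_lit 354) (nat_lit 5) (nat_lit 363) (nat_lit 5) (nat_lit 364) (nat_lit 4) (nat_lit 572) (nat_lit 497) (nat_lit 491)) (XT.lf (nat_lit 0) (nat_lit 3231492894) (nat_lit 836) (nat_lit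 2857476646) (nat_lit 76) (nat_lit 1707988565) (nat_lit 343) (nat_lit 5) (nat_lit 354) (nat_lit 5) (nat_lit 344) (nat_lit 4) (nat_lit 573) (nat_lit 497) (nat_lit 490))) (XT.nd (nat_lit 78) (nat_lit 760) (nat_lit 0) (XT.lf (nat_lit 0) (nat_lit 3398212369) (nat_lit 684) (nat_lit 3542856296) (nat_lit 760) (nat_lit 910184487) (nat_lit 334) (nat_lit 5) (nat_lit 343) (nat_lit 5) (nat_lit 344) (nat_lit 4) (nat_lit 574) (nat_lit 497) (nat_lit 489)) (XT.lf (nat_lit 0) (nat_lit 1837621500) (nat_lit 684) (nat_lit 911200015) (nat_lit 760) (nat_lit 5158098807) (nat_lit 324) (nat_lit 5) (nat_lit 333) (nat_lit 5) (nat_lit 334) (nat_lit 5) (nat_lit 575) (nat_lit 497) (nat_lit 488))))))) (XT.nd (nat_lit 1170) (nat_lit 5472) (nat_lit 0) (XT.nd (nat_lit 546) (nat_lit 3952) (nat_lit 0) (XT.nd (nat_lit 234) (nat_lit 1976) (nat_lit 0) (XT.nd (nat_lit 78) (nat_lit 760) (nat_lit 0) (XT.lf (nat_lit 0) (nat_lit 256799162) (nat_lit 608) (nat_lit 6192270058) (nat_lit 684) (nat_lit 1514910027) (nat_lit 316) (nat_lit 5) (nat_lit 324) (nat_lit 5) (nat_lit 325) (nat_lit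 4) (nat_lit 576) (nat_lit 497) (nat_lit 487)) (XT.nd (nat_lit 78) (nat_lit 684) (nat_lit 0) (XT.lf (nat_lit 0) (nat_lit 2156586849) (nat_lit 684) (nat_lit 1330766818) (nat_lit 76) (nat_lit 4534857178) (nat_lit 315) (nat_lit 5) (nat_lit 324) (nat_lit 5) (nat_lit 316) (nat_lit 5) (nat_lit 577) (nat_lit 497) (nat_lit 486)) (XT.lf (nat_lit 0) (nat_lit 5151790580) (nat_lit 684) (nat_lit 701416390) (nat_lit 760) (nat_lit 2228763779) (nat_lit 306) (nat_lit 5) (nat_lit 315) (nat_lit 5) (nat_lit 316) (nat_lit 5) (nat_lit 578) (nat_lit 497) (nat_lit 485)))) (XT.nd (nat_lit 156) (nat_lit 684) (nat_lit 0) (XT.nd (nat_lit 78) (nat_lit 608) (nat_lit 0) (XT.lf (nat_lit 0) (nat_lit 1446617025) (nat_lit 684) (nat_lit 4559786445) (nat_lit 76) (nat_lit 2136629361) (nat_lit 297) (nat_lit 5) (nat_lit 306) (nat_lit 5) (nat_lit 298) (nat_lit 5) (nat_lit 579) (nat_lit 497) (nat_lit 484)) (XT.lf (nat_lit 0) (nat_lit 1988491955) (nat_lit 608) (nat_lit 3153919061) (nat_lit 684) (nat_lit 3063078822) (nat_lit 289) (nat_lit 5) (nat_lit 297) (nat_lit 5) (nat_lit 298)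 (nat_lit 5) (nat_lit 580) (nat_lit 497) (nat_lit 483))) (XT.nd (nat_lit 78) (nat_lit 0) (nat_lit 0) (XT.lf (nat_lit 0) (nat_lit 381517400) (nat_lit 608) (nat_lit 225899401) (nat_lit 684) (nat_lit 7662240393) (nat_lit 280) (nat_lit 5) (nat_lit 288) (nat_lit 5) (nat_lit 289) (nat_lit 5) (nat_lit 581) (nat_lit 497) (nat_lit 482)) (XT.lf (nat_lit 0) (nat_lit 4310449593) (nat_lit 684) (nat_lit 1257094730) (nat_lit 76) (nat_lit 2767158908) (nat_lit 280) (nat_lit 5) (nat_lit 289) (nat_lit 5) (nat_lit 281) (nat_lit 5) (nat_lit 582) (nat_lit 497) (nat_lit 481))))) (XT.nd (nat_lit 312) (nat_lit 1596) (nat_lit 0) (XT.nd (nat_lit 156) (nat_lit 1140) (nat_lit 0) (XT.nd (nat_lit 78) (nat_lit 608) (nat_lit 0) (XT.lf (nat_lit 0) (nat_lit 5498153596) (nat_lit 608) (nat_lit 2567939748) (nat_lit 684) (nat_lit 335388888) (nat_lit 272) (nat_lit 5) (nat_lit 280) (nat_lit 5) (nat_lit 281) (nat_lit 5) (nat_lit 583) (nat_lit 497) (nat_lit 480)) (XT.lf (nat_lit 0) (nat_lit 3361059668) (nat_lit 608) (nat_lit 4587595187) (nat_lit 76) (nat_lit 520924739) (nat_lit 264)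 (nat_lit 5) (nat_lit 272) (nat_lit 5) (nat_lit 265) (nat_lit 5) (nat_lit 584) (nat_lit 497) (nat_lit 479))) (XT.nd (nat_lit 78) (nat_lit 608) (nat_lit 0) (XT.lf (nat_lit 0) (nat_lit 2233861169) (nat_lit 532) (nat_lit 4886317930) (nat_lit 608) (nat_lit 1418953685) (nat_lit 257) (nat_lit 5) (nat_lit 264) (nat_lit 5) (nat_lit 265) (nat_lit 5) (nat_lit 585) (nat_lit 497) (nat_lit 478)) (XT.lf (nat_lit 0) (nat_lit 556308327) (nat_lit 532) (nat_lit 1734294445) (nat_lit 608) (nat_lit 6319633675) (nat_lit 249) (nat_lit 5) (nat_lit 256) (nat_lit 5) (nat_lit 257) (nat_lit 5) (nat_lit 586) (nat_lit 497) (nat_lit 477)))) (XT.nd (nat_lit 156) (nat_lit 988) (nat_lit 0) (XT.nd (nat_lit 78) (nat_lit 608) (nat_lit 0) (XT.lf (nat_lit 0) (nat_lit 6050387966) (nat_lit 608) (nat_lit 1141122805) (nat_lit 76) (nat_lit 1491165788) (nat_lit 249) (nat_lit 5) (nat_lit 257) (nat_lit 5) (nat_lit 250) (nat_lit 5) (nat_lit 587) (nat_lit 497) (nat_lit 476)) (XT.lf (nat_lit 0) (nat_lit 1107661285) (nat_lit 608) (nat_lit 2867115987) (nat_lit 76) (nat_lit 4781770977) (nat_lit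 241) (nat_lit 5) (nat_lit 249) (nat_lit 5) (nat_lit 242) (nat_lit 5) (nat_lit 588) (nat_lit 497) (nat_lit 475))) (XT.nd (nat_lit 78) (nat_lit 532) (nat_lit 0) (XT.lf (nat_lit 0) (nat_lit 4202808058) (nat_lit 456) (nat_lit 663539562) (nat_lit 532) (nat_lit 3965620642) (nat_lit 235) (nat_lit 5) (nat_lit 241) (nat_lit 5) (nat_lit 242) (nat_lit 5) (nat_lit 589) (nat_lit 497) (nat_lit 474)) (XT.lf (nat_lit 0) (nat_lit 2479669426) (nat_lit 532) (nat_lit 6218213700) (nat_lit 608) (nat_lit 211062542) (nat_lit 228) (nat_lit 5) (nat_lit 235) (nat_lit 5) (nat_lit 236) (nat_lit 5) (nat_lit 590) (nat_lit 497) (nat_lit 473)))))) (XT.nd (nat_lit 546) (nat_lit 3040) (nat_lit 0) (XT.nd (nat_lit 234) (nat_lit 1368) (nat_lit 0) (XT.nd (nat_lit 78) (nat_lit 532) (nat_lit 0) (XT.lf (nat_lit 0) (nat_lit 707975183) (nat_lit 456) (nat_lit 2848209400) (nat_lit 532) (nat_lit 5431109432) (nat_lit 221) (nat_lit 5) (nat_lit 227) (nat_lit 5) (nat_lit 228) (nat_lit 5) (nat_lit 591) (nat_lit 497) (nat_lit 472)) (XT.nd (nat_lit 78) (nat_lit 532) (nat_lit 0) (XT.lf (nat_lit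 0) (nat_lit 7388411442) (nat_lit 532) (nat_lit 1076942890) (nat_lit 76) (nat_lit 601980234) (nat_lit 221) (nat_lit 5) (nat_lit 228) (nat_lit 5) (nat_lit 222) (nat_lit 5) (nat_lit 592) (nat_lit 497) (nat_lit 471)) (XT.lf (nat_lit 0) (nat_lit 2125912426) (nat_lit 532) (nat_lit 2908845899) (nat_lit 76) (nat_lit 4113825286) (nat_lit 214) (nat_lit 5) (nat_lit 221) (nat_lit 5) (nat_lit 215) (nat_lit 5) (nat_lit 593) (nat_lit 497) (nat_lit 470)))) (XT.nd (nat_lit 156) (nat_lit 380) (nat_lit 0) (XT.nd (nat_lit 78) (nat_lit 532) (nat_lit 0) (XT.lf (nat_lit 0) (nat_lit 4454458336) (nat_lit 456) (nat_lit 1512592103) (nat_lit 532) (nat_lit 3264533735) (nat_lit 208) (nat_lit 5) (nat_lit 214) (nat_lit 5) (nat_lit 215) (nat_lit 5) (nat_lit 594) (nat_lit 497) (nat_lit 469)) (XT.lf (nat_lit 0) (nat_lit 558363079) (nat_lit 532) (nat_lit 6689724301) (nat_lit 76) (nat_lit 2068144526) (nat_lit 201) (nat_lit 5) (nat_lit 208) (nat_lit 5) (nat_lit 202) (nat_lit 5) (nat_lit 595) (nat_lit 497) (nat_lit 468))) (XT.nd (nat_lit 78) (nat_lit 0) (nat_lit 0) (XT.lf (nat_lit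 0) (nat_lit 739490071) (nat_lit 380) (nat_lit 3668671207) (nat_lit 456) (nat_lit 4994098724) (nat_lit 196) (nat_lit 5) (nat_lit 201) (nat_lit 5) (nat_lit 202) (nat_lit 5) (nat_lit 596) (nat_lit 497) (nat_lit 467)) (XT.lf (nat_lit 0) (nat_lit 8327411538) (nat_lit 456) (nat_lit 1161077805) (nat_lit 76) (nat_lit 1672250) (nat_lit 196) (nat_lit 5) (nat_lit 202) (nat_lit 5) (nat_lit 197) (nat_lit 5) (nat_lit 597) (nat_lit 497) (nat_lit 466))))) (XT.nd (nat_lit 312) (nat_lit 1292) (nat_lit 0) (XT.nd (nat_lit 156) (nat_lit 836) (nat_lit 0) (XT.nd (nat_lit 78) (nat_lit 380) (nat_lit 0) (XT.lf (nat_lit 0) (nat_lit 2724053946) (nat_lit 532) (nat_lit 3124392540) (nat_lit 76) (nat_lit 3730723575) (nat_lit 189) (nat_lit 5) (nat_lit 196) (nat_lit 5) (nat_lit 190) (nat_lit 5) (nat_lit 598) (nat_lit 497) (nat_lit 465)) (XT.lf (nat_lit 0) (nat_lit 4542346416) (nat_lit 380) (nat_lit 2116608524) (nat_lit 456) (nat_lit 3011133375) (nat_lit 184) (nat_lit 5) (nat_lit 189) (nat_lit 5) (nat_lit 190) (nat_lit 5) (nat_lit 599) (nat_lit 497) (nat_lit 464))) (XT.nd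 (nat_lit 78) (nat_lit 380) (nat_lit 0) (XT.lf (nat_lit 0) (nat_lit 895559839) (nat_lit 456) (nat_lit 7182275924) (nat_lit 76) (nat_lit 1684917656) (nat_lit 178) (nat_lit 5) (nat_lit 184) (nat_lit 5) (nat_lit 179) (nat_lit 5) (nat_lit 600) (nat_lit 497) (nat_lit 463)) (XT.lf (nat_lit 0) (nat_lit 549959925) (nat_lit 380) (nat_lit 4291437207) (nat_lit 456) (nat_lit 5015451858) (nat_lit 173) (nat_lit 5) (nat_lit 178) (nat_lit 5) (nat_lit 179) (nat_lit 5) (nat_lit 601) (nat_lit 497) (nat_lit 462)))) (XT.nd (nat_lit 156) (nat_lit 836) (nat_lit 0) (XT.nd (nat_lit 78) (nat_lit 456) (nat_lit 0) (XT.lf (nat_lit 0) (nat_lit 8455864894) (nat_lit 380) (nat_lit 408039141) (nat_lit 456) (nat_lit 1088969168) (nat_lit 173) (nat_lit 5) (nat_lit 178) (nat_lit 5) (nat_lit 179) (nat_lit 5) (nat_lit 602) (nat_lit 497) (nat_lit 461)) (XT.lf (nat_lit 0) (nat_lit 2893232062) (nat_lit 456) (nat_lit 3616524006) (nat_lit 76) (nat_lit 3540376226) (nat_lit 167) (nat_lit 5) (nat_lit 173) (nat_lit 5) (nat_lit 168) (nat_lit 5) (nat_lit 603) (nat_lit 497) (nat_lit 460)))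 (XT.nd (nat_lit 78) (nat_lit 456) (nat_lit 0) (XT.lf (nat_lit 0) (nat_lit 4363481905) (nat_lit 380) (nat_lit 2568685779) (nat_lit 456) (nat_lit 3217193169) (nat_lit 162) (nat_lit 5) (nat_lit 167) (nat_lit 5) (nat_lit 168) (nat_lit 5) (nat_lit 604) (nat_lit 497) (nat_lit 459)) (XT.lf (nat_lit 0) (nat_lit 790010429) (nat_lit 456) (nat_lit 8011967762) (nat_lit 76) (nat_lit 1448509127) (nat_lit 156) (nat_lit 5) (nat_lit 162) (nat_lit 5) (nat_lit 157) (nat_lit 5) (nat_lit 605) (nat_lit 497) (nat_lit 458))))))))
noncomputable def xc9 : XT := (XT.nd (nat_lit 79872) (nat_lit 0) (nat_lit 456) (XT.nd (nat_lit 78702) (nat_lit 0) (nat_lit 7980) (XT.nd (nat_lit 78078) (nat_lit 0) (nat_lit 15732) (XT.nd (nat_lit 234) (nat_lit 760) (nat_lit 0) (XT.nd (nat_lit 78) (nat_lit 456) (nat_lit 0) (XT.lf (nat_lit 0) (nat_lit 32642580) (nat_lit 304) (nat_lit 4808919488) (nat_lit 380) (nat_lit 5511504873) (nat_lit 152) (nat_lit 5) (nat_lit 156) (nat_lit 5) (nat_lit 157) (nat_lit 5) (nat_lit 606) (nat_lit 497) (nat_lit 457)) (XT.nd (nat_lit 78) (nat_lit 456) (nat_lit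 0) (XT.lf (nat_lit 0) (nat_lit 8269077163) (nat_lit 304) (nat_lit 710225244) (nat_lit 380) (nat_lit 1478294152) (nat_lit 152) (nat_lit 5) (nat_lit 156) (nat_lit 5) (nat_lit 157) (nat_lit 5) (nat_lit 607) (nat_lit 497) (nat_lit 456)) (XT.lf (nat_lit 0) (nat_lit 2615317821) (nat_lit 456) (nat_lit 4494743589) (nat_lit 76) (nat_lit 3453528553) (nat_lit 146) (nat_lit 5) (nat_lit 152) (nat_lit 5) (nat_lit 147) (nat_lit 5) (nat_lit 608) (nat_lit 497) (nat_lit 455)))) (XT.nd (nat_lit 77688) (nat_lit 0) (nat_lit 20672) (XT.nd (nat_lit 78) (nat_lit 456) (nat_lit 0) (XT.lf (nat_lit 0) (nat_lit 3807918281) (nat_lit 304) (nat_lit 2959606024) (nat_lit 380) (nat_lit 3904054633) (nat_lit 142) (nat_lit 5) (nat_lit 146) (nat_lit 5) (nat_lit 147) (nat_lit 5) (nat_lit 609) (nat_lit 497) (nat_lit 454)) (XT.lf (nat_lit 0) (nat_lit 218996637) (nat_lit 456) (nat_lit 9292941105) (nat_lit 76) (nat_lit 1269745684) (nat_lit 136) (nat_lit 5) (nat_lit 142) (nat_lit 5) (nat_lit 137) (nat_lit 5) (nat_lit 610) (nat_lit 497) (nat_lit 453))) (XT.nd (nat_lit 78) (nat_lit 836)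 (nat_lit 0) (XT.lf (nat_lit 0) (nat_lit 937762236) (nat_lit 912) (nat_lit 1808426284) (nat_lit 0) (nat_lit 937762236) (nat_lit 419) (nat_lit 5) (nat_lit 431) (nat_lit 4) (nat_lit 419) (nat_lit 4) (nat_lit 564) (nat_lit 498) (nat_lit 498)) (XT.lf (nat_lit 0) (nat_lit 2138911319) (nat_lit 836) (nat_lit 3405410164) (nat_lit 836) (nat_lit 1866542926) (nat_lit 408) (nat_lit 4) (nat_lit 419) (nat_lit 5) (nat_lit 419) (nat_lit 4) (nat_lit 565) (nat_lit 498) (nat_lit 497))))) (XT.nd (nat_lit 312) (nat_lit 2356) (nat_lit 0) (XT.nd (nat_lit 156) (nat_lit 1672) (nat_lit 0) (XT.nd (nat_lit 78) (nat_lit 0) (nat_lit 0) (XT.lf (nat_lit 0) (nat_lit 521919665) (nat_lit 836) (nat_lit 1245149777) (nat_lit 912) (nat_lit 5688198343) (nat_lit 396) (nat_lit 5) (nat_lit 407) (nat_lit 5) (nat_lit 408) (nat_lit 4) (nat_lit 566) (nat_lit 498) (nat_lit 496)) (XT.lf (nat_lit 0) (nat_lit 5422467708) (nat_lit 912) (nat_lit 1093813125) (nat_lit 0) (nat_lit 984554221) (nat_lit 396) (nat_lit 5) (nat_lit 408) (nat_lit 4) (nat_lit 396) (nat_lit 4) (nat_lit 567) (nat_lit 498)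 (nat_lit 495))) (XT.nd (nat_lit 78) (nat_lit 760) (nat_lit 0) (XT.lf (nat_lit 0) (nat_lit 1555701253) (nat_lit 912) (nat_lit 2717072413) (nat_lit 76) (nat_lit 3274874827) (nat_lit 384) (nat_lit 5) (nat_lit 396) (nat_lit 5) (nat_lit 385) (nat_lit 4) (nat_lit 568) (nat_lit 498) (nat_lit 494)) (XT.lf (nat_lit 0) (nat_lit 3244651081) (nat_lit 760) (nat_lit 1952398174) (nat_lit 836) (nat_lit 2398830083) (nat_lit 374) (nat_lit 5) (nat_lit 384) (nat_lit 5) (nat_lit 385) (nat_lit 4) (nat_lit 569) (nat_lit 498) (nat_lit 493)))) (XT.nd (nat_lit 156) (nat_lit 836) (nat_lit 0) (XT.nd (nat_lit 78) (nat_lit 684) (nat_lit 0) (XT.lf (nat_lit 0) (nat_lit 1215802070) (nat_lit 836) (nat_lit 5994921470) (nat_lit 76) (nat_lit 434865949) (nat_lit 363) (nat_lit 5) (nat_lit 374) (nat_lit 5) (nat_lit 364) (nat_lit 4) (nat_lit 570) (nat_lit 498) (nat_lit 492)) (XT.lf (nat_lit 0) (nat_lit 29042789) (nat_lit 684) (nat_lit 4819121968) (nat_lit 760) (nat_lit 2848264980) (nat_lit 354) (nat_lit 5) (nat_lit 363) (nat_lit 5) (nat_lit 364) (nat_lit 4) (nat_lit 571) (nat_lit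 498) (nat_lit 491))) (XT.nd (nat_lit 78) (nat_lit 760) (nat_lit 0) (XT.lf (nat_lit 0) (nat_lit 770185058) (nat_lit 760) (nat_lit 1576777076) (nat_lit 76) (nat_lit 5401707097) (nat_lit 353) (nat_lit 5) (nat_lit 363) (nat_lit 5) (nat_lit 354) (nat_lit 5) (nat_lit 572) (nat_lit 498) (nat_lit 490)) (XT.lf (nat_lit 0) (nat_lit 4390761849) (nat_lit 836) (nat_lit 3203516368) (nat_lit 76) (nat_lit 207944782) (nat_lit 343) (nat_lit 5) (nat_lit 354) (nat_lit 5) (nat_lit 344) (nat_lit 4) (nat_lit 573) (nat_lit 498) (nat_lit 489)))))) (XT.nd (nat_lit 546) (nat_lit 3648) (nat_lit 0) (XT.nd (nat_lit 234) (nat_lit 2660) (nat_lit 0) (XT.nd (nat_lit 78) (nat_lit 684) (nat_lit 0) (XT.lf (nat_lit 0) (nat_lit 206819128) (nat_lit 760) (nat_lit 4849940265) (nat_lit 76) (nat_lit 2800404924) (nat_lit 333) (nat_lit 5) (nat_lit 343) (nat_lit 5) (nat_lit 334) (nat_lit 5) (nat_lit 574) (nat_lit 498) (nat_lit 488)) (XT.nd (nat_lit 78) (nat_lit 0) (nat_lit 0) (XT.lf (nat_lit 0) (nat_lit 1390335789) (nat_lit 684) (nat_lit 2429754845) (nat_lit 760) (nat_lit 4093300448)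 (nat_lit 324) (nat_lit 5) (nat_lit 333) (nat_lit 5) (nat_lit 334) (nat_lit 5) (nat_lit 575) (nat_lit 498) (nat_lit 487)) (XT.lf (nat_lit 0) (nat_lit 7478224315) (nat_lit 760) (nat_lit 229384032) (nat_lit 76) (nat_lit 263685745) (nat_lit 324) (nat_lit 5) (nat_lit 334) (nat_lit 5) (nat_lit 325) (nat_lit 4) (nat_lit 576) (nat_lit 498) (nat_lit 486)))) (XT.nd (nat_lit 156) (nat_lit 1292) (nat_lit 0) (XT.nd (nat_lit 78) (nat_lit 684) (nat_lit 0) (XT.lf (nat_lit 0) (nat_lit 3133065860) (nat_lit 684) (nat_lit 1873036358) (nat_lit 76) (nat_lit 3023931710) (nat_lit 315) (nat_lit 5) (nat_lit 324) (nat_lit 5) (nat_lit 316) (nat_lit 5) (nat_lit 577) (nat_lit 498) (nat_lit 485)) (XT.lf (nat_lit 0) (nat_lit 4563503139) (nat_lit 684) (nat_lit 2232519642) (nat_lit 760) (nat_lit 1294446014) (nat_lit 306) (nat_lit 5) (nat_lit 315) (nat_lit 5) (nat_lit 316) (nat_lit 5) (nat_lit 578) (nat_lit 498) (nat_lit 484))) (XT.nd (nat_lit 78) (nat_lit 608) (nat_lit 0) (XT.lf (nat_lit 0) (nat_lit 2324773924) (nat_lit 684) (nat_lit 5208678755) (nat_lit 76) (nat_lit 618836650)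 (nat_lit 297) (nat_lit 5) (nat_lit 306) (nat_lit 5) (nat_lit 298) (nat_lit 5) (nat_lit 579) (nat_lit 498) (nat_lit 483)) (XT.lf (nat_lit 0) (nat_lit 1291736060) (nat_lit 608) (nat_lit 4694882603) (nat_lit 684) (nat_lit 2228808261) (nat_lit 289) (nat_lit 5) (nat_lit 297) (nat_lit 5) (nat_lit 298) (nat_lit 5) (nat_lit 580) (nat_lit 498) (nat_lit 482))))) (XT.nd (nat_lit 312) (nat_lit 1748) (nat_lit 0) (XT.nd (nat_lit 156) (nat_lit 1216) (nat_lit 0) (XT.nd (nat_lit 78) (nat_lit 608) (nat_lit 0) (XT.lf (nat_lit 0) (nat_lit 1398976178) (nat_lit 684) (nat_lit 374457442) (nat_lit 76) (nat_lit 6506689259) (nat_lit 288) (nat_lit 5) (nat_lit 297) (nat_lit 5) (nat_lit 289) (nat_lit 5) (nat_lit 581) (nat_lit 498) (nat_lit 481)) (XT.lf (nat_lit 0) (nat_lit 5060450125) (nat_lit 684) (nat_lit 2057621140) (nat_lit 76) (nat_lit 1227930338) (nat_lit 280) (nat_lit 5) (nat_lit 289) (nat_lit 5) (nat_lit 281) (nat_lit 5) (nat_lit 582) (nat_lit 498) (nat_lit 480))) (XT.nd (nat_lit 78) (nat_lit 532) (nat_lit 0) (XT.lf (nat_lit 0) (nat_lit 363816141) (nat_lit 684)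 (nat_lit 3767733429) (nat_lit 76) (nat_lit 4281864265) (nat_lit 271) (nat_lit 5) (nat_lit 280) (nat_lit 5) (nat_lit 272) (nat_lit 5) (nat_lit 583) (nat_lit 498) (nat_lit 479)) (XT.lf (nat_lit 0) (nat_lit 2968387139) (nat_lit 532) (nat_lit 1049758043) (nat_lit 608) (nat_lit 4464078304) (nat_lit 264) (nat_lit 5) (nat_lit 271) (nat_lit 5) (nat_lit 272) (nat_lit 5) (nat_lit 584) (nat_lit 498) (nat_lit 478)))) (XT.nd (nat_lit 156) (nat_lit 1140) (nat_lit 0) (XT.nd (nat_lit 78) (nat_lit 76) (nat_lit 0) (XT.lf (nat_lit 0) (nat_lit 1262977019) (nat_lit 532) (nat_lit 6473070177) (nat_lit 608) (nat_lit 816555222) (nat_lit 257) (nat_lit 5) (nat_lit 264) (nat_lit 5) (nat_lit 265) (nat_lit 5) (nat_lit 585) (nat_lit 498) (nat_lit 477)) (XT.lf (nat_lit 0) (nat_lit 2853506412) (nat_lit 608) (nat_lit 478096545) (nat_lit 76) (nat_lit 5292658128) (nat_lit 256) (nat_lit 5) (nat_lit 264) (nat_lit 5) (nat_lit 257) (nat_lit 5) (nat_lit 586) (nat_lit 498) (nat_lit 476))) (XT.nd (nat_lit 78) (nat_lit 608) (nat_lit 0) (XT.lf (nat_lit 0) (nat_lit 6472213455) (nat_lit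 532) (nat_lit 100438272) (nat_lit 608) (nat_lit 2124863580) (nat_lit 249) (nat_lit 5) (nat_lit 256) (nat_lit 5) (nat_lit 257) (nat_lit 5) (nat_lit 587) (nat_lit 498) (nat_lit 475)) (XT.lf (nat_lit 0) (nat_lit 1572953277) (nat_lit 608) (nat_lit 4022463892) (nat_lit 76) (nat_lit 3176614763) (nat_lit 241) (nat_lit 5) (nat_lit 249) (nat_lit 5) (nat_lit 242) (nat_lit 5) (nat_lit 588) (nat_lit 498) (nat_lit 474))))))) (XT.nd (nat_lit 1170) (nat_lit 1900) (nat_lit 0) (XT.nd (nat_lit 546) (nat_lit 2584) (nat_lit 0) (XT.nd (nat_lit 234) (nat_lit 1976) (nat_lit 0) (XT.nd (nat_lit 78) (nat_lit 608) (nat_lit 0) (XT.lf (nat_lit 0) (nat_lit 2993179887) (nat_lit 456) (nat_lit 2303502150) (nat_lit 532) (nat_lit 3551470298) (nat_lit 235) (nat_lit 5) (nat_lit 241) (nat_lit 5) (nat_lit 242) (nat_lit 5) (nat_lit 589) (nat_lit 498) (nat_lit 473)) (XT.nd (nat_lit 78) (nat_lit 0) (nat_lit 0) (XT.lf (nat_lit 0) (nat_lit 154329625) (nat_lit 608) (nat_lit 7717846423) (nat_lit 76) (nat_lit 1053850404) (nat_lit 227) (nat_lit 5) (nat_lit 235) (nat_lit 5) (nat_lit 228)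 (nat_lit 5) (nat_lit 590) (nat_lit 498) (nat_lit 472)) (XT.lf (nat_lit 0) (nat_lit 3887418890) (nat_lit 608) (nat_lit 629980699) (nat_lit 76) (nat_lit 4487576765) (nat_lit 227) (nat_lit 5) (nat_lit 235) (nat_lit 5) (nat_lit 228) (nat_lit 5) (nat_lit 591) (nat_lit 498) (nat_lit 471)))) (XT.nd (nat_lit 156) (nat_lit 988) (nat_lit 0) (XT.nd (nat_lit 78) (nat_lit 532) (nat_lit 0) (XT.lf (nat_lit 0) (nat_lit 6609627967) (nat_lit 456) (nat_lit 1075395229) (nat_lit 532) (nat_lit 1400687305) (nat_lit 221) (nat_lit 5) (nat_lit 227) (nat_lit 5) (nat_lit 228) (nat_lit 5) (nat_lit 592) (nat_lit 498) (nat_lit 470)) (XT.lf (nat_lit 0) (nat_lit 2357750883) (nat_lit 532) (nat_lit 4378929095) (nat_lit 76) (nat_lit 2431099502) (nat_lit 214) (nat_lit 5) (nat_lit 221) (nat_lit 5) (nat_lit 215) (nat_lit 5) (nat_lit 593) (nat_lit 498) (nat_lit 469))) (XT.nd (nat_lit 78) (nat_lit 532) (nat_lit 0) (XT.lf (nat_lit 0) (nat_lit 2926068923) (nat_lit 456) (nat_lit 3236916024) (nat_lit 532) (nat_lit 3088514254) (nat_lit 208) (nat_lit 5) (nat_lit 214) (nat_lit 5) (nat_lit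 215) (nat_lit 5) (nat_lit 594) (nat_lit 498) (nat_lit 468)) (XT.lf (nat_lit 0) (nat_lit 684400620) (nat_lit 532) (nat_lit 8307909033) (nat_lit 76) (nat_lit 344768928) (nat_lit 201) (nat_lit 5) (nat_lit 208) (nat_lit 5) (nat_lit 202) (nat_lit 5) (nat_lit 595) (nat_lit 498) (nat_lit 467))))) (XT.nd (nat_lit 312) (nat_lit 1292) (nat_lit 0) (XT.nd (nat_lit 156) (nat_lit 912) (nat_lit 0) (XT.nd (nat_lit 78) (nat_lit 380) (nat_lit 0) (XT.lf (nat_lit 0) (nat_lit 4503687476) (nat_lit 532) (nat_lit 926927977) (nat_lit 76) (nat_lit 3993102468) (nat_lit 201) (nat_lit 5) (nat_lit 208) (nat_lit 5) (nat_lit 202) (nat_lit 5) (nat_lit 596) (nat_lit 498) (nat_lit 466)) (XT.lf (nat_lit 0) (nat_lit 6612077322) (nat_lit 380) (nat_lit 1779296688) (nat_lit 456) (nat_lit 1120877772) (nat_lit 196) (nat_lit 5) (nat_lit 201) (nat_lit 5) (nat_lit 202) (nat_lit 5) (nat_lit 597) (nat_lit 498) (nat_lit 465))) (XT.nd (nat_lit 78) (nat_lit 380) (nat_lit 0) (XT.lf (nat_lit 0) (nat_lit 2716852355) (nat_lit 532) (nat_lit 4936356253) (nat_lit 76) (nat_lit 1949017656) (nat_lit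 189) (nat_lit 5) (nat_lit 196) (nat_lit 5) (nat_lit 190) (nat_lit 5) (nat_lit 598) (nat_lit 498) (nat_lit 464)) (XT.lf (nat_lit 0) (nat_lit 2667765228) (nat_lit 380) (nat_lit 3946861074) (nat_lit 456) (nat_lit 3079261695) (nat_lit 184) (nat_lit 5) (nat_lit 189) (nat_lit 5) (nat_lit 190) (nat_lit 5) (nat_lit 599) (nat_lit 498) (nat_lit 463)))) (XT.nd (nat_lit 156) (nat_lit 836) (nat_lit 0) (XT.nd (nat_lit 78) (nat_lit 0) (nat_lit 0) (XT.lf (nat_lit 0) (nat_lit 630003241) (nat_lit 380) (nat_lit 149623069) (nat_lit 456) (nat_lit 9007910514) (nat_lit 178) (nat_lit 5) (nat_lit 183) (nat_lit 5) (nat_lit 184) (nat_lit 5) (nat_lit 600) (nat_lit 498) (nat_lit 462)) (XT.lf (nat_lit 0) (nat_lit 4696200955) (nat_lit 456) (nat_lit 1469809345) (nat_lit 76) (nat_lit 3716208235) (nat_lit 178) (nat_lit 5) (nat_lit 184) (nat_lit 5) (nat_lit 179) (nat_lit 5) (nat_lit 601) (nat_lit 498) (nat_lit 461))) (XT.nd (nat_lit 78) (nat_lit 456) (nat_lit 0) (XT.lf (nat_lit 0) (nat_lit 6378544169) (nat_lit 380) (nat_lit 2306011271) (nat_lit 456) (nat_lit 1294371222) (nat_lit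 173) (nat_lit 5) (nat_lit 178) (nat_lit 5) (nat_lit 179) (nat_lit 5) (nat_lit 602) (nat_lit 498) (nat_lit 460)) (XT.lf (nat_lit 0) (nat_lit 2639772818) (nat_lit 456) (nat_lit 5798927736) (nat_lit 76) (nat_lit 1638527726) (nat_lit 167) (nat_lit 5) (nat_lit 173) (nat_lit 5) (nat_lit 168) (nat_lit 5) (nat_lit 603) (nat_lit 498) (nat_lit 459)))))) (XT.nd (nat_lit 77922) (nat_lit 0) (nat_lit 17632) (XT.nd (nat_lit 234) (nat_lit 1064) (nat_lit 0) (XT.nd (nat_lit 78) (nat_lit 456) (nat_lit 0) (XT.lf (nat_lit 0) (nat_lit 2113833699) (nat_lit 380) (nat_lit 4526250346) (nat_lit 456) (nat_lit 3537146100) (nat_lit 162) (nat_lit 5) (nat_lit 167) (nat_lit 5) (nat_lit 168) (nat_lit 5) (nat_lit 604) (nat_lit 498) (nat_lit 458)) (XT.nd (nat_lit 78) (nat_lit 380) (nat_lit 0) (XT.lf (nat_lit 0) (nat_lit 426178002) (nat_lit 456) (nat_lit 94497106) (nat_lit 76) (nat_lit 9758685349) (nat_lit 161) (nat_lit 5) (nat_lit 167) (nat_lit 5) (nat_lit 162) (nat_lit 5) (nat_lit 605) (nat_lit 498) (nat_lit 457)) (XT.lf (nat_lit 0) (nat_lit 4449698182) (nat_lit 456) (nat_lit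 2365506232) (nat_lit 76) (nat_lit 3567297065) (nat_lit 156) (nat_lit 5) (nat_lit 162) (nat_lit 5) (nat_lit 157) (nat_lit 5) (nat_lit 606) (nat_lit 498) (nat_lit 456)))) (XT.nd (nat_lit 156) (nat_lit 304) (nat_lit 0) (XT.nd (nat_lit 78) (nat_lit 456) (nat_lit 0) (XT.lf (nat_lit 0) (nat_lit 5801794337) (nat_lit 304) (nat_lit 2746490663) (nat_lit 380) (nat_lit 1939529922) (nat_lit 152) (nat_lit 5) (nat_lit 156) (nat_lit 5) (nat_lit 157) (nat_lit 5) (nat_lit 607) (nat_lit 498) (nat_lit 455)) (XT.lf (nat_lit 0) (nat_lit 2106750781) (nat_lit 456) (nat_lit 7077800756) (nat_lit 76) (nat_lit 1410385017) (nat_lit 146) (nat_lit 5) (nat_lit 152) (nat_lit 5) (nat_lit 147) (nat_lit 5) (nat_lit 608) (nat_lit 498) (nat_lit 454))) (XT.nd (nat_lit 78) (nat_lit 0) (nat_lit 0) (XT.lf (nat_lit 0) (nat_lit 1152641814) (nat_lit 304) (nat_lit 5065918839) (nat_lit 380) (nat_lit 4485173518) (nat_lit 142) (nat_lit 5) (nat_lit 146) (nat_lit 5) (nat_lit 147) (nat_lit 5) (nat_lit 609) (nat_lit 498) (nat_lit 453)) (XT.lf (nat_lit 0) (nat_lit 9568594007) (nat_lit 304)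 (nat_lit 845161735) (nat_lit 380) (nat_lit 400930428) (nat_lit 142) (nat_lit 5) (nat_lit 146) (nat_lit 5) (nat_lit 147) (nat_lit 5) (nat_lit 610) (nat_lit 498) (nat_lit 452))))) (XT.nd (nat_lit 312) (nat_lit 2584) (nat_lit 0) (XT.nd (nat_lit 156) (nat_lit 1748) (nat_lit 0) (XT.nd (nat_lit 78) (nat_lit 912) (nat_lit 0) (XT.lf (nat_lit 0) (nat_lit 1746696617) (nat_lit 988) (nat_lit 149251286) (nat_lit 0) (nat_lit 1746696617) (nat_lit 443) (nat_lit 5) (nat_lit 456) (nat_lit 4) (nat_lit 443) (nat_lit 4) (nat_lit 562) (nat_lit 499) (nat_lit 499)) (XT.lf (nat_lit 0) (nat_lit 5358422548) (nat_lit 912) (nat_lit 1784481997) (nat_lit 912) (nat_lit 183444522) (nat_lit 431) (nat_lit 4) (nat_lit 443) (nat_lit 5) (nat_lit 443) (nat_lit 4) (nat_lit 563) (nat_lit 499) (nat_lit 498))) (XT.nd (nat_lit 78) (nat_lit 836) (nat_lit 0) (XT.lf (nat_lit 0) (nat_lit 3411043766) (nat_lit 912) (nat_lit 3655010783) (nat_lit 0) (nat_lit 302531945) (nat_lit 419) (nat_lit 5) (nat_lit 431) (nat_lit 4) (nat_lit 419) (nat_lit 4) (nat_lit 564) (nat_lit 499) (nat_lit 497))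 (XT.lf (nat_lit 0) (nat_lit 2062338827) (nat_lit 836) (nat_lit 4983548626) (nat_lit 836) (nat_lit 366343434) (nat_lit 408) (nat_lit 4) (nat_lit 419) (nat_lit 5) (nat_lit 419) (nat_lit 4) (nat_lit 565) (nat_lit 499) (nat_lit 496)))) (XT.nd (nat_lit 156) (nat_lit 1672) (nat_lit 0) (XT.nd (nat_lit 78) (nat_lit 0) (nat_lit 0) (XT.lf (nat_lit 0) (nat_lit 394967126) (nat_lit 836) (nat_lit 2818539540) (nat_lit 912) (nat_lit 4243616863) (nat_lit 396) (nat_lit 5) (nat_lit 407) (nat_lit 5) (nat_lit 408) (nat_lit 4) (nat_lit 566) (nat_lit 499) (nat_lit 495)) (XT.lf (nat_lit 0) (nat_lit 6249315417) (nat_lit 836) (nat_lit 580259199) (nat_lit 912) (nat_lit 673905077) (nat_lit 396) (nat_lit 5) (nat_lit 407) (nat_lit 5) (nat_lit 408) (nat_lit 4) (nat_lit 567) (nat_lit 499) (nat_lit 494))) (XT.nd (nat_lit 78) (nat_lit 760) (nat_lit 0) (XT.lf (nat_lit 0) (nat_lit 2904214519) (nat_lit 912) (nat_lit 2925742325) (nat_lit 76) (nat_lit 1720906698) (nat_lit 384) (nat_lit 5) (nat_lit 396) (nat_lit 5) (nat_lit 385) (nat_lit 4) (nat_lit 568) (nat_lit 499) (nat_lit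 493)) (XT.lf (nat_lit 0) (nat_lit 2995281472) (nat_lit 760) (nat_lit 3516603278) (nat_lit 836) (nat_lit 1087885349) (nat_lit 374) (nat_lit 5) (nat_lit 384) (nat_lit 5) (nat_lit 385) (nat_lit 4) (nat_lit 569) (nat_lit 499) (nat_lit 492))))))))
noncomputable def xc10 : XT := (XT.nd (nat_lit 2340) (nat_lit 3192) (nat_lit 0) (XT.nd (nat_lit 1170) (nat_lit 6080) (nat_lit 0) (XT.nd (nat_lit 546) (nat_lit 4484) (nat_lit 0) (XT.nd (nat_lit 234) (nat_lit 2280) (nat_lit 0) (XT.nd (nat_lit 78) (nat_lit 760) (nat_lit 0) (XT.lf (nat_lit 0) (nat_lit 1350226983) (nat_lit 760) (nat_lit 1122612629) (nat_lit 836) (nat_lit 5177206757) (nat_lit 363) (nat_lit 5) (nat_lit 373) (nat_lit 5) (nat_lit 374) (nat_lit 5) (nat_lit 570) (nat_lit 499) (nat_lit 491)) (XT.nd (nat_lit 78) (nat_lit 760) (nat_lit 0) (XT.lf (nat_lit 0) (nat_lit 6066186185) (nat_lit 836) (nat_lit 306902565) (nat_lit 76) (nat_lit 1328580224) (nat_lit 363) (nat_lit 5) (nat_lit 374) (nat_lit 5) (nat_lit 364) (nat_lit 4) (nat_lit 571) (nat_lit 499) (nat_lit 490)) (XT.lf (nat_lit 0) (nat_lit 1933655360)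 (nat_lit 760) (nat_lit 1968065905) (nat_lit 76) (nat_lit 3852699792) (nat_lit 353) (nat_lit 5) (nat_lit 363) (nat_lit 5) (nat_lit 354) (nat_lit 5) (nat_lit 572) (nat_lit 499) (nat_lit 489)))) (XT.nd (nat_lit 156) (nat_lit 760) (nat_lit 0) (XT.nd (nat_lit 78) (nat_lit 760) (nat_lit 0) (XT.lf (nat_lit 0) (nat_lit 4165739550) (nat_lit 760) (nat_lit 1353545975) (nat_lit 836) (nat_lit 2289390147) (nat_lit 343) (nat_lit 5) (nat_lit 353) (nat_lit 5) (nat_lit 354) (nat_lit 5) (nat_lit 573) (nat_lit 499) (nat_lit 488)) (XT.lf (nat_lit 0) (nat_lit 1271582596) (nat_lit 760) (nat_lit 5338798610) (nat_lit 76) (nat_lit 1253943746) (nat_lit 333) (nat_lit 5) (nat_lit 343) (nat_lit 5) (nat_lit 334) (nat_lit 5) (nat_lit 574) (nat_lit 499) (nat_lit 487))) (XT.nd (nat_lit 78) (nat_lit 76) (nat_lit 0) (XT.lf (nat_lit 0) (nat_lit 856624313) (nat_lit 684) (nat_lit 3994477140) (nat_lit 760) (nat_lit 3070127123) (nat_lit 324) (nat_lit 5) (nat_lit 333) (nat_lit 5) (nat_lit 334) (nat_lit 5) (nat_lit 575) (nat_lit 499) (nat_lit 486)) (XT.lf (nat_lit 0) (nat_lit 491267149)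 (nat_lit 760) (nat_lit 810635144) (nat_lit 76) (nat_lit 6677799871) (nat_lit 323) (nat_lit 5) (nat_lit 333) (nat_lit 5) (nat_lit 324) (nat_lit 5) (nat_lit 576) (nat_lit 499) (nat_lit 485))))) (XT.nd (nat_lit 312) (nat_lit 1900) (nat_lit 0) (XT.nd (nat_lit 156) (nat_lit 1292) (nat_lit 0) (XT.nd (nat_lit 78) (nat_lit 684) (nat_lit 0) (XT.lf (nat_lit 0) (nat_lit 4068790283) (nat_lit 684) (nat_lit 2503522148) (nat_lit 76) (nat_lit 1466910158) (nat_lit 315) (nat_lit 5) (nat_lit 324) (nat_lit 5) (nat_lit 316) (nat_lit 5) (nat_lit 577) (nat_lit 499) (nat_lit 484)) (XT.lf (nat_lit 0) (nat_lit 3886588108) (nat_lit 684) (nat_lit 3811505637) (nat_lit 760) (nat_lit 402238448) (nat_lit 306) (nat_lit 5) (nat_lit 315) (nat_lit 5) (nat_lit 316) (nat_lit 5) (nat_lit 578) (nat_lit 499) (nat_lit 483))) (XT.nd (nat_lit 78) (nat_lit 608) (nat_lit 0) (XT.lf (nat_lit 0) (nat_lit 2207794312) (nat_lit 608) (nat_lit 959489883) (nat_lit 684) (nat_lit 4995514195) (nat_lit 297) (nat_lit 5) (nat_lit 305) (nat_lit 5) (nat_lit 306) (nat_lit 5) (nat_lit 579) (nat_lit 499)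 (nat_lit 482)) (XT.lf (nat_lit 0) (nat_lit 503334167) (nat_lit 608) (nat_lit 6285597814) (nat_lit 684) (nat_lit 1437809514) (nat_lit 289) (nat_lit 5) (nat_lit 297) (nat_lit 5) (nat_lit 298) (nat_lit 5) (nat_lit 580) (nat_lit 499) (nat_lit 481)))) (XT.nd (nat_lit 156) (nat_lit 1216) (nat_lit 0) (XT.nd (nat_lit 78) (nat_lit 608) (nat_lit 0) (XT.lf (nat_lit 0) (nat_lit 2150882684) (nat_lit 684) (nat_lit 1217409158) (nat_lit 76) (nat_lit 4923618767) (nat_lit 288) (nat_lit 5) (nat_lit 297) (nat_lit 5) (nat_lit 289) (nat_lit 5) (nat_lit 581) (nat_lit 499) (nat_lit 480)) (XT.lf (nat_lit 0) (nat_lit 5404617513) (nat_lit 608) (nat_lit 365714105) (nat_lit 684) (nat_lit 2588299695) (nat_lit 280) (nat_lit 5) (nat_lit 288) (nat_lit 5) (nat_lit 289) (nat_lit 5) (nat_lit 582) (nat_lit 499) (nat_lit 479))) (XT.nd (nat_lit 78) (nat_lit 532) (nat_lit 0) (XT.lf (nat_lit 0) (nat_lit 1015273190) (nat_lit 684) (nat_lit 4729382589) (nat_lit 76) (nat_lit 2682031652) (nat_lit 271) (nat_lit 5) (nat_lit 280) (nat_lit 5) (nat_lit 272) (nat_lit 5) (nat_lit 583) (nat_lit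 499) (nat_lit 478)) (XT.lf (nat_lit 0) (nat_lit 1955728594) (nat_lit 532) (nat_lit 2679515140) (nat_lit 608) (nat_lit 3860941912) (nat_lit 264) (nat_lit 5) (nat_lit 271) (nat_lit 5) (nat_lit 272) (nat_lit 5) (nat_lit 584) (nat_lit 499) (nat_lit 477)))))) (XT.nd (nat_lit 546) (nat_lit 3268) (nat_lit 0) (XT.nd (nat_lit 234) (nat_lit 1672) (nat_lit 0) (XT.nd (nat_lit 78) (nat_lit 608) (nat_lit 0) (XT.lf (nat_lit 0) (nat_lit 194964529) (nat_lit 532) (nat_lit 8113118386) (nat_lit 608) (nat_lit 259384288) (nat_lit 257) (nat_lit 5) (nat_lit 264) (nat_lit 5) (nat_lit 265) (nat_lit 5) (nat_lit 585) (nat_lit 499) (nat_lit 476)) (XT.nd (nat_lit 78) (nat_lit 532) (nat_lit 0) (XT.lf (nat_lit 0) (nat_lit 3375936285) (nat_lit 608) (nat_lit 1602673533) (nat_lit 76) (nat_lit 3660993688) (nat_lit 256) (nat_lit 5) (nat_lit 264) (nat_lit 5) (nat_lit 257) (nat_lit 5) (nat_lit 586) (nat_lit 499) (nat_lit 475)) (XT.lf (nat_lit 0) (nat_lit 5294859781) (nat_lit 532) (nat_lit 1765681911) (nat_lit 608) (nat_lit 1653008125) (nat_lit 249) (nat_lit 5) (nat_lit 256) (nat_lit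 5) (nat_lit 257) (nat_lit 5) (nat_lit 587) (nat_lit 499) (nat_lit 474)))) (XT.nd (nat_lit 156) (nat_lit 608) (nat_lit 0) (XT.nd (nat_lit 78) (nat_lit 456) (nat_lit 0) (XT.lf (nat_lit 0) (nat_lit 1992801297) (nat_lit 608) (nat_lit 5278518623) (nat_lit 76) (nat_lit 1517602868) (nat_lit 241) (nat_lit 5) (nat_lit 249) (nat_lit 5) (nat_lit 242) (nat_lit 5) (nat_lit 588) (nat_lit 499) (nat_lit 473)) (XT.lf (nat_lit 0) (nat_lit 1682269809) (nat_lit 456) (nat_lit 3999176530) (nat_lit 532) (nat_lit 3184299739) (nat_lit 235) (nat_lit 5) (nat_lit 241) (nat_lit 5) (nat_lit 242) (nat_lit 5) (nat_lit 589) (nat_lit 499) (nat_lit 472))) (XT.nd (nat_lit 78) (nat_lit 532) (nat_lit 0) (XT.lf (nat_lit 0) (nat_lit 475391607) (nat_lit 532) (nat_lit 169341743) (nat_lit 76) (nat_lit 8299666196) (nat_lit 234) (nat_lit 5) (nat_lit 241) (nat_lit 5) (nat_lit 235) (nat_lit 5) (nat_lit 590) (nat_lit 499) (nat_lit 471)) (XT.lf (nat_lit 0) (nat_lit 4176905628) (nat_lit 608) (nat_lit 2061925604) (nat_lit 76) (nat_lit 2785150865) (nat_lit 227) (nat_lit 5) (nat_lit 235) (nat_lit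 5) (nat_lit 228) (nat_lit 5) (nat_lit 591) (nat_lit 499) (nat_lit 470))))) (XT.nd (nat_lit 312) (nat_lit 1748) (nat_lit 0) (XT.nd (nat_lit 156) (nat_lit 532) (nat_lit 0) (XT.nd (nat_lit 78) (nat_lit 532) (nat_lit 0) (XT.lf (nat_lit 0) (nat_lit 5120932367) (nat_lit 456) (nat_lit 2818159282) (nat_lit 532) (nat_lit 1166334082) (nat_lit 221) (nat_lit 5) (nat_lit 227) (nat_lit 5) (nat_lit 228) (nat_lit 5) (nat_lit 592) (nat_lit 499) (nat_lit 469)) (XT.lf (nat_lit 0) (nat_lit 2541745234) (nat_lit 532) (nat_lit 5955701407) (nat_lit 76) (nat_lit 690964422) (nat_lit 214) (nat_lit 5) (nat_lit 221) (nat_lit 5) (nat_lit 215) (nat_lit 5) (nat_lit 593) (nat_lit 499) (nat_lit 468))) (XT.nd (nat_lit 78) (nat_lit 76) (nat_lit 0) (XT.lf (nat_lit 0) (nat_lit 1290332740) (nat_lit 456) (nat_lit 5020555065) (nat_lit 532) (nat_lit 2961965865) (nat_lit 208) (nat_lit 5) (nat_lit 214) (nat_lit 5) (nat_lit 215) (nat_lit 5) (nat_lit 594) (nat_lit 499) (nat_lit 467)) (XT.lf (nat_lit 0) (nat_lit 774942298) (nat_lit 532) (nat_lit 677559686) (nat_lit 76) (nat_lit 7906602589)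 (nat_lit 207) (nat_lit 5) (nat_lit 214) (nat_lit 5) (nat_lit 208) (nat_lit 5) (nat_lit 595) (nat_lit 499) (nat_lit 466)))) (XT.nd (nat_lit 156) (nat_lit 912) (nat_lit 0) (XT.nd (nat_lit 78) (nat_lit 380) (nat_lit 0) (XT.lf (nat_lit 0) (nat_lit 4555105432) (nat_lit 532) (nat_lit 2693095831) (nat_lit 76) (nat_lit 2198326122) (nat_lit 201) (nat_lit 5) (nat_lit 208) (nat_lit 5) (nat_lit 202) (nat_lit 5) (nat_lit 596) (nat_lit 499) (nat_lit 465)) (XT.lf (nat_lit 0) (nat_lit 4784907386) (nat_lit 380) (nat_lit 3621309650) (nat_lit 456) (nat_lit 1129576684) (nat_lit 196) (nat_lit 5) (nat_lit 201) (nat_lit 5) (nat_lit 202) (nat_lit 5) (nat_lit 597) (nat_lit 499) (nat_lit 464))) (XT.nd (nat_lit 78) (nat_lit 380) (nat_lit 0) (XT.lf (nat_lit 0) (nat_lit 2659095569) (nat_lit 532) (nat_lit 6861383891) (nat_lit 76) (nat_lit 106274251) (nat_lit 189) (nat_lit 5) (nat_lit 196) (nat_lit 5) (nat_lit 190) (nat_lit 5) (nat_lit 598) (nat_lit 499) (nat_lit 463)) (XT.lf (nat_lit 0) (nat_lit 679373193) (nat_lit 380) (nat_lit 5840119676) (nat_lit 456) (nat_lit 3199671028)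 (nat_lit 184) (nat_lit 5) (nat_lit 189) (nat_lit 5) (nat_lit 190) (nat_lit 5) (nat_lit 599) (nat_lit 499) (nat_lit 462))))))) (XT.nd (nat_lit 78390) (nat_lit 0) (nat_lit 12388) (XT.nd (nat_lit 546) (nat_lit 1064) (nat_lit 0) (XT.nd (nat_lit 234) (nat_lit 1292) (nat_lit 0) (XT.nd (nat_lit 78) (nat_lit 760) (nat_lit 0) (XT.lf (nat_lit 0) (nat_lit 632316989) (nat_lit 456) (nat_lit 1428511495) (nat_lit 76) (nat_lit 7752570344) (nat_lit 183) (nat_lit 5) (nat_lit 189) (nat_lit 5) (nat_lit 184) (nat_lit 5) (nat_lit 600) (nat_lit 499) (nat_lit 461)) (XT.nd (nat_lit 78) (nat_lit 380) (nat_lit 0) (XT.lf (nat_lit 0) (nat_lit 4502786700) (nat_lit 456) (nat_lit 3598407004) (nat_lit 76) (nat_lit 1807809799) (nat_lit 178) (nat_lit 5) (nat_lit 184) (nat_lit 5) (nat_lit 179) (nat_lit 5) (nat_lit 601) (nat_lit 499) (nat_lit 460)) (XT.lf (nat_lit 0) (nat_lit 4184385564) (nat_lit 380) (nat_lit 4268749121) (nat_lit 456) (nat_lit 1553337926) (nat_lit 173) (nat_lit 5) (nat_lit 178) (nat_lit 5) (nat_lit 179) (nat_lit 5) (nat_lit 602) (nat_lit 499) (nat_lit 459))))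 (XT.nd (nat_lit 156) (nat_lit 836) (nat_lit 0) (XT.nd (nat_lit 78) (nat_lit 0) (nat_lit 0) (XT.lf (nat_lit 0) (nat_lit 2002422213) (nat_lit 380) (nat_lit 332464015) (nat_lit 456) (nat_lit 7770908772) (nat_lit 167) (nat_lit 5) (nat_lit 172) (nat_lit 5) (nat_lit 173) (nat_lit 5) (nat_lit 603) (nat_lit 499) (nat_lit 458)) (XT.lf (nat_lit 0) (nat_lit 6295767227) (nat_lit 456) (nat_lit 253176020) (nat_lit 76) (nat_lit 3657643024) (nat_lit 167) (nat_lit 5) (nat_lit 173) (nat_lit 5) (nat_lit 168) (nat_lit 5) (nat_lit 604) (nat_lit 499) (nat_lit 457))) (XT.nd (nat_lit 78) (nat_lit 380) (nat_lit 0) (XT.lf (nat_lit 0) (nat_lit 32249764) (nat_lit 456) (nat_lit 2528892992) (nat_lit 76) (nat_lit 7748126241) (nat_lit 161) (nat_lit 5) (nat_lit 167) (nat_lit 5) (nat_lit 162) (nat_lit 5) (nat_lit 605) (nat_lit 499) (nat_lit 456)) (XT.lf (nat_lit 0) (nat_lit 4003053826) (nat_lit 456) (nat_lit 4886331947) (nat_lit 76) (nat_lit 1524079323) (nat_lit 156) (nat_lit 5) (nat_lit 162) (nat_lit 5) (nat_lit 157) (nat_lit 5) (nat_lit 606) (nat_lit 499) (nat_lit 455)))))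 (XT.nd (nat_lit 77532) (nat_lit 0) (nat_lit 21888) (XT.nd (nat_lit 156) (nat_lit 304) (nat_lit 0) (XT.nd (nat_lit 78) (nat_lit 456) (nat_lit 0) (XT.lf (nat_lit 0) (nat_lit 3210509666) (nat_lit 304) (nat_lit 4851418187) (nat_lit 380) (nat_lit 2457645682) (nat_lit 152) (nat_lit 5) (nat_lit 156) (nat_lit 5) (nat_lit 157) (nat_lit 5) (nat_lit 607) (nat_lit 499) (nat_lit 454)) (XT.lf (nat_lit 0) (nat_lit 835083276) (nat_lit 380) (nat_lit 710767170) (nat_lit 456) (nat_lit 9081904306) (nat_lit 146) (nat_lit 5) (nat_lit 151) (nat_lit 5) (nat_lit 152) (nat_lit 5) (nat_lit 608) (nat_lit 499) (nat_lit 453))) (XT.nd (nat_lit 78) (nat_lit 304) (nat_lit 0) (XT.lf (nat_lit 0) (nat_lit 5622859092) (nat_lit 456) (nat_lit 1609392878) (nat_lit 76) (nat_lit 3504997123) (nat_lit 146) (nat_lit 5) (nat_lit 152) (nat_lit 5) (nat_lit 147) (nat_lit 5) (nat_lit 609) (nat_lit 499) (nat_lit 452)) (XT.lf (nat_lit 0) (nat_lit 6748750887) (nat_lit 304) (nat_lit 3036221129) (nat_lit 380) (nat_lit 1063891403) (nat_lit 142) (nat_lit 5) (nat_lit 146) (nat_lit 5) (nat_lit 147)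 (nat_lit 5) (nat_lit 610) (nat_lit 499) (nat_lit 451)))) (XT.nd (nat_lit 156) (nat_lit 988) (nat_lit 0) (XT.nd (nat_lit 78) (nat_lit 988) (nat_lit 0) (XT.lf (nat_lit 0) (nat_lit 1557387202) (nat_lit 1064) (nat_lit 1022933974) (nat_lit 1064) (nat_lit 1022933974) (nat_lit 456) (nat_lit 4) (nat_lit 470) (nat_lit 5) (nat_lit 470) (nat_lit 4) (nat_lit 560) (nat_lit 500) (nat_lit 500)) (XT.lf (nat_lit 0) (nat_lit 1396440506) (nat_lit 912) (nat_lit 119480233) (nat_lit 988) (nat_lit 5729770049) (nat_lit 443) (nat_lit 5) (nat_lit 455) (nat_lit 5) (nat_lit 456) (nat_lit 4) (nat_lit 561) (nat_lit 500) (nat_lit 499))) (XT.nd (nat_lit 78) (nat_lit 988) (nat_lit 0) (XT.lf (nat_lit 0) (nat_lit 5092386253) (nat_lit 988) (nat_lit 335296116) (nat_lit 0) (nat_lit 1858290554) (nat_lit 443) (nat_lit 5) (nat_lit 456) (nat_lit 4) (nat_lit 443) (nat_lit 4) (nat_lit 562) (nat_lit 500) (nat_lit 498)) (XT.lf (nat_lit 0) (nat_lit 1362204929) (nat_lit 988) (nat_lit 2052086324) (nat_lit 76) (nat_lit 3913242517) (nat_lit 430) (nat_lit 5) (nat_lit 443) (nat_lit 5) (nat_lit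 431) (nat_lit 4) (nat_lit 563) (nat_lit 500) (nat_lit 497)))))) (XT.nd (nat_lit 546) (nat_lit 4408) (nat_lit 0) (XT.nd (nat_lit 234) (nat_lit 2508) (nat_lit 0) (XT.nd (nat_lit 78) (nat_lit 1748) (nat_lit 0) (XT.lf (nat_lit 0) (nat_lit 3592360255) (nat_lit 836) (nat_lit 1325940623) (nat_lit 912) (nat_lit 2452168656) (nat_lit 419) (nat_lit 5) (nat_lit 430) (nat_lit 5) (nat_lit 431) (nat_lit 4) (nat_lit 564) (nat_lit 500) (nat_lit 496)) (XT.nd (nat_lit 78) (nat_lit 836) (nat_lit 0) (XT.lf (nat_lit 0) (nat_lit 1081405317) (nat_lit 912) (nat_lit 5512915073) (nat_lit 76) (nat_lit 820501697) (nat_lit 407) (nat_lit 5) (nat_lit 419) (nat_lit 5) (nat_lit 408) (nat_lit 4) (nat_lit 565) (nat_lit 500) (nat_lit 495)) (XT.lf (nat_lit 0) (nat_lit 190006618) (nat_lit 836) (nat_lit 4432502986) (nat_lit 912) (nat_lit 2837838667) (nat_lit 396) (nat_lit 5) (nat_lit 407) (nat_lit 5) (nat_lit 408) (nat_lit 4) (nat_lit 566) (nat_lit 500) (nat_lit 494)))) (XT.nd (nat_lit 156) (nat_lit 1596) (nat_lit 0) (XT.nd (nat_lit 78) (nat_lit 836) (nat_lit 0) (XT.lf (nat_lit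 0) (nat_lit 689850145) (nat_lit 912) (nat_lit 1504162719) (nat_lit 76) (nat_lit 5313247221) (nat_lit 395) (nat_lit 5) (nat_lit 407) (nat_lit 5) (nat_lit 396) (nat_lit 5) (nat_lit 567) (nat_lit 500) (nat_lit 493)) (XT.lf (nat_lit 0) (nat_lit 4214939478) (nat_lit 912) (nat_lit 3214192559) (nat_lit 76) (nat_lit 126310382) (nat_lit 384) (nat_lit 5) (nat_lit 396) (nat_lit 5) (nat_lit 385) (nat_lit 4) (nat_lit 568) (nat_lit 500) (nat_lit 492))) (XT.nd (nat_lit 78) (nat_lit 760) (nat_lit 0) (XT.lf (nat_lit 0) (nat_lit 181604592) (nat_lit 836) (nat_lit 4940402282) (nat_lit 76) (nat_lit 2482991705) (nat_lit 373) (nat_lit 5) (nat_lit 384) (nat_lit 5) (nat_lit 374) (nat_lit 5) (nat_lit 569) (nat_lit 500) (nat_lit 491)) (XT.lf (nat_lit 0) (nat_lit 965330787) (nat_lit 760) (nat_lit 2728973773) (nat_lit 836) (nat_lit 3961506199) (nat_lit 363) (nat_lit 5) (nat_lit 373) (nat_lit 5) (nat_lit 374) (nat_lit 5) (nat_lit 570) (nat_lit 500) (nat_lit 490))))) (XT.nd (nat_lit 312) (nat_lit 2128) (nat_lit 0) (XT.nd (nat_lit 156) (nat_lit 1520) (nat_lit 0) (XT.nd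 (nat_lit 78) (nat_lit 760) (nat_lit 0) (XT.lf (nat_lit 0) (nat_lit 6982156973) (nat_lit 760) (nat_lit 265870405) (nat_lit 836) (nat_lit 460200452) (nat_lit 363) (nat_lit 5) (nat_lit 373) (nat_lit 5) (nat_lit 374) (nat_lit 5) (nat_lit 571) (nat_lit 500) (nat_lit 489)) (XT.lf (nat_lit 0) (nat_lit 3058263103) (nat_lit 760) (nat_lit 2442681908) (nat_lit 76) (nat_lit 2260589414) (nat_lit 353) (nat_lit 5) (nat_lit 363) (nat_lit 5) (nat_lit 354) (nat_lit 5) (nat_lit 572) (nat_lit 500) (nat_lit 488))) (XT.nd (nat_lit 78) (nat_lit 760) (nat_lit 0) (XT.lf (nat_lit 0) (nat_lit 3647685122) (nat_lit 760) (nat_lit 2962689302) (nat_lit 836) (nat_lit 1206086871) (nat_lit 343) (nat_lit 5) (nat_lit 353) (nat_lit 5) (nat_lit 354) (nat_lit 5) (nat_lit 573) (nat_lit 500) (nat_lit 487)) (XT.lf (nat_lit 0) (nat_lit 1956693231) (nat_lit 684) (nat_lit 341987884) (nat_lit 760) (nat_lit 5574130535) (nat_lit 333) (nat_lit 5) (nat_lit 342) (nat_lit 5) (nat_lit 343) (nat_lit 5) (nat_lit 574) (nat_lit 500) (nat_lit 486)))) (XT.nd (nat_lit 156) (nat_lit 1368) (nat_lit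 0) (XT.nd (nat_lit 78) (nat_lit 76) (nat_lit 0) (XT.lf (nat_lit 0) (nat_lit 236277773) (nat_lit 684) (nat_lit 5605980516) (nat_lit 760) (nat_lit 2088177587) (nat_lit 324) (nat_lit 5) (nat_lit 333) (nat_lit 5) (nat_lit 334) (nat_lit 5) (nat_lit 575) (nat_lit 500) (nat_lit 485)) (XT.lf (nat_lit 0) (nat_lit 1430791446) (nat_lit 760) (nat_lit 1483825847) (nat_lit 76) (nat_lit 5074757300) (nat_lit 323) (nat_lit 5) (nat_lit 333) (nat_lit 5) (nat_lit 324) (nat_lit 5) (nat_lit 576) (nat_lit 500) (nat_lit 484))) (XT.nd (nat_lit 78) (nat_lit 760) (nat_lit 0) (XT.lf (nat_lit 0) (nat_lit 4826390875) (nat_lit 608) (nat_lit 138636313) (nat_lit 684) (nat_lit 3084735244) (nat_lit 315) (nat_lit 5) (nat_lit 323) (nat_lit 5) (nat_lit 324) (nat_lit 5) (nat_lit 577) (nat_lit 500) (nat_lit 483)) (XT.lf (nat_lit 0) (nat_lit 442330465) (nat_lit 760) (nat_lit 4993694849) (nat_lit 76) (nat_lit 2675481295) (nat_lit 305) (nat_lit 5) (nat_lit 315) (nat_lit 5) (nat_lit 306) (nat_lit 5) (nat_lit 578) (nat_lit 500) (nat_lit 482))))))))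
noncomputable def xc11 : XT := (XT.nd (nat_lit 2340) (nat_lit 380) (nat_lit 0) (XT.nd (nat_lit 1170) (nat_lit 4788) (nat_lit 0) (XT.nd (nat_lit 546) (nat_lit 3724) (nat_lit 0) (XT.nd (nat_lit 234) (nat_lit 1900) (nat_lit 0) (XT.nd (nat_lit 78) (nat_lit 684) (nat_lit 0) (XT.lf (nat_lit 0) (nat_lit 1377387164) (nat_lit 608) (nat_lit 2595249777) (nat_lit 684) (nat_lit 4201964019) (nat_lit 297) (nat_lit 5) (nat_lit 305) (nat_lit 5) (nat_lit 306) (nat_lit 5) (nat_lit 579) (nat_lit 500) (nat_lit 481)) (XT.nd (nat_lit 78) (nat_lit 684) (nat_lit 0) (XT.lf (nat_lit 0) (nat_lit 7552113485) (nat_lit 684) (nat_lit 372078177) (nat_lit 76) (nat_lit 315197368) (nat_lit 297) (nat_lit 5) (nat_lit 306) (nat_lit 5) (nat_lit 298) (nat_lit 5) (nat_lit 580) (nat_lit 500) (nat_lit 480)) (XT.lf (nat_lit 0) (nat_lit 2860954122) (nat_lit 684) (nat_lit 2152671984) (nat_lit 76) (nat_lit 3291448440) (nat_lit 288) (nat_lit 5) (nat_lit 297) (nat_lit 5) (nat_lit 289) (nat_lit 5) (nat_lit 581) (nat_lit 500) (nat_lit 479)))) (XT.nd (nat_lit 156) (nat_lit 608) (nat_lit 0)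 (XT.nd (nat_lit 78) (nat_lit 684) (nat_lit 0) (XT.lf (nat_lit 0) (nat_lit 4419818762) (nat_lit 608) (nat_lit 2026587338) (nat_lit 684) (nat_lit 1926070541) (nat_lit 280) (nat_lit 5) (nat_lit 288) (nat_lit 5) (nat_lit 289) (nat_lit 5) (nat_lit 582) (nat_lit 500) (nat_lit 478)) (XT.lf (nat_lit 0) (nat_lit 1623636416) (nat_lit 684) (nat_lit 5786475668) (nat_lit 76) (nat_lit 1031239692) (nat_lit 271) (nat_lit 5) (nat_lit 280) (nat_lit 5) (nat_lit 272) (nat_lit 5) (nat_lit 583) (nat_lit 500) (nat_lit 477))) (XT.nd (nat_lit 78) (nat_lit 76) (nat_lit 0) (XT.lf (nat_lit 0) (nat_lit 847107331) (nat_lit 532) (nat_lit 4362062857) (nat_lit 608) (nat_lit 3302369905) (nat_lit 264) (nat_lit 5) (nat_lit 271) (nat_lit 5) (nat_lit 272) (nat_lit 5) (nat_lit 584) (nat_lit 500) (nat_lit 476)) (XT.lf (nat_lit 0) (nat_lit 263865944) (nat_lit 608) (nat_lit 967608607) (nat_lit 76) (nat_lit 7351937521) (nat_lit 263) (nat_lit 5) (nat_lit 271) (nat_lit 5) (nat_lit 264) (nat_lit 5) (nat_lit 585) (nat_lit 500) (nat_lit 475))))) (XT.nd (nat_lit 312) (nat_lit 1596) (nat_lit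 0) (XT.nd (nat_lit 156) (nat_lit 1064) (nat_lit 0) (XT.nd (nat_lit 78) (nat_lit 532) (nat_lit 0) (XT.lf (nat_lit 0) (nat_lit 3854485345) (nat_lit 608) (nat_lit 2825159732) (nat_lit 76) (nat_lit 1976696891) (nat_lit 256) (nat_lit 5) (nat_lit 264) (nat_lit 5) (nat_lit 257) (nat_lit 5) (nat_lit 586) (nat_lit 500) (nat_lit 474)) (XT.lf (nat_lit 0) (nat_lit 4019037532) (nat_lit 532) (nat_lit 3485401354) (nat_lit 608) (nat_lit 1226543693) (nat_lit 249) (nat_lit 5) (nat_lit 256) (nat_lit 5) (nat_lit 257) (nat_lit 5) (nat_lit 587) (nat_lit 500) (nat_lit 473))) (XT.nd (nat_lit 78) (nat_lit 456) (nat_lit 0) (XT.lf (nat_lit 0) (nat_lit 2170139993) (nat_lit 532) (nat_lit 198518913) (nat_lit 608) (nat_lit 6438542753) (nat_lit 241) (nat_lit 5) (nat_lit 248) (nat_lit 5) (nat_lit 249) (nat_lit 5) (nat_lit 588) (nat_lit 500) (nat_lit 472)) (XT.lf (nat_lit 0) (nat_lit 269563742) (nat_lit 456) (nat_lit 5751227674) (nat_lit 532) (nat_lit 2863964975) (nat_lit 235) (nat_lit 5) (nat_lit 241) (nat_lit 5) (nat_lit 242) (nat_lit 5) (nat_lit 589) (nat_lit 500) (nat_lit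 471)))) (XT.nd (nat_lit 156) (nat_lit 988) (nat_lit 0) (XT.nd (nat_lit 78) (nat_lit 532) (nat_lit 0) (XT.lf (nat_lit 0) (nat_lit 765574513) (nat_lit 532) (nat_lit 1640165086) (nat_lit 76) (nat_lit 6558148820) (nat_lit 234) (nat_lit 5) (nat_lit 241) (nat_lit 5) (nat_lit 235) (nat_lit 5) (nat_lit 590) (nat_lit 500) (nat_lit 470)) (XT.lf (nat_lit 0) (nat_lit 4420161676) (nat_lit 608) (nat_lit 3597706299) (nat_lit 76) (nat_lit 1026542654) (nat_lit 227) (nat_lit 5) (nat_lit 235) (nat_lit 5) (nat_lit 228) (nat_lit 5) (nat_lit 591) (nat_lit 500) (nat_lit 469))) (XT.nd (nat_lit 78) (nat_lit 532) (nat_lit 0) (XT.lf (nat_lit 0) (nat_lit 3527760680) (nat_lit 456) (nat_lit 4618995359) (nat_lit 532) (nat_lit 979811157) (nat_lit 221) (nat_lit 5) (nat_lit 227) (nat_lit 5) (nat_lit 228) (nat_lit 5) (nat_lit 592) (nat_lit 500) (nat_lit 468)) (XT.lf (nat_lit 0) (nat_lit 1563274959) (nat_lit 456) (nat_lit 1121977292) (nat_lit 532) (nat_lit 6525088505) (nat_lit 214) (nat_lit 5) (nat_lit 220) (nat_lit 5) (nat_lit 221) (nat_lit 5) (nat_lit 593) (nat_lit 500)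 (nat_lit 467)))))) (XT.nd (nat_lit 546) (nat_lit 2432) (nat_lit 0) (XT.nd (nat_lit 234) (nat_lit 1368) (nat_lit 0) (XT.nd (nat_lit 78) (nat_lit 988) (nat_lit 0) (XT.lf (nat_lit 0) (nat_lit 6413760735) (nat_lit 532) (nat_lit 447445365) (nat_lit 76) (nat_lit 2434390982) (nat_lit 214) (nat_lit 5) (nat_lit 221) (nat_lit 5) (nat_lit 215) (nat_lit 5) (nat_lit 594) (nat_lit 500) (nat_lit 466)) (XT.nd (nat_lit 78) (nat_lit 456) (nat_lit 0) (XT.lf (nat_lit 0) (nat_lit 826173652) (nat_lit 532) (nat_lit 2481452289) (nat_lit 76) (nat_lit 6074769581) (nat_lit 207) (nat_lit 5) (nat_lit 214) (nat_lit 5) (nat_lit 208) (nat_lit 5) (nat_lit 595) (nat_lit 500) (nat_lit 465)) (XT.lf (nat_lit 0) (nat_lit 4557634051) (nat_lit 532) (nat_lit 4569404650) (nat_lit 76) (nat_lit 343754663) (nat_lit 201) (nat_lit 5) (nat_lit 208) (nat_lit 5) (nat_lit 202) (nat_lit 5) (nat_lit 596) (nat_lit 500) (nat_lit 464)))) (XT.nd (nat_lit 156) (nat_lit 456) (nat_lit 0) (XT.nd (nat_lit 78) (nat_lit 532) (nat_lit 0) (XT.lf (nat_lit 0) (nat_lit 2846868664) (nat_lit 380) (nat_lit 5525066772)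 (nat_lit 456) (nat_lit 1188861426) (nat_lit 196) (nat_lit 5) (nat_lit 201) (nat_lit 5) (nat_lit 202) (nat_lit 5) (nat_lit 597) (nat_lit 500) (nat_lit 463)) (XT.lf (nat_lit 0) (nat_lit 740464589) (nat_lit 456) (nat_lit 1822126804) (nat_lit 532) (nat_lit 7089934016) (nat_lit 189) (nat_lit 5) (nat_lit 195) (nat_lit 5) (nat_lit 196) (nat_lit 5) (nat_lit 598) (nat_lit 500) (nat_lit 462))) (XT.nd (nat_lit 78) (nat_lit 456) (nat_lit 0) (XT.lf (nat_lit 0) (nat_lit 6382760349) (nat_lit 532) (nat_lit 1404938558) (nat_lit 76) (nat_lit 1958042158) (nat_lit 189) (nat_lit 5) (nat_lit 196) (nat_lit 5) (nat_lit 190) (nat_lit 5) (nat_lit 599) (nat_lit 500) (nat_lit 461)) (XT.lf (nat_lit 0) (nat_lit 437934338) (nat_lit 456) (nat_lit 3593767951) (nat_lit 76) (nat_lit 5808960078) (nat_lit 183) (nat_lit 5) (nat_lit 189) (nat_lit 5) (nat_lit 184) (nat_lit 5) (nat_lit 600) (nat_lit 500) (nat_lit 460))))) (XT.nd (nat_lit 312) (nat_lit 1216) (nat_lit 0) (XT.nd (nat_lit 156) (nat_lit 456) (nat_lit 0) (XT.nd (nat_lit 78) (nat_lit 380) (nat_lit 0) (XT.lf (nat_lit 0)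 (nat_lit 4092303982) (nat_lit 380) (nat_lit 166283456) (nat_lit 456) (nat_lit 5678676786) (nat_lit 178) (nat_lit 5) (nat_lit 183) (nat_lit 5) (nat_lit 184) (nat_lit 5) (nat_lit 601) (nat_lit 500) (nat_lit 459)) (XT.lf (nat_lit 0) (nat_lit 1872528628) (nat_lit 380) (nat_lit 6297022392) (nat_lit 456) (nat_lit 1865970834) (nat_lit 173) (nat_lit 5) (nat_lit 178) (nat_lit 5) (nat_lit 179) (nat_lit 5) (nat_lit 602) (nat_lit 500) (nat_lit 458))) (XT.nd (nat_lit 78) (nat_lit 380) (nat_lit 0) (XT.lf (nat_lit 0) (nat_lit 1990128394) (nat_lit 456) (nat_lit 398851356) (nat_lit 76) (nat_lit 7746630393) (nat_lit 172) (nat_lit 5) (nat_lit 178) (nat_lit 5) (nat_lit 173) (nat_lit 5) (nat_lit 603) (nat_lit 500) (nat_lit 457)) (XT.lf (nat_lit 0) (nat_lit 5911930197) (nat_lit 456) (nat_lit 2712522543) (nat_lit 76) (nat_lit 1612731043) (nat_lit 167) (nat_lit 5) (nat_lit 173) (nat_lit 5) (nat_lit 168) (nat_lit 5) (nat_lit 604) (nat_lit 500) (nat_lit 456)))) (XT.nd (nat_lit 156) (nat_lit 380) (nat_lit 0) (XT.nd (nat_lit 78) (nat_lit 456) (nat_lit 0) (XT.lf (nat_lit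 0) (nat_lit 5252526675) (nat_lit 380) (nat_lit 4666541129) (nat_lit 456) (nat_lit 421584653) (nat_lit 162) (nat_lit 5) (nat_lit 167) (nat_lit 5) (nat_lit 168) (nat_lit 5) (nat_lit 605) (nat_lit 500) (nat_lit 455)) (XT.lf (nat_lit 0) (nat_lit 2910787089) (nat_lit 380) (nat_lit 594313498) (nat_lit 456) (nat_lit 6940796414) (nat_lit 156) (nat_lit 5) (nat_lit 161) (nat_lit 5) (nat_lit 162) (nat_lit 5) (nat_lit 606) (nat_lit 500) (nat_lit 454))) (XT.nd (nat_lit 78) (nat_lit 76) (nat_lit 0) (XT.lf (nat_lit 0) (nat_lit 494206960) (nat_lit 304) (nat_lit 7025833279) (nat_lit 380) (nat_lit 3032844614) (nat_lit 152) (nat_lit 5) (nat_lit 156) (nat_lit 5) (nat_lit 157) (nat_lit 5) (nat_lit 607) (nat_lit 500) (nat_lit 453)) (XT.lf (nat_lit 0) (nat_lit 950395208) (nat_lit 380) (nat_lit 1957569899) (nat_lit 76) (nat_lit 7753732354) (nat_lit 151) (nat_lit 5) (nat_lit 156) (nat_lit 5) (nat_lit 152) (nat_lit 5) (nat_lit 608) (nat_lit 500) (nat_lit 452))))))) (XT.nd (nat_lit 78312) (nat_lit 0) (nat_lit 8360) (XT.nd (nat_lit 77688) (nat_lit 0) (nat_lit 16416)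 (XT.nd (nat_lit 77376) (nat_lit 0) (nat_lit 21584) (XT.nd (nat_lit 77220) (nat_lit 0) (nat_lit 24624) (XT.lf (nat_lit 0) (nat_lit 4977916560) (nat_lit 456) (nat_lit 4483853238) (nat_lit 76) (nat_lit 1310412434) (nat_lit 146) (nat_lit 5) (nat_lit 152) (nat_lit 5) (nat_lit 147) (nat_lit 5) (nat_lit 609) (nat_lit 500) (nat_lit 451)) (XT.nd (nat_lit 78) (nat_lit 1900) (nat_lit 0) (XT.lf (nat_lit 0) (nat_lit 3295773106) (nat_lit 1748) (nat_lit 135097531) (nat_lit 1748) (nat_lit 135097531) (nat_lit 495) (nat_lit 4) (nat_lit 518) (nat_lit 5) (nat_lit 518) (nat_lit 4) (nat_lit 558) (nat_lit 501) (nat_lit 501)) (XT.lf (nat_lit 0) (nat_lit 3265713044) (nat_lit 1900) (nat_lit 2336388600) (nat_lit 0) (nat_lit 1566679268) (nat_lit 470) (nat_lit 5) (nat_lit 495) (nat_lit 4) (nat_lit 470) (nat_lit 4) (nat_lit 559) (nat_lit 501) (nat_lit 500)))) (XT.nd (nat_lit 156) (nat_lit 988) (nat_lit 0) (XT.nd (nat_lit 78) (nat_lit 988) (nat_lit 0) (XT.lf (nat_lit 0) (nat_lit 3078872826) (nat_lit 1064) (nat_lit 3746539301) (nat_lit 1064) (nat_lit 381786136) (nat_lit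 456) (nat_lit 4) (nat_lit 470) (nat_lit 5) (nat_lit 470) (nat_lit 4) (nat_lit 560) (nat_lit 501) (nat_lit 499)) (XT.lf (nat_lit 0) (nat_lit 1312293423) (nat_lit 912) (nat_lit 1811520840) (nat_lit 988) (nat_lit 4123038249) (nat_lit 443) (nat_lit 5) (nat_lit 455) (nat_lit 5) (nat_lit 456) (nat_lit 4) (nat_lit 561) (nat_lit 501) (nat_lit 498))) (XT.nd (nat_lit 78) (nat_lit 988) (nat_lit 0) (XT.lf (nat_lit 0) (nat_lit 6655896666) (nat_lit 988) (nat_lit 445691173) (nat_lit 0) (nat_lit 186436996) (nat_lit 443) (nat_lit 5) (nat_lit 456) (nat_lit 4) (nat_lit 443) (nat_lit 4) (nat_lit 562) (nat_lit 501) (nat_lit 497)) (XT.lf (nat_lit 0) (nat_lit 2869257631) (nat_lit 988) (nat_lit 2212426494) (nat_lit 76) (nat_lit 2248379765) (nat_lit 430) (nat_lit 5) (nat_lit 443) (nat_lit 5) (nat_lit 431) (nat_lit 4) (nat_lit 563) (nat_lit 501) (nat_lit 496))))) (XT.nd (nat_lit 312) (nat_lit 2508) (nat_lit 0) (XT.nd (nat_lit 156) (nat_lit 912) (nat_lit 0) (XT.nd (nat_lit 78) (nat_lit 912) (nat_lit 0) (XT.lf (nat_lit 0) (nat_lit 3393849553) (nat_lit 836) (nat_lit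 2997670165) (nat_lit 912) (nat_lit 982158993) (nat_lit 419) (nat_lit 5) (nat_lit 430) (nat_lit 5) (nat_lit 431) (nat_lit 4) (nat_lit 564) (nat_lit 501) (nat_lit 495)) (XT.lf (nat_lit 0) (nat_lit 1657100709) (nat_lit 836) (nat_lit 835660206) (nat_lit 912) (nat_lit 4925869247) (nat_lit 407) (nat_lit 5) (nat_lit 418) (nat_lit 5) (nat_lit 419) (nat_lit 5) (nat_lit 565) (nat_lit 501) (nat_lit 494))) (XT.nd (nat_lit 78) (nat_lit 912) (nat_lit 0) (XT.lf (nat_lit 0) (nat_lit 5995234899) (nat_lit 912) (nat_lit 91821969) (nat_lit 76) (nat_lit 1377874325) (nat_lit 407) (nat_lit 5) (nat_lit 419) (nat_lit 5) (nat_lit 408) (nat_lit 4) (nat_lit 566) (nat_lit 501) (nat_lit 493)) (XT.lf (nat_lit 0) (nat_lit 2007652436) (nat_lit 912) (nat_lit 1837020157) (nat_lit 76) (nat_lit 3667642846) (nat_lit 395) (nat_lit 5) (nat_lit 407) (nat_lit 5) (nat_lit 396) (nat_lit 5) (nat_lit 567) (nat_lit 501) (nat_lit 492)))) (XT.nd (nat_lit 156) (nat_lit 836) (nat_lit 0) (XT.nd (nat_lit 78) (nat_lit 836) (nat_lit 0) (XT.lf (nat_lit 0) (nat_lit 3968720882) (nat_lit 836) (nat_lit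 1529600438) (nat_lit 912) (nat_lit 2062866977) (nat_lit 384) (nat_lit 5) (nat_lit 395) (nat_lit 5) (nat_lit 396) (nat_lit 5) (nat_lit 568) (nat_lit 501) (nat_lit 491)) (XT.lf (nat_lit 0) (nat_lit 1398789638) (nat_lit 836) (nat_lit 5364718746) (nat_lit 76) (nat_lit 847946089) (nat_lit 373) (nat_lit 5) (nat_lit 384) (nat_lit 5) (nat_lit 374) (nat_lit 5) (nat_lit 569) (nat_lit 501) (nat_lit 490))) (XT.nd (nat_lit 78) (nat_lit 76) (nat_lit 0) (XT.lf (nat_lit 0) (nat_lit 498746668) (nat_lit 760) (nat_lit 4379068289) (nat_lit 836) (nat_lit 2785127181) (nat_lit 363) (nat_lit 5) (nat_lit 373) (nat_lit 5) (nat_lit 374) (nat_lit 5) (nat_lit 570) (nat_lit 501) (nat_lit 489)) (XT.lf (nat_lit 0) (nat_lit 676305771) (nat_lit 836) (nat_lit 1240753741) (nat_lit 76) (nat_lit 5798818215) (nat_lit 362) (nat_lit 5) (nat_lit 373) (nat_lit 5) (nat_lit 363) (nat_lit 5) (nat_lit 571) (nat_lit 501) (nat_lit 488)))))) (XT.nd (nat_lit 546) (nat_lit 3724) (nat_lit 0) (XT.nd (nat_lit 234) (nat_lit 2128) (nat_lit 0) (XT.nd (nat_lit 78) (nat_lit 1520) (nat_lit 0) (XT.lf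 (nat_lit 0) (nat_lit 4144449313) (nat_lit 760) (nat_lit 3000811209) (nat_lit 76) (nat_lit 624751607) (nat_lit 353) (nat_lit 5) (nat_lit 363) (nat_lit 5) (nat_lit 354) (nat_lit 5) (nat_lit 572) (nat_lit 501) (nat_lit 487)) (XT.nd (nat_lit 78) (nat_lit 760) (nat_lit 0) (XT.lf (nat_lit 0) (nat_lit 3045735607) (nat_lit 760) (nat_lit 4617352759) (nat_lit 836) (nat_lit 162521917) (nat_lit 343) (nat_lit 5) (nat_lit 353) (nat_lit 5) (nat_lit 354) (nat_lit 5) (nat_lit 573) (nat_lit 501) (nat_lit 486)) (XT.lf (nat_lit 0) (nat_lit 1294046668) (nat_lit 684) (nat_lit 2000799211) (nat_lit 760) (nat_lit 4587655292) (nat_lit 333) (nat_lit 5) (nat_lit 342) (nat_lit 5) (nat_lit 343) (nat_lit 5) (nat_lit 574) (nat_lit 501) (nat_lit 485)))) (XT.nd (nat_lit 156) (nat_lit 1368) (nat_lit 0) (XT.nd (nat_lit 78) (nat_lit 760) (nat_lit 0) (XT.lf (nat_lit 0) (nat_lit 6797007535) (nat_lit 760) (nat_lit 464770545) (nat_lit 76) (nat_lit 679177360) (nat_lit 333) (nat_lit 5) (nat_lit 343) (nat_lit 5) (nat_lit 334) (nat_lit 5) (nat_lit 575) (nat_lit 501) (nat_lit 484))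 (XT.lf (nat_lit 0) (nat_lit 2330591988) (nat_lit 760) (nat_lit 2244272535) (nat_lit 76) (nat_lit 3425549597) (nat_lit 323) (nat_lit 5) (nat_lit 333) (nat_lit 5) (nat_lit 324) (nat_lit 5) (nat_lit 576) (nat_lit 501) (nat_lit 483))) (XT.nd (nat_lit 78) (nat_lit 760) (nat_lit 0) (XT.lf (nat_lit 0) (nat_lit 4019547806) (nat_lit 608) (nat_lit 1811641907) (nat_lit 684) (nat_lit 2230286642) (nat_lit 315) (nat_lit 5) (nat_lit 323) (nat_lit 5) (nat_lit 324) (nat_lit 5) (nat_lit 577) (nat_lit 501) (nat_lit 482)) (XT.lf (nat_lit 0) (nat_lit 1240740466) (nat_lit 760) (nat_lit 5866555229) (nat_lit 76) (nat_lit 1016712102) (nat_lit 305) (nat_lit 5) (nat_lit 315) (nat_lit 5) (nat_lit 306) (nat_lit 5) (nat_lit 578) (nat_lit 501) (nat_lit 481))))) (XT.nd (nat_lit 312) (nat_lit 1824) (nat_lit 0) (XT.nd (nat_lit 156) (nat_lit 1216) (nat_lit 0) (XT.nd (nat_lit 78) (nat_lit 76) (nat_lit 0) (XT.lf (nat_lit 0) (nat_lit 456216200) (nat_lit 608) (nat_lit 4280860491) (nat_lit 684) (nat_lit 3450706402) (nat_lit 297) (nat_lit 5) (nat_lit 305) (nat_lit 5) (nat_lit 306)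 (nat_lit 5) (nat_lit 579) (nat_lit 501) (nat_lit 480)) (XT.lf (nat_lit 0) (nat_lit 33196509) (nat_lit 684) (nat_lit 1341121911) (nat_lit 76) (nat_lit 6878844843) (nat_lit 296) (nat_lit 5) (nat_lit 305) (nat_lit 5) (nat_lit 297) (nat_lit 5) (nat_lit 580) (nat_lit 501) (nat_lit 479))) (XT.nd (nat_lit 78) (nat_lit 608) (nat_lit 0) (XT.lf (nat_lit 0) (nat_lit 3529468952) (nat_lit 684) (nat_lit 3180612692) (nat_lit 76) (nat_lit 1609538213) (nat_lit 288) (nat_lit 5) (nat_lit 297) (nat_lit 5) (nat_lit 289) (nat_lit 5) (nat_lit 581) (nat_lit 501) (nat_lit 478)) (XT.lf (nat_lit 0) (nat_lit 3341838075) (nat_lit 608) (nat_lit 3739022135) (nat_lit 684) (nat_lit 1306844378) (nat_lit 280) (nat_lit 5) (nat_lit 288) (nat_lit 5) (nat_lit 289) (nat_lit 5) (nat_lit 582) (nat_lit 501) (nat_lit 477)))) (XT.nd (nat_lit 156) (nat_lit 1140) (nat_lit 0) (XT.nd (nat_lit 78) (nat_lit 0) (nat_lit 0) (XT.lf (nat_lit 0) (nat_lit 1513481580) (nat_lit 608) (nat_lit 680078334) (nat_lit 684) (nat_lit 6263764396) (nat_lit 271) (nat_lit 5) (nat_lit 279) (nat_lit 5) (nat_lit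 280) (nat_lit 5) (nat_lit 583) (nat_lit 501) (nat_lit 476)) (XT.lf (nat_lit 0) (nat_lit 5742473412) (nat_lit 684) (nat_lit 353217330) (nat_lit 76) (nat_lit 2432555631) (nat_lit 271) (nat_lit 5) (nat_lit 280) (nat_lit 5) (nat_lit 272) (nat_lit 5) (nat_lit 584) (nat_lit 501) (nat_lit 475))) (XT.nd (nat_lit 78) (nat_lit 532) (nat_lit 0) (XT.lf (nat_lit 0) (nat_lit 744757161) (nat_lit 608) (nat_lit 2229098051) (nat_lit 76) (nat_lit 5626775955) (nat_lit 263) (nat_lit 5) (nat_lit 271) (nat_lit 5) (nat_lit 264) (nat_lit 5) (nat_lit 585) (nat_lit 501) (nat_lit 474)) (XT.lf (nat_lit 0) (nat_lit 4289341256) (nat_lit 608) (nat_lit 4146034547) (nat_lit 76) (nat_lit 239107230) (nat_lit 256) (nat_lit 5) (nat_lit 264) (nat_lit 5) (nat_lit 257) (nat_lit 5) (nat_lit 586) (nat_lit 501) (nat_lit 473))))))))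
noncomputable def xc12 : XT := (XT.nd (nat_lit 79326) (nat_lit 0) (nat_lit 5700) (XT.nd (nat_lit 1170) (nat_lit 2432) (nat_lit 0) (XT.nd (nat_lit 546) (nat_lit 3192) (nat_lit 0) (XT.nd (nat_lit 234) (nat_lit 1596) (nat_lit 0) (XT.nd (nat_lit 78) (nat_lit 608) (nat_lit 0) (XT.lf (nat_lit 0) (nat_lit 2644246385) (nat_lit 532) (nat_lit 5260271003) (nat_lit 608) (nat_lit 845303043) (nat_lit 249) (nat_lit 5) (nat_lit 256) (nat_lit 5) (nat_lit 257) (nat_lit 5) (nat_lit 587) (nat_lit 501) (nat_lit 472)) (XT.nd (nat_lit 78) (nat_lit 0) (nat_lit 0) (XT.lf (nat_lit 0) (nat_lit 719010952) (nat_lit 532) (nat_lit 1990720371) (nat_lit 608) (nat_lit 6116963237) (nat_lit 241) (nat_lit 5) (nat_lit 248) (nat_lit 5) (nat_lit 249) (nat_lit 5) (nat_lit 588) (nat_lit 501) (nat_lit 471)) (XT.lf (nat_lit 0) (nat_lit 6322936907) (nat_lit 608) (nat_lit 1229157459) (nat_lit 76) (nat_lit 1352934632) (nat_lit 241) (nat_lit 5) (nat_lit 249) (nat_lit 5) (nat_lit 242) (nat_lit 5) (nat_lit 589) (nat_lit 501) (nat_lit 470)))) (XT.nd (nat_lit 156) (nat_lit 532) (nat_lit 0)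 (XT.nd (nat_lit 78) (nat_lit 532) (nat_lit 0) (XT.lf (nat_lit 0) (nat_lit 1010168692) (nat_lit 532) (nat_lit 3213733150) (nat_lit 76) (nat_lit 4760895341) (nat_lit 234) (nat_lit 5) (nat_lit 241) (nat_lit 5) (nat_lit 235) (nat_lit 5) (nat_lit 590) (nat_lit 501) (nat_lit 469)) (XT.lf (nat_lit 0) (nat_lit 3823050724) (nat_lit 532) (nat_lit 799422083) (nat_lit 608) (nat_lit 4443693347) (nat_lit 227) (nat_lit 5) (nat_lit 234) (nat_lit 5) (nat_lit 235) (nat_lit 5) (nat_lit 591) (nat_lit 501) (nat_lit 468))) (XT.nd (nat_lit 78) (nat_lit 76) (nat_lit 0) (XT.lf (nat_lit 0) (nat_lit 1829488131) (nat_lit 456) (nat_lit 6478609672) (nat_lit 532) (nat_lit 841045383) (nat_lit 221) (nat_lit 5) (nat_lit 227) (nat_lit 5) (nat_lit 228) (nat_lit 5) (nat_lit 592) (nat_lit 501) (nat_lit 467)) (XT.lf (nat_lit 0) (nat_lit 2787386874) (nat_lit 532) (nat_lit 214851191) (nat_lit 76) (nat_lit 6231357924) (nat_lit 220) (nat_lit 5) (nat_lit 227) (nat_lit 5) (nat_lit 221) (nat_lit 5) (nat_lit 593) (nat_lit 501) (nat_lit 466))))) (XT.nd (nat_lit 312) (nat_lit 1368) (nat_lit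 0) (XT.nd (nat_lit 156) (nat_lit 836) (nat_lit 0) (XT.nd (nat_lit 78) (nat_lit 532) (nat_lit 0) (XT.lf (nat_lit 0) (nat_lit 6477782471) (nat_lit 532) (nat_lit 2275547320) (nat_lit 76) (nat_lit 566285797) (nat_lit 214) (nat_lit 5) (nat_lit 221) (nat_lit 5) (nat_lit 215) (nat_lit 5) (nat_lit 594) (nat_lit 501) (nat_lit 465)) (XT.lf (nat_lit 0) (nat_lit 829149483) (nat_lit 532) (nat_lit 4394430174) (nat_lit 76) (nat_lit 4183560208) (nat_lit 207) (nat_lit 5) (nat_lit 214) (nat_lit 5) (nat_lit 208) (nat_lit 5) (nat_lit 595) (nat_lit 501) (nat_lit 464))) (XT.nd (nat_lit 78) (nat_lit 380) (nat_lit 0) (XT.lf (nat_lit 0) (nat_lit 2929390621) (nat_lit 456) (nat_lit 1592221461) (nat_lit 532) (nat_lit 4974706538) (nat_lit 201) (nat_lit 5) (nat_lit 207) (nat_lit 5) (nat_lit 208) (nat_lit 5) (nat_lit 596) (nat_lit 501) (nat_lit 463)) (XT.lf (nat_lit 0) (nat_lit 797201141) (nat_lit 380) (nat_lit 7491314624) (nat_lit 456) (nat_lit 1298755246) (nat_lit 196) (nat_lit 5) (nat_lit 201) (nat_lit 5) (nat_lit 202) (nat_lit 5) (nat_lit 597) (nat_lit 501) (nat_lit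 462)))) (XT.nd (nat_lit 156) (nat_lit 836) (nat_lit 0) (XT.nd (nat_lit 78) (nat_lit 456) (nat_lit 0) (XT.lf (nat_lit 0) (nat_lit 2425658585) (nat_lit 456) (nat_lit 1380356365) (nat_lit 76) (nat_lit 5873569386) (nat_lit 195) (nat_lit 5) (nat_lit 201) (nat_lit 5) (nat_lit 196) (nat_lit 5) (nat_lit 598) (nat_lit 501) (nat_lit 461)) (XT.lf (nat_lit 0) (nat_lit 6179330121) (nat_lit 456) (nat_lit 21095619) (nat_lit 532) (nat_lit 3573283173) (nat_lit 189) (nat_lit 5) (nat_lit 195) (nat_lit 5) (nat_lit 196) (nat_lit 5) (nat_lit 599) (nat_lit 501) (nat_lit 460))) (XT.nd (nat_lit 78) (nat_lit 380) (nat_lit 0) (XT.lf (nat_lit 0) (nat_lit 192311731) (nat_lit 456) (nat_lit 5874877850) (nat_lit 76) (nat_lit 3802230358) (nat_lit 183) (nat_lit 5) (nat_lit 189) (nat_lit 5) (nat_lit 184) (nat_lit 5) (nat_lit 600) (nat_lit 501) (nat_lit 459)) (XT.lf (nat_lit 0) (nat_lit 1745200609) (nat_lit 380) (nat_lit 2229543178) (nat_lit 456) (nat_lit 5992043263) (nat_lit 178) (nat_lit 5) (nat_lit 183) (nat_lit 5) (nat_lit 184) (nat_lit 5) (nat_lit 601) (nat_lit 501) (nat_lit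 458)))))) (XT.nd (nat_lit 546) (nat_lit 380) (nat_lit 0) (XT.nd (nat_lit 234) (nat_lit 1216) (nat_lit 0) (XT.nd (nat_lit 78) (nat_lit 836) (nat_lit 0) (XT.lf (nat_lit 0) (nat_lit 7837315706) (nat_lit 456) (nat_lit 550615856) (nat_lit 76) (nat_lit 1678081769) (nat_lit 178) (nat_lit 5) (nat_lit 184) (nat_lit 5) (nat_lit 179) (nat_lit 5) (nat_lit 602) (nat_lit 501) (nat_lit 457)) (XT.nd (nat_lit 78) (nat_lit 380) (nat_lit 0) (XT.lf (nat_lit 0) (nat_lit 1605743631) (nat_lit 456) (nat_lit 2892924661) (nat_lit 76) (nat_lit 5668009518) (nat_lit 172) (nat_lit 5) (nat_lit 178) (nat_lit 5) (nat_lit 173) (nat_lit 5) (nat_lit 603) (nat_lit 501) (nat_lit 456)) (XT.lf (nat_lit 0) (nat_lit 4973071805) (nat_lit 380) (nat_lit 504904390) (nat_lit 456) (nat_lit 4791267411) (nat_lit 167) (nat_lit 5) (nat_lit 172) (nat_lit 5) (nat_lit 173) (nat_lit 5) (nat_lit 604) (nat_lit 501) (nat_lit 455)))) (XT.nd (nat_lit 156) (nat_lit 380) (nat_lit 0) (XT.nd (nat_lit 78) (nat_lit 456) (nat_lit 0) (XT.lf (nat_lit 0) (nat_lit 2602534601) (nat_lit 380) (nat_lit 6839906429)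 (nat_lit 456) (nat_lit 931125460) (nat_lit 162) (nat_lit 5) (nat_lit 167) (nat_lit 5) (nat_lit 168) (nat_lit 5) (nat_lit 605) (nat_lit 501) (nat_lit 454)) (XT.lf (nat_lit 0) (nat_lit 160183353) (nat_lit 380) (nat_lit 2802075222) (nat_lit 456) (nat_lit 7517419028) (nat_lit 156) (nat_lit 5) (nat_lit 161) (nat_lit 5) (nat_lit 162) (nat_lit 5) (nat_lit 606) (nat_lit 501) (nat_lit 453))) (XT.nd (nat_lit 78) (nat_lit 380) (nat_lit 0) (XT.lf (nat_lit 0) (nat_lit 6937655590) (nat_lit 456) (nat_lit 2317382207) (nat_lit 76) (nat_lit 1332419224) (nat_lit 156) (nat_lit 5) (nat_lit 162) (nat_lit 5) (nat_lit 157) (nat_lit 5) (nat_lit 607) (nat_lit 501) (nat_lit 452)) (XT.lf (nat_lit 0) (nat_lit 304243548) (nat_lit 380) (nat_lit 4865845360) (nat_lit 76) (nat_lit 5527007246) (nat_lit 151) (nat_lit 5) (nat_lit 156) (nat_lit 5) (nat_lit 152) (nat_lit 5) (nat_lit 608) (nat_lit 501) (nat_lit 451))))) (XT.nd (nat_lit 77298) (nat_lit 0) (nat_lit 22496) (XT.nd (nat_lit 77142) (nat_lit 0) (nat_lit 26448) (XT.nd (nat_lit 77064) (nat_lit 0) (nat_lit 28272) (XT.lf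 (nat_lit 0) (nat_lit 3315309611) (nat_lit 380) (nat_lit 966964990) (nat_lit 456) (nat_lit 6526296799) (nat_lit 146) (nat_lit 5) (nat_lit 151) (nat_lit 5) (nat_lit 152) (nat_lit 5) (nat_lit 609) (nat_lit 501) (nat_lit 450)) (XT.lf (nat_lit 0) (nat_lit 772841042) (nat_lit 1748) (nat_lit 1984727006) (nat_lit 0) (nat_lit 772841042) (nat_lit 518) (nat_lit 5) (nat_lit 541) (nat_lit 4) (nat_lit 518) (nat_lit 4) (nat_lit 556) (nat_lit 502) (nat_lit 502))) (XT.nd (nat_lit 78) (nat_lit 76) (nat_lit 0) (XT.lf (nat_lit 0) (nat_lit 1249558428) (nat_lit 1748) (nat_lit 3807028983) (nat_lit 1748) (nat_lit 2039354242) (nat_lit 495) (nat_lit 4) (nat_lit 518) (nat_lit 5) (nat_lit 518) (nat_lit 4) (nat_lit 557) (nat_lit 502) (nat_lit 501)) (XT.lf (nat_lit 0) (nat_lit 1443363395) (nat_lit 1824) (nat_lit 585095134) (nat_lit 76) (nat_lit 5103975621) (nat_lit 494) (nat_lit 5) (nat_lit 518) (nat_lit 5) (nat_lit 495) (nat_lit 4) (nat_lit 558) (nat_lit 502) (nat_lit 500)))) (XT.nd (nat_lit 156) (nat_lit 988) (nat_lit 0) (XT.nd (nat_lit 78) (nat_lit 1140) (nat_lit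 0) (XT.lf (nat_lit 0) (nat_lit 4761076608) (nat_lit 1824) (nat_lit 170012291) (nat_lit 1900) (nat_lit 2239050202) (nat_lit 470) (nat_lit 5) (nat_lit 494) (nat_lit 5) (nat_lit 495) (nat_lit 4) (nat_lit 559) (nat_lit 502) (nat_lit 499)) (XT.lf (nat_lit 0) (nat_lit 1230012498) (nat_lit 1140) (nat_lit 4246200593) (nat_lit 76) (nat_lit 1732887481) (nat_lit 455) (nat_lit 5) (nat_lit 470) (nat_lit 5) (nat_lit 456) (nat_lit 4) (nat_lit 560) (nat_lit 502) (nat_lit 498))) (XT.nd (nat_lit 78) (nat_lit 76) (nat_lit 0) (XT.lf (nat_lit 0) (nat_lit 1154924938) (nat_lit 912) (nat_lit 3541504890) (nat_lit 988) (nat_lit 2552961462) (nat_lit 443) (nat_lit 5) (nat_lit 455) (nat_lit 5) (nat_lit 456) (nat_lit 4) (nat_lit 561) (nat_lit 502) (nat_lit 497)) (XT.lf (nat_lit 0) (nat_lit 891463890) (nat_lit 988) (nat_lit 645614504) (nat_lit 76) (nat_lit 5754049519) (nat_lit 442) (nat_lit 5) (nat_lit 455) (nat_lit 5) (nat_lit 443) (nat_lit 5) (nat_lit 562) (nat_lit 502) (nat_lit 496))))))) (XT.nd (nat_lit 1170) (nat_lit 7144) (nat_lit 0) (XT.nd (nat_lit 546) (nat_lit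 4408) (nat_lit 0) (XT.nd (nat_lit 234) (nat_lit 2584) (nat_lit 0) (XT.nd (nat_lit 78) (nat_lit 1748) (nat_lit 0) (XT.lf (nat_lit 0) (nat_lit 4340710490) (nat_lit 988) (nat_lit 2447818864) (nat_lit 76) (nat_lit 545434884) (nat_lit 430) (nat_lit 5) (nat_lit 443) (nat_lit 5) (nat_lit 431) (nat_lit 4) (nat_lit 563) (nat_lit 502) (nat_lit 495)) (XT.nd (nat_lit 78) (nat_lit 836) (nat_lit 0) (XT.lf (nat_lit 0) (nat_lit 445117210) (nat_lit 912) (nat_lit 4261187589) (nat_lit 76) (nat_lit 2671891726) (nat_lit 418) (nat_lit 5) (nat_lit 430) (nat_lit 5) (nat_lit 419) (nat_lit 5) (nat_lit 564) (nat_lit 502) (nat_lit 494)) (XT.lf (nat_lit 0) (nat_lit 1330011643) (nat_lit 836) (nat_lit 2543303554) (nat_lit 912) (nat_lit 3550384300) (nat_lit 407) (nat_lit 5) (nat_lit 418) (nat_lit 5) (nat_lit 419) (nat_lit 5) (nat_lit 565) (nat_lit 502) (nat_lit 493)))) (XT.nd (nat_lit 156) (nat_lit 1672) (nat_lit 0) (XT.nd (nat_lit 78) (nat_lit 912) (nat_lit 0) (XT.lf (nat_lit 0) (nat_lit 7020433128) (nat_lit 836) (nat_lit 314969780) (nat_lit 912) (nat_lit 135407545) (nat_lit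 407) (nat_lit 5) (nat_lit 418) (nat_lit 5) (nat_lit 419) (nat_lit 5) (nat_lit 566) (nat_lit 502) (nat_lit 492)) (XT.lf (nat_lit 0) (nat_lit 3288856967) (nat_lit 912) (nat_lit 2248491685) (nat_lit 76) (nat_lit 1981386595) (nat_lit 395) (nat_lit 5) (nat_lit 407) (nat_lit 5) (nat_lit 396) (nat_lit 5) (nat_lit 567) (nat_lit 502) (nat_lit 491))) (XT.nd (nat_lit 78) (nat_lit 836) (nat_lit 0) (XT.lf (nat_lit 0) (nat_lit 3516393224) (nat_lit 836) (nat_lit 3229641650) (nat_lit 912) (nat_lit 822245124) (nat_lit 384) (nat_lit 5) (nat_lit 395) (nat_lit 5) (nat_lit 396) (nat_lit 5) (nat_lit 568) (nat_lit 502) (nat_lit 490)) (XT.lf (nat_lit 0) (nat_lit 1743172882) (nat_lit 760) (nat_lit 840700432) (nat_lit 836) (nat_lit 5035299097) (nat_lit 373) (nat_lit 5) (nat_lit 383) (nat_lit 5) (nat_lit 384) (nat_lit 5) (nat_lit 569) (nat_lit 502) (nat_lit 489))))) (XT.nd (nat_lit 312) (nat_lit 2052) (nat_lit 0) (XT.nd (nat_lit 156) (nat_lit 1520) (nat_lit 0) (XT.nd (nat_lit 78) (nat_lit 836) (nat_lit 0) (XT.lf (nat_lit 0) (nat_lit 6024157666) (nat_lit 836) (nat_lit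 49056410) (nat_lit 76) (nat_lit 1598222772) (nat_lit 373) (nat_lit 5) (nat_lit 384) (nat_lit 5) (nat_lit 374) (nat_lit 5) (nat_lit 570) (nat_lit 502) (nat_lit 488)) (XT.lf (nat_lit 0) (nat_lit 1769023474) (nat_lit 836) (nat_lit 1840700818) (nat_lit 76) (nat_lit 4115106413) (nat_lit 362) (nat_lit 5) (nat_lit 373) (nat_lit 5) (nat_lit 363) (nat_lit 5) (nat_lit 571) (nat_lit 502) (nat_lit 487))) (XT.nd (nat_lit 78) (nat_lit 836) (nat_lit 0) (XT.lf (nat_lit 0) (nat_lit 4130102148) (nat_lit 684) (nat_lit 1069481578) (nat_lit 760) (nat_lit 2580134887) (nat_lit 353) (nat_lit 5) (nat_lit 362) (nat_lit 5) (nat_lit 363) (nat_lit 5) (nat_lit 572) (nat_lit 502) (nat_lit 486)) (XT.lf (nat_lit 0) (nat_lit 830674725) (nat_lit 836) (nat_lit 5481936243) (nat_lit 76) (nat_lit 1523405958) (nat_lit 342) (nat_lit 5) (nat_lit 353) (nat_lit 5) (nat_lit 343) (nat_lit 5) (nat_lit 573) (nat_lit 502) (nat_lit 485)))) (XT.nd (nat_lit 156) (nat_lit 1368) (nat_lit 0) (XT.nd (nat_lit 78) (nat_lit 0) (nat_lit 0) (XT.lf (nat_lit 0) (nat_lit 545741415) (nat_lit 684) (nat_lit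 3706476493) (nat_lit 760) (nat_lit 3641344397) (nat_lit 333) (nat_lit 5) (nat_lit 342) (nat_lit 5) (nat_lit 343) (nat_lit 5) (nat_lit 574) (nat_lit 502) (nat_lit 484)) (XT.lf (nat_lit 0) (nat_lit 6697295678) (nat_lit 684) (nat_lit 1024118221) (nat_lit 760) (nat_lit 231263690) (nat_lit 333) (nat_lit 5) (nat_lit 342) (nat_lit 5) (nat_lit 343) (nat_lit 5) (nat_lit 575) (nat_lit 502) (nat_lit 483))) (XT.nd (nat_lit 78) (nat_lit 608) (nat_lit 0) (XT.lf (nat_lit 0) (nat_lit 3191021638) (nat_lit 760) (nat_lit 3092273425) (nat_lit 76) (nat_lit 1729530015) (nat_lit 323) (nat_lit 5) (nat_lit 333) (nat_lit 5) (nat_lit 324) (nat_lit 5) (nat_lit 576) (nat_lit 502) (nat_lit 482)) (XT.lf (nat_lit 0) (nat_lit 3124698563) (nat_lit 608) (nat_lit 3533268241) (nat_lit 684) (nat_lit 1416595163) (nat_lit 315) (nat_lit 5) (nat_lit 323) (nat_lit 5) (nat_lit 324) (nat_lit 5) (nat_lit 577) (nat_lit 502) (nat_lit 481)))))) (XT.nd (nat_lit 546) (nat_lit 3800) (nat_lit 0) (XT.nd (nat_lit 234) (nat_lit 1900) (nat_lit 0) (XT.nd (nat_lit 78) (nat_lit 684) (nat_lit 0) (XT.lf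 (nat_lit 0) (nat_lit 1303201717) (nat_lit 684) (nat_lit 699922729) (nat_lit 760) (nat_lit 6134677558) (nat_lit 305) (nat_lit 5) (nat_lit 314) (nat_lit 5) (nat_lit 315) (nat_lit 5) (nat_lit 578) (nat_lit 502) (nat_lit 480)) (XT.nd (nat_lit 78) (nat_lit 684) (nat_lit 0) (XT.lf (nat_lit 0) (nat_lit 5464513666) (nat_lit 760) (nat_lit 548786736) (nat_lit 76) (nat_lit 2188977348) (nat_lit 305) (nat_lit 5) (nat_lit 315) (nat_lit 5) (nat_lit 306) (nat_lit 5) (nat_lit 579) (nat_lit 502) (nat_lit 479)) (XT.lf (nat_lit 0) (nat_lit 705841340) (nat_lit 684) (nat_lit 2408239416) (nat_lit 76) (nat_lit 5154104980) (nat_lit 296) (nat_lit 5) (nat_lit 305) (nat_lit 5) (nat_lit 297) (nat_lit 5) (nat_lit 580) (nat_lit 502) (nat_lit 478)))) (XT.nd (nat_lit 156) (nat_lit 684) (nat_lit 0) (XT.nd (nat_lit 78) (nat_lit 608) (nat_lit 0) (XT.lf (nat_lit 0) (nat_lit 4033093986) (nat_lit 608) (nat_lit 124403055) (nat_lit 684) (nat_lit 4178039045) (nat_lit 288) (nat_lit 5) (nat_lit 296) (nat_lit 5) (nat_lit 297) (nat_lit 5) (nat_lit 581) (nat_lit 502) (nat_lit 477)) (XT.lf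 (nat_lit 0) (nat_lit 2170252712) (nat_lit 608) (nat_lit 5503690040) (nat_lit 684) (nat_lit 730378372) (nat_lit 280) (nat_lit 5) (nat_lit 288) (nat_lit 5) (nat_lit 289) (nat_lit 5) (nat_lit 582) (nat_lit 502) (nat_lit 476))) (XT.nd (nat_lit 78) (nat_lit 0) (nat_lit 0) (XT.lf (nat_lit 0) (nat_lit 269908297) (nat_lit 608) (nat_lit 2458070016) (nat_lit 684) (nat_lit 5746578761) (nat_lit 271) (nat_lit 5) (nat_lit 279) (nat_lit 5) (nat_lit 280) (nat_lit 5) (nat_lit 583) (nat_lit 502) (nat_lit 475)) (XT.lf (nat_lit 0) (nat_lit 6239166760) (nat_lit 684) (nat_lit 1638031587) (nat_lit 76) (nat_lit 669036605) (nat_lit 271) (nat_lit 5) (nat_lit 280) (nat_lit 5) (nat_lit 272) (nat_lit 5) (nat_lit 584) (nat_lit 502) (nat_lit 474))))) (XT.nd (nat_lit 312) (nat_lit 2052) (nat_lit 0) (XT.nd (nat_lit 156) (nat_lit 608) (nat_lit 0) (XT.nd (nat_lit 78) (nat_lit 532) (nat_lit 0) (XT.lf (nat_lit 0) (nat_lit 1182605049) (nat_lit 608) (nat_lit 3587862472) (nat_lit 76) (nat_lit 3848782899) (nat_lit 263) (nat_lit 5) (nat_lit 271) (nat_lit 5) (nat_lit 264) (nat_lit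 5) (nat_lit 585) (nat_lit 502) (nat_lit 473)) (XT.lf (nat_lit 0) (nat_lit 3117800046) (nat_lit 532) (nat_lit 1573088036) (nat_lit 608) (nat_lit 4002941464) (nat_lit 256) (nat_lit 5) (nat_lit 263) (nat_lit 5) (nat_lit 264) (nat_lit 5) (nat_lit 586) (nat_lit 502) (nat_lit 472))) (XT.nd (nat_lit 78) (nat_lit 76) (nat_lit 0) (XT.lf (nat_lit 0) (nat_lit 1169947207) (nat_lit 532) (nat_lit 7090986883) (nat_lit 608) (nat_lit 509136670) (nat_lit 249) (nat_lit 5) (nat_lit 256) (nat_lit 5) (nat_lit 257) (nat_lit 5) (nat_lit 587) (nat_lit 502) (nat_lit 471)) (XT.lf (nat_lit 0) (nat_lit 3011578851) (nat_lit 608) (nat_lit 822438339) (nat_lit 76) (nat_lit 5013483413) (nat_lit 248) (nat_lit 5) (nat_lit 256) (nat_lit 5) (nat_lit 249) (nat_lit 5) (nat_lit 588) (nat_lit 502) (nat_lit 470)))) (XT.nd (nat_lit 156) (nat_lit 988) (nat_lit 0) (XT.nd (nat_lit 78) (nat_lit 532) (nat_lit 0) (XT.lf (nat_lit 0) (nat_lit 6097516318) (nat_lit 532) (nat_lit 487982118) (nat_lit 608) (nat_lit 2341123470) (nat_lit 241) (nat_lit 5) (nat_lit 248) (nat_lit 5) (nat_lit 249) (nat_lit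 5) (nat_lit 589) (nat_lit 502) (nat_lit 469)) (XT.lf (nat_lit 0) (nat_lit 1209270065) (nat_lit 532) (nat_lit 4890663019) (nat_lit 76) (nat_lit 2907200954) (nat_lit 234) (nat_lit 5) (nat_lit 241) (nat_lit 5) (nat_lit 235) (nat_lit 5) (nat_lit 590) (nat_lit 502) (nat_lit 468))) (XT.nd (nat_lit 78) (nat_lit 456) (nat_lit 0) (XT.lf (nat_lit 0) (nat_lit 2088480151) (nat_lit 532) (nat_lit 2697378207) (nat_lit 608) (nat_lit 4303360046) (nat_lit 227) (nat_lit 5) (nat_lit 234) (nat_lit 5) (nat_lit 235) (nat_lit 5) (nat_lit 591) (nat_lit 502) (nat_lit 467)) (XT.lf (nat_lit 0) (nat_lit 25448732) (nat_lit 456) (nat_lit 8397731481) (nat_lit 532) (nat_lit 749982343) (nat_lit 221) (nat_lit 5) (nat_lit 227) (nat_lit 5) (nat_lit 228) (nat_lit 5) (nat_lit 592) (nat_lit 502) (nat_lit 466))))))))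
noncomputable def xc13 : XT := (XT.nd (nat_lit 79170) (nat_lit 0) (nat_lit 4636) (XT.nd (nat_lit 1170) (nat_lit 760) (nat_lit 0) (XT.nd (nat_lit 546) (nat_lit 2508) (nat_lit 0) (XT.nd (nat_lit 234) (nat_lit 1368) (nat_lit 0) (XT.nd (nat_lit 78) (nat_lit 988) (nat_lit 0) (XT.lf (nat_lit 0) (nat_lit 2853077766) (nat_lit 532) (nat_lit 2078671811) (nat_lit 76) (nat_lit 4326338530) (nat_lit 220) (nat_lit 5) (nat_lit 227) (nat_lit 5) (nat_lit 221) (nat_lit 5) (nat_lit 593) (nat_lit 502) (nat_lit 465)) (XT.nd (nat_lit 78) (nat_lit 532) (nat_lit 0) (XT.lf (nat_lit 0) (nat_lit 5124339307) (nat_lit 456) (nat_lit 1379215901) (nat_lit 532) (nat_lit 2841351857) (nat_lit 214) (nat_lit 5) (nat_lit 220) (nat_lit 5) (nat_lit 221) (nat_lit 5) (nat_lit 594) (nat_lit 502) (nat_lit 464)) (XT.lf (nat_lit 0) (nat_lit 783870959) (nat_lit 532) (nat_lit 6417243528) (nat_lit 76) (nat_lit 2232232820) (nat_lit 207) (nat_lit 5) (nat_lit 214) (nat_lit 5) (nat_lit 208) (nat_lit 5) (nat_lit 595) (nat_lit 502) (nat_lit 463)))) (XT.nd (nat_lit 156) (nat_lit 912) (nat_lit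 0) (XT.nd (nat_lit 78) (nat_lit 0) (nat_lit 0) (XT.lf (nat_lit 0) (nat_lit 844494639) (nat_lit 456) (nat_lit 3594853609) (nat_lit 532) (nat_lit 5083918459) (nat_lit 201) (nat_lit 5) (nat_lit 207) (nat_lit 5) (nat_lit 208) (nat_lit 5) (nat_lit 596) (nat_lit 502) (nat_lit 462)) (XT.lf (nat_lit 0) (nat_lit 8164787140) (nat_lit 532) (nat_lit 1346998077) (nat_lit 76) (nat_lit 103264096) (nat_lit 201) (nat_lit 5) (nat_lit 208) (nat_lit 5) (nat_lit 202) (nat_lit 5) (nat_lit 597) (nat_lit 502) (nat_lit 461))) (XT.nd (nat_lit 78) (nat_lit 456) (nat_lit 0) (XT.lf (nat_lit 0) (nat_lit 2244009672) (nat_lit 456) (nat_lit 3604351472) (nat_lit 76) (nat_lit 3859664633) (nat_lit 195) (nat_lit 5) (nat_lit 201) (nat_lit 5) (nat_lit 196) (nat_lit 5) (nat_lit 598) (nat_lit 502) (nat_lit 460)) (XT.lf (nat_lit 0) (nat_lit 3891027609) (nat_lit 456) (nat_lit 2090138601) (nat_lit 532) (nat_lit 3821737224) (nat_lit 189) (nat_lit 5) (nat_lit 195) (nat_lit 5) (nat_lit 196) (nat_lit 5) (nat_lit 599) (nat_lit 502) (nat_lit 459))))) (XT.nd (nat_lit 312) (nat_lit 1216)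 (nat_lit 0) (XT.nd (nat_lit 156) (nat_lit 836) (nat_lit 0) (XT.nd (nat_lit 78) (nat_lit 76) (nat_lit 0) (XT.lf (nat_lit 0) (nat_lit 1626244840) (nat_lit 380) (nat_lit 8167386354) (nat_lit 456) (nat_lit 106037859) (nat_lit 184) (nat_lit 5) (nat_lit 189) (nat_lit 5) (nat_lit 190) (nat_lit 5) (nat_lit 600) (nat_lit 502) (nat_lit 458)) (XT.lf (nat_lit 0) (nat_lit 3643922439) (nat_lit 456) (nat_lit 710066289) (nat_lit 76) (nat_lit 5643739272) (nat_lit 183) (nat_lit 5) (nat_lit 189) (nat_lit 5) (nat_lit 184) (nat_lit 5) (nat_lit 601) (nat_lit 502) (nat_lit 457))) (XT.nd (nat_lit 78) (nat_lit 456) (nat_lit 0) (XT.lf (nat_lit 0) (nat_lit 7027661705) (nat_lit 380) (nat_lit 440808828) (nat_lit 456) (nat_lit 2629245027) (nat_lit 178) (nat_lit 5) (nat_lit 183) (nat_lit 5) (nat_lit 184) (nat_lit 5) (nat_lit 602) (nat_lit 502) (nat_lit 456)) (XT.lf (nat_lit 0) (nat_lit 1168580148) (nat_lit 456) (nat_lit 5507037899) (nat_lit 76) (nat_lit 3523652160) (nat_lit 172) (nat_lit 5) (nat_lit 178) (nat_lit 5) (nat_lit 173) (nat_lit 5) (nat_lit 603) (nat_lit 502)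 (nat_lit 455)))) (XT.nd (nat_lit 156) (nat_lit 836) (nat_lit 0) (XT.nd (nat_lit 78) (nat_lit 0) (nat_lit 0) (XT.lf (nat_lit 0) (nat_lit 2289714964) (nat_lit 380) (nat_lit 2711791019) (nat_lit 456) (nat_lit 5301116910) (nat_lit 167) (nat_lit 5) (nat_lit 172) (nat_lit 5) (nat_lit 173) (nat_lit 5) (nat_lit 604) (nat_lit 502) (nat_lit 454)) (XT.lf (nat_lit 0) (nat_lit 8912990854) (nat_lit 456) (nat_lit 168187885) (nat_lit 76) (nat_lit 1326827377) (nat_lit 167) (nat_lit 5) (nat_lit 173) (nat_lit 5) (nat_lit 168) (nat_lit 5) (nat_lit 605) (nat_lit 502) (nat_lit 453))) (XT.nd (nat_lit 78) (nat_lit 380) (nat_lit 0) (XT.lf (nat_lit 0) (nat_lit 2381919091) (nat_lit 456) (nat_lit 2679914695) (nat_lit 76) (nat_lit 5452834282) (nat_lit 161) (nat_lit 5) (nat_lit 167) (nat_lit 5) (nat_lit 162) (nat_lit 5) (nat_lit 606) (nat_lit 502) (nat_lit 452)) (XT.lf (nat_lit 0) (nat_lit 5369282331) (nat_lit 380) (nat_lit 940149919) (nat_lit 456) (nat_lit 4313973609) (nat_lit 156) (nat_lit 5) (nat_lit 161) (nat_lit 5) (nat_lit 162) (nat_lit 5) (nat_lit 607) (nat_lit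 502) (nat_lit 451)))))) (XT.nd (nat_lit 77376) (nat_lit 0) (nat_lit 19760) (XT.nd (nat_lit 77064) (nat_lit 0) (nat_lit 26448) (XT.nd (nat_lit 78) (nat_lit 456) (nat_lit 0) (XT.lf (nat_lit 0) (nat_lit 2829564607) (nat_lit 304) (nat_lit 7500883363) (nat_lit 380) (nat_lit 403572771) (nat_lit 152) (nat_lit 5) (nat_lit 156) (nat_lit 5) (nat_lit 157) (nat_lit 5) (nat_lit 608) (nat_lit 502) (nat_lit 450)) (XT.nd (nat_lit 76908) (nat_lit 0) (nat_lit 31616) (XT.lf (nat_lit 0) (nat_lit 204768432) (nat_lit 380) (nat_lit 3333699577) (nat_lit 456) (nat_lit 7307906706) (nat_lit 146) (nat_lit 5) (nat_lit 151) (nat_lit 5) (nat_lit 152) (nat_lit 5) (nat_lit 609) (nat_lit 502) (nat_lit 449)) (XT.lf (nat_lit 0) (nat_lit 1698015458) (nat_lit 1596) (nat_lit 100881218) (nat_lit 0) (nat_lit 1698015458) (nat_lit 562) (nat_lit 5) (nat_lit 583) (nat_lit 4) (nat_lit 562) (nat_lit 4) (nat_lit 554) (nat_lit 503) (nat_lit 503)))) (XT.nd (nat_lit 156) (nat_lit 1824) (nat_lit 0) (XT.nd (nat_lit 78) (nat_lit 1748) (nat_lit 0) (XT.lf (nat_lit 0) (nat_lit 4929663995) (nat_lit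 1596) (nat_lit 1968239570) (nat_lit 1596) (nat_lit 129150769) (nat_lit 541) (nat_lit 4) (nat_lit 562) (nat_lit 5) (nat_lit 562) (nat_lit 4) (nat_lit 555) (nat_lit 503) (nat_lit 502)) (XT.lf (nat_lit 0) (nat_lit 3055588429) (nat_lit 1672) (nat_lit 260107345) (nat_lit 1748) (nat_lit 3745785543) (nat_lit 518) (nat_lit 5) (nat_lit 540) (nat_lit 5) (nat_lit 541) (nat_lit 4) (nat_lit 556) (nat_lit 503) (nat_lit 501))) (XT.nd (nat_lit 78) (nat_lit 76) (nat_lit 0) (XT.lf (nat_lit 0) (nat_lit 1179825061) (nat_lit 1748) (nat_lit 5610611618) (nat_lit 1748) (nat_lit 306894189) (nat_lit 495) (nat_lit 4) (nat_lit 518) (nat_lit 5) (nat_lit 518) (nat_lit 4) (nat_lit 557) (nat_lit 503) (nat_lit 500)) (XT.lf (nat_lit 0) (nat_lit 3119301366) (nat_lit 1824) (nat_lit 701762445) (nat_lit 76) (nat_lit 3313213280) (nat_lit 494) (nat_lit 5) (nat_lit 518) (nat_lit 5) (nat_lit 495) (nat_lit 4) (nat_lit 558) (nat_lit 503) (nat_lit 499))))) (XT.nd (nat_lit 312) (nat_lit 2736) (nat_lit 0) (XT.nd (nat_lit 156) (nat_lit 988) (nat_lit 0) (XT.nd (nat_lit 78) (nat_lit 1140)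 (nat_lit 0) (XT.lf (nat_lit 0) (nat_lit 4608788034) (nat_lit 1824) (nat_lit 1964112276) (nat_lit 1900) (nat_lit 599766891) (nat_lit 470) (nat_lit 5) (nat_lit 494) (nat_lit 5) (nat_lit 495) (nat_lit 4) (nat_lit 559) (nat_lit 503) (nat_lit 498)) (XT.lf (nat_lit 0) (nat_lit 2772577118) (nat_lit 1064) (nat_lit 29583371) (nat_lit 1140) (nat_lit 4410170561) (nat_lit 455) (nat_lit 5) (nat_lit 469) (nat_lit 5) (nat_lit 470) (nat_lit 5) (nat_lit 560) (nat_lit 503) (nat_lit 497))) (XT.nd (nat_lit 78) (nat_lit 76) (nat_lit 0) (XT.lf (nat_lit 0) (nat_lit 924273338) (nat_lit 912) (nat_lit 5310110809) (nat_lit 988) (nat_lit 1018923971) (nat_lit 443) (nat_lit 5) (nat_lit 455) (nat_lit 5) (nat_lit 456) (nat_lit 4) (nat_lit 561) (nat_lit 503) (nat_lit 496)) (XT.lf (nat_lit 0) (nat_lit 2373079575) (nat_lit 988) (nat_lit 924614455) (nat_lit 76) (nat_lit 3997799944) (nat_lit 442) (nat_lit 5) (nat_lit 455) (nat_lit 5) (nat_lit 443) (nat_lit 5) (nat_lit 562) (nat_lit 503) (nat_lit 495)))) (XT.nd (nat_lit 156) (nat_lit 912) (nat_lit 0) (XT.nd (nat_lit 78) (nat_lit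 912) (nat_lit 0) (XT.lf (nat_lit 0) (nat_lit 4572853068) (nat_lit 912) (nat_lit 1212157611) (nat_lit 988) (nat_lit 1554068265) (nat_lit 430) (nat_lit 5) (nat_lit 442) (nat_lit 5) (nat_lit 443) (nat_lit 5) (nat_lit 563) (nat_lit 503) (nat_lit 494)) (XT.lf (nat_lit 0) (nat_lit 1823731679) (nat_lit 912) (nat_lit 4625506784) (nat_lit 76) (nat_lit 934722045) (nat_lit 418) (nat_lit 5) (nat_lit 430) (nat_lit 5) (nat_lit 419) (nat_lit 5) (nat_lit 564) (nat_lit 503) (nat_lit 493))) (XT.nd (nat_lit 78) (nat_lit 76) (nat_lit 0) (XT.lf (nat_lit 0) (nat_lit 926017544) (nat_lit 836) (nat_lit 4292193974) (nat_lit 912) (nat_lit 2211928523) (nat_lit 407) (nat_lit 5) (nat_lit 418) (nat_lit 5) (nat_lit 419) (nat_lit 5) (nat_lit 565) (nat_lit 503) (nat_lit 492)) (XT.lf (nat_lit 0) (nat_lit 1156357384) (nat_lit 912) (nat_lit 903186170) (nat_lit 76) (nat_lit 5418171592) (nat_lit 406) (nat_lit 5) (nat_lit 418) (nat_lit 5) (nat_lit 407) (nat_lit 5) (nat_lit 566) (nat_lit 503) (nat_lit 491))))))) (XT.nd (nat_lit 1170) (nat_lit 6156) (nat_lit 0) (XT.nd (nat_lit 546)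 (nat_lit 4104) (nat_lit 0) (XT.nd (nat_lit 234) (nat_lit 2356) (nat_lit 0) (XT.nd (nat_lit 78) (nat_lit 1672) (nat_lit 0) (XT.lf (nat_lit 0) (nat_lit 4533966171) (nat_lit 912) (nat_lit 2738738663) (nat_lit 76) (nat_lit 253817191) (nat_lit 395) (nat_lit 5) (nat_lit 407) (nat_lit 5) (nat_lit 396) (nat_lit 5) (nat_lit 567) (nat_lit 503) (nat_lit 490)) (XT.nd (nat_lit 78) (nat_lit 760) (nat_lit 0) (XT.lf (nat_lit 0) (nat_lit 376004620) (nat_lit 912) (nat_lit 4594273527) (nat_lit 76) (nat_lit 2606409300) (nat_lit 383) (nat_lit 5) (nat_lit 395) (nat_lit 5) (nat_lit 384) (nat_lit 5) (nat_lit 568) (nat_lit 503) (nat_lit 489)) (XT.lf (nat_lit 0) (nat_lit 1153299740) (nat_lit 760) (nat_lit 2584423110) (nat_lit 836) (nat_lit 3890424518) (nat_lit 373) (nat_lit 5) (nat_lit 383) (nat_lit 5) (nat_lit 384) (nat_lit 5) (nat_lit 569) (nat_lit 503) (nat_lit 488)))) (XT.nd (nat_lit 156) (nat_lit 1520) (nat_lit 0) (XT.nd (nat_lit 78) (nat_lit 836) (nat_lit 0) (XT.lf (nat_lit 0) (nat_lit 7009047070) (nat_lit 760) (nat_lit 129021138) (nat_lit 836) (nat_lit 543144294)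 (nat_lit 373) (nat_lit 5) (nat_lit 383) (nat_lit 5) (nat_lit 384) (nat_lit 5) (nat_lit 570) (nat_lit 503) (nat_lit 487)) (XT.lf (nat_lit 0) (nat_lit 2824416786) (nat_lit 836) (nat_lit 2523159436) (nat_lit 76) (nat_lit 2387573814) (nat_lit 362) (nat_lit 5) (nat_lit 373) (nat_lit 5) (nat_lit 363) (nat_lit 5) (nat_lit 571) (nat_lit 503) (nat_lit 486))) (XT.nd (nat_lit 78) (nat_lit 836) (nat_lit 0) (XT.lf (nat_lit 0) (nat_lit 3403896440) (nat_lit 684) (nat_lit 2817643619) (nat_lit 760) (nat_lit 1569168429) (nat_lit 353) (nat_lit 5) (nat_lit 362) (nat_lit 5) (nat_lit 363) (nat_lit 5) (nat_lit 572) (nat_lit 503) (nat_lit 485)) (XT.lf (nat_lit 0) (nat_lit 1575824014) (nat_lit 760) (nat_lit 208847204) (nat_lit 836) (nat_lit 6063080258) (nat_lit 342) (nat_lit 5) (nat_lit 352) (nat_lit 5) (nat_lit 353) (nat_lit 5) (nat_lit 573) (nat_lit 503) (nat_lit 484))))) (XT.nd (nat_lit 312) (nat_lit 2052) (nat_lit 0) (XT.nd (nat_lit 156) (nat_lit 1292) (nat_lit 0) (XT.nd (nat_lit 78) (nat_lit 760) (nat_lit 0) (XT.lf (nat_lit 0) (nat_lit 5173045882) (nat_lit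 836) (nat_lit 284732041) (nat_lit 76) (nat_lit 2448184005) (nat_lit 342) (nat_lit 5) (nat_lit 353) (nat_lit 5) (nat_lit 343) (nat_lit 5) (nat_lit 574) (nat_lit 503) (nat_lit 483)) (XT.lf (nat_lit 0) (nat_lit 638272592) (nat_lit 760) (nat_lit 2141288547) (nat_lit 76) (nat_lit 5186029993) (nat_lit 332) (nat_lit 5) (nat_lit 342) (nat_lit 5) (nat_lit 333) (nat_lit 5) (nat_lit 575) (nat_lit 503) (nat_lit 482))) (XT.nd (nat_lit 78) (nat_lit 608) (nat_lit 0) (XT.lf (nat_lit 0) (nat_lit 3998357546) (nat_lit 684) (nat_lit 14152159) (nat_lit 760) (nat_lit 4014100792) (nat_lit 323) (nat_lit 5) (nat_lit 332) (nat_lit 5) (nat_lit 333) (nat_lit 5) (nat_lit 576) (nat_lit 503) (nat_lit 481)) (XT.lf (nat_lit 0) (nat_lit 2141492226) (nat_lit 608) (nat_lit 5304190461) (nat_lit 684) (nat_lit 643341712) (nat_lit 315) (nat_lit 5) (nat_lit 323) (nat_lit 5) (nat_lit 324) (nat_lit 5) (nat_lit 577) (nat_lit 503) (nat_lit 480)))) (XT.nd (nat_lit 156) (nat_lit 1292) (nat_lit 0) (XT.nd (nat_lit 78) (nat_lit 0) (nat_lit 0) (XT.lf (nat_lit 0) (nat_lit 252168183) (nat_lit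 684) (nat_lit 2480080657) (nat_lit 760) (nat_lit 5420596451) (nat_lit 305) (nat_lit 5) (nat_lit 314) (nat_lit 5) (nat_lit 315) (nat_lit 5) (nat_lit 578) (nat_lit 503) (nat_lit 479)) (XT.lf (nat_lit 0) (nat_lit 6155177559) (nat_lit 760) (nat_lit 1638128026) (nat_lit 76) (nat_lit 424786141) (nat_lit 305) (nat_lit 5) (nat_lit 315) (nat_lit 5) (nat_lit 306) (nat_lit 5) (nat_lit 579) (nat_lit 503) (nat_lit 478))) (XT.nd (nat_lit 78) (nat_lit 608) (nat_lit 0) (XT.lf (nat_lit 0) (nat_lit 1337849072) (nat_lit 684) (nat_lit 3567299519) (nat_lit 76) (nat_lit 3379444741) (nat_lit 296) (nat_lit 5) (nat_lit 305) (nat_lit 5) (nat_lit 297) (nat_lit 5) (nat_lit 580) (nat_lit 503) (nat_lit 477)) (XT.lf (nat_lit 0) (nat_lit 2823909904) (nat_lit 608) (nat_lit 1931491862) (nat_lit 684) (nat_lit 3597225372) (nat_lit 288) (nat_lit 5) (nat_lit 296) (nat_lit 5) (nat_lit 297) (nat_lit 5) (nat_lit 581) (nat_lit 503) (nat_lit 476)))))) (XT.nd (nat_lit 546) (nat_lit 3116) (nat_lit 0) (XT.nd (nat_lit 234) (nat_lit 1748) (nat_lit 0) (XT.nd (nat_lit 78) (nat_lit 684)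 (nat_lit 0) (XT.lf (nat_lit 0) (nat_lit 904603230) (nat_lit 608) (nat_lit 7321283079) (nat_lit 684) (nat_lit 196446457) (nat_lit 280) (nat_lit 5) (nat_lit 288) (nat_lit 5) (nat_lit 289) (nat_lit 5) (nat_lit 582) (nat_lit 503) (nat_lit 475)) (XT.nd (nat_lit 78) (nat_lit 608) (nat_lit 0) (XT.lf (nat_lit 0) (nat_lit 3227260044) (nat_lit 684) (nat_lit 1055385732) (nat_lit 76) (nat_lit 4210407872) (nat_lit 279) (nat_lit 5) (nat_lit 288) (nat_lit 5) (nat_lit 280) (nat_lit 5) (nat_lit 583) (nat_lit 503) (nat_lit 474)) (XT.lf (nat_lit 0) (nat_lit 5538974838) (nat_lit 608) (nat_lit 1162518032) (nat_lit 684) (nat_lit 1863979058) (nat_lit 271) (nat_lit 5) (nat_lit 279) (nat_lit 5) (nat_lit 280) (nat_lit 5) (nat_lit 584) (nat_lit 503) (nat_lit 473)))) (XT.nd (nat_lit 156) (nat_lit 608) (nat_lit 0) (XT.nd (nat_lit 78) (nat_lit 532) (nat_lit 0) (XT.lf (nat_lit 0) (nat_lit 1577581311) (nat_lit 608) (nat_lit 5044434719) (nat_lit 76) (nat_lit 2017261101) (nat_lit 263) (nat_lit 5) (nat_lit 271) (nat_lit 5) (nat_lit 264) (nat_lit 5) (nat_lit 585) (nat_lit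 503) (nat_lit 472)) (XT.lf (nat_lit 0) (nat_lit 1607134161) (nat_lit 532) (nat_lit 3443864385) (nat_lit 608) (nat_lit 3663556242) (nat_lit 256) (nat_lit 5) (nat_lit 263) (nat_lit 5) (nat_lit 264) (nat_lit 5) (nat_lit 586) (nat_lit 503) (nat_lit 471))) (XT.nd (nat_lit 78) (nat_lit 608) (nat_lit 0) (XT.lf (nat_lit 0) (nat_lit 8391321050) (nat_lit 532) (nat_lit 186343462) (nat_lit 608) (nat_lit 214000282) (nat_lit 256) (nat_lit 5) (nat_lit 263) (nat_lit 5) (nat_lit 264) (nat_lit 5) (nat_lit 587) (nat_lit 503) (nat_lit 470)) (XT.lf (nat_lit 0) (nat_lit 3274236591) (nat_lit 608) (nat_lit 2454980578) (nat_lit 76) (nat_lit 3140412445) (nat_lit 248) (nat_lit 5) (nat_lit 256) (nat_lit 5) (nat_lit 249) (nat_lit 5) (nat_lit 588) (nat_lit 503) (nat_lit 469))))) (XT.nd (nat_lit 312) (nat_lit 1520) (nat_lit 0) (XT.nd (nat_lit 156) (nat_lit 532) (nat_lit 0) (XT.nd (nat_lit 78) (nat_lit 532) (nat_lit 0) (XT.lf (nat_lit 0) (nat_lit 4408910747) (nat_lit 532) (nat_lit 2404020379) (nat_lit 608) (nat_lit 2136525413) (nat_lit 241) (nat_lit 5) (nat_lit 248) (nat_lit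 5) (nat_lit 249) (nat_lit 5) (nat_lit 589) (nat_lit 503) (nat_lit 468)) (XT.lf (nat_lit 0) (nat_lit 1362956710) (nat_lit 532) (nat_lit 6671612314) (nat_lit 76) (nat_lit 996338720) (nat_lit 234) (nat_lit 5) (nat_lit 241) (nat_lit 5) (nat_lit 235) (nat_lit 5) (nat_lit 590) (nat_lit 503) (nat_lit 467))) (XT.nd (nat_lit 78) (nat_lit 0) (nat_lit 0) (XT.lf (nat_lit 0) (nat_lit 249201028) (nat_lit 532) (nat_lit 4654427802) (nat_lit 608) (nat_lit 4210082660) (nat_lit 227) (nat_lit 5) (nat_lit 234) (nat_lit 5) (nat_lit 235) (nat_lit 5) (nat_lit 591) (nat_lit 503) (nat_lit 466)) (XT.lf (nat_lit 0) (nat_lit 7330221845) (nat_lit 532) (nat_lit 1181738275) (nat_lit 608) (nat_lit 686276370) (nat_lit 227) (nat_lit 5) (nat_lit 234) (nat_lit 5) (nat_lit 235) (nat_lit 5) (nat_lit 592) (nat_lit 503) (nat_lit 465)))) (XT.nd (nat_lit 156) (nat_lit 532) (nat_lit 0) (XT.nd (nat_lit 78) (nat_lit 456) (nat_lit 0) (XT.lf (nat_lit 0) (nat_lit 2872200873) (nat_lit 532) (nat_lit 4049420439) (nat_lit 76) (nat_lit 2362408399) (nat_lit 220) (nat_lit 5) (nat_lit 227) (nat_lit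 5) (nat_lit 221) (nat_lit 5) (nat_lit 593) (nat_lit 503) (nat_lit 464)) (XT.lf (nat_lit 0) (nat_lit 3093146326) (nat_lit 456) (nat_lit 3393105152) (nat_lit 532) (nat_lit 2885326705) (nat_lit 214) (nat_lit 5) (nat_lit 220) (nat_lit 5) (nat_lit 221) (nat_lit 5) (nat_lit 594) (nat_lit 503) (nat_lit 463))) (XT.nd (nat_lit 78) (nat_lit 0) (nat_lit 0) (XT.lf (nat_lit 0) (nat_lit 690320323) (nat_lit 532) (nat_lit 8550685611) (nat_lit 76) (nat_lit 220022190) (nat_lit 207) (nat_lit 5) (nat_lit 214) (nat_lit 5) (nat_lit 208) (nat_lit 5) (nat_lit 595) (nat_lit 503) (nat_lit 462)) (XT.lf (nat_lit 0) (nat_lit 4317325590) (nat_lit 532) (nat_lit 1334080832) (nat_lit 76) (nat_lit 3900111463) (nat_lit 207) (nat_lit 5) (nat_lit 214) (nat_lit 5) (nat_lit 208) (nat_lit 5) (nat_lit 596) (nat_lit 503) (nat_lit 461))))))))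
noncomputable def xc14 : XT := (XT.nd (nat_lit 79014) (nat_lit 0) (nat_lit 3344) (XT.nd (nat_lit 77844) (nat_lit 0) (nat_lit 17632) (XT.nd (nat_lit 546) (nat_lit 1596) (nat_lit 0) (XT.nd (nat_lit 234) (nat_lit 1292) (nat_lit 0) (XT.nd (nat_lit 78) (nat_lit 912) (nat_lit 0) (XT.lf (nat_lit 0) (nat_lit 6038605865) (nat_lit 456) (nat_lit 1971944491) (nat_lit 532) (nat_lit 1633395320) (nat_lit 201) (nat_lit 5) (nat_lit 207) (nat_lit 5) (nat_lit 208) (nat_lit 5) (nat_lit 597) (nat_lit 503) (nat_lit 460)) (XT.nd (nat_lit 78) (nat_lit 456) (nat_lit 0) (XT.lf (nat_lit 0) (nat_lit 2012765834) (nat_lit 456) (nat_lit 5942104212) (nat_lit 76) (nat_lit 1783086993) (nat_lit 195) (nat_lit 5) (nat_lit 201) (nat_lit 5) (nat_lit 196) (nat_lit 5) (nat_lit 598) (nat_lit 503) (nat_lit 459)) (XT.lf (nat_lit 0) (nat_lit 1488137090) (nat_lit 456) (nat_lit 4223876828) (nat_lit 532) (nat_lit 4121579795) (nat_lit 189) (nat_lit 5) (nat_lit 195) (nat_lit 5) (nat_lit 196) (nat_lit 5) (nat_lit 599) (nat_lit 503) (nat_lit 458)))) (XT.nd (nat_lit 156) (nat_lit 836) (nat_lit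 0) (XT.nd (nat_lit 78) (nat_lit 456) (nat_lit 0) (XT.lf (nat_lit 0) (nat_lit 9080057500) (nat_lit 456) (nat_lit 400448846) (nat_lit 532) (nat_lit 450733272) (nat_lit 189) (nat_lit 5) (nat_lit 195) (nat_lit 5) (nat_lit 196) (nat_lit 5) (nat_lit 600) (nat_lit 503) (nat_lit 457)) (XT.lf (nat_lit 0) (nat_lit 3273421151) (nat_lit 456) (nat_lit 3259456032) (nat_lit 76) (nat_lit 3497073476) (nat_lit 183) (nat_lit 5) (nat_lit 189) (nat_lit 5) (nat_lit 184) (nat_lit 5) (nat_lit 601) (nat_lit 503) (nat_lit 456))) (XT.nd (nat_lit 78) (nat_lit 456) (nat_lit 0) (XT.lf (nat_lit 0) (nat_lit 4410771056) (nat_lit 380) (nat_lit 2648551060) (nat_lit 456) (nat_lit 3071389829) (nat_lit 178) (nat_lit 5) (nat_lit 183) (nat_lit 5) (nat_lit 184) (nat_lit 5) (nat_lit 602) (nat_lit 503) (nat_lit 455)) (XT.lf (nat_lit 0) (nat_lit 678466509) (nat_lit 456) (nat_lit 8242216212) (nat_lit 76) (nat_lit 1312717394) (nat_lit 172) (nat_lit 5) (nat_lit 178) (nat_lit 5) (nat_lit 173) (nat_lit 5) (nat_lit 603) (nat_lit 503) (nat_lit 454))))) (XT.nd (nat_lit 312) (nat_lit 380)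 (nat_lit 0) (XT.nd (nat_lit 156) (nat_lit 836) (nat_lit 0) (XT.nd (nat_lit 78) (nat_lit 380) (nat_lit 0) (XT.lf (nat_lit 0) (nat_lit 4475070508) (nat_lit 456) (nat_lit 508876603) (nat_lit 76) (nat_lit 5353532867) (nat_lit 172) (nat_lit 5) (nat_lit 178) (nat_lit 5) (nat_lit 173) (nat_lit 5) (nat_lit 604) (nat_lit 503) (nat_lit 453)) (XT.lf (nat_lit 0) (nat_lit 7410204067) (nat_lit 380) (nat_lit 943024198) (nat_lit 456) (nat_lit 2090302204) (nat_lit 167) (nat_lit 5) (nat_lit 172) (nat_lit 5) (nat_lit 173) (nat_lit 5) (nat_lit 605) (nat_lit 503) (nat_lit 452))) (XT.nd (nat_lit 78) (nat_lit 380) (nat_lit 0) (XT.lf (nat_lit 0) (nat_lit 1748076247) (nat_lit 456) (nat_lit 5642492992) (nat_lit 76) (nat_lit 3160628443) (nat_lit 161) (nat_lit 5) (nat_lit 167) (nat_lit 5) (nat_lit 162) (nat_lit 5) (nat_lit 606) (nat_lit 503) (nat_lit 451)) (XT.lf (nat_lit 0) (nat_lit 2333978994) (nat_lit 380) (nat_lit 3301054158) (nat_lit 456) (nat_lit 5025714130) (nat_lit 156) (nat_lit 5) (nat_lit 161) (nat_lit 5) (nat_lit 162) (nat_lit 5) (nat_lit 607) (nat_lit 503)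 (nat_lit 450)))) (XT.nd (nat_lit 76830) (nat_lit 0) (nat_lit 31236) (XT.nd (nat_lit 78) (nat_lit 380) (nat_lit 0) (XT.lf (nat_lit 0) (nat_lit 9601618129) (nat_lit 456) (nat_lit 297897281) (nat_lit 76) (nat_lit 872936039) (nat_lit 156) (nat_lit 5) (nat_lit 162) (nat_lit 5) (nat_lit 157) (nat_lit 5) (nat_lit 608) (nat_lit 503) (nat_lit 449)) (XT.lf (nat_lit 0) (nat_lit 2757293872) (nat_lit 380) (nat_lit 2995906781) (nat_lit 76) (nat_lit 5132184571) (nat_lit 151) (nat_lit 5) (nat_lit 156) (nat_lit 5) (nat_lit 152) (nat_lit 5) (nat_lit 609) (nat_lit 503) (nat_lit 448))) (XT.nd (nat_lit 78) (nat_lit 1596) (nat_lit 0) (XT.lf (nat_lit 0) (nat_lit 1840127315) (nat_lit 1444) (nat_lit 812597152) (nat_lit 1444) (nat_lit 812597152) (nat_lit 583) (nat_lit 4) (nat_lit 602) (nat_lit 5) (nat_lit 602) (nat_lit 4) (nat_lit 552) (nat_lit 504) (nat_lit 504)) (XT.lf (nat_lit 0) (nat_lit 1726245000) (nat_lit 1520) (nat_lit 75553508) (nat_lit 1596) (nat_lit 5160191014) (nat_lit 562) (nat_lit 5) (nat_lit 582) (nat_lit 5) (nat_lit 583) (nat_lit 4) (nat_lit 553)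 (nat_lit 504) (nat_lit 503)))))) (XT.nd (nat_lit 546) (nat_lit 5472) (nat_lit 0) (XT.nd (nat_lit 234) (nat_lit 4788) (nat_lit 0) (XT.nd (nat_lit 78) (nat_lit 3344) (nat_lit 0) (XT.lf (nat_lit 0) (nat_lit 5237179019) (nat_lit 1596) (nat_lit 235123016) (nat_lit 0) (nat_lit 1522219642) (nat_lit 562) (nat_lit 5) (nat_lit 583) (nat_lit 4) (nat_lit 562) (nat_lit 4) (nat_lit 554) (nat_lit 504) (nat_lit 502)) (XT.nd (nat_lit 78) (nat_lit 1672) (nat_lit 0) (XT.lf (nat_lit 0) (nat_lit 1654148441) (nat_lit 1672) (nat_lit 2176607761) (nat_lit 76) (nat_lit 3197470318) (nat_lit 540) (nat_lit 5) (nat_lit 562) (nat_lit 5) (nat_lit 541) (nat_lit 4) (nat_lit 555) (nat_lit 504) (nat_lit 501)) (XT.lf (nat_lit 0) (nat_lit 2941087385) (nat_lit 1672) (nat_lit 2121660010) (nat_lit 1748) (nat_lit 2000583204) (nat_lit 518) (nat_lit 5) (nat_lit 540) (nat_lit 5) (nat_lit 541) (nat_lit 4) (nat_lit 556) (nat_lit 504) (nat_lit 500)))) (XT.nd (nat_lit 156) (nat_lit 2964) (nat_lit 0) (XT.nd (nat_lit 78) (nat_lit 0) (nat_lit 0) (XT.lf (nat_lit 0) (nat_lit 1028826085) (nat_lit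 1748) (nat_lit 346208687) (nat_lit 1824) (nat_lit 5724849483) (nat_lit 494) (nat_lit 5) (nat_lit 517) (nat_lit 5) (nat_lit 518) (nat_lit 5) (nat_lit 557) (nat_lit 504) (nat_lit 499)) (XT.lf (nat_lit 0) (nat_lit 4761819738) (nat_lit 1824) (nat_lit 888683523) (nat_lit 76) (nat_lit 1486997707) (nat_lit 494) (nat_lit 5) (nat_lit 518) (nat_lit 5) (nat_lit 495) (nat_lit 4) (nat_lit 558) (nat_lit 504) (nat_lit 498))) (XT.nd (nat_lit 78) (nat_lit 1064) (nat_lit 0) (XT.lf (nat_lit 0) (nat_lit 991732078) (nat_lit 1900) (nat_lit 2797116789) (nat_lit 76) (nat_lit 3387592991) (nat_lit 469) (nat_lit 5) (nat_lit 494) (nat_lit 5) (nat_lit 470) (nat_lit 5) (nat_lit 559) (nat_lit 504) (nat_lit 497)) (XT.lf (nat_lit 0) (nat_lit 2498673877) (nat_lit 1064) (nat_lit 1853062695) (nat_lit 1140) (nat_lit 2864974867) (nat_lit 455) (nat_lit 5) (nat_lit 469) (nat_lit 5) (nat_lit 470) (nat_lit 5) (nat_lit 560) (nat_lit 504) (nat_lit 496))))) (XT.nd (nat_lit 312) (nat_lit 2660) (nat_lit 0) (XT.nd (nat_lit 156) (nat_lit 1824) (nat_lit 0) (XT.nd (nat_lit 78) (nat_lit 0)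 (nat_lit 0) (XT.lf (nat_lit 0) (nat_lit 473384771) (nat_lit 988) (nat_lit 6641470735) (nat_lit 76) (nat_lit 143686739) (nat_lit 442) (nat_lit 5) (nat_lit 455) (nat_lit 5) (nat_lit 443) (nat_lit 5) (nat_lit 561) (nat_lit 504) (nat_lit 495)) (XT.lf (nat_lit 0) (nat_lit 3820355704) (nat_lit 988) (nat_lit 1277461562) (nat_lit 76) (nat_lit 2203414244) (nat_lit 442) (nat_lit 5) (nat_lit 455) (nat_lit 5) (nat_lit 443) (nat_lit 5) (nat_lit 562) (nat_lit 504) (nat_lit 494))) (XT.nd (nat_lit 78) (nat_lit 912) (nat_lit 0) (XT.lf (nat_lit 0) (nat_lit 4181743527) (nat_lit 912) (nat_lit 3016955662) (nat_lit 988) (nat_lit 146791332) (nat_lit 430) (nat_lit 5) (nat_lit 442) (nat_lit 5) (nat_lit 443) (nat_lit 5) (nat_lit 563) (nat_lit 504) (nat_lit 493)) (XT.lf (nat_lit 0) (nat_lit 2318893660) (nat_lit 836) (nat_lit 853755725) (nat_lit 912) (nat_lit 4218340211) (nat_lit 418) (nat_lit 5) (nat_lit 429) (nat_lit 5) (nat_lit 430) (nat_lit 5) (nat_lit 564) (nat_lit 504) (nat_lit 492)))) (XT.nd (nat_lit 156) (nat_lit 1748) (nat_lit 0) (XT.nd (nat_lit 78) (nat_lit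 76) (nat_lit 0) (XT.lf (nat_lit 0) (nat_lit 444959985) (nat_lit 836) (nat_lit 6083017307) (nat_lit 912) (nat_lit 909977032) (nat_lit 407) (nat_lit 5) (nat_lit 418) (nat_lit 5) (nat_lit 419) (nat_lit 5) (nat_lit 565) (nat_lit 504) (nat_lit 491)) (XT.lf (nat_lit 0) (nat_lit 2410927025) (nat_lit 912) (nat_lit 1434396648) (nat_lit 76) (nat_lit 3640644897) (nat_lit 406) (nat_lit 5) (nat_lit 418) (nat_lit 5) (nat_lit 407) (nat_lit 5) (nat_lit 566) (nat_lit 504) (nat_lit 490))) (XT.nd (nat_lit 78) (nat_lit 912) (nat_lit 0) (XT.lf (nat_lit 0) (nat_lit 4217554052) (nat_lit 836) (nat_lit 1535886267) (nat_lit 912) (nat_lit 1782039072) (nat_lit 395) (nat_lit 5) (nat_lit 406) (nat_lit 5) (nat_lit 407) (nat_lit 5) (nat_lit 567) (nat_lit 504) (nat_lit 489)) (XT.lf (nat_lit 0) (nat_lit 1527051125) (nat_lit 912) (nat_lit 5222464648) (nat_lit 76) (nat_lit 836845685) (nat_lit 383) (nat_lit 5) (nat_lit 395) (nat_lit 5) (nat_lit 384) (nat_lit 5) (nat_lit 568) (nat_lit 504) (nat_lit 488))))))) (XT.nd (nat_lit 1170) (nat_lit 6384) (nat_lit 0) (XT.nd (nat_lit 546)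 (nat_lit 4028) (nat_lit 0) (XT.nd (nat_lit 234) (nat_lit 2280) (nat_lit 0) (XT.nd (nat_lit 78) (nat_lit 836) (nat_lit 0) (XT.lf (nat_lit 0) (nat_lit 482575146) (nat_lit 760) (nat_lit 4372637001) (nat_lit 836) (nat_lit 2783282292) (nat_lit 373) (nat_lit 5) (nat_lit 383) (nat_lit 5) (nat_lit 384) (nat_lit 5) (nat_lit 569) (nat_lit 504) (nat_lit 487)) (XT.nd (nat_lit 78) (nat_lit 760) (nat_lit 0) (XT.lf (nat_lit 0) (nat_lit 527560678) (nat_lit 836) (nat_lit 1390801564) (nat_lit 76) (nat_lit 5773706740) (nat_lit 372) (nat_lit 5) (nat_lit 383) (nat_lit 5) (nat_lit 373) (nat_lit 5) (nat_lit 570) (nat_lit 504) (nat_lit 486)) (XT.lf (nat_lit 0) (nat_lit 3842899585) (nat_lit 836) (nat_lit 3288397226) (nat_lit 76) (nat_lit 615542954) (nat_lit 362) (nat_lit 5) (nat_lit 373) (nat_lit 5) (nat_lit 363) (nat_lit 5) (nat_lit 571) (nat_lit 504) (nat_lit 485)))) (XT.nd (nat_lit 156) (nat_lit 760) (nat_lit 0) (XT.nd (nat_lit 78) (nat_lit 836) (nat_lit 0) (XT.lf (nat_lit 0) (nat_lit 2594491421) (nat_lit 684) (nat_lit 4612117450) (nat_lit 760) (nat_lit 596459396)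 (nat_lit 353) (nat_lit 5) (nat_lit 362) (nat_lit 5) (nat_lit 363) (nat_lit 5) (nat_lit 572) (nat_lit 504) (nat_lit 484)) (XT.lf (nat_lit 0) (nat_lit 702586144) (nat_lit 760) (nat_lit 2008358176) (nat_lit 836) (nat_lit 5149715899) (nat_lit 342) (nat_lit 5) (nat_lit 352) (nat_lit 5) (nat_lit 353) (nat_lit 5) (nat_lit 573) (nat_lit 504) (nat_lit 483))) (XT.nd (nat_lit 78) (nat_lit 760) (nat_lit 0) (XT.lf (nat_lit 0) (nat_lit 6059920433) (nat_lit 836) (nat_lit 1193195735) (nat_lit 76) (nat_lit 666544140) (nat_lit 342) (nat_lit 5) (nat_lit 353) (nat_lit 5) (nat_lit 343) (nat_lit 5) (nat_lit 574) (nat_lit 504) (nat_lit 482)) (XT.lf (nat_lit 0) (nat_lit 1466406770) (nat_lit 760) (nat_lit 3115417874) (nat_lit 76) (nat_lit 3398024888) (nat_lit 332) (nat_lit 5) (nat_lit 342) (nat_lit 5) (nat_lit 333) (nat_lit 5) (nat_lit 575) (nat_lit 504) (nat_lit 481))))) (XT.nd (nat_lit 312) (nat_lit 1976) (nat_lit 0) (XT.nd (nat_lit 156) (nat_lit 684) (nat_lit 0) (XT.nd (nat_lit 78) (nat_lit 684) (nat_lit 0) (XT.lf (nat_lit 0) (nat_lit 2977362135) (nat_lit 684)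 (nat_lit 1829619618) (nat_lit 760) (nat_lit 3234561958) (nat_lit 323) (nat_lit 5) (nat_lit 332) (nat_lit 5) (nat_lit 333) (nat_lit 5) (nat_lit 576) (nat_lit 504) (nat_lit 480)) (XT.lf (nat_lit 0) (nat_lit 88599506) (nat_lit 684) (nat_lit 7035908991) (nat_lit 76) (nat_lit 980349168) (nat_lit 314) (nat_lit 5) (nat_lit 323) (nat_lit 5) (nat_lit 315) (nat_lit 5) (nat_lit 577) (nat_lit 504) (nat_lit 479))) (XT.nd (nat_lit 78) (nat_lit 684) (nat_lit 0) (XT.lf (nat_lit 0) (nat_lit 3427484203) (nat_lit 684) (nat_lit 877575021) (nat_lit 76) (nat_lit 3864102639) (nat_lit 314) (nat_lit 5) (nat_lit 323) (nat_lit 5) (nat_lit 315) (nat_lit 5) (nat_lit 578) (nat_lit 504) (nat_lit 478)) (XT.lf (nat_lit 0) (nat_lit 5407749280) (nat_lit 684) (nat_lit 1407768045) (nat_lit 760) (nat_lit 1419590337) (nat_lit 305) (nat_lit 5) (nat_lit 314) (nat_lit 5) (nat_lit 315) (nat_lit 5) (nat_lit 579) (nat_lit 504) (nat_lit 477)))) (XT.nd (nat_lit 156) (nat_lit 684) (nat_lit 0) (XT.nd (nat_lit 78) (nat_lit 608) (nat_lit 0) (XT.lf (nat_lit 0) (nat_lit 1929467551) (nat_lit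 684) (nat_lit 4818756754) (nat_lit 76) (nat_lit 1554168181) (nat_lit 296) (nat_lit 5) (nat_lit 305) (nat_lit 5) (nat_lit 297) (nat_lit 5) (nat_lit 580) (nat_lit 504) (nat_lit 476)) (XT.lf (nat_lit 0) (nat_lit 1521781579) (nat_lit 608) (nat_lit 3791046951) (nat_lit 684) (nat_lit 3058282962) (nat_lit 288) (nat_lit 5) (nat_lit 296) (nat_lit 5) (nat_lit 297) (nat_lit 5) (nat_lit 581) (nat_lit 504) (nat_lit 475))) (XT.nd (nat_lit 78) (nat_lit 608) (nat_lit 0) (XT.lf (nat_lit 0) (nat_lit 299219735) (nat_lit 684) (nat_lit 456519690) (nat_lit 76) (nat_lit 7685810223) (nat_lit 287) (nat_lit 5) (nat_lit 296) (nat_lit 5) (nat_lit 288) (nat_lit 5) (nat_lit 582) (nat_lit 504) (nat_lit 474)) (XT.lf (nat_lit 0) (nat_lit 3687032337) (nat_lit 684) (nat_lit 2472148740) (nat_lit 76) (nat_lit 2353731582) (nat_lit 279) (nat_lit 5) (nat_lit 288) (nat_lit 5) (nat_lit 280) (nat_lit 5) (nat_lit 583) (nat_lit 504) (nat_lit 473)))))) (XT.nd (nat_lit 546) (nat_lit 2964) (nat_lit 0) (XT.nd (nat_lit 234) (nat_lit 2204) (nat_lit 0) (XT.nd (nat_lit 78) (nat_lit 608) (nat_lit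 0) (XT.lf (nat_lit 0) (nat_lit 4069659712) (nat_lit 608) (nat_lit 3057176075) (nat_lit 684) (nat_lit 1459185003) (nat_lit 271) (nat_lit 5) (nat_lit 279) (nat_lit 5) (nat_lit 280) (nat_lit 5) (nat_lit 584) (nat_lit 504) (nat_lit 472)) (XT.nd (nat_lit 78) (nat_lit 0) (nat_lit 0) (XT.lf (nat_lit 0) (nat_lit 1929840841) (nat_lit 608) (nat_lit 6599385997) (nat_lit 76) (nat_lit 131492317) (nat_lit 263) (nat_lit 5) (nat_lit 271) (nat_lit 5) (nat_lit 264) (nat_lit 5) (nat_lit 585) (nat_lit 504) (nat_lit 471)) (XT.lf (nat_lit 0) (nat_lit 5368257266) (nat_lit 608) (nat_lit 2503777) (nat_lit 76) (nat_lit 3365936975) (nat_lit 263) (nat_lit 5) (nat_lit 271) (nat_lit 5) (nat_lit 264) (nat_lit 5) (nat_lit 586) (nat_lit 504) (nat_lit 470)))) (XT.nd (nat_lit 156) (nat_lit 1064) (nat_lit 0) (XT.nd (nat_lit 78) (nat_lit 532) (nat_lit 0) (XT.lf (nat_lit 0) (nat_lit 55571384) (nat_lit 608) (nat_lit 2066399007) (nat_lit 76) (nat_lit 6692317843) (nat_lit 255) (nat_lit 5) (nat_lit 263) (nat_lit 5) (nat_lit 256) (nat_lit 5) (nat_lit 587) (nat_lit 504) (nat_lit 469))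 (XT.lf (nat_lit 0) (nat_lit 3493139251) (nat_lit 608) (nat_lit 4188685933) (nat_lit 76) (nat_lit 1211358451) (nat_lit 248) (nat_lit 5) (nat_lit 256) (nat_lit 5) (nat_lit 249) (nat_lit 5) (nat_lit 588) (nat_lit 504) (nat_lit 468))) (XT.nd (nat_lit 78) (nat_lit 532) (nat_lit 0) (XT.lf (nat_lit 0) (nat_lit 2618471532) (nat_lit 532) (nat_lit 4377951748) (nat_lit 608) (nat_lit 1977296590) (nat_lit 241) (nat_lit 5) (nat_lit 248) (nat_lit 5) (nat_lit 249) (nat_lit 5) (nat_lit 589) (nat_lit 504) (nat_lit 467)) (XT.lf (nat_lit 0) (nat_lit 492322588) (nat_lit 456) (nat_lit 985363943) (nat_lit 532) (nat_lit 7578313138) (nat_lit 234) (nat_lit 5) (nat_lit 240) (nat_lit 5) (nat_lit 241) (nat_lit 5) (nat_lit 590) (nat_lit 504) (nat_lit 466))))) (XT.nd (nat_lit 312) (nat_lit 1444) (nat_lit 0) (XT.nd (nat_lit 156) (nat_lit 988) (nat_lit 0) (XT.nd (nat_lit 78) (nat_lit 532) (nat_lit 0) (XT.lf (nat_lit 0) (nat_lit 4986838771) (nat_lit 532) (nat_lit 1673271038) (nat_lit 76) (nat_lit 2479325040) (nat_lit 234) (nat_lit 5) (nat_lit 241) (nat_lit 5) (nat_lit 235)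 (nat_lit 5) (nat_lit 591) (nat_lit 504) (nat_lit 465)) (XT.lf (nat_lit 0) (nat_lit 5352196902) (nat_lit 532) (nat_lit 3208705088) (nat_lit 608) (nat_lit 663744238) (nat_lit 227) (nat_lit 5) (nat_lit 234) (nat_lit 5) (nat_lit 235) (nat_lit 5) (nat_lit 592) (nat_lit 504) (nat_lit 464))) (XT.nd (nat_lit 78) (nat_lit 456) (nat_lit 0) (XT.lf (nat_lit 0) (nat_lit 2844763693) (nat_lit 532) (nat_lit 6127869920) (nat_lit 76) (nat_lit 338797362) (nat_lit 220) (nat_lit 5) (nat_lit 227) (nat_lit 5) (nat_lit 221) (nat_lit 5) (nat_lit 593) (nat_lit 504) (nat_lit 463)) (XT.lf (nat_lit 0) (nat_lit 953492855) (nat_lit 456) (nat_lit 5468646076) (nat_lit 532) (nat_lit 2977574981) (nat_lit 214) (nat_lit 5) (nat_lit 220) (nat_lit 5) (nat_lit 221) (nat_lit 5) (nat_lit 594) (nat_lit 504) (nat_lit 462)))) (XT.nd (nat_lit 156) (nat_lit 912) (nat_lit 0) (XT.nd (nat_lit 78) (nat_lit 456) (nat_lit 0) (XT.lf (nat_lit 0) (nat_lit 569213634) (nat_lit 532) (nat_lit 1300556564) (nat_lit 76) (nat_lit 7620007920) (nat_lit 213) (nat_lit 5) (nat_lit 220) (nat_lit 5) (nat_lit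 214) (nat_lit 5) (nat_lit 595) (nat_lit 504) (nat_lit 461)) (XT.lf (nat_lit 0) (nat_lit 4152927917) (nat_lit 532) (nat_lit 3612378180) (nat_lit 76) (nat_lit 1815828504) (nat_lit 207) (nat_lit 5) (nat_lit 214) (nat_lit 5) (nat_lit 208) (nat_lit 5) (nat_lit 596) (nat_lit 504) (nat_lit 460))) (XT.nd (nat_lit 78) (nat_lit 456) (nat_lit 0) (XT.lf (nat_lit 0) (nat_lit 3696860923) (nat_lit 456) (nat_lit 4111991287) (nat_lit 532) (nat_lit 1865457076) (nat_lit 201) (nat_lit 5) (nat_lit 207) (nat_lit 5) (nat_lit 208) (nat_lit 5) (nat_lit 597) (nat_lit 504) (nat_lit 459)) (XT.lf (nat_lit 0) (nat_lit 1372462997) (nat_lit 380) (nat_lit 361721926) (nat_lit 456) (nat_lit 8035157963) (nat_lit 195) (nat_lit 5) (nat_lit 200) (nat_lit 5) (nat_lit 201) (nat_lit 5) (nat_lit 598) (nat_lit 504) (nat_lit 458))))))))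
noncomputable def xc15 : XT := (XT.nd (nat_lit 78858) (nat_lit 0) (nat_lit 3724) (XT.nd (nat_lit 77688) (nat_lit 0) (nat_lit 17632) (XT.nd (nat_lit 546) (nat_lit 1216) (nat_lit 0) (XT.nd (nat_lit 234) (nat_lit 1216) (nat_lit 0) (XT.nd (nat_lit 78) (nat_lit 912) (nat_lit 0) (XT.lf (nat_lit 0) (nat_lit 5399552601) (nat_lit 456) (nat_lit 1016771388) (nat_lit 76) (nat_lit 3449334014) (nat_lit 195) (nat_lit 5) (nat_lit 201) (nat_lit 5) (nat_lit 196) (nat_lit 5) (nat_lit 599) (nat_lit 504) (nat_lit 457)) (XT.nd (nat_lit 78) (nat_lit 456) (nat_lit 0) (XT.lf (nat_lit 0) (nat_lit 6528889380) (nat_lit 456) (nat_lit 2610812672) (nat_lit 532) (nat_lit 824169532) (nat_lit 189) (nat_lit 5) (nat_lit 195) (nat_lit 5) (nat_lit 196) (nat_lit 5) (nat_lit 600) (nat_lit 504) (nat_lit 456)) (XT.lf (nat_lit 0) (nat_lit 2851763629) (nat_lit 456) (nat_lit 5926856997) (nat_lit 76) (nat_lit 1285073655) (nat_lit 183) (nat_lit 5) (nat_lit 189) (nat_lit 5) (nat_lit 184) (nat_lit 5) (nat_lit 601) (nat_lit 504) (nat_lit 455)))) (XT.nd (nat_lit 156) (nat_lit 760) (nat_lit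 0) (XT.nd (nat_lit 78) (nat_lit 76) (nat_lit 0) (XT.lf (nat_lit 0) (nat_lit 1674960109) (nat_lit 380) (nat_lit 4923709884) (nat_lit 456) (nat_lit 3566566236) (nat_lit 178) (nat_lit 5) (nat_lit 183) (nat_lit 5) (nat_lit 184) (nat_lit 5) (nat_lit 602) (nat_lit 504) (nat_lit 454)) (XT.lf (nat_lit 0) (nat_lit 146997463) (nat_lit 456) (nat_lit 825954891) (nat_lit 76) (nat_lit 9295892825) (nat_lit 177) (nat_lit 5) (nat_lit 183) (nat_lit 5) (nat_lit 178) (nat_lit 5) (nat_lit 603) (nat_lit 504) (nat_lit 453))) (XT.nd (nat_lit 78) (nat_lit 380) (nat_lit 0) (XT.lf (nat_lit 0) (nat_lit 3910779718) (nat_lit 456) (nat_lit 3398921267) (nat_lit 76) (nat_lit 3063881217) (nat_lit 172) (nat_lit 5) (nat_lit 178) (nat_lit 5) (nat_lit 173) (nat_lit 5) (nat_lit 604) (nat_lit 504) (nat_lit 452)) (XT.lf (nat_lit 0) (nat_lit 4449238893) (nat_lit 380) (nat_lit 3299851688) (nat_lit 456) (nat_lit 2731339762) (nat_lit 167) (nat_lit 5) (nat_lit 172) (nat_lit 5) (nat_lit 173) (nat_lit 5) (nat_lit 605) (nat_lit 504) (nat_lit 451))))) (XT.nd (nat_lit 76830) (nat_lit 0)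 (nat_lit 31236) (XT.nd (nat_lit 156) (nat_lit 760) (nat_lit 0) (XT.nd (nat_lit 78) (nat_lit 0) (nat_lit 0) (XT.lf (nat_lit 0) (nat_lit 1059441461) (nat_lit 456) (nat_lit 8730814166) (nat_lit 76) (nat_lit 799045944) (nat_lit 161) (nat_lit 5) (nat_lit 167) (nat_lit 5) (nat_lit 162) (nat_lit 5) (nat_lit 606) (nat_lit 504) (nat_lit 450)) (XT.lf (nat_lit 0) (nat_lit 4910804380) (nat_lit 456) (nat_lit 817223803) (nat_lit 76) (nat_lit 4971535539) (nat_lit 161) (nat_lit 5) (nat_lit 167) (nat_lit 5) (nat_lit 162) (nat_lit 5) (nat_lit 607) (nat_lit 504) (nat_lit 449))) (XT.nd (nat_lit 78) (nat_lit 380) (nat_lit 0) (XT.lf (nat_lit 0) (nat_lit 7286289997) (nat_lit 380) (nat_lit 1559732282) (nat_lit 456) (nat_lit 1965873609) (nat_lit 156) (nat_lit 5) (nat_lit 161) (nat_lit 5) (nat_lit 162) (nat_lit 5) (nat_lit 608) (nat_lit 504) (nat_lit 448)) (XT.lf (nat_lit 0) (nat_lit 1920909658) (nat_lit 380) (nat_lit 6323394301) (nat_lit 76) (nat_lit 2681664995) (nat_lit 151) (nat_lit 5) (nat_lit 156) (nat_lit 5) (nat_lit 152) (nat_lit 5) (nat_lit 609) (nat_lit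 504) (nat_lit 447)))) (XT.nd (nat_lit 156) (nat_lit 3040) (nat_lit 0) (XT.nd (nat_lit 78) (nat_lit 0) (nat_lit 0) (XT.lf (nat_lit 0) (nat_lit 192582949) (nat_lit 1444) (nat_lit 3050606907) (nat_lit 0) (nat_lit 192582949) (nat_lit 602) (nat_lit 5) (nat_lit 621) (nat_lit 4) (nat_lit 602) (nat_lit 4) (nat_lit 550) (nat_lit 505) (nat_lit 505)) (XT.lf (nat_lit 0) (nat_lit 3792843632) (nat_lit 1444) (nat_lit 1266654235) (nat_lit 0) (nat_lit 1841187884) (nat_lit 602) (nat_lit 5) (nat_lit 621) (nat_lit 4) (nat_lit 602) (nat_lit 4) (nat_lit 551) (nat_lit 505) (nat_lit 504))) (XT.nd (nat_lit 78) (nat_lit 1520) (nat_lit 0) (XT.lf (nat_lit 0) (nat_lit 286965321) (nat_lit 1520) (nat_lit 3285373786) (nat_lit 76) (nat_lit 3358969050) (nat_lit 582) (nat_lit 5) (nat_lit 602) (nat_lit 5) (nat_lit 583) (nat_lit 4) (nat_lit 552) (nat_lit 505) (nat_lit 503)) (XT.lf (nat_lit 0) (nat_lit 1647453469) (nat_lit 1520) (nat_lit 2010154343) (nat_lit 1596) (nat_lit 3305539264) (nat_lit 562) (nat_lit 5) (nat_lit 582) (nat_lit 5) (nat_lit 583) (nat_lit 4) (nat_lit 553)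 (nat_lit 505) (nat_lit 502)))))) (XT.nd (nat_lit 546) (nat_lit 5472) (nat_lit 0) (XT.nd (nat_lit 234) (nat_lit 4788) (nat_lit 0) (XT.nd (nat_lit 78) (nat_lit 3268) (nat_lit 0) (XT.lf (nat_lit 0) (nat_lit 51668623) (nat_lit 1596) (nat_lit 338090592) (nat_lit 76) (nat_lit 6606797509) (nat_lit 561) (nat_lit 5) (nat_lit 582) (nat_lit 5) (nat_lit 562) (nat_lit 5) (nat_lit 554) (nat_lit 505) (nat_lit 501)) (XT.nd (nat_lit 78) (nat_lit 1672) (nat_lit 0) (XT.lf (nat_lit 0) (nat_lit 3403089040) (nat_lit 1672) (nat_lit 2324810480) (nat_lit 76) (nat_lit 1302877098) (nat_lit 540) (nat_lit 5) (nat_lit 562) (nat_lit 5) (nat_lit 541) (nat_lit 4) (nat_lit 555) (nat_lit 505) (nat_lit 500)) (XT.lf (nat_lit 0) (nat_lit 2758188474) (nat_lit 1672) (nat_lit 4019164628) (nat_lit 1748) (nat_lit 289217026) (nat_lit 518) (nat_lit 5) (nat_lit 540) (nat_lit 5) (nat_lit 541) (nat_lit 4) (nat_lit 556) (nat_lit 505) (nat_lit 499)))) (XT.nd (nat_lit 156) (nat_lit 2964) (nat_lit 0) (XT.nd (nat_lit 78) (nat_lit 0) (nat_lit 0) (XT.lf (nat_lit 0) (nat_lit 795997592) (nat_lit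 1748) (nat_lit 2233521807) (nat_lit 1824) (nat_lit 4074073522) (nat_lit 494) (nat_lit 5) (nat_lit 517) (nat_lit 5) (nat_lit 518) (nat_lit 5) (nat_lit 557) (nat_lit 505) (nat_lit 498)) (XT.lf (nat_lit 0) (nat_lit 5993656329) (nat_lit 1748) (nat_lit 380375959) (nat_lit 1824) (nat_lit 768025364) (nat_lit 494) (nat_lit 5) (nat_lit 517) (nat_lit 5) (nat_lit 518) (nat_lit 5) (nat_lit 558) (nat_lit 505) (nat_lit 497))) (XT.nd (nat_lit 78) (nat_lit 1064) (nat_lit 0) (XT.lf (nat_lit 0) (nat_lit 2541835134) (nat_lit 1900) (nat_lit 3106013205) (nat_lit 76) (nat_lit 1533673283) (nat_lit 469) (nat_lit 5) (nat_lit 494) (nat_lit 5) (nat_lit 470) (nat_lit 5) (nat_lit 559) (nat_lit 505) (nat_lit 496)) (XT.lf (nat_lit 0) (nat_lit 2152711430) (nat_lit 1064) (nat_lit 3715236416) (nat_lit 1140) (nat_lit 1354523621) (nat_lit 455) (nat_lit 5) (nat_lit 469) (nat_lit 5) (nat_lit 470) (nat_lit 5) (nat_lit 560) (nat_lit 505) (nat_lit 495))))) (XT.nd (nat_lit 312) (nat_lit 2660) (nat_lit 0) (XT.nd (nat_lit 156) (nat_lit 1824) (nat_lit 0) (XT.nd (nat_lit 78) (nat_lit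 0) (nat_lit 0) (XT.lf (nat_lit 0) (nat_lit 218531957) (nat_lit 912) (nat_lit 1710510994) (nat_lit 988) (nat_lit 5335765183) (nat_lit 442) (nat_lit 5) (nat_lit 454) (nat_lit 5) (nat_lit 455) (nat_lit 5) (nat_lit 561) (nat_lit 505) (nat_lit 494)) (XT.lf (nat_lit 0) (nat_lit 5233859836) (nat_lit 988) (nat_lit 1704294196) (nat_lit 76) (nat_lit 370188737) (nat_lit 442) (nat_lit 5) (nat_lit 455) (nat_lit 5) (nat_lit 443) (nat_lit 5) (nat_lit 562) (nat_lit 505) (nat_lit 493))) (XT.nd (nat_lit 78) (nat_lit 836) (nat_lit 0) (XT.lf (nat_lit 0) (nat_lit 1209396523) (nat_lit 988) (nat_lit 3644906278) (nat_lit 76) (nat_lit 2498811318) (nat_lit 429) (nat_lit 5) (nat_lit 442) (nat_lit 5) (nat_lit 430) (nat_lit 5) (nat_lit 563) (nat_lit 505) (nat_lit 492)) (XT.lf (nat_lit 0) (nat_lit 1797266276) (nat_lit 836) (nat_lit 2696005679) (nat_lit 912) (nat_lit 2905997136) (nat_lit 418) (nat_lit 5) (nat_lit 429) (nat_lit 5) (nat_lit 430) (nat_lit 5) (nat_lit 564) (nat_lit 505) (nat_lit 491)))) (XT.nd (nat_lit 156) (nat_lit 1748) (nat_lit 0) (XT.nd (nat_lit 78) (nat_lit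 836) (nat_lit 0) (XT.lf (nat_lit 0) (nat_lit 355156081) (nat_lit 912) (nat_lit 117282494) (nat_lit 76) (nat_lit 6974583725) (nat_lit 417) (nat_lit 5) (nat_lit 429) (nat_lit 5) (nat_lit 418) (nat_lit 5) (nat_lit 565) (nat_lit 505) (nat_lit 490)) (XT.lf (nat_lit 0) (nat_lit 3630569259) (nat_lit 912) (nat_lit 2043337921) (nat_lit 76) (nat_lit 1821684362) (nat_lit 406) (nat_lit 5) (nat_lit 418) (nat_lit 5) (nat_lit 407) (nat_lit 5) (nat_lit 566) (nat_lit 505) (nat_lit 489))) (XT.nd (nat_lit 78) (nat_lit 912) (nat_lit 0) (XT.lf (nat_lit 0) (nat_lit 3567517748) (nat_lit 836) (nat_lit 3372214655) (nat_lit 912) (nat_lit 606038955) (nat_lit 395) (nat_lit 5) (nat_lit 406) (nat_lit 5) (nat_lit 407) (nat_lit 5) (nat_lit 567) (nat_lit 505) (nat_lit 488)) (XT.lf (nat_lit 0) (nat_lit 1659494624) (nat_lit 836) (nat_lit 989056660) (nat_lit 912) (nat_lit 4948732879) (nat_lit 383) (nat_lit 5) (nat_lit 394) (nat_lit 5) (nat_lit 395) (nat_lit 5) (nat_lit 568) (nat_lit 505) (nat_lit 487))))))) (XT.nd (nat_lit 1170) (nat_lit 6004) (nat_lit 0) (XT.nd (nat_lit 546)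 (nat_lit 4028) (nat_lit 0) (XT.nd (nat_lit 234) (nat_lit 2280) (nat_lit 0) (XT.nd (nat_lit 78) (nat_lit 1596) (nat_lit 0) (XT.lf (nat_lit 0) (nat_lit 5938527674) (nat_lit 912) (nat_lit 265732486) (nat_lit 76) (nat_lit 1445922553) (nat_lit 383) (nat_lit 5) (nat_lit 395) (nat_lit 5) (nat_lit 384) (nat_lit 5) (nat_lit 569) (nat_lit 505) (nat_lit 486)) (XT.nd (nat_lit 78) (nat_lit 760) (nat_lit 0) (XT.lf (nat_lit 0) (nat_lit 1554902627) (nat_lit 836) (nat_lit 2194547879) (nat_lit 76) (nat_lit 3954774015) (nat_lit 372) (nat_lit 5) (nat_lit 383) (nat_lit 5) (nat_lit 373) (nat_lit 5) (nat_lit 570) (nat_lit 505) (nat_lit 485)) (XT.lf (nat_lit 0) (nat_lit 3615126286) (nat_lit 760) (nat_lit 1217650788) (nat_lit 836) (nat_lit 2926969288) (nat_lit 362) (nat_lit 5) (nat_lit 372) (nat_lit 5) (nat_lit 373) (nat_lit 5) (nat_lit 571) (nat_lit 505) (nat_lit 484)))) (XT.nd (nat_lit 156) (nat_lit 1520) (nat_lit 0) (XT.nd (nat_lit 78) (nat_lit 0) (nat_lit 0) (XT.lf (nat_lit 0) (nat_lit 333935835) (nat_lit 760) (nat_lit 6117430066) (nat_lit 76) (nat_lit 1365392956)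 (nat_lit 352) (nat_lit 5) (nat_lit 362) (nat_lit 5) (nat_lit 353) (nat_lit 5) (nat_lit 572) (nat_lit 505) (nat_lit 483)) (XT.lf (nat_lit 0) (nat_lit 3601495383) (nat_lit 760) (nat_lit 252398275) (nat_lit 76) (nat_lit 4021021796) (nat_lit 352) (nat_lit 5) (nat_lit 362) (nat_lit 5) (nat_lit 353) (nat_lit 5) (nat_lit 573) (nat_lit 505) (nat_lit 482))) (XT.nd (nat_lit 78) (nat_lit 760) (nat_lit 0) (XT.lf (nat_lit 0) (nat_lit 5739772124) (nat_lit 760) (nat_lit 1177519153) (nat_lit 836) (nat_lit 1017289505) (nat_lit 342) (nat_lit 5) (nat_lit 352) (nat_lit 5) (nat_lit 353) (nat_lit 5) (nat_lit 574) (nat_lit 505) (nat_lit 481)) (XT.lf (nat_lit 0) (nat_lit 2256496668) (nat_lit 760) (nat_lit 4176650388) (nat_lit 76) (nat_lit 1562341358) (nat_lit 332) (nat_lit 5) (nat_lit 342) (nat_lit 5) (nat_lit 333) (nat_lit 5) (nat_lit 575) (nat_lit 505) (nat_lit 480))))) (XT.nd (nat_lit 312) (nat_lit 1976) (nat_lit 0) (XT.nd (nat_lit 156) (nat_lit 1292) (nat_lit 0) (XT.nd (nat_lit 78) (nat_lit 76) (nat_lit 0) (XT.lf (nat_lit 0) (nat_lit 1868771089) (nat_lit 684)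 (nat_lit 3694599764) (nat_lit 760) (nat_lit 2494487294) (nat_lit 323) (nat_lit 5) (nat_lit 332) (nat_lit 5) (nat_lit 333) (nat_lit 5) (nat_lit 576) (nat_lit 505) (nat_lit 479)) (XT.lf (nat_lit 0) (nat_lit 779165185) (nat_lit 760) (nat_lit 101244110) (nat_lit 76) (nat_lit 7241464242) (nat_lit 322) (nat_lit 5) (nat_lit 332) (nat_lit 5) (nat_lit 323) (nat_lit 5) (nat_lit 577) (nat_lit 505) (nat_lit 478))) (XT.nd (nat_lit 78) (nat_lit 684) (nat_lit 0) (XT.lf (nat_lit 0) (nat_lit 4085554297) (nat_lit 684) (nat_lit 2093639666) (nat_lit 76) (nat_lit 2007635135) (nat_lit 314) (nat_lit 5) (nat_lit 323) (nat_lit 5) (nat_lit 315) (nat_lit 5) (nat_lit 578) (nat_lit 505) (nat_lit 477)) (XT.lf (nat_lit 0) (nat_lit 4142524515) (nat_lit 684) (nat_lit 3297251271) (nat_lit 760) (nat_lit 813676766) (nat_lit 305) (nat_lit 5) (nat_lit 314) (nat_lit 5) (nat_lit 315) (nat_lit 5) (nat_lit 579) (nat_lit 505) (nat_lit 476)))) (XT.nd (nat_lit 156) (nat_lit 684) (nat_lit 0) (XT.nd (nat_lit 78) (nat_lit 608) (nat_lit 0) (XT.lf (nat_lit 0) (nat_lit 2156324544) (nat_lit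 608) (nat_lit 326725559) (nat_lit 684) (nat_lit 5838497648) (nat_lit 296) (nat_lit 5) (nat_lit 304) (nat_lit 5) (nat_lit 305) (nat_lit 5) (nat_lit 580) (nat_lit 505) (nat_lit 475)) (XT.lf (nat_lit 0) (nat_lit 126198372) (nat_lit 608) (nat_lit 5703797562) (nat_lit 684) (nat_lit 2561000468) (nat_lit 288) (nat_lit 5) (nat_lit 296) (nat_lit 5) (nat_lit 297) (nat_lit 5) (nat_lit 581) (nat_lit 505) (nat_lit 474))) (XT.nd (nat_lit 78) (nat_lit 608) (nat_lit 0) (XT.lf (nat_lit 0) (nat_lit 764863303) (nat_lit 684) (nat_lit 1908269646) (nat_lit 76) (nat_lit 5788740662) (nat_lit 287) (nat_lit 5) (nat_lit 296) (nat_lit 5) (nat_lit 288) (nat_lit 5) (nat_lit 582) (nat_lit 505) (nat_lit 473)) (XT.lf (nat_lit 0) (nat_lit 4105723070) (nat_lit 684) (nat_lit 3984476216) (nat_lit 76) (nat_lit 443977657) (nat_lit 279) (nat_lit 5) (nat_lit 288) (nat_lit 5) (nat_lit 280) (nat_lit 5) (nat_lit 583) (nat_lit 505) (nat_lit 472)))))) (XT.nd (nat_lit 546) (nat_lit 3040) (nat_lit 0) (XT.nd (nat_lit 234) (nat_lit 1748) (nat_lit 0) (XT.nd (nat_lit 78) (nat_lit 608) (nat_lit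 0) (XT.lf (nat_lit 0) (nat_lit 2504171374) (nat_lit 608) (nat_lit 5006789382) (nat_lit 684) (nat_lit 1097016871) (nat_lit 271) (nat_lit 5) (nat_lit 279) (nat_lit 5) (nat_lit 280) (nat_lit 5) (nat_lit 584) (nat_lit 505) (nat_lit 471)) (XT.nd (nat_lit 78) (nat_lit 0) (nat_lit 0) (XT.lf (nat_lit 0) (nat_lit 418117703) (nat_lit 532) (nat_lit 1833307122) (nat_lit 608) (nat_lit 6431922014) (nat_lit 263) (nat_lit 5) (nat_lit 270) (nat_lit 5) (nat_lit 271) (nat_lit 5) (nat_lit 585) (nat_lit 505) (nat_lit 470)) (XT.lf (nat_lit 0) (nat_lit 5653853667) (nat_lit 608) (nat_lit 1689393681) (nat_lit 76) (nat_lit 1416799273) (nat_lit 263) (nat_lit 5) (nat_lit 271) (nat_lit 5) (nat_lit 264) (nat_lit 5) (nat_lit 586) (nat_lit 505) (nat_lit 469)))) (XT.nd (nat_lit 156) (nat_lit 608) (nat_lit 0) (XT.nd (nat_lit 78) (nat_lit 532) (nat_lit 0) (XT.lf (nat_lit 0) (nat_lit 279224572) (nat_lit 608) (nat_lit 3833959431) (nat_lit 76) (nat_lit 4725123005) (nat_lit 255) (nat_lit 5) (nat_lit 263) (nat_lit 5) (nat_lit 256) (nat_lit 5) (nat_lit 587) (nat_lit 505) (nat_lit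 468)) (XT.lf (nat_lit 0) (nat_lit 2888740749) (nat_lit 532) (nat_lit 784726893) (nat_lit 608) (nat_lit 5244602364) (nat_lit 248) (nat_lit 5) (nat_lit 255) (nat_lit 5) (nat_lit 256) (nat_lit 5) (nat_lit 588) (nat_lit 505) (nat_lit 467))) (XT.nd (nat_lit 78) (nat_lit 76) (nat_lit 0) (XT.lf (nat_lit 0) (nat_lit 725496538) (nat_lit 532) (nat_lit 6410550317) (nat_lit 608) (nat_lit 1863374560) (nat_lit 241) (nat_lit 5) (nat_lit 248) (nat_lit 5) (nat_lit 249) (nat_lit 5) (nat_lit 589) (nat_lit 505) (nat_lit 466)) (XT.lf (nat_lit 0) (nat_lit 1563691706) (nat_lit 608) (nat_lit 1466245663) (nat_lit 76) (nat_lit 6052278543) (nat_lit 240) (nat_lit 5) (nat_lit 248) (nat_lit 5) (nat_lit 241) (nat_lit 5) (nat_lit 590) (nat_lit 505) (nat_lit 465))))) (XT.nd (nat_lit 312) (nat_lit 1520) (nat_lit 0) (XT.nd (nat_lit 156) (nat_lit 532) (nat_lit 0) (XT.nd (nat_lit 78) (nat_lit 532) (nat_lit 0) (XT.lf (nat_lit 0) (nat_lit 5026815583) (nat_lit 532) (nat_lit 3697274523) (nat_lit 76) (nat_lit 442482570) (nat_lit 234) (nat_lit 5) (nat_lit 241) (nat_lit 5) (nat_lit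 235) (nat_lit 5) (nat_lit 591) (nat_lit 505) (nat_lit 464)) (XT.lf (nat_lit 0) (nat_lit 3268632747) (nat_lit 532) (nat_lit 5296126606) (nat_lit 608) (nat_lit 687748086) (nat_lit 227) (nat_lit 5) (nat_lit 234) (nat_lit 5) (nat_lit 235) (nat_lit 5) (nat_lit 592) (nat_lit 505) (nat_lit 463))) (XT.nd (nat_lit 78) (nat_lit 0) (nat_lit 0) (XT.lf (nat_lit 0) (nat_lit 1013755512) (nat_lit 456) (nat_lit 1768482114) (nat_lit 532) (nat_lit 6557835376) (nat_lit 220) (nat_lit 5) (nat_lit 226) (nat_lit 5) (nat_lit 227) (nat_lit 5) (nat_lit 593) (nat_lit 505) (nat_lit 462)) (XT.lf (nat_lit 0) (nat_lit 6319603411) (nat_lit 532) (nat_lit 1278469991) (nat_lit 76) (nat_lit 1831083664) (nat_lit 220) (nat_lit 5) (nat_lit 227) (nat_lit 5) (nat_lit 221) (nat_lit 5) (nat_lit 594) (nat_lit 505) (nat_lit 461)))) (XT.nd (nat_lit 156) (nat_lit 532) (nat_lit 0) (XT.nd (nat_lit 78) (nat_lit 456) (nat_lit 0) (XT.lf (nat_lit 0) (nat_lit 408243687) (nat_lit 532) (nat_lit 3610783491) (nat_lit 76) (nat_lit 5500826577) (nat_lit 213) (nat_lit 5) (nat_lit 220) (nat_lit 5) (nat_lit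 214) (nat_lit 5) (nat_lit 595) (nat_lit 505) (nat_lit 460)) (XT.lf (nat_lit 0) (nat_lit 3607652162) (nat_lit 456) (nat_lit 335131475) (nat_lit 532) (nat_lit 5669410973) (nat_lit 207) (nat_lit 5) (nat_lit 213) (nat_lit 5) (nat_lit 214) (nat_lit 5) (nat_lit 596) (nat_lit 505) (nat_lit 459))) (XT.nd (nat_lit 78) (nat_lit 76) (nat_lit 0) (XT.lf (nat_lit 0) (nat_lit 1242591038) (nat_lit 456) (nat_lit 6316343197) (nat_lit 532) (nat_lit 2147231401) (nat_lit 201) (nat_lit 5) (nat_lit 207) (nat_lit 5) (nat_lit 208) (nat_lit 5) (nat_lit 597) (nat_lit 505) (nat_lit 458)) (XT.lf (nat_lit 0) (nat_lit 1425607033) (nat_lit 532) (nat_lit 1162003781) (nat_lit 76) (nat_lit 7214235828) (nat_lit 200) (nat_lit 5) (nat_lit 207) (nat_lit 5) (nat_lit 201) (nat_lit 5) (nat_lit 598) (nat_lit 505) (nat_lit 457))))))))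
noncomputable def xc16 : XT := (XT.nd (nat_lit 78624) (nat_lit 0) (nat_lit 4712) (XT.nd (nat_lit 77454) (nat_lit 0) (nat_lit 20216) (XT.nd (nat_lit 546) (nat_lit 1216) (nat_lit 0) (XT.nd (nat_lit 234) (nat_lit 1216) (nat_lit 0) (XT.nd (nat_lit 78) (nat_lit 912) (nat_lit 0) (XT.lf (nat_lit 0) (nat_lit 5047386299) (nat_lit 456) (nat_lit 3617152459) (nat_lit 76) (nat_lit 1234495585) (nat_lit 195) (nat_lit 5) (nat_lit 201) (nat_lit 5) (nat_lit 196) (nat_lit 5) (nat_lit 599) (nat_lit 505) (nat_lit 456)) (XT.nd (nat_lit 78) (nat_lit 456) (nat_lit 0) (XT.lf (nat_lit 0) (nat_lit 3861845431) (nat_lit 456) (nat_lit 4887353439) (nat_lit 532) (nat_lit 1248816593) (nat_lit 189) (nat_lit 5) (nat_lit 195) (nat_lit 5) (nat_lit 196) (nat_lit 5) (nat_lit 600) (nat_lit 505) (nat_lit 455)) (XT.lf (nat_lit 0) (nat_lit 1378992465) (nat_lit 380) (nat_lit 1006325785) (nat_lit 456) (nat_lit 7713523175) (nat_lit 183) (nat_lit 5) (nat_lit 188) (nat_lit 5) (nat_lit 189) (nat_lit 5) (nat_lit 601) (nat_lit 505) (nat_lit 454)))) (XT.nd (nat_lit 156) (nat_lit 836) (nat_lit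 0) (XT.nd (nat_lit 78) (nat_lit 380) (nat_lit 0) (XT.lf (nat_lit 0) (nat_lit 6094000340) (nat_lit 456) (nat_lit 1165357020) (nat_lit 76) (nat_lit 2941791253) (nat_lit 183) (nat_lit 5) (nat_lit 189) (nat_lit 5) (nat_lit 184) (nat_lit 5) (nat_lit 602) (nat_lit 505) (nat_lit 453)) (XT.lf (nat_lit 0) (nat_lit 6556390921) (nat_lit 380) (nat_lit 3328474968) (nat_lit 456) (nat_lit 420477356) (nat_lit 178) (nat_lit 5) (nat_lit 183) (nat_lit 5) (nat_lit 184) (nat_lit 5) (nat_lit 603) (nat_lit 505) (nat_lit 452))) (XT.nd (nat_lit 78) (nat_lit 380) (nat_lit 0) (XT.lf (nat_lit 0) (nat_lit 3293545975) (nat_lit 456) (nat_lit 6411582402) (nat_lit 76) (nat_lit 706112674) (nat_lit 172) (nat_lit 5) (nat_lit 178) (nat_lit 5) (nat_lit 173) (nat_lit 5) (nat_lit 604) (nat_lit 505) (nat_lit 451)) (XT.lf (nat_lit 0) (nat_lit 1364665255) (nat_lit 380) (nat_lit 5726946500) (nat_lit 456) (nat_lit 3427283036) (nat_lit 167) (nat_lit 5) (nat_lit 172) (nat_lit 5) (nat_lit 173) (nat_lit 5) (nat_lit 605) (nat_lit 505) (nat_lit 450))))) (XT.nd (nat_lit 234) (nat_lit 380)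 (nat_lit 0) (XT.nd (nat_lit 78) (nat_lit 760) (nat_lit 0) (XT.lf (nat_lit 0) (nat_lit 335109638) (nat_lit 456) (nat_lit 1310634217) (nat_lit 76) (nat_lit 8982863525) (nat_lit 166) (nat_lit 5) (nat_lit 172) (nat_lit 5) (nat_lit 167) (nat_lit 5) (nat_lit 606) (nat_lit 505) (nat_lit 449)) (XT.nd (nat_lit 78) (nat_lit 380) (nat_lit 0) (XT.lf (nat_lit 0) (nat_lit 4147068141) (nat_lit 456) (nat_lit 4064137265) (nat_lit 76) (nat_lit 2528452869) (nat_lit 161) (nat_lit 5) (nat_lit 167) (nat_lit 5) (nat_lit 162) (nat_lit 5) (nat_lit 607) (nat_lit 505) (nat_lit 448)) (XT.lf (nat_lit 0) (nat_lit 3964796608) (nat_lit 380) (nat_lit 4076277567) (nat_lit 456) (nat_lit 2811741149) (nat_lit 156) (nat_lit 5) (nat_lit 161) (nat_lit 5) (nat_lit 162) (nat_lit 5) (nat_lit 608) (nat_lit 505) (nat_lit 447)))) (XT.nd (nat_lit 76518) (nat_lit 0) (nat_lit 34276) (XT.nd (nat_lit 76440) (nat_lit 0) (nat_lit 37012) (XT.lf (nat_lit 0) (nat_lit 1027657880) (nat_lit 380) (nat_lit 9781684598) (nat_lit 76) (nat_lit 158825928) (nat_lit 151) (nat_lit 5) (nat_lit 156) (nat_lit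 5) (nat_lit 152) (nat_lit 5) (nat_lit 609) (nat_lit 505) (nat_lit 446)) (XT.lf (nat_lit 0) (nat_lit 1221500293) (nat_lit 1292) (nat_lit 964959441) (nat_lit 0) (nat_lit 1221500293) (nat_lit 638) (nat_lit 5) (nat_lit 655) (nat_lit 4) (nat_lit 638) (nat_lit 4) (nat_lit 548) (nat_lit 506) (nat_lit 506))) (XT.nd (nat_lit 78) (nat_lit 1444) (nat_lit 0) (XT.lf (nat_lit 0) (nat_lit 2808878563) (nat_lit 1292) (nat_lit 3032476792) (nat_lit 1292) (nat_lit 1001974152) (nat_lit 621) (nat_lit 4) (nat_lit 638) (nat_lit 5) (nat_lit 638) (nat_lit 4) (nat_lit 549) (nat_lit 506) (nat_lit 505)) (XT.lf (nat_lit 0) (nat_lit 727685174) (nat_lit 1368) (nat_lit 1623243873) (nat_lit 1444) (nat_lit 4521118221) (nat_lit 602) (nat_lit 5) (nat_lit 620) (nat_lit 5) (nat_lit 621) (nat_lit 4) (nat_lit 550) (nat_lit 506) (nat_lit 504)))))) (XT.nd (nat_lit 546) (nat_lit 5852) (nat_lit 0) (XT.nd (nat_lit 234) (nat_lit 5168) (nat_lit 0) (XT.nd (nat_lit 78) (nat_lit 3040) (nat_lit 0) (XT.lf (nat_lit 0) (nat_lit 5569907800) (nat_lit 1368) (nat_lit 144327373) (nat_lit 1444) (nat_lit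 1187842746) (nat_lit 602) (nat_lit 5) (nat_lit 620) (nat_lit 5) (nat_lit 621) (nat_lit 4) (nat_lit 551) (nat_lit 506) (nat_lit 503)) (XT.nd (nat_lit 78) (nat_lit 1520) (nat_lit 0) (XT.lf (nat_lit 0) (nat_lit 2145888569) (nat_lit 1520) (nat_lit 3396908265) (nat_lit 76) (nat_lit 1390375033) (nat_lit 582) (nat_lit 5) (nat_lit 602) (nat_lit 5) (nat_lit 583) (nat_lit 4) (nat_lit 552) (nat_lit 506) (nat_lit 502)) (XT.lf (nat_lit 0) (nat_lit 1502427587) (nat_lit 1520) (nat_lit 3979314770) (nat_lit 1596) (nat_lit 1483967104) (nat_lit 562) (nat_lit 5) (nat_lit 582) (nat_lit 5) (nat_lit 583) (nat_lit 4) (nat_lit 553) (nat_lit 506) (nat_lit 501)))) (XT.nd (nat_lit 156) (nat_lit 3496) (nat_lit 0) (XT.nd (nat_lit 78) (nat_lit 1596) (nat_lit 0) (XT.lf (nat_lit 0) (nat_lit 1815739442) (nat_lit 1596) (nat_lit 529336716) (nat_lit 76) (nat_lit 4654481427) (nat_lit 561) (nat_lit 5) (nat_lit 582) (nat_lit 5) (nat_lit 562) (nat_lit 5) (nat_lit 554) (nat_lit 506) (nat_lit 500)) (XT.lf (nat_lit 0) (nat_lit 4489299859) (nat_lit 1596) (nat_lit 634872879) (nat_lit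 1672) (nat_lit 1910467217) (nat_lit 540) (nat_lit 5) (nat_lit 561) (nat_lit 5) (nat_lit 562) (nat_lit 5) (nat_lit 555) (nat_lit 506) (nat_lit 499))) (XT.nd (nat_lit 78) (nat_lit 1748) (nat_lit 0) (XT.lf (nat_lit 0) (nat_lit 1370767337) (nat_lit 1748) (nat_lit 4573399411) (nat_lit 76) (nat_lit 1126854065) (nat_lit 517) (nat_lit 5) (nat_lit 540) (nat_lit 5) (nat_lit 518) (nat_lit 5) (nat_lit 556) (nat_lit 506) (nat_lit 498)) (XT.lf (nat_lit 0) (nat_lit 493243985) (nat_lit 1748) (nat_lit 4158221556) (nat_lit 1824) (nat_lit 2457227987) (nat_lit 494) (nat_lit 5) (nat_lit 517) (nat_lit 5) (nat_lit 518) (nat_lit 5) (nat_lit 557) (nat_lit 506) (nat_lit 497))))) (XT.nd (nat_lit 312) (nat_lit 2812) (nat_lit 0) (XT.nd (nat_lit 156) (nat_lit 1140) (nat_lit 0) (XT.nd (nat_lit 78) (nat_lit 1824) (nat_lit 0) (XT.lf (nat_lit 0) (nat_lit 805622152) (nat_lit 1824) (nat_lit 1493872861) (nat_lit 76) (nat_lit 4848196813) (nat_lit 493) (nat_lit 5) (nat_lit 517) (nat_lit 5) (nat_lit 494) (nat_lit 5) (nat_lit 558) (nat_lit 506) (nat_lit 496)) (XT.lf (nat_lit 0)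 (nat_lit 3698789707) (nat_lit 1824) (nat_lit 362580618) (nat_lit 1900) (nat_lit 3126568960) (nat_lit 469) (nat_lit 5) (nat_lit 493) (nat_lit 5) (nat_lit 494) (nat_lit 5) (nat_lit 559) (nat_lit 506) (nat_lit 495))) (XT.nd (nat_lit 78) (nat_lit 0) (nat_lit 0) (XT.lf (nat_lit 0) (nat_lit 120178403) (nat_lit 1140) (nat_lit 5495849935) (nat_lit 76) (nat_lit 1613569242) (nat_lit 454) (nat_lit 5) (nat_lit 469) (nat_lit 5) (nat_lit 455) (nat_lit 5) (nat_lit 560) (nat_lit 506) (nat_lit 494)) (XT.lf (nat_lit 0) (nat_lit 3353733777) (nat_lit 1140) (nat_lit 251311508) (nat_lit 76) (nat_lit 3667360290) (nat_lit 454) (nat_lit 5) (nat_lit 469) (nat_lit 5) (nat_lit 455) (nat_lit 5) (nat_lit 561) (nat_lit 506) (nat_lit 493)))) (XT.nd (nat_lit 156) (nat_lit 912) (nat_lit 0) (XT.nd (nat_lit 78) (nat_lit 988) (nat_lit 0) (XT.lf (nat_lit 0) (nat_lit 5101467593) (nat_lit 912) (nat_lit 1522564189) (nat_lit 988) (nat_lit 692601049) (nat_lit 442) (nat_lit 5) (nat_lit 454) (nat_lit 5) (nat_lit 455) (nat_lit 5) (nat_lit 562) (nat_lit 506) (nat_lit 492)) (XT.lf (nat_lit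 0) (nat_lit 2529632688) (nat_lit 988) (nat_lit 4202661946) (nat_lit 76) (nat_lit 629802703) (nat_lit 429) (nat_lit 5) (nat_lit 442) (nat_lit 5) (nat_lit 430) (nat_lit 5) (nat_lit 563) (nat_lit 506) (nat_lit 491))) (XT.nd (nat_lit 78) (nat_lit 76) (nat_lit 0) (XT.lf (nat_lit 0) (nat_lit 1199639489) (nat_lit 836) (nat_lit 4580328302) (nat_lit 912) (nat_lit 1628957438) (nat_lit 418) (nat_lit 5) (nat_lit 429) (nat_lit 5) (nat_lit 430) (nat_lit 5) (nat_lit 564) (nat_lit 506) (nat_lit 490)) (XT.lf (nat_lit 0) (nat_lit 1585966006) (nat_lit 912) (nat_lit 765073021) (nat_lit 76) (nat_lit 5106065239) (nat_lit 417) (nat_lit 5) (nat_lit 429) (nat_lit 5) (nat_lit 418) (nat_lit 5) (nat_lit 565) (nat_lit 506) (nat_lit 489))))))) (XT.nd (nat_lit 1170) (nat_lit 6308) (nat_lit 0) (XT.nd (nat_lit 546) (nat_lit 4256) (nat_lit 0) (XT.nd (nat_lit 234) (nat_lit 2356) (nat_lit 0) (XT.nd (nat_lit 78) (nat_lit 1748) (nat_lit 0) (XT.lf (nat_lit 0) (nat_lit 4776074496) (nat_lit 836) (nat_lit 39947245) (nat_lit 912) (nat_lit 2690560908) (nat_lit 406) (nat_lit 5) (nat_lit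 417) (nat_lit 5) (nat_lit 418) (nat_lit 5) (nat_lit 566) (nat_lit 506) (nat_lit 488)) (XT.nd (nat_lit 78) (nat_lit 836) (nat_lit 0) (XT.lf (nat_lit 0) (nat_lit 527196262) (nat_lit 912) (nat_lit 4721780976) (nat_lit 76) (nat_lit 2308388754) (nat_lit 394) (nat_lit 5) (nat_lit 406) (nat_lit 5) (nat_lit 395) (nat_lit 5) (nat_lit 567) (nat_lit 506) (nat_lit 487)) (XT.lf (nat_lit 0) (nat_lit 869572276) (nat_lit 836) (nat_lit 2870744046) (nat_lit 912) (nat_lit 3869156094) (nat_lit 383) (nat_lit 5) (nat_lit 394) (nat_lit 5) (nat_lit 395) (nat_lit 5) (nat_lit 568) (nat_lit 506) (nat_lit 486)))) (XT.nd (nat_lit 156) (nat_lit 1520) (nat_lit 0) (XT.nd (nat_lit 78) (nat_lit 836) (nat_lit 0) (XT.lf (nat_lit 0) (nat_lit 6572341765) (nat_lit 836) (nat_lit 420394812) (nat_lit 912) (nat_lit 670387353) (nat_lit 383) (nat_lit 5) (nat_lit 394) (nat_lit 5) (nat_lit 395) (nat_lit 5) (nat_lit 569) (nat_lit 506) (nat_lit 485)) (XT.lf (nat_lit 0) (nat_lit 2546407866) (nat_lit 836) (nat_lit 3080193119) (nat_lit 76) (nat_lit 2091153429) (nat_lit 372) (nat_lit 5) (nat_lit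 383) (nat_lit 5) (nat_lit 373) (nat_lit 5) (nat_lit 570) (nat_lit 506) (nat_lit 484))) (XT.nd (nat_lit 78) (nat_lit 760) (nat_lit 0) (XT.lf (nat_lit 0) (nat_lit 2685339531) (nat_lit 760) (nat_lit 3105540649) (nat_lit 836) (nat_lit 1983065854) (nat_lit 362) (nat_lit 5) (nat_lit 372) (nat_lit 5) (nat_lit 373) (nat_lit 5) (nat_lit 571) (nat_lit 506) (nat_lit 483)) (XT.lf (nat_lit 0) (nat_lit 713222938) (nat_lit 684) (nat_lit 509576537) (nat_lit 760) (nat_lit 6608891358) (nat_lit 352) (nat_lit 5) (nat_lit 361) (nat_lit 5) (nat_lit 362) (nat_lit 5) (nat_lit 572) (nat_lit 506) (nat_lit 482))))) (XT.nd (nat_lit 312) (nat_lit 2052) (nat_lit 0) (XT.nd (nat_lit 156) (nat_lit 1444) (nat_lit 0) (XT.nd (nat_lit 78) (nat_lit 760) (nat_lit 0) (XT.lf (nat_lit 0) (nat_lit 4460129102) (nat_lit 760) (nat_lit 1282523720) (nat_lit 76) (nat_lit 2147800841) (nat_lit 352) (nat_lit 5) (nat_lit 362) (nat_lit 5) (nat_lit 353) (nat_lit 5) (nat_lit 573) (nat_lit 506) (nat_lit 481)) (XT.lf (nat_lit 0) (nat_lit 4663773862) (nat_lit 760) (nat_lit 3078771498) (nat_lit 836)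 (nat_lit 208242826) (nat_lit 342) (nat_lit 5) (nat_lit 352) (nat_lit 5) (nat_lit 353) (nat_lit 5) (nat_lit 574) (nat_lit 506) (nat_lit 480))) (XT.nd (nat_lit 78) (nat_lit 684) (nat_lit 0) (XT.lf (nat_lit 0) (nat_lit 2684952603) (nat_lit 684) (nat_lit 326016234) (nat_lit 760) (nat_lit 5001502737) (nat_lit 332) (nat_lit 5) (nat_lit 341) (nat_lit 5) (nat_lit 342) (nat_lit 5) (nat_lit 575) (nat_lit 506) (nat_lit 479)) (XT.lf (nat_lit 0) (nat_lit 672149666) (nat_lit 684) (nat_lit 5609823964) (nat_lit 760) (nat_lit 1793586576) (nat_lit 323) (nat_lit 5) (nat_lit 332) (nat_lit 5) (nat_lit 333) (nat_lit 5) (nat_lit 576) (nat_lit 506) (nat_lit 478)))) (XT.nd (nat_lit 156) (nat_lit 1368) (nat_lit 0) (XT.nd (nat_lit 78) (nat_lit 608) (nat_lit 0) (XT.lf (nat_lit 0) (nat_lit 1445020454) (nat_lit 760) (nat_lit 1352427294) (nat_lit 76) (nat_lit 5342555344) (nat_lit 322) (nat_lit 5) (nat_lit 332) (nat_lit 5) (nat_lit 323) (nat_lit 5) (nat_lit 577) (nat_lit 506) (nat_lit 477)) (XT.lf (nat_lit 0) (nat_lit 4705079946) (nat_lit 684) (nat_lit 3399809872) (nat_lit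 76) (nat_lit 100996851) (nat_lit 314) (nat_lit 5) (nat_lit 323) (nat_lit 5) (nat_lit 315) (nat_lit 5) (nat_lit 578) (nat_lit 506) (nat_lit 476))) (XT.nd (nat_lit 78) (nat_lit 684) (nat_lit 0) (XT.lf (nat_lit 0) (nat_lit 2786643779) (nat_lit 684) (nat_lit 5238759327) (nat_lit 760) (nat_lit 247786379) (nat_lit 305) (nat_lit 5) (nat_lit 314) (nat_lit 5) (nat_lit 315) (nat_lit 5) (nat_lit 579) (nat_lit 506) (nat_lit 475)) (XT.lf (nat_lit 0) (nat_lit 726225637) (nat_lit 608) (nat_lit 2281033374) (nat_lit 684) (nat_lit 5334638724) (nat_lit 296) (nat_lit 5) (nat_lit 304) (nat_lit 5) (nat_lit 305) (nat_lit 5) (nat_lit 580) (nat_lit 506) (nat_lit 474)))))) (XT.nd (nat_lit 546) (nat_lit 3192) (nat_lit 0) (XT.nd (nat_lit 234) (nat_lit 1824) (nat_lit 0) (XT.nd (nat_lit 78) (nat_lit 1292) (nat_lit 0) (XT.lf (nat_lit 0) (nat_lit 6315958799) (nat_lit 684) (nat_lit 1345505939) (nat_lit 76) (nat_lit 750647884) (nat_lit 296) (nat_lit 5) (nat_lit 305) (nat_lit 5) (nat_lit 297) (nat_lit 5) (nat_lit 581) (nat_lit 506) (nat_lit 473)) (XT.nd (nat_lit 78) (nat_lit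 608) (nat_lit 0) (XT.lf (nat_lit 0) (nat_lit 1190078279) (nat_lit 684) (nat_lit 3454512805) (nat_lit 76) (nat_lit 3839010351) (nat_lit 287) (nat_lit 5) (nat_lit 296) (nat_lit 5) (nat_lit 288) (nat_lit 5) (nat_lit 582) (nat_lit 506) (nat_lit 472)) (XT.lf (nat_lit 0) (nat_lit 2953696275) (nat_lit 608) (nat_lit 1539797547) (nat_lit 684) (nat_lit 4063161067) (nat_lit 279) (nat_lit 5) (nat_lit 287) (nat_lit 5) (nat_lit 288) (nat_lit 5) (nat_lit 583) (nat_lit 506) (nat_lit 471)))) (XT.nd (nat_lit 156) (nat_lit 1140) (nat_lit 0) (XT.nd (nat_lit 78) (nat_lit 76) (nat_lit 0) (XT.lf (nat_lit 0) (nat_lit 841895907) (nat_lit 608) (nat_lit 7012122507) (nat_lit 684) (nat_lit 777332636) (nat_lit 271) (nat_lit 5) (nat_lit 279) (nat_lit 5) (nat_lit 280) (nat_lit 5) (nat_lit 584) (nat_lit 506) (nat_lit 470)) (XT.lf (nat_lit 0) (nat_lit 2540383418) (nat_lit 684) (nat_lit 1307187133) (nat_lit 76) (nat_lit 4859640025) (nat_lit 270) (nat_lit 5) (nat_lit 279) (nat_lit 5) (nat_lit 271) (nat_lit 5) (nat_lit 585) (nat_lit 506) (nat_lit 469))) (XT.nd (nat_lit 78)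 (nat_lit 608) (nat_lit 0) (XT.lf (nat_lit 0) (nat_lit 5305598250) (nat_lit 532) (nat_lit 595734820) (nat_lit 608) (nat_lit 2883408015) (nat_lit 263) (nat_lit 5) (nat_lit 270) (nat_lit 5) (nat_lit 271) (nat_lit 5) (nat_lit 586) (nat_lit 506) (nat_lit 468)) (XT.lf (nat_lit 0) (nat_lit 459853641) (nat_lit 608) (nat_lit 5702328745) (nat_lit 76) (nat_lit 2701575938) (nat_lit 255) (nat_lit 5) (nat_lit 263) (nat_lit 5) (nat_lit 256) (nat_lit 5) (nat_lit 587) (nat_lit 506) (nat_lit 467))))) (XT.nd (nat_lit 312) (nat_lit 1596) (nat_lit 0) (XT.nd (nat_lit 156) (nat_lit 1064) (nat_lit 0) (XT.nd (nat_lit 78) (nat_lit 0) (nat_lit 0) (XT.lf (nat_lit 0) (nat_lit 963350187) (nat_lit 532) (nat_lit 2855193202) (nat_lit 608) (nat_lit 5125690077) (nat_lit 248) (nat_lit 5) (nat_lit 255) (nat_lit 5) (nat_lit 256) (nat_lit 5) (nat_lit 588) (nat_lit 506) (nat_lit 466)) (XT.lf (nat_lit 0) (nat_lit 7240107202) (nat_lit 608) (nat_lit 1254090375) (nat_lit 76) (nat_lit 532208664) (nat_lit 248) (nat_lit 5) (nat_lit 256) (nat_lit 5) (nat_lit 249) (nat_lit 5) (nat_lit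 589) (nat_lit 506) (nat_lit 465))) (XT.nd (nat_lit 78) (nat_lit 456) (nat_lit 0) (XT.lf (nat_lit 0) (nat_lit 1608680285) (nat_lit 608) (nat_lit 3522148476) (nat_lit 76) (nat_lit 3978984505) (nat_lit 240) (nat_lit 5) (nat_lit 248) (nat_lit 5) (nat_lit 241) (nat_lit 5) (nat_lit 590) (nat_lit 506) (nat_lit 464)) (XT.lf (nat_lit 0) (nat_lit 3357199572) (nat_lit 456) (nat_lit 1675636737) (nat_lit 532) (nat_lit 4162114075) (nat_lit 234) (nat_lit 5) (nat_lit 240) (nat_lit 5) (nat_lit 241) (nat_lit 5) (nat_lit 591) (nat_lit 506) (nat_lit 463)))) (XT.nd (nat_lit 156) (nat_lit 988) (nat_lit 0) (XT.nd (nat_lit 78) (nat_lit 76) (nat_lit 0) (XT.lf (nat_lit 0) (nat_lit 1078712297) (nat_lit 532) (nat_lit 7444821426) (nat_lit 608) (nat_lit 758297327) (nat_lit 227) (nat_lit 5) (nat_lit 234) (nat_lit 5) (nat_lit 235) (nat_lit 5) (nat_lit 592) (nat_lit 506) (nat_lit 462)) (XT.lf (nat_lit 0) (nat_lit 2683967437) (nat_lit 608) (nat_lit 1250014638) (nat_lit 76) (nat_lit 5435997563) (nat_lit 226) (nat_lit 5) (nat_lit 234) (nat_lit 5) (nat_lit 227) (nat_lit 5)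 (nat_lit 593) (nat_lit 506) (nat_lit 461))) (XT.nd (nat_lit 78) (nat_lit 532) (nat_lit 0) (XT.lf (nat_lit 0) (nat_lit 5851112344) (nat_lit 456) (nat_lit 328114495) (nat_lit 532) (nat_lit 3280679911) (nat_lit 220) (nat_lit 5) (nat_lit 226) (nat_lit 5) (nat_lit 227) (nat_lit 5) (nat_lit 594) (nat_lit 506) (nat_lit 460)) (XT.lf (nat_lit 0) (nat_lit 199979710) (nat_lit 532) (nat_lit 6031726444) (nat_lit 76) (nat_lit 3319708031) (nat_lit 213) (nat_lit 5) (nat_lit 220) (nat_lit 5) (nat_lit 214) (nat_lit 5) (nat_lit 595) (nat_lit 506) (nat_lit 459))))))))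
noncomputable def xc17 : XT := (XT.nd (nat_lit 78546) (nat_lit 0) (nat_lit 6004) (XT.nd (nat_lit 77376) (nat_lit 0) (nat_lit 22724) (XT.nd (nat_lit 546) (nat_lit 2128) (nat_lit 0) (XT.nd (nat_lit 234) (nat_lit 1292) (nat_lit 0) (XT.nd (nat_lit 78) (nat_lit 532) (nat_lit 0) (XT.lf (nat_lit 0) (nat_lit 1122809879) (nat_lit 456) (nat_lit 2574185238) (nat_lit 532) (nat_lit 5947511282) (nat_lit 207) (nat_lit 5) (nat_lit 213) (nat_lit 5) (nat_lit 214) (nat_lit 5) (nat_lit 596) (nat_lit 506) (nat_lit 458)) (XT.nd (nat_lit 78) (nat_lit 532) (nat_lit 0) (XT.lf (nat_lit 0) (nat_lit 7269302283) (nat_lit 532) (nat_lit 1307786456) (nat_lit 76) (nat_lit 1162266405) (nat_lit 207) (nat_lit 5) (nat_lit 214) (nat_lit 5) (nat_lit 208) (nat_lit 5) (nat_lit 597) (nat_lit 506) (nat_lit 457)) (XT.lf (nat_lit 0) (nat_lit 1077193747) (nat_lit 532) (nat_lit 3792508830) (nat_lit 76) (nat_lit 4965972822) (nat_lit 200) (nat_lit 5) (nat_lit 207) (nat_lit 5) (nat_lit 201) (nat_lit 5) (nat_lit 598) (nat_lit 506) (nat_lit 456)))) (XT.nd (nat_lit 156) (nat_lit 456) (nat_lit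 0) (XT.nd (nat_lit 78) (nat_lit 456) (nat_lit 0) (XT.lf (nat_lit 0) (nat_lit 3593371290) (nat_lit 380) (nat_lit 1059220810) (nat_lit 456) (nat_lit 5281199420) (nat_lit 195) (nat_lit 5) (nat_lit 200) (nat_lit 5) (nat_lit 201) (nat_lit 5) (nat_lit 599) (nat_lit 506) (nat_lit 455)) (XT.lf (nat_lit 0) (nat_lit 1077879754) (nat_lit 456) (nat_lit 7230963911) (nat_lit 532) (nat_lit 1724840982) (nat_lit 189) (nat_lit 5) (nat_lit 195) (nat_lit 5) (nat_lit 196) (nat_lit 5) (nat_lit 600) (nat_lit 506) (nat_lit 454))) (XT.nd (nat_lit 78) (nat_lit 380) (nat_lit 0) (XT.lf (nat_lit 0) (nat_lit 1886043026) (nat_lit 532) (nat_lit 1486769689) (nat_lit 76) (nat_lit 6762350341) (nat_lit 188) (nat_lit 5) (nat_lit 195) (nat_lit 5) (nat_lit 189) (nat_lit 5) (nat_lit 601) (nat_lit 506) (nat_lit 453)) (XT.lf (nat_lit 0) (nat_lit 5549106715) (nat_lit 456) (nat_lit 4103231416) (nat_lit 76) (nat_lit 586045222) (nat_lit 183) (nat_lit 5) (nat_lit 189) (nat_lit 5) (nat_lit 184) (nat_lit 5) (nat_lit 602) (nat_lit 506) (nat_lit 452))))) (XT.nd (nat_lit 312) (nat_lit 912)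 (nat_lit 0) (XT.nd (nat_lit 156) (nat_lit 380) (nat_lit 0) (XT.nd (nat_lit 78) (nat_lit 456) (nat_lit 0) (XT.lf (nat_lit 0) (nat_lit 3548413244) (nat_lit 380) (nat_lit 5752021939) (nat_lit 456) (nat_lit 1042934267) (nat_lit 178) (nat_lit 5) (nat_lit 183) (nat_lit 5) (nat_lit 184) (nat_lit 5) (nat_lit 603) (nat_lit 506) (nat_lit 451)) (XT.lf (nat_lit 0) (nat_lit 890883063) (nat_lit 380) (nat_lit 1743564541) (nat_lit 456) (nat_lit 7815797281) (nat_lit 172) (nat_lit 5) (nat_lit 177) (nat_lit 5) (nat_lit 178) (nat_lit 5) (nat_lit 604) (nat_lit 506) (nat_lit 450))) (XT.nd (nat_lit 78) (nat_lit 380) (nat_lit 0) (XT.lf (nat_lit 0) (nat_lit 6392511140) (nat_lit 456) (nat_lit 1820532562) (nat_lit 76) (nat_lit 2345655651) (nat_lit 172) (nat_lit 5) (nat_lit 178) (nat_lit 5) (nat_lit 173) (nat_lit 5) (nat_lit 605) (nat_lit 506) (nat_lit 449)) (XT.lf (nat_lit 0) (nat_lit 6080192143) (nat_lit 380) (nat_lit 4157312778) (nat_lit 456) (nat_lit 431583965) (nat_lit 167) (nat_lit 5) (nat_lit 172) (nat_lit 5) (nat_lit 173) (nat_lit 5) (nat_lit 606) (nat_lit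 506) (nat_lit 448)))) (XT.nd (nat_lit 156) (nat_lit 76) (nat_lit 0) (XT.nd (nat_lit 78) (nat_lit 380) (nat_lit 0) (XT.lf (nat_lit 0) (nat_lit 3328371192) (nat_lit 456) (nat_lit 7438645244) (nat_lit 76) (nat_lit 14333305) (nat_lit 161) (nat_lit 5) (nat_lit 167) (nat_lit 5) (nat_lit 162) (nat_lit 5) (nat_lit 607) (nat_lit 506) (nat_lit 447)) (XT.lf (nat_lit 0) (nat_lit 514629315) (nat_lit 380) (nat_lit 6666085835) (nat_lit 456) (nat_lit 3714625513) (nat_lit 156) (nat_lit 5) (nat_lit 161) (nat_lit 5) (nat_lit 162) (nat_lit 5) (nat_lit 608) (nat_lit 506) (nat_lit 446))) (XT.nd (nat_lit 76284) (nat_lit 0) (nat_lit 38000) (XT.lf (nat_lit 0) (nat_lit 108653002) (nat_lit 456) (nat_lit 2345321360) (nat_lit 76) (nat_lit 8557396473) (nat_lit 155) (nat_lit 5) (nat_lit 161) (nat_lit 5) (nat_lit 156) (nat_lit 5) (nat_lit 609) (nat_lit 506) (nat_lit 445)) (XT.lf (nat_lit 0) (nat_lit 1173277081) (nat_lit 1140) (nat_lit 1104449148) (nat_lit 1140) (nat_lit 1104449148) (nat_lit 655) (nat_lit 4) (nat_lit 670) (nat_lit 5) (nat_lit 670) (nat_lit 4) (nat_lit 546)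 (nat_lit 507) (nat_lit 507)))))) (XT.nd (nat_lit 546) (nat_lit 8132) (nat_lit 0) (XT.nd (nat_lit 234) (nat_lit 4484) (nat_lit 0) (XT.nd (nat_lit 78) (nat_lit 1368) (nat_lit 0) (XT.lf (nat_lit 0) (nat_lit 182342195) (nat_lit 1216) (nat_lit 953735597) (nat_lit 1292) (nat_lit 5653903023) (nat_lit 638) (nat_lit 5) (nat_lit 654) (nat_lit 5) (nat_lit 655) (nat_lit 4) (nat_lit 547) (nat_lit 507) (nat_lit 506)) (XT.nd (nat_lit 78) (nat_lit 1368) (nat_lit 0) (XT.lf (nat_lit 0) (nat_lit 4478571368) (nat_lit 1292) (nat_lit 1961106756) (nat_lit 0) (nat_lit 376956035) (nat_lit 638) (nat_lit 5) (nat_lit 655) (nat_lit 4) (nat_lit 638) (nat_lit 4) (nat_lit 548) (nat_lit 507) (nat_lit 505)) (XT.lf (nat_lit 0) (nat_lit 983848115) (nat_lit 1368) (nat_lit 4104931003) (nat_lit 76) (nat_lit 1755843273) (nat_lit 620) (nat_lit 5) (nat_lit 638) (nat_lit 5) (nat_lit 621) (nat_lit 4) (nat_lit 549) (nat_lit 507) (nat_lit 504)))) (XT.nd (nat_lit 156) (nat_lit 3040) (nat_lit 0) (XT.nd (nat_lit 78) (nat_lit 76) (nat_lit 0) (XT.lf (nat_lit 0) (nat_lit 618428772) (nat_lit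 1368) (nat_lit 3669882473) (nat_lit 1444) (nat_lit 2585607858) (nat_lit 602) (nat_lit 5) (nat_lit 620) (nat_lit 5) (nat_lit 621) (nat_lit 4) (nat_lit 550) (nat_lit 507) (nat_lit 503)) (XT.lf (nat_lit 0) (nat_lit 703522636) (nat_lit 1444) (nat_lit 1479247083) (nat_lit 76) (nat_lit 4721772691) (nat_lit 601) (nat_lit 5) (nat_lit 620) (nat_lit 5) (nat_lit 602) (nat_lit 5) (nat_lit 551) (nat_lit 507) (nat_lit 502))) (XT.nd (nat_lit 78) (nat_lit 1596) (nat_lit 0) (XT.lf (nat_lit 0) (nat_lit 3357857651) (nat_lit 1444) (nat_lit 619785551) (nat_lit 1520) (nat_lit 2958722453) (nat_lit 582) (nat_lit 5) (nat_lit 601) (nat_lit 5) (nat_lit 602) (nat_lit 5) (nat_lit 552) (nat_lit 507) (nat_lit 501)) (XT.lf (nat_lit 0) (nat_lit 301236530) (nat_lit 1596) (nat_lit 5680549023) (nat_lit 76) (nat_lit 987852495) (nat_lit 561) (nat_lit 5) (nat_lit 582) (nat_lit 5) (nat_lit 562) (nat_lit 5) (nat_lit 553) (nat_lit 507) (nat_lit 500))))) (XT.nd (nat_lit 312) (nat_lit 3040) (nat_lit 0) (XT.nd (nat_lit 156) (nat_lit 3496) (nat_lit 0) (XT.nd (nat_lit 78) (nat_lit 1596)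 (nat_lit 0) (XT.lf (nat_lit 0) (nat_lit 3548528528) (nat_lit 1596) (nat_lit 787445627) (nat_lit 76) (nat_lit 2667981095) (nat_lit 561) (nat_lit 5) (nat_lit 582) (nat_lit 5) (nat_lit 562) (nat_lit 5) (nat_lit 554) (nat_lit 507) (nat_lit 499)) (XT.lf (nat_lit 0) (nat_lit 4196759261) (nat_lit 1596) (nat_lit 2625997261) (nat_lit 1672) (nat_lit 216967885) (nat_lit 540) (nat_lit 5) (nat_lit 561) (nat_lit 5) (nat_lit 562) (nat_lit 5) (nat_lit 555) (nat_lit 507) (nat_lit 498))) (XT.nd (nat_lit 78) (nat_lit 1748) (nat_lit 0) (XT.lf (nat_lit 0) (nat_lit 2161229165) (nat_lit 1672) (nat_lit 839096790) (nat_lit 1748) (nat_lit 4076396584) (nat_lit 517) (nat_lit 5) (nat_lit 539) (nat_lit 5) (nat_lit 540) (nat_lit 5) (nat_lit 556) (nat_lit 507) (nat_lit 497)) (XT.lf (nat_lit 0) (nat_lit 120446538) (nat_lit 1748) (nat_lit 6121062719) (nat_lit 1824) (nat_lit 873678822) (nat_lit 494) (nat_lit 5) (nat_lit 517) (nat_lit 5) (nat_lit 518) (nat_lit 5) (nat_lit 557) (nat_lit 507) (nat_lit 496)))) (XT.nd (nat_lit 156) (nat_lit 1140) (nat_lit 0) (XT.nd (nat_lit 78)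 (nat_lit 1824) (nat_lit 0) (XT.lf (nat_lit 0) (nat_lit 2336965934) (nat_lit 1824) (nat_lit 1914922997) (nat_lit 76) (nat_lit 2902722983) (nat_lit 493) (nat_lit 5) (nat_lit 517) (nat_lit 5) (nat_lit 494) (nat_lit 5) (nat_lit 558) (nat_lit 507) (nat_lit 495)) (XT.lf (nat_lit 0) (nat_lit 3240874434) (nat_lit 1824) (nat_lit 2318046141) (nat_lit 1900) (nat_lit 1636617049) (nat_lit 469) (nat_lit 5) (nat_lit 493) (nat_lit 5) (nat_lit 494) (nat_lit 5) (nat_lit 559) (nat_lit 507) (nat_lit 494))) (XT.nd (nat_lit 78) (nat_lit 0) (nat_lit 0) (XT.lf (nat_lit 0) (nat_lit 1231594670) (nat_lit 1064) (nat_lit 314429566) (nat_lit 1140) (nat_lit 5691871798) (nat_lit 454) (nat_lit 5) (nat_lit 468) (nat_lit 5) (nat_lit 469) (nat_lit 5) (nat_lit 560) (nat_lit 507) (nat_lit 493)) (XT.lf (nat_lit 0) (nat_lit 4747315063) (nat_lit 1140) (nat_lit 791185194) (nat_lit 76) (nat_lit 1742851307) (nat_lit 454) (nat_lit 5) (nat_lit 469) (nat_lit 5) (nat_lit 455) (nat_lit 5) (nat_lit 561) (nat_lit 507) (nat_lit 492))))))) (XT.nd (nat_lit 1170) (nat_lit 7448) (nat_lit 0) (XT.nd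 (nat_lit 546) (nat_lit 4712) (nat_lit 0) (XT.nd (nat_lit 234) (nat_lit 1824) (nat_lit 0) (XT.nd (nat_lit 78) (nat_lit 1748) (nat_lit 0) (XT.lf (nat_lit 0) (nat_lit 649349635) (nat_lit 988) (nat_lit 2807358234) (nat_lit 76) (nat_lit 3869455414) (nat_lit 441) (nat_lit 5) (nat_lit 454) (nat_lit 5) (nat_lit 442) (nat_lit 5) (nat_lit 562) (nat_lit 507) (nat_lit 491)) (XT.nd (nat_lit 78) (nat_lit 836) (nat_lit 0) (XT.lf (nat_lit 0) (nat_lit 2527592437) (nat_lit 912) (nat_lit 1297189875) (nat_lit 988) (nat_lit 3547512003) (nat_lit 429) (nat_lit 5) (nat_lit 441) (nat_lit 5) (nat_lit 442) (nat_lit 5) (nat_lit 563) (nat_lit 507) (nat_lit 490)) (XT.lf (nat_lit 0) (nat_lit 525778936) (nat_lit 836) (nat_lit 6507462545) (nat_lit 912) (nat_lit 386720318) (nat_lit 418) (nat_lit 5) (nat_lit 429) (nat_lit 5) (nat_lit 430) (nat_lit 5) (nat_lit 564) (nat_lit 507) (nat_lit 489)))) (XT.nd (nat_lit 156) (nat_lit 912) (nat_lit 0) (XT.nd (nat_lit 78) (nat_lit 836) (nat_lit 0) (XT.lf (nat_lit 0) (nat_lit 2783007858) (nat_lit 912) (nat_lit 1489620093) (nat_lit 76)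 (nat_lit 3195931630) (nat_lit 417) (nat_lit 5) (nat_lit 429) (nat_lit 5) (nat_lit 418) (nat_lit 5) (nat_lit 565) (nat_lit 507) (nat_lit 488)) (XT.lf (nat_lit 0) (nat_lit 4010521845) (nat_lit 836) (nat_lit 1969234895) (nat_lit 912) (nat_lit 1538949314) (nat_lit 406) (nat_lit 5) (nat_lit 417) (nat_lit 5) (nat_lit 418) (nat_lit 5) (nat_lit 566) (nat_lit 507) (nat_lit 487))) (XT.nd (nat_lit 78) (nat_lit 0) (nat_lit 0) (XT.lf (nat_lit 0) (nat_lit 1617634705) (nat_lit 912) (nat_lit 5549034799) (nat_lit 76) (nat_lit 403593622) (nat_lit 394) (nat_lit 5) (nat_lit 406) (nat_lit 5) (nat_lit 395) (nat_lit 5) (nat_lit 567) (nat_lit 507) (nat_lit 486)) (XT.lf (nat_lit 0) (nat_lit 4797272483) (nat_lit 912) (nat_lit 556929) (nat_lit 76) (nat_lit 2825211623) (nat_lit 394) (nat_lit 5) (nat_lit 406) (nat_lit 5) (nat_lit 395) (nat_lit 5) (nat_lit 568) (nat_lit 507) (nat_lit 485))))) (XT.nd (nat_lit 312) (nat_lit 2204) (nat_lit 0) (XT.nd (nat_lit 156) (nat_lit 836) (nat_lit 0) (XT.nd (nat_lit 78) (nat_lit 760) (nat_lit 0) (XT.lf (nat_lit 0) (nat_lit 340427063)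 (nat_lit 912) (nat_lit 2008542535) (nat_lit 76) (nat_lit 5328229908) (nat_lit 382) (nat_lit 5) (nat_lit 394) (nat_lit 5) (nat_lit 383) (nat_lit 5) (nat_lit 569) (nat_lit 507) (nat_lit 484)) (XT.lf (nat_lit 0) (nat_lit 3502465221) (nat_lit 836) (nat_lit 4048084596) (nat_lit 76) (nat_lit 182114152) (nat_lit 372) (nat_lit 5) (nat_lit 383) (nat_lit 5) (nat_lit 373) (nat_lit 5) (nat_lit 570) (nat_lit 507) (nat_lit 483))) (XT.nd (nat_lit 78) (nat_lit 76) (nat_lit 0) (XT.lf (nat_lit 0) (nat_lit 1672848270) (nat_lit 760) (nat_lit 5040686734) (nat_lit 836) (nat_lit 1075990335) (nat_lit 362) (nat_lit 5) (nat_lit 372) (nat_lit 5) (nat_lit 373) (nat_lit 5) (nat_lit 571) (nat_lit 507) (nat_lit 482)) (XT.lf (nat_lit 0) (nat_lit 2086665916) (nat_lit 836) (nat_lit 361561955) (nat_lit 76) (nat_lit 5399552367) (nat_lit 361) (nat_lit 5) (nat_lit 372) (nat_lit 5) (nat_lit 362) (nat_lit 5) (nat_lit 572) (nat_lit 507) (nat_lit 481)))) (XT.nd (nat_lit 156) (nat_lit 684) (nat_lit 0) (XT.nd (nat_lit 78) (nat_lit 836) (nat_lit 0) (XT.lf (nat_lit 0) (nat_lit 5282620541)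 (nat_lit 760) (nat_lit 2397408704) (nat_lit 76) (nat_lit 227342925) (nat_lit 352) (nat_lit 5) (nat_lit 362) (nat_lit 5) (nat_lit 353) (nat_lit 5) (nat_lit 573) (nat_lit 507) (nat_lit 480)) (XT.lf (nat_lit 0) (nat_lit 555857519) (nat_lit 836) (nat_lit 4469512846) (nat_lit 76) (nat_lit 2942933073) (nat_lit 341) (nat_lit 5) (nat_lit 352) (nat_lit 5) (nat_lit 342) (nat_lit 5) (nat_lit 574) (nat_lit 507) (nat_lit 479))) (XT.nd (nat_lit 78) (nat_lit 0) (nat_lit 0) (XT.lf (nat_lit 0) (nat_lit 1453676755) (nat_lit 684) (nat_lit 2284926686) (nat_lit 760) (nat_lit 4292032548) (nat_lit 332) (nat_lit 5) (nat_lit 341) (nat_lit 5) (nat_lit 342) (nat_lit 5) (nat_lit 575) (nat_lit 507) (nat_lit 478)) (XT.lf (nat_lit 0) (nat_lit 6967051704) (nat_lit 760) (nat_lit 604932167) (nat_lit 76) (nat_lit 522593360) (nat_lit 332) (nat_lit 5) (nat_lit 342) (nat_lit 5) (nat_lit 333) (nat_lit 5) (nat_lit 576) (nat_lit 507) (nat_lit 477)))))) (XT.nd (nat_lit 546) (nat_lit 3420) (nat_lit 0) (XT.nd (nat_lit 234) (nat_lit 1900) (nat_lit 0) (XT.nd (nat_lit 78) (nat_lit 1368)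 (nat_lit 0) (XT.lf (nat_lit 0) (nat_lit 2072993731) (nat_lit 760) (nat_lit 2692618613) (nat_lit 76) (nat_lit 3393909750) (nat_lit 322) (nat_lit 5) (nat_lit 332) (nat_lit 5) (nat_lit 323) (nat_lit 5) (nat_lit 577) (nat_lit 507) (nat_lit 476)) (XT.nd (nat_lit 78) (nat_lit 760) (nat_lit 0) (XT.lf (nat_lit 0) (nat_lit 3417285693) (nat_lit 608) (nat_lit 1881232617) (nat_lit 684) (nat_lit 2927579453) (nat_lit 314) (nat_lit 5) (nat_lit 322) (nat_lit 5) (nat_lit 323) (nat_lit 5) (nat_lit 578) (nat_lit 507) (nat_lit 475)) (XT.lf (nat_lit 0) (nat_lit 274652750) (nat_lit 760) (nat_lit 6956557771) (nat_lit 76) (nat_lit 1063079538) (nat_lit 304) (nat_lit 5) (nat_lit 314) (nat_lit 5) (nat_lit 305) (nat_lit 5) (nat_lit 579) (nat_lit 507) (nat_lit 474)))) (XT.nd (nat_lit 156) (nat_lit 1292) (nat_lit 0) (XT.nd (nat_lit 78) (nat_lit 608) (nat_lit 0) (XT.lf (nat_lit 0) (nat_lit 3497248364) (nat_lit 760) (nat_lit 786342446) (nat_lit 76) (nat_lit 4079960639) (nat_lit 304) (nat_lit 5) (nat_lit 314) (nat_lit 5) (nat_lit 305) (nat_lit 5) (nat_lit 580) (nat_lit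 507) (nat_lit 473)) (XT.lf (nat_lit 0) (nat_lit 5517409847) (nat_lit 608) (nat_lit 1254219071) (nat_lit 684) (nat_lit 1662825090) (nat_lit 296) (nat_lit 5) (nat_lit 304) (nat_lit 5) (nat_lit 305) (nat_lit 5) (nat_lit 581) (nat_lit 507) (nat_lit 472))) (XT.nd (nat_lit 78) (nat_lit 608) (nat_lit 0) (XT.lf (nat_lit 0) (nat_lit 1575031413) (nat_lit 684) (nat_lit 5095855535) (nat_lit 76) (nat_lit 1835854692) (nat_lit 287) (nat_lit 5) (nat_lit 296) (nat_lit 5) (nat_lit 288) (nat_lit 5) (nat_lit 582) (nat_lit 507) (nat_lit 471)) (XT.lf (nat_lit 0) (nat_lit 1258980316) (nat_lit 608) (nat_lit 3584795131) (nat_lit 684) (nat_lit 3736714291) (nat_lit 279) (nat_lit 5) (nat_lit 287) (nat_lit 5) (nat_lit 288) (nat_lit 5) (nat_lit 583) (nat_lit 507) (nat_lit 470))))) (XT.nd (nat_lit 312) (nat_lit 1596) (nat_lit 0) (XT.nd (nat_lit 156) (nat_lit 1140) (nat_lit 0) (XT.nd (nat_lit 78) (nat_lit 684) (nat_lit 0) (XT.lf (nat_lit 0) (nat_lit 7747486090) (nat_lit 608) (nat_lit 417325846) (nat_lit 684) (nat_lit 491164916) (nat_lit 279) (nat_lit 5) (nat_lit 287) (nat_lit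 5) (nat_lit 288) (nat_lit 5) (nat_lit 584) (nat_lit 507) (nat_lit 469)) (XT.lf (nat_lit 0) (nat_lit 2790720742) (nat_lit 684) (nat_lit 3124968668) (nat_lit 76) (nat_lit 2816752497) (nat_lit 270) (nat_lit 5) (nat_lit 279) (nat_lit 5) (nat_lit 271) (nat_lit 5) (nat_lit 585) (nat_lit 507) (nat_lit 468))) (XT.nd (nat_lit 78) (nat_lit 608) (nat_lit 0) (XT.lf (nat_lit 0) (nat_lit 3432399067) (nat_lit 532) (nat_lit 2684215938) (nat_lit 608) (nat_lit 2694059642) (nat_lit 263) (nat_lit 5) (nat_lit 270) (nat_lit 5) (nat_lit 271) (nat_lit 5) (nat_lit 586) (nat_lit 507) (nat_lit 467)) (XT.lf (nat_lit 0) (nat_lit 597529425) (nat_lit 608) (nat_lit 7672239642) (nat_lit 76) (nat_lit 620883094) (nat_lit 255) (nat_lit 5) (nat_lit 263) (nat_lit 5) (nat_lit 256) (nat_lit 5) (nat_lit 587) (nat_lit 507) (nat_lit 466)))) (XT.nd (nat_lit 156) (nat_lit 1064) (nat_lit 0) (XT.nd (nat_lit 78) (nat_lit 532) (nat_lit 0) (XT.lf (nat_lit 0) (nat_lit 3927364063) (nat_lit 608) (nat_lit 1050341696) (nat_lit 76) (nat_lit 3993999703) (nat_lit 255) (nat_lit 5) (nat_lit 263)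 (nat_lit 5) (nat_lit 256) (nat_lit 5) (nat_lit 588) (nat_lit 507) (nat_lit 465)) (XT.lf (nat_lit 0) (nat_lit 5717295331) (nat_lit 532) (nat_lit 1598862880) (nat_lit 608) (nat_lit 1738376455) (nat_lit 248) (nat_lit 5) (nat_lit 255) (nat_lit 5) (nat_lit 256) (nat_lit 5) (nat_lit 589) (nat_lit 507) (nat_lit 464))) (XT.nd (nat_lit 78) (nat_lit 456) (nat_lit 0) (XT.lf (nat_lit 0) (nat_lit 1609473429) (nat_lit 608) (nat_lit 5682648986) (nat_lit 76) (nat_lit 1846744070) (nat_lit 240) (nat_lit 5) (nat_lit 248) (nat_lit 5) (nat_lit 241) (nat_lit 5) (nat_lit 590) (nat_lit 507) (nat_lit 463)) (XT.lf (nat_lit 0) (nat_lit 1136768330) (nat_lit 456) (nat_lit 3860557982) (nat_lit 532) (nat_lit 4227404329) (nat_lit 234) (nat_lit 5) (nat_lit 240) (nat_lit 5) (nat_lit 241) (nat_lit 5) (nat_lit 591) (nat_lit 507) (nat_lit 462))))))))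
noncomputable def xc18 : XT := (XT.nd (nat_lit 78390) (nat_lit 0) (nat_lit 8664) (XT.nd (nat_lit 1170) (nat_lit 836) (nat_lit 0) (XT.nd (nat_lit 546) (nat_lit 2508) (nat_lit 0) (XT.nd (nat_lit 234) (nat_lit 1520) (nat_lit 0) (XT.nd (nat_lit 78) (nat_lit 1064) (nat_lit 0) (XT.lf (nat_lit 0) (nat_lit 8107778295) (nat_lit 456) (nat_lit 339546006) (nat_lit 532) (nat_lit 865101952) (nat_lit 234) (nat_lit 5) (nat_lit 240) (nat_lit 5) (nat_lit 241) (nat_lit 5) (nat_lit 592) (nat_lit 507) (nat_lit 461)) (XT.nd (nat_lit 78) (nat_lit 456) (nat_lit 0) (XT.lf (nat_lit 0) (nat_lit 2546749606) (nat_lit 608) (nat_lit 3608254465) (nat_lit 76) (nat_lit 3246221839) (nat_lit 226) (nat_lit 5) (nat_lit 234) (nat_lit 5) (nat_lit 227) (nat_lit 5) (nat_lit 593) (nat_lit 507) (nat_lit 460)) (XT.lf (nat_lit 0) (nat_lit 3430669929) (nat_lit 456) (nat_lit 2574416502) (nat_lit 532) (nat_lit 3486805944) (nat_lit 220) (nat_lit 5) (nat_lit 226) (nat_lit 5) (nat_lit 227) (nat_lit 5) (nat_lit 594) (nat_lit 507) (nat_lit 459)))) (XT.nd (nat_lit 156) (nat_lit 988) (nat_lit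 0) (XT.nd (nat_lit 78) (nat_lit 76) (nat_lit 0) (XT.lf (nat_lit 0) (nat_lit 1019763465) (nat_lit 456) (nat_lit 8508301336) (nat_lit 532) (nat_lit 56399661) (nat_lit 214) (nat_lit 5) (nat_lit 220) (nat_lit 5) (nat_lit 221) (nat_lit 5) (nat_lit 595) (nat_lit 507) (nat_lit 458)) (XT.lf (nat_lit 0) (nat_lit 3413093549) (nat_lit 532) (nat_lit 1455220594) (nat_lit 76) (nat_lit 4809815943) (nat_lit 213) (nat_lit 5) (nat_lit 220) (nat_lit 5) (nat_lit 214) (nat_lit 5) (nat_lit 596) (nat_lit 507) (nat_lit 457))) (XT.nd (nat_lit 78) (nat_lit 532) (nat_lit 0) (XT.lf (nat_lit 0) (nat_lit 5811504216) (nat_lit 456) (nat_lit 1135917551) (nat_lit 532) (nat_lit 2826317476) (nat_lit 207) (nat_lit 5) (nat_lit 213) (nat_lit 5) (nat_lit 214) (nat_lit 5) (nat_lit 597) (nat_lit 507) (nat_lit 456)) (XT.lf (nat_lit 0) (nat_lit 679897495) (nat_lit 532) (nat_lit 6538083820) (nat_lit 76) (nat_lit 2653039329) (nat_lit 200) (nat_lit 5) (nat_lit 207) (nat_lit 5) (nat_lit 201) (nat_lit 5) (nat_lit 598) (nat_lit 507) (nat_lit 455))))) (XT.nd (nat_lit 312) (nat_lit 1216)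 (nat_lit 0) (XT.nd (nat_lit 156) (nat_lit 912) (nat_lit 0) (XT.nd (nat_lit 78) (nat_lit 0) (nat_lit 0) (XT.lf (nat_lit 0) (nat_lit 780591767) (nat_lit 380) (nat_lit 3436098658) (nat_lit 456) (nat_lit 5753219235) (nat_lit 195) (nat_lit 5) (nat_lit 200) (nat_lit 5) (nat_lit 201) (nat_lit 5) (nat_lit 599) (nat_lit 507) (nat_lit 454)) (XT.lf (nat_lit 0) (nat_lit 7830307009) (nat_lit 456) (nat_lit 1800176010) (nat_lit 76) (nat_lit 440173236) (nat_lit 195) (nat_lit 5) (nat_lit 201) (nat_lit 5) (nat_lit 196) (nat_lit 5) (nat_lit 600) (nat_lit 507) (nat_lit 453))) (XT.nd (nat_lit 78) (nat_lit 380) (nat_lit 0) (XT.lf (nat_lit 0) (nat_lit 1345236159) (nat_lit 532) (nat_lit 4453053658) (nat_lit 76) (nat_lit 4374553720) (nat_lit 188) (nat_lit 5) (nat_lit 195) (nat_lit 5) (nat_lit 189) (nat_lit 5) (nat_lit 601) (nat_lit 507) (nat_lit 452)) (XT.lf (nat_lit 0) (nat_lit 3103059298) (nat_lit 380) (nat_lit 1861930070) (nat_lit 456) (nat_lit 5311941401) (nat_lit 183) (nat_lit 5) (nat_lit 188) (nat_lit 5) (nat_lit 189) (nat_lit 5) (nat_lit 602) (nat_lit 507)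 (nat_lit 451)))) (XT.nd (nat_lit 156) (nat_lit 760) (nat_lit 0) (XT.nd (nat_lit 78) (nat_lit 76) (nat_lit 0) (XT.lf (nat_lit 0) (nat_lit 418764090) (nat_lit 380) (nat_lit 8245530109) (nat_lit 456) (nat_lit 1718663853) (nat_lit 178) (nat_lit 5) (nat_lit 183) (nat_lit 5) (nat_lit 184) (nat_lit 5) (nat_lit 603) (nat_lit 507) (nat_lit 450)) (XT.lf (nat_lit 0) (nat_lit 1942242583) (nat_lit 456) (nat_lit 2315766399) (nat_lit 76) (nat_lit 6232419687) (nat_lit 177) (nat_lit 5) (nat_lit 183) (nat_lit 5) (nat_lit 178) (nat_lit 5) (nat_lit 604) (nat_lit 507) (nat_lit 449))) (XT.nd (nat_lit 78) (nat_lit 380) (nat_lit 0) (XT.lf (nat_lit 0) (nat_lit 5486565820) (nat_lit 380) (nat_lit 163708666) (nat_lit 456) (nat_lit 4949609956) (nat_lit 172) (nat_lit 5) (nat_lit 177) (nat_lit 5) (nat_lit 178) (nat_lit 5) (nat_lit 605) (nat_lit 507) (nat_lit 448)) (XT.lf (nat_lit 0) (nat_lit 2714686422) (nat_lit 380) (nat_lit 6738615985) (nat_lit 456) (nat_lit 1257811541) (nat_lit 167) (nat_lit 5) (nat_lit 172) (nat_lit 5) (nat_lit 173) (nat_lit 5) (nat_lit 606) (nat_lit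 507) (nat_lit 447)))))) (XT.nd (nat_lit 76596) (nat_lit 0) (nat_lit 29108) (XT.nd (nat_lit 76284) (nat_lit 0) (nat_lit 36632) (XT.nd (nat_lit 78) (nat_lit 760) (nat_lit 0) (XT.lf (nat_lit 0) (nat_lit 2472186670) (nat_lit 456) (nat_lit 132908514) (nat_lit 76) (nat_lit 8219203401) (nat_lit 166) (nat_lit 5) (nat_lit 172) (nat_lit 5) (nat_lit 167) (nat_lit 5) (nat_lit 607) (nat_lit 507) (nat_lit 446)) (XT.nd (nat_lit 78) (nat_lit 380) (nat_lit 0) (XT.lf (nat_lit 0) (nat_lit 6284511490) (nat_lit 456) (nat_lit 3025359453) (nat_lit 76) (nat_lit 1629219566) (nat_lit 161) (nat_lit 5) (nat_lit 167) (nat_lit 5) (nat_lit 162) (nat_lit 5) (nat_lit 608) (nat_lit 507) (nat_lit 445)) (XT.lf (nat_lit 0) (nat_lit 5056967053) (nat_lit 380) (nat_lit 5129702025) (nat_lit 456) (nat_lit 869238693) (nat_lit 156) (nat_lit 5) (nat_lit 161) (nat_lit 5) (nat_lit 162) (nat_lit 5) (nat_lit 609) (nat_lit 507) (nat_lit 444)))) (XT.nd (nat_lit 156) (nat_lit 2432) (nat_lit 0) (XT.nd (nat_lit 78) (nat_lit 0) (nat_lit 0) (XT.lf (nat_lit 0) (nat_lit 3181272) (nat_lit 1140)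 (nat_lit 3352095271) (nat_lit 0) (nat_lit 3181272) (nat_lit 670) (nat_lit 5) (nat_lit 685) (nat_lit 4) (nat_lit 670) (nat_lit 4) (nat_lit 544) (nat_lit 508) (nat_lit 508)) (XT.lf (nat_lit 0) (nat_lit 3335571343) (nat_lit 1140) (nat_lit 2223830439) (nat_lit 0) (nat_lit 1180785697) (nat_lit 670) (nat_lit 5) (nat_lit 685) (nat_lit 4) (nat_lit 670) (nat_lit 4) (nat_lit 545) (nat_lit 508) (nat_lit 507))) (XT.nd (nat_lit 78) (nat_lit 1292) (nat_lit 0) (XT.lf (nat_lit 0) (nat_lit 2316395703) (nat_lit 1140) (nat_lit 4357997968) (nat_lit 1140) (nat_lit 90677375) (nat_lit 655) (nat_lit 4) (nat_lit 670) (nat_lit 5) (nat_lit 670) (nat_lit 4) (nat_lit 546) (nat_lit 508) (nat_lit 506)) (XT.lf (nat_lit 0) (nat_lit 106677664) (nat_lit 1216) (nat_lit 3083971320) (nat_lit 1292) (nat_lit 3600497709) (nat_lit 638) (nat_lit 5) (nat_lit 654) (nat_lit 5) (nat_lit 655) (nat_lit 4) (nat_lit 547) (nat_lit 508) (nat_lit 505))))) (XT.nd (nat_lit 312) (nat_lit 4712) (nat_lit 0) (XT.nd (nat_lit 156) (nat_lit 1444) (nat_lit 0) (XT.nd (nat_lit 78) (nat_lit 1368) (nat_lit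 0) (XT.lf (nat_lit 0) (nat_lit 4752549546) (nat_lit 1216) (nat_lit 1743235340) (nat_lit 1292) (nat_lit 322765509) (nat_lit 638) (nat_lit 5) (nat_lit 654) (nat_lit 5) (nat_lit 655) (nat_lit 4) (nat_lit 548) (nat_lit 508) (nat_lit 504)) (XT.lf (nat_lit 0) (nat_lit 2599284599) (nat_lit 1292) (nat_lit 328963122) (nat_lit 1368) (nat_lit 3918921625) (nat_lit 620) (nat_lit 5) (nat_lit 637) (nat_lit 5) (nat_lit 638) (nat_lit 5) (nat_lit 549) (nat_lit 508) (nat_lit 503))) (XT.nd (nat_lit 78) (nat_lit 76) (nat_lit 0) (XT.lf (nat_lit 0) (nat_lit 445104414) (nat_lit 1368) (nat_lit 5750433849) (nat_lit 1444) (nat_lit 681674267) (nat_lit 602) (nat_lit 5) (nat_lit 620) (nat_lit 5) (nat_lit 621) (nat_lit 4) (nat_lit 550) (nat_lit 508) (nat_lit 502)) (XT.lf (nat_lit 0) (nat_lit 2548819929) (nat_lit 1444) (nat_lit 1698711148) (nat_lit 76) (nat_lit 2660733748) (nat_lit 601) (nat_lit 5) (nat_lit 620) (nat_lit 5) (nat_lit 602) (nat_lit 5) (nat_lit 551) (nat_lit 508) (nat_lit 501)))) (XT.nd (nat_lit 156) (nat_lit 1672) (nat_lit 0) (XT.nd (nat_lit 78) (nat_lit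 1596) (nat_lit 0) (XT.lf (nat_lit 0) (nat_lit 3105192901) (nat_lit 1444) (nat_lit 2683101374) (nat_lit 1520) (nat_lit 1152489565) (nat_lit 582) (nat_lit 5) (nat_lit 601) (nat_lit 5) (nat_lit 602) (nat_lit 5) (nat_lit 552) (nat_lit 508) (nat_lit 500)) (XT.lf (nat_lit 0) (nat_lit 992806557) (nat_lit 1520) (nat_lit 1049738385) (nat_lit 1596) (nat_lit 4932104189) (nat_lit 561) (nat_lit 5) (nat_lit 581) (nat_lit 5) (nat_lit 582) (nat_lit 5) (nat_lit 553) (nat_lit 508) (nat_lit 499))) (XT.nd (nat_lit 78) (nat_lit 1672) (nat_lit 0) (XT.lf (nat_lit 0) (nat_lit 5250715408) (nat_lit 1596) (nat_lit 1112518544) (nat_lit 76) (nat_lit 646517492) (nat_lit 561) (nat_lit 5) (nat_lit 582) (nat_lit 5) (nat_lit 562) (nat_lit 5) (nat_lit 554) (nat_lit 508) (nat_lit 498)) (XT.lf (nat_lit 0) (nat_lit 1425783629) (nat_lit 1672) (nat_lit 3218610942) (nat_lit 76) (nat_lit 2401621226) (nat_lit 539) (nat_lit 5) (nat_lit 561) (nat_lit 5) (nat_lit 540) (nat_lit 5) (nat_lit 555) (nat_lit 508) (nat_lit 497))))))) (XT.nd (nat_lit 1170) (nat_lit 7752) (nat_lit 0) (XT.nd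 (nat_lit 546) (nat_lit 5244) (nat_lit 0) (XT.nd (nat_lit 234) (nat_lit 3952) (nat_lit 0) (XT.nd (nat_lit 78) (nat_lit 1824) (nat_lit 0) (XT.lf (nat_lit 0) (nat_lit 1748543964) (nat_lit 1672) (nat_lit 2857554121) (nat_lit 1748) (nat_lit 2477572872) (nat_lit 517) (nat_lit 5) (nat_lit 539) (nat_lit 5) (nat_lit 540) (nat_lit 5) (nat_lit 556) (nat_lit 508) (nat_lit 496)) (XT.nd (nat_lit 78) (nat_lit 1748) (nat_lit 0) (XT.lf (nat_lit 0) (nat_lit 677028356) (nat_lit 1748) (nat_lit 329328327) (nat_lit 76) (nat_lit 6116460202) (nat_lit 516) (nat_lit 5) (nat_lit 539) (nat_lit 5) (nat_lit 517) (nat_lit 5) (nat_lit 557) (nat_lit 508) (nat_lit 495)) (XT.lf (nat_lit 0) (nat_lit 3836679299) (nat_lit 1824) (nat_lit 2406730317) (nat_lit 76) (nat_lit 919510743) (nat_lit 493) (nat_lit 5) (nat_lit 517) (nat_lit 5) (nat_lit 494) (nat_lit 5) (nat_lit 558) (nat_lit 508) (nat_lit 494)))) (XT.nd (nat_lit 156) (nat_lit 988) (nat_lit 0) (XT.nd (nat_lit 78) (nat_lit 1140) (nat_lit 0) (XT.lf (nat_lit 0) (nat_lit 2711874780) (nat_lit 1824) (nat_lit 4313108423) (nat_lit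 1900) (nat_lit 179538215) (nat_lit 469) (nat_lit 5) (nat_lit 493) (nat_lit 5) (nat_lit 494) (nat_lit 5) (nat_lit 559) (nat_lit 508) (nat_lit 493)) (XT.lf (nat_lit 0) (nat_lit 646014370) (nat_lit 1064) (nat_lit 2304158354) (nat_lit 1140) (nat_lit 4297196550) (nat_lit 454) (nat_lit 5) (nat_lit 468) (nat_lit 5) (nat_lit 469) (nat_lit 5) (nat_lit 560) (nat_lit 508) (nat_lit 492))) (XT.nd (nat_lit 78) (nat_lit 988) (nat_lit 0) (XT.lf (nat_lit 0) (nat_lit 5886025352) (nat_lit 1064) (nat_lit 224345707) (nat_lit 1140) (nat_lit 1181277795) (nat_lit 454) (nat_lit 5) (nat_lit 468) (nat_lit 5) (nat_lit 469) (nat_lit 5) (nat_lit 561) (nat_lit 508) (nat_lit 491)) (XT.lf (nat_lit 0) (nat_lit 1949396687) (nat_lit 988) (nat_lit 3478677154) (nat_lit 76) (nat_lit 1908912584) (nat_lit 441) (nat_lit 5) (nat_lit 454) (nat_lit 5) (nat_lit 442) (nat_lit 5) (nat_lit 562) (nat_lit 508) (nat_lit 490))))) (XT.nd (nat_lit 312) (nat_lit 2584) (nat_lit 0) (XT.nd (nat_lit 156) (nat_lit 1672) (nat_lit 0) (XT.nd (nat_lit 78) (nat_lit 76) (nat_lit 0) (XT.lf (nat_lit 0) (nat_lit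 1816518955) (nat_lit 912) (nat_lit 3274826736) (nat_lit 988) (nat_lit 2292443514) (nat_lit 429) (nat_lit 5) (nat_lit 441) (nat_lit 5) (nat_lit 442) (nat_lit 5) (nat_lit 563) (nat_lit 508) (nat_lit 489)) (XT.lf (nat_lit 0) (nat_lit 818814994) (nat_lit 988) (nat_lit 233891725) (nat_lit 76) (nat_lit 6379402096) (nat_lit 428) (nat_lit 5) (nat_lit 441) (nat_lit 5) (nat_lit 429) (nat_lit 5) (nat_lit 564) (nat_lit 508) (nat_lit 488))) (XT.nd (nat_lit 78) (nat_lit 836) (nat_lit 0) (XT.lf (nat_lit 0) (nat_lit 3946751065) (nat_lit 912) (nat_lit 2291207847) (nat_lit 76) (nat_lit 1243433826) (nat_lit 417) (nat_lit 5) (nat_lit 429) (nat_lit 5) (nat_lit 418) (nat_lit 5) (nat_lit 565) (nat_lit 508) (nat_lit 487)) (XT.lf (nat_lit 0) (nat_lit 3167519913) (nat_lit 836) (nat_lit 3942725944) (nat_lit 912) (nat_lit 421960350) (nat_lit 406) (nat_lit 5) (nat_lit 417) (nat_lit 5) (nat_lit 418) (nat_lit 5) (nat_lit 566) (nat_lit 508) (nat_lit 486)))) (XT.nd (nat_lit 156) (nat_lit 1672) (nat_lit 0) (XT.nd (nat_lit 78) (nat_lit 0) (nat_lit 0) (XT.lf (nat_lit 0) (nat_lit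 1117770638) (nat_lit 836) (nat_lit 1566049498) (nat_lit 912) (nat_lit 4900523020) (nat_lit 394) (nat_lit 5) (nat_lit 405) (nat_lit 5) (nat_lit 406) (nat_lit 5) (nat_lit 567) (nat_lit 508) (nat_lit 485)) (XT.lf (nat_lit 0) (nat_lit 5825999454) (nat_lit 912) (nat_lit 938780528) (nat_lit 76) (nat_lit 873092057) (nat_lit 394) (nat_lit 5) (nat_lit 406) (nat_lit 5) (nat_lit 395) (nat_lit 5) (nat_lit 568) (nat_lit 508) (nat_lit 484))) (XT.nd (nat_lit 78) (nat_lit 760) (nat_lit 0) (XT.lf (nat_lit 0) (nat_lit 1307677425) (nat_lit 912) (nat_lit 3011744161) (nat_lit 76) (nat_lit 3373145964) (nat_lit 382) (nat_lit 5) (nat_lit 394) (nat_lit 5) (nat_lit 383) (nat_lit 5) (nat_lit 569) (nat_lit 508) (nat_lit 483)) (XT.lf (nat_lit 0) (nat_lit 2638458773) (nat_lit 760) (nat_lit 1796655925) (nat_lit 836) (nat_lit 3313611033) (nat_lit 372) (nat_lit 5) (nat_lit 382) (nat_lit 5) (nat_lit 383) (nat_lit 5) (nat_lit 570) (nat_lit 508) (nat_lit 482)))))) (XT.nd (nat_lit 546) (nat_lit 3952) (nat_lit 0) (XT.nd (nat_lit 234) (nat_lit 2280) (nat_lit 0) (XT.nd (nat_lit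 78) (nat_lit 760) (nat_lit 0) (XT.lf (nat_lit 0) (nat_lit 577255448) (nat_lit 760) (nat_lit 7023847925) (nat_lit 836) (nat_lit 205387018) (nat_lit 362) (nat_lit 5) (nat_lit 372) (nat_lit 5) (nat_lit 373) (nat_lit 5) (nat_lit 571) (nat_lit 508) (nat_lit 481)) (XT.nd (nat_lit 78) (nat_lit 684) (nat_lit 0) (XT.lf (nat_lit 0) (nat_lit 2919692388) (nat_lit 836) (nat_lit 1510626228) (nat_lit 76) (nat_lit 3434838399) (nat_lit 361) (nat_lit 5) (nat_lit 372) (nat_lit 5) (nat_lit 362) (nat_lit 5) (nat_lit 572) (nat_lit 508) (nat_lit 480)) (XT.lf (nat_lit 0) (nat_lit 4316503445) (nat_lit 684) (nat_lit 1764243440) (nat_lit 760) (nat_lit 1844701637) (nat_lit 352) (nat_lit 5) (nat_lit 361) (nat_lit 5) (nat_lit 362) (nat_lit 5) (nat_lit 573) (nat_lit 508) (nat_lit 479)))) (XT.nd (nat_lit 156) (nat_lit 760) (nat_lit 0) (XT.nd (nat_lit 78) (nat_lit 684) (nat_lit 0) (XT.lf (nat_lit 0) (nat_lit 1280458617) (nat_lit 836) (nat_lit 5740219712) (nat_lit 76) (nat_lit 966506046) (nat_lit 341) (nat_lit 5) (nat_lit 352) (nat_lit 5) (nat_lit 342) (nat_lit 5) (nat_lit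 574) (nat_lit 508) (nat_lit 478)) (XT.lf (nat_lit 0) (nat_lit 135011759) (nat_lit 684) (nat_lit 4294395501) (nat_lit 760) (nat_lit 3620787089) (nat_lit 332) (nat_lit 5) (nat_lit 341) (nat_lit 5) (nat_lit 342) (nat_lit 5) (nat_lit 575) (nat_lit 508) (nat_lit 477))) (XT.nd (nat_lit 78) (nat_lit 760) (nat_lit 0) (XT.lf (nat_lit 0) (nat_lit 6144025080) (nat_lit 684) (nat_lit 1485453738) (nat_lit 760) (nat_lit 485225760) (nat_lit 332) (nat_lit 5) (nat_lit 341) (nat_lit 5) (nat_lit 342) (nat_lit 5) (nat_lit 576) (nat_lit 508) (nat_lit 476)) (XT.lf (nat_lit 0) (nat_lit 2663331281) (nat_lit 760) (nat_lit 4122343633) (nat_lit 76) (nat_lit 1394763285) (nat_lit 322) (nat_lit 5) (nat_lit 332) (nat_lit 5) (nat_lit 323) (nat_lit 5) (nat_lit 577) (nat_lit 508) (nat_lit 475))))) (XT.nd (nat_lit 312) (nat_lit 1976) (nat_lit 0) (XT.nd (nat_lit 156) (nat_lit 1292) (nat_lit 0) (XT.nd (nat_lit 78) (nat_lit 76) (nat_lit 0) (XT.lf (nat_lit 0) (nat_lit 1937710293) (nat_lit 608) (nat_lit 3917177314) (nat_lit 684) (nat_lit 2392806994) (nat_lit 314) (nat_lit 5) (nat_lit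 322) (nat_lit 5) (nat_lit 323) (nat_lit 5) (nat_lit 578) (nat_lit 508) (nat_lit 474)) (XT.lf (nat_lit 0) (nat_lit 762444512) (nat_lit 684) (nat_lit 207985036) (nat_lit 76) (nat_lit 7346188562) (nat_lit 313) (nat_lit 5) (nat_lit 322) (nat_lit 5) (nat_lit 314) (nat_lit 5) (nat_lit 579) (nat_lit 508) (nat_lit 473))) (XT.nd (nat_lit 78) (nat_lit 608) (nat_lit 0) (XT.lf (nat_lit 0) (nat_lit 3953357289) (nat_lit 760) (nat_lit 2381675980) (nat_lit 76) (nat_lit 2051481175) (nat_lit 304) (nat_lit 5) (nat_lit 314) (nat_lit 5) (nat_lit 305) (nat_lit 5) (nat_lit 580) (nat_lit 508) (nat_lit 472)) (XT.lf (nat_lit 0) (nat_lit 3870271329) (nat_lit 608) (nat_lit 3323238100) (nat_lit 684) (nat_lit 1264593407) (nat_lit 296) (nat_lit 5) (nat_lit 304) (nat_lit 5) (nat_lit 305) (nat_lit 5) (nat_lit 581) (nat_lit 508) (nat_lit 471)))) (XT.nd (nat_lit 156) (nat_lit 1292) (nat_lit 0) (XT.nd (nat_lit 78) (nat_lit 0) (nat_lit 0) (XT.lf (nat_lit 0) (nat_lit 1696875338) (nat_lit 608) (nat_lit 224455644) (nat_lit 684) (nat_lit 6609943173) (nat_lit 287) (nat_lit 5) (nat_lit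 295) (nat_lit 5) (nat_lit 296) (nat_lit 5) (nat_lit 582) (nat_lit 508) (nat_lit 470)) (XT.lf (nat_lit 0) (nat_lit 5157239363) (nat_lit 684) (nat_lit 525153406) (nat_lit 76) (nat_lit 2923287387) (nat_lit 287) (nat_lit 5) (nat_lit 296) (nat_lit 5) (nat_lit 288) (nat_lit 5) (nat_lit 583) (nat_lit 508) (nat_lit 469))) (XT.nd (nat_lit 78) (nat_lit 684) (nat_lit 0) (XT.lf (nat_lit 0) (nat_lit 5926038246) (nat_lit 608) (nat_lit 2525836473) (nat_lit 684) (nat_lit 229821740) (nat_lit 279) (nat_lit 5) (nat_lit 287) (nat_lit 5) (nat_lit 288) (nat_lit 5) (nat_lit 584) (nat_lit 508) (nat_lit 468)) (XT.lf (nat_lit 0) (nat_lit 2999820270) (nat_lit 684) (nat_lit 5041423447) (nat_lit 76) (nat_lit 717861305) (nat_lit 270) (nat_lit 5) (nat_lit 279) (nat_lit 5) (nat_lit 271) (nat_lit 5) (nat_lit 585) (nat_lit 508) (nat_lit 467))))))))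
noncomputable def xc19 : XT := (XT.nd (nat_lit 78312) (nat_lit 0) (nat_lit 11628) (XT.nd (nat_lit 1170) (nat_lit 2584) (nat_lit 0) (XT.nd (nat_lit 546) (nat_lit 2964) (nat_lit 0) (XT.nd (nat_lit 234) (nat_lit 1596) (nat_lit 0) (XT.nd (nat_lit 78) (nat_lit 608) (nat_lit 0) (XT.lf (nat_lit 0) (nat_lit 1459828272) (nat_lit 532) (nat_lit 4830634574) (nat_lit 608) (nat_lit 2547581049) (nat_lit 263) (nat_lit 5) (nat_lit 270) (nat_lit 5) (nat_lit 271) (nat_lit 5) (nat_lit 586) (nat_lit 508) (nat_lit 466)) (XT.nd (nat_lit 78) (nat_lit 532) (nat_lit 0) (XT.lf (nat_lit 0) (nat_lit 707716851) (nat_lit 608) (nat_lit 824690907) (nat_lit 76) (nat_lit 7386283090) (nat_lit 262) (nat_lit 5) (nat_lit 270) (nat_lit 5) (nat_lit 263) (nat_lit 5) (nat_lit 587) (nat_lit 508) (nat_lit 465)) (XT.lf (nat_lit 0) (nat_lit 3999983297) (nat_lit 608) (nat_lit 3153102451) (nat_lit 76) (nat_lit 1847410801) (nat_lit 255) (nat_lit 5) (nat_lit 263) (nat_lit 5) (nat_lit 256) (nat_lit 5) (nat_lit 588) (nat_lit 508) (nat_lit 464)))) (XT.nd (nat_lit 156) (nat_lit 456) (nat_lit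 0) (XT.nd (nat_lit 78) (nat_lit 608) (nat_lit 0) (XT.lf (nat_lit 0) (nat_lit 3556255125) (nat_lit 532) (nat_lit 3796768613) (nat_lit 608) (nat_lit 1731018105) (nat_lit 248) (nat_lit 5) (nat_lit 255) (nat_lit 5) (nat_lit 256) (nat_lit 5) (nat_lit 589) (nat_lit 508) (nat_lit 463)) (XT.lf (nat_lit 0) (nat_lit 1218475509) (nat_lit 532) (nat_lit 349867510) (nat_lit 608) (nat_lit 7600998509) (nat_lit 240) (nat_lit 5) (nat_lit 247) (nat_lit 5) (nat_lit 248) (nat_lit 5) (nat_lit 590) (nat_lit 508) (nat_lit 462))) (XT.nd (nat_lit 78) (nat_lit 456) (nat_lit 0) (XT.lf (nat_lit 0) (nat_lit 4925086199) (nat_lit 608) (nat_lit 1174291323) (nat_lit 76) (nat_lit 3156451314) (nat_lit 240) (nat_lit 5) (nat_lit 248) (nat_lit 5) (nat_lit 241) (nat_lit 5) (nat_lit 591) (nat_lit 508) (nat_lit 461)) (XT.lf (nat_lit 0) (nat_lit 5751106375) (nat_lit 456) (nat_lit 2595020646) (nat_lit 532) (nat_lit 997977509) (nat_lit 234) (nat_lit 5) (nat_lit 240) (nat_lit 5) (nat_lit 241) (nat_lit 5) (nat_lit 592) (nat_lit 508) (nat_lit 460))))) (XT.nd (nat_lit 312) (nat_lit 1368)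 (nat_lit 0) (XT.nd (nat_lit 156) (nat_lit 532) (nat_lit 0) (XT.nd (nat_lit 78) (nat_lit 456) (nat_lit 0) (XT.lf (nat_lit 0) (nat_lit 2363948350) (nat_lit 608) (nat_lit 6075184351) (nat_lit 76) (nat_lit 994823009) (nat_lit 226) (nat_lit 5) (nat_lit 234) (nat_lit 5) (nat_lit 227) (nat_lit 5) (nat_lit 593) (nat_lit 508) (nat_lit 459)) (XT.lf (nat_lit 0) (nat_lit 900698173) (nat_lit 456) (nat_lit 4884369120) (nat_lit 532) (nat_lit 3740300125) (nat_lit 220) (nat_lit 5) (nat_lit 226) (nat_lit 5) (nat_lit 227) (nat_lit 5) (nat_lit 594) (nat_lit 508) (nat_lit 458))) (XT.nd (nat_lit 78) (nat_lit 532) (nat_lit 0) (XT.lf (nat_lit 0) (nat_lit 8038527020) (nat_lit 456) (nat_lit 1235284652) (nat_lit 532) (nat_lit 344813380) (nat_lit 220) (nat_lit 5) (nat_lit 226) (nat_lit 5) (nat_lit 227) (nat_lit 5) (nat_lit 595) (nat_lit 508) (nat_lit 457)) (XT.lf (nat_lit 0) (nat_lit 3089417266) (nat_lit 532) (nat_lit 4130581921) (nat_lit 76) (nat_lit 2493110677) (nat_lit 213) (nat_lit 5) (nat_lit 220) (nat_lit 5) (nat_lit 214) (nat_lit 5) (nat_lit 596) (nat_lit 508)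 (nat_lit 456)))) (XT.nd (nat_lit 156) (nat_lit 380) (nat_lit 0) (XT.nd (nat_lit 78) (nat_lit 532) (nat_lit 0) (XT.lf (nat_lit 0) (nat_lit 3070692370) (nat_lit 456) (nat_lit 3515100448) (nat_lit 532) (nat_lit 3223686074) (nat_lit 207) (nat_lit 5) (nat_lit 213) (nat_lit 5) (nat_lit 214) (nat_lit 5) (nat_lit 597) (nat_lit 508) (nat_lit 455)) (XT.lf (nat_lit 0) (nat_lit 233562473) (nat_lit 532) (nat_lit 9399805446) (nat_lit 76) (nat_lit 274528319) (nat_lit 200) (nat_lit 5) (nat_lit 207) (nat_lit 5) (nat_lit 201) (nat_lit 5) (nat_lit 598) (nat_lit 508) (nat_lit 454))) (XT.nd (nat_lit 78) (nat_lit 380) (nat_lit 0) (XT.lf (nat_lit 0) (nat_lit 3745343174) (nat_lit 532) (nat_lit 2121087483) (nat_lit 76) (nat_lit 4140855611) (nat_lit 200) (nat_lit 5) (nat_lit 207) (nat_lit 5) (nat_lit 201) (nat_lit 5) (nat_lit 599) (nat_lit 508) (nat_lit 453)) (XT.lf (nat_lit 0) (nat_lit 5314042155) (nat_lit 380) (nat_lit 2008322461) (nat_lit 456) (nat_lit 2786400905) (nat_lit 195) (nat_lit 5) (nat_lit 200) (nat_lit 5) (nat_lit 201) (nat_lit 5) (nat_lit 600) (nat_lit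 508) (nat_lit 452)))))) (XT.nd (nat_lit 546) (nat_lit 380) (nat_lit 0) (XT.nd (nat_lit 234) (nat_lit 1292) (nat_lit 0) (XT.nd (nat_lit 78) (nat_lit 380) (nat_lit 0) (XT.lf (nat_lit 0) (nat_lit 753732236) (nat_lit 532) (nat_lit 7539108422) (nat_lit 76) (nat_lit 1919236054) (nat_lit 188) (nat_lit 5) (nat_lit 195) (nat_lit 5) (nat_lit 189) (nat_lit 5) (nat_lit 601) (nat_lit 508) (nat_lit 451)) (XT.nd (nat_lit 78) (nat_lit 380) (nat_lit 0) (XT.lf (nat_lit 0) (nat_lit 4333982414) (nat_lit 532) (nat_lit 53029240) (nat_lit 76) (nat_lit 5929943062) (nat_lit 188) (nat_lit 5) (nat_lit 195) (nat_lit 5) (nat_lit 189) (nat_lit 5) (nat_lit 602) (nat_lit 508) (nat_lit 450)) (XT.lf (nat_lit 0) (nat_lit 7624672517) (nat_lit 380) (nat_lit 372337215) (nat_lit 456) (nat_lit 2426698514) (nat_lit 183) (nat_lit 5) (nat_lit 188) (nat_lit 5) (nat_lit 189) (nat_lit 5) (nat_lit 603) (nat_lit 508) (nat_lit 449)))) (XT.nd (nat_lit 156) (nat_lit 456) (nat_lit 0) (XT.nd (nat_lit 78) (nat_lit 380) (nat_lit 0) (XT.lf (nat_lit 0) (nat_lit 1203369660) (nat_lit 456) (nat_lit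 5634270390) (nat_lit 76) (nat_lit 3694433911) (nat_lit 177) (nat_lit 5) (nat_lit 183) (nat_lit 5) (nat_lit 178) (nat_lit 5) (nat_lit 604) (nat_lit 508) (nat_lit 448)) (XT.lf (nat_lit 0) (nat_lit 2094630485) (nat_lit 380) (nat_lit 2775954125) (nat_lit 456) (nat_lit 5771762119) (nat_lit 172) (nat_lit 5) (nat_lit 177) (nat_lit 5) (nat_lit 178) (nat_lit 5) (nat_lit 605) (nat_lit 508) (nat_lit 447))) (XT.nd (nat_lit 78) (nat_lit 456) (nat_lit 0) (XT.lf (nat_lit 0) (nat_lit 8620348263) (nat_lit 456) (nat_lit 767416482) (nat_lit 76) (nat_lit 1366877421) (nat_lit 172) (nat_lit 5) (nat_lit 178) (nat_lit 5) (nat_lit 173) (nat_lit 5) (nat_lit 606) (nat_lit 508) (nat_lit 446)) (XT.lf (nat_lit 0) (nat_lit 1583494666) (nat_lit 456) (nat_lit 3692234051) (nat_lit 76) (nat_lit 5592686617) (nat_lit 166) (nat_lit 5) (nat_lit 172) (nat_lit 5) (nat_lit 167) (nat_lit 5) (nat_lit 607) (nat_lit 508) (nat_lit 445))))) (XT.nd (nat_lit 76284) (nat_lit 0) (nat_lit 36176) (XT.nd (nat_lit 76128) (nat_lit 0) (nat_lit 39748) (XT.nd (nat_lit 76050) (nat_lit 0) (nat_lit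 40812) (XT.lf (nat_lit 0) (nat_lit 4289109432) (nat_lit 380) (nat_lit 1054129584) (nat_lit 456) (nat_lit 5641020458) (nat_lit 161) (nat_lit 5) (nat_lit 166) (nat_lit 5) (nat_lit 167) (nat_lit 5) (nat_lit 608) (nat_lit 508) (nat_lit 444)) (XT.lf (nat_lit 0) (nat_lit 1138780094) (nat_lit 988) (nat_lit 1058808094) (nat_lit 0) (nat_lit 1138780094) (nat_lit 698) (nat_lit 5) (nat_lit 711) (nat_lit 4) (nat_lit 698) (nat_lit 4) (nat_lit 542) (nat_lit 509) (nat_lit 509))) (XT.nd (nat_lit 78) (nat_lit 76) (nat_lit 0) (XT.lf (nat_lit 0) (nat_lit 2262460763) (nat_lit 988) (nat_lit 3336881441) (nat_lit 988) (nat_lit 1095042455) (nat_lit 685) (nat_lit 4) (nat_lit 698) (nat_lit 5) (nat_lit 698) (nat_lit 4) (nat_lit 543) (nat_lit 509) (nat_lit 508)) (XT.lf (nat_lit 0) (nat_lit 2182460820) (nat_lit 1064) (nat_lit 31149487) (nat_lit 76) (nat_lit 4503744456) (nat_lit 684) (nat_lit 5) (nat_lit 698) (nat_lit 5) (nat_lit 685) (nat_lit 4) (nat_lit 544) (nat_lit 509) (nat_lit 507)))) (XT.nd (nat_lit 156) (nat_lit 1292) (nat_lit 0) (XT.nd (nat_lit 78) (nat_lit 1216)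 (nat_lit 0) (XT.lf (nat_lit 0) (nat_lit 4450947251) (nat_lit 1064) (nat_lit 1017098907) (nat_lit 1140) (nat_lit 1273456321) (nat_lit 670) (nat_lit 5) (nat_lit 684) (nat_lit 5) (nat_lit 685) (nat_lit 4) (nat_lit 545) (nat_lit 509) (nat_lit 506)) (XT.lf (nat_lit 0) (nat_lit 1971297961) (nat_lit 1216) (nat_lit 4554292762) (nat_lit 76) (nat_lit 241382092) (nat_lit 654) (nat_lit 5) (nat_lit 670) (nat_lit 5) (nat_lit 655) (nat_lit 4) (nat_lit 546) (nat_lit 509) (nat_lit 505))) (XT.nd (nat_lit 78) (nat_lit 1292) (nat_lit 0) (XT.lf (nat_lit 0) (nat_lit 5216058510) (nat_lit 1216) (nat_lit 30379093) (nat_lit 76) (nat_lit 1547309820) (nat_lit 654) (nat_lit 5) (nat_lit 670) (nat_lit 5) (nat_lit 655) (nat_lit 4) (nat_lit 547) (nat_lit 509) (nat_lit 504)) (XT.lf (nat_lit 0) (nat_lit 1643122354) (nat_lit 1292) (nat_lit 2246820834) (nat_lit 76) (nat_lit 2931682751) (nat_lit 637) (nat_lit 5) (nat_lit 654) (nat_lit 5) (nat_lit 638) (nat_lit 5) (nat_lit 548) (nat_lit 509) (nat_lit 503))))))) (XT.nd (nat_lit 1170) (nat_lit 8740) (nat_lit 0) (XT.nd (nat_lit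 546) (nat_lit 8360) (nat_lit 0) (XT.nd (nat_lit 234) (nat_lit 4712) (nat_lit 0) (XT.nd (nat_lit 78) (nat_lit 1444) (nat_lit 0) (XT.lf (nat_lit 0) (nat_lit 2384415376) (nat_lit 1292) (nat_lit 2470343604) (nat_lit 1368) (nat_lit 1996149888) (nat_lit 620) (nat_lit 5) (nat_lit 637) (nat_lit 5) (nat_lit 638) (nat_lit 5) (nat_lit 549) (nat_lit 509) (nat_lit 502)) (XT.nd (nat_lit 78) (nat_lit 0) (nat_lit 0) (XT.lf (nat_lit 0) (nat_lit 193204063) (nat_lit 1368) (nat_lit 989020699) (nat_lit 1444) (nat_lit 5699420941) (nat_lit 601) (nat_lit 5) (nat_lit 619) (nat_lit 5) (nat_lit 620) (nat_lit 5) (nat_lit 550) (nat_lit 509) (nat_lit 501)) (XT.lf (nat_lit 0) (nat_lit 4364351547) (nat_lit 1444) (nat_lit 1982936117) (nat_lit 76) (nat_lit 566113205) (nat_lit 601) (nat_lit 5) (nat_lit 620) (nat_lit 5) (nat_lit 602) (nat_lit 5) (nat_lit 551) (nat_lit 509) (nat_lit 500)))) (XT.nd (nat_lit 156) (nat_lit 1672) (nat_lit 0) (XT.nd (nat_lit 78) (nat_lit 1520) (nat_lit 0) (XT.lf (nat_lit 0) (nat_lit 614625495) (nat_lit 1520) (nat_lit 4163154271) (nat_lit 76) (nat_lit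 2168750460) (nat_lit 581) (nat_lit 5) (nat_lit 601) (nat_lit 5) (nat_lit 582) (nat_lit 5) (nat_lit 552) (nat_lit 509) (nat_lit 499)) (XT.lf (nat_lit 0) (nat_lit 623377584) (nat_lit 1520) (nat_lit 3136641600) (nat_lit 1596) (nat_lit 3220919873) (nat_lit 561) (nat_lit 5) (nat_lit 581) (nat_lit 5) (nat_lit 582) (nat_lit 5) (nat_lit 553) (nat_lit 509) (nat_lit 498))) (XT.nd (nat_lit 78) (nat_lit 1672) (nat_lit 0) (XT.lf (nat_lit 0) (nat_lit 5502798939) (nat_lit 1520) (nat_lit 1429449600) (nat_lit 1596) (nat_lit 84514282) (nat_lit 561) (nat_lit 5) (nat_lit 581) (nat_lit 5) (nat_lit 582) (nat_lit 5) (nat_lit 554) (nat_lit 509) (nat_lit 497)) (XT.lf (nat_lit 0) (nat_lit 3034949830) (nat_lit 1672) (nat_lit 3664247423) (nat_lit 76) (nat_lit 354482883) (nat_lit 539) (nat_lit 5) (nat_lit 561) (nat_lit 5) (nat_lit 540) (nat_lit 5) (nat_lit 555) (nat_lit 509) (nat_lit 496))))) (XT.nd (nat_lit 312) (nat_lit 2964) (nat_lit 0) (XT.nd (nat_lit 156) (nat_lit 3648) (nat_lit 0) (XT.nd (nat_lit 78) (nat_lit 76) (nat_lit 0) (XT.lf (nat_lit 0) (nat_lit 1266965747)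 (nat_lit 1672) (nat_lit 4914334181) (nat_lit 1748) (nat_lit 910717133) (nat_lit 517) (nat_lit 5) (nat_lit 539) (nat_lit 5) (nat_lit 540) (nat_lit 5) (nat_lit 556) (nat_lit 509) (nat_lit 495)) (XT.lf (nat_lit 0) (nat_lit 2192706561) (nat_lit 1748) (nat_lit 859265970) (nat_lit 76) (nat_lit 4079601937) (nat_lit 516) (nat_lit 5) (nat_lit 539) (nat_lit 5) (nat_lit 517) (nat_lit 5) (nat_lit 557) (nat_lit 509) (nat_lit 494))) (XT.nd (nat_lit 78) (nat_lit 1900) (nat_lit 0) (XT.lf (nat_lit 0) (nat_lit 4195736270) (nat_lit 1748) (nat_lit 1116865529) (nat_lit 1824) (nat_lit 1859873590) (nat_lit 493) (nat_lit 5) (nat_lit 516) (nat_lit 5) (nat_lit 517) (nat_lit 5) (nat_lit 558) (nat_lit 509) (nat_lit 493)) (XT.lf (nat_lit 0) (nat_lit 1228907413) (nat_lit 1900) (nat_lit 5111395812) (nat_lit 76) (nat_lit 874429265) (nat_lit 468) (nat_lit 5) (nat_lit 493) (nat_lit 5) (nat_lit 469) (nat_lit 5) (nat_lit 559) (nat_lit 509) (nat_lit 492)))) (XT.nd (nat_lit 156) (nat_lit 1824) (nat_lit 0) (XT.nd (nat_lit 78) (nat_lit 1140) (nat_lit 0) (XT.lf (nat_lit 0) (nat_lit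 4322639402) (nat_lit 1900) (nat_lit 12232432) (nat_lit 76) (nat_lit 2923359885) (nat_lit 468) (nat_lit 5) (nat_lit 493) (nat_lit 5) (nat_lit 469) (nat_lit 5) (nat_lit 560) (nat_lit 509) (nat_lit 491)) (XT.lf (nat_lit 0) (nat_lit 148640476) (nat_lit 1140) (nat_lit 2106120793) (nat_lit 76) (nat_lit 5048315144) (nat_lit 453) (nat_lit 5) (nat_lit 468) (nat_lit 5) (nat_lit 454) (nat_lit 5) (nat_lit 561) (nat_lit 509) (nat_lit 490))) (XT.nd (nat_lit 78) (nat_lit 912) (nat_lit 0) (XT.lf (nat_lit 0) (nat_lit 3123685098) (nat_lit 912) (nat_lit 94059112) (nat_lit 988) (nat_lit 4131440018) (nat_lit 441) (nat_lit 5) (nat_lit 453) (nat_lit 5) (nat_lit 454) (nat_lit 5) (nat_lit 562) (nat_lit 509) (nat_lit 489)) (XT.lf (nat_lit 0) (nat_lit 1030162402) (nat_lit 912) (nat_lit 5295513675) (nat_lit 988) (nat_lit 1070993305) (nat_lit 429) (nat_lit 5) (nat_lit 441) (nat_lit 5) (nat_lit 442) (nat_lit 5) (nat_lit 563) (nat_lit 509) (nat_lit 488)))))) (XT.nd (nat_lit 546) (nat_lit 4408) (nat_lit 0) (XT.nd (nat_lit 234) (nat_lit 2508) (nat_lit 0) (XT.nd (nat_lit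 78) (nat_lit 1748) (nat_lit 0) (XT.lf (nat_lit 0) (nat_lit 1996120284) (nat_lit 988) (nat_lit 1071070445) (nat_lit 76) (nat_lit 4378204115) (nat_lit 428) (nat_lit 5) (nat_lit 441) (nat_lit 5) (nat_lit 429) (nat_lit 5) (nat_lit 564) (nat_lit 509) (nat_lit 487)) (XT.nd (nat_lit 78) (nat_lit 912) (nat_lit 0) (XT.lf (nat_lit 0) (nat_lit 4320410523) (nat_lit 836) (nat_lit 762190117) (nat_lit 912) (nat_lit 2412909155) (nat_lit 417) (nat_lit 5) (nat_lit 428) (nat_lit 5) (nat_lit 429) (nat_lit 5) (nat_lit 565) (nat_lit 509) (nat_lit 486)) (XT.lf (nat_lit 0) (nat_lit 652176930) (nat_lit 912) (nat_lit 5304640930) (nat_lit 76) (nat_lit 1590184730) (nat_lit 405) (nat_lit 5) (nat_lit 417) (nat_lit 5) (nat_lit 406) (nat_lit 5) (nat_lit 566) (nat_lit 509) (nat_lit 485)))) (XT.nd (nat_lit 156) (nat_lit 1672) (nat_lit 0) (XT.nd (nat_lit 78) (nat_lit 0) (nat_lit 0) (XT.lf (nat_lit 0) (nat_lit 132222115) (nat_lit 836) (nat_lit 3586728489) (nat_lit 912) (nat_lit 3880805399) (nat_lit 394) (nat_lit 5) (nat_lit 405) (nat_lit 5) (nat_lit 406) (nat_lit 5) (nat_lit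 567) (nat_lit 509) (nat_lit 484)) (XT.lf (nat_lit 0) (nat_lit 5689670200) (nat_lit 836) (nat_lit 1138979626) (nat_lit 912) (nat_lit 825286432) (nat_lit 394) (nat_lit 5) (nat_lit 405) (nat_lit 5) (nat_lit 406) (nat_lit 5) (nat_lit 568) (nat_lit 509) (nat_lit 483))) (XT.nd (nat_lit 78) (nat_lit 760) (nat_lit 0) (XT.lf (nat_lit 0) (nat_lit 2240535296) (nat_lit 912) (nat_lit 4096427856) (nat_lit 76) (nat_lit 1372357987) (nat_lit 382) (nat_lit 5) (nat_lit 394) (nat_lit 5) (nat_lit 383) (nat_lit 5) (nat_lit 569) (nat_lit 509) (nat_lit 482)) (XT.lf (nat_lit 0) (nat_lit 1509155267) (nat_lit 760) (nat_lit 3825404015) (nat_lit 836) (nat_lit 2431589970) (nat_lit 372) (nat_lit 5) (nat_lit 382) (nat_lit 5) (nat_lit 383) (nat_lit 5) (nat_lit 570) (nat_lit 509) (nat_lit 481))))) (XT.nd (nat_lit 312) (nat_lit 2052) (nat_lit 0) (XT.nd (nat_lit 156) (nat_lit 1520) (nat_lit 0) (XT.nd (nat_lit 78) (nat_lit 760) (nat_lit 0) (XT.lf (nat_lit 0) (nat_lit 632894686) (nat_lit 836) (nat_lit 606211419) (nat_lit 76) (nat_lit 6585418849) (nat_lit 371) (nat_lit 5) (nat_lit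 382) (nat_lit 5) (nat_lit 372) (nat_lit 5) (nat_lit 571) (nat_lit 509) (nat_lit 480)) (XT.lf (nat_lit 0) (nat_lit 3717574849) (nat_lit 836) (nat_lit 2743774542) (nat_lit 76) (nat_lit 1422571200) (nat_lit 361) (nat_lit 5) (nat_lit 372) (nat_lit 5) (nat_lit 362) (nat_lit 5) (nat_lit 572) (nat_lit 509) (nat_lit 479))) (XT.nd (nat_lit 78) (nat_lit 836) (nat_lit 0) (XT.lf (nat_lit 0) (nat_lit 3036917356) (nat_lit 684) (nat_lit 3808261116) (nat_lit 760) (nat_lit 1099704182) (nat_lit 352) (nat_lit 5) (nat_lit 361) (nat_lit 5) (nat_lit 362) (nat_lit 5) (nat_lit 573) (nat_lit 509) (nat_lit 478)) (XT.lf (nat_lit 0) (nat_lit 902075175) (nat_lit 760) (nat_lit 1073470270) (nat_lit 836) (nat_lit 6031780599) (nat_lit 341) (nat_lit 5) (nat_lit 351) (nat_lit 5) (nat_lit 352) (nat_lit 5) (nat_lit 574) (nat_lit 509) (nat_lit 477)))) (XT.nd (nat_lit 156) (nat_lit 1292) (nat_lit 0) (XT.nd (nat_lit 78) (nat_lit 760) (nat_lit 0) (XT.lf (nat_lit 0) (nat_lit 5091907010) (nat_lit 836) (nat_lit 1254882773) (nat_lit 76) (nat_lit 1724199430) (nat_lit 341) (nat_lit 5)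 (nat_lit 352) (nat_lit 5) (nat_lit 342) (nat_lit 5) (nat_lit 575) (nat_lit 509) (nat_lit 476)) (XT.lf (nat_lit 0) (nat_lit 121503469) (nat_lit 760) (nat_lit 3429365098) (nat_lit 76) (nat_lit 4585270418) (nat_lit 331) (nat_lit 5) (nat_lit 341) (nat_lit 5) (nat_lit 332) (nat_lit 5) (nat_lit 576) (nat_lit 509) (nat_lit 475))) (XT.nd (nat_lit 78) (nat_lit 608) (nat_lit 0) (XT.lf (nat_lit 0) (nat_lit 2556196700) (nat_lit 684) (nat_lit 664381512) (nat_lit 760) (nat_lit 4982095122) (nat_lit 322) (nat_lit 5) (nat_lit 331) (nat_lit 5) (nat_lit 332) (nat_lit 5) (nat_lit 577) (nat_lit 509) (nat_lit 474)) (XT.lf (nat_lit 0) (nat_lit 367448112) (nat_lit 608) (nat_lit 6006293452) (nat_lit 684) (nat_lit 1896957372) (nat_lit 314) (nat_lit 5) (nat_lit 322) (nat_lit 5) (nat_lit 323) (nat_lit 5) (nat_lit 578) (nat_lit 509) (nat_lit 473))))))))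
noncomputable def xc20 : XT := (XT.nd (nat_lit 78156) (nat_lit 0) (nat_lit 16796) (XT.nd (nat_lit 1170) (nat_lit 4940) (nat_lit 0) (XT.nd (nat_lit 546) (nat_lit 3344) (nat_lit 0) (XT.nd (nat_lit 234) (nat_lit 1976) (nat_lit 0) (XT.nd (nat_lit 78) (nat_lit 1292) (nat_lit 0) (XT.lf (nat_lit 0) (nat_lit 1228024944) (nat_lit 684) (nat_lit 1834440204) (nat_lit 76) (nat_lit 5277569519) (nat_lit 313) (nat_lit 5) (nat_lit 322) (nat_lit 5) (nat_lit 314) (nat_lit 5) (nat_lit 579) (nat_lit 509) (nat_lit 472)) (XT.nd (nat_lit 78) (nat_lit 608) (nat_lit 0) (XT.lf (nat_lit 0) (nat_lit 4340762979) (nat_lit 684) (nat_lit 30484459) (nat_lit 760) (nat_lit 4039638632) (nat_lit 304) (nat_lit 5) (nat_lit 313) (nat_lit 5) (nat_lit 314) (nat_lit 5) (nat_lit 580) (nat_lit 509) (nat_lit 471)) (XT.lf (nat_lit 0) (nat_lit 2129582434) (nat_lit 608) (nat_lit 5447244868) (nat_lit 684) (nat_lit 906339845) (nat_lit 296) (nat_lit 5) (nat_lit 304) (nat_lit 5) (nat_lit 305) (nat_lit 5) (nat_lit 581) (nat_lit 509) (nat_lit 470)))) (XT.nd (nat_lit 156) (nat_lit 1292) (nat_lit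 0) (XT.nd (nat_lit 78) (nat_lit 608) (nat_lit 0) (XT.lf (nat_lit 0) (nat_lit 2240905252) (nat_lit 684) (nat_lit 123180531) (nat_lit 76) (nat_lit 6192886966) (nat_lit 295) (nat_lit 5) (nat_lit 304) (nat_lit 5) (nat_lit 296) (nat_lit 5) (nat_lit 582) (nat_lit 509) (nat_lit 469)) (XT.lf (nat_lit 0) (nat_lit 5439356750) (nat_lit 684) (nat_lit 2388601077) (nat_lit 76) (nat_lit 804171229) (nat_lit 287) (nat_lit 5) (nat_lit 296) (nat_lit 5) (nat_lit 288) (nat_lit 5) (nat_lit 583) (nat_lit 509) (nat_lit 468))) (XT.nd (nat_lit 78) (nat_lit 684) (nat_lit 0) (XT.lf (nat_lit 0) (nat_lit 4008086034) (nat_lit 608) (nat_lit 4691150298) (nat_lit 684) (nat_lit 9605288) (nat_lit 279) (nat_lit 5) (nat_lit 287) (nat_lit 5) (nat_lit 288) (nat_lit 5) (nat_lit 584) (nat_lit 509) (nat_lit 467)) (XT.lf (nat_lit 0) (nat_lit 1720258583) (nat_lit 608) (nat_lit 1456965003) (nat_lit 684) (nat_lit 5609797600) (nat_lit 270) (nat_lit 5) (nat_lit 278) (nat_lit 5) (nat_lit 279) (nat_lit 5) (nat_lit 585) (nat_lit 509) (nat_lit 466))))) (XT.nd (nat_lit 312) (nat_lit 1672) (nat_lit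 0) (XT.nd (nat_lit 156) (nat_lit 1064) (nat_lit 0) (XT.nd (nat_lit 78) (nat_lit 608) (nat_lit 0) (XT.lf (nat_lit 0) (nat_lit 6426924044) (nat_lit 684) (nat_lit 604849559) (nat_lit 76) (nat_lit 1835006375) (nat_lit 270) (nat_lit 5) (nat_lit 279) (nat_lit 5) (nat_lit 271) (nat_lit 5) (nat_lit 586) (nat_lit 509) (nat_lit 465)) (XT.lf (nat_lit 0) (nat_lit 788114168) (nat_lit 608) (nat_lit 2956645078) (nat_lit 76) (nat_lit 5203173033) (nat_lit 262) (nat_lit 5) (nat_lit 270) (nat_lit 5) (nat_lit 263) (nat_lit 5) (nat_lit 587) (nat_lit 509) (nat_lit 464))) (XT.nd (nat_lit 78) (nat_lit 532) (nat_lit 0) (XT.lf (nat_lit 0) (nat_lit 3669950731) (nat_lit 532) (nat_lit 362578226) (nat_lit 608) (nat_lit 4998167071) (nat_lit 255) (nat_lit 5) (nat_lit 262) (nat_lit 5) (nat_lit 263) (nat_lit 5) (nat_lit 588) (nat_lit 509) (nat_lit 463)) (XT.lf (nat_lit 0) (nat_lit 1291919183) (nat_lit 532) (nat_lit 6055297685) (nat_lit 608) (nat_lit 1767792502) (nat_lit 248) (nat_lit 5) (nat_lit 255) (nat_lit 5) (nat_lit 256) (nat_lit 5) (nat_lit 589) (nat_lit 509) (nat_lit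 462)))) (XT.nd (nat_lit 156) (nat_lit 1064) (nat_lit 0) (XT.nd (nat_lit 78) (nat_lit 532) (nat_lit 0) (XT.lf (nat_lit 0) (nat_lit 1502930699) (nat_lit 608) (nat_lit 1122009462) (nat_lit 76) (nat_lit 6575957030) (nat_lit 247) (nat_lit 5) (nat_lit 255) (nat_lit 5) (nat_lit 248) (nat_lit 5) (nat_lit 590) (nat_lit 509) (nat_lit 461)) (XT.lf (nat_lit 0) (nat_lit 4816435329) (nat_lit 608) (nat_lit 3576183353) (nat_lit 76) (nat_lit 895631528) (nat_lit 240) (nat_lit 5) (nat_lit 248) (nat_lit 5) (nat_lit 241) (nat_lit 5) (nat_lit 591) (nat_lit 509) (nat_lit 460))) (XT.nd (nat_lit 78) (nat_lit 608) (nat_lit 0) (XT.lf (nat_lit 0) (nat_lit 3287876275) (nat_lit 456) (nat_lit 4912982694) (nat_lit 532) (nat_lit 1176400199) (nat_lit 234) (nat_lit 5) (nat_lit 240) (nat_lit 5) (nat_lit 241) (nat_lit 5) (nat_lit 592) (nat_lit 509) (nat_lit 459)) (XT.lf (nat_lit 0) (nat_lit 807558422) (nat_lit 532) (nat_lit 1336611730) (nat_lit 608) (nat_lit 7323838160) (nat_lit 226) (nat_lit 5) (nat_lit 233) (nat_lit 5) (nat_lit 234) (nat_lit 5) (nat_lit 593) (nat_lit 509)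 (nat_lit 458)))))) (XT.nd (nat_lit 546) (nat_lit 2584) (nat_lit 0) (XT.nd (nat_lit 234) (nat_lit 1368) (nat_lit 0) (XT.nd (nat_lit 78) (nat_lit 988) (nat_lit 0) (XT.lf (nat_lit 0) (nat_lit 5530379049) (nat_lit 608) (nat_lit 1716977342) (nat_lit 76) (nat_lit 2312762698) (nat_lit 226) (nat_lit 5) (nat_lit 234) (nat_lit 5) (nat_lit 227) (nat_lit 5) (nat_lit 594) (nat_lit 509) (nat_lit 457)) (XT.nd (nat_lit 78) (nat_lit 532) (nat_lit 0) (XT.lf (nat_lit 0) (nat_lit 5368951051) (nat_lit 456) (nat_lit 3618703385) (nat_lit 532) (nat_lit 666352516) (nat_lit 220) (nat_lit 5) (nat_lit 226) (nat_lit 5) (nat_lit 227) (nat_lit 5) (nat_lit 595) (nat_lit 509) (nat_lit 456)) (XT.lf (nat_lit 0) (nat_lit 2718549311) (nat_lit 532) (nat_lit 6919049118) (nat_lit 76) (nat_lit 112006823) (nat_lit 213) (nat_lit 5) (nat_lit 220) (nat_lit 5) (nat_lit 214) (nat_lit 5) (nat_lit 596) (nat_lit 509) (nat_lit 455)))) (XT.nd (nat_lit 156) (nat_lit 912) (nat_lit 0) (XT.nd (nat_lit 78) (nat_lit 0) (nat_lit 0) (XT.lf (nat_lit 0) (nat_lit 215857741) (nat_lit 456) (nat_lit 5960769389)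 (nat_lit 532) (nat_lit 3670113907) (nat_lit 207) (nat_lit 5) (nat_lit 213) (nat_lit 5) (nat_lit 214) (nat_lit 5) (nat_lit 597) (nat_lit 509) (nat_lit 454)) (XT.lf (nat_lit 0) (nat_lit 7529206635) (nat_lit 456) (nat_lit 2181576448) (nat_lit 532) (nat_lit 234899708) (nat_lit 207) (nat_lit 5) (nat_lit 213) (nat_lit 5) (nat_lit 214) (nat_lit 5) (nat_lit 598) (nat_lit 509) (nat_lit 453))) (XT.nd (nat_lit 78) (nat_lit 380) (nat_lit 0) (XT.lf (nat_lit 0) (nat_lit 3230241300) (nat_lit 532) (nat_lit 5129215268) (nat_lit 76) (nat_lit 1686641919) (nat_lit 200) (nat_lit 5) (nat_lit 207) (nat_lit 5) (nat_lit 201) (nat_lit 5) (nat_lit 599) (nat_lit 509) (nat_lit 452)) (XT.lf (nat_lit 0) (nat_lit 2236992350) (nat_lit 380) (nat_lit 4531122488) (nat_lit 456) (nat_lit 3380246601) (nat_lit 195) (nat_lit 5) (nat_lit 200) (nat_lit 5) (nat_lit 201) (nat_lit 5) (nat_lit 600) (nat_lit 509) (nat_lit 451))))) (XT.nd (nat_lit 312) (nat_lit 1216) (nat_lit 0) (XT.nd (nat_lit 156) (nat_lit 836) (nat_lit 0) (XT.nd (nat_lit 78) (nat_lit 456) (nat_lit 0) (XT.lf (nat_lit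 0) (nat_lit 118505650) (nat_lit 456) (nat_lit 490800702) (nat_lit 76) (nat_lit 9643427487) (nat_lit 194) (nat_lit 5) (nat_lit 200) (nat_lit 5) (nat_lit 195) (nat_lit 5) (nat_lit 601) (nat_lit 509) (nat_lit 450)) (XT.lf (nat_lit 0) (nat_lit 3672573088) (nat_lit 532) (nat_lit 3288826384) (nat_lit 76) (nat_lit 3396736724) (nat_lit 188) (nat_lit 5) (nat_lit 195) (nat_lit 5) (nat_lit 189) (nat_lit 5) (nat_lit 602) (nat_lit 509) (nat_lit 449))) (XT.nd (nat_lit 78) (nat_lit 456) (nat_lit 0) (XT.lf (nat_lit 0) (nat_lit 4317301186) (nat_lit 380) (nat_lit 2978221275) (nat_lit 456) (nat_lit 3170169508) (nat_lit 183) (nat_lit 5) (nat_lit 188) (nat_lit 5) (nat_lit 189) (nat_lit 5) (nat_lit 603) (nat_lit 509) (nat_lit 448)) (XT.lf (nat_lit 0) (nat_lit 411754875) (nat_lit 456) (nat_lit 9077614375) (nat_lit 76) (nat_lit 1085943522) (nat_lit 177) (nat_lit 5) (nat_lit 183) (nat_lit 5) (nat_lit 178) (nat_lit 5) (nat_lit 604) (nat_lit 509) (nat_lit 447)))) (XT.nd (nat_lit 156) (nat_lit 836) (nat_lit 0) (XT.nd (nat_lit 78) (nat_lit 380) (nat_lit 0) (XT.lf (nat_lit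 0) (nat_lit 4046944351) (nat_lit 456) (nat_lit 1404562899) (nat_lit 76) (nat_lit 5234719445) (nat_lit 177) (nat_lit 5) (nat_lit 183) (nat_lit 5) (nat_lit 178) (nat_lit 5) (nat_lit 605) (nat_lit 509) (nat_lit 446)) (XT.lf (nat_lit 0) (nat_lit 6450347619) (nat_lit 380) (nat_lit 1309879734) (nat_lit 456) (nat_lit 3039025024) (nat_lit 172) (nat_lit 5) (nat_lit 177) (nat_lit 5) (nat_lit 178) (nat_lit 5) (nat_lit 606) (nat_lit 509) (nat_lit 445))) (XT.nd (nat_lit 78) (nat_lit 380) (nat_lit 0) (XT.lf (nat_lit 0) (nat_lit 640148695) (nat_lit 456) (nat_lit 7380413173) (nat_lit 76) (nat_lit 2893591377) (nat_lit 166) (nat_lit 5) (nat_lit 172) (nat_lit 5) (nat_lit 167) (nat_lit 5) (nat_lit 607) (nat_lit 509) (nat_lit 444)) (XT.lf (nat_lit 0) (nat_lit 523556109) (nat_lit 380) (nat_lit 3833988967) (nat_lit 456) (nat_lit 6673299863) (nat_lit 161) (nat_lit 5) (nat_lit 166) (nat_lit 5) (nat_lit 167) (nat_lit 5) (nat_lit 608) (nat_lit 509) (nat_lit 443))))))) (XT.nd (nat_lit 1170) (nat_lit 13528) (nat_lit 0) (XT.nd (nat_lit 546) (nat_lit 7144) (nat_lit 0)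 (XT.nd (nat_lit 234) (nat_lit 3344) (nat_lit 0) (XT.nd (nat_lit 78) (nat_lit 988) (nat_lit 0) (XT.lf (nat_lit 0) (nat_lit 1293395157) (nat_lit 836) (nat_lit 1011473606) (nat_lit 836) (nat_lit 1011473606) (nat_lit 711) (nat_lit 4) (nat_lit 722) (nat_lit 5) (nat_lit 722) (nat_lit 4) (nat_lit 540) (nat_lit 510) (nat_lit 510)) (XT.nd (nat_lit 78) (nat_lit 0) (nat_lit 0) (XT.lf (nat_lit 0) (nat_lit 205767879) (nat_lit 912) (nat_lit 1050755467) (nat_lit 988) (nat_lit 5396018017) (nat_lit 698) (nat_lit 5) (nat_lit 710) (nat_lit 5) (nat_lit 711) (nat_lit 4) (nat_lit 541) (nat_lit 510) (nat_lit 509)) (XT.lf (nat_lit 0) (nat_lit 4526949065) (nat_lit 912) (nat_lit 790594) (nat_lit 988) (nat_lit 2145730442) (nat_lit 698) (nat_lit 5) (nat_lit 710) (nat_lit 5) (nat_lit 711) (nat_lit 4) (nat_lit 542) (nat_lit 510) (nat_lit 508)))) (XT.nd (nat_lit 156) (nat_lit 2280) (nat_lit 0) (XT.nd (nat_lit 78) (nat_lit 0) (nat_lit 0) (XT.lf (nat_lit 0) (nat_lit 1102852881) (nat_lit 1064) (nat_lit 4498633290) (nat_lit 76) (nat_lit 1094213797) (nat_lit 684) (nat_lit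 5) (nat_lit 698) (nat_lit 5) (nat_lit 685) (nat_lit 4) (nat_lit 543) (nat_lit 510) (nat_lit 507)) (XT.lf (nat_lit 0) (nat_lit 4330490719) (nat_lit 1064) (nat_lit 133590501) (nat_lit 76) (nat_lit 2255160130) (nat_lit 684) (nat_lit 5) (nat_lit 698) (nat_lit 5) (nat_lit 685) (nat_lit 4) (nat_lit 544) (nat_lit 510) (nat_lit 506))) (XT.nd (nat_lit 78) (nat_lit 1140) (nat_lit 0) (XT.lf (nat_lit 0) (nat_lit 825335882) (nat_lit 1140) (nat_lit 2430824294) (nat_lit 76) (nat_lit 3487836951) (nat_lit 669) (nat_lit 5) (nat_lit 684) (nat_lit 5) (nat_lit 670) (nat_lit 5) (nat_lit 545) (nat_lit 510) (nat_lit 505)) (XT.lf (nat_lit 0) (nat_lit 2035073851) (nat_lit 1140) (nat_lit 1981026498) (nat_lit 1216) (nat_lit 2753950720) (nat_lit 654) (nat_lit 5) (nat_lit 669) (nat_lit 5) (nat_lit 670) (nat_lit 5) (nat_lit 546) (nat_lit 510) (nat_lit 504))))) (XT.nd (nat_lit 312) (nat_lit 4484) (nat_lit 0) (XT.nd (nat_lit 156) (nat_lit 1368) (nat_lit 0) (XT.nd (nat_lit 78) (nat_lit 1216) (nat_lit 0) (XT.lf (nat_lit 0) (nat_lit 415030136) (nat_lit 1216) (nat_lit 234038162)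 (nat_lit 76) (nat_lit 6148558587) (nat_lit 653) (nat_lit 5) (nat_lit 669) (nat_lit 5) (nat_lit 654) (nat_lit 5) (nat_lit 547) (nat_lit 510) (nat_lit 503)) (XT.lf (nat_lit 0) (nat_lit 3575838409) (nat_lit 1292) (nat_lit 2492248613) (nat_lit 76) (nat_lit 758002757) (nat_lit 637) (nat_lit 5) (nat_lit 654) (nat_lit 5) (nat_lit 638) (nat_lit 5) (nat_lit 548) (nat_lit 510) (nat_lit 502))) (XT.nd (nat_lit 78) (nat_lit 76) (nat_lit 0) (XT.lf (nat_lit 0) (nat_lit 2106782091) (nat_lit 1292) (nat_lit 4645803693) (nat_lit 1368) (nat_lit 103487668) (nat_lit 620) (nat_lit 5) (nat_lit 637) (nat_lit 5) (nat_lit 638) (nat_lit 5) (nat_lit 549) (nat_lit 510) (nat_lit 501)) (XT.lf (nat_lit 0) (nat_lit 3015968912) (nat_lit 1368) (nat_lit 133231789) (nat_lit 76) (nat_lit 3738048573) (nat_lit 619) (nat_lit 5) (nat_lit 637) (nat_lit 5) (nat_lit 620) (nat_lit 5) (nat_lit 550) (nat_lit 510) (nat_lit 500)))) (XT.nd (nat_lit 156) (nat_lit 1596) (nat_lit 0) (XT.nd (nat_lit 78) (nat_lit 1520) (nat_lit 0) (XT.lf (nat_lit 0) (nat_lit 4577431155) (nat_lit 1368) (nat_lit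 1583680615) (nat_lit 1444) (nat_lit 758635138) (nat_lit 601) (nat_lit 5) (nat_lit 619) (nat_lit 5) (nat_lit 620) (nat_lit 5) (nat_lit 551) (nat_lit 510) (nat_lit 499)) (XT.lf (nat_lit 0) (nat_lit 2336768639) (nat_lit 1520) (nat_lit 4564567581) (nat_lit 76) (nat_lit 52206023) (nat_lit 581) (nat_lit 5) (nat_lit 601) (nat_lit 5) (nat_lit 582) (nat_lit 5) (nat_lit 552) (nat_lit 510) (nat_lit 498))) (XT.nd (nat_lit 78) (nat_lit 76) (nat_lit 0) (XT.lf (nat_lit 0) (nat_lit 187286242) (nat_lit 1520) (nat_lit 5260547505) (nat_lit 1596) (nat_lit 1540806530) (nat_lit 561) (nat_lit 5) (nat_lit 581) (nat_lit 5) (nat_lit 582) (nat_lit 5) (nat_lit 553) (nat_lit 510) (nat_lit 497)) (XT.lf (nat_lit 0) (nat_lit 1543397833) (nat_lit 1596) (nat_lit 1997302379) (nat_lit 76) (nat_lit 3484184654) (nat_lit 560) (nat_lit 5) (nat_lit 581) (nat_lit 5) (nat_lit 561) (nat_lit 5) (nat_lit 554) (nat_lit 510) (nat_lit 496)))))) (XT.nd (nat_lit 546) (nat_lit 5396) (nat_lit 0) (XT.nd (nat_lit 234) (nat_lit 4788) (nat_lit 0) (XT.nd (nat_lit 78) (nat_lit 1748) (nat_lit 0)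 (XT.lf (nat_lit 0) (nat_lit 2872499421) (nat_lit 1596) (nat_lit 1752888831) (nat_lit 1672) (nat_lit 2437132736) (nat_lit 539) (nat_lit 5) (nat_lit 560) (nat_lit 5) (nat_lit 561) (nat_lit 5) (nat_lit 555) (nat_lit 510) (nat_lit 495)) (XT.nd (nat_lit 78) (nat_lit 0) (nat_lit 0) (XT.lf (nat_lit 0) (nat_lit 616590915) (nat_lit 1748) (nat_lit 6389514986) (nat_lit 76) (nat_lit 95577094) (nat_lit 516) (nat_lit 5) (nat_lit 539) (nat_lit 5) (nat_lit 517) (nat_lit 5) (nat_lit 556) (nat_lit 510) (nat_lit 494)) (XT.lf (nat_lit 0) (nat_lit 3678043000) (nat_lit 1748) (nat_lit 1458897773) (nat_lit 76) (nat_lit 2004784250) (nat_lit 516) (nat_lit 5) (nat_lit 539) (nat_lit 5) (nat_lit 517) (nat_lit 5) (nat_lit 557) (nat_lit 510) (nat_lit 493)))) (XT.nd (nat_lit 156) (nat_lit 1140) (nat_lit 0) (XT.nd (nat_lit 78) (nat_lit 1900) (nat_lit 0) (XT.lf (nat_lit 0) (nat_lit 3559072993) (nat_lit 1748) (nat_lit 3205292987) (nat_lit 1824) (nat_lit 418933699) (nat_lit 493) (nat_lit 5) (nat_lit 516) (nat_lit 5) (nat_lit 517) (nat_lit 5) (nat_lit 558) (nat_lit 510) (nat_lit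 492)) (XT.lf (nat_lit 0) (nat_lit 1414364884) (nat_lit 1824) (nat_lit 1197079090) (nat_lit 1900) (nat_lit 4614717997) (nat_lit 468) (nat_lit 5) (nat_lit 492) (nat_lit 5) (nat_lit 493) (nat_lit 5) (nat_lit 559) (nat_lit 510) (nat_lit 491))) (XT.nd (nat_lit 78) (nat_lit 1140) (nat_lit 0) (XT.lf (nat_lit 0) (nat_lit 5668550867) (nat_lit 1900) (nat_lit 734135351) (nat_lit 76) (nat_lit 867709639) (nat_lit 468) (nat_lit 5) (nat_lit 493) (nat_lit 5) (nat_lit 469) (nat_lit 5) (nat_lit 560) (nat_lit 510) (nat_lit 490)) (XT.lf (nat_lit 0) (nat_lit 1431448047) (nat_lit 1140) (nat_lit 2887968990) (nat_lit 76) (nat_lit 2996321347) (nat_lit 453) (nat_lit 5) (nat_lit 468) (nat_lit 5) (nat_lit 454) (nat_lit 5) (nat_lit 561) (nat_lit 510) (nat_lit 489))))) (XT.nd (nat_lit 312) (nat_lit 2660) (nat_lit 0) (XT.nd (nat_lit 156) (nat_lit 836) (nat_lit 0) (XT.nd (nat_lit 78) (nat_lit 988) (nat_lit 0) (XT.lf (nat_lit 0) (nat_lit 2302176074) (nat_lit 912) (nat_lit 2164937410) (nat_lit 988) (nat_lit 2895403512) (nat_lit 441) (nat_lit 5) (nat_lit 453) (nat_lit 5)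 (nat_lit 454) (nat_lit 5) (nat_lit 562) (nat_lit 510) (nat_lit 488)) (XT.lf (nat_lit 0) (nat_lit 115778981) (nat_lit 988) (nat_lit 7243487200) (nat_lit 76) (nat_lit 51658484) (nat_lit 428) (nat_lit 5) (nat_lit 441) (nat_lit 5) (nat_lit 429) (nat_lit 5) (nat_lit 563) (nat_lit 510) (nat_lit 487))) (XT.nd (nat_lit 78) (nat_lit 836) (nat_lit 0) (XT.lf (nat_lit 0) (nat_lit 3141272400) (nat_lit 988) (nat_lit 1984427326) (nat_lit 76) (nat_lit 2334364721) (nat_lit 428) (nat_lit 5) (nat_lit 441) (nat_lit 5) (nat_lit 429) (nat_lit 5) (nat_lit 564) (nat_lit 510) (nat_lit 486)) (XT.lf (nat_lit 0) (nat_lit 3365686119) (nat_lit 836) (nat_lit 2828834696) (nat_lit 912) (nat_lit 1316325099) (nat_lit 417) (nat_lit 5) (nat_lit 428) (nat_lit 5) (nat_lit 429) (nat_lit 5) (nat_lit 565) (nat_lit 510) (nat_lit 485)))) (XT.nd (nat_lit 156) (nat_lit 1748) (nat_lit 0) (XT.nd (nat_lit 78) (nat_lit 0) (nat_lit 0) (XT.lf (nat_lit 0) (nat_lit 1233465328) (nat_lit 836) (nat_lit 456964516) (nat_lit 912) (nat_lit 5872647259) (nat_lit 405) (nat_lit 5) (nat_lit 416) (nat_lit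 5) (nat_lit 417) (nat_lit 5) (nat_lit 566) (nat_lit 510) (nat_lit 484)) (XT.lf (nat_lit 0) (nat_lit 4726835098) (nat_lit 912) (nat_lit 920857689) (nat_lit 76) (nat_lit 1968746867) (nat_lit 405) (nat_lit 5) (nat_lit 417) (nat_lit 5) (nat_lit 406) (nat_lit 5) (nat_lit 567) (nat_lit 510) (nat_lit 483))) (XT.nd (nat_lit 78) (nat_lit 836) (nat_lit 0) (XT.lf (nat_lit 0) (nat_lit 131252885) (nat_lit 912) (nat_lit 3076926592) (nat_lit 76) (nat_lit 4463070297) (nat_lit 393) (nat_lit 5) (nat_lit 405) (nat_lit 5) (nat_lit 394) (nat_lit 5) (nat_lit 568) (nat_lit 510) (nat_lit 482)) (XT.lf (nat_lit 0) (nat_lit 2459918798) (nat_lit 836) (nat_lit 683887959) (nat_lit 912) (nat_lit 4583571281) (nat_lit 382) (nat_lit 5) (nat_lit 393) (nat_lit 5) (nat_lit 394) (nat_lit 5) (nat_lit 569) (nat_lit 510) (nat_lit 481))))))))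
noncomputable def xc21 : XT := (XT.nd (nat_lit 2340) (nat_lit 2584) (nat_lit 0) (XT.nd (nat_lit 1170) (nat_lit 5928) (nat_lit 0) (XT.nd (nat_lit 546) (nat_lit 4028) (nat_lit 0) (XT.nd (nat_lit 234) (nat_lit 2280) (nat_lit 0) (XT.nd (nat_lit 78) (nat_lit 836) (nat_lit 0) (XT.lf (nat_lit 0) (nat_lit 297448072) (nat_lit 760) (nat_lit 5902505504) (nat_lit 836) (nat_lit 1585011752) (nat_lit 372) (nat_lit 5) (nat_lit 382) (nat_lit 5) (nat_lit 383) (nat_lit 5) (nat_lit 570) (nat_lit 510) (nat_lit 480)) (XT.nd (nat_lit 78) (nat_lit 760) (nat_lit 0) (XT.lf (nat_lit 0) (nat_lit 1442944199) (nat_lit 836) (nat_lit 1871602744) (nat_lit 76) (nat_lit 4529194241) (nat_lit 371) (nat_lit 5) (nat_lit 382) (nat_lit 5) (nat_lit 372) (nat_lit 5) (nat_lit 571) (nat_lit 510) (nat_lit 479)) (XT.lf (nat_lit 0) (nat_lit 3838306269) (nat_lit 760) (nat_lit 646517548) (nat_lit 836) (nat_lit 3419170556) (nat_lit 361) (nat_lit 5) (nat_lit 371) (nat_lit 5) (nat_lit 372) (nat_lit 5) (nat_lit 572) (nat_lit 510) (nat_lit 478)))) (XT.nd (nat_lit 156) (nat_lit 1520) (nat_lit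 0) (XT.nd (nat_lit 78) (nat_lit 76) (nat_lit 0) (XT.lf (nat_lit 0) (nat_lit 1672228994) (nat_lit 684) (nat_lit 5902490410) (nat_lit 760) (nat_lit 390992702) (nat_lit 352) (nat_lit 5) (nat_lit 361) (nat_lit 5) (nat_lit 362) (nat_lit 5) (nat_lit 573) (nat_lit 510) (nat_lit 477)) (XT.lf (nat_lit 0) (nat_lit 2644588282) (nat_lit 760) (nat_lit 529085218) (nat_lit 76) (nat_lit 4854998895) (nat_lit 351) (nat_lit 5) (nat_lit 361) (nat_lit 5) (nat_lit 352) (nat_lit 5) (nat_lit 574) (nat_lit 510) (nat_lit 476))) (XT.nd (nat_lit 78) (nat_lit 760) (nat_lit 0) (XT.lf (nat_lit 0) (nat_lit 5360466964) (nat_lit 760) (nat_lit 361434065) (nat_lit 836) (nat_lit 2371216934) (nat_lit 341) (nat_lit 5) (nat_lit 351) (nat_lit 5) (nat_lit 352) (nat_lit 5) (nat_lit 575) (nat_lit 510) (nat_lit 475)) (XT.lf (nat_lit 0) (nat_lit 685132947) (nat_lit 760) (nat_lit 4980231929) (nat_lit 76) (nat_lit 2493550563) (nat_lit 331) (nat_lit 5) (nat_lit 341) (nat_lit 5) (nat_lit 332) (nat_lit 5) (nat_lit 576) (nat_lit 510) (nat_lit 474))))) (XT.nd (nat_lit 312) (nat_lit 1976) (nat_lit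 0) (XT.nd (nat_lit 156) (nat_lit 1368) (nat_lit 0) (XT.nd (nat_lit 78) (nat_lit 0) (nat_lit 0) (XT.lf (nat_lit 0) (nat_lit 955313367) (nat_lit 684) (nat_lit 2794843154) (nat_lit 760) (nat_lit 4475975630) (nat_lit 322) (nat_lit 5) (nat_lit 331) (nat_lit 5) (nat_lit 332) (nat_lit 5) (nat_lit 577) (nat_lit 510) (nat_lit 473)) (XT.lf (nat_lit 0) (nat_lit 6863685920) (nat_lit 760) (nat_lit 1277144063) (nat_lit 76) (nat_lit 154121764) (nat_lit 322) (nat_lit 5) (nat_lit 332) (nat_lit 5) (nat_lit 323) (nat_lit 5) (nat_lit 578) (nat_lit 510) (nat_lit 472))) (XT.nd (nat_lit 78) (nat_lit 684) (nat_lit 0) (XT.lf (nat_lit 0) (nat_lit 1655850920) (nat_lit 684) (nat_lit 3552775380) (nat_lit 76) (nat_lit 3156237129) (nat_lit 313) (nat_lit 5) (nat_lit 322) (nat_lit 5) (nat_lit 314) (nat_lit 5) (nat_lit 579) (nat_lit 510) (nat_lit 471)) (XT.lf (nat_lit 0) (nat_lit 2570403699) (nat_lit 684) (nat_lit 2194332200) (nat_lit 760) (nat_lit 3671666923) (nat_lit 304) (nat_lit 5) (nat_lit 313) (nat_lit 5) (nat_lit 314) (nat_lit 5) (nat_lit 580) (nat_lit 510) (nat_lit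 470)))) (XT.nd (nat_lit 156) (nat_lit 1292) (nat_lit 0) (XT.nd (nat_lit 78) (nat_lit 76) (nat_lit 0) (XT.lf (nat_lit 0) (nat_lit 294660539) (nat_lit 608) (nat_lit 7627072317) (nat_lit 684) (nat_lit 587923913) (nat_lit 296) (nat_lit 5) (nat_lit 304) (nat_lit 5) (nat_lit 305) (nat_lit 5) (nat_lit 581) (nat_lit 510) (nat_lit 469)) (XT.lf (nat_lit 0) (nat_lit 2532631875) (nat_lit 684) (nat_lit 2015798455) (nat_lit 76) (nat_lit 4035442127) (nat_lit 295) (nat_lit 5) (nat_lit 304) (nat_lit 5) (nat_lit 296) (nat_lit 5) (nat_lit 582) (nat_lit 510) (nat_lit 468))) (XT.nd (nat_lit 78) (nat_lit 684) (nat_lit 0) (XT.lf (nat_lit 0) (nat_lit 4302207237) (nat_lit 608) (nat_lit 1388874365) (nat_lit 684) (nat_lit 2968748342) (nat_lit 287) (nat_lit 5) (nat_lit 295) (nat_lit 5) (nat_lit 296) (nat_lit 5) (nat_lit 583) (nat_lit 510) (nat_lit 467)) (XT.lf (nat_lit 0) (nat_lit 167346850) (nat_lit 684) (nat_lit 6745646628) (nat_lit 76) (nat_lit 1824407479) (nat_lit 278) (nat_lit 5) (nat_lit 287) (nat_lit 5) (nat_lit 279) (nat_lit 5) (nat_lit 584) (nat_lit 510) (nat_lit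 466)))))) (XT.nd (nat_lit 546) (nat_lit 3040) (nat_lit 0) (XT.nd (nat_lit 234) (nat_lit 1672) (nat_lit 0) (XT.nd (nat_lit 78) (nat_lit 1216) (nat_lit 0) (XT.lf (nat_lit 0) (nat_lit 3321113714) (nat_lit 684) (nat_lit 376132123) (nat_lit 76) (nat_lit 5118993238) (nat_lit 278) (nat_lit 5) (nat_lit 287) (nat_lit 5) (nat_lit 279) (nat_lit 5) (nat_lit 585) (nat_lit 510) (nat_lit 465)) (XT.nd (nat_lit 78) (nat_lit 608) (nat_lit 0) (XT.lf (nat_lit 0) (nat_lit 6144169146) (nat_lit 608) (nat_lit 390571643) (nat_lit 684) (nat_lit 2361979605) (nat_lit 270) (nat_lit 5) (nat_lit 278) (nat_lit 5) (nat_lit 279) (nat_lit 5) (nat_lit 586) (nat_lit 510) (nat_lit 464)) (XT.lf (nat_lit 0) (nat_lit 826730355) (nat_lit 608) (nat_lit 5190153943) (nat_lit 76) (nat_lit 2961744074) (nat_lit 262) (nat_lit 5) (nat_lit 270) (nat_lit 5) (nat_lit 263) (nat_lit 5) (nat_lit 587) (nat_lit 510) (nat_lit 463)))) (XT.nd (nat_lit 156) (nat_lit 1140) (nat_lit 0) (XT.nd (nat_lit 78) (nat_lit 0) (nat_lit 0) (XT.lf (nat_lit 0) (nat_lit 1377785447) (nat_lit 532) (nat_lit 2657418870)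 (nat_lit 608) (nat_lit 5026907619) (nat_lit 255) (nat_lit 5) (nat_lit 262) (nat_lit 5) (nat_lit 263) (nat_lit 5) (nat_lit 588) (nat_lit 510) (nat_lit 462)) (XT.lf (nat_lit 0) (nat_lit 7305725327) (nat_lit 608) (nat_lit 1062480660) (nat_lit 76) (nat_lit 779103604) (nat_lit 255) (nat_lit 5) (nat_lit 263) (nat_lit 5) (nat_lit 256) (nat_lit 5) (nat_lit 589) (nat_lit 510) (nat_lit 461))) (XT.nd (nat_lit 78) (nat_lit 532) (nat_lit 0) (XT.lf (nat_lit 0) (nat_lit 1402277223) (nat_lit 608) (nat_lit 3551306232) (nat_lit 76) (nat_lit 4280181068) (nat_lit 247) (nat_lit 5) (nat_lit 255) (nat_lit 5) (nat_lit 248) (nat_lit 5) (nat_lit 590) (nat_lit 510) (nat_lit 460)) (XT.lf (nat_lit 0) (nat_lit 3227823564) (nat_lit 532) (nat_lit 1445512099) (nat_lit 608) (nat_lit 4648631722) (nat_lit 240) (nat_lit 5) (nat_lit 247) (nat_lit 5) (nat_lit 248) (nat_lit 5) (nat_lit 591) (nat_lit 510) (nat_lit 459))))) (XT.nd (nat_lit 312) (nat_lit 1520) (nat_lit 0) (XT.nd (nat_lit 156) (nat_lit 988) (nat_lit 0) (XT.nd (nat_lit 78) (nat_lit 76) (nat_lit 0) (XT.lf (nat_lit 0)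 (nat_lit 717122023) (nat_lit 456) (nat_lit 7294341155) (nat_lit 532) (nat_lit 1400439991) (nat_lit 234) (nat_lit 5) (nat_lit 240) (nat_lit 5) (nat_lit 241) (nat_lit 5) (nat_lit 592) (nat_lit 510) (nat_lit 458)) (XT.lf (nat_lit 0) (nat_lit 1897685130) (nat_lit 532) (nat_lit 1835520855) (nat_lit 76) (nat_lit 5769983959) (nat_lit 233) (nat_lit 5) (nat_lit 240) (nat_lit 5) (nat_lit 234) (nat_lit 5) (nat_lit 593) (nat_lit 510) (nat_lit 457))) (XT.nd (nat_lit 78) (nat_lit 456) (nat_lit 0) (XT.lf (nat_lit 0) (nat_lit 5162832643) (nat_lit 532) (nat_lit 73840494) (nat_lit 608) (nat_lit 4359572851) (nat_lit 226) (nat_lit 5) (nat_lit 233) (nat_lit 5) (nat_lit 234) (nat_lit 5) (nat_lit 594) (nat_lit 510) (nat_lit 456)) (XT.lf (nat_lit 0) (nat_lit 2588388358) (nat_lit 456) (nat_lit 6067435073) (nat_lit 532) (nat_lit 1035073755) (nat_lit 220) (nat_lit 5) (nat_lit 226) (nat_lit 5) (nat_lit 227) (nat_lit 5) (nat_lit 595) (nat_lit 510) (nat_lit 455)))) (XT.nd (nat_lit 156) (nat_lit 988) (nat_lit 0) (XT.nd (nat_lit 78) (nat_lit 456) (nat_lit 0) (XT.lf (nat_lit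 0) (nat_lit 2316025346) (nat_lit 532) (nat_lit 49097902) (nat_lit 76) (nat_lit 7422193691) (nat_lit 219) (nat_lit 5) (nat_lit 226) (nat_lit 5) (nat_lit 220) (nat_lit 5) (nat_lit 596) (nat_lit 510) (nat_lit 454)) (XT.lf (nat_lit 0) (nat_lit 5737645814) (nat_lit 532) (nat_lit 2717998445) (nat_lit 76) (nat_lit 1429538396) (nat_lit 213) (nat_lit 5) (nat_lit 220) (nat_lit 5) (nat_lit 214) (nat_lit 5) (nat_lit 597) (nat_lit 510) (nat_lit 453))) (XT.nd (nat_lit 78) (nat_lit 532) (nat_lit 0) (XT.lf (nat_lit 0) (nat_lit 4531057658) (nat_lit 456) (nat_lit 4703684768) (nat_lit 532) (nat_lit 750123941) (nat_lit 207) (nat_lit 5) (nat_lit 213) (nat_lit 5) (nat_lit 214) (nat_lit 5) (nat_lit 598) (nat_lit 510) (nat_lit 452)) (XT.lf (nat_lit 0) (nat_lit 1825651701) (nat_lit 456) (nat_lit 845955486) (nat_lit 532) (nat_lit 7414745862) (nat_lit 200) (nat_lit 5) (nat_lit 206) (nat_lit 5) (nat_lit 207) (nat_lit 5) (nat_lit 599) (nat_lit 510) (nat_lit 451))))))) (XT.nd (nat_lit 76830) (nat_lit 0) (nat_lit 24776) (XT.nd (nat_lit 546) (nat_lit 456) (nat_lit 0) (XT.nd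 (nat_lit 234) (nat_lit 1216) (nat_lit 0) (XT.nd (nat_lit 78) (nat_lit 912) (nat_lit 0) (XT.lf (nat_lit 0) (nat_lit 6170670403) (nat_lit 532) (nat_lit 946345625) (nat_lit 76) (nat_lit 3072376905) (nat_lit 200) (nat_lit 5) (nat_lit 207) (nat_lit 5) (nat_lit 201) (nat_lit 5) (nat_lit 600) (nat_lit 510) (nat_lit 450)) (XT.nd (nat_lit 78) (nat_lit 532) (nat_lit 0) (XT.lf (nat_lit 0) (nat_lit 6538992368) (nat_lit 380) (nat_lit 3211561288) (nat_lit 456) (nat_lit 543724619) (nat_lit 195) (nat_lit 5) (nat_lit 200) (nat_lit 5) (nat_lit 201) (nat_lit 5) (nat_lit 601) (nat_lit 510) (nat_lit 449)) (XT.lf (nat_lit 0) (nat_lit 2960354894) (nat_lit 532) (nat_lit 6646298255) (nat_lit 76) (nat_lit 794241151) (nat_lit 188) (nat_lit 5) (nat_lit 195) (nat_lit 5) (nat_lit 189) (nat_lit 5) (nat_lit 602) (nat_lit 510) (nat_lit 448)))) (XT.nd (nat_lit 156) (nat_lit 836) (nat_lit 0) (XT.nd (nat_lit 78) (nat_lit 0) (nat_lit 0) (XT.lf (nat_lit 0) (nat_lit 887198373) (nat_lit 380) (nat_lit 5655595883) (nat_lit 456) (nat_lit 3966466687) (nat_lit 183) (nat_lit 5) (nat_lit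 188) (nat_lit 5) (nat_lit 189) (nat_lit 5) (nat_lit 603) (nat_lit 510) (nat_lit 447)) (XT.lf (nat_lit 0) (nat_lit 8605982693) (nat_lit 380) (nat_lit 1599018318) (nat_lit 456) (nat_lit 414632865) (nat_lit 183) (nat_lit 5) (nat_lit 188) (nat_lit 5) (nat_lit 189) (nat_lit 5) (nat_lit 604) (nat_lit 510) (nat_lit 446))) (XT.nd (nat_lit 78) (nat_lit 380) (nat_lit 0) (XT.lf (nat_lit 0) (nat_lit 3184212814) (nat_lit 456) (nat_lit 5001918723) (nat_lit 76) (nat_lit 2545306369) (nat_lit 177) (nat_lit 5) (nat_lit 183) (nat_lit 5) (nat_lit 178) (nat_lit 5) (nat_lit 605) (nat_lit 510) (nat_lit 445)) (XT.lf (nat_lit 0) (nat_lit 2777546352) (nat_lit 380) (nat_lit 4078392953) (nat_lit 456) (nat_lit 3989356033) (nat_lit 172) (nat_lit 5) (nat_lit 177) (nat_lit 5) (nat_lit 178) (nat_lit 5) (nat_lit 606) (nat_lit 510) (nat_lit 444))))) (XT.nd (nat_lit 75972) (nat_lit 0) (nat_lit 39368) (XT.nd (nat_lit 75816) (nat_lit 0) (nat_lit 42256) (XT.nd (nat_lit 78) (nat_lit 456) (nat_lit 0) (XT.lf (nat_lit 0) (nat_lit 10600058090) (nat_lit 456) (nat_lit 236621248) (nat_lit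 76) (nat_lit 124772651) (nat_lit 172) (nat_lit 5) (nat_lit 178) (nat_lit 5) (nat_lit 173) (nat_lit 5) (nat_lit 607) (nat_lit 510) (nat_lit 443)) (XT.lf (nat_lit 0) (nat_lit 3338227398) (nat_lit 456) (nat_lit 3329228976) (nat_lit 76) (nat_lit 4411185117) (nat_lit 166) (nat_lit 5) (nat_lit 172) (nat_lit 5) (nat_lit 167) (nat_lit 5) (nat_lit 608) (nat_lit 510) (nat_lit 442))) (XT.nd (nat_lit 78) (nat_lit 0) (nat_lit 0) (XT.lf (nat_lit 0) (nat_lit 204702929) (nat_lit 836) (nat_lit 2888916850) (nat_lit 0) (nat_lit 204702929) (nat_lit 722) (nat_lit 5) (nat_lit 733) (nat_lit 4) (nat_lit 722) (nat_lit 4) (nat_lit 538) (nat_lit 511) (nat_lit 511)) (XT.lf (nat_lit 0) (nat_lit 3676732793) (nat_lit 836) (nat_lit 1639872579) (nat_lit 0) (nat_lit 1297675327) (nat_lit 722) (nat_lit 5) (nat_lit 733) (nat_lit 4) (nat_lit 722) (nat_lit 4) (nat_lit 539) (nat_lit 511) (nat_lit 510)))) (XT.nd (nat_lit 156) (nat_lit 1064) (nat_lit 0) (XT.nd (nat_lit 78) (nat_lit 912) (nat_lit 0) (XT.lf (nat_lit 0) (nat_lit 314338570) (nat_lit 912) (nat_lit 4076502834) (nat_lit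 76) (nat_lit 2242542800) (nat_lit 710) (nat_lit 5) (nat_lit 722) (nat_lit 5) (nat_lit 711) (nat_lit 4) (nat_lit 540) (nat_lit 511) (nat_lit 509)) (XT.lf (nat_lit 0) (nat_lit 133333695) (nat_lit 912) (nat_lit 3397100070) (nat_lit 988) (nat_lit 3123284863) (nat_lit 698) (nat_lit 5) (nat_lit 710) (nat_lit 5) (nat_lit 711) (nat_lit 4) (nat_lit 541) (nat_lit 511) (nat_lit 508))) (XT.nd (nat_lit 78) (nat_lit 988) (nat_lit 0) (XT.lf (nat_lit 0) (nat_lit 89256731) (nat_lit 988) (nat_lit 2248998993) (nat_lit 76) (nat_lit 4337100226) (nat_lit 697) (nat_lit 5) (nat_lit 710) (nat_lit 5) (nat_lit 698) (nat_lit 5) (nat_lit 542) (nat_lit 511) (nat_lit 507)) (XT.lf (nat_lit 0) (nat_lit 2058595511) (nat_lit 988) (nat_lit 1207584548) (nat_lit 1064) (nat_lit 3432000895) (nat_lit 684) (nat_lit 5) (nat_lit 697) (nat_lit 5) (nat_lit 698) (nat_lit 5) (nat_lit 543) (nat_lit 511) (nat_lit 506)))))) (XT.nd (nat_lit 546) (nat_lit 9652) (nat_lit 0) (XT.nd (nat_lit 234) (nat_lit 2660) (nat_lit 0) (XT.nd (nat_lit 78) (nat_lit 2280) (nat_lit 0) (XT.lf (nat_lit 0) (nat_lit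 6427659034) (nat_lit 988) (nat_lit 23664463) (nat_lit 1064) (nat_lit 271252063) (nat_lit 684) (nat_lit 5) (nat_lit 697) (nat_lit 5) (nat_lit 698) (nat_lit 5) (nat_lit 544) (nat_lit 511) (nat_lit 505)) (XT.nd (nat_lit 78) (nat_lit 1140) (nat_lit 0) (XT.lf (nat_lit 0) (nat_lit 2879304535) (nat_lit 1140) (nat_lit 2639575457) (nat_lit 76) (nat_lit 1228894756) (nat_lit 669) (nat_lit 5) (nat_lit 684) (nat_lit 5) (nat_lit 670) (nat_lit 5) (nat_lit 545) (nat_lit 511) (nat_lit 504)) (XT.lf (nat_lit 0) (nat_lit 1795396699) (nat_lit 1140) (nat_lit 4239256835) (nat_lit 1216) (nat_lit 739886607) (nat_lit 654) (nat_lit 5) (nat_lit 669) (nat_lit 5) (nat_lit 670) (nat_lit 5) (nat_lit 546) (nat_lit 511) (nat_lit 503)))) (XT.nd (nat_lit 156) (nat_lit 1368) (nat_lit 0) (XT.nd (nat_lit 78) (nat_lit 1216) (nat_lit 0) (XT.lf (nat_lit 0) (nat_lit 2369080759) (nat_lit 1216) (nat_lit 519330354) (nat_lit 76) (nat_lit 3914118302) (nat_lit 653) (nat_lit 5) (nat_lit 669) (nat_lit 5) (nat_lit 654) (nat_lit 5) (nat_lit 547) (nat_lit 511) (nat_lit 502)) (XT.lf (nat_lit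 0) (nat_lit 4021979395) (nat_lit 1216) (nat_lit 1467925058) (nat_lit 1292) (nat_lit 1341890509) (nat_lit 637) (nat_lit 5) (nat_lit 653) (nat_lit 5) (nat_lit 654) (nat_lit 5) (nat_lit 548) (nat_lit 511) (nat_lit 501))) (XT.nd (nat_lit 78) (nat_lit 0) (nat_lit 0) (XT.lf (nat_lit 0) (nat_lit 1736727064) (nat_lit 1368) (nat_lit 5107815096) (nat_lit 76) (nat_lit 17894450) (nat_lit 619) (nat_lit 5) (nat_lit 637) (nat_lit 5) (nat_lit 620) (nat_lit 5) (nat_lit 549) (nat_lit 511) (nat_lit 500)) (XT.lf (nat_lit 0) (nat_lit 4822629272) (nat_lit 1368) (nat_lit 520678079) (nat_lit 76) (nat_lit 1550938374) (nat_lit 619) (nat_lit 5) (nat_lit 637) (nat_lit 5) (nat_lit 620) (nat_lit 5) (nat_lit 550) (nat_lit 511) (nat_lit 499))))) (XT.nd (nat_lit 312) (nat_lit 5168) (nat_lit 0) (XT.nd (nat_lit 156) (nat_lit 1596) (nat_lit 0) (XT.nd (nat_lit 78) (nat_lit 1444) (nat_lit 0) (XT.lf (nat_lit 0) (nat_lit 992848658) (nat_lit 1444) (nat_lit 2777192811) (nat_lit 76) (nat_lit 3157259926) (nat_lit 600) (nat_lit 5) (nat_lit 619) (nat_lit 5) (nat_lit 601) (nat_lit 5)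 (nat_lit 551) (nat_lit 511) (nat_lit 498)) (XT.lf (nat_lit 0) (nat_lit 1915372864) (nat_lit 1444) (nat_lit 2128174986) (nat_lit 1520) (nat_lit 2918148098) (nat_lit 581) (nat_lit 5) (nat_lit 600) (nat_lit 5) (nat_lit 601) (nat_lit 5) (nat_lit 552) (nat_lit 511) (nat_lit 497))) (XT.nd (nat_lit 78) (nat_lit 1520) (nat_lit 0) (XT.lf (nat_lit 0) (nat_lit 112327348) (nat_lit 1520) (nat_lit 315017323) (nat_lit 76) (nat_lit 6570299779) (nat_lit 580) (nat_lit 5) (nat_lit 600) (nat_lit 5) (nat_lit 581) (nat_lit 5) (nat_lit 553) (nat_lit 511) (nat_lit 496)) (XT.lf (nat_lit 0) (nat_lit 3140801514) (nat_lit 1596) (nat_lit 2548667560) (nat_lit 76) (nat_lit 1344932809) (nat_lit 560) (nat_lit 5) (nat_lit 581) (nat_lit 5) (nat_lit 561) (nat_lit 5) (nat_lit 554) (nat_lit 511) (nat_lit 495)))) (XT.nd (nat_lit 156) (nat_lit 1824) (nat_lit 0) (XT.nd (nat_lit 78) (nat_lit 1748) (nat_lit 0) (XT.lf (nat_lit 0) (nat_lit 2285381168) (nat_lit 1596) (nat_lit 3903538579) (nat_lit 1672) (nat_lit 883798131) (nat_lit 539) (nat_lit 5) (nat_lit 560) (nat_lit 5) (nat_lit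 561) (nat_lit 5) (nat_lit 555) (nat_lit 511) (nat_lit 494)) (XT.lf (nat_lit 0) (nat_lit 68693887) (nat_lit 1672) (nat_lit 2046198080) (nat_lit 1748) (nat_lit 4997481771) (nat_lit 516) (nat_lit 5) (nat_lit 538) (nat_lit 5) (nat_lit 539) (nat_lit 5) (nat_lit 556) (nat_lit 511) (nat_lit 493))) (XT.nd (nat_lit 78) (nat_lit 1824) (nat_lit 0) (XT.lf (nat_lit 0) (nat_lit 5024083500) (nat_lit 1672) (nat_lit 110252490) (nat_lit 1748) (nat_lit 2018922226) (nat_lit 516) (nat_lit 5) (nat_lit 538) (nat_lit 5) (nat_lit 539) (nat_lit 5) (nat_lit 557) (nat_lit 511) (nat_lit 492)) (XT.lf (nat_lit 0) (nat_lit 977976492) (nat_lit 1824) (nat_lit 4349831578) (nat_lit 76) (nat_lit 1867581710) (nat_lit 492) (nat_lit 5) (nat_lit 516) (nat_lit 5) (nat_lit 493) (nat_lit 5) (nat_lit 558) (nat_lit 511) (nat_lit 491))))))))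
noncomputable def xc22 : XT := (XT.nd (nat_lit 2340) (nat_lit 7296) (nat_lit 0) (XT.nd (nat_lit 1170) (nat_lit 6764) (nat_lit 0) (XT.nd (nat_lit 546) (nat_lit 5016) (nat_lit 0) (XT.nd (nat_lit 234) (nat_lit 2736) (nat_lit 0) (XT.nd (nat_lit 78) (nat_lit 1140) (nat_lit 0) (XT.lf (nat_lit 0) (nat_lit 647667343) (nat_lit 1824) (nat_lit 3321546916) (nat_lit 1900) (nat_lit 3269658479) (nat_lit 468) (nat_lit 5) (nat_lit 492) (nat_lit 5) (nat_lit 493) (nat_lit 5) (nat_lit 559) (nat_lit 511) (nat_lit 490)) (XT.nd (nat_lit 78) (nat_lit 1140) (nat_lit 0) (XT.lf (nat_lit 0) (nat_lit 5747254775) (nat_lit 1824) (nat_lit 1245069619) (nat_lit 1900) (nat_lit 291464281) (nat_lit 468) (nat_lit 5) (nat_lit 492) (nat_lit 5) (nat_lit 493) (nat_lit 5) (nat_lit 560) (nat_lit 511) (nat_lit 489)) (XT.lf (nat_lit 0) (nat_lit 2683140647) (nat_lit 1140) (nat_lit 3743805060) (nat_lit 76) (nat_lit 902847412) (nat_lit 453) (nat_lit 5) (nat_lit 468) (nat_lit 5) (nat_lit 454) (nat_lit 5) (nat_lit 561) (nat_lit 511) (nat_lit 488)))) (XT.nd (nat_lit 156) (nat_lit 1748) (nat_lit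 0) (XT.nd (nat_lit 78) (nat_lit 76) (nat_lit 0) (XT.lf (nat_lit 0) (nat_lit 1406269848) (nat_lit 912) (nat_lit 4279165973) (nat_lit 988) (nat_lit 1691805308) (nat_lit 441) (nat_lit 5) (nat_lit 453) (nat_lit 5) (nat_lit 454) (nat_lit 5) (nat_lit 562) (nat_lit 511) (nat_lit 487)) (XT.lf (nat_lit 0) (nat_lit 1274784674) (nat_lit 988) (nat_lit 781360936) (nat_lit 76) (nat_lit 5369924953) (nat_lit 440) (nat_lit 5) (nat_lit 453) (nat_lit 5) (nat_lit 441) (nat_lit 5) (nat_lit 563) (nat_lit 511) (nat_lit 486))) (XT.nd (nat_lit 78) (nat_lit 836) (nat_lit 0) (XT.lf (nat_lit 0) (nat_lit 4254720420) (nat_lit 988) (nat_lit 2974320549) (nat_lit 76) (nat_lit 247082408) (nat_lit 428) (nat_lit 5) (nat_lit 441) (nat_lit 5) (nat_lit 429) (nat_lit 5) (nat_lit 564) (nat_lit 511) (nat_lit 485)) (XT.lf (nat_lit 0) (nat_lit 2333981374) (nat_lit 836) (nat_lit 4940785777) (nat_lit 912) (nat_lit 252803568) (nat_lit 417) (nat_lit 5) (nat_lit 428) (nat_lit 5) (nat_lit 429) (nat_lit 5) (nat_lit 565) (nat_lit 511) (nat_lit 484))))) (XT.nd (nat_lit 312) (nat_lit 2356)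 (nat_lit 0) (XT.nd (nat_lit 156) (nat_lit 1748) (nat_lit 0) (XT.nd (nat_lit 78) (nat_lit 0) (nat_lit 0) (XT.lf (nat_lit 0) (nat_lit 135281513) (nat_lit 836) (nat_lit 2571250473) (nat_lit 912) (nat_lit 4873803011) (nat_lit 405) (nat_lit 5) (nat_lit 416) (nat_lit 5) (nat_lit 417) (nat_lit 5) (nat_lit 566) (nat_lit 511) (nat_lit 483)) (XT.lf (nat_lit 0) (nat_lit 5582350325) (nat_lit 836) (nat_lit 121626669) (nat_lit 912) (nat_lit 1930501493) (nat_lit 405) (nat_lit 5) (nat_lit 416) (nat_lit 5) (nat_lit 417) (nat_lit 5) (nat_lit 567) (nat_lit 511) (nat_lit 482))) (XT.nd (nat_lit 78) (nat_lit 836) (nat_lit 0) (XT.lf (nat_lit 0) (nat_lit 1043625863) (nat_lit 912) (nat_lit 4275729543) (nat_lit 76) (nat_lit 2370493350) (nat_lit 393) (nat_lit 5) (nat_lit 405) (nat_lit 5) (nat_lit 394) (nat_lit 5) (nat_lit 568) (nat_lit 511) (nat_lit 481)) (XT.lf (nat_lit 0) (nat_lit 1216452027) (nat_lit 836) (nat_lit 2806291810) (nat_lit 912) (nat_lit 3723903536) (nat_lit 382) (nat_lit 5) (nat_lit 393) (nat_lit 5) (nat_lit 394) (nat_lit 5) (nat_lit 569) (nat_lit 511)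 (nat_lit 480)))) (XT.nd (nat_lit 156) (nat_lit 1520) (nat_lit 0) (XT.nd (nat_lit 78) (nat_lit 836) (nat_lit 0) (XT.lf (nat_lit 0) (nat_lit 6819534528) (nat_lit 836) (nat_lit 220004924) (nat_lit 912) (nat_lit 765483839) (nat_lit 382) (nat_lit 5) (nat_lit 393) (nat_lit 5) (nat_lit 394) (nat_lit 5) (nat_lit 570) (nat_lit 511) (nat_lit 479)) (XT.lf (nat_lit 0) (nat_lit 2218841887) (nat_lit 836) (nat_lit 3220468996) (nat_lit 76) (nat_lit 2425041023) (nat_lit 371) (nat_lit 5) (nat_lit 382) (nat_lit 5) (nat_lit 372) (nat_lit 5) (nat_lit 571) (nat_lit 511) (nat_lit 478))) (XT.nd (nat_lit 78) (nat_lit 760) (nat_lit 0) (XT.lf (nat_lit 0) (nat_lit 2442908145) (nat_lit 760) (nat_lit 2784315141) (nat_lit 836) (nat_lit 2698053283) (nat_lit 361) (nat_lit 5) (nat_lit 371) (nat_lit 5) (nat_lit 372) (nat_lit 5) (nat_lit 572) (nat_lit 511) (nat_lit 477)) (XT.lf (nat_lit 0) (nat_lit 219648486) (nat_lit 684) (nat_lit 58748993) (nat_lit 760) (nat_lit 7709503356) (nat_lit 351) (nat_lit 5) (nat_lit 360) (nat_lit 5) (nat_lit 361) (nat_lit 5) (nat_lit 573) (nat_lit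 511) (nat_lit 476)))))) (XT.nd (nat_lit 546) (nat_lit 3192) (nat_lit 0) (XT.nd (nat_lit 234) (nat_lit 2052) (nat_lit 0) (XT.nd (nat_lit 78) (nat_lit 1520) (nat_lit 0) (XT.lf (nat_lit 0) (nat_lit 3284432916) (nat_lit 760) (nat_lit 2034649127) (nat_lit 76) (nat_lit 2732218083) (nat_lit 351) (nat_lit 5) (nat_lit 361) (nat_lit 5) (nat_lit 352) (nat_lit 5) (nat_lit 574) (nat_lit 511) (nat_lit 475)) (XT.nd (nat_lit 78) (nat_lit 760) (nat_lit 0) (XT.lf (nat_lit 0) (nat_lit 3806445781) (nat_lit 760) (nat_lit 2521645272) (nat_lit 836) (nat_lit 1788329129) (nat_lit 341) (nat_lit 5) (nat_lit 351) (nat_lit 5) (nat_lit 352) (nat_lit 5) (nat_lit 575) (nat_lit 511) (nat_lit 474)) (XT.lf (nat_lit 0) (nat_lit 1212247527) (nat_lit 760) (nat_lit 6620737767) (nat_lit 76) (nat_lit 350120585) (nat_lit 331) (nat_lit 5) (nat_lit 341) (nat_lit 5) (nat_lit 332) (nat_lit 5) (nat_lit 576) (nat_lit 511) (nat_lit 473)))) (XT.nd (nat_lit 156) (nat_lit 1368) (nat_lit 0) (XT.nd (nat_lit 78) (nat_lit 684) (nat_lit 0) (XT.lf (nat_lit 0) (nat_lit 4247875268) (nat_lit 760)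 (nat_lit 726173174) (nat_lit 76) (nat_lit 3276863382) (nat_lit 331) (nat_lit 5) (nat_lit 341) (nat_lit 5) (nat_lit 332) (nat_lit 5) (nat_lit 577) (nat_lit 511) (nat_lit 472)) (XT.lf (nat_lit 0) (nat_lit 5299440506) (nat_lit 684) (nat_lit 2033250699) (nat_lit 760) (nat_lit 987615772) (nat_lit 322) (nat_lit 5) (nat_lit 331) (nat_lit 5) (nat_lit 332) (nat_lit 5) (nat_lit 578) (nat_lit 511) (nat_lit 471))) (XT.nd (nat_lit 78) (nat_lit 684) (nat_lit 0) (XT.lf (nat_lit 0) (nat_lit 2046090214) (nat_lit 684) (nat_lit 5363664419) (nat_lit 76) (nat_lit 981359499) (nat_lit 313) (nat_lit 5) (nat_lit 322) (nat_lit 5) (nat_lit 314) (nat_lit 5) (nat_lit 579) (nat_lit 511) (nat_lit 470)) (XT.lf (nat_lit 0) (nat_lit 706832883) (nat_lit 684) (nat_lit 4413647509) (nat_lit 760) (nat_lit 3342864243) (nat_lit 304) (nat_lit 5) (nat_lit 313) (nat_lit 5) (nat_lit 314) (nat_lit 5) (nat_lit 580) (nat_lit 511) (nat_lit 469))))) (XT.nd (nat_lit 312) (nat_lit 1824) (nat_lit 0) (XT.nd (nat_lit 156) (nat_lit 684) (nat_lit 0) (XT.nd (nat_lit 78) (nat_lit 684) (nat_lit 0)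 (XT.lf (nat_lit 0) (nat_lit 6914775083) (nat_lit 684) (nat_lit 1332856952) (nat_lit 760) (nat_lit 289564645) (nat_lit 304) (nat_lit 5) (nat_lit 313) (nat_lit 5) (nat_lit 314) (nat_lit 5) (nat_lit 581) (nat_lit 511) (nat_lit 468)) (XT.lf (nat_lit 0) (nat_lit 2785608012) (nat_lit 684) (nat_lit 4003975461) (nat_lit 76) (nat_lit 1822620698) (nat_lit 295) (nat_lit 5) (nat_lit 304) (nat_lit 5) (nat_lit 296) (nat_lit 5) (nat_lit 582) (nat_lit 511) (nat_lit 467))) (XT.nd (nat_lit 78) (nat_lit 76) (nat_lit 0) (XT.lf (nat_lit 0) (nat_lit 2259228666) (nat_lit 608) (nat_lit 3649925691) (nat_lit 684) (nat_lit 2779706490) (nat_lit 287) (nat_lit 5) (nat_lit 295) (nat_lit 5) (nat_lit 296) (nat_lit 5) (nat_lit 583) (nat_lit 511) (nat_lit 466)) (XT.lf (nat_lit 0) (nat_lit 307357284) (nat_lit 684) (nat_lit 123633160) (nat_lit 76) (nat_lit 8336348989) (nat_lit 286) (nat_lit 5) (nat_lit 295) (nat_lit 5) (nat_lit 287) (nat_lit 5) (nat_lit 584) (nat_lit 511) (nat_lit 465)))) (XT.nd (nat_lit 156) (nat_lit 608) (nat_lit 0) (XT.nd (nat_lit 78) (nat_lit 608) (nat_lit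 0) (XT.lf (nat_lit 0) (nat_lit 3436166937) (nat_lit 684) (nat_lit 2548623322) (nat_lit 76) (nat_lit 2861887493) (nat_lit 278) (nat_lit 5) (nat_lit 287) (nat_lit 5) (nat_lit 279) (nat_lit 5) (nat_lit 585) (nat_lit 511) (nat_lit 464)) (XT.lf (nat_lit 0) (nat_lit 3914683322) (nat_lit 608) (nat_lit 2699713652) (nat_lit 684) (nat_lit 2313471073) (nat_lit 270) (nat_lit 5) (nat_lit 278) (nat_lit 5) (nat_lit 279) (nat_lit 5) (nat_lit 586) (nat_lit 511) (nat_lit 463))) (XT.nd (nat_lit 78) (nat_lit 0) (nat_lit 0) (XT.lf (nat_lit 0) (nat_lit 823580554) (nat_lit 608) (nat_lit 7526093389) (nat_lit 76) (nat_lit 661117223) (nat_lit 262) (nat_lit 5) (nat_lit 270) (nat_lit 5) (nat_lit 263) (nat_lit 5) (nat_lit 587) (nat_lit 511) (nat_lit 462)) (XT.lf (nat_lit 0) (nat_lit 4002463363) (nat_lit 608) (nat_lit 1004257490) (nat_lit 76) (nat_lit 4088146676) (nat_lit 262) (nat_lit 5) (nat_lit 270) (nat_lit 5) (nat_lit 263) (nat_lit 5) (nat_lit 588) (nat_lit 511) (nat_lit 461))))))) (XT.nd (nat_lit 1170) (nat_lit 1672) (nat_lit 0) (XT.nd (nat_lit 546) (nat_lit 2888)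 (nat_lit 0) (XT.nd (nat_lit 234) (nat_lit 1064) (nat_lit 0) (XT.nd (nat_lit 78) (nat_lit 1140) (nat_lit 0) (XT.lf (nat_lit 0) (nat_lit 5666818980) (nat_lit 532) (nat_lit 1574011097) (nat_lit 608) (nat_lit 1939879151) (nat_lit 255) (nat_lit 5) (nat_lit 262) (nat_lit 5) (nat_lit 263) (nat_lit 5) (nat_lit 589) (nat_lit 511) (nat_lit 460)) (XT.nd (nat_lit 78) (nat_lit 532) (nat_lit 0) (XT.lf (nat_lit 0) (nat_lit 1258431968) (nat_lit 608) (nat_lit 6086347990) (nat_lit 76) (nat_lit 1923334677) (nat_lit 247) (nat_lit 5) (nat_lit 255) (nat_lit 5) (nat_lit 248) (nat_lit 5) (nat_lit 590) (nat_lit 511) (nat_lit 459)) (XT.lf (nat_lit 0) (nat_lit 630982036) (nat_lit 532) (nat_lit 3861662170) (nat_lit 608) (nat_lit 4864411117) (nat_lit 240) (nat_lit 5) (nat_lit 247) (nat_lit 5) (nat_lit 248) (nat_lit 5) (nat_lit 591) (nat_lit 511) (nat_lit 458)))) (XT.nd (nat_lit 156) (nat_lit 532) (nat_lit 0) (XT.nd (nat_lit 78) (nat_lit 532) (nat_lit 0) (XT.lf (nat_lit 0) (nat_lit 7509491098) (nat_lit 532) (nat_lit 282951055) (nat_lit 608) (nat_lit 1655316429) (nat_lit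 240) (nat_lit 5) (nat_lit 247) (nat_lit 5) (nat_lit 248) (nat_lit 5) (nat_lit 592) (nat_lit 511) (nat_lit 457)) (XT.lf (nat_lit 0) (nat_lit 1611732688) (nat_lit 532) (nat_lit 4577187659) (nat_lit 76) (nat_lit 3350847332) (nat_lit 233) (nat_lit 5) (nat_lit 240) (nat_lit 5) (nat_lit 234) (nat_lit 5) (nat_lit 593) (nat_lit 511) (nat_lit 456))) (XT.nd (nat_lit 78) (nat_lit 0) (nat_lit 0) (XT.lf (nat_lit 0) (nat_lit 2356929967) (nat_lit 532) (nat_lit 2556214674) (nat_lit 608) (nat_lit 4720431438) (nat_lit 226) (nat_lit 5) (nat_lit 233) (nat_lit 5) (nat_lit 234) (nat_lit 5) (nat_lit 594) (nat_lit 511) (nat_lit 455)) (XT.lf (nat_lit 0) (nat_lit 8280163932) (nat_lit 608) (nat_lit 300261162) (nat_lit 76) (nat_lit 1148845620) (nat_lit 226) (nat_lit 5) (nat_lit 234) (nat_lit 5) (nat_lit 227) (nat_lit 5) (nat_lit 595) (nat_lit 511) (nat_lit 454))))) (XT.nd (nat_lit 312) (nat_lit 1368) (nat_lit 0) (XT.nd (nat_lit 156) (nat_lit 532) (nat_lit 0) (XT.nd (nat_lit 78) (nat_lit 456) (nat_lit 0) (XT.lf (nat_lit 0) (nat_lit 1886297719) (nat_lit 532) (nat_lit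 3005109912) (nat_lit 76) (nat_lit 4934759879) (nat_lit 219) (nat_lit 5) (nat_lit 226) (nat_lit 5) (nat_lit 220) (nat_lit 5) (nat_lit 596) (nat_lit 511) (nat_lit 453)) (XT.lf (nat_lit 0) (nat_lit 4154002889) (nat_lit 456) (nat_lit 1106123572) (nat_lit 532) (nat_lit 4664863370) (nat_lit 213) (nat_lit 5) (nat_lit 219) (nat_lit 5) (nat_lit 220) (nat_lit 5) (nat_lit 597) (nat_lit 511) (nat_lit 452))) (XT.nd (nat_lit 78) (nat_lit 76) (nat_lit 0) (XT.lf (nat_lit 0) (nat_lit 1417154050) (nat_lit 456) (nat_lit 7294047395) (nat_lit 532) (nat_lit 1314393285) (nat_lit 207) (nat_lit 5) (nat_lit 213) (nat_lit 5) (nat_lit 214) (nat_lit 5) (nat_lit 598) (nat_lit 511) (nat_lit 451)) (XT.lf (nat_lit 0) (nat_lit 2084329116) (nat_lit 532) (nat_lit 1376585799) (nat_lit 76) (nat_lit 6666848680) (nat_lit 206) (nat_lit 5) (nat_lit 213) (nat_lit 5) (nat_lit 207) (nat_lit 5) (nat_lit 599) (nat_lit 511) (nat_lit 450)))) (XT.nd (nat_lit 156) (nat_lit 532) (nat_lit 0) (XT.nd (nat_lit 78) (nat_lit 380) (nat_lit 0) (XT.lf (nat_lit 0) (nat_lit 5538872543) (nat_lit 532)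 (nat_lit 4218887583) (nat_lit 76) (nat_lit 473934460) (nat_lit 200) (nat_lit 5) (nat_lit 207) (nat_lit 5) (nat_lit 201) (nat_lit 5) (nat_lit 600) (nat_lit 511) (nat_lit 449)) (XT.lf (nat_lit 0) (nat_lit 3195683979) (nat_lit 380) (nat_lit 5883300847) (nat_lit 456) (nat_lit 1258391219) (nat_lit 195) (nat_lit 5) (nat_lit 200) (nat_lit 5) (nat_lit 201) (nat_lit 5) (nat_lit 601) (nat_lit 511) (nat_lit 448))) (XT.nd (nat_lit 78) (nat_lit 0) (nat_lit 0) (XT.lf (nat_lit 0) (nat_lit 305878135) (nat_lit 456) (nat_lit 1903529371) (nat_lit 532) (nat_lit 8235591110) (nat_lit 188) (nat_lit 5) (nat_lit 194) (nat_lit 5) (nat_lit 195) (nat_lit 5) (nat_lit 602) (nat_lit 511) (nat_lit 447)) (XT.lf (nat_lit 0) (nat_lit 5755845744) (nat_lit 532) (nat_lit 2632003122) (nat_lit 76) (nat_lit 2166237074) (nat_lit 188) (nat_lit 5) (nat_lit 195) (nat_lit 5) (nat_lit 189) (nat_lit 5) (nat_lit 603) (nat_lit 511) (nat_lit 446)))))) (XT.nd (nat_lit 76050) (nat_lit 0) (nat_lit 38228) (XT.nd (nat_lit 234) (nat_lit 836) (nat_lit 0) (XT.nd (nat_lit 78) (nat_lit 456) (nat_lit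 0) (XT.lf (nat_lit 0) (nat_lit 5024879089) (nat_lit 380) (nat_lit 4358151544) (nat_lit 456) (nat_lit 1282129321) (nat_lit 183) (nat_lit 5) (nat_lit 188) (nat_lit 5) (nat_lit 189) (nat_lit 5) (nat_lit 604) (nat_lit 511) (nat_lit 445)) (XT.nd (nat_lit 78) (nat_lit 0) (nat_lit 0) (XT.lf (nat_lit 0) (nat_lit 2050498082) (nat_lit 380) (nat_lit 219378209) (nat_lit 456) (nat_lit 8508365309) (nat_lit 177) (nat_lit 5) (nat_lit 182) (nat_lit 5) (nat_lit 183) (nat_lit 5) (nat_lit 605) (nat_lit 511) (nat_lit 444)) (XT.lf (nat_lit 0) (nat_lit 5904781770) (nat_lit 456) (nat_lit 1010023283) (nat_lit 76) (nat_lit 3978031005) (nat_lit 177) (nat_lit 5) (nat_lit 183) (nat_lit 5) (nat_lit 178) (nat_lit 5) (nat_lit 606) (nat_lit 511) (nat_lit 443)))) (XT.nd (nat_lit 75660) (nat_lit 0) (nat_lit 43092) (XT.nd (nat_lit 78) (nat_lit 456) (nat_lit 0) (XT.lf (nat_lit 0) (nat_lit 6898110476) (nat_lit 380) (nat_lit 2726129298) (nat_lit 456) (nat_lit 1385246747) (nat_lit 172) (nat_lit 5) (nat_lit 177) (nat_lit 5) (nat_lit 178) (nat_lit 5) (nat_lit 607) (nat_lit 511)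 (nat_lit 442)) (XT.lf (nat_lit 0) (nat_lit 2267237658) (nat_lit 456) (nat_lit 7306406874) (nat_lit 76) (nat_lit 1554376312) (nat_lit 166) (nat_lit 5) (nat_lit 172) (nat_lit 5) (nat_lit 167) (nat_lit 5) (nat_lit 608) (nat_lit 511) (nat_lit 441))) (XT.nd (nat_lit 78) (nat_lit 684) (nat_lit 0) (XT.lf (nat_lit 0) (nat_lit 1450846309) (nat_lit 684) (nat_lit 380348614) (nat_lit 0) (nat_lit 1450846309) (nat_lit 742) (nat_lit 5) (nat_lit 751) (nat_lit 4) (nat_lit 742) (nat_lit 4) (nat_lit 536) (nat_lit 512) (nat_lit 512)) (XT.lf (nat_lit 0) (nat_lit 3292522182) (nat_lit 684) (nat_lit 2881315997) (nat_lit 684) (nat_lit 406144609) (nat_lit 733) (nat_lit 4) (nat_lit 742) (nat_lit 5) (nat_lit 742) (nat_lit 4) (nat_lit 537) (nat_lit 512) (nat_lit 511))))) (XT.nd (nat_lit 312) (nat_lit 2204) (nat_lit 0) (XT.nd (nat_lit 156) (nat_lit 1824) (nat_lit 0) (XT.nd (nat_lit 78) (nat_lit 0) (nat_lit 0) (XT.lf (nat_lit 0) (nat_lit 778111591) (nat_lit 760) (nat_lit 2033730782) (nat_lit 836) (nat_lit 3785290918) (nat_lit 722) (nat_lit 5) (nat_lit 732) (nat_lit 5)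 (nat_lit 733) (nat_lit 4) (nat_lit 538) (nat_lit 512) (nat_lit 510)) (XT.lf (nat_lit 0) (nat_lit 4913037932) (nat_lit 760) (nat_lit 1123548900) (nat_lit 836) (nat_lit 579037143) (nat_lit 722) (nat_lit 5) (nat_lit 732) (nat_lit 5) (nat_lit 733) (nat_lit 4) (nat_lit 539) (nat_lit 512) (nat_lit 509))) (XT.nd (nat_lit 78) (nat_lit 912) (nat_lit 0) (XT.lf (nat_lit 0) (nat_lit 2457210960) (nat_lit 836) (nat_lit 141541157) (nat_lit 912) (nat_lit 4036536009) (nat_lit 710) (nat_lit 5) (nat_lit 721) (nat_lit 5) (nat_lit 722) (nat_lit 5) (nat_lit 540) (nat_lit 512) (nat_lit 508)) (XT.lf (nat_lit 0) (nat_lit 3781721) (nat_lit 912) (nat_lit 5773644930) (nat_lit 988) (nat_lit 878947852) (nat_lit 698) (nat_lit 5) (nat_lit 710) (nat_lit 5) (nat_lit 711) (nat_lit 4) (nat_lit 541) (nat_lit 512) (nat_lit 507)))) (XT.nd (nat_lit 156) (nat_lit 1140) (nat_lit 0) (XT.nd (nat_lit 78) (nat_lit 988) (nat_lit 0) (XT.lf (nat_lit 0) (nat_lit 2268786000) (nat_lit 988) (nat_lit 2423270644) (nat_lit 76) (nat_lit 1986374602) (nat_lit 697) (nat_lit 5) (nat_lit 710) (nat_lit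 5) (nat_lit 698) (nat_lit 5) (nat_lit 542) (nat_lit 512) (nat_lit 506)) (XT.lf (nat_lit 0) (nat_lit 1854696670) (nat_lit 988) (nat_lit 3555009538) (nat_lit 1064) (nat_lit 1292273438) (nat_lit 684) (nat_lit 5) (nat_lit 697) (nat_lit 5) (nat_lit 698) (nat_lit 5) (nat_lit 543) (nat_lit 512) (nat_lit 505))) (XT.nd (nat_lit 78) (nat_lit 1064) (nat_lit 0) (XT.lf (nat_lit 0) (nat_lit 1809567331) (nat_lit 1064) (nat_lit 541981535) (nat_lit 76) (nat_lit 4375274016) (nat_lit 683) (nat_lit 5) (nat_lit 697) (nat_lit 5) (nat_lit 684) (nat_lit 5) (nat_lit 544) (nat_lit 512) (nat_lit 504)) (XT.lf (nat_lit 0) (nat_lit 3837255987) (nat_lit 1064) (nat_lit 1075684794) (nat_lit 1140) (nat_lit 1839921720) (nat_lit 669) (nat_lit 5) (nat_lit 683) (nat_lit 5) (nat_lit 684) (nat_lit 5) (nat_lit 545) (nat_lit 512) (nat_lit 503))))))))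
noncomputable def xc23 : XT := (XT.nd (nat_lit 2340) (nat_lit 12084) (nat_lit 0) (XT.nd (nat_lit 1170) (nat_lit 9576) (nat_lit 0) (XT.nd (nat_lit 546) (nat_lit 8664) (nat_lit 0) (XT.nd (nat_lit 234) (nat_lit 4180) (nat_lit 0) (XT.nd (nat_lit 78) (nat_lit 1292) (nat_lit 0) (XT.lf (nat_lit 0) (nat_lit 1229350097) (nat_lit 1216) (nat_lit 5293386972) (nat_lit 76) (nat_lit 257574722) (nat_lit 653) (nat_lit 5) (nat_lit 669) (nat_lit 5) (nat_lit 654) (nat_lit 5) (nat_lit 546) (nat_lit 512) (nat_lit 502)) (XT.nd (nat_lit 78) (nat_lit 1292) (nat_lit 0) (XT.lf (nat_lit 0) (nat_lit 4295673838) (nat_lit 1216) (nat_lit 865877062) (nat_lit 76) (nat_lit 1647315849) (nat_lit 653) (nat_lit 5) (nat_lit 669) (nat_lit 5) (nat_lit 654) (nat_lit 5) (nat_lit 547) (nat_lit 512) (nat_lit 501)) (XT.lf (nat_lit 0) (nat_lit 535795585) (nat_lit 1292) (nat_lit 3198846355) (nat_lit 76) (nat_lit 3104117783) (nat_lit 636) (nat_lit 5) (nat_lit 653) (nat_lit 5) (nat_lit 637) (nat_lit 5) (nat_lit 548) (nat_lit 512) (nat_lit 500)))) (XT.nd (nat_lit 156) (nat_lit 2888) (nat_lit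 0) (XT.nd (nat_lit 78) (nat_lit 0) (nat_lit 0) (XT.lf (nat_lit 0) (nat_lit 1324139476) (nat_lit 1292) (nat_lit 2237712757) (nat_lit 1368) (nat_lit 3308076914) (nat_lit 619) (nat_lit 5) (nat_lit 636) (nat_lit 5) (nat_lit 637) (nat_lit 5) (nat_lit 549) (nat_lit 512) (nat_lit 499)) (XT.lf (nat_lit 0) (nat_lit 5926340697) (nat_lit 1292) (nat_lit 679732506) (nat_lit 1368) (nat_lit 296501419) (nat_lit 619) (nat_lit 5) (nat_lit 636) (nat_lit 5) (nat_lit 637) (nat_lit 5) (nat_lit 550) (nat_lit 512) (nat_lit 498))) (XT.nd (nat_lit 78) (nat_lit 1444) (nat_lit 0) (XT.lf (nat_lit 0) (nat_lit 2705918261) (nat_lit 1444) (nat_lit 3282217236) (nat_lit 76) (nat_lit 948042209) (nat_lit 600) (nat_lit 5) (nat_lit 619) (nat_lit 5) (nat_lit 601) (nat_lit 5) (nat_lit 551) (nat_lit 512) (nat_lit 497)) (XT.lf (nat_lit 0) (nat_lit 1375887163) (nat_lit 1444) (nat_lit 4346507711) (nat_lit 1520) (nat_lit 1248864414) (nat_lit 581) (nat_lit 5) (nat_lit 600) (nat_lit 5) (nat_lit 601) (nat_lit 5) (nat_lit 552) (nat_lit 512) (nat_lit 496))))) (XT.nd (nat_lit 312) (nat_lit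 5396) (nat_lit 0) (XT.nd (nat_lit 156) (nat_lit 1672) (nat_lit 0) (XT.nd (nat_lit 78) (nat_lit 1520) (nat_lit 0) (XT.lf (nat_lit 0) (nat_lit 1729220792) (nat_lit 1520) (nat_lit 902517885) (nat_lit 76) (nat_lit 4375864773) (nat_lit 580) (nat_lit 5) (nat_lit 600) (nat_lit 5) (nat_lit 581) (nat_lit 5) (nat_lit 553) (nat_lit 512) (nat_lit 495)) (XT.lf (nat_lit 0) (nat_lit 3872019638) (nat_lit 1520) (nat_lit 842884540) (nat_lit 1596) (nat_lit 2330314950) (nat_lit 560) (nat_lit 5) (nat_lit 580) (nat_lit 5) (nat_lit 581) (nat_lit 5) (nat_lit 554) (nat_lit 512) (nat_lit 494))) (XT.nd (nat_lit 78) (nat_lit 0) (nat_lit 0) (XT.lf (nat_lit 0) (nat_lit 631116682) (nat_lit 1672) (nat_lit 5458247050) (nat_lit 76) (nat_lit 994874671) (nat_lit 538) (nat_lit 5) (nat_lit 560) (nat_lit 5) (nat_lit 539) (nat_lit 5) (nat_lit 555) (nat_lit 512) (nat_lit 493)) (XT.lf (nat_lit 0) (nat_lit 3588504440) (nat_lit 1672) (nat_lit 636568709) (nat_lit 76) (nat_lit 2899302863) (nat_lit 538) (nat_lit 5) (nat_lit 560) (nat_lit 5) (nat_lit 539) (nat_lit 5) (nat_lit 556) (nat_lit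 512) (nat_lit 492)))) (XT.nd (nat_lit 156) (nat_lit 1900) (nat_lit 0) (XT.nd (nat_lit 78) (nat_lit 1824) (nat_lit 0) (XT.lf (nat_lit 0) (nat_lit 4282830442) (nat_lit 1672) (nat_lit 2292059982) (nat_lit 1748) (nat_lit 591033470) (nat_lit 516) (nat_lit 5) (nat_lit 538) (nat_lit 5) (nat_lit 539) (nat_lit 5) (nat_lit 557) (nat_lit 512) (nat_lit 491)) (XT.lf (nat_lit 0) (nat_lit 2057023178) (nat_lit 1748) (nat_lit 284133648) (nat_lit 1824) (nat_lit 4867634999) (nat_lit 492) (nat_lit 5) (nat_lit 515) (nat_lit 5) (nat_lit 516) (nat_lit 5) (nat_lit 558) (nat_lit 512) (nat_lit 490))) (XT.nd (nat_lit 78) (nat_lit 1900) (nat_lit 0) (XT.lf (nat_lit 0) (nat_lit 5298239226) (nat_lit 1824) (nat_lit 188681253) (nat_lit 76) (nat_lit 1766039526) (nat_lit 492) (nat_lit 5) (nat_lit 516) (nat_lit 5) (nat_lit 493) (nat_lit 5) (nat_lit 559) (nat_lit 512) (nat_lit 489)) (XT.lf (nat_lit 0) (nat_lit 980881651) (nat_lit 1900) (nat_lit 2424091368) (nat_lit 76) (nat_lit 3893355427) (nat_lit 467) (nat_lit 5) (nat_lit 492) (nat_lit 5) (nat_lit 468) (nat_lit 5) (nat_lit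 560) (nat_lit 512) (nat_lit 488)))))) (XT.nd (nat_lit 546) (nat_lit 4864) (nat_lit 0) (XT.nd (nat_lit 234) (nat_lit 2660) (nat_lit 0) (XT.nd (nat_lit 78) (nat_lit 988) (nat_lit 0) (XT.lf (nat_lit 0) (nat_lit 2663007915) (nat_lit 1064) (nat_lit 1249312589) (nat_lit 1140) (nat_lit 3432763402) (nat_lit 453) (nat_lit 5) (nat_lit 467) (nat_lit 5) (nat_lit 468) (nat_lit 5) (nat_lit 561) (nat_lit 512) (nat_lit 487)) (XT.nd (nat_lit 78) (nat_lit 76) (nat_lit 0) (XT.lf (nat_lit 0) (nat_lit 435615083) (nat_lit 912) (nat_lit 6437573911) (nat_lit 988) (nat_lit 520173408) (nat_lit 441) (nat_lit 5) (nat_lit 453) (nat_lit 5) (nat_lit 454) (nat_lit 5) (nat_lit 562) (nat_lit 512) (nat_lit 486)) (XT.lf (nat_lit 0) (nat_lit 2404209353) (nat_lit 988) (nat_lit 1803684790) (nat_lit 76) (nat_lit 3234684251) (nat_lit 440) (nat_lit 5) (nat_lit 453) (nat_lit 5) (nat_lit 441) (nat_lit 5) (nat_lit 563) (nat_lit 512) (nat_lit 485)))) (XT.nd (nat_lit 156) (nat_lit 836) (nat_lit 0) (XT.nd (nat_lit 78) (nat_lit 912) (nat_lit 0) (XT.lf (nat_lit 0) (nat_lit 3439793898) (nat_lit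 912) (nat_lit 1909504864) (nat_lit 988) (nat_lit 2144031213) (nat_lit 428) (nat_lit 5) (nat_lit 440) (nat_lit 5) (nat_lit 441) (nat_lit 5) (nat_lit 564) (nat_lit 512) (nat_lit 484)) (XT.lf (nat_lit 0) (nat_lit 767867945) (nat_lit 912) (nat_lit 6325850833) (nat_lit 76) (nat_lit 451870953) (nat_lit 416) (nat_lit 5) (nat_lit 428) (nat_lit 5) (nat_lit 417) (nat_lit 5) (nat_lit 565) (nat_lit 512) (nat_lit 483))) (XT.nd (nat_lit 78) (nat_lit 836) (nat_lit 0) (XT.lf (nat_lit 0) (nat_lit 3697185112) (nat_lit 912) (nat_lit 1028284113) (nat_lit 76) (nat_lit 2873387747) (nat_lit 416) (nat_lit 5) (nat_lit 428) (nat_lit 5) (nat_lit 417) (nat_lit 5) (nat_lit 566) (nat_lit 512) (nat_lit 482)) (XT.lf (nat_lit 0) (nat_lit 4377414290) (nat_lit 836) (nat_lit 2284952799) (nat_lit 912) (nat_lit 991280335) (nat_lit 405) (nat_lit 5) (nat_lit 416) (nat_lit 5) (nat_lit 417) (nat_lit 5) (nat_lit 567) (nat_lit 512) (nat_lit 481))))) (XT.nd (nat_lit 312) (nat_lit 2280) (nat_lit 0) (XT.nd (nat_lit 156) (nat_lit 1672) (nat_lit 0) (XT.nd (nat_lit 78) (nat_lit 0) (nat_lit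 0) (XT.lf (nat_lit 0) (nat_lit 1923014076) (nat_lit 912) (nat_lit 5555786724) (nat_lit 76) (nat_lit 231046865) (nat_lit 393) (nat_lit 5) (nat_lit 405) (nat_lit 5) (nat_lit 394) (nat_lit 5) (nat_lit 568) (nat_lit 512) (nat_lit 480)) (XT.lf (nat_lit 0) (nat_lit 4869368852) (nat_lit 912) (nat_lit 107358679) (nat_lit 76) (nat_lit 2790575615) (nat_lit 393) (nat_lit 5) (nat_lit 405) (nat_lit 5) (nat_lit 394) (nat_lit 5) (nat_lit 569) (nat_lit 512) (nat_lit 479))) (XT.nd (nat_lit 78) (nat_lit 760) (nat_lit 0) (XT.lf (nat_lit 0) (nat_lit 34260024) (nat_lit 912) (nat_lit 2359730862) (nat_lit 76) (nat_lit 5432190507) (nat_lit 381) (nat_lit 5) (nat_lit 393) (nat_lit 5) (nat_lit 382) (nat_lit 5) (nat_lit 570) (nat_lit 512) (nat_lit 478)) (XT.lf (nat_lit 0) (nat_lit 2960892024) (nat_lit 836) (nat_lit 4653339142) (nat_lit 76) (nat_lit 272134037) (nat_lit 371) (nat_lit 5) (nat_lit 382) (nat_lit 5) (nat_lit 372) (nat_lit 5) (nat_lit 571) (nat_lit 512) (nat_lit 477)))) (XT.nd (nat_lit 156) (nat_lit 1444) (nat_lit 0) (XT.nd (nat_lit 78) (nat_lit 76) (nat_lit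 0) (XT.lf (nat_lit 0) (nat_lit 962950664) (nat_lit 760) (nat_lit 4972754708) (nat_lit 836) (nat_lit 2012257335) (nat_lit 361) (nat_lit 5) (nat_lit 371) (nat_lit 5) (nat_lit 372) (nat_lit 5) (nat_lit 572) (nat_lit 512) (nat_lit 476)) (XT.lf (nat_lit 0) (nat_lit 929946898) (nat_lit 836) (nat_lit 1318141900) (nat_lit 76) (nat_lit 5762915589) (nat_lit 360) (nat_lit 5) (nat_lit 371) (nat_lit 5) (nat_lit 361) (nat_lit 5) (nat_lit 573) (nat_lit 512) (nat_lit 475))) (XT.nd (nat_lit 78) (nat_lit 760) (nat_lit 0) (XT.lf (nat_lit 0) (nat_lit 3889473398) (nat_lit 760) (nat_lit 3627037848) (nat_lit 76) (nat_lit 558824006) (nat_lit 351) (nat_lit 5) (nat_lit 361) (nat_lit 5) (nat_lit 352) (nat_lit 5) (nat_lit 574) (nat_lit 512) (nat_lit 474)) (XT.lf (nat_lit 0) (nat_lit 2165003756) (nat_lit 760) (nat_lit 4734367629) (nat_lit 836) (nat_lit 1241760491) (nat_lit 341) (nat_lit 5) (nat_lit 351) (nat_lit 5) (nat_lit 352) (nat_lit 5) (nat_lit 575) (nat_lit 512) (nat_lit 473))))))) (XT.nd (nat_lit 1170) (nat_lit 4940) (nat_lit 0) (XT.nd (nat_lit 546) (nat_lit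 3648) (nat_lit 0) (XT.nd (nat_lit 234) (nat_lit 2052) (nat_lit 0) (XT.nd (nat_lit 78) (nat_lit 1368) (nat_lit 0) (XT.lf (nat_lit 0) (nat_lit 1716205352) (nat_lit 836) (nat_lit 153157464) (nat_lit 76) (nat_lit 6339093949) (nat_lit 340) (nat_lit 5) (nat_lit 351) (nat_lit 5) (nat_lit 341) (nat_lit 5) (nat_lit 576) (nat_lit 512) (nat_lit 472)) (XT.nd (nat_lit 78) (nat_lit 684) (nat_lit 0) (XT.lf (nat_lit 0) (nat_lit 4715943127) (nat_lit 760) (nat_lit 2484855078) (nat_lit 76) (nat_lit 1076183593) (nat_lit 331) (nat_lit 5) (nat_lit 341) (nat_lit 5) (nat_lit 332) (nat_lit 5) (nat_lit 577) (nat_lit 512) (nat_lit 471)) (XT.lf (nat_lit 0) (nat_lit 3489676434) (nat_lit 684) (nat_lit 4277039760) (nat_lit 760) (nat_lit 580342878) (nat_lit 322) (nat_lit 5) (nat_lit 331) (nat_lit 5) (nat_lit 332) (nat_lit 5) (nat_lit 578) (nat_lit 512) (nat_lit 470)))) (XT.nd (nat_lit 156) (nat_lit 1368) (nat_lit 0) (XT.nd (nat_lit 78) (nat_lit 0) (nat_lit 0) (XT.lf (nat_lit 0) (nat_lit 1142605423) (nat_lit 608) (nat_lit 1264500414) (nat_lit 684) (nat_lit 6011527034) (nat_lit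 313) (nat_lit 5) (nat_lit 321) (nat_lit 5) (nat_lit 322) (nat_lit 5) (nat_lit 579) (nat_lit 512) (nat_lit 469)) (XT.lf (nat_lit 0) (nat_lit 5446740672) (nat_lit 684) (nat_lit 1234277383) (nat_lit 76) (nat_lit 1810541618) (nat_lit 313) (nat_lit 5) (nat_lit 322) (nat_lit 5) (nat_lit 314) (nat_lit 5) (nat_lit 580) (nat_lit 512) (nat_lit 468))) (XT.nd (nat_lit 78) (nat_lit 684) (nat_lit 0) (XT.lf (nat_lit 0) (nat_lit 4929757100) (nat_lit 684) (nat_lit 3614310761) (nat_lit 760) (nat_lit 21941512) (nat_lit 304) (nat_lit 5) (nat_lit 313) (nat_lit 5) (nat_lit 314) (nat_lit 5) (nat_lit 581) (nat_lit 512) (nat_lit 467)) (XT.lf (nat_lit 0) (nat_lit 2550491893) (nat_lit 608) (nat_lit 452378115) (nat_lit 684) (nat_lit 5639050250) (nat_lit 295) (nat_lit 5) (nat_lit 303) (nat_lit 5) (nat_lit 304) (nat_lit 5) (nat_lit 582) (nat_lit 512) (nat_lit 466))))) (XT.nd (nat_lit 312) (nat_lit 1748) (nat_lit 0) (XT.nd (nat_lit 156) (nat_lit 1216) (nat_lit 0) (XT.nd (nat_lit 78) (nat_lit 76) (nat_lit 0) (XT.lf (nat_lit 0) (nat_lit 119187509) (nat_lit 608) (nat_lit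 5969182422) (nat_lit 684) (nat_lit 2630969031) (nat_lit 287) (nat_lit 5) (nat_lit 295) (nat_lit 5) (nat_lit 296) (nat_lit 5) (nat_lit 583) (nat_lit 512) (nat_lit 465)) (XT.lf (nat_lit 0) (nat_lit 433028201) (nat_lit 684) (nat_lit 2322677529) (nat_lit 76) (nat_lit 6042515877) (nat_lit 286) (nat_lit 5) (nat_lit 295) (nat_lit 5) (nat_lit 287) (nat_lit 5) (nat_lit 584) (nat_lit 512) (nat_lit 464))) (XT.nd (nat_lit 78) (nat_lit 608) (nat_lit 0) (XT.lf (nat_lit 0) (nat_lit 3511259316) (nat_lit 684) (nat_lit 4820628471) (nat_lit 76) (nat_lit 546684748) (nat_lit 278) (nat_lit 5) (nat_lit 287) (nat_lit 5) (nat_lit 279) (nat_lit 5) (nat_lit 585) (nat_lit 512) (nat_lit 463)) (XT.lf (nat_lit 0) (nat_lit 1584912498) (nat_lit 608) (nat_lit 5068938929) (nat_lit 684) (nat_lit 2306625177) (nat_lit 270) (nat_lit 5) (nat_lit 278) (nat_lit 5) (nat_lit 279) (nat_lit 5) (nat_lit 586) (nat_lit 512) (nat_lit 462)))) (XT.nd (nat_lit 156) (nat_lit 1140) (nat_lit 0) (XT.nd (nat_lit 78) (nat_lit 532) (nat_lit 0) (XT.lf (nat_lit 0) (nat_lit 795898618) (nat_lit 684)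 (nat_lit 920123515) (nat_lit 76) (nat_lit 7328066439) (nat_lit 269) (nat_lit 5) (nat_lit 278) (nat_lit 5) (nat_lit 270) (nat_lit 5) (nat_lit 587) (nat_lit 512) (nat_lit 461)) (XT.lf (nat_lit 0) (nat_lit 3937305499) (nat_lit 608) (nat_lit 3471027481) (nat_lit 76) (nat_lit 1720582431) (nat_lit 262) (nat_lit 5) (nat_lit 270) (nat_lit 5) (nat_lit 263) (nat_lit 5) (nat_lit 588) (nat_lit 512) (nat_lit 460))) (XT.nd (nat_lit 78) (nat_lit 608) (nat_lit 0) (XT.lf (nat_lit 0) (nat_lit 3139963821) (nat_lit 532) (nat_lit 3999458413) (nat_lit 608) (nat_lit 2076060814) (nat_lit 255) (nat_lit 5) (nat_lit 262) (nat_lit 5) (nat_lit 263) (nat_lit 5) (nat_lit 589) (nat_lit 512) (nat_lit 459)) (XT.lf (nat_lit 0) (nat_lit 572507020) (nat_lit 532) (nat_lit 502091415) (nat_lit 608) (nat_lit 8229297364) (nat_lit 247) (nat_lit 5) (nat_lit 254) (nat_lit 5) (nat_lit 255) (nat_lit 5) (nat_lit 590) (nat_lit 512) (nat_lit 458)))))) (XT.nd (nat_lit 546) (nat_lit 2356) (nat_lit 0) (XT.nd (nat_lit 234) (nat_lit 1520) (nat_lit 0) (XT.nd (nat_lit 78) (nat_lit 1064) (nat_lit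 0) (XT.lf (nat_lit 0) (nat_lit 4281860103) (nat_lit 608) (nat_lit 2046272057) (nat_lit 76) (nat_lit 3065244224) (nat_lit 247) (nat_lit 5) (nat_lit 255) (nat_lit 5) (nat_lit 248) (nat_lit 5) (nat_lit 591) (nat_lit 512) (nat_lit 457)) (XT.nd (nat_lit 78) (nat_lit 532) (nat_lit 0) (XT.lf (nat_lit 0) (nat_lit 4778024287) (nat_lit 532) (nat_lit 2770786310) (nat_lit 608) (nat_lit 1935926862) (nat_lit 240) (nat_lit 5) (nat_lit 247) (nat_lit 5) (nat_lit 248) (nat_lit 5) (nat_lit 592) (nat_lit 512) (nat_lit 456)) (XT.lf (nat_lit 0) (nat_lit 1280957484) (nat_lit 532) (nat_lit 7429108426) (nat_lit 76) (nat_lit 867794817) (nat_lit 233) (nat_lit 5) (nat_lit 240) (nat_lit 5) (nat_lit 234) (nat_lit 5) (nat_lit 593) (nat_lit 512) (nat_lit 455)))) (XT.nd (nat_lit 156) (nat_lit 988) (nat_lit 0) (XT.nd (nat_lit 78) (nat_lit 532) (nat_lit 0) (XT.lf (nat_lit 0) (nat_lit 4548087985) (nat_lit 532) (nat_lit 552800354) (nat_lit 76) (nat_lit 4571467235) (nat_lit 233) (nat_lit 5) (nat_lit 240) (nat_lit 5) (nat_lit 234) (nat_lit 5) (nat_lit 594) (nat_lit 512) (nat_lit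 454)) (XT.lf (nat_lit 0) (nat_lit 6492921131) (nat_lit 532) (nat_lit 1392211046) (nat_lit 608) (nat_lit 1883518335) (nat_lit 226) (nat_lit 5) (nat_lit 233) (nat_lit 5) (nat_lit 234) (nat_lit 5) (nat_lit 595) (nat_lit 512) (nat_lit 453))) (XT.nd (nat_lit 78) (nat_lit 456) (nat_lit 0) (XT.lf (nat_lit 0) (nat_lit 1410078295) (nat_lit 532) (nat_lit 6075020600) (nat_lit 76) (nat_lit 2381455698) (nat_lit 219) (nat_lit 5) (nat_lit 226) (nat_lit 5) (nat_lit 220) (nat_lit 5) (nat_lit 596) (nat_lit 512) (nat_lit 452)) (XT.lf (nat_lit 0) (nat_lit 1016355074) (nat_lit 456) (nat_lit 3728787123) (nat_lit 532) (nat_lit 5221010768) (nat_lit 213) (nat_lit 5) (nat_lit 219) (nat_lit 5) (nat_lit 220) (nat_lit 5) (nat_lit 597) (nat_lit 512) (nat_lit 451))))) (XT.nd (nat_lit 312) (nat_lit 1368) (nat_lit 0) (XT.nd (nat_lit 156) (nat_lit 456) (nat_lit 0) (XT.nd (nat_lit 78) (nat_lit 532) (nat_lit 0) (XT.lf (nat_lit 0) (nat_lit 8151730739) (nat_lit 532) (nat_lit 1789937992) (nat_lit 76) (nat_lit 125979603) (nat_lit 213) (nat_lit 5) (nat_lit 220) (nat_lit 5) (nat_lit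 214) (nat_lit 5) (nat_lit 598) (nat_lit 512) (nat_lit 450)) (XT.lf (nat_lit 0) (nat_lit 1460647972) (nat_lit 532) (nat_lit 4672560416) (nat_lit 76) (nat_lit 4037288551) (nat_lit 206) (nat_lit 5) (nat_lit 213) (nat_lit 5) (nat_lit 207) (nat_lit 5) (nat_lit 599) (nat_lit 512) (nat_lit 449))) (XT.nd (nat_lit 78) (nat_lit 0) (nat_lit 0) (XT.lf (nat_lit 0) (nat_lit 2649597616) (nat_lit 456) (nat_lit 2222783625) (nat_lit 532) (nat_lit 5402903589) (nat_lit 200) (nat_lit 5) (nat_lit 206) (nat_lit 5) (nat_lit 207) (nat_lit 5) (nat_lit 600) (nat_lit 512) (nat_lit 448)) (XT.lf (nat_lit 0) (nat_lit 8359603440) (nat_lit 532) (nat_lit 264986366) (nat_lit 76) (nat_lit 1757434969) (nat_lit 200) (nat_lit 5) (nat_lit 207) (nat_lit 5) (nat_lit 201) (nat_lit 5) (nat_lit 601) (nat_lit 512) (nat_lit 447)))) (XT.nd (nat_lit 156) (nat_lit 456) (nat_lit 0) (XT.nd (nat_lit 78) (nat_lit 456) (nat_lit 0) (XT.lf (nat_lit 0) (nat_lit 1434007405) (nat_lit 456) (nat_lit 3228488965) (nat_lit 76) (nat_lit 5827678653) (nat_lit 194) (nat_lit 5) (nat_lit 200) (nat_lit 5) (nat_lit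 195) (nat_lit 5) (nat_lit 602) (nat_lit 512) (nat_lit 446)) (XT.lf (nat_lit 0) (nat_lit 4333069297) (nat_lit 456) (nat_lit 594410642) (nat_lit 532) (nat_lit 5672842366) (nat_lit 188) (nat_lit 5) (nat_lit 194) (nat_lit 5) (nat_lit 195) (nat_lit 5) (nat_lit 603) (nat_lit 512) (nat_lit 445))) (XT.nd (nat_lit 78) (nat_lit 76) (nat_lit 0) (XT.lf (nat_lit 0) (nat_lit 1318832995) (nat_lit 380) (nat_lit 7190722921) (nat_lit 456) (nat_lit 2202743212) (nat_lit 183) (nat_lit 5) (nat_lit 188) (nat_lit 5) (nat_lit 189) (nat_lit 5) (nat_lit 604) (nat_lit 512) (nat_lit 444)) (XT.lf (nat_lit 0) (nat_lit 1330891399) (nat_lit 456) (nat_lit 1749709555) (nat_lit 76) (nat_lit 7745508873) (nat_lit 182) (nat_lit 5) (nat_lit 188) (nat_lit 5) (nat_lit 183) (nat_lit 5) (nat_lit 605) (nat_lit 512) (nat_lit 443))))))))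
noncomputable def xc24 : XT := (XT.nd (nat_lit 77610) (nat_lit 0) (nat_lit 6384) (XT.nd (nat_lit 76440) (nat_lit 0) (nat_lit 24396) (XT.nd (nat_lit 75894) (nat_lit 0) (nat_lit 38912) (XT.nd (nat_lit 75582) (nat_lit 0) (nat_lit 42636) (XT.nd (nat_lit 78) (nat_lit 456) (nat_lit 0) (XT.lf (nat_lit 0) (nat_lit 4918609903) (nat_lit 456) (nat_lit 4889145736) (nat_lit 76) (nat_lit 1133892982) (nat_lit 177) (nat_lit 5) (nat_lit 183) (nat_lit 5) (nat_lit 178) (nat_lit 5) (nat_lit 606) (nat_lit 512) (nat_lit 442)) (XT.nd (nat_lit 78) (nat_lit 76) (nat_lit 0) (XT.lf (nat_lit 0) (nat_lit 2941392174) (nat_lit 380) (nat_lit 5654297329) (nat_lit 456) (nat_lit 2463457731) (nat_lit 172) (nat_lit 5) (nat_lit 177) (nat_lit 5) (nat_lit 178) (nat_lit 5) (nat_lit 607) (nat_lit 512) (nat_lit 441)) (XT.lf (nat_lit 0) (nat_lit 1151423938) (nat_lit 456) (nat_lit 243347197) (nat_lit 76) (nat_lit 9784085867) (nat_lit 171) (nat_lit 5) (nat_lit 177) (nat_lit 5) (nat_lit 172) (nat_lit 5) (nat_lit 608) (nat_lit 512) (nat_lit 440)))) (XT.nd (nat_lit 156) (nat_lit 760) (nat_lit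 0) (XT.nd (nat_lit 78) (nat_lit 684) (nat_lit 0) (XT.lf (nat_lit 0) (nat_lit 2204480063) (nat_lit 532) (nat_lit 531646331) (nat_lit 532) (nat_lit 531646331) (nat_lit 751) (nat_lit 4) (nat_lit 758) (nat_lit 5) (nat_lit 758) (nat_lit 4) (nat_lit 534) (nat_lit 513) (nat_lit 513)) (XT.lf (nat_lit 0) (nat_lit 1802606831) (nat_lit 608) (nat_lit 364608586) (nat_lit 684) (nat_lit 4382309708) (nat_lit 742) (nat_lit 5) (nat_lit 750) (nat_lit 5) (nat_lit 751) (nat_lit 4) (nat_lit 535) (nat_lit 513) (nat_lit 512))) (XT.nd (nat_lit 78) (nat_lit 760) (nat_lit 0) (XT.lf (nat_lit 0) (nat_lit 5388752899) (nat_lit 684) (nat_lit 787179144) (nat_lit 0) (nat_lit 388906695) (nat_lit 742) (nat_lit 5) (nat_lit 751) (nat_lit 4) (nat_lit 742) (nat_lit 4) (nat_lit 536) (nat_lit 513) (nat_lit 511)) (XT.lf (nat_lit 0) (nat_lit 2015405348) (nat_lit 760) (nat_lit 3355366014) (nat_lit 76) (nat_lit 1210450861) (nat_lit 732) (nat_lit 5) (nat_lit 742) (nat_lit 5) (nat_lit 733) (nat_lit 4) (nat_lit 537) (nat_lit 513) (nat_lit 510))))) (XT.nd (nat_lit 234) (nat_lit 2052) (nat_lit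 0) (XT.nd (nat_lit 78) (nat_lit 912) (nat_lit 0) (XT.lf (nat_lit 0) (nat_lit 680000934) (nat_lit 760) (nat_lit 4510862045) (nat_lit 836) (nat_lit 1408204817) (nat_lit 722) (nat_lit 5) (nat_lit 732) (nat_lit 5) (nat_lit 733) (nat_lit 4) (nat_lit 538) (nat_lit 513) (nat_lit 509)) (XT.nd (nat_lit 78) (nat_lit 836) (nat_lit 0) (XT.lf (nat_lit 0) (nat_lit 1738206825) (nat_lit 836) (nat_lit 1840899468) (nat_lit 76) (nat_lit 3038947522) (nat_lit 721) (nat_lit 5) (nat_lit 732) (nat_lit 5) (nat_lit 722) (nat_lit 5) (nat_lit 539) (nat_lit 513) (nat_lit 508)) (XT.lf (nat_lit 0) (nat_lit 2286830796) (nat_lit 836) (nat_lit 2584915485) (nat_lit 912) (nat_lit 1766633146) (nat_lit 710) (nat_lit 5) (nat_lit 721) (nat_lit 5) (nat_lit 722) (nat_lit 5) (nat_lit 540) (nat_lit 513) (nat_lit 507)))) (XT.nd (nat_lit 156) (nat_lit 1064) (nat_lit 0) (XT.nd (nat_lit 78) (nat_lit 912) (nat_lit 0) (XT.lf (nat_lit 0) (nat_lit 1331586065) (nat_lit 912) (nat_lit 199297535) (nat_lit 76) (nat_lit 5129227509) (nat_lit 709) (nat_lit 5) (nat_lit 721) (nat_lit 5) (nat_lit 710)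 (nat_lit 5) (nat_lit 541) (nat_lit 513) (nat_lit 506)) (XT.lf (nat_lit 0) (nat_lit 4024856698) (nat_lit 912) (nat_lit 399591437) (nat_lit 988) (nat_lit 2258475803) (nat_lit 697) (nat_lit 5) (nat_lit 709) (nat_lit 5) (nat_lit 710) (nat_lit 5) (nat_lit 542) (nat_lit 513) (nat_lit 505))) (XT.nd (nat_lit 78) (nat_lit 0) (nat_lit 0) (XT.lf (nat_lit 0) (nat_lit 809079401) (nat_lit 1064) (nat_lit 5119931455) (nat_lit 76) (nat_lit 778124196) (nat_lit 683) (nat_lit 5) (nat_lit 697) (nat_lit 5) (nat_lit 684) (nat_lit 5) (nat_lit 543) (nat_lit 513) (nat_lit 504)) (XT.lf (nat_lit 0) (nat_lit 3860243664) (nat_lit 1064) (nat_lit 849722363) (nat_lit 76) (nat_lit 2022522159) (nat_lit 683) (nat_lit 5) (nat_lit 697) (nat_lit 5) (nat_lit 684) (nat_lit 5) (nat_lit 544) (nat_lit 513) (nat_lit 503)))))) (XT.nd (nat_lit 546) (nat_lit 8208) (nat_lit 0) (XT.nd (nat_lit 234) (nat_lit 4028) (nat_lit 0) (XT.nd (nat_lit 78) (nat_lit 1140) (nat_lit 0) (XT.lf (nat_lit 0) (nat_lit 166899341) (nat_lit 1140) (nat_lit 3261435115) (nat_lit 76) (nat_lit 3330879740) (nat_lit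 668) (nat_lit 5) (nat_lit 683) (nat_lit 5) (nat_lit 669) (nat_lit 5) (nat_lit 545) (nat_lit 513) (nat_lit 502)) (XT.nd (nat_lit 78) (nat_lit 0) (nat_lit 0) (XT.lf (nat_lit 0) (nat_lit 1099327418) (nat_lit 1140) (nat_lit 2075684459) (nat_lit 1216) (nat_lit 3612156217) (nat_lit 653) (nat_lit 5) (nat_lit 668) (nat_lit 5) (nat_lit 669) (nat_lit 5) (nat_lit 546) (nat_lit 513) (nat_lit 501)) (XT.lf (nat_lit 0) (nat_lit 5538446970) (nat_lit 1140) (nat_lit 661412256) (nat_lit 1216) (nat_lit 616696255) (nat_lit 653) (nat_lit 5) (nat_lit 668) (nat_lit 5) (nat_lit 669) (nat_lit 5) (nat_lit 547) (nat_lit 513) (nat_lit 500)))) (XT.nd (nat_lit 156) (nat_lit 1444) (nat_lit 0) (XT.nd (nat_lit 78) (nat_lit 1292) (nat_lit 0) (XT.lf (nat_lit 0) (nat_lit 2368346700) (nat_lit 1292) (nat_lit 3659511610) (nat_lit 76) (nat_lit 819128122) (nat_lit 636) (nat_lit 5) (nat_lit 653) (nat_lit 5) (nat_lit 637) (nat_lit 5) (nat_lit 548) (nat_lit 513) (nat_lit 499)) (XT.lf (nat_lit 0) (nat_lit 830319781) (nat_lit 1292) (nat_lit 4529457452) (nat_lit 1368) (nat_lit 1519073881)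 (nat_lit 619) (nat_lit 5) (nat_lit 636) (nat_lit 5) (nat_lit 637) (nat_lit 5) (nat_lit 549) (nat_lit 513) (nat_lit 498))) (XT.nd (nat_lit 78) (nat_lit 1368) (nat_lit 0) (XT.lf (nat_lit 0) (nat_lit 1441743497) (nat_lit 1368) (nat_lit 1515585334) (nat_lit 76) (nat_lit 3954600253) (nat_lit 618) (nat_lit 5) (nat_lit 636) (nat_lit 5) (nat_lit 619) (nat_lit 5) (nat_lit 550) (nat_lit 513) (nat_lit 497)) (XT.lf (nat_lit 0) (nat_lit 3085110224) (nat_lit 1368) (nat_lit 1314620260) (nat_lit 1444) (nat_lit 2546576641) (nat_lit 600) (nat_lit 5) (nat_lit 618) (nat_lit 5) (nat_lit 619) (nat_lit 5) (nat_lit 551) (nat_lit 513) (nat_lit 496))))) (XT.nd (nat_lit 312) (nat_lit 3496) (nat_lit 0) (XT.nd (nat_lit 156) (nat_lit 3192) (nat_lit 0) (XT.nd (nat_lit 78) (nat_lit 0) (nat_lit 0) (XT.lf (nat_lit 0) (nat_lit 386248696) (nat_lit 1520) (nat_lit 6214127666) (nat_lit 76) (nat_lit 381815697) (nat_lit 580) (nat_lit 5) (nat_lit 600) (nat_lit 5) (nat_lit 581) (nat_lit 5) (nat_lit 552) (nat_lit 513) (nat_lit 495)) (XT.lf (nat_lit 0) (nat_lit 3318055524) (nat_lit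 1520) (nat_lit 1556453867) (nat_lit 76) (nat_lit 2144465077) (nat_lit 580) (nat_lit 5) (nat_lit 600) (nat_lit 5) (nat_lit 581) (nat_lit 5) (nat_lit 553) (nat_lit 513) (nat_lit 494))) (XT.nd (nat_lit 78) (nat_lit 1672) (nat_lit 0) (XT.lf (nat_lit 0) (nat_lit 3182499312) (nat_lit 1520) (nat_lit 3087449737) (nat_lit 1596) (nat_lit 787319274) (nat_lit 560) (nat_lit 5) (nat_lit 580) (nat_lit 5) (nat_lit 581) (nat_lit 5) (nat_lit 554) (nat_lit 513) (nat_lit 493)) (XT.lf (nat_lit 0) (nat_lit 884512016) (nat_lit 1596) (nat_lit 1228857708) (nat_lit 1672) (nat_lit 4983529920) (nat_lit 538) (nat_lit 5) (nat_lit 559) (nat_lit 5) (nat_lit 560) (nat_lit 5) (nat_lit 555) (nat_lit 513) (nat_lit 492)))) (XT.nd (nat_lit 156) (nat_lit 1748) (nat_lit 0) (XT.nd (nat_lit 78) (nat_lit 1748) (nat_lit 0) (XT.lf (nat_lit 0) (nat_lit 5034087584) (nat_lit 1672) (nat_lit 1409900454) (nat_lit 76) (nat_lit 693784855) (nat_lit 538) (nat_lit 5) (nat_lit 560) (nat_lit 5) (nat_lit 539) (nat_lit 5) (nat_lit 556) (nat_lit 513) (nat_lit 491)) (XT.lf (nat_lit 0) (nat_lit 796505898)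 (nat_lit 1748) (nat_lit 3713000434) (nat_lit 76) (nat_lit 2670379674) (nat_lit 515) (nat_lit 5) (nat_lit 538) (nat_lit 5) (nat_lit 516) (nat_lit 5) (nat_lit 557) (nat_lit 513) (nat_lit 490))) (XT.nd (nat_lit 78) (nat_lit 0) (nat_lit 0) (XT.lf (nat_lit 0) (nat_lit 1185007069) (nat_lit 1748) (nat_lit 2502340987) (nat_lit 1824) (nat_lit 3536003181) (nat_lit 492) (nat_lit 5) (nat_lit 515) (nat_lit 5) (nat_lit 516) (nat_lit 5) (nat_lit 558) (nat_lit 513) (nat_lit 489)) (XT.lf (nat_lit 0) (nat_lit 6177455147) (nat_lit 1748) (nat_lit 427796364) (nat_lit 1824) (nat_lit 663053557) (nat_lit 492) (nat_lit 5) (nat_lit 515) (nat_lit 5) (nat_lit 516) (nat_lit 5) (nat_lit 559) (nat_lit 513) (nat_lit 488))))))) (XT.nd (nat_lit 1170) (nat_lit 7296) (nat_lit 0) (XT.nd (nat_lit 546) (nat_lit 4940) (nat_lit 0) (XT.nd (nat_lit 234) (nat_lit 2736) (nat_lit 0) (XT.nd (nat_lit 78) (nat_lit 1140) (nat_lit 0) (XT.lf (nat_lit 0) (nat_lit 2219484512) (nat_lit 1900) (nat_lit 3386687037) (nat_lit 76) (nat_lit 1708058703) (nat_lit 467) (nat_lit 5) (nat_lit 492) (nat_lit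 5) (nat_lit 468) (nat_lit 5) (nat_lit 560) (nat_lit 513) (nat_lit 487)) (XT.nd (nat_lit 78) (nat_lit 76) (nat_lit 0) (XT.lf (nat_lit 0) (nat_lit 1660395779) (nat_lit 1064) (nat_lit 3457182914) (nat_lit 1140) (nat_lit 2244075865) (nat_lit 453) (nat_lit 5) (nat_lit 467) (nat_lit 5) (nat_lit 468) (nat_lit 5) (nat_lit 561) (nat_lit 513) (nat_lit 486)) (XT.lf (nat_lit 0) (nat_lit 623928988) (nat_lit 1140) (nat_lit 614338024) (nat_lit 76) (nat_lit 6172297460) (nat_lit 452) (nat_lit 5) (nat_lit 467) (nat_lit 5) (nat_lit 453) (nat_lit 5) (nat_lit 562) (nat_lit 513) (nat_lit 485)))) (XT.nd (nat_lit 156) (nat_lit 912) (nat_lit 0) (XT.nd (nat_lit 78) (nat_lit 912) (nat_lit 0) (XT.lf (nat_lit 0) (nat_lit 3503066705) (nat_lit 988) (nat_lit 2901788871) (nat_lit 76) (nat_lit 1055627640) (nat_lit 440) (nat_lit 5) (nat_lit 453) (nat_lit 5) (nat_lit 441) (nat_lit 5) (nat_lit 563) (nat_lit 513) (nat_lit 484)) (XT.lf (nat_lit 0) (nat_lit 2299883862) (nat_lit 912) (nat_lit 4115072413) (nat_lit 988) (nat_lit 1096944323) (nat_lit 428) (nat_lit 5) (nat_lit 440)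 (nat_lit 5) (nat_lit 441) (nat_lit 5) (nat_lit 564) (nat_lit 513) (nat_lit 483))) (XT.nd (nat_lit 78) (nat_lit 0) (nat_lit 0) (XT.lf (nat_lit 0) (nat_lit 14625525) (nat_lit 836) (nat_lit 1750143115) (nat_lit 912) (nat_lit 5799986550) (nat_lit 416) (nat_lit 5) (nat_lit 427) (nat_lit 5) (nat_lit 428) (nat_lit 5) (nat_lit 565) (nat_lit 513) (nat_lit 482)) (XT.lf (nat_lit 0) (nat_lit 4657404594) (nat_lit 912) (nat_lit 2268541552) (nat_lit 76) (nat_lit 692811610) (nat_lit 416) (nat_lit 5) (nat_lit 428) (nat_lit 5) (nat_lit 417) (nat_lit 5) (nat_lit 566) (nat_lit 513) (nat_lit 481))))) (XT.nd (nat_lit 312) (nat_lit 2280) (nat_lit 0) (XT.nd (nat_lit 156) (nat_lit 912) (nat_lit 0) (XT.nd (nat_lit 78) (nat_lit 912) (nat_lit 0) (XT.lf (nat_lit 0) (nat_lit 3093512666) (nat_lit 836) (nat_lit 4495916274) (nat_lit 912) (nat_lit 84784087) (nat_lit 405) (nat_lit 5) (nat_lit 416) (nat_lit 5) (nat_lit 417) (nat_lit 5) (nat_lit 567) (nat_lit 513) (nat_lit 480)) (XT.lf (nat_lit 0) (nat_lit 800527710) (nat_lit 836) (nat_lit 1982103803) (nat_lit 912) (nat_lit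 4948365445) (nat_lit 393) (nat_lit 5) (nat_lit 404) (nat_lit 5) (nat_lit 405) (nat_lit 5) (nat_lit 568) (nat_lit 513) (nat_lit 479))) (XT.nd (nat_lit 78) (nat_lit 912) (nat_lit 0) (XT.lf (nat_lit 0) (nat_lit 5691739526) (nat_lit 912) (nat_lit 1496426521) (nat_lit 76) (nat_lit 601032899) (nat_lit 393) (nat_lit 5) (nat_lit 405) (nat_lit 5) (nat_lit 394) (nat_lit 5) (nat_lit 569) (nat_lit 513) (nat_lit 478)) (XT.lf (nat_lit 0) (nat_lit 790801013) (nat_lit 912) (nat_lit 3821872693) (nat_lit 76) (nat_lit 3235969762) (nat_lit 381) (nat_lit 5) (nat_lit 393) (nat_lit 5) (nat_lit 382) (nat_lit 5) (nat_lit 570) (nat_lit 513) (nat_lit 477)))) (XT.nd (nat_lit 156) (nat_lit 1520) (nat_lit 0) (XT.nd (nat_lit 78) (nat_lit 0) (nat_lit 0) (XT.lf (nat_lit 0) (nat_lit 1726060810) (nat_lit 760) (nat_lit 1956024608) (nat_lit 836) (nat_lit 4227450293) (nat_lit 371) (nat_lit 5) (nat_lit 381) (nat_lit 5) (nat_lit 382) (nat_lit 5) (nat_lit 571) (nat_lit 513) (nat_lit 476)) (XT.lf (nat_lit 0) (nat_lit 6614457445) (nat_lit 836) (nat_lit 594249288) (nat_lit 76) (nat_lit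 763276758) (nat_lit 371) (nat_lit 5) (nat_lit 382) (nat_lit 5) (nat_lit 372) (nat_lit 5) (nat_lit 572) (nat_lit 513) (nat_lit 475))) (XT.nd (nat_lit 78) (nat_lit 684) (nat_lit 0) (XT.lf (nat_lit 0) (nat_lit 1548796932) (nat_lit 836) (nat_lit 2938831184) (nat_lit 76) (nat_lit 3547859319) (nat_lit 360) (nat_lit 5) (nat_lit 371) (nat_lit 5) (nat_lit 361) (nat_lit 5) (nat_lit 573) (nat_lit 513) (nat_lit 474)) (XT.lf (nat_lit 0) (nat_lit 2782731375) (nat_lit 684) (nat_lit 1688176383) (nat_lit 760) (nat_lit 3629660223) (nat_lit 351) (nat_lit 5) (nat_lit 360) (nat_lit 5) (nat_lit 361) (nat_lit 5) (nat_lit 574) (nat_lit 513) (nat_lit 473)))))) (XT.nd (nat_lit 546) (nat_lit 3648) (nat_lit 0) (XT.nd (nat_lit 234) (nat_lit 2128) (nat_lit 0) (XT.nd (nat_lit 78) (nat_lit 760) (nat_lit 0) (XT.lf (nat_lit 0) (nat_lit 435497188) (nat_lit 760) (nat_lit 7000468871) (nat_lit 836) (nat_lit 731296680) (nat_lit 341) (nat_lit 5) (nat_lit 351) (nat_lit 5) (nat_lit 352) (nat_lit 5) (nat_lit 575) (nat_lit 513) (nat_lit 472)) (XT.nd (nat_lit 78) (nat_lit 684) (nat_lit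 0) (XT.lf (nat_lit 0) (nat_lit 2197445067) (nat_lit 836) (nat_lit 1939218098) (nat_lit 76) (nat_lit 4098310051) (nat_lit 340) (nat_lit 5) (nat_lit 351) (nat_lit 5) (nat_lit 341) (nat_lit 5) (nat_lit 576) (nat_lit 513) (nat_lit 471)) (XT.lf (nat_lit 0) (nat_lit 3962621453) (nat_lit 684) (nat_lit 1193468461) (nat_lit 760) (nat_lit 3148231456) (nat_lit 331) (nat_lit 5) (nat_lit 340) (nat_lit 5) (nat_lit 341) (nat_lit 5) (nat_lit 577) (nat_lit 513) (nat_lit 470)))) (XT.nd (nat_lit 156) (nat_lit 1368) (nat_lit 0) (XT.nd (nat_lit 78) (nat_lit 76) (nat_lit 0) (XT.lf (nat_lit 0) (nat_lit 1588839995) (nat_lit 684) (nat_lit 6576077137) (nat_lit 760) (nat_lit 210321669) (nat_lit 322) (nat_lit 5) (nat_lit 331) (nat_lit 5) (nat_lit 332) (nat_lit 5) (nat_lit 578) (nat_lit 513) (nat_lit 469)) (XT.lf (nat_lit 0) (nat_lit 2743111399) (nat_lit 760) (nat_lit 830722993) (nat_lit 76) (nat_lit 4873514607) (nat_lit 321) (nat_lit 5) (nat_lit 331) (nat_lit 5) (nat_lit 322) (nat_lit 5) (nat_lit 579) (nat_lit 513) (nat_lit 468))) (XT.nd (nat_lit 78) (nat_lit 760)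 (nat_lit 0) (XT.lf (nat_lit 0) (nat_lit 5258316474) (nat_lit 608) (nat_lit 485561513) (nat_lit 684) (nat_lit 2777176343) (nat_lit 313) (nat_lit 5) (nat_lit 321) (nat_lit 5) (nat_lit 322) (nat_lit 5) (nat_lit 580) (nat_lit 513) (nat_lit 467)) (XT.lf (nat_lit 0) (nat_lit 204471947) (nat_lit 760) (nat_lit 5747037072) (nat_lit 76) (nat_lit 2644724365) (nat_lit 303) (nat_lit 5) (nat_lit 313) (nat_lit 5) (nat_lit 304) (nat_lit 5) (nat_lit 581) (nat_lit 513) (nat_lit 466))))) (XT.nd (nat_lit 312) (nat_lit 1748) (nat_lit 0) (XT.nd (nat_lit 156) (nat_lit 1292) (nat_lit 0) (XT.nd (nat_lit 78) (nat_lit 0) (nat_lit 0) (XT.lf (nat_lit 0) (nat_lit 384439508) (nat_lit 608) (nat_lit 2809492076) (nat_lit 684) (nat_lit 5478912218) (nat_lit 295) (nat_lit 5) (nat_lit 303) (nat_lit 5) (nat_lit 304) (nat_lit 5) (nat_lit 582) (nat_lit 513) (nat_lit 465)) (XT.lf (nat_lit 0) (nat_lit 6242554974) (nat_lit 684) (nat_lit 2090967606) (nat_lit 76) (nat_lit 417478536) (nat_lit 295) (nat_lit 5) (nat_lit 304) (nat_lit 5) (nat_lit 296) (nat_lit 5) (nat_lit 583) (nat_lit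 513) (nat_lit 464))) (XT.nd (nat_lit 78) (nat_lit 608) (nat_lit 0) (XT.lf (nat_lit 0) (nat_lit 519394925) (nat_lit 684) (nat_lit 4620281197) (nat_lit 76) (nat_lit 3690883751) (nat_lit 286) (nat_lit 5) (nat_lit 295) (nat_lit 5) (nat_lit 287) (nat_lit 5) (nat_lit 584) (nat_lit 513) (nat_lit 463)) (XT.lf (nat_lit 0) (nat_lit 1706633738) (nat_lit 608) (nat_lit 1851809736) (nat_lit 684) (nat_lit 5353251992) (nat_lit 278) (nat_lit 5) (nat_lit 286) (nat_lit 5) (nat_lit 287) (nat_lit 5) (nat_lit 585) (nat_lit 513) (nat_lit 462)))) (XT.nd (nat_lit 156) (nat_lit 1064) (nat_lit 0) (XT.nd (nat_lit 78) (nat_lit 684) (nat_lit 0) (XT.lf (nat_lit 0) (nat_lit 6658612785) (nat_lit 684) (nat_lit 834960770) (nat_lit 76) (nat_lit 1500875432) (nat_lit 278) (nat_lit 5) (nat_lit 287) (nat_lit 5) (nat_lit 279) (nat_lit 5) (nat_lit 586) (nat_lit 513) (nat_lit 461)) (XT.lf (nat_lit 0) (nat_lit 741521406) (nat_lit 684) (nat_lit 3411717465) (nat_lit 76) (nat_lit 4925337820) (nat_lit 269) (nat_lit 5) (nat_lit 278) (nat_lit 5) (nat_lit 270) (nat_lit 5) (nat_lit 587) (nat_lit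 513) (nat_lit 460))) (XT.nd (nat_lit 78) (nat_lit 532) (nat_lit 0) (XT.lf (nat_lit 0) (nat_lit 3118135848) (nat_lit 532) (nat_lit 717280892) (nat_lit 608) (nat_lit 5328937960) (nat_lit 262) (nat_lit 5) (nat_lit 269) (nat_lit 5) (nat_lit 270) (nat_lit 5) (nat_lit 588) (nat_lit 513) (nat_lit 459)) (XT.lf (nat_lit 0) (nat_lit 508500725) (nat_lit 532) (nat_lit 6487835619) (nat_lit 608) (nat_lit 2255410856) (nat_lit 255) (nat_lit 5) (nat_lit 262) (nat_lit 5) (nat_lit 263) (nat_lit 5) (nat_lit 589) (nat_lit 513) (nat_lit 458))))))))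
noncomputable def xc25 : XT := (XT.nd (nat_lit 77610) (nat_lit 0) (nat_lit 13908) (XT.nd (nat_lit 1170) (nat_lit 836) (nat_lit 0) (XT.nd (nat_lit 546) (nat_lit 2356) (nat_lit 0) (XT.nd (nat_lit 234) (nat_lit 1596) (nat_lit 0) (XT.nd (nat_lit 78) (nat_lit 1064) (nat_lit 0) (XT.lf (nat_lit 0) (nat_lit 874511391) (nat_lit 608) (nat_lit 2128065512) (nat_lit 76) (nat_lit 6338069006) (nat_lit 254) (nat_lit 5) (nat_lit 262) (nat_lit 5) (nat_lit 255) (nat_lit 5) (nat_lit 590) (nat_lit 513) (nat_lit 457)) (XT.nd (nat_lit 78) (nat_lit 532) (nat_lit 0) (XT.lf (nat_lit 0) (nat_lit 4032235388) (nat_lit 608) (nat_lit 4822492532) (nat_lit 76) (nat_lit 576390194) (nat_lit 247) (nat_lit 5) (nat_lit 255) (nat_lit 5) (nat_lit 248) (nat_lit 5) (nat_lit 591) (nat_lit 513) (nat_lit 456)) (XT.lf (nat_lit 0) (nat_lit 1938420246) (nat_lit 532) (nat_lit 5323495993) (nat_lit 608) (nat_lit 2261309194) (nat_lit 240) (nat_lit 5) (nat_lit 247) (nat_lit 5) (nat_lit 248) (nat_lit 5) (nat_lit 592) (nat_lit 513) (nat_lit 455)))) (XT.nd (nat_lit 156) (nat_lit 1064) (nat_lit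 0) (XT.nd (nat_lit 78) (nat_lit 456) (nat_lit 0) (XT.lf (nat_lit 0) (nat_lit 921387885) (nat_lit 608) (nat_lit 775881149) (nat_lit 76) (nat_lit 7919891832) (nat_lit 239) (nat_lit 5) (nat_lit 247) (nat_lit 5) (nat_lit 240) (nat_lit 5) (nat_lit 593) (nat_lit 513) (nat_lit 454)) (XT.lf (nat_lit 0) (nat_lit 4153753735) (nat_lit 532) (nat_lit 3542464067) (nat_lit 76) (nat_lit 2016134003) (nat_lit 233) (nat_lit 5) (nat_lit 240) (nat_lit 5) (nat_lit 234) (nat_lit 5) (nat_lit 594) (nat_lit 513) (nat_lit 453))) (XT.nd (nat_lit 78) (nat_lit 532) (nat_lit 0) (XT.lf (nat_lit 0) (nat_lit 3437329268) (nat_lit 532) (nat_lit 4015387996) (nat_lit 608) (nat_lit 2356691879) (nat_lit 226) (nat_lit 5) (nat_lit 233) (nat_lit 5) (nat_lit 234) (nat_lit 5) (nat_lit 595) (nat_lit 513) (nat_lit 452)) (XT.lf (nat_lit 0) (nat_lit 646858236) (nat_lit 456) (nat_lit 241892613) (nat_lit 532) (nat_lit 9019711766) (nat_lit 219) (nat_lit 5) (nat_lit 225) (nat_lit 5) (nat_lit 226) (nat_lit 5) (nat_lit 596) (nat_lit 513) (nat_lit 451))))) (XT.nd (nat_lit 312) (nat_lit 1368)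 (nat_lit 0) (XT.nd (nat_lit 156) (nat_lit 532) (nat_lit 0) (XT.nd (nat_lit 78) (nat_lit 456) (nat_lit 0) (XT.lf (nat_lit 0) (nat_lit 4197612874) (nat_lit 532) (nat_lit 2208052869) (nat_lit 76) (nat_lit 3602920022) (nat_lit 219) (nat_lit 5) (nat_lit 226) (nat_lit 5) (nat_lit 220) (nat_lit 5) (nat_lit 597) (nat_lit 513) (nat_lit 450)) (XT.lf (nat_lit 0) (nat_lit 4998910396) (nat_lit 456) (nat_lit 2572088503) (nat_lit 532) (nat_lit 2539747010) (nat_lit 213) (nat_lit 5) (nat_lit 219) (nat_lit 5) (nat_lit 220) (nat_lit 5) (nat_lit 598) (nat_lit 513) (nat_lit 449))) (XT.nd (nat_lit 78) (nat_lit 0) (nat_lit 0) (XT.lf (nat_lit 0) (nat_lit 788465834) (nat_lit 532) (nat_lit 8087508437) (nat_lit 76) (nat_lit 1338832634) (nat_lit 206) (nat_lit 5) (nat_lit 213) (nat_lit 5) (nat_lit 207) (nat_lit 5) (nat_lit 599) (nat_lit 513) (nat_lit 448)) (XT.lf (nat_lit 0) (nat_lit 4165510538) (nat_lit 532) (nat_lit 825849680) (nat_lit 76) (nat_lit 5328929034) (nat_lit 206) (nat_lit 5) (nat_lit 213) (nat_lit 5) (nat_lit 207) (nat_lit 5) (nat_lit 600) (nat_lit 513)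 (nat_lit 447)))) (XT.nd (nat_lit 156) (nat_lit 456) (nat_lit 0) (XT.nd (nat_lit 78) (nat_lit 456) (nat_lit 0) (XT.lf (nat_lit 0) (nat_lit 6616829395) (nat_lit 456) (nat_lit 1001599200) (nat_lit 532) (nat_lit 2809287355) (nat_lit 200) (nat_lit 5) (nat_lit 206) (nat_lit 5) (nat_lit 207) (nat_lit 5) (nat_lit 601) (nat_lit 513) (nat_lit 446)) (XT.lf (nat_lit 0) (nat_lit 610171977) (nat_lit 456) (nat_lit 6881837098) (nat_lit 76) (nat_lit 3044905730) (nat_lit 194) (nat_lit 5) (nat_lit 200) (nat_lit 5) (nat_lit 195) (nat_lit 5) (nat_lit 602) (nat_lit 513) (nat_lit 445))) (XT.nd (nat_lit 78) (nat_lit 0) (nat_lit 0) (XT.lf (nat_lit 0) (nat_lit 605407256) (nat_lit 456) (nat_lit 3457070616) (nat_lit 532) (nat_lit 6585408180) (nat_lit 188) (nat_lit 5) (nat_lit 194) (nat_lit 5) (nat_lit 195) (nat_lit 5) (nat_lit 603) (nat_lit 513) (nat_lit 444)) (XT.lf (nat_lit 0) (nat_lit 7600554337) (nat_lit 532) (nat_lit 2480642507) (nat_lit 76) (nat_lit 679546641) (nat_lit 188) (nat_lit 5) (nat_lit 195) (nat_lit 5) (nat_lit 189) (nat_lit 5) (nat_lit 604) (nat_lit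 513) (nat_lit 443)))))) (XT.nd (nat_lit 75816) (nat_lit 0) (nat_lit 38456) (XT.nd (nat_lit 75504) (nat_lit 0) (nat_lit 42940) (XT.nd (nat_lit 78) (nat_lit 380) (nat_lit 0) (XT.lf (nat_lit 0) (nat_lit 352778538) (nat_lit 456) (nat_lit 5650192846) (nat_lit 76) (nat_lit 4872372202) (nat_lit 182) (nat_lit 5) (nat_lit 188) (nat_lit 5) (nat_lit 183) (nat_lit 5) (nat_lit 605) (nat_lit 513) (nat_lit 442)) (XT.nd (nat_lit 78) (nat_lit 0) (nat_lit 0) (XT.lf (nat_lit 0) (nat_lit 2082366578) (nat_lit 380) (nat_lit 1808377905) (nat_lit 456) (nat_lit 7101133531) (nat_lit 177) (nat_lit 5) (nat_lit 182) (nat_lit 5) (nat_lit 183) (nat_lit 5) (nat_lit 606) (nat_lit 513) (nat_lit 441)) (XT.lf (nat_lit 0) (nat_lit 7520623894) (nat_lit 456) (nat_lit 1131008026) (nat_lit 76) (nat_lit 2458689284) (nat_lit 177) (nat_lit 5) (nat_lit 183) (nat_lit 5) (nat_lit 178) (nat_lit 5) (nat_lit 607) (nat_lit 513) (nat_lit 440)))) (XT.nd (nat_lit 156) (nat_lit 684) (nat_lit 0) (XT.nd (nat_lit 78) (nat_lit 532) (nat_lit 0) (XT.lf (nat_lit 0) (nat_lit 800147564) (nat_lit 532)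 (nat_lit 1655067633) (nat_lit 0) (nat_lit 800147564) (nat_lit 758) (nat_lit 5) (nat_lit 765) (nat_lit 4) (nat_lit 758) (nat_lit 4) (nat_lit 532) (nat_lit 514) (nat_lit 514)) (XT.lf (nat_lit 0) (nat_lit 501763077) (nat_lit 532) (nat_lit 4323877540) (nat_lit 532) (nat_lit 1697205862) (nat_lit 751) (nat_lit 4) (nat_lit 758) (nat_lit 5) (nat_lit 758) (nat_lit 4) (nat_lit 533) (nat_lit 514) (nat_lit 513))) (XT.nd (nat_lit 78) (nat_lit 608) (nat_lit 0) (XT.lf (nat_lit 0) (nat_lit 1504598252) (nat_lit 608) (nat_lit 2162551521) (nat_lit 76) (nat_lit 2868962268) (nat_lit 750) (nat_lit 5) (nat_lit 758) (nat_lit 5) (nat_lit 751) (nat_lit 4) (nat_lit 534) (nat_lit 514) (nat_lit 512)) (XT.lf (nat_lit 0) (nat_lit 1733521457) (nat_lit 608) (nat_lit 2949664811) (nat_lit 684) (nat_lit 1867530854) (nat_lit 742) (nat_lit 5) (nat_lit 750) (nat_lit 5) (nat_lit 751) (nat_lit 4) (nat_lit 535) (nat_lit 514) (nat_lit 511))))) (XT.nd (nat_lit 312) (nat_lit 2888) (nat_lit 0) (XT.nd (nat_lit 156) (nat_lit 836) (nat_lit 0) (XT.nd (nat_lit 78) (nat_lit 684) (nat_lit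 0) (XT.lf (nat_lit 0) (nat_lit 1281358014) (nat_lit 684) (nat_lit 889213887) (nat_lit 76) (nat_lit 4396084388) (nat_lit 741) (nat_lit 5) (nat_lit 750) (nat_lit 5) (nat_lit 742) (nat_lit 5) (nat_lit 536) (nat_lit 514) (nat_lit 510)) (XT.lf (nat_lit 0) (nat_lit 3094768530) (nat_lit 684) (nat_lit 1319891494) (nat_lit 760) (nat_lit 2169086076) (nat_lit 732) (nat_lit 5) (nat_lit 741) (nat_lit 5) (nat_lit 742) (nat_lit 5) (nat_lit 537) (nat_lit 514) (nat_lit 509))) (XT.nd (nat_lit 78) (nat_lit 0) (nat_lit 0) (XT.lf (nat_lit 0) (nat_lit 518204925) (nat_lit 760) (nat_lit 414331624) (nat_lit 836) (nat_lit 5669790864) (nat_lit 721) (nat_lit 5) (nat_lit 731) (nat_lit 5) (nat_lit 732) (nat_lit 5) (nat_lit 538) (nat_lit 514) (nat_lit 508)) (XT.lf (nat_lit 0) (nat_lit 4022239808) (nat_lit 836) (nat_lit 2038480659) (nat_lit 76) (nat_lit 561178433) (nat_lit 721) (nat_lit 5) (nat_lit 732) (nat_lit 5) (nat_lit 722) (nat_lit 5) (nat_lit 539) (nat_lit 514) (nat_lit 507)))) (XT.nd (nat_lit 156) (nat_lit 1976) (nat_lit 0) (XT.nd (nat_lit 78) (nat_lit 0) (nat_lit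 0) (XT.lf (nat_lit 0) (nat_lit 470255028) (nat_lit 912) (nat_lit 4585325468) (nat_lit 76) (nat_lit 1587312017) (nat_lit 709) (nat_lit 5) (nat_lit 721) (nat_lit 5) (nat_lit 710) (nat_lit 5) (nat_lit 540) (nat_lit 514) (nat_lit 506)) (XT.lf (nat_lit 0) (nat_lit 3510739944) (nat_lit 912) (nat_lit 470400489) (nat_lit 76) (nat_lit 2683948984) (nat_lit 709) (nat_lit 5) (nat_lit 721) (nat_lit 5) (nat_lit 710) (nat_lit 5) (nat_lit 541) (nat_lit 514) (nat_lit 505))) (XT.nd (nat_lit 78) (nat_lit 1064) (nat_lit 0) (XT.lf (nat_lit 0) (nat_lit 3724465069) (nat_lit 912) (nat_lit 2843299756) (nat_lit 988) (nat_lit 120857433) (nat_lit 697) (nat_lit 5) (nat_lit 709) (nat_lit 5) (nat_lit 710) (nat_lit 5) (nat_lit 542) (nat_lit 514) (nat_lit 504)) (XT.lf (nat_lit 0) (nat_lit 1242231565) (nat_lit 988) (nat_lit 1635427869) (nat_lit 1064) (nat_lit 3835719565) (nat_lit 683) (nat_lit 5) (nat_lit 696) (nat_lit 5) (nat_lit 697) (nat_lit 5) (nat_lit 543) (nat_lit 514) (nat_lit 503))))))) (XT.nd (nat_lit 1170) (nat_lit 10032) (nat_lit 0) (XT.nd (nat_lit 546) (nat_lit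 9576) (nat_lit 0) (XT.nd (nat_lit 234) (nat_lit 2660) (nat_lit 0) (XT.nd (nat_lit 78) (nat_lit 2280) (nat_lit 0) (XT.lf (nat_lit 0) (nat_lit 5520680970) (nat_lit 988) (nat_lit 366839436) (nat_lit 1064) (nat_lit 852040872) (nat_lit 683) (nat_lit 5) (nat_lit 696) (nat_lit 5) (nat_lit 697) (nat_lit 5) (nat_lit 544) (nat_lit 514) (nat_lit 502)) (XT.nd (nat_lit 78) (nat_lit 1140) (nat_lit 0) (XT.lf (nat_lit 0) (nat_lit 2122975092) (nat_lit 1140) (nat_lit 3679784487) (nat_lit 76) (nat_lit 964020991) (nat_lit 668) (nat_lit 5) (nat_lit 683) (nat_lit 5) (nat_lit 669) (nat_lit 5) (nat_lit 545) (nat_lit 514) (nat_lit 501)) (XT.lf (nat_lit 0) (nat_lit 649147193) (nat_lit 1140) (nat_lit 4446854778) (nat_lit 1216) (nat_lit 1699437113) (nat_lit 653) (nat_lit 5) (nat_lit 668) (nat_lit 5) (nat_lit 669) (nat_lit 5) (nat_lit 546) (nat_lit 514) (nat_lit 500)))) (XT.nd (nat_lit 156) (nat_lit 1368) (nat_lit 0) (XT.nd (nat_lit 78) (nat_lit 1216) (nat_lit 0) (XT.lf (nat_lit 0) (nat_lit 1247113166) (nat_lit 1216) (nat_lit 1771157340) (nat_lit 76) (nat_lit 3807028704)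 (nat_lit 652) (nat_lit 5) (nat_lit 668) (nat_lit 5) (nat_lit 653) (nat_lit 5) (nat_lit 547) (nat_lit 514) (nat_lit 499)) (XT.lf (nat_lit 0) (nat_lit 2663302487) (nat_lit 1216) (nat_lit 1520651207) (nat_lit 1292) (nat_lit 2672501409) (nat_lit 636) (nat_lit 5) (nat_lit 652) (nat_lit 5) (nat_lit 653) (nat_lit 5) (nat_lit 548) (nat_lit 514) (nat_lit 498))) (XT.nd (nat_lit 78) (nat_lit 0) (nat_lit 0) (XT.lf (nat_lit 0) (nat_lit 238708727) (nat_lit 1368) (nat_lit 6617689959) (nat_lit 76) (nat_lit 32778268) (nat_lit 618) (nat_lit 5) (nat_lit 636) (nat_lit 5) (nat_lit 619) (nat_lit 5) (nat_lit 549) (nat_lit 514) (nat_lit 497)) (XT.lf (nat_lit 0) (nat_lit 3149030934) (nat_lit 1368) (nat_lit 2120998400) (nat_lit 76) (nat_lit 1652642355) (nat_lit 618) (nat_lit 5) (nat_lit 636) (nat_lit 5) (nat_lit 619) (nat_lit 5) (nat_lit 550) (nat_lit 514) (nat_lit 496))))) (XT.nd (nat_lit 312) (nat_lit 5092) (nat_lit 0) (XT.nd (nat_lit 156) (nat_lit 1596) (nat_lit 0) (XT.nd (nat_lit 78) (nat_lit 1520) (nat_lit 0) (XT.lf (nat_lit 0) (nat_lit 2445433561) (nat_lit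 1368) (nat_lit 3627458367) (nat_lit 1444) (nat_lit 884842849) (nat_lit 600) (nat_lit 5) (nat_lit 618) (nat_lit 5) (nat_lit 619) (nat_lit 5) (nat_lit 551) (nat_lit 514) (nat_lit 495)) (XT.lf (nat_lit 0) (nat_lit 73488402) (nat_lit 1444) (nat_lit 1915911792) (nat_lit 1520) (nat_lit 5004741931) (nat_lit 580) (nat_lit 5) (nat_lit 599) (nat_lit 5) (nat_lit 600) (nat_lit 5) (nat_lit 552) (nat_lit 514) (nat_lit 494))) (XT.nd (nat_lit 78) (nat_lit 1596) (nat_lit 0) (XT.lf (nat_lit 0) (nat_lit 4753842946) (nat_lit 1444) (nat_lit 126432552) (nat_lit 1520) (nat_lit 2151470046) (nat_lit 580) (nat_lit 5) (nat_lit 599) (nat_lit 5) (nat_lit 600) (nat_lit 5) (nat_lit 553) (nat_lit 514) (nat_lit 493)) (XT.lf (nat_lit 0) (nat_lit 717432249) (nat_lit 1596) (nat_lit 4649522959) (nat_lit 76) (nat_lit 1703681554) (nat_lit 559) (nat_lit 5) (nat_lit 580) (nat_lit 5) (nat_lit 560) (nat_lit 5) (nat_lit 554) (nat_lit 514) (nat_lit 492)))) (XT.nd (nat_lit 156) (nat_lit 3496) (nat_lit 0) (XT.nd (nat_lit 78) (nat_lit 0) (nat_lit 0) (XT.lf (nat_lit 0) (nat_lit 67702685)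 (nat_lit 1596) (nat_lit 3506256894) (nat_lit 1672) (nat_lit 3536885226) (nat_lit 538) (nat_lit 5) (nat_lit 559) (nat_lit 5) (nat_lit 560) (nat_lit 5) (nat_lit 555) (nat_lit 514) (nat_lit 491)) (XT.lf (nat_lit 0) (nat_lit 4889660359) (nat_lit 1596) (nat_lit 1572310413) (nat_lit 1672) (nat_lit 690403616) (nat_lit 538) (nat_lit 5) (nat_lit 559) (nat_lit 5) (nat_lit 560) (nat_lit 5) (nat_lit 556) (nat_lit 514) (nat_lit 490))) (XT.nd (nat_lit 78) (nat_lit 1748) (nat_lit 0) (XT.lf (nat_lit 0) (nat_lit 2147460972) (nat_lit 1748) (nat_lit 4617626582) (nat_lit 76) (nat_lit 430094366) (nat_lit 515) (nat_lit 5) (nat_lit 538) (nat_lit 5) (nat_lit 516) (nat_lit 5) (nat_lit 557) (nat_lit 514) (nat_lit 489)) (XT.lf (nat_lit 0) (nat_lit 241700364) (nat_lit 1748) (nat_lit 4763091013) (nat_lit 1824) (nat_lit 2234528080) (nat_lit 492) (nat_lit 5) (nat_lit 515) (nat_lit 5) (nat_lit 516) (nat_lit 5) (nat_lit 558) (nat_lit 514) (nat_lit 488)))))) (XT.nd (nat_lit 546) (nat_lit 5092) (nat_lit 0) (XT.nd (nat_lit 234) (nat_lit 1976) (nat_lit 0) (XT.nd (nat_lit 78)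 (nat_lit 2888) (nat_lit 0) (XT.lf (nat_lit 0) (nat_lit 602847718) (nat_lit 1824) (nat_lit 2080769215) (nat_lit 76) (nat_lit 4601119464) (nat_lit 491) (nat_lit 5) (nat_lit 515) (nat_lit 5) (nat_lit 492) (nat_lit 5) (nat_lit 559) (nat_lit 514) (nat_lit 487)) (XT.nd (nat_lit 78) (nat_lit 1064) (nat_lit 0) (XT.lf (nat_lit 0) (nat_lit 2905243222) (nat_lit 1824) (nat_lit 526829941) (nat_lit 1900) (nat_lit 3899396604) (nat_lit 467) (nat_lit 5) (nat_lit 491) (nat_lit 5) (nat_lit 492) (nat_lit 5) (nat_lit 560) (nat_lit 514) (nat_lit 486)) (XT.lf (nat_lit 0) (nat_lit 583817054) (nat_lit 1064) (nat_lit 5709631027) (nat_lit 1140) (nat_lit 1086182290) (nat_lit 453) (nat_lit 5) (nat_lit 467) (nat_lit 5) (nat_lit 468) (nat_lit 5) (nat_lit 561) (nat_lit 514) (nat_lit 485)))) (XT.nd (nat_lit 156) (nat_lit 988) (nat_lit 0) (XT.nd (nat_lit 78) (nat_lit 912) (nat_lit 0) (XT.lf (nat_lit 0) (nat_lit 1740499885) (nat_lit 1140) (nat_lit 1742926492) (nat_lit 76) (nat_lit 3945488127) (nat_lit 452) (nat_lit 5) (nat_lit 467) (nat_lit 5) (nat_lit 453) (nat_lit 5) (nat_lit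 562) (nat_lit 514) (nat_lit 484)) (XT.lf (nat_lit 0) (nat_lit 3395849681) (nat_lit 912) (nat_lit 1183622838) (nat_lit 988) (nat_lit 2900165835) (nat_lit 440) (nat_lit 5) (nat_lit 452) (nat_lit 5) (nat_lit 453) (nat_lit 5) (nat_lit 563) (nat_lit 514) (nat_lit 483))) (XT.nd (nat_lit 78) (nat_lit 76) (nat_lit 0) (XT.lf (nat_lit 0) (nat_lit 1083283751) (nat_lit 912) (nat_lit 6367201571) (nat_lit 988) (nat_lit 81389718) (nat_lit 428) (nat_lit 5) (nat_lit 440) (nat_lit 5) (nat_lit 441) (nat_lit 5) (nat_lit 564) (nat_lit 514) (nat_lit 482)) (XT.lf (nat_lit 0) (nat_lit 2741775240) (nat_lit 988) (nat_lit 1255226239) (nat_lit 76) (nat_lit 3588102557) (nat_lit 427) (nat_lit 5) (nat_lit 440) (nat_lit 5) (nat_lit 428) (nat_lit 5) (nat_lit 565) (nat_lit 514) (nat_lit 481))))) (XT.nd (nat_lit 312) (nat_lit 2508) (nat_lit 0) (XT.nd (nat_lit 156) (nat_lit 836) (nat_lit 0) (XT.nd (nat_lit 78) (nat_lit 912) (nat_lit 0) (XT.lf (nat_lit 0) (nat_lit 4042014820) (nat_lit 836) (nat_lit 1554768419) (nat_lit 912) (nat_lit 2043077588) (nat_lit 416) (nat_lit 5) (nat_lit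 427) (nat_lit 5) (nat_lit 428) (nat_lit 5) (nat_lit 566) (nat_lit 514) (nat_lit 480)) (XT.lf (nat_lit 0) (nat_lit 778990366) (nat_lit 912) (nat_lit 5971166338) (nat_lit 76) (nat_lit 945924160) (nat_lit 404) (nat_lit 5) (nat_lit 416) (nat_lit 5) (nat_lit 405) (nat_lit 5) (nat_lit 567) (nat_lit 514) (nat_lit 479))) (XT.nd (nat_lit 78) (nat_lit 836) (nat_lit 0) (XT.lf (nat_lit 0) (nat_lit 3615908412) (nat_lit 912) (nat_lit 627417912) (nat_lit 76) (nat_lit 3510116745) (nat_lit 404) (nat_lit 5) (nat_lit 416) (nat_lit 5) (nat_lit 405) (nat_lit 5) (nat_lit 568) (nat_lit 514) (nat_lit 478)) (XT.lf (nat_lit 0) (nat_lit 4834265771) (nat_lit 836) (nat_lit 1658784501) (nat_lit 912) (nat_lit 1319235648) (nat_lit 393) (nat_lit 5) (nat_lit 404) (nat_lit 5) (nat_lit 405) (nat_lit 5) (nat_lit 569) (nat_lit 514) (nat_lit 477)))) (XT.nd (nat_lit 156) (nat_lit 836) (nat_lit 0) (XT.nd (nat_lit 78) (nat_lit 760) (nat_lit 0) (XT.lf (nat_lit 0) (nat_lit 1514475269) (nat_lit 912) (nat_lit 5367517616) (nat_lit 76) (nat_lit 990524841) (nat_lit 381) (nat_lit 5) (nat_lit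 393) (nat_lit 5) (nat_lit 382) (nat_lit 5) (nat_lit 570) (nat_lit 514) (nat_lit 476)) (XT.lf (nat_lit 0) (nat_lit 133190286) (nat_lit 760) (nat_lit 4238932155) (nat_lit 836) (nat_lit 3561961723) (nat_lit 371) (nat_lit 5) (nat_lit 381) (nat_lit 5) (nat_lit 382) (nat_lit 5) (nat_lit 571) (nat_lit 514) (nat_lit 475))) (XT.nd (nat_lit 78) (nat_lit 836) (nat_lit 0) (XT.lf (nat_lit 0) (nat_lit 5763824108) (nat_lit 760) (nat_lit 1512640455) (nat_lit 836) (nat_lit 720629404) (nat_lit 371) (nat_lit 5) (nat_lit 381) (nat_lit 5) (nat_lit 382) (nat_lit 5) (nat_lit 572) (nat_lit 514) (nat_lit 474)) (XT.lf (nat_lit 0) (nat_lit 2133764162) (nat_lit 836) (nat_lit 4645935659) (nat_lit 76) (nat_lit 1281688280) (nat_lit 360) (nat_lit 5) (nat_lit 371) (nat_lit 5) (nat_lit 361) (nat_lit 5) (nat_lit 573) (nat_lit 514) (nat_lit 473))))))))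
noncomputable def xc26 : XT := (XT.nd (nat_lit 2340) (nat_lit 1292) (nat_lit 0) (XT.nd (nat_lit 1170) (nat_lit 5168) (nat_lit 0) (XT.nd (nat_lit 546) (nat_lit 3876) (nat_lit 0) (XT.nd (nat_lit 234) (nat_lit 2052) (nat_lit 0) (XT.nd (nat_lit 78) (nat_lit 836) (nat_lit 0) (XT.lf (nat_lit 0) (nat_lit 1026382889) (nat_lit 684) (nat_lit 3995636865) (nat_lit 760) (nat_lit 3105127339) (nat_lit 351) (nat_lit 5) (nat_lit 360) (nat_lit 5) (nat_lit 361) (nat_lit 5) (nat_lit 574) (nat_lit 514) (nat_lit 472)) (XT.nd (nat_lit 78) (nat_lit 836) (nat_lit 0) (XT.lf (nat_lit 0) (nat_lit 6822530441) (nat_lit 684) (nat_lit 1131881734) (nat_lit 760) (nat_lit 240084309) (nat_lit 351) (nat_lit 5) (nat_lit 360) (nat_lit 5) (nat_lit 361) (nat_lit 5) (nat_lit 575) (nat_lit 514) (nat_lit 471)) (XT.lf (nat_lit 0) (nat_lit 2643692783) (nat_lit 836) (nat_lit 3814686264) (nat_lit 76) (nat_lit 1804535838) (nat_lit 340) (nat_lit 5) (nat_lit 351) (nat_lit 5) (nat_lit 341) (nat_lit 5) (nat_lit 576) (nat_lit 514) (nat_lit 470)))) (XT.nd (nat_lit 156) (nat_lit 1292) (nat_lit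 0) (XT.nd (nat_lit 78) (nat_lit 76) (nat_lit 0) (XT.lf (nat_lit 0) (nat_lit 2035826768) (nat_lit 684) (nat_lit 3532346402) (nat_lit 760) (nat_lit 2764774398) (nat_lit 331) (nat_lit 5) (nat_lit 340) (nat_lit 5) (nat_lit 341) (nat_lit 5) (nat_lit 577) (nat_lit 514) (nat_lit 469)) (XT.lf (nat_lit 0) (nat_lit 127093102) (nat_lit 760) (nat_lit 402800234) (nat_lit 76) (nat_lit 7874825801) (nat_lit 330) (nat_lit 5) (nat_lit 340) (nat_lit 5) (nat_lit 331) (nat_lit 5) (nat_lit 578) (nat_lit 514) (nat_lit 468))) (XT.nd (nat_lit 78) (nat_lit 608) (nat_lit 0) (XT.lf (nat_lit 0) (nat_lit 3050341950) (nat_lit 760) (nat_lit 2881553563) (nat_lit 76) (nat_lit 2545456194) (nat_lit 321) (nat_lit 5) (nat_lit 331) (nat_lit 5) (nat_lit 322) (nat_lit 5) (nat_lit 579) (nat_lit 514) (nat_lit 467)) (XT.lf (nat_lit 0) (nat_lit 3154008684) (nat_lit 608) (nat_lit 2862537445) (nat_lit 684) (nat_lit 2535203303) (nat_lit 313) (nat_lit 5) (nat_lit 321) (nat_lit 5) (nat_lit 322) (nat_lit 5) (nat_lit 580) (nat_lit 514) (nat_lit 466))))) (XT.nd (nat_lit 312) (nat_lit 1824)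 (nat_lit 0) (XT.nd (nat_lit 156) (nat_lit 1292) (nat_lit 0) (XT.nd (nat_lit 78) (nat_lit 0) (nat_lit 0) (XT.lf (nat_lit 0) (nat_lit 392698802) (nat_lit 760) (nat_lit 7954151137) (nat_lit 76) (nat_lit 281059678) (nat_lit 303) (nat_lit 5) (nat_lit 313) (nat_lit 5) (nat_lit 304) (nat_lit 5) (nat_lit 581) (nat_lit 514) (nat_lit 465)) (XT.lf (nat_lit 0) (nat_lit 3359073512) (nat_lit 760) (nat_lit 1853909650) (nat_lit 76) (nat_lit 3491999650) (nat_lit 303) (nat_lit 5) (nat_lit 313) (nat_lit 5) (nat_lit 304) (nat_lit 5) (nat_lit 582) (nat_lit 514) (nat_lit 464))) (XT.nd (nat_lit 78) (nat_lit 684) (nat_lit 0) (XT.lf (nat_lit 0) (nat_lit 4373827591) (nat_lit 608) (nat_lit 1998571835) (nat_lit 684) (nat_lit 2411447706) (nat_lit 295) (nat_lit 5) (nat_lit 303) (nat_lit 5) (nat_lit 304) (nat_lit 5) (nat_lit 583) (nat_lit 514) (nat_lit 463)) (XT.lf (nat_lit 0) (nat_lit 566491325) (nat_lit 684) (nat_lit 7017345182) (nat_lit 76) (nat_lit 1280530400) (nat_lit 286) (nat_lit 5) (nat_lit 295) (nat_lit 5) (nat_lit 287) (nat_lit 5) (nat_lit 584) (nat_lit 514)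 (nat_lit 462)))) (XT.nd (nat_lit 156) (nat_lit 1216) (nat_lit 0) (XT.nd (nat_lit 78) (nat_lit 608) (nat_lit 0) (XT.lf (nat_lit 0) (nat_lit 3574561363) (nat_lit 684) (nat_lit 738782889) (nat_lit 76) (nat_lit 4632778815) (nat_lit 286) (nat_lit 5) (nat_lit 295) (nat_lit 5) (nat_lit 287) (nat_lit 5) (nat_lit 585) (nat_lit 514) (nat_lit 461)) (XT.lf (nat_lit 0) (nat_lit 5688526239) (nat_lit 608) (nat_lit 951794579) (nat_lit 684) (nat_lit 2389244945) (nat_lit 278) (nat_lit 5) (nat_lit 286) (nat_lit 5) (nat_lit 287) (nat_lit 5) (nat_lit 586) (nat_lit 514) (nat_lit 460))) (XT.nd (nat_lit 78) (nat_lit 532) (nat_lit 0) (XT.lf (nat_lit 0) (nat_lit 646409694) (nat_lit 684) (nat_lit 6006154986) (nat_lit 76) (nat_lit 2461984729) (nat_lit 269) (nat_lit 5) (nat_lit 278) (nat_lit 5) (nat_lit 270) (nat_lit 5) (nat_lit 587) (nat_lit 514) (nat_lit 459)) (XT.lf (nat_lit 0) (nat_lit 463148859) (nat_lit 532) (nat_lit 3240675872) (nat_lit 608) (nat_lit 5497233213) (nat_lit 262) (nat_lit 5) (nat_lit 269) (nat_lit 5) (nat_lit 270) (nat_lit 5) (nat_lit 588) (nat_lit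 514) (nat_lit 458)))))) (XT.nd (nat_lit 546) (nat_lit 2432) (nat_lit 0) (XT.nd (nat_lit 234) (nat_lit 1596) (nat_lit 0) (XT.nd (nat_lit 78) (nat_lit 1140) (nat_lit 0) (XT.lf (nat_lit 0) (nat_lit 6825985863) (nat_lit 608) (nat_lit 2199373733) (nat_lit 76) (nat_lit 263866920) (nat_lit 262) (nat_lit 5) (nat_lit 270) (nat_lit 5) (nat_lit 263) (nat_lit 5) (nat_lit 589) (nat_lit 514) (nat_lit 457)) (XT.nd (nat_lit 78) (nat_lit 532) (nat_lit 0) (XT.lf (nat_lit 0) (nat_lit 635849661) (nat_lit 608) (nat_lit 4927473584) (nat_lit 76) (nat_lit 3815500989) (nat_lit 254) (nat_lit 5) (nat_lit 262) (nat_lit 5) (nat_lit 255) (nat_lit 5) (nat_lit 590) (nat_lit 514) (nat_lit 456)) (XT.lf (nat_lit 0) (nat_lit 1750072085) (nat_lit 532) (nat_lit 2002504922) (nat_lit 608) (nat_lit 5717540215) (nat_lit 247) (nat_lit 5) (nat_lit 254) (nat_lit 5) (nat_lit 255) (nat_lit 5) (nat_lit 591) (nat_lit 514) (nat_lit 455)))) (XT.nd (nat_lit 156) (nat_lit 988) (nat_lit 0) (XT.nd (nat_lit 78) (nat_lit 608) (nat_lit 0) (XT.lf (nat_lit 0) (nat_lit 6938206982) (nat_lit 608) (nat_lit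 997182565) (nat_lit 76) (nat_lit 1627716844) (nat_lit 247) (nat_lit 5) (nat_lit 255) (nat_lit 5) (nat_lit 248) (nat_lit 5) (nat_lit 592) (nat_lit 514) (nat_lit 454)) (XT.lf (nat_lit 0) (nat_lit 537573536) (nat_lit 608) (nat_lit 3788049677) (nat_lit 76) (nat_lit 5331966479) (nat_lit 239) (nat_lit 5) (nat_lit 247) (nat_lit 5) (nat_lit 240) (nat_lit 5) (nat_lit 593) (nat_lit 514) (nat_lit 453))) (XT.nd (nat_lit 78) (nat_lit 532) (nat_lit 0) (XT.lf (nat_lit 0) (nat_lit 3105681879) (nat_lit 456) (nat_lit 612982507) (nat_lit 532) (nat_lit 6035142531) (nat_lit 233) (nat_lit 5) (nat_lit 239) (nat_lit 5) (nat_lit 240) (nat_lit 5) (nat_lit 594) (nat_lit 514) (nat_lit 452)) (XT.lf (nat_lit 0) (nat_lit 268745054) (nat_lit 532) (nat_lit 6706446370) (nat_lit 608) (nat_lit 2876522330) (nat_lit 226) (nat_lit 5) (nat_lit 233) (nat_lit 5) (nat_lit 234) (nat_lit 5) (nat_lit 595) (nat_lit 514) (nat_lit 451))))) (XT.nd (nat_lit 312) (nat_lit 1368) (nat_lit 0) (XT.nd (nat_lit 156) (nat_lit 532) (nat_lit 0) (XT.nd (nat_lit 78) (nat_lit 456) (nat_lit 0) (XT.lf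 (nat_lit 0) (nat_lit 353723422) (nat_lit 608) (nat_lit 2594556484) (nat_lit 76) (nat_lit 7002995855) (nat_lit 225) (nat_lit 5) (nat_lit 233) (nat_lit 5) (nat_lit 226) (nat_lit 5) (nat_lit 596) (nat_lit 514) (nat_lit 450)) (XT.lf (nat_lit 0) (nat_lit 3610152372) (nat_lit 532) (nat_lit 5534971644) (nat_lit 76) (nat_lit 907324282) (nat_lit 219) (nat_lit 5) (nat_lit 226) (nat_lit 5) (nat_lit 220) (nat_lit 5) (nat_lit 597) (nat_lit 514) (nat_lit 449))) (XT.nd (nat_lit 78) (nat_lit 76) (nat_lit 0) (XT.lf (nat_lit 0) (nat_lit 1602392806) (nat_lit 456) (nat_lit 5341760871) (nat_lit 532) (nat_lit 3211243172) (nat_lit 213) (nat_lit 5) (nat_lit 219) (nat_lit 5) (nat_lit 220) (nat_lit 5) (nat_lit 598) (nat_lit 514) (nat_lit 448)) (XT.lf (nat_lit 0) (nat_lit 85829884) (nat_lit 532) (nat_lit 1353661947) (nat_lit 76) (nat_lit 8820852826) (nat_lit 212) (nat_lit 5) (nat_lit 219) (nat_lit 5) (nat_lit 213) (nat_lit 5) (nat_lit 599) (nat_lit 514) (nat_lit 447)))) (XT.nd (nat_lit 156) (nat_lit 456) (nat_lit 0) (XT.nd (nat_lit 78) (nat_lit 456) (nat_lit 0) (XT.lf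 (nat_lit 0) (nat_lit 3427421038) (nat_lit 532) (nat_lit 4386354739) (nat_lit 76) (nat_lit 2552760966) (nat_lit 206) (nat_lit 5) (nat_lit 213) (nat_lit 5) (nat_lit 207) (nat_lit 5) (nat_lit 600) (nat_lit 514) (nat_lit 446)) (XT.lf (nat_lit 0) (nat_lit 2983928742) (nat_lit 456) (nat_lit 3856016521) (nat_lit 532) (nat_lit 3634826713) (nat_lit 200) (nat_lit 5) (nat_lit 206) (nat_lit 5) (nat_lit 207) (nat_lit 5) (nat_lit 601) (nat_lit 514) (nat_lit 445))) (XT.nd (nat_lit 78) (nat_lit 456) (nat_lit 0) (XT.lf (nat_lit 0) (nat_lit 10317813718) (nat_lit 532) (nat_lit 75110714) (nat_lit 76) (nat_lit 192306907) (nat_lit 200) (nat_lit 5) (nat_lit 207) (nat_lit 5) (nat_lit 201) (nat_lit 5) (nat_lit 602) (nat_lit 514) (nat_lit 444)) (XT.lf (nat_lit 0) (nat_lit 3167335822) (nat_lit 456) (nat_lit 3205232687) (nat_lit 76) (nat_lit 4324090615) (nat_lit 194) (nat_lit 5) (nat_lit 200) (nat_lit 5) (nat_lit 195) (nat_lit 5) (nat_lit 603) (nat_lit 514) (nat_lit 443))))))) (XT.nd (nat_lit 76284) (nat_lit 0) (nat_lit 29032) (XT.nd (nat_lit 75660) (nat_lit 0) (nat_lit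 40432) (XT.nd (nat_lit 234) (nat_lit 380) (nat_lit 0) (XT.nd (nat_lit 78) (nat_lit 456) (nat_lit 0) (XT.lf (nat_lit 0) (nat_lit 4406662862) (nat_lit 456) (nat_lit 2256725446) (nat_lit 532) (nat_lit 4146969335) (nat_lit 188) (nat_lit 5) (nat_lit 194) (nat_lit 5) (nat_lit 195) (nat_lit 5) (nat_lit 604) (nat_lit 514) (nat_lit 442)) (XT.nd (nat_lit 78) (nat_lit 76) (nat_lit 0) (XT.lf (nat_lit 0) (nat_lit 1242303601) (nat_lit 380) (nat_lit 8996664181) (nat_lit 456) (nat_lit 687171437) (nat_lit 183) (nat_lit 5) (nat_lit 188) (nat_lit 5) (nat_lit 189) (nat_lit 5) (nat_lit 605) (nat_lit 514) (nat_lit 441)) (XT.lf (nat_lit 0) (nat_lit 2830143081) (nat_lit 456) (nat_lit 1998726397) (nat_lit 76) (nat_lit 6214487248) (nat_lit 182) (nat_lit 5) (nat_lit 188) (nat_lit 5) (nat_lit 183) (nat_lit 5) (nat_lit 606) (nat_lit 514) (nat_lit 440)))) (XT.nd (nat_lit 75270) (nat_lit 0) (nat_lit 44156) (XT.nd (nat_lit 75192) (nat_lit 0) (nat_lit 44688) (XT.lf (nat_lit 0) (nat_lit 5863717964) (nat_lit 380) (nat_lit 550993589) (nat_lit 456) (nat_lit 4747995141) (nat_lit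 177) (nat_lit 5) (nat_lit 182) (nat_lit 5) (nat_lit 183) (nat_lit 5) (nat_lit 607) (nat_lit 514) (nat_lit 439)) (XT.lf (nat_lit 0) (nat_lit 1092697650) (nat_lit 380) (nat_lit 1076090752) (nat_lit 380) (nat_lit 1076090752) (nat_lit 765) (nat_lit 4) (nat_lit 770) (nat_lit 5) (nat_lit 770) (nat_lit 4) (nat_lit 530) (nat_lit 515) (nat_lit 515))) (XT.nd (nat_lit 78) (nat_lit 456) (nat_lit 0) (XT.lf (nat_lit 0) (nat_lit 1058785701) (nat_lit 456) (nat_lit 594042096) (nat_lit 76) (nat_lit 4847195035) (nat_lit 764) (nat_lit 5) (nat_lit 770) (nat_lit 5) (nat_lit 765) (nat_lit 4) (nat_lit 531) (nat_lit 515) (nat_lit 514)) (XT.lf (nat_lit 0) (nat_lit 3168749587) (nat_lit 456) (nat_lit 1079143439) (nat_lit 532) (nat_lit 2263468872) (nat_lit 758) (nat_lit 5) (nat_lit 764) (nat_lit 5) (nat_lit 765) (nat_lit 4) (nat_lit 532) (nat_lit 515) (nat_lit 513))))) (XT.nd (nat_lit 312) (nat_lit 2432) (nat_lit 0) (XT.nd (nat_lit 156) (nat_lit 684) (nat_lit 0) (XT.nd (nat_lit 78) (nat_lit 0) (nat_lit 0) (XT.lf (nat_lit 0) (nat_lit 441666137) (nat_lit 532) (nat_lit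 453076621) (nat_lit 608) (nat_lit 5629471962) (nat_lit 750) (nat_lit 5) (nat_lit 757) (nat_lit 5) (nat_lit 758) (nat_lit 5) (nat_lit 533) (nat_lit 515) (nat_lit 512)) (XT.lf (nat_lit 0) (nat_lit 4033819798) (nat_lit 608) (nat_lit 2257403925) (nat_lit 76) (nat_lit 246849513) (nat_lit 750) (nat_lit 5) (nat_lit 758) (nat_lit 5) (nat_lit 751) (nat_lit 4) (nat_lit 534) (nat_lit 515) (nat_lit 511))) (XT.nd (nat_lit 78) (nat_lit 0) (nat_lit 0) (XT.lf (nat_lit 0) (nat_lit 613246604) (nat_lit 684) (nat_lit 4945202783) (nat_lit 76) (nat_lit 994903702) (nat_lit 741) (nat_lit 5) (nat_lit 750) (nat_lit 5) (nat_lit 742) (nat_lit 5) (nat_lit 535) (nat_lit 515) (nat_lit 510)) (XT.lf (nat_lit 0) (nat_lit 3701169667) (nat_lit 684) (nat_lit 1054484712) (nat_lit 76) (nat_lit 1814128580) (nat_lit 741) (nat_lit 5) (nat_lit 750) (nat_lit 5) (nat_lit 742) (nat_lit 5) (nat_lit 536) (nat_lit 515) (nat_lit 509)))) (XT.nd (nat_lit 156) (nat_lit 912) (nat_lit 0) (XT.nd (nat_lit 78) (nat_lit 760) (nat_lit 0) (XT.lf (nat_lit 0) (nat_lit 207095788) (nat_lit 760) (nat_lit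 3686650801) (nat_lit 76) (nat_lit 2693842756) (nat_lit 731) (nat_lit 5) (nat_lit 741) (nat_lit 5) (nat_lit 732) (nat_lit 5) (nat_lit 537) (nat_lit 515) (nat_lit 508)) (XT.lf (nat_lit 0) (nat_lit 278344653) (nat_lit 760) (nat_lit 2964916218) (nat_lit 836) (nat_lit 3363371854) (nat_lit 721) (nat_lit 5) (nat_lit 731) (nat_lit 5) (nat_lit 732) (nat_lit 5) (nat_lit 538) (nat_lit 515) (nat_lit 507))) (XT.nd (nat_lit 78) (nat_lit 912) (nat_lit 0) (XT.lf (nat_lit 0) (nat_lit 4322529883) (nat_lit 760) (nat_lit 1971824189) (nat_lit 836) (nat_lit 332625809) (nat_lit 721) (nat_lit 5) (nat_lit 731) (nat_lit 5) (nat_lit 732) (nat_lit 5) (nat_lit 539) (nat_lit 515) (nat_lit 506)) (XT.lf (nat_lit 0) (nat_lit 1754936080) (nat_lit 836) (nat_lit 909395721) (nat_lit 912) (nat_lit 3984215124) (nat_lit 709) (nat_lit 5) (nat_lit 720) (nat_lit 5) (nat_lit 721) (nat_lit 5) (nat_lit 540) (nat_lit 515) (nat_lit 505)))))) (XT.nd (nat_lit 546) (nat_lit 7068) (nat_lit 0) (XT.nd (nat_lit 234) (nat_lit 2356) (nat_lit 0) (XT.nd (nat_lit 78) (nat_lit 1976) (nat_lit 0) (XT.lf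 (nat_lit 0) (nat_lit 5665025470) (nat_lit 912) (nat_lit 798130451) (nat_lit 76) (nat_lit 208387002) (nat_lit 709) (nat_lit 5) (nat_lit 721) (nat_lit 5) (nat_lit 710) (nat_lit 5) (nat_lit 541) (nat_lit 515) (nat_lit 504)) (XT.nd (nat_lit 78) (nat_lit 988) (nat_lit 0) (XT.lf (nat_lit 0) (nat_lit 1964609894) (nat_lit 988) (nat_lit 3341517339) (nat_lit 76) (nat_lit 1389404074) (nat_lit 696) (nat_lit 5) (nat_lit 709) (nat_lit 5) (nat_lit 697) (nat_lit 5) (nat_lit 542) (nat_lit 515) (nat_lit 503)) (XT.lf (nat_lit 0) (nat_lit 833597998) (nat_lit 988) (nat_lit 4092339439) (nat_lit 1064) (nat_lit 1795050082) (nat_lit 683) (nat_lit 5) (nat_lit 696) (nat_lit 5) (nat_lit 697) (nat_lit 5) (nat_lit 543) (nat_lit 515) (nat_lit 502)))) (XT.nd (nat_lit 156) (nat_lit 1216) (nat_lit 0) (XT.nd (nat_lit 78) (nat_lit 1064) (nat_lit 0) (XT.lf (nat_lit 0) (nat_lit 1140354418) (nat_lit 1064) (nat_lit 1668241193) (nat_lit 76) (nat_lit 3939076502) (nat_lit 682) (nat_lit 5) (nat_lit 696) (nat_lit 5) (nat_lit 683) (nat_lit 5) (nat_lit 544) (nat_lit 515) (nat_lit 501))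 (XT.lf (nat_lit 0) (nat_lit 2607292669) (nat_lit 1064) (nat_lit 1455360018) (nat_lit 1140) (nat_lit 2712961842) (nat_lit 668) (nat_lit 5) (nat_lit 682) (nat_lit 5) (nat_lit 683) (nat_lit 5) (nat_lit 545) (nat_lit 515) (nat_lit 500))) (XT.nd (nat_lit 78) (nat_lit 0) (nat_lit 0) (XT.lf (nat_lit 0) (nat_lit 136386958) (nat_lit 1140) (nat_lit 47697693) (nat_lit 1216) (nat_lit 6621046870) (nat_lit 652) (nat_lit 5) (nat_lit 667) (nat_lit 5) (nat_lit 668) (nat_lit 5) (nat_lit 546) (nat_lit 515) (nat_lit 499)) (XT.lf (nat_lit 0) (nat_lit 3076750441) (nat_lit 1216) (nat_lit 2330003782) (nat_lit 76) (nat_lit 1428651403) (nat_lit 652) (nat_lit 5) (nat_lit 668) (nat_lit 5) (nat_lit 653) (nat_lit 5) (nat_lit 547) (nat_lit 515) (nat_lit 498))))) (XT.nd (nat_lit 312) (nat_lit 3040) (nat_lit 0) (XT.nd (nat_lit 156) (nat_lit 2736) (nat_lit 0) (XT.nd (nat_lit 78) (nat_lit 76) (nat_lit 0) (XT.lf (nat_lit 0) (nat_lit 2071528567) (nat_lit 1216) (nat_lit 3907547291) (nat_lit 1292) (nat_lit 888178645) (nat_lit 636) (nat_lit 5) (nat_lit 652) (nat_lit 5) (nat_lit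 653) (nat_lit 5) (nat_lit 548) (nat_lit 515) (nat_lit 497)) (XT.lf (nat_lit 0) (nat_lit 1967213397) (nat_lit 1292) (nat_lit 371422609) (nat_lit 76) (nat_lit 4561759552) (nat_lit 635) (nat_lit 5) (nat_lit 652) (nat_lit 5) (nat_lit 636) (nat_lit 5) (nat_lit 549) (nat_lit 515) (nat_lit 496))) (XT.nd (nat_lit 78) (nat_lit 1444) (nat_lit 0) (XT.lf (nat_lit 0) (nat_lit 4139457217) (nat_lit 1292) (nat_lit 694974102) (nat_lit 1368) (nat_lit 2100323587) (nat_lit 618) (nat_lit 5) (nat_lit 635) (nat_lit 5) (nat_lit 636) (nat_lit 5) (nat_lit 550) (nat_lit 515) (nat_lit 495)) (XT.lf (nat_lit 0) (nat_lit 739405418) (nat_lit 1444) (nat_lit 5234412904) (nat_lit 76) (nat_lit 996674271) (nat_lit 599) (nat_lit 5) (nat_lit 618) (nat_lit 5) (nat_lit 600) (nat_lit 5) (nat_lit 551) (nat_lit 515) (nat_lit 494)))) (XT.nd (nat_lit 156) (nat_lit 1596) (nat_lit 0) (XT.nd (nat_lit 78) (nat_lit 1444) (nat_lit 0) (XT.lf (nat_lit 0) (nat_lit 3572399663) (nat_lit 1444) (nat_lit 680921978) (nat_lit 76) (nat_lit 2754058661) (nat_lit 599) (nat_lit 5) (nat_lit 618) (nat_lit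 5) (nat_lit 600) (nat_lit 5) (nat_lit 552) (nat_lit 515) (nat_lit 493)) (XT.lf (nat_lit 0) (nat_lit 3964961932) (nat_lit 1444) (nat_lit 2465073338) (nat_lit 1520) (nat_lit 615615580) (nat_lit 580) (nat_lit 5) (nat_lit 599) (nat_lit 5) (nat_lit 600) (nat_lit 5) (nat_lit 553) (nat_lit 515) (nat_lit 492))) (XT.nd (nat_lit 78) (nat_lit 0) (nat_lit 0) (XT.lf (nat_lit 0) (nat_lit 1583348371) (nat_lit 1520) (nat_lit 604688335) (nat_lit 1596) (nat_lit 4897210309) (nat_lit 559) (nat_lit 5) (nat_lit 579) (nat_lit 5) (nat_lit 580) (nat_lit 5) (nat_lit 554) (nat_lit 515) (nat_lit 491)) (XT.lf (nat_lit 0) (nat_lit 5012225324) (nat_lit 1596) (nat_lit 807351545) (nat_lit 76) (nat_lit 1306527164) (nat_lit 559) (nat_lit 5) (nat_lit 580) (nat_lit 5) (nat_lit 560) (nat_lit 5) (nat_lit 555) (nat_lit 515) (nat_lit 490))))))))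
noncomputable def xc27 : XT := (XT.nd (nat_lit 2340) (nat_lit 8284) (nat_lit 0) (XT.nd (nat_lit 1170) (nat_lit 7220) (nat_lit 0) (XT.nd (nat_lit 546) (nat_lit 5396) (nat_lit 0) (XT.nd (nat_lit 234) (nat_lit 4788) (nat_lit 0) (XT.nd (nat_lit 78) (nat_lit 1672) (nat_lit 0) (XT.lf (nat_lit 0) (nat_lit 689872653) (nat_lit 1672) (nat_lit 3194503059) (nat_lit 76) (nat_lit 3283827327) (nat_lit 537) (nat_lit 5) (nat_lit 559) (nat_lit 5) (nat_lit 538) (nat_lit 5) (nat_lit 556) (nat_lit 515) (nat_lit 489)) (XT.nd (nat_lit 78) (nat_lit 0) (nat_lit 0) (XT.lf (nat_lit 0) (nat_lit 1605979176) (nat_lit 1672) (nat_lit 1876316158) (nat_lit 1748) (nat_lit 3729355401) (nat_lit 515) (nat_lit 5) (nat_lit 537) (nat_lit 5) (nat_lit 538) (nat_lit 5) (nat_lit 557) (nat_lit 515) (nat_lit 488)) (XT.lf (nat_lit 0) (nat_lit 6299023998) (nat_lit 1748) (nat_lit 763125325) (nat_lit 76) (nat_lit 194453016) (nat_lit 515) (nat_lit 5) (nat_lit 538) (nat_lit 5) (nat_lit 516) (nat_lit 5) (nat_lit 558) (nat_lit 515) (nat_lit 487)))) (XT.nd (nat_lit 156) (nat_lit 1140) (nat_lit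 0) (XT.nd (nat_lit 78) (nat_lit 1824) (nat_lit 0) (XT.lf (nat_lit 0) (nat_lit 1831328758) (nat_lit 1824) (nat_lit 3147357005) (nat_lit 76) (nat_lit 2323804078) (nat_lit 491) (nat_lit 5) (nat_lit 515) (nat_lit 5) (nat_lit 492) (nat_lit 5) (nat_lit 559) (nat_lit 515) (nat_lit 486)) (XT.lf (nat_lit 0) (nat_lit 1798672243) (nat_lit 1824) (nat_lit 2828552796) (nat_lit 1900) (nat_lit 2722666669) (nat_lit 467) (nat_lit 5) (nat_lit 491) (nat_lit 5) (nat_lit 492) (nat_lit 5) (nat_lit 560) (nat_lit 515) (nat_lit 485))) (XT.nd (nat_lit 78) (nat_lit 1064) (nat_lit 0) (XT.lf (nat_lit 0) (nat_lit 48541066) (nat_lit 1900) (nat_lit 564010724) (nat_lit 76) (nat_lit 6786306987) (nat_lit 466) (nat_lit 5) (nat_lit 491) (nat_lit 5) (nat_lit 467) (nat_lit 5) (nat_lit 561) (nat_lit 515) (nat_lit 484)) (XT.lf (nat_lit 0) (nat_lit 2827641292) (nat_lit 1140) (nat_lit 2946599036) (nat_lit 76) (nat_lit 1674430071) (nat_lit 452) (nat_lit 5) (nat_lit 467) (nat_lit 5) (nat_lit 453) (nat_lit 5) (nat_lit 562) (nat_lit 515) (nat_lit 483))))) (XT.nd (nat_lit 312) (nat_lit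 2660) (nat_lit 0) (XT.nd (nat_lit 156) (nat_lit 1748) (nat_lit 0) (XT.nd (nat_lit 78) (nat_lit 76) (nat_lit 0) (XT.lf (nat_lit 0) (nat_lit 2150355798) (nat_lit 912) (nat_lit 3483049780) (nat_lit 988) (nat_lit 1866654607) (nat_lit 440) (nat_lit 5) (nat_lit 452) (nat_lit 5) (nat_lit 453) (nat_lit 5) (nat_lit 563) (nat_lit 515) (nat_lit 482)) (XT.lf (nat_lit 0) (nat_lit 899928311) (nat_lit 988) (nat_lit 220960345) (nat_lit 76) (nat_lit 6432080398) (nat_lit 439) (nat_lit 5) (nat_lit 452) (nat_lit 5) (nat_lit 440) (nat_lit 5) (nat_lit 564) (nat_lit 515) (nat_lit 481))) (XT.nd (nat_lit 78) (nat_lit 836) (nat_lit 0) (XT.lf (nat_lit 0) (nat_lit 3688643919) (nat_lit 988) (nat_lit 2602743424) (nat_lit 76) (nat_lit 1315469444) (nat_lit 427) (nat_lit 5) (nat_lit 440) (nat_lit 5) (nat_lit 428) (nat_lit 5) (nat_lit 565) (nat_lit 515) (nat_lit 480)) (XT.lf (nat_lit 0) (nat_lit 2650788416) (nat_lit 836) (nat_lit 3859672851) (nat_lit 912) (nat_lit 1151817758) (nat_lit 416) (nat_lit 5) (nat_lit 427) (nat_lit 5) (nat_lit 428) (nat_lit 5) (nat_lit 566) (nat_lit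 515) (nat_lit 479)))) (XT.nd (nat_lit 156) (nat_lit 1748) (nat_lit 0) (XT.nd (nat_lit 78) (nat_lit 0) (nat_lit 0) (XT.lf (nat_lit 0) (nat_lit 267010865) (nat_lit 836) (nat_lit 1351812265) (nat_lit 912) (nat_lit 6100356531) (nat_lit 404) (nat_lit 5) (nat_lit 415) (nat_lit 5) (nat_lit 416) (nat_lit 5) (nat_lit 567) (nat_lit 515) (nat_lit 478)) (XT.lf (nat_lit 0) (nat_lit 4423250549) (nat_lit 912) (nat_lit 2125555377) (nat_lit 76) (nat_lit 1228387291) (nat_lit 404) (nat_lit 5) (nat_lit 416) (nat_lit 5) (nat_lit 405) (nat_lit 5) (nat_lit 568) (nat_lit 515) (nat_lit 477))) (XT.nd (nat_lit 78) (nat_lit 912) (nat_lit 0) (XT.lf (nat_lit 0) (nat_lit 3290477450) (nat_lit 836) (nat_lit 3976642872) (nat_lit 912) (nat_lit 569582698) (nat_lit 393) (nat_lit 5) (nat_lit 404) (nat_lit 5) (nat_lit 405) (nat_lit 5) (nat_lit 569) (nat_lit 515) (nat_lit 476)) (XT.lf (nat_lit 0) (nat_lit 891784358) (nat_lit 836) (nat_lit 1322367916) (nat_lit 912) (nat_lit 5683489541) (nat_lit 381) (nat_lit 5) (nat_lit 392) (nat_lit 5) (nat_lit 393) (nat_lit 5) (nat_lit 570) (nat_lit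 515) (nat_lit 475)))))) (XT.nd (nat_lit 546) (nat_lit 3420) (nat_lit 0) (XT.nd (nat_lit 234) (nat_lit 2204) (nat_lit 0) (XT.nd (nat_lit 78) (nat_lit 1596) (nat_lit 0) (XT.lf (nat_lit 0) (nat_lit 5039510508) (nat_lit 912) (nat_lit 1524129126) (nat_lit 76) (nat_lit 1396215821) (nat_lit 381) (nat_lit 5) (nat_lit 393) (nat_lit 5) (nat_lit 382) (nat_lit 5) (nat_lit 571) (nat_lit 515) (nat_lit 474)) (XT.nd (nat_lit 78) (nat_lit 836) (nat_lit 0) (XT.lf (nat_lit 0) (nat_lit 4060601232) (nat_lit 760) (nat_lit 3850667028) (nat_lit 836) (nat_lit 112250080) (nat_lit 371) (nat_lit 5) (nat_lit 381) (nat_lit 5) (nat_lit 382) (nat_lit 5) (nat_lit 572) (nat_lit 515) (nat_lit 473)) (XT.lf (nat_lit 0) (nat_lit 1641636401) (nat_lit 760) (nat_lit 1050260577) (nat_lit 836) (nat_lit 5396683188) (nat_lit 360) (nat_lit 5) (nat_lit 370) (nat_lit 5) (nat_lit 371) (nat_lit 5) (nat_lit 573) (nat_lit 515) (nat_lit 472)))) (XT.nd (nat_lit 156) (nat_lit 1444) (nat_lit 0) (XT.nd (nat_lit 78) (nat_lit 760) (nat_lit 0) (XT.lf (nat_lit 0) (nat_lit 5544658000) (nat_lit 836)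 (nat_lit 806962704) (nat_lit 76) (nat_lit 1803429658) (nat_lit 360) (nat_lit 5) (nat_lit 371) (nat_lit 5) (nat_lit 361) (nat_lit 5) (nat_lit 574) (nat_lit 515) (nat_lit 471)) (XT.lf (nat_lit 0) (nat_lit 224075714) (nat_lit 760) (nat_lit 3271481814) (nat_lit 76) (nat_lit 4727355126) (nat_lit 350) (nat_lit 5) (nat_lit 360) (nat_lit 5) (nat_lit 351) (nat_lit 5) (nat_lit 575) (nat_lit 515) (nat_lit 470))) (XT.nd (nat_lit 78) (nat_lit 684) (nat_lit 0) (XT.lf (nat_lit 0) (nat_lit 2508350613) (nat_lit 760) (nat_lit 550346099) (nat_lit 836) (nat_lit 5233524552) (nat_lit 340) (nat_lit 5) (nat_lit 350) (nat_lit 5) (nat_lit 351) (nat_lit 5) (nat_lit 576) (nat_lit 515) (nat_lit 469)) (XT.lf (nat_lit 0) (nat_lit 18208816) (nat_lit 684) (nat_lit 5927065520) (nat_lit 760) (nat_lit 2417738879) (nat_lit 331) (nat_lit 5) (nat_lit 340) (nat_lit 5) (nat_lit 341) (nat_lit 5) (nat_lit 577) (nat_lit 515) (nat_lit 468))))) (XT.nd (nat_lit 312) (nat_lit 1976) (nat_lit 0) (XT.nd (nat_lit 156) (nat_lit 684) (nat_lit 0) (XT.nd (nat_lit 78) (nat_lit 684) (nat_lit 0)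 (XT.lf (nat_lit 0) (nat_lit 448458753) (nat_lit 760) (nat_lit 2478396131) (nat_lit 76) (nat_lit 5508308374) (nat_lit 330) (nat_lit 5) (nat_lit 340) (nat_lit 5) (nat_lit 331) (nat_lit 5) (nat_lit 578) (nat_lit 515) (nat_lit 467)) (XT.lf (nat_lit 0) (nat_lit 3321499421) (nat_lit 760) (nat_lit 5025676010) (nat_lit 76) (nat_lit 161625704) (nat_lit 321) (nat_lit 5) (nat_lit 331) (nat_lit 5) (nat_lit 322) (nat_lit 5) (nat_lit 579) (nat_lit 515) (nat_lit 466))) (XT.nd (nat_lit 78) (nat_lit 76) (nat_lit 0) (XT.lf (nat_lit 0) (nat_lit 955683389) (nat_lit 608) (nat_lit 5297257179) (nat_lit 684) (nat_lit 2330954674) (nat_lit 313) (nat_lit 5) (nat_lit 321) (nat_lit 5) (nat_lit 322) (nat_lit 5) (nat_lit 580) (nat_lit 515) (nat_lit 465)) (XT.lf (nat_lit 0) (nat_lit 567645735) (nat_lit 684) (nat_lit 1590490394) (nat_lit 76) (nat_lit 6502426314) (nat_lit 312) (nat_lit 5) (nat_lit 321) (nat_lit 5) (nat_lit 313) (nat_lit 5) (nat_lit 581) (nat_lit 515) (nat_lit 464)))) (XT.nd (nat_lit 156) (nat_lit 684) (nat_lit 0) (XT.nd (nat_lit 78) (nat_lit 608) (nat_lit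 0) (XT.lf (nat_lit 0) (nat_lit 3489290157) (nat_lit 760) (nat_lit 4183755568) (nat_lit 76) (nat_lit 1065485575) (nat_lit 303) (nat_lit 5) (nat_lit 313) (nat_lit 5) (nat_lit 304) (nat_lit 5) (nat_lit 582) (nat_lit 515) (nat_lit 463)) (XT.lf (nat_lit 0) (nat_lit 1987508681) (nat_lit 608) (nat_lit 4479824425) (nat_lit 684) (nat_lit 2350769209) (nat_lit 295) (nat_lit 5) (nat_lit 303) (nat_lit 5) (nat_lit 304) (nat_lit 5) (nat_lit 583) (nat_lit 515) (nat_lit 462))) (XT.nd (nat_lit 78) (nat_lit 608) (nat_lit 0) (XT.lf (nat_lit 0) (nat_lit 586207268) (nat_lit 684) (nat_lit 614963103) (nat_lit 76) (nat_lit 7698248173) (nat_lit 294) (nat_lit 5) (nat_lit 303) (nat_lit 5) (nat_lit 295) (nat_lit 5) (nat_lit 584) (nat_lit 515) (nat_lit 461)) (XT.lf (nat_lit 0) (nat_lit 3562898151) (nat_lit 684) (nat_lit 3261707839) (nat_lit 76) (nat_lit 2157197272) (nat_lit 286) (nat_lit 5) (nat_lit 295) (nat_lit 5) (nat_lit 287) (nat_lit 5) (nat_lit 585) (nat_lit 515) (nat_lit 460))))))) (XT.nd (nat_lit 1170) (nat_lit 2204) (nat_lit 0) (XT.nd (nat_lit 546) (nat_lit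 3116) (nat_lit 0) (XT.nd (nat_lit 234) (nat_lit 1672) (nat_lit 0) (XT.nd (nat_lit 78) (nat_lit 684) (nat_lit 0) (XT.lf (nat_lit 0) (nat_lit 3106779827) (nat_lit 608) (nat_lit 3485990117) (nat_lit 684) (nat_lit 2473194725) (nat_lit 278) (nat_lit 5) (nat_lit 286) (nat_lit 5) (nat_lit 287) (nat_lit 5) (nat_lit 586) (nat_lit 515) (nat_lit 459)) (XT.nd (nat_lit 78) (nat_lit 0) (nat_lit 0) (XT.lf (nat_lit 0) (nat_lit 447144840) (nat_lit 608) (nat_lit 63795544) (nat_lit 684) (nat_lit 8641072164) (nat_lit 269) (nat_lit 5) (nat_lit 277) (nat_lit 5) (nat_lit 278) (nat_lit 5) (nat_lit 587) (nat_lit 515) (nat_lit 458)) (XT.lf (nat_lit 0) (nat_lit 3546069092) (nat_lit 684) (nat_lit 2266448288) (nat_lit 76) (nat_lit 3426450332) (nat_lit 269) (nat_lit 5) (nat_lit 278) (nat_lit 5) (nat_lit 270) (nat_lit 5) (nat_lit 588) (nat_lit 515) (nat_lit 457)))) (XT.nd (nat_lit 156) (nat_lit 532) (nat_lit 0) (XT.nd (nat_lit 78) (nat_lit 608) (nat_lit 0) (XT.lf (nat_lit 0) (nat_lit 4306848018) (nat_lit 532) (nat_lit 2326077543) (nat_lit 608) (nat_lit 2694917701) (nat_lit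 262) (nat_lit 5) (nat_lit 269) (nat_lit 5) (nat_lit 270) (nat_lit 5) (nat_lit 589) (nat_lit 515) (nat_lit 456)) (XT.lf (nat_lit 0) (nat_lit 354802555) (nat_lit 608) (nat_lit 7834323533) (nat_lit 76) (nat_lit 1229393996) (nat_lit 254) (nat_lit 5) (nat_lit 262) (nat_lit 5) (nat_lit 255) (nat_lit 5) (nat_lit 590) (nat_lit 515) (nat_lit 455))) (XT.nd (nat_lit 78) (nat_lit 532) (nat_lit 0) (XT.lf (nat_lit 0) (nat_lit 3441912496) (nat_lit 608) (nat_lit 1204703057) (nat_lit 76) (nat_lit 4863790700) (nat_lit 254) (nat_lit 5) (nat_lit 262) (nat_lit 5) (nat_lit 255) (nat_lit 5) (nat_lit 591) (nat_lit 515) (nat_lit 454)) (XT.lf (nat_lit 0) (nat_lit 5581253261) (nat_lit 532) (nat_lit 1009596956) (nat_lit 608) (nat_lit 3013279868) (nat_lit 247) (nat_lit 5) (nat_lit 254) (nat_lit 5) (nat_lit 255) (nat_lit 5) (nat_lit 592) (nat_lit 515) (nat_lit 453))))) (XT.nd (nat_lit 312) (nat_lit 1520) (nat_lit 0) (XT.nd (nat_lit 156) (nat_lit 988) (nat_lit 0) (XT.nd (nat_lit 78) (nat_lit 0) (nat_lit 0) (XT.lf (nat_lit 0) (nat_lit 109665812) (nat_lit 608) (nat_lit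 6911368810) (nat_lit 76) (nat_lit 2678522400) (nat_lit 239) (nat_lit 5) (nat_lit 247) (nat_lit 5) (nat_lit 240) (nat_lit 5) (nat_lit 593) (nat_lit 515) (nat_lit 452)) (XT.lf (nat_lit 0) (nat_lit 3252917750) (nat_lit 608) (nat_lit 83076282) (nat_lit 76) (nat_lit 6460537764) (nat_lit 239) (nat_lit 5) (nat_lit 247) (nat_lit 5) (nat_lit 240) (nat_lit 5) (nat_lit 594) (nat_lit 515) (nat_lit 451))) (XT.nd (nat_lit 78) (nat_lit 532) (nat_lit 0) (XT.lf (nat_lit 0) (nat_lit 6471936760) (nat_lit 532) (nat_lit 2974543970) (nat_lit 76) (nat_lit 448708819) (nat_lit 233) (nat_lit 5) (nat_lit 240) (nat_lit 5) (nat_lit 234) (nat_lit 5) (nat_lit 595) (nat_lit 515) (nat_lit 450)) (XT.lf (nat_lit 0) (nat_lit 4051587694) (nat_lit 532) (nat_lit 5717984926) (nat_lit 608) (nat_lit 225964603) (nat_lit 226) (nat_lit 5) (nat_lit 233) (nat_lit 5) (nat_lit 234) (nat_lit 5) (nat_lit 596) (nat_lit 515) (nat_lit 449)))) (XT.nd (nat_lit 156) (nat_lit 988) (nat_lit 0) (XT.nd (nat_lit 78) (nat_lit 0) (nat_lit 0) (XT.lf (nat_lit 0) (nat_lit 1106392174) (nat_lit 456) (nat_lit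 1881756904) (nat_lit 532) (nat_lit 7109496314) (nat_lit 219) (nat_lit 5) (nat_lit 225) (nat_lit 5) (nat_lit 226) (nat_lit 5) (nat_lit 597) (nat_lit 515) (nat_lit 448)) (XT.lf (nat_lit 0) (nat_lit 6282536546) (nat_lit 532) (nat_lit 1887248466) (nat_lit 76) (nat_lit 2031601904) (nat_lit 219) (nat_lit 5) (nat_lit 226) (nat_lit 5) (nat_lit 220) (nat_lit 5) (nat_lit 598) (nat_lit 515) (nat_lit 447))) (XT.nd (nat_lit 78) (nat_lit 532) (nat_lit 0) (XT.lf (nat_lit 0) (nat_lit 5368136809) (nat_lit 456) (nat_lit 4288338757) (nat_lit 532) (nat_lit 650455810) (nat_lit 213) (nat_lit 5) (nat_lit 219) (nat_lit 5) (nat_lit 220) (nat_lit 5) (nat_lit 599) (nat_lit 515) (nat_lit 446)) (XT.lf (nat_lit 0) (nat_lit 2344350844) (nat_lit 456) (nat_lit 298205657) (nat_lit 532) (nat_lit 7771794278) (nat_lit 206) (nat_lit 5) (nat_lit 212) (nat_lit 5) (nat_lit 213) (nat_lit 5) (nat_lit 600) (nat_lit 515) (nat_lit 445)))))) (XT.nd (nat_lit 75504) (nat_lit 0) (nat_lit 42864) (XT.nd (nat_lit 234) (nat_lit 1292) (nat_lit 0) (XT.nd (nat_lit 78) (nat_lit 912) (nat_lit 0)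 (XT.lf (nat_lit 0) (nat_lit 6017293842) (nat_lit 532) (nat_lit 761179232) (nat_lit 76) (nat_lit 3744869318) (nat_lit 206) (nat_lit 5) (nat_lit 213) (nat_lit 5) (nat_lit 207) (nat_lit 5) (nat_lit 601) (nat_lit 515) (nat_lit 444)) (XT.nd (nat_lit 78) (nat_lit 456) (nat_lit 0) (XT.lf (nat_lit 0) (nat_lit 6732082928) (nat_lit 456) (nat_lit 2740495921) (nat_lit 532) (nat_lit 1161675208) (nat_lit 200) (nat_lit 5) (nat_lit 206) (nat_lit 5) (nat_lit 207) (nat_lit 5) (nat_lit 602) (nat_lit 515) (nat_lit 443)) (XT.lf (nat_lit 0) (nat_lit 2225363251) (nat_lit 456) (nat_lit 7133350695) (nat_lit 76) (nat_lit 1388273491) (nat_lit 194) (nat_lit 5) (nat_lit 200) (nat_lit 5) (nat_lit 195) (nat_lit 5) (nat_lit 603) (nat_lit 515) (nat_lit 442)))) (XT.nd (nat_lit 156) (nat_lit 836) (nat_lit 0) (XT.nd (nat_lit 78) (nat_lit 0) (nat_lit 0) (XT.lf (nat_lit 0) (nat_lit 402065338) (nat_lit 456) (nat_lit 5277364165) (nat_lit 532) (nat_lit 5182096773) (nat_lit 188) (nat_lit 5) (nat_lit 194) (nat_lit 5) (nat_lit 195) (nat_lit 5) (nat_lit 604) (nat_lit 515) (nat_lit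 441)) (XT.lf (nat_lit 0) (nat_lit 8136806367) (nat_lit 456) (nat_lit 1081669084) (nat_lit 532) (nat_lit 1759563654) (nat_lit 188) (nat_lit 5) (nat_lit 194) (nat_lit 5) (nat_lit 195) (nat_lit 5) (nat_lit 605) (nat_lit 515) (nat_lit 440))) (XT.nd (nat_lit 78) (nat_lit 380) (nat_lit 0) (XT.lf (nat_lit 0) (nat_lit 1730149300) (nat_lit 456) (nat_lit 6182304362) (nat_lit 76) (nat_lit 3183776089) (nat_lit 182) (nat_lit 5) (nat_lit 188) (nat_lit 5) (nat_lit 183) (nat_lit 5) (nat_lit 606) (nat_lit 515) (nat_lit 439)) (XT.lf (nat_lit 0) (nat_lit 1600582336) (nat_lit 380) (nat_lit 3670939512) (nat_lit 456) (nat_lit 5944922341) (nat_lit 177) (nat_lit 5) (nat_lit 182) (nat_lit 5) (nat_lit 183) (nat_lit 5) (nat_lit 607) (nat_lit 515) (nat_lit 438))))) (XT.nd (nat_lit 312) (nat_lit 1748) (nat_lit 0) (XT.nd (nat_lit 156) (nat_lit 456) (nat_lit 0) (XT.nd (nat_lit 78) (nat_lit 0) (nat_lit 0) (XT.lf (nat_lit 0) (nat_lit 342285638) (nat_lit 380) (nat_lit 2551805295) (nat_lit 0) (nat_lit 342285638) (nat_lit 770) (nat_lit 5) (nat_lit 775) (nat_lit 4) (nat_lit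 770) (nat_lit 4) (nat_lit 528) (nat_lit 516) (nat_lit 516)) (XT.lf (nat_lit 0) (nat_lit 3885529482) (nat_lit 380) (nat_lit 1497303029) (nat_lit 0) (nat_lit 1098084484) (nat_lit 770) (nat_lit 5) (nat_lit 775) (nat_lit 4) (nat_lit 770) (nat_lit 4) (nat_lit 529) (nat_lit 516) (nat_lit 515))) (XT.nd (nat_lit 78) (nat_lit 0) (nat_lit 0) (XT.lf (nat_lit 0) (nat_lit 587615403) (nat_lit 456) (nat_lit 4333251097) (nat_lit 76) (nat_lit 1569599962) (nat_lit 764) (nat_lit 5) (nat_lit 770) (nat_lit 5) (nat_lit 765) (nat_lit 4) (nat_lit 530) (nat_lit 516) (nat_lit 514)) (XT.lf (nat_lit 0) (nat_lit 3731810779) (nat_lit 456) (nat_lit 661181549) (nat_lit 76) (nat_lit 2108234327) (nat_lit 764) (nat_lit 5) (nat_lit 770) (nat_lit 5) (nat_lit 765) (nat_lit 4) (nat_lit 531) (nat_lit 516) (nat_lit 513)))) (XT.nd (nat_lit 156) (nat_lit 684) (nat_lit 0) (XT.nd (nat_lit 78) (nat_lit 532) (nat_lit 0) (XT.lf (nat_lit 0) (nat_lit 364350364) (nat_lit 532) (nat_lit 3439135036) (nat_lit 76) (nat_lit 2709804286) (nat_lit 757) (nat_lit 5) (nat_lit 764) (nat_lit 5) (nat_lit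 758) (nat_lit 5) (nat_lit 532) (nat_lit 516) (nat_lit 512)) (XT.lf (nat_lit 0) (nat_lit 304501475) (nat_lit 532) (nat_lit 3150031439) (nat_lit 608) (nat_lit 3072086526) (nat_lit 750) (nat_lit 5) (nat_lit 757) (nat_lit 5) (nat_lit 758) (nat_lit 5) (nat_lit 533) (nat_lit 516) (nat_lit 511))) (XT.nd (nat_lit 78) (nat_lit 608) (nat_lit 0) (XT.lf (nat_lit 0) (nat_lit 13678244) (nat_lit 608) (nat_lit 2420168868) (nat_lit 76) (nat_lit 4107402913) (nat_lit 749) (nat_lit 5) (nat_lit 757) (nat_lit 5) (nat_lit 750) (nat_lit 5) (nat_lit 534) (nat_lit 516) (nat_lit 510)) (XT.lf (nat_lit 0) (nat_lit 1407442518) (nat_lit 608) (nat_lit 1648240641) (nat_lit 684) (nat_lit 3501378315) (nat_lit 741) (nat_lit 5) (nat_lit 749) (nat_lit 5) (nat_lit 750) (nat_lit 5) (nat_lit 535) (nat_lit 516) (nat_lit 509))))))))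
noncomputable def xc28 : XT := (XT.nd (nat_lit 2340) (nat_lit 14744) (nat_lit 0) (XT.nd (nat_lit 1170) (nat_lit 14516) (nat_lit 0) (XT.nd (nat_lit 546) (nat_lit 5928) (nat_lit 0) (XT.nd (nat_lit 234) (nat_lit 2660) (nat_lit 0) (XT.nd (nat_lit 78) (nat_lit 760) (nat_lit 0) (XT.lf (nat_lit 0) (nat_lit 5296240566) (nat_lit 608) (nat_lit 806140533) (nat_lit 684) (nat_lit 471938428) (nat_lit 741) (nat_lit 5) (nat_lit 749) (nat_lit 5) (nat_lit 750) (nat_lit 5) (nat_lit 536) (nat_lit 516) (nat_lit 508)) (XT.nd (nat_lit 78) (nat_lit 0) (nat_lit 0) (XT.lf (nat_lit 0) (nat_lit 2530170817) (nat_lit 760) (nat_lit 3953057638) (nat_lit 76) (nat_lit 109433121) (nat_lit 731) (nat_lit 5) (nat_lit 741) (nat_lit 5) (nat_lit 732) (nat_lit 5) (nat_lit 537) (nat_lit 516) (nat_lit 507)) (XT.lf (nat_lit 0) (nat_lit 5529771586) (nat_lit 760) (nat_lit 16181436) (nat_lit 76) (nat_lit 1066486688) (nat_lit 731) (nat_lit 5) (nat_lit 741) (nat_lit 5) (nat_lit 732) (nat_lit 5) (nat_lit 538) (nat_lit 516) (nat_lit 506)))) (XT.nd (nat_lit 156) (nat_lit 988) (nat_lit 0) (XT.nd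 (nat_lit 78) (nat_lit 836) (nat_lit 0) (XT.lf (nat_lit 0) (nat_lit 1887957872) (nat_lit 836) (nat_lit 2642416824) (nat_lit 76) (nat_lit 2102853953) (nat_lit 720) (nat_lit 5) (nat_lit 731) (nat_lit 5) (nat_lit 721) (nat_lit 5) (nat_lit 539) (nat_lit 516) (nat_lit 505)) (XT.lf (nat_lit 0) (nat_lit 1385683410) (nat_lit 836) (nat_lit 3458684454) (nat_lit 912) (nat_lit 1811111609) (nat_lit 709) (nat_lit 5) (nat_lit 720) (nat_lit 5) (nat_lit 721) (nat_lit 5) (nat_lit 540) (nat_lit 516) (nat_lit 504))) (XT.nd (nat_lit 78) (nat_lit 912) (nat_lit 0) (XT.lf (nat_lit 0) (nat_lit 1116400596) (nat_lit 912) (nat_lit 1205081926) (nat_lit 76) (nat_lit 4357542315) (nat_lit 708) (nat_lit 5) (nat_lit 720) (nat_lit 5) (nat_lit 709) (nat_lit 5) (nat_lit 541) (nat_lit 516) (nat_lit 503)) (XT.lf (nat_lit 0) (nat_lit 2918547348) (nat_lit 912) (nat_lit 1112282832) (nat_lit 988) (nat_lit 2672925362) (nat_lit 696) (nat_lit 5) (nat_lit 708) (nat_lit 5) (nat_lit 709) (nat_lit 5) (nat_lit 542) (nat_lit 516) (nat_lit 502))))) (XT.nd (nat_lit 312) (nat_lit 3724) (nat_lit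 0) (XT.nd (nat_lit 156) (nat_lit 1140) (nat_lit 0) (XT.nd (nat_lit 78) (nat_lit 0) (nat_lit 0) (XT.lf (nat_lit 0) (nat_lit 216652242) (nat_lit 1064) (nat_lit 6365127055) (nat_lit 76) (nat_lit 148258177) (nat_lit 682) (nat_lit 5) (nat_lit 696) (nat_lit 5) (nat_lit 683) (nat_lit 5) (nat_lit 543) (nat_lit 516) (nat_lit 501)) (XT.lf (nat_lit 0) (nat_lit 3096470110) (nat_lit 1064) (nat_lit 2182536746) (nat_lit 76) (nat_lit 1478125906) (nat_lit 682) (nat_lit 5) (nat_lit 696) (nat_lit 5) (nat_lit 683) (nat_lit 5) (nat_lit 544) (nat_lit 516) (nat_lit 500))) (XT.nd (nat_lit 78) (nat_lit 76) (nat_lit 0) (XT.lf (nat_lit 0) (nat_lit 2061422872) (nat_lit 1064) (nat_lit 3922385447) (nat_lit 1140) (nat_lit 801968905) (nat_lit 668) (nat_lit 5) (nat_lit 682) (nat_lit 5) (nat_lit 683) (nat_lit 5) (nat_lit 545) (nat_lit 516) (nat_lit 499)) (XT.lf (nat_lit 0) (nat_lit 2037963901) (nat_lit 1140) (nat_lit 458513047) (nat_lit 76) (nat_lit 4319212868) (nat_lit 667) (nat_lit 5) (nat_lit 682) (nat_lit 5) (nat_lit 668) (nat_lit 5) (nat_lit 546) (nat_lit 516) (nat_lit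 498)))) (XT.nd (nat_lit 156) (nat_lit 1292) (nat_lit 0) (XT.nd (nat_lit 78) (nat_lit 1292) (nat_lit 0) (XT.lf (nat_lit 0) (nat_lit 3889486415) (nat_lit 1140) (nat_lit 998014515) (nat_lit 1216) (nat_lit 1959328247) (nat_lit 652) (nat_lit 5) (nat_lit 667) (nat_lit 5) (nat_lit 668) (nat_lit 5) (nat_lit 547) (nat_lit 516) (nat_lit 497)) (XT.lf (nat_lit 0) (nat_lit 858127451) (nat_lit 1292) (nat_lit 5467724445) (nat_lit 76) (nat_lit 553531839) (nat_lit 635) (nat_lit 5) (nat_lit 652) (nat_lit 5) (nat_lit 636) (nat_lit 5) (nat_lit 548) (nat_lit 516) (nat_lit 496))) (XT.nd (nat_lit 78) (nat_lit 1292) (nat_lit 0) (XT.lf (nat_lit 0) (nat_lit 3672031035) (nat_lit 1292) (nat_lit 1074097324) (nat_lit 76) (nat_lit 2166880421) (nat_lit 635) (nat_lit 5) (nat_lit 652) (nat_lit 5) (nat_lit 636) (nat_lit 5) (nat_lit 549) (nat_lit 516) (nat_lit 495)) (XT.lf (nat_lit 0) (nat_lit 3402698641) (nat_lit 1292) (nat_lit 3102512049) (nat_lit 1368) (nat_lit 442840680) (nat_lit 618) (nat_lit 5) (nat_lit 635) (nat_lit 5) (nat_lit 636) (nat_lit 5) (nat_lit 550) (nat_lit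 516) (nat_lit 494)))))) (XT.nd (nat_lit 546) (nat_lit 6688) (nat_lit 0) (XT.nd (nat_lit 234) (nat_lit 4864) (nat_lit 0) (XT.nd (nat_lit 78) (nat_lit 1520) (nat_lit 0) (XT.lf (nat_lit 0) (nat_lit 946864285) (nat_lit 1368) (nat_lit 1387529237) (nat_lit 1444) (nat_lit 4649997820) (nat_lit 599) (nat_lit 5) (nat_lit 617) (nat_lit 5) (nat_lit 618) (nat_lit 5) (nat_lit 551) (nat_lit 516) (nat_lit 493)) (XT.nd (nat_lit 78) (nat_lit 1520) (nat_lit 0) (XT.lf (nat_lit 0) (nat_lit 5129784113) (nat_lit 1444) (nat_lit 1500115500) (nat_lit 76) (nat_lit 392133844) (nat_lit 599) (nat_lit 5) (nat_lit 618) (nat_lit 5) (nat_lit 600) (nat_lit 5) (nat_lit 552) (nat_lit 516) (nat_lit 492)) (XT.lf (nat_lit 0) (nat_lit 881146289) (nat_lit 1520) (nat_lit 3956816336) (nat_lit 76) (nat_lit 2222899438) (nat_lit 579) (nat_lit 5) (nat_lit 599) (nat_lit 5) (nat_lit 580) (nat_lit 5) (nat_lit 553) (nat_lit 516) (nat_lit 491)))) (XT.nd (nat_lit 156) (nat_lit 3344) (nat_lit 0) (XT.nd (nat_lit 78) (nat_lit 0) (nat_lit 0) (XT.lf (nat_lit 0) (nat_lit 666391500) (nat_lit 1520)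 (nat_lit 2976551229) (nat_lit 1596) (nat_lit 3458113396) (nat_lit 559) (nat_lit 5) (nat_lit 579) (nat_lit 5) (nat_lit 580) (nat_lit 5) (nat_lit 554) (nat_lit 516) (nat_lit 490)) (XT.lf (nat_lit 0) (nat_lit 5385919889) (nat_lit 1520) (nat_lit 1045173096) (nat_lit 1596) (nat_lit 711543082) (nat_lit 559) (nat_lit 5) (nat_lit 579) (nat_lit 5) (nat_lit 580) (nat_lit 5) (nat_lit 555) (nat_lit 516) (nat_lit 489))) (XT.nd (nat_lit 78) (nat_lit 1672) (nat_lit 0) (XT.lf (nat_lit 0) (nat_lit 2033512540) (nat_lit 1672) (nat_lit 4200829260) (nat_lit 76) (nat_lit 951019326) (nat_lit 537) (nat_lit 5) (nat_lit 559) (nat_lit 5) (nat_lit 538) (nat_lit 5) (nat_lit 556) (nat_lit 516) (nat_lit 488)) (XT.lf (nat_lit 0) (nat_lit 561036118) (nat_lit 1672) (nat_lit 4231417861) (nat_lit 1748) (nat_lit 2437026501) (nat_lit 515) (nat_lit 5) (nat_lit 537) (nat_lit 5) (nat_lit 538) (nat_lit 5) (nat_lit 557) (nat_lit 516) (nat_lit 487))))) (XT.nd (nat_lit 312) (nat_lit 2964) (nat_lit 0) (XT.nd (nat_lit 156) (nat_lit 1900) (nat_lit 0) (XT.nd (nat_lit 78) (nat_lit 1748)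 (nat_lit 0) (XT.lf (nat_lit 0) (nat_lit 302562115) (nat_lit 1748) (nat_lit 1851886389) (nat_lit 76) (nat_lit 5120498027) (nat_lit 514) (nat_lit 5) (nat_lit 537) (nat_lit 5) (nat_lit 515) (nat_lit 5) (nat_lit 558) (nat_lit 516) (nat_lit 486)) (XT.lf (nat_lit 0) (nat_lit 3031567387) (nat_lit 1824) (nat_lit 4286726578) (nat_lit 76) (nat_lit 3364498) (nat_lit 491) (nat_lit 5) (nat_lit 515) (nat_lit 5) (nat_lit 492) (nat_lit 5) (nat_lit 559) (nat_lit 516) (nat_lit 485))) (XT.nd (nat_lit 78) (nat_lit 76) (nat_lit 0) (XT.lf (nat_lit 0) (nat_lit 618858305) (nat_lit 1824) (nat_lit 5175313296) (nat_lit 1900) (nat_lit 1575556447) (nat_lit 467) (nat_lit 5) (nat_lit 491) (nat_lit 5) (nat_lit 492) (nat_lit 5) (nat_lit 560) (nat_lit 516) (nat_lit 484)) (XT.lf (nat_lit 0) (nat_lit 1155147022) (nat_lit 1900) (nat_lit 1796255564) (nat_lit 76) (nat_lit 4467654573) (nat_lit 466) (nat_lit 5) (nat_lit 491) (nat_lit 5) (nat_lit 467) (nat_lit 5) (nat_lit 561) (nat_lit 516) (nat_lit 483)))) (XT.nd (nat_lit 156) (nat_lit 988) (nat_lit 0) (XT.nd (nat_lit 78) (nat_lit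 912) (nat_lit 0) (XT.lf (nat_lit 0) (nat_lit 3239705623) (nat_lit 1064) (nat_lit 650296069) (nat_lit 1140) (nat_lit 3579753770) (nat_lit 452) (nat_lit 5) (nat_lit 466) (nat_lit 5) (nat_lit 467) (nat_lit 5) (nat_lit 562) (nat_lit 516) (nat_lit 482)) (XT.lf (nat_lit 0) (nat_lit 828808084) (nat_lit 912) (nat_lit 5829526185) (nat_lit 988) (nat_lit 863561347) (nat_lit 440) (nat_lit 5) (nat_lit 452) (nat_lit 5) (nat_lit 453) (nat_lit 5) (nat_lit 563) (nat_lit 516) (nat_lit 481))) (XT.nd (nat_lit 78) (nat_lit 912) (nat_lit 0) (XT.lf (nat_lit 0) (nat_lit 1865395738) (nat_lit 988) (nat_lit 1596005441) (nat_lit 76) (nat_lit 4113764121) (nat_lit 439) (nat_lit 5) (nat_lit 452) (nat_lit 5) (nat_lit 440) (nat_lit 5) (nat_lit 564) (nat_lit 516) (nat_lit 480)) (XT.lf (nat_lit 0) (nat_lit 3594638387) (nat_lit 912) (nat_lit 1017619716) (nat_lit 988) (nat_lit 3017633629) (nat_lit 427) (nat_lit 5) (nat_lit 439) (nat_lit 5) (nat_lit 440) (nat_lit 5) (nat_lit 565) (nat_lit 516) (nat_lit 479))))))) (XT.nd (nat_lit 1170) (nat_lit 6688) (nat_lit 0) (XT.nd (nat_lit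 546) (nat_lit 3724) (nat_lit 0) (XT.nd (nat_lit 234) (nat_lit 2584) (nat_lit 0) (XT.nd (nat_lit 78) (nat_lit 912) (nat_lit 0) (XT.lf (nat_lit 0) (nat_lit 1180640544) (nat_lit 836) (nat_lit 6213598467) (nat_lit 912) (nat_lit 291873290) (nat_lit 416) (nat_lit 5) (nat_lit 427) (nat_lit 5) (nat_lit 428) (nat_lit 5) (nat_lit 566) (nat_lit 516) (nat_lit 478)) (XT.nd (nat_lit 78) (nat_lit 836) (nat_lit 0) (XT.lf (nat_lit 0) (nat_lit 2442218449) (nat_lit 912) (nat_lit 1261169369) (nat_lit 76) (nat_lit 4040020408) (nat_lit 415) (nat_lit 5) (nat_lit 427) (nat_lit 5) (nat_lit 416) (nat_lit 5) (nat_lit 567) (nat_lit 516) (nat_lit 477)) (XT.lf (nat_lit 0) (nat_lit 4089991815) (nat_lit 836) (nat_lit 1117037709) (nat_lit 912) (nat_lit 2595186096) (nat_lit 404) (nat_lit 5) (nat_lit 415) (nat_lit 5) (nat_lit 416) (nat_lit 5) (nat_lit 568) (nat_lit 516) (nat_lit 476)))) (XT.nd (nat_lit 156) (nat_lit 1672) (nat_lit 0) (XT.nd (nat_lit 78) (nat_lit 0) (nat_lit 0) (XT.lf (nat_lit 0) (nat_lit 145822260) (nat_lit 912) (nat_lit 6198662962) (nat_lit 76) (nat_lit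 1518034497) (nat_lit 392) (nat_lit 5) (nat_lit 404) (nat_lit 5) (nat_lit 393) (nat_lit 5) (nat_lit 569) (nat_lit 516) (nat_lit 475)) (XT.lf (nat_lit 0) (nat_lit 2893639865) (nat_lit 912) (nat_lit 801091404) (nat_lit 76) (nat_lit 4229223650) (nat_lit 392) (nat_lit 5) (nat_lit 404) (nat_lit 5) (nat_lit 393) (nat_lit 5) (nat_lit 570) (nat_lit 516) (nat_lit 474))) (XT.nd (nat_lit 78) (nat_lit 836) (nat_lit 0) (XT.lf (nat_lit 0) (nat_lit 4716694241) (nat_lit 836) (nat_lit 965473478) (nat_lit 912) (nat_lit 2304738844) (nat_lit 381) (nat_lit 5) (nat_lit 392) (nat_lit 5) (nat_lit 393) (nat_lit 5) (nat_lit 571) (nat_lit 516) (nat_lit 473)) (XT.lf (nat_lit 0) (nat_lit 456659747) (nat_lit 836) (nat_lit 5781852113) (nat_lit 76) (nat_lit 1812795457) (nat_lit 370) (nat_lit 5) (nat_lit 381) (nat_lit 5) (nat_lit 371) (nat_lit 5) (nat_lit 572) (nat_lit 516) (nat_lit 472))))) (XT.nd (nat_lit 312) (nat_lit 1444) (nat_lit 0) (XT.nd (nat_lit 156) (nat_lit 1520) (nat_lit 0) (XT.nd (nat_lit 78) (nat_lit 760) (nat_lit 0) (XT.lf (nat_lit 0) (nat_lit 3226849846)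 (nat_lit 836) (nat_lit 224501758) (nat_lit 76) (nat_lit 4665653974) (nat_lit 370) (nat_lit 5) (nat_lit 381) (nat_lit 5) (nat_lit 371) (nat_lit 5) (nat_lit 573) (nat_lit 516) (nat_lit 471)) (XT.lf (nat_lit 0) (nat_lit 5466288060) (nat_lit 760) (nat_lit 578422042) (nat_lit 836) (nat_lit 2139464977) (nat_lit 360) (nat_lit 5) (nat_lit 370) (nat_lit 5) (nat_lit 371) (nat_lit 5) (nat_lit 574) (nat_lit 516) (nat_lit 470))) (XT.nd (nat_lit 78) (nat_lit 760) (nat_lit 0) (XT.lf (nat_lit 0) (nat_lit 650954372) (nat_lit 760) (nat_lit 5261708449) (nat_lit 76) (nat_lit 2340072084) (nat_lit 350) (nat_lit 5) (nat_lit 360) (nat_lit 5) (nat_lit 351) (nat_lit 5) (nat_lit 575) (nat_lit 516) (nat_lit 469)) (XT.lf (nat_lit 0) (nat_lit 466529269) (nat_lit 760) (nat_lit 2984748259) (nat_lit 836) (nat_lit 4871453159) (nat_lit 340) (nat_lit 5) (nat_lit 350) (nat_lit 5) (nat_lit 351) (nat_lit 5) (nat_lit 576) (nat_lit 516) (nat_lit 468)))) (XT.nd (nat_lit 156) (nat_lit 684) (nat_lit 0) (XT.nd (nat_lit 78) (nat_lit 760) (nat_lit 0) (XT.lf (nat_lit 0) (nat_lit 6301117612)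 (nat_lit 836) (nat_lit 2063599473) (nat_lit 76) (nat_lit 29541496) (nat_lit 340) (nat_lit 5) (nat_lit 351) (nat_lit 5) (nat_lit 341) (nat_lit 5) (nat_lit 577) (nat_lit 516) (nat_lit 467)) (XT.lf (nat_lit 0) (nat_lit 734428933) (nat_lit 760) (nat_lit 4646319050) (nat_lit 76) (nat_lit 3086307044) (nat_lit 330) (nat_lit 5) (nat_lit 340) (nat_lit 5) (nat_lit 331) (nat_lit 5) (nat_lit 578) (nat_lit 516) (nat_lit 466))) (XT.nd (nat_lit 78) (nat_lit 0) (nat_lit 0) (XT.lf (nat_lit 0) (nat_lit 1262485753) (nat_lit 684) (nat_lit 2309197234) (nat_lit 760) (nat_lit 4969726771) (nat_lit 321) (nat_lit 5) (nat_lit 330) (nat_lit 5) (nat_lit 331) (nat_lit 5) (nat_lit 579) (nat_lit 516) (nat_lit 465)) (XT.lf (nat_lit 0) (nat_lit 6461838085) (nat_lit 760) (nat_lit 1319979662) (nat_lit 76) (nat_lit 835512940) (nat_lit 321) (nat_lit 5) (nat_lit 331) (nat_lit 5) (nat_lit 322) (nat_lit 5) (nat_lit 580) (nat_lit 516) (nat_lit 464)))))) (XT.nd (nat_lit 546) (nat_lit 3344) (nat_lit 0) (XT.nd (nat_lit 234) (nat_lit 1976) (nat_lit 0) (XT.nd (nat_lit 78) (nat_lit 684)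 (nat_lit 0) (XT.lf (nat_lit 0) (nat_lit 712077621) (nat_lit 684) (nat_lit 3943363086) (nat_lit 76) (nat_lit 4039110033) (nat_lit 312) (nat_lit 5) (nat_lit 321) (nat_lit 5) (nat_lit 313) (nat_lit 5) (nat_lit 581) (nat_lit 516) (nat_lit 463)) (XT.nd (nat_lit 78) (nat_lit 0) (nat_lit 0) (XT.lf (nat_lit 0) (nat_lit 2152971920) (nat_lit 684) (nat_lit 1438504351) (nat_lit 760) (nat_lit 5181889278) (nat_lit 303) (nat_lit 5) (nat_lit 312) (nat_lit 5) (nat_lit 313) (nat_lit 5) (nat_lit 582) (nat_lit 516) (nat_lit 462)) (XT.lf (nat_lit 0) (nat_lit 6527873901) (nat_lit 760) (nat_lit 490538531) (nat_lit 76) (nat_lit 1835358055) (nat_lit 303) (nat_lit 5) (nat_lit 313) (nat_lit 5) (nat_lit 304) (nat_lit 5) (nat_lit 583) (nat_lit 516) (nat_lit 461)))) (XT.nd (nat_lit 156) (nat_lit 684) (nat_lit 0) (XT.nd (nat_lit 78) (nat_lit 608) (nat_lit 0) (XT.lf (nat_lit 0) (nat_lit 588196926) (nat_lit 684) (nat_lit 3160179679) (nat_lit 76) (nat_lit 5187158992) (nat_lit 294) (nat_lit 5) (nat_lit 303) (nat_lit 5) (nat_lit 295) (nat_lit 5) (nat_lit 584) (nat_lit 516)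 (nat_lit 460)) (XT.lf (nat_lit 0) (nat_lit 3130915667) (nat_lit 608) (nat_lit 383945829) (nat_lit 684) (nat_lit 5504060304) (nat_lit 286) (nat_lit 5) (nat_lit 294) (nat_lit 5) (nat_lit 295) (nat_lit 5) (nat_lit 585) (nat_lit 516) (nat_lit 459))) (XT.nd (nat_lit 78) (nat_lit 76) (nat_lit 0) (XT.lf (nat_lit 0) (nat_lit 423308196) (nat_lit 608) (nat_lit 6082759137) (nat_lit 684) (nat_lit 2597790131) (nat_lit 278) (nat_lit 5) (nat_lit 286) (nat_lit 5) (nat_lit 287) (nat_lit 5) (nat_lit 586) (nat_lit 516) (nat_lit 458)) (XT.lf (nat_lit 0) (nat_lit 366411778) (nat_lit 684) (nat_lit 2303834907) (nat_lit 76) (nat_lit 6520107085) (nat_lit 277) (nat_lit 5) (nat_lit 286) (nat_lit 5) (nat_lit 278) (nat_lit 5) (nat_lit 587) (nat_lit 516) (nat_lit 457))))) (XT.nd (nat_lit 312) (nat_lit 1596) (nat_lit 0) (XT.nd (nat_lit 156) (nat_lit 608) (nat_lit 0) (XT.nd (nat_lit 78) (nat_lit 532) (nat_lit 0) (XT.lf (nat_lit 0) (nat_lit 3350865336) (nat_lit 684) (nat_lit 5094395715) (nat_lit 76) (nat_lit 833062270) (nat_lit 269) (nat_lit 5) (nat_lit 278) (nat_lit 5)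 (nat_lit 270) (nat_lit 5) (nat_lit 588) (nat_lit 516) (nat_lit 456)) (XT.lf (nat_lit 0) (nat_lit 1416751600) (nat_lit 532) (nat_lit 4984073277) (nat_lit 608) (nat_lit 2967112800) (nat_lit 262) (nat_lit 5) (nat_lit 269) (nat_lit 5) (nat_lit 270) (nat_lit 5) (nat_lit 589) (nat_lit 516) (nat_lit 455))) (XT.nd (nat_lit 78) (nat_lit 532) (nat_lit 0) (XT.lf (nat_lit 0) (nat_lit 49697060) (nat_lit 608) (nat_lit 1381188449) (nat_lit 76) (nat_lit 8028494775) (nat_lit 261) (nat_lit 5) (nat_lit 269) (nat_lit 5) (nat_lit 262) (nat_lit 5) (nat_lit 590) (nat_lit 516) (nat_lit 454)) (XT.lf (nat_lit 0) (nat_lit 3100472960) (nat_lit 608) (nat_lit 4244617849) (nat_lit 76) (nat_lit 2206903142) (nat_lit 254) (nat_lit 5) (nat_lit 262) (nat_lit 5) (nat_lit 255) (nat_lit 5) (nat_lit 591) (nat_lit 516) (nat_lit 453)))) (XT.nd (nat_lit 156) (nat_lit 1064) (nat_lit 0) (XT.nd (nat_lit 78) (nat_lit 0) (nat_lit 0) (XT.lf (nat_lit 0) (nat_lit 2476617652) (nat_lit 532) (nat_lit 3735089756) (nat_lit 608) (nat_lit 3434765242) (nat_lit 247) (nat_lit 5) (nat_lit 254) (nat_lit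 5) (nat_lit 255) (nat_lit 5) (nat_lit 592) (nat_lit 516) (nat_lit 452)) (XT.lf (nat_lit 0) (nat_lit 9341647776) (nat_lit 532) (nat_lit 36941852) (nat_lit 608) (nat_lit 364384419) (nat_lit 247) (nat_lit 5) (nat_lit 254) (nat_lit 5) (nat_lit 255) (nat_lit 5) (nat_lit 593) (nat_lit 516) (nat_lit 451))) (XT.nd (nat_lit 78) (nat_lit 456) (nat_lit 0) (XT.lf (nat_lit 0) (nat_lit 2763420641) (nat_lit 608) (nat_lit 3342993845) (nat_lit 76) (nat_lit 3733986923) (nat_lit 239) (nat_lit 5) (nat_lit 247) (nat_lit 5) (nat_lit 240) (nat_lit 5) (nat_lit 594) (nat_lit 516) (nat_lit 450)) (XT.lf (nat_lit 0) (nat_lit 3596352869) (nat_lit 456) (nat_lit 2344543253) (nat_lit 532) (nat_lit 3998994650) (nat_lit 233) (nat_lit 5) (nat_lit 239) (nat_lit 5) (nat_lit 240) (nat_lit 5) (nat_lit 595) (nat_lit 516) (nat_lit 449))))))))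
noncomputable def xc29 : XT := (XT.nd (nat_lit 77142) (nat_lit 0) (nat_lit 14288) (XT.nd (nat_lit 75972) (nat_lit 0) (nat_lit 38988) (XT.nd (nat_lit 546) (nat_lit 1368) (nat_lit 0) (XT.nd (nat_lit 234) (nat_lit 1444) (nat_lit 0) (XT.nd (nat_lit 78) (nat_lit 532) (nat_lit 0) (XT.lf (nat_lit 0) (nat_lit 629044168) (nat_lit 532) (nat_lit 8555191521) (nat_lit 608) (nat_lit 857089410) (nat_lit 226) (nat_lit 5) (nat_lit 233) (nat_lit 5) (nat_lit 234) (nat_lit 5) (nat_lit 596) (nat_lit 516) (nat_lit 448)) (XT.nd (nat_lit 78) (nat_lit 456) (nat_lit 0) (XT.lf (nat_lit 0) (nat_lit 2341330859) (nat_lit 608) (nat_lit 2396303384) (nat_lit 76) (nat_lit 5406361089) (nat_lit 225) (nat_lit 5) (nat_lit 233) (nat_lit 5) (nat_lit 226) (nat_lit 5) (nat_lit 597) (nat_lit 516) (nat_lit 447)) (XT.lf (nat_lit 0) (nat_lit 4769436669) (nat_lit 456) (nat_lit 820538085) (nat_lit 532) (nat_lit 4658677658) (nat_lit 219) (nat_lit 5) (nat_lit 225) (nat_lit 5) (nat_lit 226) (nat_lit 5) (nat_lit 598) (nat_lit 516) (nat_lit 446)))) (XT.nd (nat_lit 156) (nat_lit 912) (nat_lit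 0) (XT.nd (nat_lit 78) (nat_lit 76) (nat_lit 0) (XT.lf (nat_lit 0) (nat_lit 1709910833) (nat_lit 456) (nat_lit 7208591244) (nat_lit 532) (nat_lit 1436603700) (nat_lit 213) (nat_lit 5) (nat_lit 219) (nat_lit 5) (nat_lit 220) (nat_lit 5) (nat_lit 599) (nat_lit 516) (nat_lit 445)) (XT.lf (nat_lit 0) (nat_lit 1835225690) (nat_lit 532) (nat_lit 1411361385) (nat_lit 76) (nat_lit 7216670699) (nat_lit 212) (nat_lit 5) (nat_lit 219) (nat_lit 5) (nat_lit 213) (nat_lit 5) (nat_lit 600) (nat_lit 516) (nat_lit 444))) (XT.nd (nat_lit 78) (nat_lit 456) (nat_lit 0) (XT.lf (nat_lit 0) (nat_lit 5165319409) (nat_lit 532) (nat_lit 4589324472) (nat_lit 76) (nat_lit 818499012) (nat_lit 206) (nat_lit 5) (nat_lit 213) (nat_lit 5) (nat_lit 207) (nat_lit 5) (nat_lit 601) (nat_lit 516) (nat_lit 443)) (XT.lf (nat_lit 0) (nat_lit 2829431758) (nat_lit 456) (nat_lit 5749996793) (nat_lit 532) (nat_lit 2105450143) (nat_lit 200) (nat_lit 5) (nat_lit 206) (nat_lit 5) (nat_lit 207) (nat_lit 5) (nat_lit 602) (nat_lit 516) (nat_lit 442))))) (XT.nd (nat_lit 312) (nat_lit 0) (nat_lit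 0) (XT.nd (nat_lit 156) (nat_lit 912) (nat_lit 0) (XT.nd (nat_lit 78) (nat_lit 380) (nat_lit 0) (XT.lf (nat_lit 0) (nat_lit 1245528525) (nat_lit 532) (nat_lit 395089931) (nat_lit 76) (nat_lit 9158085516) (nat_lit 199) (nat_lit 5) (nat_lit 206) (nat_lit 5) (nat_lit 200) (nat_lit 5) (nat_lit 603) (nat_lit 516) (nat_lit 441)) (XT.lf (nat_lit 0) (nat_lit 4668043546) (nat_lit 456) (nat_lit 3681773081) (nat_lit 76) (nat_lit 2564057794) (nat_lit 194) (nat_lit 5) (nat_lit 200) (nat_lit 5) (nat_lit 195) (nat_lit 5) (nat_lit 604) (nat_lit 516) (nat_lit 440))) (XT.nd (nat_lit 78) (nat_lit 456) (nat_lit 0) (XT.lf (nat_lit 0) (nat_lit 3980704927) (nat_lit 456) (nat_lit 4186645889) (nat_lit 532) (nat_lit 2863831779) (nat_lit 188) (nat_lit 5) (nat_lit 194) (nat_lit 5) (nat_lit 195) (nat_lit 5) (nat_lit 605) (nat_lit 516) (nat_lit 439)) (XT.lf (nat_lit 0) (nat_lit 576811666) (nat_lit 456) (nat_lit 10497318549) (nat_lit 76) (nat_lit 76658013) (nat_lit 182) (nat_lit 5) (nat_lit 188) (nat_lit 5) (nat_lit 183) (nat_lit 5) (nat_lit 606) (nat_lit 516) (nat_lit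 438)))) (XT.nd (nat_lit 74958) (nat_lit 0) (nat_lit 44688) (XT.nd (nat_lit 74880) (nat_lit 0) (nat_lit 45068) (XT.lf (nat_lit 0) (nat_lit 4092579603) (nat_lit 456) (nat_lit 2758606002) (nat_lit 76) (nat_lit 4420329692) (nat_lit 182) (nat_lit 5) (nat_lit 188) (nat_lit 5) (nat_lit 183) (nat_lit 5) (nat_lit 607) (nat_lit 516) (nat_lit 437)) (XT.lf (nat_lit 0) (nat_lit 366262670) (nat_lit 228) (nat_lit 1431700648) (nat_lit 228) (nat_lit 1431700648) (nat_lit 775) (nat_lit 4) (nat_lit 778) (nat_lit 5) (nat_lit 778) (nat_lit 4) (nat_lit 526) (nat_lit 517) (nat_lit 517))) (XT.nd (nat_lit 78) (nat_lit 304) (nat_lit 0) (XT.lf (nat_lit 0) (nat_lit 342191560) (nat_lit 304) (nat_lit 2208830824) (nat_lit 76) (nat_lit 3914683457) (nat_lit 774) (nat_lit 5) (nat_lit 778) (nat_lit 5) (nat_lit 775) (nat_lit 4) (nat_lit 527) (nat_lit 517) (nat_lit 516)) (XT.lf (nat_lit 0) (nat_lit 1331165663) (nat_lit 304) (nat_lit 2171021137) (nat_lit 380) (nat_lit 2971082398) (nat_lit 770) (nat_lit 5) (nat_lit 774) (nat_lit 5) (nat_lit 775) (nat_lit 4) (nat_lit 528) (nat_lit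 517) (nat_lit 515)))))) (XT.nd (nat_lit 546) (nat_lit 3496) (nat_lit 0) (XT.nd (nat_lit 234) (nat_lit 1748) (nat_lit 0) (XT.nd (nat_lit 78) (nat_lit 380) (nat_lit 0) (XT.lf (nat_lit 0) (nat_lit 176803206) (nat_lit 380) (nat_lit 1558053847) (nat_lit 76) (nat_lit 4747391538) (nat_lit 769) (nat_lit 5) (nat_lit 774) (nat_lit 5) (nat_lit 770) (nat_lit 5) (nat_lit 529) (nat_lit 517) (nat_lit 514)) (XT.nd (nat_lit 78) (nat_lit 0) (nat_lit 0) (XT.lf (nat_lit 0) (nat_lit 2058344508) (nat_lit 380) (nat_lit 1225165478) (nat_lit 456) (nat_lit 3208800424) (nat_lit 764) (nat_lit 5) (nat_lit 769) (nat_lit 5) (nat_lit 770) (nat_lit 5) (nat_lit 530) (nat_lit 517) (nat_lit 513)) (XT.lf (nat_lit 0) (nat_lit 5721845740) (nat_lit 380) (nat_lit 664429163) (nat_lit 456) (nat_lit 117628455) (nat_lit 764) (nat_lit 5) (nat_lit 769) (nat_lit 5) (nat_lit 770) (nat_lit 5) (nat_lit 531) (nat_lit 517) (nat_lit 512)))) (XT.nd (nat_lit 156) (nat_lit 684) (nat_lit 0) (XT.nd (nat_lit 78) (nat_lit 532) (nat_lit 0) (XT.lf (nat_lit 0) (nat_lit 2914963406) (nat_lit 456) (nat_lit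 23984297) (nat_lit 532) (nat_lit 3577526555) (nat_lit 757) (nat_lit 5) (nat_lit 763) (nat_lit 5) (nat_lit 764) (nat_lit 5) (nat_lit 532) (nat_lit 517) (nat_lit 511)) (XT.lf (nat_lit 0) (nat_lit 116137367) (nat_lit 532) (nat_lit 5874895831) (nat_lit 608) (nat_lit 539536661) (nat_lit 750) (nat_lit 5) (nat_lit 757) (nat_lit 5) (nat_lit 758) (nat_lit 5) (nat_lit 533) (nat_lit 517) (nat_lit 510))) (XT.nd (nat_lit 78) (nat_lit 608) (nat_lit 0) (XT.lf (nat_lit 0) (nat_lit 2476618997) (nat_lit 608) (nat_lit 2652931641) (nat_lit 76) (nat_lit 1416052585) (nat_lit 749) (nat_lit 5) (nat_lit 757) (nat_lit 5) (nat_lit 750) (nat_lit 5) (nat_lit 534) (nat_lit 517) (nat_lit 509)) (XT.lf (nat_lit 0) (nat_lit 1147739128) (nat_lit 608) (nat_lit 4333517965) (nat_lit 684) (nat_lit 1080908596) (nat_lit 741) (nat_lit 5) (nat_lit 749) (nat_lit 5) (nat_lit 750) (nat_lit 5) (nat_lit 535) (nat_lit 517) (nat_lit 508))))) (XT.nd (nat_lit 312) (nat_lit 1900) (nat_lit 0) (XT.nd (nat_lit 156) (nat_lit 836) (nat_lit 0) (XT.nd (nat_lit 78) (nat_lit 684) (nat_lit 0) (XT.lf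 (nat_lit 0) (nat_lit 1887606894) (nat_lit 684) (nat_lit 1579391028) (nat_lit 76) (nat_lit 3112883717) (nat_lit 740) (nat_lit 5) (nat_lit 749) (nat_lit 5) (nat_lit 741) (nat_lit 5) (nat_lit 536) (nat_lit 517) (nat_lit 507)) (XT.lf (nat_lit 0) (nat_lit 2308220716) (nat_lit 684) (nat_lit 2537754037) (nat_lit 760) (nat_lit 1752942156) (nat_lit 731) (nat_lit 5) (nat_lit 740) (nat_lit 5) (nat_lit 741) (nat_lit 5) (nat_lit 537) (nat_lit 517) (nat_lit 506))) (XT.nd (nat_lit 78) (nat_lit 760) (nat_lit 0) (XT.lf (nat_lit 0) (nat_lit 1170075656) (nat_lit 760) (nat_lit 379139521) (nat_lit 76) (nat_lit 5070138167) (nat_lit 730) (nat_lit 5) (nat_lit 740) (nat_lit 5) (nat_lit 731) (nat_lit 5) (nat_lit 538) (nat_lit 517) (nat_lit 505)) (XT.lf (nat_lit 0) (nat_lit 3599325929) (nat_lit 760) (nat_lit 484069269) (nat_lit 836) (nat_lit 2557471907) (nat_lit 720) (nat_lit 5) (nat_lit 730) (nat_lit 5) (nat_lit 731) (nat_lit 5) (nat_lit 539) (nat_lit 517) (nat_lit 504)))) (XT.nd (nat_lit 156) (nat_lit 988) (nat_lit 0) (XT.nd (nat_lit 78) (nat_lit 0) (nat_lit 0)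 (XT.lf (nat_lit 0) (nat_lit 332455401) (nat_lit 912) (nat_lit 5705773009) (nat_lit 76) (nat_lit 625629576) (nat_lit 708) (nat_lit 5) (nat_lit 720) (nat_lit 5) (nat_lit 709) (nat_lit 5) (nat_lit 540) (nat_lit 517) (nat_lit 503)) (XT.lf (nat_lit 0) (nat_lit 3203366089) (nat_lit 912) (nat_lit 1676908058) (nat_lit 76) (nat_lit 1807554074) (nat_lit 708) (nat_lit 5) (nat_lit 720) (nat_lit 5) (nat_lit 709) (nat_lit 5) (nat_lit 541) (nat_lit 517) (nat_lit 502))) (XT.nd (nat_lit 78) (nat_lit 76) (nat_lit 0) (XT.lf (nat_lit 0) (nat_lit 2416519135) (nat_lit 912) (nat_lit 3665812662) (nat_lit 988) (nat_lit 630939427) (nat_lit 696) (nat_lit 5) (nat_lit 708) (nat_lit 5) (nat_lit 709) (nat_lit 5) (nat_lit 542) (nat_lit 517) (nat_lit 501)) (XT.lf (nat_lit 0) (nat_lit 2196567809) (nat_lit 988) (nat_lit 187585280) (nat_lit 76) (nat_lit 4355843598) (nat_lit 695) (nat_lit 5) (nat_lit 708) (nat_lit 5) (nat_lit 696) (nat_lit 5) (nat_lit 543) (nat_lit 517) (nat_lit 500))))))) (XT.nd (nat_lit 1170) (nat_lit 10944) (nat_lit 0) (XT.nd (nat_lit 546) (nat_lit 7828)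 (nat_lit 0) (XT.nd (nat_lit 234) (nat_lit 3800) (nat_lit 0) (XT.nd (nat_lit 78) (nat_lit 1140) (nat_lit 0) (XT.lf (nat_lit 0) (nat_lit 4004798834) (nat_lit 988) (nat_lit 1030137476) (nat_lit 1064) (nat_lit 1732987496) (nat_lit 682) (nat_lit 5) (nat_lit 695) (nat_lit 5) (nat_lit 696) (nat_lit 5) (nat_lit 544) (nat_lit 517) (nat_lit 499)) (XT.nd (nat_lit 78) (nat_lit 0) (nat_lit 0) (XT.lf (nat_lit 0) (nat_lit 1069243962) (nat_lit 1140) (nat_lit 5348792271) (nat_lit 76) (nat_lit 379222563) (nat_lit 667) (nat_lit 5) (nat_lit 682) (nat_lit 5) (nat_lit 668) (nat_lit 5) (nat_lit 545) (nat_lit 517) (nat_lit 498)) (XT.lf (nat_lit 0) (nat_lit 3868104726) (nat_lit 1140) (nat_lit 1112345469) (nat_lit 76) (nat_lit 1847230817) (nat_lit 667) (nat_lit 5) (nat_lit 682) (nat_lit 5) (nat_lit 668) (nat_lit 5) (nat_lit 546) (nat_lit 517) (nat_lit 497)))) (XT.nd (nat_lit 156) (nat_lit 1368) (nat_lit 0) (XT.nd (nat_lit 78) (nat_lit 1292) (nat_lit 0) (XT.lf (nat_lit 0) (nat_lit 3202936443) (nat_lit 1140) (nat_lit 3480292798) (nat_lit 1216) (nat_lit 176282012) (nat_lit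 652) (nat_lit 5) (nat_lit 667) (nat_lit 5) (nat_lit 668) (nat_lit 5) (nat_lit 547) (nat_lit 517) (nat_lit 496)) (XT.lf (nat_lit 0) (nat_lit 670845608) (nat_lit 1216) (nat_lit 1908748861) (nat_lit 1292) (nat_lit 4313006218) (nat_lit 635) (nat_lit 5) (nat_lit 651) (nat_lit 5) (nat_lit 652) (nat_lit 5) (nat_lit 548) (nat_lit 517) (nat_lit 495))) (XT.nd (nat_lit 78) (nat_lit 1368) (nat_lit 0) (XT.lf (nat_lit 0) (nat_lit 5085127003) (nat_lit 1216) (nat_lit 268466508) (nat_lit 1292) (nat_lit 1573432789) (nat_lit 635) (nat_lit 5) (nat_lit 651) (nat_lit 5) (nat_lit 652) (nat_lit 5) (nat_lit 549) (nat_lit 517) (nat_lit 494)) (XT.lf (nat_lit 0) (nat_lit 1172782200) (nat_lit 1368) (nat_lit 4368300686) (nat_lit 76) (nat_lit 1421546550) (nat_lit 617) (nat_lit 5) (nat_lit 635) (nat_lit 5) (nat_lit 618) (nat_lit 5) (nat_lit 550) (nat_lit 517) (nat_lit 493))))) (XT.nd (nat_lit 312) (nat_lit 4940) (nat_lit 0) (XT.nd (nat_lit 156) (nat_lit 1520) (nat_lit 0) (XT.nd (nat_lit 78) (nat_lit 0) (nat_lit 0) (XT.lf (nat_lit 0) (nat_lit 85579845) (nat_lit 1368) (nat_lit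 3824573833) (nat_lit 1444) (nat_lit 3089441656) (nat_lit 599) (nat_lit 5) (nat_lit 617) (nat_lit 5) (nat_lit 618) (nat_lit 5) (nat_lit 551) (nat_lit 517) (nat_lit 492)) (XT.lf (nat_lit 0) (nat_lit 4639258557) (nat_lit 1368) (nat_lit 2035645353) (nat_lit 1444) (nat_lit 362948635) (nat_lit 599) (nat_lit 5) (nat_lit 617) (nat_lit 5) (nat_lit 618) (nat_lit 5) (nat_lit 552) (nat_lit 517) (nat_lit 491))) (XT.nd (nat_lit 78) (nat_lit 0) (nat_lit 0) (XT.lf (nat_lit 0) (nat_lit 2171627528) (nat_lit 1444) (nat_lit 172889536) (nat_lit 1520) (nat_lit 4732885159) (nat_lit 579) (nat_lit 5) (nat_lit 598) (nat_lit 5) (nat_lit 599) (nat_lit 5) (nat_lit 553) (nat_lit 517) (nat_lit 490)) (XT.lf (nat_lit 0) (nat_lit 5073581548) (nat_lit 1520) (nat_lit 314504203) (nat_lit 76) (nat_lit 1730167331) (nat_lit 579) (nat_lit 5) (nat_lit 599) (nat_lit 5) (nat_lit 580) (nat_lit 5) (nat_lit 554) (nat_lit 517) (nat_lit 489)))) (XT.nd (nat_lit 156) (nat_lit 1748) (nat_lit 0) (XT.nd (nat_lit 78) (nat_lit 1596) (nat_lit 0) (XT.lf (nat_lit 0) (nat_lit 663525482) (nat_lit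 1596) (nat_lit 2788095337) (nat_lit 76) (nat_lit 3708706489) (nat_lit 558) (nat_lit 5) (nat_lit 579) (nat_lit 5) (nat_lit 559) (nat_lit 5) (nat_lit 555) (nat_lit 517) (nat_lit 488)) (XT.lf (nat_lit 0) (nat_lit 1916786156) (nat_lit 1596) (nat_lit 1442678398) (nat_lit 1672) (nat_lit 3844293139) (nat_lit 537) (nat_lit 5) (nat_lit 558) (nat_lit 5) (nat_lit 559) (nat_lit 5) (nat_lit 556) (nat_lit 517) (nat_lit 487))) (XT.nd (nat_lit 78) (nat_lit 1748) (nat_lit 0) (XT.lf (nat_lit 0) (nat_lit 6079223236) (nat_lit 1672) (nat_lit 547521189) (nat_lit 76) (nat_lit 621918268) (nat_lit 537) (nat_lit 5) (nat_lit 559) (nat_lit 5) (nat_lit 538) (nat_lit 5) (nat_lit 557) (nat_lit 517) (nat_lit 486)) (XT.lf (nat_lit 0) (nat_lit 1523908010) (nat_lit 1748) (nat_lit 3019790781) (nat_lit 76) (nat_lit 2750859599) (nat_lit 514) (nat_lit 5) (nat_lit 537) (nat_lit 5) (nat_lit 515) (nat_lit 5) (nat_lit 558) (nat_lit 517) (nat_lit 485)))))) (XT.nd (nat_lit 546) (nat_lit 4332) (nat_lit 0) (XT.nd (nat_lit 234) (nat_lit 2964) (nat_lit 0) (XT.nd (nat_lit 78) (nat_lit 1900)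 (nat_lit 0) (XT.lf (nat_lit 0) (nat_lit 1827080747) (nat_lit 1748) (nat_lit 2392487151) (nat_lit 1824) (nat_lit 3122371208) (nat_lit 491) (nat_lit 5) (nat_lit 514) (nat_lit 5) (nat_lit 515) (nat_lit 5) (nat_lit 559) (nat_lit 517) (nat_lit 484)) (XT.nd (nat_lit 78) (nat_lit 1900) (nat_lit 0) (XT.lf (nat_lit 0) (nat_lit 6763406172) (nat_lit 1748) (nat_lit 175222606) (nat_lit 1824) (nat_lit 452252622) (nat_lit 491) (nat_lit 5) (nat_lit 514) (nat_lit 5) (nat_lit 515) (nat_lit 5) (nat_lit 560) (nat_lit 517) (nat_lit 483)) (XT.lf (nat_lit 0) (nat_lit 2233464891) (nat_lit 1900) (nat_lit 3102945750) (nat_lit 76) (nat_lit 2104260848) (nat_lit 466) (nat_lit 5) (nat_lit 491) (nat_lit 5) (nat_lit 467) (nat_lit 5) (nat_lit 561) (nat_lit 517) (nat_lit 482)))) (XT.nd (nat_lit 156) (nat_lit 1824) (nat_lit 0) (XT.nd (nat_lit 78) (nat_lit 76) (nat_lit 0) (XT.lf (nat_lit 0) (nat_lit 1891158721) (nat_lit 1064) (nat_lit 3043934102) (nat_lit 1140) (nat_lit 2556943236) (nat_lit 452) (nat_lit 5) (nat_lit 466) (nat_lit 5) (nat_lit 467) (nat_lit 5) (nat_lit 562)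 (nat_lit 517) (nat_lit 481)) (XT.lf (nat_lit 0) (nat_lit 116262945) (nat_lit 1140) (nat_lit 567051572) (nat_lit 76) (nat_lit 6861660638) (nat_lit 451) (nat_lit 5) (nat_lit 466) (nat_lit 5) (nat_lit 452) (nat_lit 5) (nat_lit 563) (nat_lit 517) (nat_lit 480))) (XT.nd (nat_lit 78) (nat_lit 912) (nat_lit 0) (XT.lf (nat_lit 0) (nat_lit 2801712151) (nat_lit 988) (nat_lit 3048356723) (nat_lit 76) (nat_lit 1748709105) (nat_lit 439) (nat_lit 5) (nat_lit 452) (nat_lit 5) (nat_lit 440) (nat_lit 5) (nat_lit 564) (nat_lit 517) (nat_lit 479)) (XT.lf (nat_lit 0) (nat_lit 2098492250) (nat_lit 912) (nat_lit 3416848411) (nat_lit 988) (nat_lit 2138830029) (nat_lit 427) (nat_lit 5) (nat_lit 439) (nat_lit 5) (nat_lit 440) (nat_lit 5) (nat_lit 565) (nat_lit 517) (nat_lit 478))))) (XT.nd (nat_lit 312) (nat_lit 2508) (nat_lit 0) (XT.nd (nat_lit 156) (nat_lit 912) (nat_lit 0) (XT.nd (nat_lit 78) (nat_lit 836) (nat_lit 0) (XT.lf (nat_lit 0) (nat_lit 538445455) (nat_lit 988) (nat_lit 373653570) (nat_lit 76) (nat_lit 6799033304) (nat_lit 426) (nat_lit 5) (nat_lit 439)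 (nat_lit 5) (nat_lit 427) (nat_lit 5) (nat_lit 566) (nat_lit 517) (nat_lit 477)) (XT.lf (nat_lit 0) (nat_lit 3237237048) (nat_lit 912) (nat_lit 2866076570) (nat_lit 76) (nat_lit 1665707687) (nat_lit 415) (nat_lit 5) (nat_lit 427) (nat_lit 5) (nat_lit 416) (nat_lit 5) (nat_lit 567) (nat_lit 517) (nat_lit 476))) (XT.nd (nat_lit 78) (nat_lit 76) (nat_lit 0) (XT.lf (nat_lit 0) (nat_lit 2439296791) (nat_lit 836) (nat_lit 3529410691) (nat_lit 912) (nat_lit 1859789509) (nat_lit 404) (nat_lit 5) (nat_lit 415) (nat_lit 5) (nat_lit 416) (nat_lit 5) (nat_lit 568) (nat_lit 517) (nat_lit 475)) (XT.lf (nat_lit 0) (nat_lit 828233236) (nat_lit 912) (nat_lit 53942976) (nat_lit 76) (nat_lit 7007397623) (nat_lit 403) (nat_lit 5) (nat_lit 415) (nat_lit 5) (nat_lit 404) (nat_lit 5) (nat_lit 569) (nat_lit 517) (nat_lit 474)))) (XT.nd (nat_lit 156) (nat_lit 836) (nat_lit 0) (XT.nd (nat_lit 78) (nat_lit 836) (nat_lit 0) (XT.lf (nat_lit 0) (nat_lit 3547753053) (nat_lit 912) (nat_lit 2565492489) (nat_lit 76) (nat_lit 1838330843) (nat_lit 392) (nat_lit 5) (nat_lit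 404) (nat_lit 5) (nat_lit 393) (nat_lit 5) (nat_lit 570) (nat_lit 517) (nat_lit 473)) (XT.lf (nat_lit 0) (nat_lit 2904453443) (nat_lit 836) (nat_lit 3398283865) (nat_lit 912) (nat_lit 1712462961) (nat_lit 381) (nat_lit 5) (nat_lit 392) (nat_lit 5) (nat_lit 393) (nat_lit 5) (nat_lit 571) (nat_lit 517) (nat_lit 472))) (XT.nd (nat_lit 78) (nat_lit 0) (nat_lit 0) (XT.lf (nat_lit 0) (nat_lit 388205084) (nat_lit 760) (nat_lit 607093820) (nat_lit 836) (nat_lit 7085143904) (nat_lit 370) (nat_lit 5) (nat_lit 380) (nat_lit 5) (nat_lit 381) (nat_lit 5) (nat_lit 572) (nat_lit 517) (nat_lit 471)) (XT.lf (nat_lit 0) (nat_lit 3740149123) (nat_lit 836) (nat_lit 2155400612) (nat_lit 76) (nat_lit 2251099419) (nat_lit 370) (nat_lit 5) (nat_lit 381) (nat_lit 5) (nat_lit 371) (nat_lit 5) (nat_lit 573) (nat_lit 517) (nat_lit 470))))))))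
noncomputable def xc30 : XT := (XT.nd (nat_lit 2340) (nat_lit 1292) (nat_lit 0) (XT.nd (nat_lit 1170) (nat_lit 5320) (nat_lit 0) (XT.nd (nat_lit 546) (nat_lit 3952) (nat_lit 0) (XT.nd (nat_lit 234) (nat_lit 2204) (nat_lit 0) (XT.nd (nat_lit 78) (nat_lit 760) (nat_lit 0) (XT.lf (nat_lit 0) (nat_lit 3485434566) (nat_lit 760) (nat_lit 3038735148) (nat_lit 836) (nat_lit 1690326998) (nat_lit 360) (nat_lit 5) (nat_lit 370) (nat_lit 5) (nat_lit 371) (nat_lit 5) (nat_lit 574) (nat_lit 517) (nat_lit 469)) (XT.nd (nat_lit 78) (nat_lit 0) (nat_lit 0) (XT.lf (nat_lit 0) (nat_lit 941455811) (nat_lit 684) (nat_lit 103081278) (nat_lit 760) (nat_lit 7239455637) (nat_lit 350) (nat_lit 5) (nat_lit 359) (nat_lit 5) (nat_lit 360) (nat_lit 5) (nat_lit 575) (nat_lit 517) (nat_lit 468)) (XT.lf (nat_lit 0) (nat_lit 3820533541) (nat_lit 760) (nat_lit 1644077810) (nat_lit 76) (nat_lit 2889864881) (nat_lit 350) (nat_lit 5) (nat_lit 360) (nat_lit 5) (nat_lit 351) (nat_lit 5) (nat_lit 576) (nat_lit 517) (nat_lit 467)))) (XT.nd (nat_lit 156) (nat_lit 684) (nat_lit 0)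 (XT.nd (nat_lit 78) (nat_lit 760) (nat_lit 0) (XT.lf (nat_lit 0) (nat_lit 4174232131) (nat_lit 760) (nat_lit 2464749981) (nat_lit 836) (nat_lit 1787651011) (nat_lit 340) (nat_lit 5) (nat_lit 350) (nat_lit 5) (nat_lit 351) (nat_lit 5) (nat_lit 577) (nat_lit 517) (nat_lit 466)) (XT.lf (nat_lit 0) (nat_lit 985115789) (nat_lit 760) (nat_lit 6907419157) (nat_lit 76) (nat_lit 607872008) (nat_lit 330) (nat_lit 5) (nat_lit 340) (nat_lit 5) (nat_lit 331) (nat_lit 5) (nat_lit 578) (nat_lit 517) (nat_lit 465))) (XT.nd (nat_lit 78) (nat_lit 684) (nat_lit 0) (XT.lf (nat_lit 0) (nat_lit 3794272576) (nat_lit 760) (nat_lit 1039351234) (nat_lit 76) (nat_lit 3741700919) (nat_lit 330) (nat_lit 5) (nat_lit 340) (nat_lit 5) (nat_lit 331) (nat_lit 5) (nat_lit 579) (nat_lit 517) (nat_lit 464)) (XT.lf (nat_lit 0) (nat_lit 4963288256) (nat_lit 684) (nat_lit 1689138660) (nat_lit 760) (nat_lit 1999459836) (nat_lit 321) (nat_lit 5) (nat_lit 330) (nat_lit 5) (nat_lit 331) (nat_lit 5) (nat_lit 580) (nat_lit 517) (nat_lit 463))))) (XT.nd (nat_lit 312) (nat_lit 1900) (nat_lit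 0) (XT.nd (nat_lit 156) (nat_lit 1368) (nat_lit 0) (XT.nd (nat_lit 78) (nat_lit 0) (nat_lit 0) (XT.lf (nat_lit 0) (nat_lit 819815293) (nat_lit 684) (nat_lit 6392757430) (nat_lit 76) (nat_lit 1517439831) (nat_lit 312) (nat_lit 5) (nat_lit 321) (nat_lit 5) (nat_lit 313) (nat_lit 5) (nat_lit 581) (nat_lit 517) (nat_lit 462)) (XT.lf (nat_lit 0) (nat_lit 3666024175) (nat_lit 684) (nat_lit 348666123) (nat_lit 76) (nat_lit 4794801877) (nat_lit 312) (nat_lit 5) (nat_lit 321) (nat_lit 5) (nat_lit 313) (nat_lit 5) (nat_lit 582) (nat_lit 517) (nat_lit 461))) (XT.nd (nat_lit 78) (nat_lit 684) (nat_lit 0) (XT.lf (nat_lit 0) (nat_lit 5845427397) (nat_lit 684) (nat_lit 723636426) (nat_lit 760) (nat_lit 2321501445) (nat_lit 303) (nat_lit 5) (nat_lit 312) (nat_lit 5) (nat_lit 313) (nat_lit 5) (nat_lit 583) (nat_lit 517) (nat_lit 460)) (XT.lf (nat_lit 0) (nat_lit 551988654) (nat_lit 684) (nat_lit 5805369816) (nat_lit 76) (nat_lit 2615783209) (nat_lit 294) (nat_lit 5) (nat_lit 303) (nat_lit 5) (nat_lit 295) (nat_lit 5) (nat_lit 584) (nat_lit 517) (nat_lit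 459)))) (XT.nd (nat_lit 156) (nat_lit 1292) (nat_lit 0) (XT.nd (nat_lit 78) (nat_lit 0) (nat_lit 0) (XT.lf (nat_lit 0) (nat_lit 426440462) (nat_lit 608) (nat_lit 3016095119) (nat_lit 684) (nat_lit 5614715594) (nat_lit 286) (nat_lit 5) (nat_lit 294) (nat_lit 5) (nat_lit 295) (nat_lit 5) (nat_lit 585) (nat_lit 517) (nat_lit 458)) (XT.lf (nat_lit 0) (nat_lit 6395520766) (nat_lit 684) (nat_lit 2331950598) (nat_lit 76) (nat_lit 415480807) (nat_lit 286) (nat_lit 5) (nat_lit 295) (nat_lit 5) (nat_lit 287) (nat_lit 5) (nat_lit 586) (nat_lit 517) (nat_lit 457))) (XT.nd (nat_lit 78) (nat_lit 608) (nat_lit 0) (XT.lf (nat_lit 0) (nat_lit 184991526) (nat_lit 684) (nat_lit 5152490797) (nat_lit 76) (nat_lit 3892661302) (nat_lit 277) (nat_lit 5) (nat_lit 286) (nat_lit 5) (nat_lit 278) (nat_lit 5) (nat_lit 587) (nat_lit 517) (nat_lit 456)) (XT.lf (nat_lit 0) (nat_lit 1279084949) (nat_lit 608) (nat_lit 1848043621) (nat_lit 684) (nat_lit 6191831804) (nat_lit 269) (nat_lit 5) (nat_lit 277) (nat_lit 5) (nat_lit 278) (nat_lit 5) (nat_lit 588) (nat_lit 517) (nat_lit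 455)))))) (XT.nd (nat_lit 546) (nat_lit 2584) (nat_lit 0) (XT.nd (nat_lit 234) (nat_lit 1596) (nat_lit 0) (XT.nd (nat_lit 78) (nat_lit 1140) (nat_lit 0) (XT.lf (nat_lit 0) (nat_lit 6138113930) (nat_lit 684) (nat_lit 1559079804) (nat_lit 76) (nat_lit 1712161330) (nat_lit 269) (nat_lit 5) (nat_lit 278) (nat_lit 5) (nat_lit 270) (nat_lit 5) (nat_lit 589) (nat_lit 517) (nat_lit 454)) (XT.nd (nat_lit 78) (nat_lit 608) (nat_lit 0) (XT.lf (nat_lit 0) (nat_lit 5058361485) (nat_lit 532) (nat_lit 4160833085) (nat_lit 608) (nat_lit 282167248) (nat_lit 262) (nat_lit 5) (nat_lit 269) (nat_lit 5) (nat_lit 270) (nat_lit 5) (nat_lit 590) (nat_lit 517) (nat_lit 453)) (XT.lf (nat_lit 0) (nat_lit 2197847981) (nat_lit 532) (nat_lit 522305044) (nat_lit 608) (nat_lit 6874903029) (nat_lit 254) (nat_lit 5) (nat_lit 261) (nat_lit 5) (nat_lit 262) (nat_lit 5) (nat_lit 591) (nat_lit 517) (nat_lit 452)))) (XT.nd (nat_lit 156) (nat_lit 1064) (nat_lit 0) (XT.nd (nat_lit 78) (nat_lit 532) (nat_lit 0) (XT.lf (nat_lit 0) (nat_lit 5794714594) (nat_lit 608) (nat_lit 728595024)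 (nat_lit 76) (nat_lit 3166959377) (nat_lit 254) (nat_lit 5) (nat_lit 262) (nat_lit 5) (nat_lit 255) (nat_lit 5) (nat_lit 592) (nat_lit 517) (nat_lit 451)) (XT.lf (nat_lit 0) (nat_lit 6103374955) (nat_lit 532) (nat_lit 2836412097) (nat_lit 608) (nat_lit 847420306) (nat_lit 247) (nat_lit 5) (nat_lit 254) (nat_lit 5) (nat_lit 255) (nat_lit 5) (nat_lit 593) (nat_lit 517) (nat_lit 450))) (XT.nd (nat_lit 78) (nat_lit 456) (nat_lit 0) (XT.lf (nat_lit 0) (nat_lit 2229816954) (nat_lit 608) (nat_lit 6716080784) (nat_lit 76) (nat_lit 939938503) (nat_lit 239) (nat_lit 5) (nat_lit 247) (nat_lit 5) (nat_lit 240) (nat_lit 5) (nat_lit 594) (nat_lit 517) (nat_lit 449)) (XT.lf (nat_lit 0) (nat_lit 154847585) (nat_lit 456) (nat_lit 5213444988) (nat_lit 532) (nat_lit 4617813755) (nat_lit 233) (nat_lit 5) (nat_lit 239) (nat_lit 5) (nat_lit 240) (nat_lit 5) (nat_lit 595) (nat_lit 517) (nat_lit 448))))) (XT.nd (nat_lit 312) (nat_lit 1520) (nat_lit 0) (XT.nd (nat_lit 156) (nat_lit 456) (nat_lit 0) (XT.nd (nat_lit 78) (nat_lit 608) (nat_lit 0) (XT.lf (nat_lit 0)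 (nat_lit 7207511760) (nat_lit 456) (nat_lit 1373806960) (nat_lit 532) (nat_lit 1506828914) (nat_lit 233) (nat_lit 5) (nat_lit 239) (nat_lit 5) (nat_lit 240) (nat_lit 5) (nat_lit 596) (nat_lit 517) (nat_lit 447)) (XT.lf (nat_lit 0) (nat_lit 1655657949) (nat_lit 608) (nat_lit 6001685086) (nat_lit 76) (nat_lit 2534448985) (nat_lit 225) (nat_lit 5) (nat_lit 233) (nat_lit 5) (nat_lit 226) (nat_lit 5) (nat_lit 597) (nat_lit 517) (nat_lit 446))) (XT.nd (nat_lit 78) (nat_lit 0) (nat_lit 0) (XT.lf (nat_lit 0) (nat_lit 1092814154) (nat_lit 456) (nat_lit 3771481193) (nat_lit 532) (nat_lit 5432954553) (nat_lit 219) (nat_lit 5) (nat_lit 225) (nat_lit 5) (nat_lit 226) (nat_lit 5) (nat_lit 598) (nat_lit 517) (nat_lit 445)) (XT.lf (nat_lit 0) (nat_lit 8146548972) (nat_lit 532) (nat_lit 2041720462) (nat_lit 76) (nat_lit 216359961) (nat_lit 219) (nat_lit 5) (nat_lit 226) (nat_lit 5) (nat_lit 220) (nat_lit 5) (nat_lit 599) (nat_lit 517) (nat_lit 444)))) (XT.nd (nat_lit 156) (nat_lit 532) (nat_lit 0) (XT.nd (nat_lit 78) (nat_lit 456) (nat_lit 0) (XT.lf (nat_lit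 0) (nat_lit 995048206) (nat_lit 532) (nat_lit 5257701167) (nat_lit 76) (nat_lit 4260728815) (nat_lit 212) (nat_lit 5) (nat_lit 219) (nat_lit 5) (nat_lit 213) (nat_lit 5) (nat_lit 600) (nat_lit 517) (nat_lit 443)) (XT.lf (nat_lit 0) (nat_lit 2068802678) (nat_lit 456) (nat_lit 2209859407) (nat_lit 532) (nat_lit 6345631438) (nat_lit 206) (nat_lit 5) (nat_lit 212) (nat_lit 5) (nat_lit 213) (nat_lit 5) (nat_lit 601) (nat_lit 517) (nat_lit 442))) (XT.nd (nat_lit 78) (nat_lit 532) (nat_lit 0) (XT.lf (nat_lit 0) (nat_lit 7644526076) (nat_lit 532) (nat_lit 1182359913) (nat_lit 76) (nat_lit 1910108844) (nat_lit 206) (nat_lit 5) (nat_lit 213) (nat_lit 5) (nat_lit 207) (nat_lit 5) (nat_lit 602) (nat_lit 517) (nat_lit 441)) (XT.lf (nat_lit 0) (nat_lit 248152504) (nat_lit 532) (nat_lit 4491326803) (nat_lit 76) (nat_lit 6111935603) (nat_lit 199) (nat_lit 5) (nat_lit 206) (nat_lit 5) (nat_lit 200) (nat_lit 5) (nat_lit 603) (nat_lit 517) (nat_lit 440))))))) (XT.nd (nat_lit 75816) (nat_lit 0) (nat_lit 34352) (XT.nd (nat_lit 75192) (nat_lit 0) (nat_lit 43092)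 (XT.nd (nat_lit 234) (nat_lit 456) (nat_lit 0) (XT.nd (nat_lit 78) (nat_lit 456) (nat_lit 0) (XT.lf (nat_lit 0) (nat_lit 3075864166) (nat_lit 380) (nat_lit 535669035) (nat_lit 456) (nat_lit 7356235416) (nat_lit 194) (nat_lit 5) (nat_lit 199) (nat_lit 5) (nat_lit 200) (nat_lit 5) (nat_lit 604) (nat_lit 517) (nat_lit 439)) (XT.nd (nat_lit 78) (nat_lit 456) (nat_lit 0) (XT.lf (nat_lit 0) (nat_lit 7066453466) (nat_lit 456) (nat_lit 300732814) (nat_lit 76) (nat_lit 3718778813) (nat_lit 194) (nat_lit 5) (nat_lit 200) (nat_lit 5) (nat_lit 195) (nat_lit 5) (nat_lit 605) (nat_lit 517) (nat_lit 438)) (XT.lf (nat_lit 0) (nat_lit 7492266625) (nat_lit 456) (nat_lit 3120565697) (nat_lit 532) (nat_lit 593247083) (nat_lit 188) (nat_lit 5) (nat_lit 194) (nat_lit 5) (nat_lit 195) (nat_lit 5) (nat_lit 606) (nat_lit 517) (nat_lit 437)))) (XT.nd (nat_lit 74802) (nat_lit 0) (nat_lit 44992) (XT.nd (nat_lit 74724) (nat_lit 0) (nat_lit 45296) (XT.lf (nat_lit 0) (nat_lit 2870531544) (nat_lit 456) (nat_lit 7229476246) (nat_lit 76) (nat_lit 1228071645) (nat_lit 182)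 (nat_lit 5) (nat_lit 188) (nat_lit 5) (nat_lit 183) (nat_lit 5) (nat_lit 607) (nat_lit 517) (nat_lit 436)) (XT.lf (nat_lit 0) (nat_lit 75828709) (nat_lit 228) (nat_lit 3073354523) (nat_lit 0) (nat_lit 75828709) (nat_lit 778) (nat_lit 5) (nat_lit 781) (nat_lit 4) (nat_lit 778) (nat_lit 4) (nat_lit 524) (nat_lit 518) (nat_lit 518))) (XT.nd (nat_lit 78) (nat_lit 304) (nat_lit 0) (XT.lf (nat_lit 0) (nat_lit 3338970017) (nat_lit 228) (nat_lit 2734389525) (nat_lit 0) (nat_lit 380911085) (nat_lit 778) (nat_lit 5) (nat_lit 781) (nat_lit 4) (nat_lit 778) (nat_lit 4) (nat_lit 525) (nat_lit 518) (nat_lit 517)) (XT.lf (nat_lit 0) (nat_lit 52996319) (nat_lit 304) (nat_lit 5751064142) (nat_lit 76) (nat_lit 656068154) (nat_lit 774) (nat_lit 5) (nat_lit 778) (nat_lit 5) (nat_lit 775) (nat_lit 4) (nat_lit 526) (nat_lit 518) (nat_lit 516))))) (XT.nd (nat_lit 312) (nat_lit 1140) (nat_lit 0) (XT.nd (nat_lit 156) (nat_lit 456) (nat_lit 0) (XT.nd (nat_lit 78) (nat_lit 304) (nat_lit 0) (XT.lf (nat_lit 0) (nat_lit 3181407837) (nat_lit 304) (nat_lit 2274866776)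 (nat_lit 76) (nat_lit 1010657122) (nat_lit 774) (nat_lit 5) (nat_lit 778) (nat_lit 5) (nat_lit 775) (nat_lit 4) (nat_lit 527) (nat_lit 518) (nat_lit 515)) (XT.lf (nat_lit 0) (nat_lit 1241221348) (nat_lit 304) (nat_lit 5060747440) (nat_lit 380) (nat_lit 173319389) (nat_lit 770) (nat_lit 5) (nat_lit 774) (nat_lit 5) (nat_lit 775) (nat_lit 4) (nat_lit 528) (nat_lit 518) (nat_lit 514))) (XT.nd (nat_lit 78) (nat_lit 380) (nat_lit 0) (XT.lf (nat_lit 0) (nat_lit 2899380442) (nat_lit 380) (nat_lit 1691277045) (nat_lit 76) (nat_lit 1894020863) (nat_lit 769) (nat_lit 5) (nat_lit 774) (nat_lit 5) (nat_lit 770) (nat_lit 5) (nat_lit 529) (nat_lit 518) (nat_lit 513)) (XT.lf (nat_lit 0) (nat_lit 1900407813) (nat_lit 380) (nat_lit 4066916128) (nat_lit 456) (nat_lit 528195638) (nat_lit 764) (nat_lit 5) (nat_lit 769) (nat_lit 5) (nat_lit 770) (nat_lit 5) (nat_lit 530) (nat_lit 518) (nat_lit 512)))) (XT.nd (nat_lit 156) (nat_lit 608) (nat_lit 0) (XT.nd (nat_lit 78) (nat_lit 456) (nat_lit 0) (XT.lf (nat_lit 0) (nat_lit 2491968503) (nat_lit 456) (nat_lit 982838124)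 (nat_lit 76) (nat_lit 3032724954) (nat_lit 763) (nat_lit 5) (nat_lit 769) (nat_lit 5) (nat_lit 764) (nat_lit 5) (nat_lit 531) (nat_lit 518) (nat_lit 511)) (XT.lf (nat_lit 0) (nat_lit 2687897942) (nat_lit 456) (nat_lit 2820969026) (nat_lit 532) (nat_lit 1011986843) (nat_lit 757) (nat_lit 5) (nat_lit 763) (nat_lit 5) (nat_lit 764) (nat_lit 5) (nat_lit 532) (nat_lit 518) (nat_lit 510))) (XT.nd (nat_lit 78) (nat_lit 532) (nat_lit 0) (XT.lf (nat_lit 0) (nat_lit 1958005353) (nat_lit 532) (nat_lit 148524239) (nat_lit 76) (nat_lit 4428989018) (nat_lit 756) (nat_lit 5) (nat_lit 763) (nat_lit 5) (nat_lit 757) (nat_lit 5) (nat_lit 533) (nat_lit 518) (nat_lit 509)) (XT.lf (nat_lit 0) (nat_lit 3604858177) (nat_lit 532) (nat_lit 1320458765) (nat_lit 608) (nat_lit 1626004011) (nat_lit 749) (nat_lit 5) (nat_lit 756) (nat_lit 5) (nat_lit 757) (nat_lit 5) (nat_lit 534) (nat_lit 518) (nat_lit 508)))))) (XT.nd (nat_lit 546) (nat_lit 5624) (nat_lit 0) (XT.nd (nat_lit 234) (nat_lit 1672) (nat_lit 0) (XT.nd (nat_lit 78) (nat_lit 760) (nat_lit 0) (XT.lf (nat_lit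 0) (nat_lit 823738725) (nat_lit 608) (nat_lit 477684255) (nat_lit 684) (nat_lit 5267142804) (nat_lit 740) (nat_lit 5) (nat_lit 748) (nat_lit 5) (nat_lit 749) (nat_lit 5) (nat_lit 535) (nat_lit 518) (nat_lit 507)) (XT.nd (nat_lit 78) (nat_lit 760) (nat_lit 0) (XT.lf (nat_lit 0) (nat_lit 4217985172) (nat_lit 684) (nat_lit 1937093649) (nat_lit 76) (nat_lit 431821562) (nat_lit 740) (nat_lit 5) (nat_lit 749) (nat_lit 5) (nat_lit 741) (nat_lit 5) (nat_lit 536) (nat_lit 518) (nat_lit 506)) (XT.lf (nat_lit 0) (nat_lit 526191398) (nat_lit 760) (nat_lit 4687598158) (nat_lit 76) (nat_lit 1392810258) (nat_lit 730) (nat_lit 5) (nat_lit 740) (nat_lit 5) (nat_lit 731) (nat_lit 5) (nat_lit 537) (nat_lit 518) (nat_lit 505)))) (XT.nd (nat_lit 156) (nat_lit 912) (nat_lit 0) (XT.nd (nat_lit 78) (nat_lit 760) (nat_lit 0) (XT.lf (nat_lit 0) (nat_lit 3392517137) (nat_lit 760) (nat_lit 810650111) (nat_lit 76) (nat_lit 2424318681) (nat_lit 730) (nat_lit 5) (nat_lit 740) (nat_lit 5) (nat_lit 731) (nat_lit 5) (nat_lit 538) (nat_lit 518) (nat_lit 504)) (XT.lf (nat_lit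 0) (nat_lit 3139006238) (nat_lit 760) (nat_lit 3130800639) (nat_lit 836) (nat_lit 379916613) (nat_lit 720) (nat_lit 5) (nat_lit 730) (nat_lit 5) (nat_lit 731) (nat_lit 5) (nat_lit 539) (nat_lit 518) (nat_lit 503))) (XT.nd (nat_lit 78) (nat_lit 0) (nat_lit 0) (XT.lf (nat_lit 0) (nat_lit 449179083) (nat_lit 836) (nat_lit 1992066474) (nat_lit 912) (nat_lit 4231993254) (nat_lit 708) (nat_lit 5) (nat_lit 719) (nat_lit 5) (nat_lit 720) (nat_lit 5) (nat_lit 540) (nat_lit 518) (nat_lit 502)) (XT.lf (nat_lit 0) (nat_lit 4487036783) (nat_lit 836) (nat_lit 785078521) (nat_lit 912) (nat_lit 1425897581) (nat_lit 708) (nat_lit 5) (nat_lit 719) (nat_lit 5) (nat_lit 720) (nat_lit 5) (nat_lit 541) (nat_lit 518) (nat_lit 501))))) (XT.nd (nat_lit 312) (nat_lit 2508) (nat_lit 0) (XT.nd (nat_lit 156) (nat_lit 2128) (nat_lit 0) (XT.nd (nat_lit 78) (nat_lit 0) (nat_lit 0) (XT.lf (nat_lit 0) (nat_lit 1368329164) (nat_lit 988) (nat_lit 4876210977) (nat_lit 76) (nat_lit 479544714) (nat_lit 695) (nat_lit 5) (nat_lit 708) (nat_lit 5) (nat_lit 696) (nat_lit 5) (nat_lit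 542) (nat_lit 518) (nat_lit 500)) (XT.lf (nat_lit 0) (nat_lit 4156249484) (nat_lit 988) (nat_lit 794562071) (nat_lit 76) (nat_lit 1800545920) (nat_lit 695) (nat_lit 5) (nat_lit 708) (nat_lit 5) (nat_lit 696) (nat_lit 5) (nat_lit 543) (nat_lit 518) (nat_lit 499))) (XT.nd (nat_lit 78) (nat_lit 1064) (nat_lit 0) (XT.lf (nat_lit 0) (nat_lit 177433349) (nat_lit 1064) (nat_lit 3414663255) (nat_lit 76) (nat_lit 3187864283) (nat_lit 681) (nat_lit 5) (nat_lit 695) (nat_lit 5) (nat_lit 682) (nat_lit 5) (nat_lit 544) (nat_lit 518) (nat_lit 498)) (XT.lf (nat_lit 0) (nat_lit 755886207) (nat_lit 1064) (nat_lit 2163594814) (nat_lit 1140) (nat_lit 3890341609) (nat_lit 667) (nat_lit 5) (nat_lit 681) (nat_lit 5) (nat_lit 682) (nat_lit 5) (nat_lit 545) (nat_lit 518) (nat_lit 497)))) (XT.nd (nat_lit 156) (nat_lit 1292) (nat_lit 0) (XT.nd (nat_lit 78) (nat_lit 1216) (nat_lit 0) (XT.lf (nat_lit 0) (nat_lit 5009540661) (nat_lit 1064) (nat_lit 669143176) (nat_lit 1140) (nat_lit 1162356797) (nat_lit 667) (nat_lit 5) (nat_lit 681) (nat_lit 5) (nat_lit 682) (nat_lit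 5) (nat_lit 546) (nat_lit 518) (nat_lit 496)) (XT.lf (nat_lit 0) (nat_lit 1560852840) (nat_lit 1216) (nat_lit 4428843878) (nat_lit 76) (nat_lit 883742713) (nat_lit 651) (nat_lit 5) (nat_lit 667) (nat_lit 5) (nat_lit 652) (nat_lit 5) (nat_lit 547) (nat_lit 518) (nat_lit 495))) (XT.nd (nat_lit 78) (nat_lit 1292) (nat_lit 0) (XT.lf (nat_lit 0) (nat_lit 4280925878) (nat_lit 1216) (nat_lit 134851344) (nat_lit 76) (nat_lit 2491401060) (nat_lit 651) (nat_lit 5) (nat_lit 667) (nat_lit 5) (nat_lit 652) (nat_lit 5) (nat_lit 548) (nat_lit 518) (nat_lit 494)) (XT.lf (nat_lit 0) (nat_lit 82033088) (nat_lit 1292) (nat_lit 2688430710) (nat_lit 76) (nat_lit 4171723797) (nat_lit 634) (nat_lit 5) (nat_lit 651) (nat_lit 5) (nat_lit 635) (nat_lit 5) (nat_lit 549) (nat_lit 518) (nat_lit 493))))))))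
noncomputable def xc31 : XT := (XT.nd (nat_lit 2340) (nat_lit 10868) (nat_lit 0) (XT.nd (nat_lit 1170) (nat_lit 8284) (nat_lit 0) (XT.nd (nat_lit 546) (nat_lit 7448) (nat_lit 0) (XT.nd (nat_lit 234) (nat_lit 4636) (nat_lit 0) (XT.nd (nat_lit 78) (nat_lit 1444) (nat_lit 0) (XT.lf (nat_lit 0) (nat_lit 1712174071) (nat_lit 1292) (nat_lit 1051954586) (nat_lit 1368) (nat_lit 4214329764) (nat_lit 617) (nat_lit 5) (nat_lit 634) (nat_lit 5) (nat_lit 635) (nat_lit 5) (nat_lit 550) (nat_lit 518) (nat_lit 492)) (XT.nd (nat_lit 78) (nat_lit 1444) (nat_lit 0) (XT.lf (nat_lit 0) (nat_lit 5466209843) (nat_lit 1368) (nat_lit 830387763) (nat_lit 76) (nat_lit 719534807) (nat_lit 617) (nat_lit 5) (nat_lit 635) (nat_lit 5) (nat_lit 618) (nat_lit 5) (nat_lit 551) (nat_lit 518) (nat_lit 491)) (XT.lf (nat_lit 0) (nat_lit 1127945532) (nat_lit 1444) (nat_lit 3373752170) (nat_lit 76) (nat_lit 2553205219) (nat_lit 598) (nat_lit 5) (nat_lit 617) (nat_lit 5) (nat_lit 599) (nat_lit 5) (nat_lit 552) (nat_lit 518) (nat_lit 490)))) (XT.nd (nat_lit 156) (nat_lit 3192) (nat_lit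 0) (XT.nd (nat_lit 78) (nat_lit 0) (nat_lit 0) (XT.lf (nat_lit 0) (nat_lit 1157373544) (nat_lit 1444) (nat_lit 2639540650) (nat_lit 1520) (nat_lit 3298168171) (nat_lit 579) (nat_lit 5) (nat_lit 598) (nat_lit 5) (nat_lit 599) (nat_lit 5) (nat_lit 553) (nat_lit 518) (nat_lit 489)) (XT.lf (nat_lit 0) (nat_lit 5777822245) (nat_lit 1444) (nat_lit 710003276) (nat_lit 1520) (nat_lit 648872879) (nat_lit 579) (nat_lit 5) (nat_lit 598) (nat_lit 5) (nat_lit 599) (nat_lit 5) (nat_lit 554) (nat_lit 518) (nat_lit 488))) (XT.nd (nat_lit 78) (nat_lit 1596) (nat_lit 0) (XT.lf (nat_lit 0) (nat_lit 2002937925) (nat_lit 1596) (nat_lit 3893377522) (nat_lit 76) (nat_lit 1283039564) (nat_lit 558) (nat_lit 5) (nat_lit 579) (nat_lit 5) (nat_lit 559) (nat_lit 5) (nat_lit 555) (nat_lit 518) (nat_lit 487)) (XT.lf (nat_lit 0) (nat_lit 772932312) (nat_lit 1596) (nat_lit 3892484811) (nat_lit 1672) (nat_lit 2558039463) (nat_lit 537) (nat_lit 5) (nat_lit 558) (nat_lit 5) (nat_lit 559) (nat_lit 5) (nat_lit 556) (nat_lit 518) (nat_lit 486))))) (XT.nd (nat_lit 312) (nat_lit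 3876) (nat_lit 0) (XT.nd (nat_lit 156) (nat_lit 1824) (nat_lit 0) (XT.nd (nat_lit 78) (nat_lit 1672) (nat_lit 0) (XT.lf (nat_lit 0) (nat_lit 85316770) (nat_lit 1672) (nat_lit 1731473847) (nat_lit 76) (nat_lit 5452157023) (nat_lit 536) (nat_lit 5) (nat_lit 558) (nat_lit 5) (nat_lit 537) (nat_lit 5) (nat_lit 557) (nat_lit 518) (nat_lit 485)) (XT.lf (nat_lit 0) (nat_lit 2718209343) (nat_lit 1748) (nat_lit 4259791502) (nat_lit 76) (nat_lit 337594863) (nat_lit 514) (nat_lit 5) (nat_lit 537) (nat_lit 5) (nat_lit 515) (nat_lit 5) (nat_lit 558) (nat_lit 518) (nat_lit 484))) (XT.nd (nat_lit 78) (nat_lit 76) (nat_lit 0) (XT.lf (nat_lit 0) (nat_lit 546631964) (nat_lit 1748) (nat_lit 4833942442) (nat_lit 1824) (nat_lit 1983069757) (nat_lit 491) (nat_lit 5) (nat_lit 514) (nat_lit 5) (nat_lit 515) (nat_lit 5) (nat_lit 559) (nat_lit 518) (nat_lit 483)) (XT.lf (nat_lit 0) (nat_lit 653229027) (nat_lit 1824) (nat_lit 1957920436) (nat_lit 76) (nat_lit 4801845727) (nat_lit 490) (nat_lit 5) (nat_lit 514) (nat_lit 5) (nat_lit 491) (nat_lit 5) (nat_lit 560) (nat_lit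 518) (nat_lit 482)))) (XT.nd (nat_lit 156) (nat_lit 988) (nat_lit 0) (XT.nd (nat_lit 78) (nat_lit 1064) (nat_lit 0) (XT.lf (nat_lit 0) (nat_lit 2977071155) (nat_lit 1824) (nat_lit 308851655) (nat_lit 1900) (nat_lit 4177747322) (nat_lit 466) (nat_lit 5) (nat_lit 490) (nat_lit 5) (nat_lit 491) (nat_lit 5) (nat_lit 561) (nat_lit 518) (nat_lit 481)) (XT.lf (nat_lit 0) (nat_lit 467138122) (nat_lit 1064) (nat_lit 5485170413) (nat_lit 1140) (nat_lit 1563432713) (nat_lit 452) (nat_lit 5) (nat_lit 466) (nat_lit 5) (nat_lit 467) (nat_lit 5) (nat_lit 562) (nat_lit 518) (nat_lit 480))) (XT.nd (nat_lit 78) (nat_lit 912) (nat_lit 0) (XT.lf (nat_lit 0) (nat_lit 1072911299) (nat_lit 1140) (nat_lit 2045086697) (nat_lit 76) (nat_lit 4451031613) (nat_lit 451) (nat_lit 5) (nat_lit 466) (nat_lit 5) (nat_lit 452) (nat_lit 5) (nat_lit 563) (nat_lit 518) (nat_lit 479)) (XT.lf (nat_lit 0) (nat_lit 3040776739) (nat_lit 912) (nat_lit 672836494) (nat_lit 988) (nat_lit 3910115749) (nat_lit 439) (nat_lit 5) (nat_lit 451) (nat_lit 5) (nat_lit 452) (nat_lit 5) (nat_lit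 564) (nat_lit 518) (nat_lit 478)))))) (XT.nd (nat_lit 546) (nat_lit 3876) (nat_lit 0) (XT.nd (nat_lit 234) (nat_lit 2584) (nat_lit 0) (XT.nd (nat_lit 78) (nat_lit 912) (nat_lit 0) (XT.lf (nat_lit 0) (nat_lit 523915721) (nat_lit 912) (nat_lit 5865675619) (nat_lit 988) (nat_lit 1290284931) (nat_lit 427) (nat_lit 5) (nat_lit 439) (nat_lit 5) (nat_lit 440) (nat_lit 5) (nat_lit 565) (nat_lit 518) (nat_lit 477)) (XT.nd (nat_lit 78) (nat_lit 836) (nat_lit 0) (XT.lf (nat_lit 0) (nat_lit 1352950056) (nat_lit 988) (nat_lit 2003293735) (nat_lit 76) (nat_lit 4380943675) (nat_lit 426) (nat_lit 5) (nat_lit 439) (nat_lit 5) (nat_lit 427) (nat_lit 5) (nat_lit 566) (nat_lit 518) (nat_lit 476)) (XT.lf (nat_lit 0) (nat_lit 3239133447) (nat_lit 836) (nat_lit 768312031) (nat_lit 912) (nat_lit 3788518368) (nat_lit 415) (nat_lit 5) (nat_lit 426) (nat_lit 5) (nat_lit 427) (nat_lit 5) (nat_lit 567) (nat_lit 518) (nat_lit 475)))) (XT.nd (nat_lit 156) (nat_lit 1672) (nat_lit 0) (XT.nd (nat_lit 78) (nat_lit 76) (nat_lit 0) (XT.lf (nat_lit 0) (nat_lit 707148565) (nat_lit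 836) (nat_lit 5993353062) (nat_lit 912) (nat_lit 1155707643) (nat_lit 404) (nat_lit 5) (nat_lit 415) (nat_lit 5) (nat_lit 416) (nat_lit 5) (nat_lit 568) (nat_lit 518) (nat_lit 474)) (XT.lf (nat_lit 0) (nat_lit 1501037137) (nat_lit 912) (nat_lit 1842178853) (nat_lit 76) (nat_lit 4574420968) (nat_lit 403) (nat_lit 5) (nat_lit 415) (nat_lit 5) (nat_lit 404) (nat_lit 5) (nat_lit 569) (nat_lit 518) (nat_lit 473))) (XT.nd (nat_lit 78) (nat_lit 836) (nat_lit 0) (XT.lf (nat_lit 0) (nat_lit 3562772074) (nat_lit 836) (nat_lit 612160778) (nat_lit 912) (nat_lit 3805620505) (nat_lit 392) (nat_lit 5) (nat_lit 403) (nat_lit 5) (nat_lit 404) (nat_lit 5) (nat_lit 570) (nat_lit 518) (nat_lit 472)) (XT.lf (nat_lit 0) (nat_lit 1007662598) (nat_lit 836) (nat_lit 5884614408) (nat_lit 912) (nat_lit 1152654377) (nat_lit 381) (nat_lit 5) (nat_lit 392) (nat_lit 5) (nat_lit 393) (nat_lit 5) (nat_lit 571) (nat_lit 518) (nat_lit 471))))) (XT.nd (nat_lit 312) (nat_lit 2204) (nat_lit 0) (XT.nd (nat_lit 156) (nat_lit 836) (nat_lit 0) (XT.nd (nat_lit 78) (nat_lit 760) (nat_lit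 0) (XT.lf (nat_lit 0) (nat_lit 1524020180) (nat_lit 912) (nat_lit 1570770847) (nat_lit 76) (nat_lit 5015786397) (nat_lit 380) (nat_lit 5) (nat_lit 392) (nat_lit 5) (nat_lit 381) (nat_lit 5) (nat_lit 572) (nat_lit 518) (nat_lit 470)) (XT.lf (nat_lit 0) (nat_lit 4002932115) (nat_lit 760) (nat_lit 219832697) (nat_lit 836) (nat_lit 3954942334) (nat_lit 370) (nat_lit 5) (nat_lit 380) (nat_lit 5) (nat_lit 381) (nat_lit 5) (nat_lit 573) (nat_lit 518) (nat_lit 469))) (XT.nd (nat_lit 78) (nat_lit 76) (nat_lit 0) (XT.lf (nat_lit 0) (nat_lit 1416852333) (nat_lit 760) (nat_lit 5554507857) (nat_lit 836) (nat_lit 1274904256) (nat_lit 360) (nat_lit 5) (nat_lit 370) (nat_lit 5) (nat_lit 371) (nat_lit 5) (nat_lit 574) (nat_lit 518) (nat_lit 468)) (XT.lf (nat_lit 0) (nat_lit 1427947561) (nat_lit 836) (nat_lit 1197562341) (nat_lit 76) (nat_lit 5690729083) (nat_lit 359) (nat_lit 5) (nat_lit 370) (nat_lit 5) (nat_lit 360) (nat_lit 5) (nat_lit 575) (nat_lit 518) (nat_lit 467)))) (XT.nd (nat_lit 156) (nat_lit 760) (nat_lit 0) (XT.nd (nat_lit 78) (nat_lit 760)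 (nat_lit 0) (XT.lf (nat_lit 0) (nat_lit 4159411920) (nat_lit 760) (nat_lit 3838837537) (nat_lit 76) (nat_lit 389364843) (nat_lit 350) (nat_lit 5) (nat_lit 360) (nat_lit 5) (nat_lit 351) (nat_lit 5) (nat_lit 576) (nat_lit 518) (nat_lit 466)) (XT.lf (nat_lit 0) (nat_lit 1926609899) (nat_lit 760) (nat_lit 5016830148) (nat_lit 836) (nat_lit 1517020697) (nat_lit 340) (nat_lit 5) (nat_lit 350) (nat_lit 5) (nat_lit 351) (nat_lit 5) (nat_lit 577) (nat_lit 518) (nat_lit 465))) (XT.nd (nat_lit 78) (nat_lit 684) (nat_lit 0) (XT.lf (nat_lit 0) (nat_lit 1218108079) (nat_lit 836) (nat_lit 730579706) (nat_lit 76) (nat_lit 6586194522) (nat_lit 339) (nat_lit 5) (nat_lit 350) (nat_lit 5) (nat_lit 340) (nat_lit 5) (nat_lit 578) (nat_lit 518) (nat_lit 464)) (XT.lf (nat_lit 0) (nat_lit 3990264247) (nat_lit 760) (nat_lit 3418220289) (nat_lit 76) (nat_lit 1202056638) (nat_lit 330) (nat_lit 5) (nat_lit 340) (nat_lit 5) (nat_lit 331) (nat_lit 5) (nat_lit 579) (nat_lit 518) (nat_lit 463))))))) (XT.nd (nat_lit 1170) (nat_lit 4484) (nat_lit 0) (XT.nd (nat_lit 546)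 (nat_lit 3040) (nat_lit 0) (XT.nd (nat_lit 234) (nat_lit 1976) (nat_lit 0) (XT.nd (nat_lit 78) (nat_lit 684) (nat_lit 0) (XT.lf (nat_lit 0) (nat_lit 2529256185) (nat_lit 684) (nat_lit 4284231433) (nat_lit 760) (nat_lit 1874315253) (nat_lit 321) (nat_lit 5) (nat_lit 330) (nat_lit 5) (nat_lit 331) (nat_lit 5) (nat_lit 580) (nat_lit 518) (nat_lit 462)) (XT.nd (nat_lit 78) (nat_lit 608) (nat_lit 0) (XT.lf (nat_lit 0) (nat_lit 899065632) (nat_lit 760) (nat_lit 177451087) (nat_lit 76) (nat_lit 7690281778) (nat_lit 320) (nat_lit 5) (nat_lit 330) (nat_lit 5) (nat_lit 321) (nat_lit 5) (nat_lit 581) (nat_lit 518) (nat_lit 461)) (XT.lf (nat_lit 0) (nat_lit 3718275325) (nat_lit 684) (nat_lit 2919079025) (nat_lit 76) (nat_lit 2209464748) (nat_lit 312) (nat_lit 5) (nat_lit 321) (nat_lit 5) (nat_lit 313) (nat_lit 5) (nat_lit 582) (nat_lit 518) (nat_lit 460)))) (XT.nd (nat_lit 156) (nat_lit 608) (nat_lit 0) (XT.nd (nat_lit 78) (nat_lit 684) (nat_lit 0) (XT.lf (nat_lit 0) (nat_lit 3217473546) (nat_lit 684) (nat_lit 3368313756) (nat_lit 760) (nat_lit 2342816419)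 (nat_lit 303) (nat_lit 5) (nat_lit 312) (nat_lit 5) (nat_lit 313) (nat_lit 5) (nat_lit 583) (nat_lit 518) (nat_lit 459)) (XT.lf (nat_lit 0) (nat_lit 460567374) (nat_lit 608) (nat_lit 17111983) (nat_lit 684) (nat_lit 8534569961) (nat_lit 294) (nat_lit 5) (nat_lit 302) (nat_lit 5) (nat_lit 303) (nat_lit 5) (nat_lit 584) (nat_lit 518) (nat_lit 458))) (XT.nd (nat_lit 78) (nat_lit 608) (nat_lit 0) (XT.lf (nat_lit 0) (nat_lit 3347151940) (nat_lit 684) (nat_lit 2348701828) (nat_lit 76) (nat_lit 3400927452) (nat_lit 294) (nat_lit 5) (nat_lit 303) (nat_lit 5) (nat_lit 295) (nat_lit 5) (nat_lit 585) (nat_lit 518) (nat_lit 457)) (XT.lf (nat_lit 0) (nat_lit 3984239554) (nat_lit 608) (nat_lit 2279723810) (nat_lit 684) (nat_lit 2919243231) (nat_lit 286) (nat_lit 5) (nat_lit 294) (nat_lit 5) (nat_lit 295) (nat_lit 5) (nat_lit 586) (nat_lit 518) (nat_lit 456))))) (XT.nd (nat_lit 312) (nat_lit 1216) (nat_lit 0) (XT.nd (nat_lit 156) (nat_lit 1140) (nat_lit 0) (XT.nd (nat_lit 78) (nat_lit 76) (nat_lit 0) (XT.lf (nat_lit 0) (nat_lit 1165407889) (nat_lit 608)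 (nat_lit 8069266101) (nat_lit 684) (nat_lit 36777014) (nat_lit 278) (nat_lit 5) (nat_lit 286) (nat_lit 5) (nat_lit 287) (nat_lit 5) (nat_lit 587) (nat_lit 518) (nat_lit 455)) (XT.lf (nat_lit 0) (nat_lit 2879950071) (nat_lit 684) (nat_lit 1714147353) (nat_lit 76) (nat_lit 4766693801) (nat_lit 277) (nat_lit 5) (nat_lit 286) (nat_lit 5) (nat_lit 278) (nat_lit 5) (nat_lit 588) (nat_lit 518) (nat_lit 454))) (XT.nd (nat_lit 78) (nat_lit 532) (nat_lit 0) (XT.lf (nat_lit 0) (nat_lit 4822761268) (nat_lit 608) (nat_lit 1028240613) (nat_lit 684) (nat_lit 3600983538) (nat_lit 269) (nat_lit 5) (nat_lit 277) (nat_lit 5) (nat_lit 278) (nat_lit 5) (nat_lit 589) (nat_lit 518) (nat_lit 453)) (XT.lf (nat_lit 0) (nat_lit 1931031189) (nat_lit 532) (nat_lit 6956983945) (nat_lit 608) (nat_lit 656859204) (nat_lit 262) (nat_lit 5) (nat_lit 269) (nat_lit 5) (nat_lit 270) (nat_lit 5) (nat_lit 590) (nat_lit 518) (nat_lit 452)))) (XT.nd (nat_lit 156) (nat_lit 608) (nat_lit 0) (XT.nd (nat_lit 78) (nat_lit 532) (nat_lit 0) (XT.lf (nat_lit 0) (nat_lit 2319093639) (nat_lit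 608) (nat_lit 1022310283) (nat_lit 76) (nat_lit 6297839724) (nat_lit 261) (nat_lit 5) (nat_lit 269) (nat_lit 5) (nat_lit 262) (nat_lit 5) (nat_lit 591) (nat_lit 518) (nat_lit 451)) (XT.lf (nat_lit 0) (nat_lit 5351716891) (nat_lit 608) (nat_lit 4011384260) (nat_lit 76) (nat_lit 372194974) (nat_lit 254) (nat_lit 5) (nat_lit 262) (nat_lit 5) (nat_lit 255) (nat_lit 5) (nat_lit 592) (nat_lit 518) (nat_lit 450))) (XT.nd (nat_lit 78) (nat_lit 76) (nat_lit 0) (XT.lf (nat_lit 0) (nat_lit 2754040061) (nat_lit 532) (nat_lit 5704469270) (nat_lit 608) (nat_lit 1374491511) (nat_lit 247) (nat_lit 5) (nat_lit 254) (nat_lit 5) (nat_lit 255) (nat_lit 5) (nat_lit 593) (nat_lit 518) (nat_lit 449)) (XT.lf (nat_lit 0) (nat_lit 1666388817) (nat_lit 608) (nat_lit 279987232) (nat_lit 76) (nat_lit 7986188236) (nat_lit 246) (nat_lit 5) (nat_lit 254) (nat_lit 5) (nat_lit 247) (nat_lit 5) (nat_lit 594) (nat_lit 518) (nat_lit 448)))))) (XT.nd (nat_lit 546) (nat_lit 1900) (nat_lit 0) (XT.nd (nat_lit 234) (nat_lit 988) (nat_lit 0) (XT.nd (nat_lit 78) (nat_lit 1064) (nat_lit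 0) (XT.lf (nat_lit 0) (nat_lit 4773038928) (nat_lit 608) (nat_lit 3357588229) (nat_lit 76) (nat_lit 1902844437) (nat_lit 239) (nat_lit 5) (nat_lit 247) (nat_lit 5) (nat_lit 240) (nat_lit 5) (nat_lit 595) (nat_lit 518) (nat_lit 447)) (XT.nd (nat_lit 78) (nat_lit 608) (nat_lit 0) (XT.lf (nat_lit 0) (nat_lit 3627779668) (nat_lit 456) (nat_lit 4320040204) (nat_lit 532) (nat_lit 2188458629) (nat_lit 233) (nat_lit 5) (nat_lit 239) (nat_lit 5) (nat_lit 240) (nat_lit 5) (nat_lit 596) (nat_lit 518) (nat_lit 446)) (XT.lf (nat_lit 0) (nat_lit 512781573) (nat_lit 532) (nat_lit 413581696) (nat_lit 608) (nat_lit 9314780892) (nat_lit 225) (nat_lit 5) (nat_lit 232) (nat_lit 5) (nat_lit 233) (nat_lit 5) (nat_lit 597) (nat_lit 518) (nat_lit 445)))) (XT.nd (nat_lit 156) (nat_lit 532) (nat_lit 0) (XT.nd (nat_lit 78) (nat_lit 456) (nat_lit 0) (XT.lf (nat_lit 0) (nat_lit 4109401104) (nat_lit 608) (nat_lit 2668080404) (nat_lit 76) (nat_lit 3569633181) (nat_lit 225) (nat_lit 5) (nat_lit 233) (nat_lit 5) (nat_lit 226) (nat_lit 5) (nat_lit 598) (nat_lit 518) (nat_lit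 444)) (XT.lf (nat_lit 0) (nat_lit 4545587516) (nat_lit 456) (nat_lit 2811436190) (nat_lit 532) (nat_lit 3098163743) (nat_lit 219) (nat_lit 5) (nat_lit 225) (nat_lit 5) (nat_lit 226) (nat_lit 5) (nat_lit 599) (nat_lit 518) (nat_lit 443))) (XT.nd (nat_lit 78) (nat_lit 0) (nat_lit 0) (XT.lf (nat_lit 0) (nat_lit 106473488) (nat_lit 532) (nat_lit 9226923451) (nat_lit 76) (nat_lit 1231939195) (nat_lit 212) (nat_lit 5) (nat_lit 219) (nat_lit 5) (nat_lit 213) (nat_lit 5) (nat_lit 600) (nat_lit 518) (nat_lit 442)) (XT.lf (nat_lit 0) (nat_lit 3361321565) (nat_lit 532) (nat_lit 1949856589) (nat_lit 76) (nat_lit 5365549238) (nat_lit 212) (nat_lit 5) (nat_lit 219) (nat_lit 5) (nat_lit 213) (nat_lit 5) (nat_lit 601) (nat_lit 518) (nat_lit 441))))) (XT.nd (nat_lit 312) (nat_lit 532) (nat_lit 0) (XT.nd (nat_lit 156) (nat_lit 456) (nat_lit 0) (XT.nd (nat_lit 78) (nat_lit 456) (nat_lit 0) (XT.lf (nat_lit 0) (nat_lit 5500723394) (nat_lit 456) (nat_lit 1185890689) (nat_lit 532) (nat_lit 4103626644) (nat_lit 206) (nat_lit 5) (nat_lit 212) (nat_lit 5) (nat_lit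 213) (nat_lit 5) (nat_lit 602) (nat_lit 518) (nat_lit 440)) (XT.lf (nat_lit 0) (nat_lit 2185547010) (nat_lit 456) (nat_lit 7909700783) (nat_lit 532) (nat_lit 810441009) (nat_lit 200) (nat_lit 5) (nat_lit 206) (nat_lit 5) (nat_lit 207) (nat_lit 5) (nat_lit 603) (nat_lit 518) (nat_lit 439))) (XT.nd (nat_lit 78) (nat_lit 380) (nat_lit 0) (XT.lf (nat_lit 0) (nat_lit 2528726884) (nat_lit 532) (nat_lit 1210059824) (nat_lit 76) (nat_lit 7284058438) (nat_lit 199) (nat_lit 5) (nat_lit 206) (nat_lit 5) (nat_lit 200) (nat_lit 5) (nat_lit 604) (nat_lit 518) (nat_lit 438)) (XT.lf (nat_lit 0) (nat_lit 5940068398) (nat_lit 456) (nat_lit 4659258074) (nat_lit 76) (nat_lit 542587274) (nat_lit 194) (nat_lit 5) (nat_lit 200) (nat_lit 5) (nat_lit 195) (nat_lit 5) (nat_lit 605) (nat_lit 518) (nat_lit 437)))) (XT.nd (nat_lit 74646) (nat_lit 0) (nat_lit 45068) (XT.nd (nat_lit 78) (nat_lit 76) (nat_lit 0) (XT.lf (nat_lit 0) (nat_lit 3053830525) (nat_lit 456) (nat_lit 6389320688) (nat_lit 532) (nat_lit 1819743304) (nat_lit 188) (nat_lit 5) (nat_lit 194) (nat_lit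 5) (nat_lit 195) (nat_lit 5) (nat_lit 606) (nat_lit 518) (nat_lit 436)) (XT.lf (nat_lit 0) (nat_lit 1610946976) (nat_lit 532) (nat_lit 456055266) (nat_lit 76) (nat_lit 9319035569) (nat_lit 187) (nat_lit 5) (nat_lit 194) (nat_lit 5) (nat_lit 188) (nat_lit 5) (nat_lit 607) (nat_lit 518) (nat_lit 435))) (XT.nd (nat_lit 78) (nat_lit 76) (nat_lit 0) (XT.lf (nat_lit 0) (nat_lit 22959606) (nat_lit 76) (nat_lit 1599555191) (nat_lit 76) (nat_lit 1599555191) (nat_lit 781) (nat_lit 4) (nat_lit 782) (nat_lit 5) (nat_lit 782) (nat_lit 4) (nat_lit 522) (nat_lit 519) (nat_lit 519)) (XT.lf (nat_lit 0) (nat_lit 3554290) (nat_lit 152) (nat_lit 3070384846) (nat_lit 76) (nat_lit 3372740841) (nat_lit 780) (nat_lit 5) (nat_lit 782) (nat_lit 5) (nat_lit 781) (nat_lit 4) (nat_lit 523) (nat_lit 519) (nat_lit 518))))))))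
noncomputable def xc32 : XT := (XT.nd (nat_lit 2262) (nat_lit 21736) (nat_lit 0) (XT.nd (nat_lit 1092) (nat_lit 10032) (nat_lit 0) (XT.nd (nat_lit 546) (nat_lit 2508) (nat_lit 0) (XT.nd (nat_lit 234) (nat_lit 836) (nat_lit 0) (XT.nd (nat_lit 78) (nat_lit 304) (nat_lit 0) (XT.lf (nat_lit 0) (nat_lit 261771120) (nat_lit 152) (nat_lit 2885038653) (nat_lit 228) (nat_lit 3303660226) (nat_lit 778) (nat_lit 5) (nat_lit 780) (nat_lit 5) (nat_lit 781) (nat_lit 4) (nat_lit 524) (nat_lit 519) (nat_lit 517)) (XT.nd (nat_lit 78) (nat_lit 304) (nat_lit 0) (XT.lf (nat_lit 0) (nat_lit 3657999052) (nat_lit 152) (nat_lit 2634497288) (nat_lit 228) (nat_lit 163057592) (nat_lit 778) (nat_lit 5) (nat_lit 780) (nat_lit 5) (nat_lit 781) (nat_lit 4) (nat_lit 525) (nat_lit 519) (nat_lit 516)) (XT.lf (nat_lit 0) (nat_lit 605212908) (nat_lit 228) (nat_lit 2319214575) (nat_lit 304) (nat_lit 3537447419) (nat_lit 774) (nat_lit 5) (nat_lit 777) (nat_lit 5) (nat_lit 778) (nat_lit 5) (nat_lit 526) (nat_lit 519) (nat_lit 515)))) (XT.nd (nat_lit 156) (nat_lit 456) (nat_lit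 0) (XT.nd (nat_lit 78) (nat_lit 380) (nat_lit 0) (XT.lf (nat_lit 0) (nat_lit 4068758977) (nat_lit 228) (nat_lit 1942785687) (nat_lit 304) (nat_lit 457963643) (nat_lit 774) (nat_lit 5) (nat_lit 777) (nat_lit 5) (nat_lit 778) (nat_lit 5) (nat_lit 527) (nat_lit 519) (nat_lit 514)) (XT.lf (nat_lit 0) (nat_lit 1076701671) (nat_lit 304) (nat_lit 1500530668) (nat_lit 380) (nat_lit 3901135930) (nat_lit 769) (nat_lit 5) (nat_lit 773) (nat_lit 5) (nat_lit 774) (nat_lit 5) (nat_lit 528) (nat_lit 519) (nat_lit 513))) (XT.nd (nat_lit 78) (nat_lit 456) (nat_lit 0) (XT.lf (nat_lit 0) (nat_lit 4609182100) (nat_lit 304) (nat_lit 997472920) (nat_lit 380) (nat_lit 881905143) (nat_lit 769) (nat_lit 5) (nat_lit 773) (nat_lit 5) (nat_lit 774) (nat_lit 5) (nat_lit 529) (nat_lit 519) (nat_lit 512)) (XT.lf (nat_lit 0) (nat_lit 1676943296) (nat_lit 380) (nat_lit 427384705) (nat_lit 456) (nat_lit 4395641739) (nat_lit 763) (nat_lit 5) (nat_lit 768) (nat_lit 5) (nat_lit 769) (nat_lit 5) (nat_lit 530) (nat_lit 519) (nat_lit 511))))) (XT.nd (nat_lit 234) (nat_lit 1976)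 (nat_lit 0) (XT.nd (nat_lit 78) (nat_lit 532) (nat_lit 0) (XT.lf (nat_lit 0) (nat_lit 5078129182) (nat_lit 456) (nat_lit 1233950565) (nat_lit 76) (nat_lit 200626023) (nat_lit 763) (nat_lit 5) (nat_lit 769) (nat_lit 5) (nat_lit 764) (nat_lit 5) (nat_lit 531) (nat_lit 519) (nat_lit 510)) (XT.nd (nat_lit 78) (nat_lit 0) (nat_lit 0) (XT.lf (nat_lit 0) (nat_lit 1510428887) (nat_lit 532) (nat_lit 4125670223) (nat_lit 76) (nat_lit 890488767) (nat_lit 756) (nat_lit 5) (nat_lit 763) (nat_lit 5) (nat_lit 757) (nat_lit 5) (nat_lit 532) (nat_lit 519) (nat_lit 509)) (XT.lf (nat_lit 0) (nat_lit 4431530999) (nat_lit 532) (nat_lit 470241909) (nat_lit 76) (nat_lit 1640064392) (nat_lit 756) (nat_lit 5) (nat_lit 763) (nat_lit 5) (nat_lit 757) (nat_lit 5) (nat_lit 533) (nat_lit 519) (nat_lit 508)))) (XT.nd (nat_lit 156) (nat_lit 760) (nat_lit 0) (XT.nd (nat_lit 78) (nat_lit 608) (nat_lit 0) (XT.lf (nat_lit 0) (nat_lit 792740062) (nat_lit 608) (nat_lit 3307022454) (nat_lit 76) (nat_lit 2458520040) (nat_lit 748) (nat_lit 5) (nat_lit 756) (nat_lit 5) (nat_lit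 749) (nat_lit 5) (nat_lit 534) (nat_lit 519) (nat_lit 507)) (XT.lf (nat_lit 0) (nat_lit 425081832) (nat_lit 608) (nat_lit 3236563922) (nat_lit 684) (nat_lit 2914417878) (nat_lit 740) (nat_lit 5) (nat_lit 748) (nat_lit 5) (nat_lit 749) (nat_lit 5) (nat_lit 535) (nat_lit 519) (nat_lit 506))) (XT.nd (nat_lit 78) (nat_lit 760) (nat_lit 0) (XT.lf (nat_lit 0) (nat_lit 4231882716) (nat_lit 608) (nat_lit 2309411349) (nat_lit 684) (nat_lit 53845844) (nat_lit 740) (nat_lit 5) (nat_lit 748) (nat_lit 5) (nat_lit 749) (nat_lit 5) (nat_lit 536) (nat_lit 519) (nat_lit 505)) (XT.lf (nat_lit 0) (nat_lit 1455917422) (nat_lit 684) (nat_lit 1311980612) (nat_lit 760) (nat_lit 3847503959) (nat_lit 730) (nat_lit 5) (nat_lit 739) (nat_lit 5) (nat_lit 740) (nat_lit 5) (nat_lit 537) (nat_lit 519) (nat_lit 504)))))) (XT.nd (nat_lit 546) (nat_lit 6308) (nat_lit 0) (XT.nd (nat_lit 234) (nat_lit 2888) (nat_lit 0) (XT.nd (nat_lit 78) (nat_lit 836) (nat_lit 0) (XT.lf (nat_lit 0) (nat_lit 5338639017) (nat_lit 684) (nat_lit 255685486) (nat_lit 760) (nat_lit 1042764794) (nat_lit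 730) (nat_lit 5) (nat_lit 739) (nat_lit 5) (nat_lit 740) (nat_lit 5) (nat_lit 538) (nat_lit 519) (nat_lit 503)) (XT.nd (nat_lit 78) (nat_lit 0) (nat_lit 0) (XT.lf (nat_lit 0) (nat_lit 1750869654) (nat_lit 836) (nat_lit 4047813357) (nat_lit 76) (nat_lit 861164582) (nat_lit 719) (nat_lit 5) (nat_lit 730) (nat_lit 5) (nat_lit 720) (nat_lit 5) (nat_lit 539) (nat_lit 519) (nat_lit 502)) (XT.lf (nat_lit 0) (nat_lit 4532016399) (nat_lit 836) (nat_lit 118883124) (nat_lit 76) (nat_lit 2033117732) (nat_lit 719) (nat_lit 5) (nat_lit 730) (nat_lit 5) (nat_lit 720) (nat_lit 5) (nat_lit 540) (nat_lit 519) (nat_lit 501)))) (XT.nd (nat_lit 156) (nat_lit 1064) (nat_lit 0) (XT.nd (nat_lit 78) (nat_lit 912) (nat_lit 0) (XT.lf (nat_lit 0) (nat_lit 612884058) (nat_lit 912) (nat_lit 2818539660) (nat_lit 76) (nat_lit 3277938220) (nat_lit 707) (nat_lit 5) (nat_lit 719) (nat_lit 5) (nat_lit 708) (nat_lit 5) (nat_lit 541) (nat_lit 519) (nat_lit 500)) (XT.lf (nat_lit 0) (nat_lit 1203338045) (nat_lit 912) (nat_lit 2146490837) (nat_lit 988) (nat_lit 3386194336) (nat_lit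 695) (nat_lit 5) (nat_lit 707) (nat_lit 5) (nat_lit 708) (nat_lit 5) (nat_lit 542) (nat_lit 519) (nat_lit 499))) (XT.nd (nat_lit 78) (nat_lit 1064) (nat_lit 0) (XT.lf (nat_lit 0) (nat_lit 5298834802) (nat_lit 912) (nat_lit 799470578) (nat_lit 988) (nat_lit 665782122) (nat_lit 695) (nat_lit 5) (nat_lit 707) (nat_lit 5) (nat_lit 708) (nat_lit 5) (nat_lit 543) (nat_lit 519) (nat_lit 498)) (XT.lf (nat_lit 0) (nat_lit 2041376164) (nat_lit 1064) (nat_lit 4137610260) (nat_lit 76) (nat_lit 614258235) (nat_lit 681) (nat_lit 5) (nat_lit 695) (nat_lit 5) (nat_lit 682) (nat_lit 5) (nat_lit 544) (nat_lit 519) (nat_lit 497))))) (XT.nd (nat_lit 312) (nat_lit 4028) (nat_lit 0) (XT.nd (nat_lit 156) (nat_lit 1140) (nat_lit 0) (XT.nd (nat_lit 78) (nat_lit 76) (nat_lit 0) (XT.lf (nat_lit 0) (nat_lit 265946) (nat_lit 1064) (nat_lit 4748401661) (nat_lit 1140) (nat_lit 2075136548) (nat_lit 667) (nat_lit 5) (nat_lit 681) (nat_lit 5) (nat_lit 682) (nat_lit 5) (nat_lit 545) (nat_lit 519) (nat_lit 496)) (XT.lf (nat_lit 0) (nat_lit 614676955) (nat_lit 1140) (nat_lit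 2628349903) (nat_lit 76) (nat_lit 3612505234) (nat_lit 666) (nat_lit 5) (nat_lit 681) (nat_lit 5) (nat_lit 667) (nat_lit 5) (nat_lit 546) (nat_lit 519) (nat_lit 495))) (XT.nd (nat_lit 78) (nat_lit 0) (nat_lit 0) (XT.lf (nat_lit 0) (nat_lit 1612581161) (nat_lit 1140) (nat_lit 1669777807) (nat_lit 1216) (nat_lit 3606229126) (nat_lit 651) (nat_lit 5) (nat_lit 666) (nat_lit 5) (nat_lit 667) (nat_lit 5) (nat_lit 547) (nat_lit 519) (nat_lit 494)) (XT.lf (nat_lit 0) (nat_lit 5928690934) (nat_lit 1140) (nat_lit 34559543) (nat_lit 1216) (nat_lit 959862526) (nat_lit 651) (nat_lit 5) (nat_lit 666) (nat_lit 5) (nat_lit 667) (nat_lit 5) (nat_lit 548) (nat_lit 519) (nat_lit 493)))) (XT.nd (nat_lit 156) (nat_lit 1444) (nat_lit 0) (XT.nd (nat_lit 78) (nat_lit 1292) (nat_lit 0) (XT.lf (nat_lit 0) (nat_lit 1692309241) (nat_lit 1292) (nat_lit 3609282071) (nat_lit 76) (nat_lit 1657002126) (nat_lit 634) (nat_lit 5) (nat_lit 651) (nat_lit 5) (nat_lit 635) (nat_lit 5) (nat_lit 549) (nat_lit 519) (nat_lit 492)) (XT.lf (nat_lit 0) (nat_lit 755985958) (nat_lit 1292)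 (nat_lit 3584424548) (nat_lit 1368) (nat_lit 2655135932) (nat_lit 617) (nat_lit 5) (nat_lit 634) (nat_lit 5) (nat_lit 635) (nat_lit 5) (nat_lit 550) (nat_lit 519) (nat_lit 491))) (XT.nd (nat_lit 78) (nat_lit 1444) (nat_lit 0) (XT.lf (nat_lit 0) (nat_lit 5211738797) (nat_lit 1292) (nat_lit 1798630808) (nat_lit 1368) (nat_lit 23495511) (nat_lit 617) (nat_lit 5) (nat_lit 634) (nat_lit 5) (nat_lit 635) (nat_lit 5) (nat_lit 551) (nat_lit 519) (nat_lit 490)) (XT.lf (nat_lit 0) (nat_lit 2588955825) (nat_lit 1444) (nat_lit 4418160244) (nat_lit 76) (nat_lit 66231449) (nat_lit 598) (nat_lit 5) (nat_lit 617) (nat_lit 5) (nat_lit 599) (nat_lit 5) (nat_lit 552) (nat_lit 519) (nat_lit 489))))))) (XT.nd (nat_lit 1170) (nat_lit 7828) (nat_lit 0) (XT.nd (nat_lit 546) (nat_lit 7524) (nat_lit 0) (XT.nd (nat_lit 234) (nat_lit 3344) (nat_lit 0) (XT.nd (nat_lit 78) (nat_lit 1596) (nat_lit 0) (XT.lf (nat_lit 0) (nat_lit 75802853) (nat_lit 1444) (nat_lit 5148480052) (nat_lit 1520) (nat_lit 1889919000) (nat_lit 579) (nat_lit 5) (nat_lit 598) (nat_lit 5) (nat_lit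 599) (nat_lit 5) (nat_lit 553) (nat_lit 519) (nat_lit 488)) (XT.nd (nat_lit 78) (nat_lit 1520) (nat_lit 0) (XT.lf (nat_lit 0) (nat_lit 722995513) (nat_lit 1520) (nat_lit 2487676376) (nat_lit 76) (nat_lit 3945577905) (nat_lit 578) (nat_lit 5) (nat_lit 598) (nat_lit 5) (nat_lit 579) (nat_lit 5) (nat_lit 554) (nat_lit 519) (nat_lit 487)) (XT.lf (nat_lit 0) (nat_lit 2123489962) (nat_lit 1520) (nat_lit 1200858325) (nat_lit 1596) (nat_lit 3875314811) (nat_lit 558) (nat_lit 5) (nat_lit 578) (nat_lit 5) (nat_lit 579) (nat_lit 5) (nat_lit 555) (nat_lit 519) (nat_lit 486)))) (XT.nd (nat_lit 156) (nat_lit 1672) (nat_lit 0) (XT.nd (nat_lit 78) (nat_lit 1672) (nat_lit 0) (XT.lf (nat_lit 0) (nat_lit 5948489567) (nat_lit 1596) (nat_lit 435311337) (nat_lit 76) (nat_lit 860732480) (nat_lit 558) (nat_lit 5) (nat_lit 579) (nat_lit 5) (nat_lit 559) (nat_lit 5) (nat_lit 556) (nat_lit 519) (nat_lit 485)) (XT.lf (nat_lit 0) (nat_lit 1302538313) (nat_lit 1672) (nat_lit 2998105644) (nat_lit 76) (nat_lit 2989782941) (nat_lit 536) (nat_lit 5) (nat_lit 558) (nat_lit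 5) (nat_lit 537) (nat_lit 5) (nat_lit 557) (nat_lit 519) (nat_lit 484))) (XT.nd (nat_lit 78) (nat_lit 0) (nat_lit 0) (XT.lf (nat_lit 0) (nat_lit 1751463966) (nat_lit 1672) (nat_lit 2148419467) (nat_lit 1748) (nat_lit 3437904322) (nat_lit 514) (nat_lit 5) (nat_lit 536) (nat_lit 5) (nat_lit 537) (nat_lit 5) (nat_lit 558) (nat_lit 519) (nat_lit 483)) (XT.lf (nat_lit 0) (nat_lit 6520258960) (nat_lit 1748) (nat_lit 796311465) (nat_lit 76) (nat_lit 70107380) (nat_lit 514) (nat_lit 5) (nat_lit 537) (nat_lit 5) (nat_lit 515) (nat_lit 5) (nat_lit 559) (nat_lit 519) (nat_lit 482))))) (XT.nd (nat_lit 312) (nat_lit 2736) (nat_lit 0) (XT.nd (nat_lit 156) (nat_lit 1140) (nat_lit 0) (XT.nd (nat_lit 78) (nat_lit 1824) (nat_lit 0) (XT.lf (nat_lit 0) (nat_lit 1725638694) (nat_lit 1824) (nat_lit 3365163515) (nat_lit 76) (nat_lit 2345675280) (nat_lit 490) (nat_lit 5) (nat_lit 514) (nat_lit 5) (nat_lit 491) (nat_lit 5) (nat_lit 560) (nat_lit 519) (nat_lit 481)) (XT.lf (nat_lit 0) (nat_lit 1527916938) (nat_lit 1824) (nat_lit 2797161001) (nat_lit 1900) (nat_lit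 3162741284) (nat_lit 466) (nat_lit 5) (nat_lit 490) (nat_lit 5) (nat_lit 491) (nat_lit 5) (nat_lit 561) (nat_lit 519) (nat_lit 480))) (XT.nd (nat_lit 78) (nat_lit 1140) (nat_lit 0) (XT.lf (nat_lit 0) (nat_lit 6518510530) (nat_lit 1824) (nat_lit 433055255) (nat_lit 1900) (nat_lit 589124178) (nat_lit 466) (nat_lit 5) (nat_lit 490) (nat_lit 5) (nat_lit 491) (nat_lit 5) (nat_lit 562) (nat_lit 519) (nat_lit 479)) (XT.lf (nat_lit 0) (nat_lit 2001495716) (nat_lit 1140) (nat_lit 3599932321) (nat_lit 76) (nat_lit 1993084290) (nat_lit 451) (nat_lit 5) (nat_lit 466) (nat_lit 5) (nat_lit 452) (nat_lit 5) (nat_lit 563) (nat_lit 519) (nat_lit 478)))) (XT.nd (nat_lit 156) (nat_lit 1824) (nat_lit 0) (XT.nd (nat_lit 78) (nat_lit 0) (nat_lit 0) (XT.lf (nat_lit 0) (nat_lit 1442030935) (nat_lit 912) (nat_lit 3166879926) (nat_lit 988) (nat_lit 3040968145) (nat_lit 439) (nat_lit 5) (nat_lit 451) (nat_lit 5) (nat_lit 452) (nat_lit 5) (nat_lit 564) (nat_lit 519) (nat_lit 477)) (XT.lf (nat_lit 0) (nat_lit 6587612916) (nat_lit 912) (nat_lit 659355860) (nat_lit 988)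 (nat_lit 459817463) (nat_lit 439) (nat_lit 5) (nat_lit 451) (nat_lit 5) (nat_lit 452) (nat_lit 5) (nat_lit 565) (nat_lit 519) (nat_lit 476))) (XT.nd (nat_lit 78) (nat_lit 836) (nat_lit 0) (XT.lf (nat_lit 0) (nat_lit 2138370647) (nat_lit 988) (nat_lit 3712756556) (nat_lit 76) (nat_lit 1913546975) (nat_lit 426) (nat_lit 5) (nat_lit 439) (nat_lit 5) (nat_lit 427) (nat_lit 5) (nat_lit 566) (nat_lit 519) (nat_lit 475)) (XT.lf (nat_lit 0) (nat_lit 1483725472) (nat_lit 836) (nat_lit 3275721338) (nat_lit 912) (nat_lit 3064673586) (nat_lit 415) (nat_lit 5) (nat_lit 426) (nat_lit 5) (nat_lit 427) (nat_lit 5) (nat_lit 567) (nat_lit 519) (nat_lit 474)))))) (XT.nd (nat_lit 546) (nat_lit 4408) (nat_lit 0) (XT.nd (nat_lit 234) (nat_lit 1672) (nat_lit 0) (XT.nd (nat_lit 78) (nat_lit 1748) (nat_lit 0) (XT.lf (nat_lit 0) (nat_lit 6788465388) (nat_lit 836) (nat_lit 625482833) (nat_lit 912) (nat_lit 471190116) (nat_lit 415) (nat_lit 5) (nat_lit 426) (nat_lit 5) (nat_lit 427) (nat_lit 5) (nat_lit 568) (nat_lit 519) (nat_lit 473)) (XT.nd (nat_lit 78) (nat_lit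 836) (nat_lit 0) (XT.lf (nat_lit 0) (nat_lit 2143641735) (nat_lit 912) (nat_lit 3713320712) (nat_lit 76) (nat_lit 2090174765) (nat_lit 403) (nat_lit 5) (nat_lit 415) (nat_lit 5) (nat_lit 404) (nat_lit 5) (nat_lit 569) (nat_lit 519) (nat_lit 472)) (XT.lf (nat_lit 0) (nat_lit 1643579999) (nat_lit 836) (nat_lit 3140308966) (nat_lit 912) (nat_lit 3226838957) (nat_lit 392) (nat_lit 5) (nat_lit 403) (nat_lit 5) (nat_lit 404) (nat_lit 5) (nat_lit 570) (nat_lit 519) (nat_lit 471)))) (XT.nd (nat_lit 156) (nat_lit 760) (nat_lit 0) (XT.nd (nat_lit 78) (nat_lit 912) (nat_lit 0) (XT.lf (nat_lit 0) (nat_lit 7112040898) (nat_lit 836) (nat_lit 347560294) (nat_lit 912) (nat_lit 616338709) (nat_lit 392) (nat_lit 5) (nat_lit 403) (nat_lit 5) (nat_lit 404) (nat_lit 5) (nat_lit 571) (nat_lit 519) (nat_lit 470)) (XT.lf (nat_lit 0) (nat_lit 2023853283) (nat_lit 912) (nat_lit 3610723727) (nat_lit 76) (nat_lit 2507529527) (nat_lit 380) (nat_lit 5) (nat_lit 392) (nat_lit 5) (nat_lit 381) (nat_lit 5) (nat_lit 572) (nat_lit 519) (nat_lit 469))) (XT.nd (nat_lit 78)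 (nat_lit 0) (nat_lit 0) (XT.lf (nat_lit 0) (nat_lit 1912759688) (nat_lit 760) (nat_lit 2775866793) (nat_lit 836) (nat_lit 3521290444) (nat_lit 370) (nat_lit 5) (nat_lit 380) (nat_lit 5) (nat_lit 381) (nat_lit 5) (nat_lit 573) (nat_lit 519) (nat_lit 468)) (XT.lf (nat_lit 0) (nat_lit 7391263223) (nat_lit 836) (nat_lit 730561074) (nat_lit 76) (nat_lit 157570316) (nat_lit 370) (nat_lit 5) (nat_lit 381) (nat_lit 5) (nat_lit 371) (nat_lit 5) (nat_lit 574) (nat_lit 519) (nat_lit 467))))) (XT.nd (nat_lit 312) (nat_lit 2052) (nat_lit 0) (XT.nd (nat_lit 156) (nat_lit 836) (nat_lit 0) (XT.nd (nat_lit 78) (nat_lit 684) (nat_lit 0) (XT.lf (nat_lit 0) (nat_lit 1784759314) (nat_lit 836) (nat_lit 3413550585) (nat_lit 76) (nat_lit 3151507967) (nat_lit 359) (nat_lit 5) (nat_lit 370) (nat_lit 5) (nat_lit 360) (nat_lit 5) (nat_lit 575) (nat_lit 519) (nat_lit 466)) (XT.lf (nat_lit 0) (nat_lit 2282944001) (nat_lit 684) (nat_lit 2196332588) (nat_lit 760) (nat_lit 3942656678) (nat_lit 350) (nat_lit 5) (nat_lit 359) (nat_lit 5) (nat_lit 360) (nat_lit 5) (nat_lit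 576) (nat_lit 519) (nat_lit 465))) (XT.nd (nat_lit 78) (nat_lit 836) (nat_lit 0) (XT.lf (nat_lit 0) (nat_lit 7217097224) (nat_lit 760) (nat_lit 407475630) (nat_lit 76) (nat_lit 871132128) (nat_lit 350) (nat_lit 5) (nat_lit 360) (nat_lit 5) (nat_lit 351) (nat_lit 5) (nat_lit 577) (nat_lit 519) (nat_lit 464)) (XT.lf (nat_lit 0) (nat_lit 1431362062) (nat_lit 836) (nat_lit 3129941605) (nat_lit 76) (nat_lit 4009233640) (nat_lit 339) (nat_lit 5) (nat_lit 350) (nat_lit 5) (nat_lit 340) (nat_lit 5) (nat_lit 578) (nat_lit 519) (nat_lit 463)))) (XT.nd (nat_lit 156) (nat_lit 1368) (nat_lit 0) (XT.nd (nat_lit 78) (nat_lit 0) (nat_lit 0) (XT.lf (nat_lit 0) (nat_lit 2746257500) (nat_lit 684) (nat_lit 1414464103) (nat_lit 760) (nat_lit 4486331561) (nat_lit 330) (nat_lit 5) (nat_lit 339) (nat_lit 5) (nat_lit 340) (nat_lit 5) (nat_lit 579) (nat_lit 519) (nat_lit 462)) (XT.lf (nat_lit 0) (nat_lit 6939587161) (nat_lit 760) (nat_lit 91757) (nat_lit 76) (nat_lit 1785524136) (nat_lit 330) (nat_lit 5) (nat_lit 340) (nat_lit 5) (nat_lit 331) (nat_lit 5) (nat_lit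 580) (nat_lit 519) (nat_lit 461))) (XT.nd (nat_lit 78) (nat_lit 608) (nat_lit 0) (XT.lf (nat_lit 0) (nat_lit 967945518) (nat_lit 760) (nat_lit 2767659914) (nat_lit 76) (nat_lit 5068955851) (nat_lit 320) (nat_lit 5) (nat_lit 330) (nat_lit 5) (nat_lit 321) (nat_lit 5) (nat_lit 581) (nat_lit 519) (nat_lit 460)) (XT.lf (nat_lit 0) (nat_lit 3295202379) (nat_lit 608) (nat_lit 441938671) (nat_lit 684) (nat_lit 5148442093) (nat_lit 312) (nat_lit 5) (nat_lit 320) (nat_lit 5) (nat_lit 321) (nat_lit 5) (nat_lit 582) (nat_lit 519) (nat_lit 459))))))))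
noncomputable def xc33 : XT := (XT.nd (nat_lit 76752) (nat_lit 0) (nat_lit 27664) (XT.nd (nat_lit 1170) (nat_lit 2888) (nat_lit 0) (XT.nd (nat_lit 546) (nat_lit 2812) (nat_lit 0) (XT.nd (nat_lit 234) (nat_lit 1900) (nat_lit 0) (XT.nd (nat_lit 78) (nat_lit 684) (nat_lit 0) (XT.lf (nat_lit 0) (nat_lit 490656052) (nat_lit 684) (nat_lit 6075320123) (nat_lit 760) (nat_lit 2402166086) (nat_lit 303) (nat_lit 5) (nat_lit 312) (nat_lit 5) (nat_lit 313) (nat_lit 5) (nat_lit 583) (nat_lit 519) (nat_lit 458)) (XT.nd (nat_lit 78) (nat_lit 608) (nat_lit 0) (XT.lf (nat_lit 0) (nat_lit 398104196) (nat_lit 760) (nat_lit 2334157638) (nat_lit 76) (nat_lit 6319954727) (nat_lit 302) (nat_lit 5) (nat_lit 312) (nat_lit 5) (nat_lit 303) (nat_lit 5) (nat_lit 584) (nat_lit 519) (nat_lit 457)) (XT.lf (nat_lit 0) (nat_lit 3216652475) (nat_lit 684) (nat_lit 5219881294) (nat_lit 76) (nat_lit 701234083) (nat_lit 294) (nat_lit 5) (nat_lit 303) (nat_lit 5) (nat_lit 295) (nat_lit 5) (nat_lit 585) (nat_lit 519) (nat_lit 456)))) (XT.nd (nat_lit 156) (nat_lit 1292) (nat_lit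 0) (XT.nd (nat_lit 78) (nat_lit 0) (nat_lit 0) (XT.lf (nat_lit 0) (nat_lit 1052163612) (nat_lit 608) (nat_lit 5044775313) (nat_lit 684) (nat_lit 3127985685) (nat_lit 286) (nat_lit 5) (nat_lit 294) (nat_lit 5) (nat_lit 295) (nat_lit 5) (nat_lit 586) (nat_lit 519) (nat_lit 455)) (XT.lf (nat_lit 0) (nat_lit 7475372138) (nat_lit 608) (nat_lit 1559561643) (nat_lit 684) (nat_lit 278890422) (nat_lit 286) (nat_lit 5) (nat_lit 294) (nat_lit 5) (nat_lit 295) (nat_lit 5) (nat_lit 587) (nat_lit 519) (nat_lit 454))) (XT.nd (nat_lit 78) (nat_lit 608) (nat_lit 0) (XT.lf (nat_lit 0) (nat_lit 2601468364) (nat_lit 684) (nat_lit 4795966244) (nat_lit 76) (nat_lit 2006552960) (nat_lit 277) (nat_lit 5) (nat_lit 286) (nat_lit 5) (nat_lit 278) (nat_lit 5) (nat_lit 588) (nat_lit 519) (nat_lit 453)) (XT.lf (nat_lit 0) (nat_lit 1677446354) (nat_lit 608) (nat_lit 3857747671) (nat_lit 684) (nat_lit 3960735078) (nat_lit 269) (nat_lit 5) (nat_lit 277) (nat_lit 5) (nat_lit 278) (nat_lit 5) (nat_lit 589) (nat_lit 519) (nat_lit 452))))) (XT.nd (nat_lit 312) (nat_lit 1672)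 (nat_lit 0) (XT.nd (nat_lit 156) (nat_lit 532) (nat_lit 0) (XT.nd (nat_lit 78) (nat_lit 608) (nat_lit 0) (XT.lf (nat_lit 0) (nat_lit 8300699213) (nat_lit 608) (nat_lit 225310729) (nat_lit 684) (nat_lit 1063732830) (nat_lit 269) (nat_lit 5) (nat_lit 277) (nat_lit 5) (nat_lit 278) (nat_lit 5) (nat_lit 590) (nat_lit 519) (nat_lit 451)) (XT.lf (nat_lit 0) (nat_lit 1890878524) (nat_lit 608) (nat_lit 4322866619) (nat_lit 76) (nat_lit 3470954094) (nat_lit 261) (nat_lit 5) (nat_lit 269) (nat_lit 5) (nat_lit 262) (nat_lit 5) (nat_lit 591) (nat_lit 519) (nat_lit 450))) (XT.nd (nat_lit 78) (nat_lit 0) (nat_lit 0) (XT.lf (nat_lit 0) (nat_lit 2359664795) (nat_lit 532) (nat_lit 2523178079) (nat_lit 608) (nat_lit 4898722774) (nat_lit 254) (nat_lit 5) (nat_lit 261) (nat_lit 5) (nat_lit 262) (nat_lit 5) (nat_lit 592) (nat_lit 519) (nat_lit 449)) (XT.lf (nat_lit 0) (nat_lit 7939162397) (nat_lit 608) (nat_lit 698389145) (nat_lit 76) (nat_lit 1242729023) (nat_lit 254) (nat_lit 5) (nat_lit 262) (nat_lit 5) (nat_lit 255) (nat_lit 5) (nat_lit 593) (nat_lit 519)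 (nat_lit 448)))) (XT.nd (nat_lit 156) (nat_lit 532) (nat_lit 0) (XT.nd (nat_lit 78) (nat_lit 532) (nat_lit 0) (XT.lf (nat_lit 0) (nat_lit 1086426660) (nat_lit 608) (nat_lit 3807604301) (nat_lit 76) (nat_lit 5086302674) (nat_lit 246) (nat_lit 5) (nat_lit 254) (nat_lit 5) (nat_lit 247) (nat_lit 5) (nat_lit 594) (nat_lit 519) (nat_lit 447)) (XT.lf (nat_lit 0) (nat_lit 3092057186) (nat_lit 532) (nat_lit 1049324078) (nat_lit 608) (nat_lit 5940894287) (nat_lit 239) (nat_lit 5) (nat_lit 246) (nat_lit 5) (nat_lit 247) (nat_lit 5) (nat_lit 595) (nat_lit 519) (nat_lit 446))) (XT.nd (nat_lit 78) (nat_lit 532) (nat_lit 0) (XT.lf (nat_lit 0) (nat_lit 7270100662) (nat_lit 608) (nat_lit 67556053) (nat_lit 76) (nat_lit 2848347657) (nat_lit 239) (nat_lit 5) (nat_lit 247) (nat_lit 5) (nat_lit 240) (nat_lit 5) (nat_lit 596) (nat_lit 519) (nat_lit 445)) (XT.lf (nat_lit 0) (nat_lit 189050096) (nat_lit 532) (nat_lit 3257189486) (nat_lit 76) (nat_lit 6845113743) (nat_lit 232) (nat_lit 5) (nat_lit 239) (nat_lit 5) (nat_lit 233) (nat_lit 5) (nat_lit 597) (nat_lit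 519) (nat_lit 444)))))) (XT.nd (nat_lit 546) (nat_lit 380) (nat_lit 0) (XT.nd (nat_lit 234) (nat_lit 1520) (nat_lit 0) (XT.nd (nat_lit 78) (nat_lit 456) (nat_lit 0) (XT.lf (nat_lit 0) (nat_lit 3315318247) (nat_lit 608) (nat_lit 6534270904) (nat_lit 76) (nat_lit 548870741) (nat_lit 225) (nat_lit 5) (nat_lit 233) (nat_lit 5) (nat_lit 226) (nat_lit 5) (nat_lit 598) (nat_lit 519) (nat_lit 443)) (XT.nd (nat_lit 78) (nat_lit 0) (nat_lit 0) (XT.lf (nat_lit 0) (nat_lit 606035650) (nat_lit 456) (nat_lit 5916122245) (nat_lit 532) (nat_lit 3985191048) (nat_lit 219) (nat_lit 5) (nat_lit 225) (nat_lit 5) (nat_lit 226) (nat_lit 5) (nat_lit 599) (nat_lit 519) (nat_lit 442)) (XT.lf (nat_lit 0) (nat_lit 7934189653) (nat_lit 456) (nat_lit 1872399030) (nat_lit 532) (nat_lit 811559256) (nat_lit 219) (nat_lit 5) (nat_lit 225) (nat_lit 5) (nat_lit 226) (nat_lit 5) (nat_lit 600) (nat_lit 519) (nat_lit 441)))) (XT.nd (nat_lit 156) (nat_lit 532) (nat_lit 0) (XT.nd (nat_lit 78) (nat_lit 456) (nat_lit 0) (XT.lf (nat_lit 0) (nat_lit 2408968050) (nat_lit 532) (nat_lit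 6065384861) (nat_lit 76) (nat_lit 2256191555) (nat_lit 212) (nat_lit 5) (nat_lit 219) (nat_lit 5) (nat_lit 213) (nat_lit 5) (nat_lit 601) (nat_lit 519) (nat_lit 440)) (XT.lf (nat_lit 0) (nat_lit 1308778853) (nat_lit 456) (nat_lit 4383526497) (nat_lit 532) (nat_lit 5152592139) (nat_lit 206) (nat_lit 5) (nat_lit 212) (nat_lit 5) (nat_lit 213) (nat_lit 5) (nat_lit 602) (nat_lit 519) (nat_lit 439))) (XT.nd (nat_lit 78) (nat_lit 532) (nat_lit 0) (XT.lf (nat_lit 0) (nat_lit 8869623543) (nat_lit 456) (nat_lit 182920782) (nat_lit 532) (nat_lit 1908769706) (nat_lit 206) (nat_lit 5) (nat_lit 212) (nat_lit 5) (nat_lit 213) (nat_lit 5) (nat_lit 603) (nat_lit 519) (nat_lit 438)) (XT.lf (nat_lit 0) (nat_lit 1415183330) (nat_lit 532) (nat_lit 5584183827) (nat_lit 76) (nat_lit 4079838781) (nat_lit 199) (nat_lit 5) (nat_lit 206) (nat_lit 5) (nat_lit 200) (nat_lit 5) (nat_lit 604) (nat_lit 519) (nat_lit 437))))) (XT.nd (nat_lit 74724) (nat_lit 0) (nat_lit 44308) (XT.nd (nat_lit 74568) (nat_lit 0) (nat_lit 44688) (XT.nd (nat_lit 78) (nat_lit 0) (nat_lit 0)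 (XT.lf (nat_lit 0) (nat_lit 2032586562) (nat_lit 380) (nat_lit 2747158327) (nat_lit 456) (nat_lit 6419465787) (nat_lit 194) (nat_lit 5) (nat_lit 199) (nat_lit 5) (nat_lit 200) (nat_lit 5) (nat_lit 605) (nat_lit 519) (nat_lit 436)) (XT.lf (nat_lit 0) (nat_lit 8230968967) (nat_lit 456) (nat_lit 1497025138) (nat_lit 76) (nat_lit 1593235047) (nat_lit 194) (nat_lit 5) (nat_lit 200) (nat_lit 5) (nat_lit 195) (nat_lit 5) (nat_lit 606) (nat_lit 519) (nat_lit 435))) (XT.nd (nat_lit 78) (nat_lit 76) (nat_lit 0) (XT.lf (nat_lit 0) (nat_lit 0) (nat_lit 0) (nat_lit 0) (nat_lit 0) (nat_lit 1073741823) (nat_lit 1) (nat_lit 0) (nat_lit 1) (nat_lit 0) (nat_lit 783) (nat_lit 0) (nat_lit 520) (nat_lit 520) (nat_lit 520)) (XT.lf (nat_lit 0) (nat_lit 3181109272) (nat_lit 76) (nat_lit 3219769031) (nat_lit 0) (nat_lit 41993469) (nat_lit 782) (nat_lit 5) (nat_lit 783) (nat_lit 0) (nat_lit 782) (nat_lit 4) (nat_lit 521) (nat_lit 520) (nat_lit 519)))) (XT.nd (nat_lit 156) (nat_lit 228) (nat_lit 0) (XT.nd (nat_lit 78) (nat_lit 76) (nat_lit 0) (XT.lf (nat_lit 0) (nat_lit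 24014729) (nat_lit 76) (nat_lit 6318818382) (nat_lit 76) (nat_lit 102138066) (nat_lit 781) (nat_lit 4) (nat_lit 782) (nat_lit 5) (nat_lit 782) (nat_lit 4) (nat_lit 522) (nat_lit 520) (nat_lit 518)) (XT.lf (nat_lit 0) (nat_lit 3019133996) (nat_lit 152) (nat_lit 3135249753) (nat_lit 76) (nat_lit 293545542) (nat_lit 780) (nat_lit 5) (nat_lit 782) (nat_lit 5) (nat_lit 781) (nat_lit 4) (nat_lit 523) (nat_lit 520) (nat_lit 517))) (XT.nd (nat_lit 78) (nat_lit 76) (nat_lit 0) (XT.lf (nat_lit 0) (nat_lit 174167445) (nat_lit 152) (nat_lit 5947677506) (nat_lit 228) (nat_lit 330689921) (nat_lit 778) (nat_lit 5) (nat_lit 780) (nat_lit 5) (nat_lit 781) (nat_lit 4) (nat_lit 524) (nat_lit 520) (nat_lit 516)) (XT.lf (nat_lit 0) (nat_lit 2733464052) (nat_lit 228) (nat_lit 2927445736) (nat_lit 76) (nat_lit 797140551) (nat_lit 777) (nat_lit 5) (nat_lit 780) (nat_lit 5) (nat_lit 778) (nat_lit 5) (nat_lit 525) (nat_lit 520) (nat_lit 515))))))) (XT.nd (nat_lit 1170) (nat_lit 12236) (nat_lit 0) (XT.nd (nat_lit 546) (nat_lit 2812) (nat_lit 0) (XT.nd (nat_lit 234)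 (nat_lit 988) (nat_lit 0) (XT.nd (nat_lit 78) (nat_lit 380) (nat_lit 0) (XT.lf (nat_lit 0) (nat_lit 450689230) (nat_lit 228) (nat_lit 5328298344) (nat_lit 304) (nat_lit 686163420) (nat_lit 774) (nat_lit 5) (nat_lit 777) (nat_lit 5) (nat_lit 778) (nat_lit 5) (nat_lit 526) (nat_lit 520) (nat_lit 514)) (XT.nd (nat_lit 78) (nat_lit 304) (nat_lit 0) (XT.lf (nat_lit 0) (nat_lit 2323476744) (nat_lit 304) (nat_lit 2596009175) (nat_lit 76) (nat_lit 1553761022) (nat_lit 773) (nat_lit 5) (nat_lit 777) (nat_lit 5) (nat_lit 774) (nat_lit 5) (nat_lit 527) (nat_lit 520) (nat_lit 513)) (XT.lf (nat_lit 0) (nat_lit 854057172) (nat_lit 304) (nat_lit 4459462955) (nat_lit 380) (nat_lit 1169314381) (nat_lit 769) (nat_lit 5) (nat_lit 773) (nat_lit 5) (nat_lit 774) (nat_lit 5) (nat_lit 528) (nat_lit 520) (nat_lit 512)))) (XT.nd (nat_lit 156) (nat_lit 532) (nat_lit 0) (XT.nd (nat_lit 78) (nat_lit 380) (nat_lit 0) (XT.lf (nat_lit 0) (nat_lit 1788304558) (nat_lit 380) (nat_lit 2140349866) (nat_lit 76) (nat_lit 2564882742) (nat_lit 768) (nat_lit 5) (nat_lit 773) (nat_lit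 5) (nat_lit 769) (nat_lit 5) (nat_lit 529) (nat_lit 520) (nat_lit 511)) (XT.lf (nat_lit 0) (nat_lit 1384994878) (nat_lit 380) (nat_lit 3339463446) (nat_lit 456) (nat_lit 1781148067) (nat_lit 763) (nat_lit 5) (nat_lit 768) (nat_lit 5) (nat_lit 769) (nat_lit 5) (nat_lit 530) (nat_lit 520) (nat_lit 510))) (XT.nd (nat_lit 78) (nat_lit 456) (nat_lit 0) (XT.lf (nat_lit 0) (nat_lit 1126833478) (nat_lit 456) (nat_lit 1559634502) (nat_lit 76) (nat_lit 3832477155) (nat_lit 762) (nat_lit 5) (nat_lit 768) (nat_lit 5) (nat_lit 763) (nat_lit 5) (nat_lit 531) (nat_lit 520) (nat_lit 509)) (XT.lf (nat_lit 0) (nat_lit 2044473378) (nat_lit 456) (nat_lit 1966099192) (nat_lit 532) (nat_lit 2522921102) (nat_lit 756) (nat_lit 5) (nat_lit 762) (nat_lit 5) (nat_lit 763) (nat_lit 5) (nat_lit 532) (nat_lit 520) (nat_lit 508))))) (XT.nd (nat_lit 312) (nat_lit 1520) (nat_lit 0) (XT.nd (nat_lit 156) (nat_lit 684) (nat_lit 0) (XT.nd (nat_lit 78) (nat_lit 532) (nat_lit 0) (XT.lf (nat_lit 0) (nat_lit 337700915) (nat_lit 532) (nat_lit 852785586) (nat_lit 76) (nat_lit 5359014576)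 (nat_lit 755) (nat_lit 5) (nat_lit 762) (nat_lit 5) (nat_lit 756) (nat_lit 5) (nat_lit 533) (nat_lit 520) (nat_lit 507)) (XT.lf (nat_lit 0) (nat_lit 2833712435) (nat_lit 532) (nat_lit 336673253) (nat_lit 608) (nat_lit 3396143774) (nat_lit 748) (nat_lit 5) (nat_lit 755) (nat_lit 5) (nat_lit 756) (nat_lit 5) (nat_lit 534) (nat_lit 520) (nat_lit 506))) (XT.nd (nat_lit 78) (nat_lit 684) (nat_lit 0) (XT.lf (nat_lit 0) (nat_lit 6000416522) (nat_lit 608) (nat_lit 25976038) (nat_lit 76) (nat_lit 558698876) (nat_lit 748) (nat_lit 5) (nat_lit 756) (nat_lit 5) (nat_lit 749) (nat_lit 5) (nat_lit 535) (nat_lit 520) (nat_lit 505)) (XT.lf (nat_lit 0) (nat_lit 2212246926) (nat_lit 684) (nat_lit 2860647451) (nat_lit 76) (nat_lit 1531657099) (nat_lit 739) (nat_lit 5) (nat_lit 748) (nat_lit 5) (nat_lit 740) (nat_lit 5) (nat_lit 536) (nat_lit 520) (nat_lit 504)))) (XT.nd (nat_lit 156) (nat_lit 760) (nat_lit 0) (XT.nd (nat_lit 78) (nat_lit 76) (nat_lit 0) (XT.lf (nat_lit 0) (nat_lit 929528330) (nat_lit 684) (nat_lit 4067368643) (nat_lit 760) (nat_lit 1628640551)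 (nat_lit 730) (nat_lit 5) (nat_lit 739) (nat_lit 5) (nat_lit 740) (nat_lit 5) (nat_lit 537) (nat_lit 520) (nat_lit 503)) (XT.lf (nat_lit 0) (nat_lit 1127992021) (nat_lit 760) (nat_lit 1864650802) (nat_lit 76) (nat_lit 3655086003) (nat_lit 729) (nat_lit 5) (nat_lit 739) (nat_lit 5) (nat_lit 730) (nat_lit 5) (nat_lit 538) (nat_lit 520) (nat_lit 502))) (XT.nd (nat_lit 78) (nat_lit 0) (nat_lit 0) (XT.lf (nat_lit 0) (nat_lit 2015332894) (nat_lit 760) (nat_lit 1850999244) (nat_lit 836) (nat_lit 2804854961) (nat_lit 719) (nat_lit 5) (nat_lit 729) (nat_lit 5) (nat_lit 730) (nat_lit 5) (nat_lit 539) (nat_lit 520) (nat_lit 501)) (XT.lf (nat_lit 0) (nat_lit 5954831637) (nat_lit 760) (nat_lit 653384889) (nat_lit 836) (nat_lit 87928443) (nat_lit 719) (nat_lit 5) (nat_lit 729) (nat_lit 5) (nat_lit 730) (nat_lit 5) (nat_lit 540) (nat_lit 520) (nat_lit 500)))))) (XT.nd (nat_lit 546) (nat_lit 7068) (nat_lit 0) (XT.nd (nat_lit 234) (nat_lit 3268) (nat_lit 0) (XT.nd (nat_lit 78) (nat_lit 988) (nat_lit 0) (XT.lf (nat_lit 0) (nat_lit 2610301055) (nat_lit 912)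 (nat_lit 3493020246) (nat_lit 76) (nat_lit 618694865) (nat_lit 707) (nat_lit 5) (nat_lit 719) (nat_lit 5) (nat_lit 708) (nat_lit 5) (nat_lit 541) (nat_lit 520) (nat_lit 499)) (XT.nd (nat_lit 78) (nat_lit 76) (nat_lit 0) (XT.lf (nat_lit 0) (nat_lit 497604586) (nat_lit 912) (nat_lit 4814450897) (nat_lit 988) (nat_lit 1437328559) (nat_lit 695) (nat_lit 5) (nat_lit 707) (nat_lit 5) (nat_lit 708) (nat_lit 5) (nat_lit 542) (nat_lit 520) (nat_lit 498)) (XT.lf (nat_lit 0) (nat_lit 1235903390) (nat_lit 988) (nat_lit 2214935997) (nat_lit 76) (nat_lit 3327052057) (nat_lit 694) (nat_lit 5) (nat_lit 707) (nat_lit 5) (nat_lit 695) (nat_lit 5) (nat_lit 543) (nat_lit 520) (nat_lit 497)))) (XT.nd (nat_lit 156) (nat_lit 2280) (nat_lit 0) (XT.nd (nat_lit 78) (nat_lit 0) (nat_lit 0) (XT.lf (nat_lit 0) (nat_lit 1873618110) (nat_lit 988) (nat_lit 2021809164) (nat_lit 1064) (nat_lit 2912315552) (nat_lit 681) (nat_lit 5) (nat_lit 694) (nat_lit 5) (nat_lit 695) (nat_lit 5) (nat_lit 544) (nat_lit 520) (nat_lit 496)) (XT.lf (nat_lit 0) (nat_lit 6030177016) (nat_lit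 988) (nat_lit 533612674) (nat_lit 1064) (nat_lit 275293790) (nat_lit 681) (nat_lit 5) (nat_lit 694) (nat_lit 5) (nat_lit 695) (nat_lit 5) (nat_lit 545) (nat_lit 520) (nat_lit 495))) (XT.nd (nat_lit 78) (nat_lit 1140) (nat_lit 0) (XT.lf (nat_lit 0) (nat_lit 2353064371) (nat_lit 1140) (nat_lit 3494402232) (nat_lit 76) (nat_lit 1023870577) (nat_lit 666) (nat_lit 5) (nat_lit 681) (nat_lit 5) (nat_lit 667) (nat_lit 5) (nat_lit 546) (nat_lit 520) (nat_lit 494)) (XT.lf (nat_lit 0) (nat_lit 712609606) (nat_lit 1140) (nat_lit 4273834235) (nat_lit 1216) (nat_lit 1918637819) (nat_lit 651) (nat_lit 5) (nat_lit 666) (nat_lit 5) (nat_lit 667) (nat_lit 5) (nat_lit 547) (nat_lit 520) (nat_lit 493))))) (XT.nd (nat_lit 312) (nat_lit 4408) (nat_lit 0) (XT.nd (nat_lit 156) (nat_lit 1368) (nat_lit 0) (XT.nd (nat_lit 78) (nat_lit 1216) (nat_lit 0) (XT.lf (nat_lit 0) (nat_lit 689952464) (nat_lit 1216) (nat_lit 1937960048) (nat_lit 76) (nat_lit 4312166534) (nat_lit 650) (nat_lit 5) (nat_lit 666) (nat_lit 5) (nat_lit 651) (nat_lit 5) (nat_lit 548) (nat_lit 520)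 (nat_lit 492)) (XT.lf (nat_lit 0) (nat_lit 2375837804) (nat_lit 1216) (nat_lit 908725246) (nat_lit 1292) (nat_lit 3691773529) (nat_lit 634) (nat_lit 5) (nat_lit 650) (nat_lit 5) (nat_lit 651) (nat_lit 5) (nat_lit 549) (nat_lit 520) (nat_lit 491))) (XT.nd (nat_lit 78) (nat_lit 1368) (nat_lit 0) (XT.lf (nat_lit 0) (nat_lit 5894614637) (nat_lit 1292) (nat_lit 261594779) (nat_lit 76) (nat_lit 857843401) (nat_lit 634) (nat_lit 5) (nat_lit 651) (nat_lit 5) (nat_lit 635) (nat_lit 5) (nat_lit 550) (nat_lit 520) (nat_lit 490)) (XT.lf (nat_lit 0) (nat_lit 1463605748) (nat_lit 1368) (nat_lit 2894094677) (nat_lit 76) (nat_lit 2695052134) (nat_lit 616) (nat_lit 5) (nat_lit 634) (nat_lit 5) (nat_lit 617) (nat_lit 5) (nat_lit 551) (nat_lit 520) (nat_lit 489)))) (XT.nd (nat_lit 156) (nat_lit 3040) (nat_lit 0) (XT.nd (nat_lit 78) (nat_lit 0) (nat_lit 0) (XT.lf (nat_lit 0) (nat_lit 1546847795) (nat_lit 1368) (nat_lit 2494765200) (nat_lit 1444) (nat_lit 3051303748) (nat_lit 598) (nat_lit 5) (nat_lit 616) (nat_lit 5) (nat_lit 617) (nat_lit 5) (nat_lit 552)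 (nat_lit 520) (nat_lit 488)) (XT.lf (nat_lit 0) (nat_lit 6071448647) (nat_lit 1368) (nat_lit 566381561) (nat_lit 1444) (nat_lit 496725193) (nat_lit 598) (nat_lit 5) (nat_lit 616) (nat_lit 5) (nat_lit 617) (nat_lit 5) (nat_lit 553) (nat_lit 520) (nat_lit 487))) (XT.nd (nat_lit 78) (nat_lit 1520) (nat_lit 0) (XT.lf (nat_lit 0) (nat_lit 2061296212) (nat_lit 1520) (nat_lit 3689254497) (nat_lit 76) (nat_lit 1426606084) (nat_lit 578) (nat_lit 5) (nat_lit 598) (nat_lit 5) (nat_lit 579) (nat_lit 5) (nat_lit 554) (nat_lit 520) (nat_lit 486)) (XT.lf (nat_lit 0) (nat_lit 883367896) (nat_lit 1520) (nat_lit 3745833950) (nat_lit 1596) (nat_lit 2592039147) (nat_lit 558) (nat_lit 5) (nat_lit 578) (nat_lit 5) (nat_lit 579) (nat_lit 5) (nat_lit 555) (nat_lit 520) (nat_lit 485))))))))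
noncomputable def xc34 : XT := (XT.nd (nat_lit 2340) (nat_lit 7600) (nat_lit 0) (XT.nd (nat_lit 1170) (nat_lit 8284) (nat_lit 0) (XT.nd (nat_lit 546) (nat_lit 4712) (nat_lit 0) (XT.nd (nat_lit 234) (nat_lit 3724) (nat_lit 0) (XT.nd (nat_lit 78) (nat_lit 3344) (nat_lit 0) (XT.lf (nat_lit 0) (nat_lit 5552743005) (nat_lit 1520) (nat_lit 1669896210) (nat_lit 1596) (nat_lit 44088057) (nat_lit 558) (nat_lit 5) (nat_lit 578) (nat_lit 5) (nat_lit 579) (nat_lit 5) (nat_lit 556) (nat_lit 520) (nat_lit 484)) (XT.nd (nat_lit 78) (nat_lit 1672) (nat_lit 0) (XT.lf (nat_lit 0) (nat_lit 2493921259) (nat_lit 1672) (nat_lit 4336201857) (nat_lit 76) (nat_lit 483220004) (nat_lit 536) (nat_lit 5) (nat_lit 558) (nat_lit 5) (nat_lit 537) (nat_lit 5) (nat_lit 557) (nat_lit 520) (nat_lit 483)) (XT.lf (nat_lit 0) (nat_lit 372897890) (nat_lit 1672) (nat_lit 4685061958) (nat_lit 1748) (nat_lit 2303412063) (nat_lit 514) (nat_lit 5) (nat_lit 536) (nat_lit 5) (nat_lit 537) (nat_lit 5) (nat_lit 558) (nat_lit 520) (nat_lit 482)))) (XT.nd (nat_lit 156) (nat_lit 1900) (nat_lit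 0) (XT.nd (nat_lit 78) (nat_lit 1748) (nat_lit 0) (XT.lf (nat_lit 0) (nat_lit 239909649) (nat_lit 1748) (nat_lit 2222303461) (nat_lit 76) (nat_lit 4948508734) (nat_lit 513) (nat_lit 5) (nat_lit 536) (nat_lit 5) (nat_lit 514) (nat_lit 5) (nat_lit 559) (nat_lit 520) (nat_lit 481)) (XT.lf (nat_lit 0) (nat_lit 2613524345) (nat_lit 1748) (nat_lit 158835224) (nat_lit 1824) (nat_lit 4689016040) (nat_lit 490) (nat_lit 5) (nat_lit 513) (nat_lit 5) (nat_lit 514) (nat_lit 5) (nat_lit 560) (nat_lit 520) (nat_lit 480))) (XT.nd (nat_lit 78) (nat_lit 76) (nat_lit 0) (XT.lf (nat_lit 0) (nat_lit 3815488) (nat_lit 1824) (nat_lit 5333678479) (nat_lit 1900) (nat_lit 2175911140) (nat_lit 466) (nat_lit 5) (nat_lit 490) (nat_lit 5) (nat_lit 491) (nat_lit 5) (nat_lit 561) (nat_lit 520) (nat_lit 479)) (XT.lf (nat_lit 0) (nat_lit 369271070) (nat_lit 1900) (nat_lit 2597067469) (nat_lit 76) (nat_lit 4600351645) (nat_lit 465) (nat_lit 5) (nat_lit 490) (nat_lit 5) (nat_lit 466) (nat_lit 5) (nat_lit 562) (nat_lit 520) (nat_lit 478))))) (XT.nd (nat_lit 312) (nat_lit 1748)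 (nat_lit 0) (XT.nd (nat_lit 156) (nat_lit 1900) (nat_lit 0) (XT.nd (nat_lit 78) (nat_lit 0) (nat_lit 0) (XT.lf (nat_lit 0) (nat_lit 2385791642) (nat_lit 1064) (nat_lit 519964660) (nat_lit 1140) (nat_lit 4715609481) (nat_lit 451) (nat_lit 5) (nat_lit 465) (nat_lit 5) (nat_lit 466) (nat_lit 5) (nat_lit 563) (nat_lit 520) (nat_lit 477)) (XT.lf (nat_lit 0) (nat_lit 5477975351) (nat_lit 1140) (nat_lit 231630112) (nat_lit 76) (nat_lit 1967832460) (nat_lit 451) (nat_lit 5) (nat_lit 466) (nat_lit 5) (nat_lit 452) (nat_lit 5) (nat_lit 564) (nat_lit 520) (nat_lit 476))) (XT.nd (nat_lit 78) (nat_lit 912) (nat_lit 0) (XT.lf (nat_lit 0) (nat_lit 352837777) (nat_lit 988) (nat_lit 2848602839) (nat_lit 76) (nat_lit 4533333345) (nat_lit 438) (nat_lit 5) (nat_lit 451) (nat_lit 5) (nat_lit 439) (nat_lit 5) (nat_lit 565) (nat_lit 520) (nat_lit 475)) (XT.lf (nat_lit 0) (nat_lit 2286836842) (nat_lit 912) (nat_lit 612152898) (nat_lit 988) (nat_lit 4894534016) (nat_lit 426) (nat_lit 5) (nat_lit 438) (nat_lit 5) (nat_lit 439) (nat_lit 5) (nat_lit 566) (nat_lit 520)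 (nat_lit 474)))) (XT.nd (nat_lit 156) (nat_lit 836) (nat_lit 0) (XT.nd (nat_lit 78) (nat_lit 912) (nat_lit 0) (XT.lf (nat_lit 0) (nat_lit 5484867888) (nat_lit 988) (nat_lit 348162906) (nat_lit 76) (nat_lit 2020644561) (nat_lit 426) (nat_lit 5) (nat_lit 439) (nat_lit 5) (nat_lit 427) (nat_lit 5) (nat_lit 567) (nat_lit 520) (nat_lit 473)) (XT.lf (nat_lit 0) (nat_lit 197969308) (nat_lit 912) (nat_lit 2986844411) (nat_lit 76) (nat_lit 4730326971) (nat_lit 414) (nat_lit 5) (nat_lit 426) (nat_lit 5) (nat_lit 415) (nat_lit 5) (nat_lit 568) (nat_lit 520) (nat_lit 472))) (XT.nd (nat_lit 78) (nat_lit 0) (nat_lit 0) (XT.lf (nat_lit 0) (nat_lit 2306988823) (nat_lit 836) (nat_lit 452246494) (nat_lit 912) (nat_lit 5218792125) (nat_lit 403) (nat_lit 5) (nat_lit 414) (nat_lit 5) (nat_lit 415) (nat_lit 5) (nat_lit 569) (nat_lit 520) (nat_lit 471)) (XT.lf (nat_lit 0) (nat_lit 5365102682) (nat_lit 912) (nat_lit 355188516) (nat_lit 76) (nat_lit 2322015866) (nat_lit 403) (nat_lit 5) (nat_lit 415) (nat_lit 5) (nat_lit 404) (nat_lit 5) (nat_lit 570) (nat_lit 520)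 (nat_lit 470)))))) (XT.nd (nat_lit 546) (nat_lit 4256) (nat_lit 0) (XT.nd (nat_lit 234) (nat_lit 2280) (nat_lit 0) (XT.nd (nat_lit 78) (nat_lit 912) (nat_lit 0) (XT.lf (nat_lit 0) (nat_lit 5086268640) (nat_lit 836) (nat_lit 2931699754) (nat_lit 912) (nat_lit 90008867) (nat_lit 392) (nat_lit 5) (nat_lit 403) (nat_lit 5) (nat_lit 404) (nat_lit 5) (nat_lit 571) (nat_lit 520) (nat_lit 469)) (XT.nd (nat_lit 78) (nat_lit 0) (nat_lit 0) (XT.lf (nat_lit 0) (nat_lit 2437179426) (nat_lit 836) (nat_lit 55655668) (nat_lit 912) (nat_lit 5682250599) (nat_lit 380) (nat_lit 5) (nat_lit 391) (nat_lit 5) (nat_lit 392) (nat_lit 5) (nat_lit 572) (nat_lit 520) (nat_lit 468)) (XT.lf (nat_lit 0) (nat_lit 5124827401) (nat_lit 912) (nat_lit 261507058) (nat_lit 76) (nat_lit 2857218454) (nat_lit 380) (nat_lit 5) (nat_lit 392) (nat_lit 5) (nat_lit 381) (nat_lit 5) (nat_lit 573) (nat_lit 520) (nat_lit 467)))) (XT.nd (nat_lit 156) (nat_lit 684) (nat_lit 0) (XT.nd (nat_lit 78) (nat_lit 836) (nat_lit 0) (XT.lf (nat_lit 0) (nat_lit 5349936610) (nat_lit 760) (nat_lit 2455017762)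 (nat_lit 836) (nat_lit 508527615) (nat_lit 370) (nat_lit 5) (nat_lit 380) (nat_lit 5) (nat_lit 381) (nat_lit 5) (nat_lit 574) (nat_lit 520) (nat_lit 466)) (XT.lf (nat_lit 0) (nat_lit 2108999719) (nat_lit 836) (nat_lit 5719725298) (nat_lit 76) (nat_lit 556139770) (nat_lit 359) (nat_lit 5) (nat_lit 370) (nat_lit 5) (nat_lit 360) (nat_lit 5) (nat_lit 575) (nat_lit 520) (nat_lit 465))) (XT.nd (nat_lit 78) (nat_lit 684) (nat_lit 0) (XT.lf (nat_lit 0) (nat_lit 4769422825) (nat_lit 836) (nat_lit 75433000) (nat_lit 76) (nat_lit 3612807369) (nat_lit 359) (nat_lit 5) (nat_lit 370) (nat_lit 5) (nat_lit 360) (nat_lit 5) (nat_lit 576) (nat_lit 520) (nat_lit 464)) (XT.lf (nat_lit 0) (nat_lit 5712581027) (nat_lit 684) (nat_lit 1769397541) (nat_lit 760) (nat_lit 1049962739) (nat_lit 350) (nat_lit 5) (nat_lit 359) (nat_lit 5) (nat_lit 360) (nat_lit 5) (nat_lit 577) (nat_lit 520) (nat_lit 463))))) (XT.nd (nat_lit 312) (nat_lit 1976) (nat_lit 0) (XT.nd (nat_lit 156) (nat_lit 760) (nat_lit 0) (XT.nd (nat_lit 78) (nat_lit 684) (nat_lit 0) (XT.lf (nat_lit 0)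 (nat_lit 1610592992) (nat_lit 836) (nat_lit 5622905504) (nat_lit 76) (nat_lit 1374174809) (nat_lit 339) (nat_lit 5) (nat_lit 350) (nat_lit 5) (nat_lit 340) (nat_lit 5) (nat_lit 578) (nat_lit 520) (nat_lit 462)) (XT.lf (nat_lit 0) (nat_lit 197730420) (nat_lit 684) (nat_lit 4107092520) (nat_lit 760) (nat_lit 4380069850) (nat_lit 330) (nat_lit 5) (nat_lit 339) (nat_lit 5) (nat_lit 340) (nat_lit 5) (nat_lit 579) (nat_lit 520) (nat_lit 461))) (XT.nd (nat_lit 78) (nat_lit 760) (nat_lit 0) (XT.lf (nat_lit 0) (nat_lit 6166572885) (nat_lit 684) (nat_lit 887007456) (nat_lit 760) (nat_lit 1710065519) (nat_lit 330) (nat_lit 5) (nat_lit 339) (nat_lit 5) (nat_lit 340) (nat_lit 5) (nat_lit 580) (nat_lit 520) (nat_lit 460)) (XT.lf (nat_lit 0) (nat_lit 1001257681) (nat_lit 760) (nat_lit 5454991374) (nat_lit 76) (nat_lit 2387571146) (nat_lit 320) (nat_lit 5) (nat_lit 330) (nat_lit 5) (nat_lit 321) (nat_lit 5) (nat_lit 581) (nat_lit 520) (nat_lit 459)))) (XT.nd (nat_lit 156) (nat_lit 1368) (nat_lit 0) (XT.nd (nat_lit 78) (nat_lit 0) (nat_lit 0) (XT.lf (nat_lit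 0) (nat_lit 549870416) (nat_lit 608) (nat_lit 3184827142) (nat_lit 684) (nat_lit 5190860575) (nat_lit 312) (nat_lit 5) (nat_lit 320) (nat_lit 5) (nat_lit 321) (nat_lit 5) (nat_lit 582) (nat_lit 520) (nat_lit 458)) (XT.lf (nat_lit 0) (nat_lit 6524790144) (nat_lit 684) (nat_lit 2305456127) (nat_lit 76) (nat_lit 178646769) (nat_lit 312) (nat_lit 5) (nat_lit 321) (nat_lit 5) (nat_lit 313) (nat_lit 5) (nat_lit 583) (nat_lit 520) (nat_lit 457))) (XT.nd (nat_lit 78) (nat_lit 608) (nat_lit 0) (XT.lf (nat_lit 0) (nat_lit 284313721) (nat_lit 760) (nat_lit 5223598332) (nat_lit 76) (nat_lit 3585725395) (nat_lit 302) (nat_lit 5) (nat_lit 312) (nat_lit 5) (nat_lit 303) (nat_lit 5) (nat_lit 584) (nat_lit 520) (nat_lit 456)) (XT.lf (nat_lit 0) (nat_lit 972630349) (nat_lit 608) (nat_lit 2089151081) (nat_lit 684) (nat_lit 6118229804) (nat_lit 294) (nat_lit 5) (nat_lit 302) (nat_lit 5) (nat_lit 303) (nat_lit 5) (nat_lit 585) (nat_lit 520) (nat_lit 455))))))) (XT.nd (nat_lit 1170) (nat_lit 1900) (nat_lit 0) (XT.nd (nat_lit 546) (nat_lit 3192) (nat_lit 0) (XT.nd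 (nat_lit 234) (nat_lit 1216) (nat_lit 0) (XT.nd (nat_lit 78) (nat_lit 1292) (nat_lit 0) (XT.lf (nat_lit 0) (nat_lit 5904527292) (nat_lit 684) (nat_lit 1957572878) (nat_lit 76) (nat_lit 1405819502) (nat_lit 294) (nat_lit 5) (nat_lit 303) (nat_lit 5) (nat_lit 295) (nat_lit 5) (nat_lit 586) (nat_lit 520) (nat_lit 454)) (XT.nd (nat_lit 78) (nat_lit 684) (nat_lit 0) (XT.lf (nat_lit 0) (nat_lit 4417763543) (nat_lit 608) (nat_lit 4394929013) (nat_lit 684) (nat_lit 544724151) (nat_lit 286) (nat_lit 5) (nat_lit 294) (nat_lit 5) (nat_lit 295) (nat_lit 5) (nat_lit 587) (nat_lit 520) (nat_lit 453)) (XT.lf (nat_lit 0) (nat_lit 1458881528) (nat_lit 608) (nat_lit 829775498) (nat_lit 684) (nat_lit 7159967665) (nat_lit 277) (nat_lit 5) (nat_lit 285) (nat_lit 5) (nat_lit 286) (nat_lit 5) (nat_lit 588) (nat_lit 520) (nat_lit 452)))) (XT.nd (nat_lit 156) (nat_lit 608) (nat_lit 0) (XT.nd (nat_lit 78) (nat_lit 608) (nat_lit 0) (XT.lf (nat_lit 0) (nat_lit 5189530926) (nat_lit 684) (nat_lit 1554751604) (nat_lit 76) (nat_lit 2796941531) (nat_lit 277) (nat_lit 5)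 (nat_lit 286) (nat_lit 5) (nat_lit 278) (nat_lit 5) (nat_lit 589) (nat_lit 520) (nat_lit 451)) (XT.lf (nat_lit 0) (nat_lit 5026174417) (nat_lit 608) (nat_lit 3127554884) (nat_lit 684) (nat_lit 1481841565) (nat_lit 269) (nat_lit 5) (nat_lit 277) (nat_lit 5) (nat_lit 278) (nat_lit 5) (nat_lit 590) (nat_lit 520) (nat_lit 450))) (XT.nd (nat_lit 78) (nat_lit 0) (nat_lit 0) (XT.lf (nat_lit 0) (nat_lit 1421069864) (nat_lit 608) (nat_lit 7733940532) (nat_lit 76) (nat_lit 576715653) (nat_lit 261) (nat_lit 5) (nat_lit 269) (nat_lit 5) (nat_lit 262) (nat_lit 5) (nat_lit 591) (nat_lit 520) (nat_lit 449)) (XT.lf (nat_lit 0) (nat_lit 4381683205) (nat_lit 608) (nat_lit 1103957425) (nat_lit 76) (nat_lit 4343579590) (nat_lit 261) (nat_lit 5) (nat_lit 269) (nat_lit 5) (nat_lit 262) (nat_lit 5) (nat_lit 592) (nat_lit 520) (nat_lit 448))))) (XT.nd (nat_lit 312) (nat_lit 1520) (nat_lit 0) (XT.nd (nat_lit 156) (nat_lit 532) (nat_lit 0) (XT.nd (nat_lit 78) (nat_lit 608) (nat_lit 0) (XT.lf (nat_lit 0) (nat_lit 5690478784) (nat_lit 532) (nat_lit 1716229715) (nat_lit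 608) (nat_lit 2521853248) (nat_lit 254) (nat_lit 5) (nat_lit 261) (nat_lit 5) (nat_lit 262) (nat_lit 5) (nat_lit 593) (nat_lit 520) (nat_lit 447)) (XT.lf (nat_lit 0) (nat_lit 462898132) (nat_lit 608) (nat_lit 7449826283) (nat_lit 76) (nat_lit 2116974708) (nat_lit 246) (nat_lit 5) (nat_lit 254) (nat_lit 5) (nat_lit 247) (nat_lit 5) (nat_lit 594) (nat_lit 520) (nat_lit 446))) (XT.nd (nat_lit 78) (nat_lit 532) (nat_lit 0) (XT.lf (nat_lit 0) (nat_lit 3482262041) (nat_lit 608) (nat_lit 612098272) (nat_lit 76) (nat_lit 6037993224) (nat_lit 246) (nat_lit 5) (nat_lit 254) (nat_lit 5) (nat_lit 247) (nat_lit 5) (nat_lit 595) (nat_lit 520) (nat_lit 445)) (XT.lf (nat_lit 0) (nat_lit 6404032379) (nat_lit 532) (nat_lit 168834270) (nat_lit 608) (nat_lit 3663978676) (nat_lit 239) (nat_lit 5) (nat_lit 246) (nat_lit 5) (nat_lit 247) (nat_lit 5) (nat_lit 596) (nat_lit 520) (nat_lit 444)))) (XT.nd (nat_lit 156) (nat_lit 988) (nat_lit 0) (XT.nd (nat_lit 78) (nat_lit 76) (nat_lit 0) (XT.lf (nat_lit 0) (nat_lit 3199880225) (nat_lit 456) (nat_lit 6544742058) (nat_lit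 532) (nat_lit 598419213) (nat_lit 233) (nat_lit 5) (nat_lit 239) (nat_lit 5) (nat_lit 240) (nat_lit 5) (nat_lit 597) (nat_lit 520) (nat_lit 443)) (XT.lf (nat_lit 0) (nat_lit 2491948581) (nat_lit 532) (nat_lit 86091235) (nat_lit 76) (nat_lit 7873061561) (nat_lit 232) (nat_lit 5) (nat_lit 239) (nat_lit 5) (nat_lit 233) (nat_lit 5) (nat_lit 598) (nat_lit 520) (nat_lit 442))) (XT.nd (nat_lit 78) (nat_lit 456) (nat_lit 0) (XT.lf (nat_lit 0) (nat_lit 5662638321) (nat_lit 608) (nat_lit 3410515737) (nat_lit 76) (nat_lit 1487559987) (nat_lit 225) (nat_lit 5) (nat_lit 233) (nat_lit 5) (nat_lit 226) (nat_lit 5) (nat_lit 599) (nat_lit 520) (nat_lit 441)) (XT.lf (nat_lit 0) (nat_lit 3851186154) (nat_lit 456) (nat_lit 5058693822) (nat_lit 532) (nat_lit 1762377454) (nat_lit 219) (nat_lit 5) (nat_lit 225) (nat_lit 5) (nat_lit 226) (nat_lit 5) (nat_lit 600) (nat_lit 520) (nat_lit 440)))))) (XT.nd (nat_lit 75036) (nat_lit 0) (nat_lit 43548) (XT.nd (nat_lit 234) (nat_lit 912) (nat_lit 0) (XT.nd (nat_lit 78) (nat_lit 456) (nat_lit 0) (XT.lf (nat_lit 0) (nat_lit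 473276385) (nat_lit 456) (nat_lit 940626818) (nat_lit 532) (nat_lit 9372009141) (nat_lit 212) (nat_lit 5) (nat_lit 218) (nat_lit 5) (nat_lit 219) (nat_lit 5) (nat_lit 601) (nat_lit 520) (nat_lit 439)) (XT.nd (nat_lit 78) (nat_lit 456) (nat_lit 0) (XT.lf (nat_lit 0) (nat_lit 4668186523) (nat_lit 532) (nat_lit 2970547749) (nat_lit 76) (nat_lit 3262112748) (nat_lit 212) (nat_lit 5) (nat_lit 219) (nat_lit 5) (nat_lit 213) (nat_lit 5) (nat_lit 602) (nat_lit 520) (nat_lit 438)) (XT.lf (nat_lit 0) (nat_lit 4529940392) (nat_lit 456) (nat_lit 3464640437) (nat_lit 532) (nat_lit 3023360186) (nat_lit 206) (nat_lit 5) (nat_lit 212) (nat_lit 5) (nat_lit 213) (nat_lit 5) (nat_lit 603) (nat_lit 520) (nat_lit 437)))) (XT.nd (nat_lit 156) (nat_lit 380) (nat_lit 0) (XT.nd (nat_lit 78) (nat_lit 0) (nat_lit 0) (XT.lf (nat_lit 0) (nat_lit 250495306) (nat_lit 532) (nat_lit 10088563696) (nat_lit 76) (nat_lit 798213506) (nat_lit 199) (nat_lit 5) (nat_lit 206) (nat_lit 5) (nat_lit 200) (nat_lit 5) (nat_lit 604) (nat_lit 520) (nat_lit 436)) (XT.lf (nat_lit 0) (nat_lit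 3587846377) (nat_lit 532) (nat_lit 2519210792) (nat_lit 76) (nat_lit 5150764815) (nat_lit 199) (nat_lit 5) (nat_lit 206) (nat_lit 5) (nat_lit 200) (nat_lit 5) (nat_lit 605) (nat_lit 520) (nat_lit 435))) (XT.nd (nat_lit 74568) (nat_lit 0) (nat_lit 44688) (XT.lf (nat_lit 0) (nat_lit 5228995947) (nat_lit 380) (nat_lit 1769146229) (nat_lit 456) (nat_lit 4382517366) (nat_lit 194) (nat_lit 5) (nat_lit 199) (nat_lit 5) (nat_lit 200) (nat_lit 5) (nat_lit 606) (nat_lit 520) (nat_lit 434)) (XT.lf (nat_lit 0) (nat_lit 1580090461) (nat_lit 0) (nat_lit 1580090461) (nat_lit 76) (nat_lit 61886423) (nat_lit 782) (nat_lit 5) (nat_lit 782) (nat_lit 3) (nat_lit 783) (nat_lit 0) (nat_lit 521) (nat_lit 521) (nat_lit 518))))) (XT.nd (nat_lit 312) (nat_lit 684) (nat_lit 0) (XT.nd (nat_lit 156) (nat_lit 228) (nat_lit 0) (XT.nd (nat_lit 78) (nat_lit 0) (nat_lit 0) (XT.lf (nat_lit 0) (nat_lit 2954555344) (nat_lit 228) (nat_lit 80432052) (nat_lit 228) (nat_lit 3411686855) (nat_lit 779) (nat_lit 3) (nat_lit 782) (nat_lit 3) (nat_lit 782) (nat_lit 5) (nat_lit 522) (nat_lit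 521) (nat_lit 517)) (XT.lf (nat_lit 76) (nat_lit 3186958317) (nat_lit 0) (nat_lit 2845792744) (nat_lit 228) (nat_lit 417707445) (nat_lit 780) (nat_lit 5) (nat_lit 779) (nat_lit 3) (nat_lit 782) (nat_lit 5) (nat_lit 523) (nat_lit 521) (nat_lit 516))) (XT.nd (nat_lit 78) (nat_lit 0) (nat_lit 0) (XT.lf (nat_lit 76) (nat_lit 6937933) (nat_lit 0) (nat_lit 2596240345) (nat_lit 304) (nat_lit 3852383552) (nat_lit 777) (nat_lit 5) (nat_lit 776) (nat_lit 5) (nat_lit 780) (nat_lit 5) (nat_lit 524) (nat_lit 521) (nat_lit 515)) (XT.lf (nat_lit 76) (nat_lit 3342515273) (nat_lit 0) (nat_lit 2279604355) (nat_lit 304) (nat_lit 839736637) (nat_lit 777) (nat_lit 5) (nat_lit 776) (nat_lit 5) (nat_lit 780) (nat_lit 5) (nat_lit 525) (nat_lit 521) (nat_lit 514)))) (XT.nd (nat_lit 156) (nat_lit 380) (nat_lit 0) (XT.nd (nat_lit 78) (nat_lit 0) (nat_lit 0) (XT.lf (nat_lit 76) (nat_lit 223026804) (nat_lit 0) (nat_lit 1904663280) (nat_lit 380) (nat_lit 4341828759) (nat_lit 773) (nat_lit 5) (nat_lit 772) (nat_lit 5) (nat_lit 777) (nat_lit 5) (nat_lit 526) (nat_lit 521)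 (nat_lit 513)) (XT.lf (nat_lit 76) (nat_lit 3627239579) (nat_lit 0) (nat_lit 1460506989) (nat_lit 380) (nat_lit 1390594958) (nat_lit 773) (nat_lit 5) (nat_lit 772) (nat_lit 5) (nat_lit 777) (nat_lit 5) (nat_lit 527) (nat_lit 521) (nat_lit 512))) (XT.nd (nat_lit 78) (nat_lit 0) (nat_lit 0) (XT.lf (nat_lit 76) (nat_lit 567275925) (nat_lit 0) (nat_lit 959441152) (nat_lit 456) (nat_lit 4961855399) (nat_lit 768) (nat_lit 5) (nat_lit 767) (nat_lit 5) (nat_lit 773) (nat_lit 5) (nat_lit 528) (nat_lit 521) (nat_lit 511)) (XT.lf (nat_lit 76) (nat_lit 4041768442) (nat_lit 0) (nat_lit 386896958) (nat_lit 456) (nat_lit 2071268497) (nat_lit 768) (nat_lit 5) (nat_lit 767) (nat_lit 5) (nat_lit 773) (nat_lit 5) (nat_lit 529) (nat_lit 521) (nat_lit 510))))))))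
noncomputable def xc35 : XT := (XT.nd (nat_lit 2340) (nat_lit 17936) (nat_lit 0) (XT.nd (nat_lit 1170) (nat_lit 12768) (nat_lit 0) (XT.nd (nat_lit 546) (nat_lit 4408) (nat_lit 0) (XT.nd (nat_lit 234) (nat_lit 1292) (nat_lit 0) (XT.nd (nat_lit 78) (nat_lit 456) (nat_lit 0) (XT.lf (nat_lit 0) (nat_lit 800734346) (nat_lit 456) (nat_lit 5473867176) (nat_lit 76) (nat_lit 238112552) (nat_lit 762) (nat_lit 5) (nat_lit 768) (nat_lit 5) (nat_lit 763) (nat_lit 5) (nat_lit 530) (nat_lit 521) (nat_lit 509)) (XT.nd (nat_lit 78) (nat_lit 456) (nat_lit 0) (XT.lf (nat_lit 0) (nat_lit 3649787061) (nat_lit 456) (nat_lit 1945794472) (nat_lit 76) (nat_lit 930955053) (nat_lit 762) (nat_lit 5) (nat_lit 768) (nat_lit 5) (nat_lit 763) (nat_lit 5) (nat_lit 531) (nat_lit 521) (nat_lit 508)) (XT.lf (nat_lit 0) (nat_lit 1631982025) (nat_lit 456) (nat_lit 4863994632) (nat_lit 532) (nat_lit 45863063) (nat_lit 756) (nat_lit 5) (nat_lit 762) (nat_lit 5) (nat_lit 763) (nat_lit 5) (nat_lit 532) (nat_lit 521) (nat_lit 507)))) (XT.nd (nat_lit 156) (nat_lit 684) (nat_lit 0)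 (XT.nd (nat_lit 78) (nat_lit 532) (nat_lit 0) (XT.lf (nat_lit 0) (nat_lit 2747718580) (nat_lit 532) (nat_lit 1310952197) (nat_lit 76) (nat_lit 2499549229) (nat_lit 755) (nat_lit 5) (nat_lit 762) (nat_lit 5) (nat_lit 756) (nat_lit 5) (nat_lit 533) (nat_lit 521) (nat_lit 506)) (XT.lf (nat_lit 0) (nat_lit 2348350303) (nat_lit 532) (nat_lit 3195025961) (nat_lit 608) (nat_lit 1032616069) (nat_lit 748) (nat_lit 5) (nat_lit 755) (nat_lit 5) (nat_lit 756) (nat_lit 5) (nat_lit 534) (nat_lit 521) (nat_lit 505))) (XT.nd (nat_lit 78) (nat_lit 608) (nat_lit 0) (XT.lf (nat_lit 0) (nat_lit 1718252782) (nat_lit 608) (nat_lit 549792808) (nat_lit 76) (nat_lit 4327026397) (nat_lit 747) (nat_lit 5) (nat_lit 755) (nat_lit 5) (nat_lit 748) (nat_lit 5) (nat_lit 535) (nat_lit 521) (nat_lit 504)) (XT.lf (nat_lit 0) (nat_lit 3194805351) (nat_lit 608) (nat_lit 1269780806) (nat_lit 684) (nat_lit 2150731560) (nat_lit 739) (nat_lit 5) (nat_lit 747) (nat_lit 5) (nat_lit 748) (nat_lit 5) (nat_lit 536) (nat_lit 521) (nat_lit 503))))) (XT.nd (nat_lit 312) (nat_lit 2812)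 (nat_lit 0) (XT.nd (nat_lit 156) (nat_lit 836) (nat_lit 0) (XT.nd (nat_lit 78) (nat_lit 0) (nat_lit 0) (XT.lf (nat_lit 0) (nat_lit 343771740) (nat_lit 684) (nat_lit 217902929) (nat_lit 760) (nat_lit 6075416965) (nat_lit 729) (nat_lit 5) (nat_lit 738) (nat_lit 5) (nat_lit 739) (nat_lit 5) (nat_lit 537) (nat_lit 521) (nat_lit 502)) (XT.lf (nat_lit 0) (nat_lit 3263491533) (nat_lit 760) (nat_lit 2492728678) (nat_lit 76) (nat_lit 903523377) (nat_lit 729) (nat_lit 5) (nat_lit 739) (nat_lit 5) (nat_lit 730) (nat_lit 5) (nat_lit 538) (nat_lit 521) (nat_lit 501))) (XT.nd (nat_lit 78) (nat_lit 76) (nat_lit 0) (XT.lf (nat_lit 0) (nat_lit 1357442620) (nat_lit 760) (nat_lit 4608704800) (nat_lit 836) (nat_lit 717771086) (nat_lit 719) (nat_lit 5) (nat_lit 729) (nat_lit 5) (nat_lit 730) (nat_lit 5) (nat_lit 539) (nat_lit 521) (nat_lit 500)) (XT.lf (nat_lit 0) (nat_lit 1941794956) (nat_lit 836) (nat_lit 1446376233) (nat_lit 76) (nat_lit 3321071259) (nat_lit 718) (nat_lit 5) (nat_lit 729) (nat_lit 5) (nat_lit 719) (nat_lit 5) (nat_lit 540) (nat_lit 521) (nat_lit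 499)))) (XT.nd (nat_lit 156) (nat_lit 1900) (nat_lit 0) (XT.nd (nat_lit 78) (nat_lit 76) (nat_lit 0) (XT.lf (nat_lit 0) (nat_lit 2496816213) (nat_lit 836) (nat_lit 2102673352) (nat_lit 912) (nat_lit 2136403085) (nat_lit 707) (nat_lit 5) (nat_lit 718) (nat_lit 5) (nat_lit 719) (nat_lit 5) (nat_lit 541) (nat_lit 521) (nat_lit 498)) (XT.lf (nat_lit 0) (nat_lit 488710653) (nat_lit 912) (nat_lit 271061001) (nat_lit 76) (nat_lit 6004266037) (nat_lit 706) (nat_lit 5) (nat_lit 718) (nat_lit 5) (nat_lit 707) (nat_lit 5) (nat_lit 542) (nat_lit 521) (nat_lit 497))) (XT.nd (nat_lit 78) (nat_lit 988) (nat_lit 0) (XT.lf (nat_lit 0) (nat_lit 3106606487) (nat_lit 988) (nat_lit 3028102440) (nat_lit 76) (nat_lit 658381858) (nat_lit 694) (nat_lit 5) (nat_lit 707) (nat_lit 5) (nat_lit 695) (nat_lit 5) (nat_lit 543) (nat_lit 521) (nat_lit 496)) (XT.lf (nat_lit 0) (nat_lit 1027966734) (nat_lit 988) (nat_lit 4703499336) (nat_lit 1064) (nat_lit 1092171959) (nat_lit 681) (nat_lit 5) (nat_lit 694) (nat_lit 5) (nat_lit 695) (nat_lit 5) (nat_lit 544) (nat_lit 521)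 (nat_lit 495)))))) (XT.nd (nat_lit 546) (nat_lit 7828) (nat_lit 0) (XT.nd (nat_lit 234) (nat_lit 3800) (nat_lit 0) (XT.nd (nat_lit 78) (nat_lit 1064) (nat_lit 0) (XT.lf (nat_lit 0) (nat_lit 1495656270) (nat_lit 1064) (nat_lit 1702123521) (nat_lit 76) (nat_lit 3657579417) (nat_lit 680) (nat_lit 5) (nat_lit 694) (nat_lit 5) (nat_lit 681) (nat_lit 5) (nat_lit 545) (nat_lit 521) (nat_lit 494)) (XT.nd (nat_lit 78) (nat_lit 0) (nat_lit 0) (XT.lf (nat_lit 0) (nat_lit 2455409158) (nat_lit 1064) (nat_lit 1623865745) (nat_lit 1140) (nat_lit 2809127266) (nat_lit 666) (nat_lit 5) (nat_lit 680) (nat_lit 5) (nat_lit 681) (nat_lit 5) (nat_lit 546) (nat_lit 521) (nat_lit 493)) (XT.lf (nat_lit 0) (nat_lit 6669583123) (nat_lit 1140) (nat_lit 246466252) (nat_lit 76) (nat_lit 6961080) (nat_lit 666) (nat_lit 5) (nat_lit 681) (nat_lit 5) (nat_lit 667) (nat_lit 5) (nat_lit 547) (nat_lit 521) (nat_lit 492)))) (XT.nd (nat_lit 156) (nat_lit 1368) (nat_lit 0) (XT.nd (nat_lit 78) (nat_lit 1216) (nat_lit 0) (XT.lf (nat_lit 0) (nat_lit 2304012737) (nat_lit 1216) (nat_lit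 2950983216) (nat_lit 76) (nat_lit 1703384158) (nat_lit 650) (nat_lit 5) (nat_lit 666) (nat_lit 5) (nat_lit 651) (nat_lit 5) (nat_lit 548) (nat_lit 521) (nat_lit 491)) (XT.lf (nat_lit 0) (nat_lit 1327586471) (nat_lit 1216) (nat_lit 3537095171) (nat_lit 1292) (nat_lit 2130637077) (nat_lit 634) (nat_lit 5) (nat_lit 650) (nat_lit 5) (nat_lit 651) (nat_lit 5) (nat_lit 549) (nat_lit 521) (nat_lit 490))) (XT.nd (nat_lit 78) (nat_lit 1292) (nat_lit 0) (XT.lf (nat_lit 0) (nat_lit 403302754) (nat_lit 1292) (nat_lit 1347713741) (nat_lit 76) (nat_lit 5282615314) (nat_lit 633) (nat_lit 5) (nat_lit 650) (nat_lit 5) (nat_lit 634) (nat_lit 5) (nat_lit 550) (nat_lit 521) (nat_lit 489)) (XT.lf (nat_lit 0) (nat_lit 2926602201) (nat_lit 1368) (nat_lit 4032342665) (nat_lit 76) (nat_lit 114144694) (nat_lit 616) (nat_lit 5) (nat_lit 634) (nat_lit 5) (nat_lit 617) (nat_lit 5) (nat_lit 551) (nat_lit 521) (nat_lit 488))))) (XT.nd (nat_lit 312) (nat_lit 4940) (nat_lit 0) (XT.nd (nat_lit 156) (nat_lit 1444) (nat_lit 0) (XT.nd (nat_lit 78) (nat_lit 76) (nat_lit 0) (XT.lf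 (nat_lit 0) (nat_lit 371497503) (nat_lit 1368) (nat_lit 5099499175) (nat_lit 1444) (nat_lit 1642931393) (nat_lit 598) (nat_lit 5) (nat_lit 616) (nat_lit 5) (nat_lit 617) (nat_lit 5) (nat_lit 552) (nat_lit 521) (nat_lit 487)) (XT.lf (nat_lit 0) (nat_lit 873907068) (nat_lit 1444) (nat_lit 2287276729) (nat_lit 76) (nat_lit 3994782217) (nat_lit 597) (nat_lit 5) (nat_lit 616) (nat_lit 5) (nat_lit 598) (nat_lit 5) (nat_lit 553) (nat_lit 521) (nat_lit 486))) (XT.nd (nat_lit 78) (nat_lit 0) (nat_lit 0) (XT.lf (nat_lit 0) (nat_lit 2232023768) (nat_lit 1444) (nat_lit 1150510233) (nat_lit 1520) (nat_lit 3816828455) (nat_lit 578) (nat_lit 5) (nat_lit 597) (nat_lit 5) (nat_lit 598) (nat_lit 5) (nat_lit 554) (nat_lit 521) (nat_lit 485)) (XT.lf (nat_lit 0) (nat_lit 5912336855) (nat_lit 1520) (nat_lit 420674615) (nat_lit 76) (nat_lit 911199156) (nat_lit 578) (nat_lit 5) (nat_lit 598) (nat_lit 5) (nat_lit 579) (nat_lit 5) (nat_lit 555) (nat_lit 521) (nat_lit 484)))) (XT.nd (nat_lit 156) (nat_lit 1748) (nat_lit 0) (XT.nd (nat_lit 78) (nat_lit 1596) (nat_lit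 0) (XT.lf (nat_lit 0) (nat_lit 1172627690) (nat_lit 1596) (nat_lit 3076548811) (nat_lit 76) (nat_lit 3040914344) (nat_lit 557) (nat_lit 5) (nat_lit 578) (nat_lit 5) (nat_lit 558) (nat_lit 5) (nat_lit 556) (nat_lit 521) (nat_lit 483)) (XT.lf (nat_lit 0) (nat_lit 1577537240) (nat_lit 1596) (nat_lit 2096004224) (nat_lit 1672) (nat_lit 3663891654) (nat_lit 536) (nat_lit 5) (nat_lit 557) (nat_lit 5) (nat_lit 558) (nat_lit 5) (nat_lit 557) (nat_lit 521) (nat_lit 482))) (XT.nd (nat_lit 78) (nat_lit 1748) (nat_lit 0) (XT.lf (nat_lit 0) (nat_lit 6197671908) (nat_lit 1672) (nat_lit 1064028810) (nat_lit 76) (nat_lit 124561124) (nat_lit 536) (nat_lit 5) (nat_lit 558) (nat_lit 5) (nat_lit 537) (nat_lit 5) (nat_lit 558) (nat_lit 521) (nat_lit 481)) (XT.lf (nat_lit 0) (nat_lit 1309354679) (nat_lit 1748) (nat_lit 3727715366) (nat_lit 76) (nat_lit 2399013786) (nat_lit 513) (nat_lit 5) (nat_lit 536) (nat_lit 5) (nat_lit 514) (nat_lit 5) (nat_lit 559) (nat_lit 521) (nat_lit 480))))))) (XT.nd (nat_lit 1170) (nat_lit 7068) (nat_lit 0) (XT.nd (nat_lit 546) (nat_lit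 4256) (nat_lit 0) (XT.nd (nat_lit 234) (nat_lit 2964) (nat_lit 0) (XT.nd (nat_lit 78) (nat_lit 1900) (nat_lit 0) (XT.lf (nat_lit 0) (nat_lit 1066128774) (nat_lit 1748) (nat_lit 2742384541) (nat_lit 1824) (nat_lit 3678891775) (nat_lit 490) (nat_lit 5) (nat_lit 513) (nat_lit 5) (nat_lit 514) (nat_lit 5) (nat_lit 560) (nat_lit 521) (nat_lit 479)) (XT.nd (nat_lit 78) (nat_lit 1900) (nat_lit 0) (XT.lf (nat_lit 0) (nat_lit 5962855825) (nat_lit 1748) (nat_lit 373498287) (nat_lit 1824) (nat_lit 1203827982) (nat_lit 490) (nat_lit 5) (nat_lit 513) (nat_lit 5) (nat_lit 514) (nat_lit 5) (nat_lit 561) (nat_lit 521) (nat_lit 478)) (XT.lf (nat_lit 0) (nat_lit 1292970677) (nat_lit 1900) (nat_lit 4252148310) (nat_lit 76) (nat_lit 2048936217) (nat_lit 465) (nat_lit 5) (nat_lit 490) (nat_lit 5) (nat_lit 466) (nat_lit 5) (nat_lit 562) (nat_lit 521) (nat_lit 477)))) (XT.nd (nat_lit 156) (nat_lit 1900) (nat_lit 0) (XT.nd (nat_lit 78) (nat_lit 0) (nat_lit 0) (XT.lf (nat_lit 0) (nat_lit 686686506) (nat_lit 1064) (nat_lit 3109420394) (nat_lit 1140) (nat_lit 3853292423)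 (nat_lit 451) (nat_lit 5) (nat_lit 465) (nat_lit 5) (nat_lit 466) (nat_lit 5) (nat_lit 563) (nat_lit 521) (nat_lit 476)) (XT.lf (nat_lit 0) (nat_lit 5738310669) (nat_lit 1064) (nat_lit 595049092) (nat_lit 1140) (nat_lit 1372812536) (nat_lit 451) (nat_lit 5) (nat_lit 465) (nat_lit 5) (nat_lit 466) (nat_lit 5) (nat_lit 564) (nat_lit 521) (nat_lit 475))) (XT.nd (nat_lit 78) (nat_lit 912) (nat_lit 0) (XT.lf (nat_lit 0) (nat_lit 1131411487) (nat_lit 988) (nat_lit 4660487814) (nat_lit 76) (nat_lit 1972247836) (nat_lit 438) (nat_lit 5) (nat_lit 451) (nat_lit 5) (nat_lit 439) (nat_lit 5) (nat_lit 565) (nat_lit 521) (nat_lit 474)) (XT.lf (nat_lit 0) (nat_lit 428829879) (nat_lit 912) (nat_lit 3215226049) (nat_lit 988) (nat_lit 4179512574) (nat_lit 426) (nat_lit 5) (nat_lit 438) (nat_lit 5) (nat_lit 439) (nat_lit 5) (nat_lit 566) (nat_lit 521) (nat_lit 473))))) (XT.nd (nat_lit 312) (nat_lit 2508) (nat_lit 0) (XT.nd (nat_lit 156) (nat_lit 836) (nat_lit 0) (XT.nd (nat_lit 78) (nat_lit 912) (nat_lit 0) (XT.lf (nat_lit 0) (nat_lit 5639454301) (nat_lit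 912) (nat_lit 556022116) (nat_lit 988) (nat_lit 1688934234) (nat_lit 426) (nat_lit 5) (nat_lit 438) (nat_lit 5) (nat_lit 439) (nat_lit 5) (nat_lit 567) (nat_lit 521) (nat_lit 472)) (XT.lf (nat_lit 0) (nat_lit 831720633) (nat_lit 912) (nat_lit 4962720061) (nat_lit 76) (nat_lit 2152092454) (nat_lit 414) (nat_lit 5) (nat_lit 426) (nat_lit 5) (nat_lit 415) (nat_lit 5) (nat_lit 568) (nat_lit 521) (nat_lit 471))) (XT.nd (nat_lit 78) (nat_lit 0) (nat_lit 0) (XT.lf (nat_lit 0) (nat_lit 282832208) (nat_lit 836) (nat_lit 3076391052) (nat_lit 912) (nat_lit 4650873222) (nat_lit 403) (nat_lit 5) (nat_lit 414) (nat_lit 5) (nat_lit 415) (nat_lit 5) (nat_lit 569) (nat_lit 521) (nat_lit 470)) (XT.lf (nat_lit 0) (nat_lit 5656953081) (nat_lit 836) (nat_lit 272504065) (nat_lit 912) (nat_lit 2145632916) (nat_lit 403) (nat_lit 5) (nat_lit 414) (nat_lit 5) (nat_lit 415) (nat_lit 5) (nat_lit 570) (nat_lit 521) (nat_lit 469)))) (XT.nd (nat_lit 156) (nat_lit 760) (nat_lit 0) (XT.nd (nat_lit 78) (nat_lit 836) (nat_lit 0) (XT.lf (nat_lit 0) (nat_lit 400098232) (nat_lit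 912) (nat_lit 5168251571) (nat_lit 76) (nat_lit 2573067821) (nat_lit 391) (nat_lit 5) (nat_lit 403) (nat_lit 5) (nat_lit 392) (nat_lit 5) (nat_lit 571) (nat_lit 521) (nat_lit 468)) (XT.lf (nat_lit 0) (nat_lit 239546605) (nat_lit 836) (nat_lit 2708101513) (nat_lit 912) (nat_lit 5261549736) (nat_lit 380) (nat_lit 5) (nat_lit 391) (nat_lit 5) (nat_lit 392) (nat_lit 5) (nat_lit 572) (nat_lit 521) (nat_lit 467))) (XT.nd (nat_lit 78) (nat_lit 760) (nat_lit 0) (XT.lf (nat_lit 0) (nat_lit 5542810523) (nat_lit 912) (nat_lit 2497951554) (nat_lit 76) (nat_lit 237640786) (nat_lit 380) (nat_lit 5) (nat_lit 392) (nat_lit 5) (nat_lit 381) (nat_lit 5) (nat_lit 573) (nat_lit 521) (nat_lit 466)) (XT.lf (nat_lit 0) (nat_lit 3061994207) (nat_lit 760) (nat_lit 5126864462) (nat_lit 836) (nat_lit 160156011) (nat_lit 370) (nat_lit 5) (nat_lit 380) (nat_lit 5) (nat_lit 381) (nat_lit 5) (nat_lit 574) (nat_lit 521) (nat_lit 465)))))) (XT.nd (nat_lit 546) (nat_lit 3268) (nat_lit 0) (XT.nd (nat_lit 234) (nat_lit 2280) (nat_lit 0) (XT.nd (nat_lit 78) (nat_lit 684) (nat_lit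 0) (XT.lf (nat_lit 0) (nat_lit 290334728) (nat_lit 760) (nat_lit 2124253262) (nat_lit 836) (nat_lit 6006529662) (nat_lit 359) (nat_lit 5) (nat_lit 369) (nat_lit 5) (nat_lit 370) (nat_lit 5) (nat_lit 575) (nat_lit 521) (nat_lit 464)) (XT.nd (nat_lit 78) (nat_lit 684) (nat_lit 0) (XT.lf (nat_lit 0) (nat_lit 5042325130) (nat_lit 836) (nat_lit 2494523141) (nat_lit 76) (nat_lit 957722607) (nat_lit 359) (nat_lit 5) (nat_lit 370) (nat_lit 5) (nat_lit 360) (nat_lit 5) (nat_lit 576) (nat_lit 521) (nat_lit 463)) (XT.lf (nat_lit 0) (nat_lit 3239661458) (nat_lit 684) (nat_lit 4480640144) (nat_lit 760) (nat_lit 849240052) (nat_lit 350) (nat_lit 5) (nat_lit 359) (nat_lit 5) (nat_lit 360) (nat_lit 5) (nat_lit 577) (nat_lit 521) (nat_lit 462)))) (XT.nd (nat_lit 156) (nat_lit 1444) (nat_lit 0) (XT.nd (nat_lit 78) (nat_lit 0) (nat_lit 0) (XT.lf (nat_lit 0) (nat_lit 426997831) (nat_lit 760) (nat_lit 1337557635) (nat_lit 836) (nat_lit 6881575713) (nat_lit 339) (nat_lit 5) (nat_lit 349) (nat_lit 5) (nat_lit 350) (nat_lit 5) (nat_lit 578) (nat_lit 521) (nat_lit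 461)) (XT.lf (nat_lit 0) (nat_lit 4430598813) (nat_lit 836) (nat_lit 2414111077) (nat_lit 76) (nat_lit 1879205522) (nat_lit 339) (nat_lit 5) (nat_lit 350) (nat_lit 5) (nat_lit 340) (nat_lit 5) (nat_lit 579) (nat_lit 521) (nat_lit 460))) (XT.nd (nat_lit 78) (nat_lit 760) (nat_lit 0) (XT.lf (nat_lit 0) (nat_lit 3501087220) (nat_lit 684) (nat_lit 3644385421) (nat_lit 760) (nat_lit 1657874509) (nat_lit 330) (nat_lit 5) (nat_lit 339) (nat_lit 5) (nat_lit 340) (nat_lit 5) (nat_lit 580) (nat_lit 521) (nat_lit 459)) (XT.lf (nat_lit 0) (nat_lit 641709602) (nat_lit 684) (nat_lit 359640608) (nat_lit 760) (nat_lit 7883193741) (nat_lit 320) (nat_lit 5) (nat_lit 329) (nat_lit 5) (nat_lit 330) (nat_lit 5) (nat_lit 581) (nat_lit 521) (nat_lit 458))))) (XT.nd (nat_lit 312) (nat_lit 1900) (nat_lit 0) (XT.nd (nat_lit 156) (nat_lit 760) (nat_lit 0) (XT.nd (nat_lit 78) (nat_lit 608) (nat_lit 0) (XT.lf (nat_lit 0) (nat_lit 3711305390) (nat_lit 760) (nat_lit 2264412889) (nat_lit 76) (nat_lit 2991034236) (nat_lit 320) (nat_lit 5) (nat_lit 330) (nat_lit 5) (nat_lit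 321) (nat_lit 5) (nat_lit 582) (nat_lit 521) (nat_lit 457)) (XT.lf (nat_lit 0) (nat_lit 3838837727) (nat_lit 608) (nat_lit 2629113551) (nat_lit 684) (nat_lit 2582805999) (nat_lit 312) (nat_lit 5) (nat_lit 320) (nat_lit 5) (nat_lit 321) (nat_lit 5) (nat_lit 583) (nat_lit 521) (nat_lit 456))) (XT.nd (nat_lit 78) (nat_lit 0) (nat_lit 0) (XT.lf (nat_lit 0) (nat_lit 133272999) (nat_lit 760) (nat_lit 8214928247) (nat_lit 76) (nat_lit 788386782) (nat_lit 302) (nat_lit 5) (nat_lit 312) (nat_lit 5) (nat_lit 303) (nat_lit 5) (nat_lit 584) (nat_lit 521) (nat_lit 455)) (XT.lf (nat_lit 0) (nat_lit 2887451161) (nat_lit 760) (nat_lit 2052859594) (nat_lit 76) (nat_lit 4283117717) (nat_lit 302) (nat_lit 5) (nat_lit 312) (nat_lit 5) (nat_lit 303) (nat_lit 5) (nat_lit 585) (nat_lit 521) (nat_lit 454)))) (XT.nd (nat_lit 156) (nat_lit 684) (nat_lit 0) (XT.nd (nat_lit 78) (nat_lit 608) (nat_lit 0) (XT.lf (nat_lit 0) (nat_lit 4245746222) (nat_lit 608) (nat_lit 1444916528) (nat_lit 684) (nat_lit 3621465696) (nat_lit 294) (nat_lit 5) (nat_lit 302) (nat_lit 5) (nat_lit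 303) (nat_lit 5) (nat_lit 586) (nat_lit 521) (nat_lit 453)) (XT.lf (nat_lit 0) (nat_lit 1255717364) (nat_lit 608) (nat_lit 7296719866) (nat_lit 684) (nat_lit 850116899) (nat_lit 286) (nat_lit 5) (nat_lit 294) (nat_lit 5) (nat_lit 295) (nat_lit 5) (nat_lit 587) (nat_lit 521) (nat_lit 452))) (XT.nd (nat_lit 78) (nat_lit 608) (nat_lit 0) (XT.lf (nat_lit 0) (nat_lit 1961396226) (nat_lit 684) (nat_lit 1786679777) (nat_lit 76) (nat_lit 5746244034) (nat_lit 285) (nat_lit 5) (nat_lit 294) (nat_lit 5) (nat_lit 286) (nat_lit 5) (nat_lit 588) (nat_lit 521) (nat_lit 451)) (XT.lf (nat_lit 0) (nat_lit 4714848696) (nat_lit 608) (nat_lit 101049401) (nat_lit 684) (nat_lit 4771949537) (nat_lit 277) (nat_lit 5) (nat_lit 285) (nat_lit 5) (nat_lit 286) (nat_lit 5) (nat_lit 589) (nat_lit 521) (nat_lit 450))))))))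
noncomputable def xc36 : XT := (XT.nd (nat_lit 76908) (nat_lit 0) (nat_lit 19532) (XT.nd (nat_lit 1170) (nat_lit 912) (nat_lit 0) (XT.nd (nat_lit 546) (nat_lit 2508) (nat_lit 0) (XT.nd (nat_lit 234) (nat_lit 1672) (nat_lit 0) (XT.nd (nat_lit 78) (nat_lit 608) (nat_lit 0) (XT.lf (nat_lit 0) (nat_lit 1643253919) (nat_lit 608) (nat_lit 6098292654) (nat_lit 684) (nat_lit 1941419634) (nat_lit 269) (nat_lit 5) (nat_lit 277) (nat_lit 5) (nat_lit 278) (nat_lit 5) (nat_lit 590) (nat_lit 521) (nat_lit 449)) (XT.nd (nat_lit 78) (nat_lit 532) (nat_lit 0) (XT.lf (nat_lit 0) (nat_lit 934871409) (nat_lit 684) (nat_lit 1472963649) (nat_lit 76) (nat_lit 7371999707) (nat_lit 268) (nat_lit 5) (nat_lit 277) (nat_lit 5) (nat_lit 269) (nat_lit 5) (nat_lit 591) (nat_lit 521) (nat_lit 448)) (XT.lf (nat_lit 0) (nat_lit 3854380585) (nat_lit 608) (nat_lit 4648063925) (nat_lit 76) (nat_lit 1375707235) (nat_lit 261) (nat_lit 5) (nat_lit 269) (nat_lit 5) (nat_lit 262) (nat_lit 5) (nat_lit 592) (nat_lit 521) (nat_lit 447)))) (XT.nd (nat_lit 156) (nat_lit 1140) (nat_lit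 0) (XT.nd (nat_lit 78) (nat_lit 0) (nat_lit 0) (XT.lf (nat_lit 0) (nat_lit 2078234966) (nat_lit 532) (nat_lit 4762309814) (nat_lit 608) (nat_lit 3137726425) (nat_lit 254) (nat_lit 5) (nat_lit 261) (nat_lit 5) (nat_lit 262) (nat_lit 5) (nat_lit 593) (nat_lit 521) (nat_lit 446)) (XT.lf (nat_lit 0) (nat_lit 8960402060) (nat_lit 532) (nat_lit 926436734) (nat_lit 608) (nat_lit 193547540) (nat_lit 254) (nat_lit 5) (nat_lit 261) (nat_lit 5) (nat_lit 262) (nat_lit 5) (nat_lit 594) (nat_lit 521) (nat_lit 445))) (XT.nd (nat_lit 78) (nat_lit 532) (nat_lit 0) (XT.lf (nat_lit 0) (nat_lit 2799711828) (nat_lit 608) (nat_lit 4391314852) (nat_lit 76) (nat_lit 2992612729) (nat_lit 246) (nat_lit 5) (nat_lit 254) (nat_lit 5) (nat_lit 247) (nat_lit 5) (nat_lit 595) (nat_lit 521) (nat_lit 444)) (XT.lf (nat_lit 0) (nat_lit 2553768539) (nat_lit 532) (nat_lit 3296636887) (nat_lit 608) (nat_lit 4438524648) (nat_lit 239) (nat_lit 5) (nat_lit 246) (nat_lit 5) (nat_lit 247) (nat_lit 5) (nat_lit 596) (nat_lit 521) (nat_lit 443))))) (XT.nd (nat_lit 312) (nat_lit 1444)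 (nat_lit 0) (XT.nd (nat_lit 156) (nat_lit 532) (nat_lit 0) (XT.nd (nat_lit 78) (nat_lit 532) (nat_lit 0) (XT.lf (nat_lit 0) (nat_lit 8966288094) (nat_lit 608) (nat_lit 744801690) (nat_lit 76) (nat_lit 685154567) (nat_lit 239) (nat_lit 5) (nat_lit 247) (nat_lit 5) (nat_lit 240) (nat_lit 5) (nat_lit 597) (nat_lit 521) (nat_lit 442)) (XT.lf (nat_lit 0) (nat_lit 1651654492) (nat_lit 532) (nat_lit 4109275141) (nat_lit 76) (nat_lit 4743876449) (nat_lit 232) (nat_lit 5) (nat_lit 239) (nat_lit 5) (nat_lit 233) (nat_lit 5) (nat_lit 598) (nat_lit 521) (nat_lit 441))) (XT.nd (nat_lit 78) (nat_lit 0) (nat_lit 0) (XT.lf (nat_lit 0) (nat_lit 3062932671) (nat_lit 532) (nat_lit 1708581420) (nat_lit 608) (nat_lit 5843921870) (nat_lit 225) (nat_lit 5) (nat_lit 232) (nat_lit 5) (nat_lit 233) (nat_lit 5) (nat_lit 599) (nat_lit 521) (nat_lit 440)) (XT.lf (nat_lit 0) (nat_lit 7968330254) (nat_lit 608) (nat_lit 350659362) (nat_lit 76) (nat_lit 2408998837) (nat_lit 225) (nat_lit 5) (nat_lit 233) (nat_lit 5) (nat_lit 226) (nat_lit 5) (nat_lit 600) (nat_lit 521)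 (nat_lit 439)))) (XT.nd (nat_lit 156) (nat_lit 456) (nat_lit 0) (XT.nd (nat_lit 78) (nat_lit 456) (nat_lit 0) (XT.lf (nat_lit 0) (nat_lit 410033720) (nat_lit 532) (nat_lit 3809221164) (nat_lit 76) (nat_lit 6622911919) (nat_lit 218) (nat_lit 5) (nat_lit 225) (nat_lit 5) (nat_lit 219) (nat_lit 5) (nat_lit 601) (nat_lit 521) (nat_lit 438)) (XT.lf (nat_lit 0) (nat_lit 3598706550) (nat_lit 456) (nat_lit 4963028) (nat_lit 532) (nat_lit 7354645411) (nat_lit 212) (nat_lit 5) (nat_lit 218) (nat_lit 5) (nat_lit 219) (nat_lit 5) (nat_lit 602) (nat_lit 521) (nat_lit 437))) (XT.nd (nat_lit 78) (nat_lit 0) (nat_lit 0) (XT.lf (nat_lit 0) (nat_lit 62113917) (nat_lit 456) (nat_lit 6825021390) (nat_lit 532) (nat_lit 4189132799) (nat_lit 206) (nat_lit 5) (nat_lit 212) (nat_lit 5) (nat_lit 213) (nat_lit 5) (nat_lit 603) (nat_lit 521) (nat_lit 436)) (XT.lf (nat_lit 0) (nat_lit 7691459963) (nat_lit 456) (nat_lit 2566462476) (nat_lit 532) (nat_lit 938225894) (nat_lit 206) (nat_lit 5) (nat_lit 212) (nat_lit 5) (nat_lit 213) (nat_lit 5) (nat_lit 604) (nat_lit 521)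 (nat_lit 435)))))) (XT.nd (nat_lit 75114) (nat_lit 0) (nat_lit 42028) (XT.nd (nat_lit 74802) (nat_lit 0) (nat_lit 43928) (XT.nd (nat_lit 78) (nat_lit 380) (nat_lit 0) (XT.lf (nat_lit 0) (nat_lit 2357818330) (nat_lit 532) (nat_lit 7175965645) (nat_lit 76) (nat_lit 1784108421) (nat_lit 199) (nat_lit 5) (nat_lit 206) (nat_lit 5) (nat_lit 200) (nat_lit 5) (nat_lit 605) (nat_lit 521) (nat_lit 434)) (XT.nd (nat_lit 74646) (nat_lit 0) (nat_lit 44460) (XT.lf (nat_lit 0) (nat_lit 490136479) (nat_lit 380) (nat_lit 5233740409) (nat_lit 456) (nat_lit 5717738321) (nat_lit 194) (nat_lit 5) (nat_lit 199) (nat_lit 5) (nat_lit 200) (nat_lit 5) (nat_lit 606) (nat_lit 521) (nat_lit 433)) (XT.lf (nat_lit 0) (nat_lit 2995646177) (nat_lit 228) (nat_lit 114677353) (nat_lit 228) (nat_lit 114677353) (nat_lit 779) (nat_lit 3) (nat_lit 782) (nat_lit 3) (nat_lit 782) (nat_lit 5) (nat_lit 522) (nat_lit 522) (nat_lit 516)))) (XT.nd (nat_lit 156) (nat_lit 304) (nat_lit 0) (XT.nd (nat_lit 78) (nat_lit 0) (nat_lit 0) (XT.lf (nat_lit 0) (nat_lit 2540829834) (nat_lit 228)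 (nat_lit 3455507768) (nat_lit 304) (nat_lit 457924585) (nat_lit 776) (nat_lit 5) (nat_lit 779) (nat_lit 3) (nat_lit 780) (nat_lit 5) (nat_lit 523) (nat_lit 522) (nat_lit 515)) (XT.lf (nat_lit 0) (nat_lit 5517387725) (nat_lit 228) (nat_lit 208247500) (nat_lit 304) (nat_lit 734457435) (nat_lit 776) (nat_lit 5) (nat_lit 779) (nat_lit 3) (nat_lit 780) (nat_lit 5) (nat_lit 524) (nat_lit 522) (nat_lit 514))) (XT.nd (nat_lit 78) (nat_lit 0) (nat_lit 0) (XT.lf (nat_lit 0) (nat_lit 2002983100) (nat_lit 304) (nat_lit 3376038276) (nat_lit 380) (nat_lit 1087897384) (nat_lit 772) (nat_lit 5) (nat_lit 776) (nat_lit 5) (nat_lit 777) (nat_lit 5) (nat_lit 525) (nat_lit 522) (nat_lit 513)) (XT.lf (nat_lit 0) (nat_lit 4920269963) (nat_lit 304) (nat_lit 62396421) (nat_lit 380) (nat_lit 1492592585) (nat_lit 772) (nat_lit 5) (nat_lit 776) (nat_lit 5) (nat_lit 777) (nat_lit 5) (nat_lit 526) (nat_lit 522) (nat_lit 512))))) (XT.nd (nat_lit 312) (nat_lit 1064) (nat_lit 0) (XT.nd (nat_lit 156) (nat_lit 456) (nat_lit 0) (XT.nd (nat_lit 78) (nat_lit 0) (nat_lit 0) (XT.lf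 (nat_lit 0) (nat_lit 1340199078) (nat_lit 380) (nat_lit 3172880214) (nat_lit 456) (nat_lit 1971579711) (nat_lit 767) (nat_lit 5) (nat_lit 772) (nat_lit 5) (nat_lit 773) (nat_lit 5) (nat_lit 527) (nat_lit 522) (nat_lit 511)) (XT.lf (nat_lit 76) (nat_lit 211494166) (nat_lit 0) (nat_lit 3988880357) (nat_lit 456) (nat_lit 2295116738) (nat_lit 768) (nat_lit 5) (nat_lit 767) (nat_lit 5) (nat_lit 773) (nat_lit 5) (nat_lit 528) (nat_lit 522) (nat_lit 510))) (XT.nd (nat_lit 78) (nat_lit 0) (nat_lit 0) (XT.lf (nat_lit 0) (nat_lit 551415977) (nat_lit 456) (nat_lit 2845392688) (nat_lit 532) (nat_lit 3110695337) (nat_lit 761) (nat_lit 5) (nat_lit 767) (nat_lit 5) (nat_lit 768) (nat_lit 5) (nat_lit 529) (nat_lit 522) (nat_lit 509)) (XT.lf (nat_lit 76) (nat_lit 613920138) (nat_lit 0) (nat_lit 2742464004) (nat_lit 532) (nat_lit 3164432150) (nat_lit 762) (nat_lit 5) (nat_lit 761) (nat_lit 5) (nat_lit 768) (nat_lit 5) (nat_lit 530) (nat_lit 522) (nat_lit 508)))) (XT.nd (nat_lit 156) (nat_lit 532) (nat_lit 0) (XT.nd (nat_lit 78) (nat_lit 532) (nat_lit 0) (XT.lf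 (nat_lit 76) (nat_lit 4140342557) (nat_lit 0) (nat_lit 2025568409) (nat_lit 532) (nat_lit 369521963) (nat_lit 762) (nat_lit 5) (nat_lit 761) (nat_lit 5) (nat_lit 768) (nat_lit 5) (nat_lit 531) (nat_lit 522) (nat_lit 507)) (XT.lf (nat_lit 76) (nat_lit 1145076041) (nat_lit 0) (nat_lit 1241387011) (nat_lit 608) (nat_lit 4164809269) (nat_lit 755) (nat_lit 5) (nat_lit 754) (nat_lit 5) (nat_lit 762) (nat_lit 5) (nat_lit 532) (nat_lit 522) (nat_lit 506))) (XT.nd (nat_lit 78) (nat_lit 532) (nat_lit 0) (XT.lf (nat_lit 76) (nat_lit 4745517284) (nat_lit 0) (nat_lit 394551899) (nat_lit 608) (nat_lit 1428368349) (nat_lit 755) (nat_lit 5) (nat_lit 754) (nat_lit 5) (nat_lit 762) (nat_lit 5) (nat_lit 533) (nat_lit 522) (nat_lit 505)) (XT.lf (nat_lit 0) (nat_lit 1292295599) (nat_lit 608) (nat_lit 4784018985) (nat_lit 76) (nat_lit 510513749) (nat_lit 747) (nat_lit 5) (nat_lit 755) (nat_lit 5) (nat_lit 748) (nat_lit 5) (nat_lit 534) (nat_lit 522) (nat_lit 504))))))) (XT.nd (nat_lit 1170) (nat_lit 13908) (nat_lit 0) (XT.nd (nat_lit 546) (nat_lit 5548) (nat_lit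 0) (XT.nd (nat_lit 234) (nat_lit 2356) (nat_lit 0) (XT.nd (nat_lit 78) (nat_lit 684) (nat_lit 0) (XT.lf (nat_lit 0) (nat_lit 3996709702) (nat_lit 608) (nat_lit 1133601902) (nat_lit 76) (nat_lit 1476123735) (nat_lit 747) (nat_lit 5) (nat_lit 755) (nat_lit 5) (nat_lit 748) (nat_lit 5) (nat_lit 535) (nat_lit 522) (nat_lit 503)) (XT.nd (nat_lit 78) (nat_lit 0) (nat_lit 0) (XT.lf (nat_lit 0) (nat_lit 78351775) (nat_lit 684) (nat_lit 4045278107) (nat_lit 76) (nat_lit 2503768839) (nat_lit 738) (nat_lit 5) (nat_lit 747) (nat_lit 5) (nat_lit 739) (nat_lit 5) (nat_lit 536) (nat_lit 522) (nat_lit 502)) (XT.lf (nat_lit 0) (nat_lit 2728340507) (nat_lit 684) (nat_lit 320082191) (nat_lit 76) (nat_lit 3601157886) (nat_lit 738) (nat_lit 5) (nat_lit 747) (nat_lit 5) (nat_lit 739) (nat_lit 5) (nat_lit 537) (nat_lit 522) (nat_lit 501)))) (XT.nd (nat_lit 156) (nat_lit 836) (nat_lit 0) (XT.nd (nat_lit 78) (nat_lit 836) (nat_lit 0) (XT.lf (nat_lit 0) (nat_lit 3484490414) (nat_lit 684) (nat_lit 1906132702) (nat_lit 760) (nat_lit 1282403067) (nat_lit 729) (nat_lit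 5) (nat_lit 738) (nat_lit 5) (nat_lit 739) (nat_lit 5) (nat_lit 538) (nat_lit 522) (nat_lit 500)) (XT.lf (nat_lit 0) (nat_lit 630300001) (nat_lit 760) (nat_lit 703913295) (nat_lit 836) (nat_lit 5363680460) (nat_lit 718) (nat_lit 5) (nat_lit 728) (nat_lit 5) (nat_lit 729) (nat_lit 5) (nat_lit 539) (nat_lit 522) (nat_lit 499))) (XT.nd (nat_lit 78) (nat_lit 836) (nat_lit 0) (XT.lf (nat_lit 0) (nat_lit 3949264792) (nat_lit 836) (nat_lit 2208624642) (nat_lit 76) (nat_lit 565939867) (nat_lit 718) (nat_lit 5) (nat_lit 729) (nat_lit 5) (nat_lit 719) (nat_lit 5) (nat_lit 540) (nat_lit 522) (nat_lit 498)) (XT.lf (nat_lit 0) (nat_lit 1703535784) (nat_lit 836) (nat_lit 4868341173) (nat_lit 912) (nat_lit 179306929) (nat_lit 707) (nat_lit 5) (nat_lit 718) (nat_lit 5) (nat_lit 719) (nat_lit 5) (nat_lit 541) (nat_lit 522) (nat_lit 497))))) (XT.nd (nat_lit 312) (nat_lit 3496) (nat_lit 0) (XT.nd (nat_lit 156) (nat_lit 1064) (nat_lit 0) (XT.nd (nat_lit 78) (nat_lit 912) (nat_lit 0) (XT.lf (nat_lit 0) (nat_lit 2390463186) (nat_lit 912) (nat_lit 1113228734)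 (nat_lit 76) (nat_lit 3275979020) (nat_lit 706) (nat_lit 5) (nat_lit 718) (nat_lit 5) (nat_lit 707) (nat_lit 5) (nat_lit 542) (nat_lit 522) (nat_lit 496)) (XT.lf (nat_lit 0) (nat_lit 2895294863) (nat_lit 912) (nat_lit 2073963310) (nat_lit 988) (nat_lit 1840250453) (nat_lit 694) (nat_lit 5) (nat_lit 706) (nat_lit 5) (nat_lit 707) (nat_lit 5) (nat_lit 543) (nat_lit 522) (nat_lit 495))) (XT.nd (nat_lit 78) (nat_lit 0) (nat_lit 0) (XT.lf (nat_lit 0) (nat_lit 113921356) (nat_lit 988) (nat_lit 585787813) (nat_lit 1064) (nat_lit 6141140524) (nat_lit 680) (nat_lit 5) (nat_lit 693) (nat_lit 5) (nat_lit 694) (nat_lit 5) (nat_lit 544) (nat_lit 522) (nat_lit 494)) (XT.lf (nat_lit 0) (nat_lit 3241044800) (nat_lit 1064) (nat_lit 2657884313) (nat_lit 76) (nat_lit 974145736) (nat_lit 680) (nat_lit 5) (nat_lit 694) (nat_lit 5) (nat_lit 681) (nat_lit 5) (nat_lit 545) (nat_lit 522) (nat_lit 493)))) (XT.nd (nat_lit 156) (nat_lit 2356) (nat_lit 0) (XT.nd (nat_lit 78) (nat_lit 76) (nat_lit 0) (XT.lf (nat_lit 0) (nat_lit 1465870419) (nat_lit 1064) (nat_lit 4324559210)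 (nat_lit 1140) (nat_lit 1116375239) (nat_lit 666) (nat_lit 5) (nat_lit 680) (nat_lit 5) (nat_lit 681) (nat_lit 5) (nat_lit 546) (nat_lit 522) (nat_lit 492)) (XT.lf (nat_lit 0) (nat_lit 1392819898) (nat_lit 1140) (nat_lit 1284738602) (nat_lit 76) (nat_lit 4264222597) (nat_lit 665) (nat_lit 5) (nat_lit 680) (nat_lit 5) (nat_lit 666) (nat_lit 5) (nat_lit 547) (nat_lit 522) (nat_lit 491))) (XT.nd (nat_lit 78) (nat_lit 1216) (nat_lit 0) (XT.lf (nat_lit 0) (nat_lit 2944149466) (nat_lit 1140) (nat_lit 957607985) (nat_lit 1216) (nat_lit 3076266212) (nat_lit 650) (nat_lit 5) (nat_lit 665) (nat_lit 5) (nat_lit 666) (nat_lit 5) (nat_lit 548) (nat_lit 522) (nat_lit 490)) (XT.lf (nat_lit 0) (nat_lit 215265647) (nat_lit 1216) (nat_lit 6207117694) (nat_lit 1292) (nat_lit 593381990) (nat_lit 634) (nat_lit 5) (nat_lit 650) (nat_lit 5) (nat_lit 651) (nat_lit 5) (nat_lit 549) (nat_lit 522) (nat_lit 489)))))) (XT.nd (nat_lit 546) (nat_lit 8056) (nat_lit 0) (XT.nd (nat_lit 234) (nat_lit 4484) (nat_lit 0) (XT.nd (nat_lit 78) (nat_lit 1292) (nat_lit 0) (XT.lf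 (nat_lit 0) (nat_lit 1894002855) (nat_lit 1292) (nat_lit 2511735362) (nat_lit 76) (nat_lit 2648670571) (nat_lit 633) (nat_lit 5) (nat_lit 650) (nat_lit 5) (nat_lit 634) (nat_lit 5) (nat_lit 550) (nat_lit 522) (nat_lit 488)) (XT.nd (nat_lit 78) (nat_lit 0) (nat_lit 0) (XT.lf (nat_lit 0) (nat_lit 1840888659) (nat_lit 1292) (nat_lit 2541991354) (nat_lit 1368) (nat_lit 2711677045) (nat_lit 616) (nat_lit 5) (nat_lit 633) (nat_lit 5) (nat_lit 634) (nat_lit 5) (nat_lit 551) (nat_lit 522) (nat_lit 487)) (XT.lf (nat_lit 0) (nat_lit 6272760074) (nat_lit 1292) (nat_lit 614113173) (nat_lit 1368) (nat_lit 249332381) (nat_lit 616) (nat_lit 5) (nat_lit 633) (nat_lit 5) (nat_lit 634) (nat_lit 5) (nat_lit 552) (nat_lit 522) (nat_lit 486)))) (XT.nd (nat_lit 156) (nat_lit 1596) (nat_lit 0) (XT.nd (nat_lit 78) (nat_lit 1444) (nat_lit 0) (XT.lf (nat_lit 0) (nat_lit 2214245253) (nat_lit 1444) (nat_lit 3582569145) (nat_lit 76) (nat_lit 1381949833) (nat_lit 597) (nat_lit 5) (nat_lit 616) (nat_lit 5) (nat_lit 598) (nat_lit 5) (nat_lit 553) (nat_lit 522) (nat_lit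 485)) (XT.lf (nat_lit 0) (nat_lit 898198649) (nat_lit 1444) (nat_lit 3791230995) (nat_lit 1520) (nat_lit 2533401794) (nat_lit 578) (nat_lit 5) (nat_lit 597) (nat_lit 5) (nat_lit 598) (nat_lit 5) (nat_lit 554) (nat_lit 522) (nat_lit 484))) (XT.nd (nat_lit 78) (nat_lit 1596) (nat_lit 0) (XT.lf (nat_lit 0) (nat_lit 5474924589) (nat_lit 1444) (nat_lit 1713880941) (nat_lit 1520) (nat_lit 79484495) (nat_lit 578) (nat_lit 5) (nat_lit 597) (nat_lit 5) (nat_lit 598) (nat_lit 5) (nat_lit 555) (nat_lit 522) (nat_lit 483)) (XT.lf (nat_lit 0) (nat_lit 2364143307) (nat_lit 1596) (nat_lit 4510283175) (nat_lit 76) (nat_lit 440471907) (nat_lit 557) (nat_lit 5) (nat_lit 578) (nat_lit 5) (nat_lit 558) (nat_lit 5) (nat_lit 556) (nat_lit 522) (nat_lit 482))))) (XT.nd (nat_lit 312) (nat_lit 4712) (nat_lit 0) (XT.nd (nat_lit 156) (nat_lit 1748) (nat_lit 0) (XT.nd (nat_lit 78) (nat_lit 0) (nat_lit 0) (XT.lf (nat_lit 0) (nat_lit 103294084) (nat_lit 1596) (nat_lit 4728436301) (nat_lit 1672) (nat_lit 2531178578) (nat_lit 536) (nat_lit 5) (nat_lit 557) (nat_lit 5)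 (nat_lit 558) (nat_lit 5) (nat_lit 557) (nat_lit 522) (nat_lit 481)) (XT.lf (nat_lit 0) (nat_lit 4827791222) (nat_lit 1596) (nat_lit 2503824409) (nat_lit 1672) (nat_lit 80608696) (nat_lit 536) (nat_lit 5) (nat_lit 557) (nat_lit 5) (nat_lit 558) (nat_lit 5) (nat_lit 558) (nat_lit 522) (nat_lit 480))) (XT.nd (nat_lit 78) (nat_lit 0) (nat_lit 0) (XT.lf (nat_lit 0) (nat_lit 2154523053) (nat_lit 1672) (nat_lit 200010132) (nat_lit 1748) (nat_lit 5108336350) (nat_lit 513) (nat_lit 5) (nat_lit 535) (nat_lit 5) (nat_lit 536) (nat_lit 5) (nat_lit 559) (nat_lit 522) (nat_lit 479)) (XT.lf (nat_lit 0) (nat_lit 4822682418) (nat_lit 1748) (nat_lit 548450228) (nat_lit 76) (nat_lit 2143679969) (nat_lit 513) (nat_lit 5) (nat_lit 536) (nat_lit 5) (nat_lit 514) (nat_lit 5) (nat_lit 560) (nat_lit 522) (nat_lit 478)))) (XT.nd (nat_lit 156) (nat_lit 1064) (nat_lit 0) (XT.nd (nat_lit 78) (nat_lit 1900) (nat_lit 0) (XT.lf (nat_lit 0) (nat_lit 4319864088) (nat_lit 1748) (nat_lit 3004571799) (nat_lit 1824) (nat_lit 243677081) (nat_lit 490) (nat_lit 5) (nat_lit 513)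 (nat_lit 5) (nat_lit 514) (nat_lit 5) (nat_lit 561) (nat_lit 522) (nat_lit 477)) (XT.lf (nat_lit 0) (nat_lit 1634925797) (nat_lit 1824) (nat_lit 558765425) (nat_lit 1900) (nat_lit 5429108474) (nat_lit 465) (nat_lit 5) (nat_lit 489) (nat_lit 5) (nat_lit 490) (nat_lit 5) (nat_lit 562) (nat_lit 522) (nat_lit 476))) (XT.nd (nat_lit 78) (nat_lit 1064) (nat_lit 0) (XT.lf (nat_lit 0) (nat_lit 4666861448) (nat_lit 1900) (nat_lit 1075731170) (nat_lit 76) (nat_lit 1936152027) (nat_lit 465) (nat_lit 5) (nat_lit 490) (nat_lit 5) (nat_lit 466) (nat_lit 5) (nat_lit 563) (nat_lit 522) (nat_lit 475)) (XT.lf (nat_lit 0) (nat_lit 3940423368) (nat_lit 1064) (nat_lit 3235025604) (nat_lit 1140) (nat_lit 560643434) (nat_lit 451) (nat_lit 5) (nat_lit 465) (nat_lit 5) (nat_lit 466) (nat_lit 5) (nat_lit 564) (nat_lit 522) (nat_lit 474))))))))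
noncomputable def xc37 : XT := (XT.nd (nat_lit 2340) (nat_lit 4180) (nat_lit 0) (XT.nd (nat_lit 1170) (nat_lit 6460) (nat_lit 0) (XT.nd (nat_lit 546) (nat_lit 3952) (nat_lit 0) (XT.nd (nat_lit 234) (nat_lit 2660) (nat_lit 0) (XT.nd (nat_lit 78) (nat_lit 912) (nat_lit 0) (XT.lf (nat_lit 0) (nat_lit 1238130139) (nat_lit 912) (nat_lit 648318751) (nat_lit 988) (nat_lit 5908443914) (nat_lit 438) (nat_lit 5) (nat_lit 450) (nat_lit 5) (nat_lit 451) (nat_lit 5) (nat_lit 565) (nat_lit 522) (nat_lit 473)) (XT.nd (nat_lit 78) (nat_lit 912) (nat_lit 0) (XT.lf (nat_lit 0) (nat_lit 4371076136) (nat_lit 988) (nat_lit 1490187182) (nat_lit 76) (nat_lit 1993612591) (nat_lit 438) (nat_lit 5) (nat_lit 451) (nat_lit 5) (nat_lit 439) (nat_lit 5) (nat_lit 566) (nat_lit 522) (nat_lit 472)) (XT.lf (nat_lit 0) (nat_lit 3679446401) (nat_lit 912) (nat_lit 3212497394) (nat_lit 988) (nat_lit 1024386687) (nat_lit 426) (nat_lit 5) (nat_lit 438) (nat_lit 5) (nat_lit 439) (nat_lit 5) (nat_lit 567) (nat_lit 522) (nat_lit 471)))) (XT.nd (nat_lit 156) (nat_lit 1748) (nat_lit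 0) (XT.nd (nat_lit 78) (nat_lit 0) (nat_lit 0) (XT.lf (nat_lit 0) (nat_lit 954158597) (nat_lit 836) (nat_lit 485485628) (nat_lit 912) (nat_lit 6539681940) (nat_lit 414) (nat_lit 5) (nat_lit 425) (nat_lit 5) (nat_lit 426) (nat_lit 5) (nat_lit 568) (nat_lit 522) (nat_lit 470)) (XT.lf (nat_lit 0) (nat_lit 3941941548) (nat_lit 912) (nat_lit 1801480233) (nat_lit 76) (nat_lit 2299973113) (nat_lit 414) (nat_lit 5) (nat_lit 426) (nat_lit 5) (nat_lit 415) (nat_lit 5) (nat_lit 569) (nat_lit 522) (nat_lit 469))) (XT.nd (nat_lit 78) (nat_lit 912) (nat_lit 0) (XT.lf (nat_lit 0) (nat_lit 3527532462) (nat_lit 836) (nat_lit 2952833228) (nat_lit 912) (nat_lit 1628660243) (nat_lit 403) (nat_lit 5) (nat_lit 414) (nat_lit 5) (nat_lit 415) (nat_lit 5) (nat_lit 570) (nat_lit 522) (nat_lit 468)) (XT.lf (nat_lit 0) (nat_lit 773630527) (nat_lit 836) (nat_lit 85641788) (nat_lit 912) (nat_lit 7317035631) (nat_lit 391) (nat_lit 5) (nat_lit 402) (nat_lit 5) (nat_lit 403) (nat_lit 5) (nat_lit 571) (nat_lit 522) (nat_lit 467))))) (XT.nd (nat_lit 312) (nat_lit 2280) (nat_lit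 0) (XT.nd (nat_lit 156) (nat_lit 836) (nat_lit 0) (XT.nd (nat_lit 78) (nat_lit 836) (nat_lit 0) (XT.lf (nat_lit 0) (nat_lit 3385254879) (nat_lit 912) (nat_lit 2018722859) (nat_lit 76) (nat_lit 2840542974) (nat_lit 391) (nat_lit 5) (nat_lit 403) (nat_lit 5) (nat_lit 392) (nat_lit 5) (nat_lit 572) (nat_lit 522) (nat_lit 466)) (XT.lf (nat_lit 0) (nat_lit 3475830664) (nat_lit 836) (nat_lit 2470530514) (nat_lit 912) (nat_lit 2368046833) (nat_lit 380) (nat_lit 5) (nat_lit 391) (nat_lit 5) (nat_lit 392) (nat_lit 5) (nat_lit 573) (nat_lit 522) (nat_lit 465))) (XT.nd (nat_lit 78) (nat_lit 0) (nat_lit 0) (XT.lf (nat_lit 0) (nat_lit 154015866) (nat_lit 836) (nat_lit 7701874143) (nat_lit 76) (nat_lit 530117083) (nat_lit 369) (nat_lit 5) (nat_lit 380) (nat_lit 5) (nat_lit 370) (nat_lit 5) (nat_lit 574) (nat_lit 522) (nat_lit 464)) (XT.lf (nat_lit 0) (nat_lit 2706036581) (nat_lit 836) (nat_lit 2150547806) (nat_lit 76) (nat_lit 3601918438) (nat_lit 369) (nat_lit 5) (nat_lit 380) (nat_lit 5) (nat_lit 370) (nat_lit 5) (nat_lit 575) (nat_lit 522) (nat_lit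 463)))) (XT.nd (nat_lit 156) (nat_lit 836) (nat_lit 0) (XT.nd (nat_lit 78) (nat_lit 684) (nat_lit 0) (XT.lf (nat_lit 0) (nat_lit 3515970492) (nat_lit 760) (nat_lit 1778847101) (nat_lit 836) (nat_lit 3237918658) (nat_lit 359) (nat_lit 5) (nat_lit 369) (nat_lit 5) (nat_lit 370) (nat_lit 5) (nat_lit 576) (nat_lit 522) (nat_lit 462)) (XT.lf (nat_lit 0) (nat_lit 674346628) (nat_lit 684) (nat_lit 7252082026) (nat_lit 760) (nat_lit 682206740) (nat_lit 350) (nat_lit 5) (nat_lit 359) (nat_lit 5) (nat_lit 360) (nat_lit 5) (nat_lit 577) (nat_lit 522) (nat_lit 461))) (XT.nd (nat_lit 78) (nat_lit 760) (nat_lit 0) (XT.lf (nat_lit 0) (nat_lit 1908566476) (nat_lit 760) (nat_lit 2205175489) (nat_lit 76) (nat_lit 4571878911) (nat_lit 349) (nat_lit 5) (nat_lit 359) (nat_lit 5) (nat_lit 350) (nat_lit 5) (nat_lit 578) (nat_lit 522) (nat_lit 460)) (XT.lf (nat_lit 0) (nat_lit 3639994426) (nat_lit 760) (nat_lit 889903329) (nat_lit 836) (nat_lit 4234402592) (nat_lit 339) (nat_lit 5) (nat_lit 349) (nat_lit 5) (nat_lit 350) (nat_lit 5) (nat_lit 579) (nat_lit 522)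 (nat_lit 459)))))) (XT.nd (nat_lit 546) (nat_lit 3040) (nat_lit 0) (XT.nd (nat_lit 234) (nat_lit 1976) (nat_lit 0) (XT.nd (nat_lit 78) (nat_lit 760) (nat_lit 0) (XT.lf (nat_lit 0) (nat_lit 739590820) (nat_lit 684) (nat_lit 6463962407) (nat_lit 760) (nat_lit 1641004202) (nat_lit 330) (nat_lit 5) (nat_lit 339) (nat_lit 5) (nat_lit 340) (nat_lit 5) (nat_lit 580) (nat_lit 522) (nat_lit 458)) (XT.nd (nat_lit 78) (nat_lit 684) (nat_lit 0) (XT.lf (nat_lit 0) (nat_lit 996415075) (nat_lit 760) (nat_lit 2190479784) (nat_lit 76) (nat_lit 5739289802) (nat_lit 329) (nat_lit 5) (nat_lit 339) (nat_lit 5) (nat_lit 330) (nat_lit 5) (nat_lit 581) (nat_lit 522) (nat_lit 457)) (XT.lf (nat_lit 0) (nat_lit 3656272503) (nat_lit 760) (nat_lit 5170330572) (nat_lit 76) (nat_lit 182793025) (nat_lit 320) (nat_lit 5) (nat_lit 330) (nat_lit 5) (nat_lit 321) (nat_lit 5) (nat_lit 582) (nat_lit 522) (nat_lit 456)))) (XT.nd (nat_lit 156) (nat_lit 1368) (nat_lit 0) (XT.nd (nat_lit 78) (nat_lit 0) (nat_lit 0) (XT.lf (nat_lit 0) (nat_lit 873300123) (nat_lit 608) (nat_lit 5503467118)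 (nat_lit 684) (nat_lit 2717357547) (nat_lit 312) (nat_lit 5) (nat_lit 320) (nat_lit 5) (nat_lit 321) (nat_lit 5) (nat_lit 583) (nat_lit 522) (nat_lit 455)) (XT.lf (nat_lit 0) (nat_lit 7066296818) (nat_lit 608) (nat_lit 2086338139) (nat_lit 684) (nat_lit 27895617) (nat_lit 312) (nat_lit 5) (nat_lit 320) (nat_lit 5) (nat_lit 321) (nat_lit 5) (nat_lit 584) (nat_lit 522) (nat_lit 454))) (XT.nd (nat_lit 78) (nat_lit 608) (nat_lit 0) (XT.lf (nat_lit 0) (nat_lit 2682459210) (nat_lit 760) (nat_lit 5168235925) (nat_lit 76) (nat_lit 1417564140) (nat_lit 302) (nat_lit 5) (nat_lit 312) (nat_lit 5) (nat_lit 303) (nat_lit 5) (nat_lit 585) (nat_lit 522) (nat_lit 453)) (XT.lf (nat_lit 0) (nat_lit 1068122107) (nat_lit 608) (nat_lit 4380602006) (nat_lit 684) (nat_lit 3908974903) (nat_lit 294) (nat_lit 5) (nat_lit 302) (nat_lit 5) (nat_lit 303) (nat_lit 5) (nat_lit 586) (nat_lit 522) (nat_lit 452))))) (XT.nd (nat_lit 312) (nat_lit 1748) (nat_lit 0) (XT.nd (nat_lit 156) (nat_lit 608) (nat_lit 0) (XT.nd (nat_lit 78) (nat_lit 684) (nat_lit 0) (XT.lf (nat_lit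 0) (nat_lit 7457980702) (nat_lit 608) (nat_lit 814436183) (nat_lit 684) (nat_lit 1176470266) (nat_lit 294) (nat_lit 5) (nat_lit 302) (nat_lit 5) (nat_lit 303) (nat_lit 5) (nat_lit 587) (nat_lit 522) (nat_lit 451)) (XT.lf (nat_lit 0) (nat_lit 1604770660) (nat_lit 684) (nat_lit 5119673975) (nat_lit 76) (nat_lit 2816942635) (nat_lit 285) (nat_lit 5) (nat_lit 294) (nat_lit 5) (nat_lit 286) (nat_lit 5) (nat_lit 588) (nat_lit 522) (nat_lit 450))) (XT.nd (nat_lit 78) (nat_lit 0) (nat_lit 0) (XT.lf (nat_lit 0) (nat_lit 1316886866) (nat_lit 608) (nat_lit 3104559420) (nat_lit 684) (nat_lit 5214225876) (nat_lit 277) (nat_lit 5) (nat_lit 285) (nat_lit 5) (nat_lit 286) (nat_lit 5) (nat_lit 589) (nat_lit 522) (nat_lit 449)) (XT.lf (nat_lit 0) (nat_lit 7301307579) (nat_lit 684) (nat_lit 1825133848) (nat_lit 76) (nat_lit 605265806) (nat_lit 277) (nat_lit 5) (nat_lit 286) (nat_lit 5) (nat_lit 278) (nat_lit 5) (nat_lit 590) (nat_lit 522) (nat_lit 448)))) (XT.nd (nat_lit 156) (nat_lit 532) (nat_lit 0) (XT.nd (nat_lit 78) (nat_lit 532) (nat_lit 0) (XT.lf (nat_lit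 0) (nat_lit 424670826) (nat_lit 684) (nat_lit 5031956109) (nat_lit 76) (nat_lit 4372565750) (nat_lit 268) (nat_lit 5) (nat_lit 277) (nat_lit 5) (nat_lit 269) (nat_lit 5) (nat_lit 591) (nat_lit 522) (nat_lit 447)) (XT.lf (nat_lit 0) (nat_lit 1612542869) (nat_lit 532) (nat_lit 1683797179) (nat_lit 608) (nat_lit 6632127127) (nat_lit 261) (nat_lit 5) (nat_lit 268) (nat_lit 5) (nat_lit 269) (nat_lit 5) (nat_lit 592) (nat_lit 522) (nat_lit 446))) (XT.nd (nat_lit 78) (nat_lit 532) (nat_lit 0) (XT.lf (nat_lit 0) (nat_lit 6242972738) (nat_lit 608) (nat_lit 1626304503) (nat_lit 76) (nat_lit 2160100722) (nat_lit 261) (nat_lit 5) (nat_lit 269) (nat_lit 5) (nat_lit 262) (nat_lit 5) (nat_lit 593) (nat_lit 522) (nat_lit 445)) (XT.lf (nat_lit 0) (nat_lit 5214028783) (nat_lit 532) (nat_lit 4049597603) (nat_lit 608) (nat_lit 868380196) (nat_lit 254) (nat_lit 5) (nat_lit 261) (nat_lit 5) (nat_lit 262) (nat_lit 5) (nat_lit 594) (nat_lit 522) (nat_lit 444))))))) (XT.nd (nat_lit 75816) (nat_lit 0) (nat_lit 39444) (XT.nd (nat_lit 546) (nat_lit 1520) (nat_lit 0)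 (XT.nd (nat_lit 234) (nat_lit 1520) (nat_lit 0) (XT.nd (nat_lit 78) (nat_lit 532) (nat_lit 0) (XT.lf (nat_lit 0) (nat_lit 1948092116) (nat_lit 532) (nat_lit 126113973) (nat_lit 608) (nat_lit 8162332328) (nat_lit 246) (nat_lit 5) (nat_lit 253) (nat_lit 5) (nat_lit 254) (nat_lit 5) (nat_lit 595) (nat_lit 522) (nat_lit 443)) (XT.nd (nat_lit 78) (nat_lit 532) (nat_lit 0) (XT.lf (nat_lit 0) (nat_lit 5092879972) (nat_lit 608) (nat_lit 1396184636) (nat_lit 76) (nat_lit 3853405512) (nat_lit 246) (nat_lit 5) (nat_lit 254) (nat_lit 5) (nat_lit 247) (nat_lit 5) (nat_lit 596) (nat_lit 522) (nat_lit 442)) (XT.lf (nat_lit 0) (nat_lit 5667517814) (nat_lit 532) (nat_lit 2513088383) (nat_lit 608) (nat_lit 2269741960) (nat_lit 239) (nat_lit 5) (nat_lit 246) (nat_lit 5) (nat_lit 247) (nat_lit 5) (nat_lit 597) (nat_lit 522) (nat_lit 441)))) (XT.nd (nat_lit 156) (nat_lit 988) (nat_lit 0) (XT.nd (nat_lit 78) (nat_lit 0) (nat_lit 0) (XT.lf (nat_lit 0) (nat_lit 765382671) (nat_lit 532) (nat_lit 8253985078) (nat_lit 76) (nat_lit 1540801797) (nat_lit 232) (nat_lit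 5) (nat_lit 239) (nat_lit 5) (nat_lit 233) (nat_lit 5) (nat_lit 598) (nat_lit 522) (nat_lit 440)) (XT.lf (nat_lit 0) (nat_lit 3851197336) (nat_lit 532) (nat_lit 1141877489) (nat_lit 76) (nat_lit 5678406095) (nat_lit 232) (nat_lit 5) (nat_lit 239) (nat_lit 5) (nat_lit 233) (nat_lit 5) (nat_lit 599) (nat_lit 522) (nat_lit 439))) (XT.nd (nat_lit 78) (nat_lit 456) (nat_lit 0) (XT.lf (nat_lit 0) (nat_lit 6153711433) (nat_lit 532) (nat_lit 856931765) (nat_lit 608) (nat_lit 3774138203) (nat_lit 225) (nat_lit 5) (nat_lit 232) (nat_lit 5) (nat_lit 233) (nat_lit 5) (nat_lit 600) (nat_lit 522) (nat_lit 438)) (XT.lf (nat_lit 0) (nat_lit 2684130351) (nat_lit 456) (nat_lit 7568297745) (nat_lit 532) (nat_lit 647537948) (nat_lit 219) (nat_lit 5) (nat_lit 225) (nat_lit 5) (nat_lit 226) (nat_lit 5) (nat_lit 601) (nat_lit 522) (nat_lit 437))))) (XT.nd (nat_lit 312) (nat_lit 456) (nat_lit 0) (XT.nd (nat_lit 156) (nat_lit 532) (nat_lit 0) (XT.nd (nat_lit 78) (nat_lit 456) (nat_lit 0) (XT.lf (nat_lit 0) (nat_lit 2517506357) (nat_lit 532) (nat_lit 870603430) (nat_lit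 76) (nat_lit 7628830760) (nat_lit 218) (nat_lit 5) (nat_lit 225) (nat_lit 5) (nat_lit 219) (nat_lit 5) (nat_lit 602) (nat_lit 522) (nat_lit 436)) (XT.lf (nat_lit 0) (nat_lit 5759221640) (nat_lit 532) (nat_lit 4476122655) (nat_lit 76) (nat_lit 900384917) (nat_lit 212) (nat_lit 5) (nat_lit 219) (nat_lit 5) (nat_lit 213) (nat_lit 5) (nat_lit 603) (nat_lit 522) (nat_lit 435))) (XT.nd (nat_lit 78) (nat_lit 76) (nat_lit 0) (XT.lf (nat_lit 0) (nat_lit 3074062826) (nat_lit 456) (nat_lit 6013021062) (nat_lit 532) (nat_lit 2169384578) (nat_lit 206) (nat_lit 5) (nat_lit 212) (nat_lit 5) (nat_lit 213) (nat_lit 5) (nat_lit 604) (nat_lit 522) (nat_lit 434)) (XT.lf (nat_lit 0) (nat_lit 1090798621) (nat_lit 532) (nat_lit 589770569) (nat_lit 76) (nat_lit 9698843874) (nat_lit 205) (nat_lit 5) (nat_lit 212) (nat_lit 5) (nat_lit 206) (nat_lit 5) (nat_lit 605) (nat_lit 522) (nat_lit 433)))) (XT.nd (nat_lit 74802) (nat_lit 0) (nat_lit 43472) (XT.nd (nat_lit 74724) (nat_lit 0) (nat_lit 43852) (XT.lf (nat_lit 0) (nat_lit 4425652434) (nat_lit 532) (nat_lit 4326050390)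 (nat_lit 76) (nat_lit 2752057645) (nat_lit 199) (nat_lit 5) (nat_lit 206) (nat_lit 5) (nat_lit 200) (nat_lit 5) (nat_lit 606) (nat_lit 522) (nat_lit 432)) (XT.lf (nat_lit 0) (nat_lit 1373098768) (nat_lit 0) (nat_lit 1373098768) (nat_lit 228) (nat_lit 483455764) (nat_lit 776) (nat_lit 5) (nat_lit 776) (nat_lit 3) (nat_lit 779) (nat_lit 3) (nat_lit 523) (nat_lit 523) (nat_lit 514))) (XT.nd (nat_lit 78) (nat_lit 0) (nat_lit 0) (XT.lf (nat_lit 0) (nat_lit 1937279607) (nat_lit 380) (nat_lit 496626181) (nat_lit 380) (nat_lit 4031780428) (nat_lit 771) (nat_lit 3) (nat_lit 776) (nat_lit 3) (nat_lit 776) (nat_lit 5) (nat_lit 524) (nat_lit 523) (nat_lit 513)) (XT.lf (nat_lit 76) (nat_lit 2775369477) (nat_lit 0) (nat_lit 2053174142) (nat_lit 380) (nat_lit 1644691634) (nat_lit 772) (nat_lit 5) (nat_lit 771) (nat_lit 3) (nat_lit 776) (nat_lit 5) (nat_lit 525) (nat_lit 523) (nat_lit 512)))))) (XT.nd (nat_lit 546) (nat_lit 2736) (nat_lit 0) (XT.nd (nat_lit 234) (nat_lit 456) (nat_lit 0) (XT.nd (nat_lit 78) (nat_lit 456) (nat_lit 0) (XT.lf (nat_lit 0) (nat_lit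 1207688175) (nat_lit 380) (nat_lit 409339891) (nat_lit 456) (nat_lit 4865186932) (nat_lit 766) (nat_lit 5) (nat_lit 771) (nat_lit 3) (nat_lit 772) (nat_lit 5) (nat_lit 526) (nat_lit 523) (nat_lit 511)) (XT.nd (nat_lit 78) (nat_lit 456) (nat_lit 0) (XT.lf (nat_lit 76) (nat_lit 2933749868) (nat_lit 0) (nat_lit 1106531595) (nat_lit 456) (nat_lit 2451979572) (nat_lit 767) (nat_lit 5) (nat_lit 766) (nat_lit 5) (nat_lit 772) (nat_lit 5) (nat_lit 527) (nat_lit 523) (nat_lit 510)) (XT.lf (nat_lit 0) (nat_lit 351012599) (nat_lit 456) (nat_lit 195509682) (nat_lit 532) (nat_lit 5957345957) (nat_lit 760) (nat_lit 5) (nat_lit 766) (nat_lit 5) (nat_lit 767) (nat_lit 5) (nat_lit 528) (nat_lit 523) (nat_lit 509)))) (XT.nd (nat_lit 156) (nat_lit 532) (nat_lit 0) (XT.nd (nat_lit 78) (nat_lit 0) (nat_lit 0) (XT.lf (nat_lit 0) (nat_lit 3127067485) (nat_lit 456) (nat_lit 3294997369) (nat_lit 532) (nat_lit 94329317) (nat_lit 761) (nat_lit 5) (nat_lit 767) (nat_lit 5) (nat_lit 768) (nat_lit 5) (nat_lit 529) (nat_lit 523) (nat_lit 508)) (XT.lf (nat_lit 76) (nat_lit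 138218313) (nat_lit 0) (nat_lit 5755891695) (nat_lit 532) (nat_lit 636358573) (nat_lit 762) (nat_lit 5) (nat_lit 761) (nat_lit 5) (nat_lit 768) (nat_lit 5) (nat_lit 530) (nat_lit 523) (nat_lit 507))) (XT.nd (nat_lit 78) (nat_lit 0) (nat_lit 0) (XT.lf (nat_lit 0) (nat_lit 2095729222) (nat_lit 532) (nat_lit 2914648940) (nat_lit 608) (nat_lit 1535120483) (nat_lit 754) (nat_lit 5) (nat_lit 761) (nat_lit 5) (nat_lit 762) (nat_lit 5) (nat_lit 531) (nat_lit 523) (nat_lit 506)) (XT.lf (nat_lit 76) (nat_lit 596124870) (nat_lit 0) (nat_lit 4213342985) (nat_lit 608) (nat_lit 1752573599) (nat_lit 755) (nat_lit 5) (nat_lit 754) (nat_lit 5) (nat_lit 762) (nat_lit 5) (nat_lit 532) (nat_lit 523) (nat_lit 505))))) (XT.nd (nat_lit 312) (nat_lit 1444) (nat_lit 0) (XT.nd (nat_lit 156) (nat_lit 684) (nat_lit 0) (XT.nd (nat_lit 78) (nat_lit 0) (nat_lit 0) (XT.lf (nat_lit 0) (nat_lit 937439800) (nat_lit 608) (nat_lit 2409140861) (nat_lit 684) (nat_lit 3233171992) (nat_lit 746) (nat_lit 5) (nat_lit 754) (nat_lit 5) (nat_lit 755) (nat_lit 5) (nat_lit 533) (nat_lit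 523) (nat_lit 504)) (XT.lf (nat_lit 76) (nat_lit 1182846757) (nat_lit 0) (nat_lit 2416250999) (nat_lit 684) (nat_lit 2999668877) (nat_lit 747) (nat_lit 5) (nat_lit 746) (nat_lit 5) (nat_lit 755) (nat_lit 5) (nat_lit 534) (nat_lit 523) (nat_lit 503))) (XT.nd (nat_lit 78) (nat_lit 684) (nat_lit 0) (XT.lf (nat_lit 76) (nat_lit 4839762292) (nat_lit 0) (nat_lit 1425047542) (nat_lit 684) (nat_lit 354340987) (nat_lit 747) (nat_lit 5) (nat_lit 746) (nat_lit 5) (nat_lit 755) (nat_lit 5) (nat_lit 535) (nat_lit 523) (nat_lit 502)) (XT.lf (nat_lit 76) (nat_lit 1899917364) (nat_lit 0) (nat_lit 361076272) (nat_lit 760) (nat_lit 4379693978) (nat_lit 738) (nat_lit 5) (nat_lit 737) (nat_lit 5) (nat_lit 747) (nat_lit 5) (nat_lit 536) (nat_lit 523) (nat_lit 501)))) (XT.nd (nat_lit 156) (nat_lit 760) (nat_lit 0) (XT.nd (nat_lit 78) (nat_lit 760) (nat_lit 0) (XT.lf (nat_lit 0) (nat_lit 4877286775) (nat_lit 684) (nat_lit 1033441348) (nat_lit 76) (nat_lit 752818227) (nat_lit 738) (nat_lit 5) (nat_lit 747) (nat_lit 5) (nat_lit 739) (nat_lit 5) (nat_lit 537) (nat_lit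 523) (nat_lit 500)) (XT.lf (nat_lit 0) (nat_lit 805597334) (nat_lit 760) (nat_lit 3951433337) (nat_lit 76) (nat_lit 1930569381) (nat_lit 728) (nat_lit 5) (nat_lit 738) (nat_lit 5) (nat_lit 729) (nat_lit 5) (nat_lit 538) (nat_lit 523) (nat_lit 499))) (XT.nd (nat_lit 78) (nat_lit 760) (nat_lit 0) (XT.lf (nat_lit 0) (nat_lit 3370837563) (nat_lit 760) (nat_lit 169282622) (nat_lit 76) (nat_lit 3172874850) (nat_lit 728) (nat_lit 5) (nat_lit 738) (nat_lit 5) (nat_lit 729) (nat_lit 5) (nat_lit 539) (nat_lit 523) (nat_lit 498)) (XT.lf (nat_lit 0) (nat_lit 3697209950) (nat_lit 760) (nat_lit 2253845010) (nat_lit 836) (nat_lit 788575035) (nat_lit 718) (nat_lit 5) (nat_lit 728) (nat_lit 5) (nat_lit 729) (nat_lit 5) (nat_lit 540) (nat_lit 523) (nat_lit 497))))))))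
noncomputable def xc38 : XT := (XT.nd (nat_lit 2340) (nat_lit 13528) (nat_lit 0) (XT.nd (nat_lit 1170) (nat_lit 13224) (nat_lit 0) (XT.nd (nat_lit 546) (nat_lit 6688) (nat_lit 0) (XT.nd (nat_lit 234) (nat_lit 2204) (nat_lit 0) (XT.nd (nat_lit 78) (nat_lit 912) (nat_lit 0) (XT.lf (nat_lit 0) (nat_lit 835380530) (nat_lit 836) (nat_lit 903642859) (nat_lit 912) (nat_lit 5028608501) (nat_lit 706) (nat_lit 5) (nat_lit 717) (nat_lit 5) (nat_lit 718) (nat_lit 5) (nat_lit 541) (nat_lit 523) (nat_lit 496)) (XT.nd (nat_lit 78) (nat_lit 912) (nat_lit 0) (XT.lf (nat_lit 0) (nat_lit 4271480741) (nat_lit 912) (nat_lit 2013608829) (nat_lit 76) (nat_lit 511707889) (nat_lit 706) (nat_lit 5) (nat_lit 718) (nat_lit 5) (nat_lit 707) (nat_lit 5) (nat_lit 542) (nat_lit 523) (nat_lit 495)) (XT.lf (nat_lit 0) (nat_lit 1962604218) (nat_lit 912) (nat_lit 4853092263) (nat_lit 988) (nat_lit 11632778) (nat_lit 694) (nat_lit 5) (nat_lit 706) (nat_lit 5) (nat_lit 707) (nat_lit 5) (nat_lit 543) (nat_lit 523) (nat_lit 494)))) (XT.nd (nat_lit 156) (nat_lit 1140) (nat_lit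 0) (XT.nd (nat_lit 78) (nat_lit 988) (nat_lit 0) (XT.lf (nat_lit 0) (nat_lit 2475322228) (nat_lit 988) (nat_lit 870280954) (nat_lit 76) (nat_lit 3513412558) (nat_lit 693) (nat_lit 5) (nat_lit 706) (nat_lit 5) (nat_lit 694) (nat_lit 5) (nat_lit 544) (nat_lit 523) (nat_lit 493)) (XT.lf (nat_lit 0) (nat_lit 3205769056) (nat_lit 988) (nat_lit 1770895566) (nat_lit 1064) (nat_lit 1915378520) (nat_lit 680) (nat_lit 5) (nat_lit 693) (nat_lit 5) (nat_lit 694) (nat_lit 5) (nat_lit 545) (nat_lit 523) (nat_lit 492))) (XT.nd (nat_lit 78) (nat_lit 0) (nat_lit 0) (XT.lf (nat_lit 0) (nat_lit 410225527) (nat_lit 1064) (nat_lit 137178635) (nat_lit 1140) (nat_lit 6379193327) (nat_lit 665) (nat_lit 5) (nat_lit 679) (nat_lit 5) (nat_lit 680) (nat_lit 5) (nat_lit 546) (nat_lit 523) (nat_lit 491)) (XT.lf (nat_lit 0) (nat_lit 3014026309) (nat_lit 1140) (nat_lit 2387153279) (nat_lit 76) (nat_lit 1560810040) (nat_lit 665) (nat_lit 5) (nat_lit 680) (nat_lit 5) (nat_lit 666) (nat_lit 5) (nat_lit 547) (nat_lit 523) (nat_lit 490))))) (XT.nd (nat_lit 312) (nat_lit 2964)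 (nat_lit 0) (XT.nd (nat_lit 156) (nat_lit 2508) (nat_lit 0) (XT.nd (nat_lit 78) (nat_lit 76) (nat_lit 0) (XT.lf (nat_lit 0) (nat_lit 1806600363) (nat_lit 1140) (nat_lit 3682467113) (nat_lit 1216) (nat_lit 1509844845) (nat_lit 650) (nat_lit 5) (nat_lit 665) (nat_lit 5) (nat_lit 666) (nat_lit 5) (nat_lit 548) (nat_lit 523) (nat_lit 489)) (XT.lf (nat_lit 0) (nat_lit 927228511) (nat_lit 1216) (nat_lit 967391544) (nat_lit 76) (nat_lit 5142570681) (nat_lit 649) (nat_lit 5) (nat_lit 665) (nat_lit 5) (nat_lit 650) (nat_lit 5) (nat_lit 549) (nat_lit 523) (nat_lit 488))) (XT.nd (nat_lit 78) (nat_lit 1292) (nat_lit 0) (XT.lf (nat_lit 0) (nat_lit 3335304389) (nat_lit 1216) (nat_lit 27118946) (nat_lit 1292) (nat_lit 3714224034) (nat_lit 633) (nat_lit 5) (nat_lit 649) (nat_lit 5) (nat_lit 650) (nat_lit 5) (nat_lit 550) (nat_lit 523) (nat_lit 487)) (XT.lf (nat_lit 0) (nat_lit 574399646) (nat_lit 1292) (nat_lit 5243133173) (nat_lit 1368) (nat_lit 1299940204) (nat_lit 616) (nat_lit 5) (nat_lit 633) (nat_lit 5) (nat_lit 634) (nat_lit 5) (nat_lit 551) (nat_lit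 523) (nat_lit 486)))) (XT.nd (nat_lit 156) (nat_lit 1520) (nat_lit 0) (XT.nd (nat_lit 78) (nat_lit 1368) (nat_lit 0) (XT.lf (nat_lit 0) (nat_lit 1121988595) (nat_lit 1368) (nat_lit 2181046808) (nat_lit 76) (nat_lit 3856440616) (nat_lit 615) (nat_lit 5) (nat_lit 633) (nat_lit 5) (nat_lit 616) (nat_lit 5) (nat_lit 552) (nat_lit 523) (nat_lit 485)) (XT.lf (nat_lit 0) (nat_lit 2248203546) (nat_lit 1368) (nat_lit 1291511425) (nat_lit 1444) (nat_lit 3663140813) (nat_lit 597) (nat_lit 5) (nat_lit 615) (nat_lit 5) (nat_lit 616) (nat_lit 5) (nat_lit 553) (nat_lit 523) (nat_lit 484))) (XT.nd (nat_lit 78) (nat_lit 1520) (nat_lit 0) (XT.lf (nat_lit 0) (nat_lit 5976385779) (nat_lit 1444) (nat_lit 497905942) (nat_lit 76) (nat_lit 773403419) (nat_lit 597) (nat_lit 5) (nat_lit 616) (nat_lit 5) (nat_lit 598) (nat_lit 5) (nat_lit 554) (nat_lit 523) (nat_lit 483)) (XT.lf (nat_lit 0) (nat_lit 1139686810) (nat_lit 1520) (nat_lit 3249486104) (nat_lit 76) (nat_lit 2904377271) (nat_lit 577) (nat_lit 5) (nat_lit 597) (nat_lit 5) (nat_lit 578) (nat_lit 5) (nat_lit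 555) (nat_lit 523) (nat_lit 482)))))) (XT.nd (nat_lit 546) (nat_lit 6536) (nat_lit 0) (XT.nd (nat_lit 234) (nat_lit 3496) (nat_lit 0) (XT.nd (nat_lit 78) (nat_lit 1672) (nat_lit 0) (XT.lf (nat_lit 0) (nat_lit 1310899903) (nat_lit 1520) (nat_lit 2235116230) (nat_lit 1596) (nat_lit 3794858985) (nat_lit 557) (nat_lit 5) (nat_lit 577) (nat_lit 5) (nat_lit 578) (nat_lit 5) (nat_lit 556) (nat_lit 523) (nat_lit 481)) (XT.nd (nat_lit 78) (nat_lit 1672) (nat_lit 0) (XT.lf (nat_lit 0) (nat_lit 5965593812) (nat_lit 1520) (nat_lit 9600072) (nat_lit 1596) (nat_lit 1414461731) (nat_lit 557) (nat_lit 5) (nat_lit 577) (nat_lit 5) (nat_lit 578) (nat_lit 5) (nat_lit 557) (nat_lit 523) (nat_lit 480)) (XT.lf (nat_lit 0) (nat_lit 989906039) (nat_lit 1672) (nat_lit 4185181786) (nat_lit 76) (nat_lit 2264402544) (nat_lit 535) (nat_lit 5) (nat_lit 557) (nat_lit 5) (nat_lit 536) (nat_lit 5) (nat_lit 558) (nat_lit 523) (nat_lit 479)))) (XT.nd (nat_lit 156) (nat_lit 1824) (nat_lit 0) (XT.nd (nat_lit 78) (nat_lit 0) (nat_lit 0) (XT.lf (nat_lit 0) (nat_lit 511177642)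 (nat_lit 1672) (nat_lit 2879476566) (nat_lit 1748) (nat_lit 4100139266) (nat_lit 513) (nat_lit 5) (nat_lit 535) (nat_lit 5) (nat_lit 536) (nat_lit 5) (nat_lit 559) (nat_lit 523) (nat_lit 478)) (XT.lf (nat_lit 0) (nat_lit 5317016608) (nat_lit 1672) (nat_lit 505328940) (nat_lit 1748) (nat_lit 1721121768) (nat_lit 513) (nat_lit 5) (nat_lit 535) (nat_lit 5) (nat_lit 536) (nat_lit 5) (nat_lit 560) (nat_lit 523) (nat_lit 477))) (XT.nd (nat_lit 78) (nat_lit 0) (nat_lit 0) (XT.lf (nat_lit 0) (nat_lit 681212914) (nat_lit 1824) (nat_lit 4999799170) (nat_lit 76) (nat_lit 1916394264) (nat_lit 489) (nat_lit 5) (nat_lit 513) (nat_lit 5) (nat_lit 490) (nat_lit 5) (nat_lit 561) (nat_lit 523) (nat_lit 476)) (XT.lf (nat_lit 0) (nat_lit 3083019508) (nat_lit 1824) (nat_lit 160243362) (nat_lit 76) (nat_lit 4409447391) (nat_lit 489) (nat_lit 5) (nat_lit 513) (nat_lit 5) (nat_lit 490) (nat_lit 5) (nat_lit 562) (nat_lit 523) (nat_lit 475))))) (XT.nd (nat_lit 312) (nat_lit 2660) (nat_lit 0) (XT.nd (nat_lit 156) (nat_lit 912) (nat_lit 0) (XT.nd (nat_lit 78) (nat_lit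 1140) (nat_lit 0) (XT.lf (nat_lit 0) (nat_lit 4798248444) (nat_lit 1824) (nat_lit 722692050) (nat_lit 1900) (nat_lit 2188421182) (nat_lit 465) (nat_lit 5) (nat_lit 489) (nat_lit 5) (nat_lit 490) (nat_lit 5) (nat_lit 563) (nat_lit 523) (nat_lit 474)) (XT.lf (nat_lit 0) (nat_lit 221218166) (nat_lit 1140) (nat_lit 5704278246) (nat_lit 76) (nat_lit 1841943388) (nat_lit 450) (nat_lit 5) (nat_lit 465) (nat_lit 5) (nat_lit 451) (nat_lit 5) (nat_lit 564) (nat_lit 523) (nat_lit 473))) (XT.nd (nat_lit 78) (nat_lit 912) (nat_lit 0) (XT.lf (nat_lit 0) (nat_lit 2632030106) (nat_lit 1140) (nat_lit 710987953) (nat_lit 76) (nat_lit 4483729283) (nat_lit 450) (nat_lit 5) (nat_lit 465) (nat_lit 5) (nat_lit 451) (nat_lit 5) (nat_lit 565) (nat_lit 523) (nat_lit 472)) (XT.lf (nat_lit 0) (nat_lit 4399005380) (nat_lit 912) (nat_lit 679246379) (nat_lit 988) (nat_lit 2809248168) (nat_lit 438) (nat_lit 5) (nat_lit 450) (nat_lit 5) (nat_lit 451) (nat_lit 5) (nat_lit 566) (nat_lit 523) (nat_lit 471)))) (XT.nd (nat_lit 156) (nat_lit 1672) (nat_lit 0) (XT.nd (nat_lit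 78) (nat_lit 76) (nat_lit 0) (XT.lf (nat_lit 0) (nat_lit 1638279708) (nat_lit 912) (nat_lit 5922969724) (nat_lit 988) (nat_lit 388463808) (nat_lit 426) (nat_lit 5) (nat_lit 438) (nat_lit 5) (nat_lit 439) (nat_lit 5) (nat_lit 567) (nat_lit 523) (nat_lit 470)) (XT.lf (nat_lit 0) (nat_lit 2040955202) (nat_lit 988) (nat_lit 1157666059) (nat_lit 76) (nat_lit 4814531807) (nat_lit 425) (nat_lit 5) (nat_lit 438) (nat_lit 5) (nat_lit 426) (nat_lit 5) (nat_lit 568) (nat_lit 523) (nat_lit 469))) (XT.nd (nat_lit 78) (nat_lit 836) (nat_lit 0) (XT.lf (nat_lit 0) (nat_lit 4109642589) (nat_lit 836) (nat_lit 391046260) (nat_lit 912) (nat_lit 3577385485) (nat_lit 414) (nat_lit 5) (nat_lit 425) (nat_lit 5) (nat_lit 426) (nat_lit 5) (nat_lit 569) (nat_lit 523) (nat_lit 468)) (XT.lf (nat_lit 0) (nat_lit 1313603572) (nat_lit 836) (nat_lit 5689164361) (nat_lit 912) (nat_lit 1141665579) (nat_lit 403) (nat_lit 5) (nat_lit 414) (nat_lit 5) (nat_lit 415) (nat_lit 5) (nat_lit 570) (nat_lit 523) (nat_lit 467))))))) (XT.nd (nat_lit 1170) (nat_lit 5852) (nat_lit 0) (XT.nd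 (nat_lit 546) (nat_lit 4332) (nat_lit 0) (XT.nd (nat_lit 234) (nat_lit 1596) (nat_lit 0) (XT.nd (nat_lit 78) (nat_lit 1672) (nat_lit 0) (XT.lf (nat_lit 0) (nat_lit 1315545886) (nat_lit 912) (nat_lit 1509617456) (nat_lit 76) (nat_lit 5386976817) (nat_lit 402) (nat_lit 5) (nat_lit 414) (nat_lit 5) (nat_lit 403) (nat_lit 5) (nat_lit 571) (nat_lit 523) (nat_lit 466)) (XT.nd (nat_lit 78) (nat_lit 836) (nat_lit 0) (XT.lf (nat_lit 0) (nat_lit 3794669699) (nat_lit 912) (nat_lit 4361052290) (nat_lit 76) (nat_lit 125569279) (nat_lit 391) (nat_lit 5) (nat_lit 403) (nat_lit 5) (nat_lit 392) (nat_lit 5) (nat_lit 572) (nat_lit 523) (nat_lit 465)) (XT.lf (nat_lit 0) (nat_lit 1081668879) (nat_lit 836) (nat_lit 5239862147) (nat_lit 912) (nat_lit 2030333583) (nat_lit 380) (nat_lit 5) (nat_lit 391) (nat_lit 5) (nat_lit 392) (nat_lit 5) (nat_lit 573) (nat_lit 523) (nat_lit 464)))) (XT.nd (nat_lit 156) (nat_lit 760) (nat_lit 0) (XT.nd (nat_lit 78) (nat_lit 760) (nat_lit 0) (XT.lf (nat_lit 0) (nat_lit 460758399) (nat_lit 912) (nat_lit 1775686114) (nat_lit 76)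 (nat_lit 6187507257) (nat_lit 379) (nat_lit 5) (nat_lit 391) (nat_lit 5) (nat_lit 380) (nat_lit 5) (nat_lit 574) (nat_lit 523) (nat_lit 463)) (XT.lf (nat_lit 0) (nat_lit 2968128761) (nat_lit 836) (nat_lit 4678311194) (nat_lit 76) (nat_lit 850901632) (nat_lit 369) (nat_lit 5) (nat_lit 380) (nat_lit 5) (nat_lit 370) (nat_lit 5) (nat_lit 575) (nat_lit 523) (nat_lit 462))) (XT.nd (nat_lit 78) (nat_lit 0) (nat_lit 0) (XT.lf (nat_lit 0) (nat_lit 933985161) (nat_lit 760) (nat_lit 4588150493) (nat_lit 836) (nat_lit 3050135898) (nat_lit 359) (nat_lit 5) (nat_lit 369) (nat_lit 5) (nat_lit 370) (nat_lit 5) (nat_lit 576) (nat_lit 523) (nat_lit 461)) (XT.lf (nat_lit 0) (nat_lit 6681089085) (nat_lit 760) (nat_lit 1441595106) (nat_lit 836) (nat_lit 526108791) (nat_lit 359) (nat_lit 5) (nat_lit 369) (nat_lit 5) (nat_lit 370) (nat_lit 5) (nat_lit 577) (nat_lit 523) (nat_lit 460))))) (XT.nd (nat_lit 312) (nat_lit 2052) (nat_lit 0) (XT.nd (nat_lit 156) (nat_lit 760) (nat_lit 0) (XT.nd (nat_lit 78) (nat_lit 760) (nat_lit 0) (XT.lf (nat_lit 0) (nat_lit 2022521055)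 (nat_lit 760) (nat_lit 4926027003) (nat_lit 76) (nat_lit 1778013055) (nat_lit 349) (nat_lit 5) (nat_lit 359) (nat_lit 5) (nat_lit 350) (nat_lit 5) (nat_lit 578) (nat_lit 523) (nat_lit 459)) (XT.lf (nat_lit 0) (nat_lit 862453421) (nat_lit 760) (nat_lit 3746007261) (nat_lit 836) (nat_lit 4197488712) (nat_lit 339) (nat_lit 5) (nat_lit 349) (nat_lit 5) (nat_lit 350) (nat_lit 5) (nat_lit 579) (nat_lit 523) (nat_lit 458))) (XT.nd (nat_lit 78) (nat_lit 760) (nat_lit 0) (XT.lf (nat_lit 0) (nat_lit 6792817996) (nat_lit 760) (nat_lit 451717679) (nat_lit 836) (nat_lit 1642423367) (nat_lit 339) (nat_lit 5) (nat_lit 349) (nat_lit 5) (nat_lit 350) (nat_lit 5) (nat_lit 580) (nat_lit 523) (nat_lit 457)) (XT.lf (nat_lit 0) (nat_lit 961136931) (nat_lit 760) (nat_lit 5112231654) (nat_lit 76) (nat_lit 2895896346) (nat_lit 329) (nat_lit 5) (nat_lit 339) (nat_lit 5) (nat_lit 330) (nat_lit 5) (nat_lit 581) (nat_lit 523) (nat_lit 456)))) (XT.nd (nat_lit 156) (nat_lit 1368) (nat_lit 0) (XT.nd (nat_lit 78) (nat_lit 0) (nat_lit 0) (XT.lf (nat_lit 0) (nat_lit 859300807)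 (nat_lit 684) (nat_lit 2724394966) (nat_lit 760) (nat_lit 5469527471) (nat_lit 320) (nat_lit 5) (nat_lit 329) (nat_lit 5) (nat_lit 330) (nat_lit 5) (nat_lit 582) (nat_lit 523) (nat_lit 455)) (XT.lf (nat_lit 0) (nat_lit 6264266288) (nat_lit 760) (nat_lit 2164376613) (nat_lit 76) (nat_lit 710108401) (nat_lit 320) (nat_lit 5) (nat_lit 330) (nat_lit 5) (nat_lit 321) (nat_lit 5) (nat_lit 583) (nat_lit 523) (nat_lit 454))) (XT.nd (nat_lit 78) (nat_lit 760) (nat_lit 0) (XT.lf (nat_lit 0) (nat_lit 3979670377) (nat_lit 608) (nat_lit 5029852458) (nat_lit 684) (nat_lit 216247343) (nat_lit 312) (nat_lit 5) (nat_lit 320) (nat_lit 5) (nat_lit 321) (nat_lit 5) (nat_lit 584) (nat_lit 523) (nat_lit 453)) (XT.lf (nat_lit 0) (nat_lit 917016310) (nat_lit 684) (nat_lit 1533349438) (nat_lit 760) (nat_lit 6864082663) (nat_lit 302) (nat_lit 5) (nat_lit 311) (nat_lit 5) (nat_lit 312) (nat_lit 5) (nat_lit 585) (nat_lit 523) (nat_lit 452)))))) (XT.nd (nat_lit 546) (nat_lit 3268) (nat_lit 0) (XT.nd (nat_lit 234) (nat_lit 1292) (nat_lit 0) (XT.nd (nat_lit 78) (nat_lit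 1292) (nat_lit 0) (XT.lf (nat_lit 0) (nat_lit 5183744641) (nat_lit 760) (nat_lit 2185296446) (nat_lit 76) (nat_lit 2035505601) (nat_lit 302) (nat_lit 5) (nat_lit 312) (nat_lit 5) (nat_lit 303) (nat_lit 5) (nat_lit 586) (nat_lit 523) (nat_lit 451)) (XT.nd (nat_lit 78) (nat_lit 684) (nat_lit 0) (XT.lf (nat_lit 0) (nat_lit 4155484114) (nat_lit 608) (nat_lit 3821764363) (nat_lit 684) (nat_lit 1519090926) (nat_lit 294) (nat_lit 5) (nat_lit 302) (nat_lit 5) (nat_lit 303) (nat_lit 5) (nat_lit 587) (nat_lit 523) (nat_lit 450)) (XT.lf (nat_lit 0) (nat_lit 1028286951) (nat_lit 608) (nat_lit 182063573) (nat_lit 684) (nat_lit 8379660119) (nat_lit 285) (nat_lit 5) (nat_lit 293) (nat_lit 5) (nat_lit 294) (nat_lit 5) (nat_lit 588) (nat_lit 523) (nat_lit 449)))) (XT.nd (nat_lit 156) (nat_lit 684) (nat_lit 0) (XT.nd (nat_lit 78) (nat_lit 608) (nat_lit 0) (XT.lf (nat_lit 0) (nat_lit 4001838654) (nat_lit 684) (nat_lit 2161254678) (nat_lit 76) (nat_lit 3521706707) (nat_lit 285) (nat_lit 5) (nat_lit 294) (nat_lit 5) (nat_lit 286) (nat_lit 5) (nat_lit 589) (nat_lit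 523) (nat_lit 448)) (XT.lf (nat_lit 0) (nat_lit 4383900454) (nat_lit 608) (nat_lit 2464317412) (nat_lit 684) (nat_lit 2933287627) (nat_lit 277) (nat_lit 5) (nat_lit 285) (nat_lit 5) (nat_lit 286) (nat_lit 5) (nat_lit 590) (nat_lit 523) (nat_lit 447))) (XT.nd (nat_lit 78) (nat_lit 76) (nat_lit 0) (XT.lf (nat_lit 0) (nat_lit 1176336386) (nat_lit 608) (nat_lit 8575598300) (nat_lit 684) (nat_lit 128203635) (nat_lit 269) (nat_lit 5) (nat_lit 277) (nat_lit 5) (nat_lit 278) (nat_lit 5) (nat_lit 591) (nat_lit 523) (nat_lit 446)) (XT.lf (nat_lit 0) (nat_lit 2719734354) (nat_lit 684) (nat_lit 2099441307) (nat_lit 76) (nat_lit 5160762748) (nat_lit 268) (nat_lit 5) (nat_lit 277) (nat_lit 5) (nat_lit 269) (nat_lit 5) (nat_lit 592) (nat_lit 523) (nat_lit 445))))) (XT.nd (nat_lit 312) (nat_lit 1596) (nat_lit 0) (XT.nd (nat_lit 156) (nat_lit 608) (nat_lit 0) (XT.nd (nat_lit 78) (nat_lit 532) (nat_lit 0) (XT.lf (nat_lit 0) (nat_lit 4657992690) (nat_lit 532) (nat_lit 965573249) (nat_lit 608) (nat_lit 4458139964) (nat_lit 261) (nat_lit 5) (nat_lit 268) (nat_lit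 5) (nat_lit 269) (nat_lit 5) (nat_lit 593) (nat_lit 523) (nat_lit 444)) (XT.lf (nat_lit 0) (nat_lit 1352682379) (nat_lit 532) (nat_lit 7245678327) (nat_lit 608) (nat_lit 1586891664) (nat_lit 254) (nat_lit 5) (nat_lit 261) (nat_lit 5) (nat_lit 262) (nat_lit 5) (nat_lit 594) (nat_lit 523) (nat_lit 443))) (XT.nd (nat_lit 78) (nat_lit 532) (nat_lit 0) (XT.lf (nat_lit 0) (nat_lit 1338013153) (nat_lit 608) (nat_lit 2007013232) (nat_lit 76) (nat_lit 6945393863) (nat_lit 253) (nat_lit 5) (nat_lit 261) (nat_lit 5) (nat_lit 254) (nat_lit 5) (nat_lit 595) (nat_lit 523) (nat_lit 442)) (XT.lf (nat_lit 0) (nat_lit 4308162771) (nat_lit 608) (nat_lit 5430873650) (nat_lit 76) (nat_lit 658286647) (nat_lit 246) (nat_lit 5) (nat_lit 254) (nat_lit 5) (nat_lit 247) (nat_lit 5) (nat_lit 596) (nat_lit 523) (nat_lit 441)))) (XT.nd (nat_lit 156) (nat_lit 1064) (nat_lit 0) (XT.nd (nat_lit 78) (nat_lit 0) (nat_lit 0) (XT.lf (nat_lit 0) (nat_lit 1559587495) (nat_lit 532) (nat_lit 5795577671) (nat_lit 608) (nat_lit 3150851036) (nat_lit 239) (nat_lit 5) (nat_lit 246)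 (nat_lit 5) (nat_lit 247) (nat_lit 5) (nat_lit 597) (nat_lit 523) (nat_lit 440)) (XT.lf (nat_lit 0) (nat_lit 8724614714) (nat_lit 532) (nat_lit 1746855301) (nat_lit 608) (nat_lit 145247160) (nat_lit 239) (nat_lit 5) (nat_lit 246) (nat_lit 5) (nat_lit 247) (nat_lit 5) (nat_lit 598) (nat_lit 523) (nat_lit 439))) (XT.nd (nat_lit 78) (nat_lit 532) (nat_lit 0) (XT.lf (nat_lit 0) (nat_lit 2904719495) (nat_lit 532) (nat_lit 5429277373) (nat_lit 76) (nat_lit 2394806183) (nat_lit 232) (nat_lit 5) (nat_lit 239) (nat_lit 5) (nat_lit 233) (nat_lit 5) (nat_lit 599) (nat_lit 523) (nat_lit 438)) (XT.lf (nat_lit 0) (nat_lit 1789924264) (nat_lit 532) (nat_lit 4232299934) (nat_lit 608) (nat_lit 4820718729) (nat_lit 225) (nat_lit 5) (nat_lit 232) (nat_lit 5) (nat_lit 233) (nat_lit 5) (nat_lit 600) (nat_lit 523) (nat_lit 437))))))))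
noncomputable def xc39 : XT := (XT.nd (nat_lit 77142) (nat_lit 0) (nat_lit 10868) (XT.nd (nat_lit 75972) (nat_lit 0) (nat_lit 33668) (XT.nd (nat_lit 75348) (nat_lit 0) (nat_lit 40964) (XT.nd (nat_lit 234) (nat_lit 456) (nat_lit 0) (XT.nd (nat_lit 78) (nat_lit 988) (nat_lit 0) (XT.lf (nat_lit 0) (nat_lit 9188665812) (nat_lit 532) (nat_lit 22646636) (nat_lit 608) (nat_lit 1747869617) (nat_lit 225) (nat_lit 5) (nat_lit 232) (nat_lit 5) (nat_lit 233) (nat_lit 5) (nat_lit 601) (nat_lit 523) (nat_lit 436)) (XT.nd (nat_lit 78) (nat_lit 456) (nat_lit 0) (XT.lf (nat_lit 0) (nat_lit 1406283487) (nat_lit 532) (nat_lit 5420175687) (nat_lit 76) (nat_lit 4250347260) (nat_lit 218) (nat_lit 5) (nat_lit 225) (nat_lit 5) (nat_lit 219) (nat_lit 5) (nat_lit 602) (nat_lit 523) (nat_lit 435)) (XT.lf (nat_lit 0) (nat_lit 2036426313) (nat_lit 456) (nat_lit 2562406674) (nat_lit 532) (nat_lit 6597745955) (nat_lit 212) (nat_lit 5) (nat_lit 218) (nat_lit 5) (nat_lit 219) (nat_lit 5) (nat_lit 603) (nat_lit 523) (nat_lit 434)))) (XT.nd (nat_lit 74958) (nat_lit 0) (nat_lit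 42560) (XT.nd (nat_lit 78) (nat_lit 456) (nat_lit 0) (XT.lf (nat_lit 0) (nat_lit 7877012318) (nat_lit 532) (nat_lit 1652683666) (nat_lit 76) (nat_lit 1788616388) (nat_lit 212) (nat_lit 5) (nat_lit 219) (nat_lit 5) (nat_lit 213) (nat_lit 5) (nat_lit 604) (nat_lit 523) (nat_lit 433)) (XT.lf (nat_lit 0) (nat_lit 6029341305) (nat_lit 456) (nat_lit 5221612168) (nat_lit 532) (nat_lit 190924059) (nat_lit 206) (nat_lit 5) (nat_lit 212) (nat_lit 5) (nat_lit 213) (nat_lit 5) (nat_lit 605) (nat_lit 523) (nat_lit 432))) (XT.nd (nat_lit 78) (nat_lit 380) (nat_lit 0) (XT.lf (nat_lit 0) (nat_lit 2395559207) (nat_lit 380) (nat_lit 420394857) (nat_lit 380) (nat_lit 420394857) (nat_lit 771) (nat_lit 3) (nat_lit 776) (nat_lit 3) (nat_lit 776) (nat_lit 5) (nat_lit 524) (nat_lit 524) (nat_lit 512)) (XT.lf (nat_lit 0) (nat_lit 1146784282) (nat_lit 380) (nat_lit 4081037728) (nat_lit 456) (nat_lit 1253064453) (nat_lit 766) (nat_lit 5) (nat_lit 771) (nat_lit 3) (nat_lit 772) (nat_lit 5) (nat_lit 525) (nat_lit 524) (nat_lit 511))))) (XT.nd (nat_lit 312) (nat_lit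 1140) (nat_lit 0) (XT.nd (nat_lit 156) (nat_lit 0) (nat_lit 0) (XT.nd (nat_lit 78) (nat_lit 456) (nat_lit 0) (XT.lf (nat_lit 0) (nat_lit 3941019342) (nat_lit 380) (nat_lit 822393887) (nat_lit 456) (nat_lit 1726974804) (nat_lit 766) (nat_lit 5) (nat_lit 771) (nat_lit 3) (nat_lit 772) (nat_lit 5) (nat_lit 526) (nat_lit 524) (nat_lit 510)) (XT.lf (nat_lit 0) (nat_lit 230637210) (nat_lit 456) (nat_lit 4006599894) (nat_lit 532) (nat_lit 2263944419) (nat_lit 760) (nat_lit 5) (nat_lit 766) (nat_lit 5) (nat_lit 767) (nat_lit 5) (nat_lit 527) (nat_lit 524) (nat_lit 509))) (XT.nd (nat_lit 78) (nat_lit 0) (nat_lit 0) (XT.lf (nat_lit 0) (nat_lit 2965958380) (nat_lit 456) (nat_lit 678697126) (nat_lit 532) (nat_lit 2868528760) (nat_lit 760) (nat_lit 5) (nat_lit 766) (nat_lit 5) (nat_lit 767) (nat_lit 5) (nat_lit 528) (nat_lit 524) (nat_lit 508)) (XT.lf (nat_lit 76) (nat_lit 2713368389) (nat_lit 0) (nat_lit 2989905202) (nat_lit 532) (nat_lit 823215010) (nat_lit 761) (nat_lit 5) (nat_lit 760) (nat_lit 5) (nat_lit 767) (nat_lit 5) (nat_lit 529) (nat_lit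 524) (nat_lit 507)))) (XT.nd (nat_lit 156) (nat_lit 608) (nat_lit 0) (XT.nd (nat_lit 78) (nat_lit 0) (nat_lit 0) (XT.lf (nat_lit 0) (nat_lit 1864556222) (nat_lit 532) (nat_lit 408882417) (nat_lit 608) (nat_lit 4267675012) (nat_lit 753) (nat_lit 5) (nat_lit 760) (nat_lit 5) (nat_lit 761) (nat_lit 5) (nat_lit 530) (nat_lit 524) (nat_lit 506)) (XT.lf (nat_lit 76) (nat_lit 3060217303) (nat_lit 0) (nat_lit 1486427245) (nat_lit 608) (nat_lit 2010253004) (nat_lit 754) (nat_lit 5) (nat_lit 753) (nat_lit 5) (nat_lit 761) (nat_lit 5) (nat_lit 531) (nat_lit 524) (nat_lit 505))) (XT.nd (nat_lit 78) (nat_lit 0) (nat_lit 76) (XT.lf (nat_lit 0) (nat_lit 635184075) (nat_lit 608) (nat_lit 11887299) (nat_lit 684) (nat_lit 5927138040) (nat_lit 745) (nat_lit 5) (nat_lit 753) (nat_lit 5) (nat_lit 754) (nat_lit 5) (nat_lit 532) (nat_lit 524) (nat_lit 504)) (XT.lf (nat_lit 0) (nat_lit 3265065627) (nat_lit 608) (nat_lit 3056375697) (nat_lit 684) (nat_lit 270997848) (nat_lit 746) (nat_lit 5) (nat_lit 754) (nat_lit 5) (nat_lit 755) (nat_lit 5) (nat_lit 533) (nat_lit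 524) (nat_lit 503)))))) (XT.nd (nat_lit 546) (nat_lit 5168) (nat_lit 0) (XT.nd (nat_lit 234) (nat_lit 1520) (nat_lit 0) (XT.nd (nat_lit 78) (nat_lit 684) (nat_lit 0) (XT.lf (nat_lit 76) (nat_lit 507422206) (nat_lit 0) (nat_lit 5382693926) (nat_lit 684) (nat_lit 722072312) (nat_lit 747) (nat_lit 5) (nat_lit 746) (nat_lit 5) (nat_lit 755) (nat_lit 5) (nat_lit 534) (nat_lit 524) (nat_lit 502)) (XT.nd (nat_lit 78) (nat_lit 0) (nat_lit 0) (XT.lf (nat_lit 0) (nat_lit 1866103635) (nat_lit 684) (nat_lit 2500353489) (nat_lit 760) (nat_lit 2266507348) (nat_lit 737) (nat_lit 5) (nat_lit 746) (nat_lit 5) (nat_lit 747) (nat_lit 5) (nat_lit 535) (nat_lit 524) (nat_lit 501)) (XT.lf (nat_lit 76) (nat_lit 1147537577) (nat_lit 0) (nat_lit 3293066430) (nat_lit 760) (nat_lit 2214577946) (nat_lit 738) (nat_lit 5) (nat_lit 737) (nat_lit 5) (nat_lit 747) (nat_lit 5) (nat_lit 536) (nat_lit 524) (nat_lit 500)))) (XT.nd (nat_lit 156) (nat_lit 760) (nat_lit 0) (XT.nd (nat_lit 78) (nat_lit 0) (nat_lit 0) (XT.lf (nat_lit 0) (nat_lit 337882780) (nat_lit 760) (nat_lit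 1817324779) (nat_lit 836) (nat_lit 4523506876) (nat_lit 727) (nat_lit 5) (nat_lit 737) (nat_lit 5) (nat_lit 738) (nat_lit 5) (nat_lit 537) (nat_lit 524) (nat_lit 499)) (XT.lf (nat_lit 76) (nat_lit 1918610960) (nat_lit 0) (nat_lit 944182694) (nat_lit 836) (nat_lit 3840615700) (nat_lit 728) (nat_lit 5) (nat_lit 727) (nat_lit 5) (nat_lit 738) (nat_lit 5) (nat_lit 538) (nat_lit 524) (nat_lit 498))) (XT.nd (nat_lit 78) (nat_lit 836) (nat_lit 0) (XT.lf (nat_lit 0) (nat_lit 5392036111) (nat_lit 760) (nat_lit 1016215800) (nat_lit 76) (nat_lit 321275117) (nat_lit 728) (nat_lit 5) (nat_lit 738) (nat_lit 5) (nat_lit 729) (nat_lit 5) (nat_lit 539) (nat_lit 524) (nat_lit 497)) (XT.lf (nat_lit 0) (nat_lit 1164927094) (nat_lit 836) (nat_lit 3945075591) (nat_lit 76) (nat_lit 1646708321) (nat_lit 717) (nat_lit 5) (nat_lit 728) (nat_lit 5) (nat_lit 718) (nat_lit 5) (nat_lit 540) (nat_lit 524) (nat_lit 496))))) (XT.nd (nat_lit 312) (nat_lit 3344) (nat_lit 0) (XT.nd (nat_lit 156) (nat_lit 988) (nat_lit 0) (XT.nd (nat_lit 78) (nat_lit 836) (nat_lit 0) (XT.lf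 (nat_lit 0) (nat_lit 3647733553) (nat_lit 836) (nat_lit 102924531) (nat_lit 76) (nat_lit 3034643988) (nat_lit 717) (nat_lit 5) (nat_lit 728) (nat_lit 5) (nat_lit 718) (nat_lit 5) (nat_lit 541) (nat_lit 524) (nat_lit 495)) (XT.lf (nat_lit 0) (nat_lit 3827504958) (nat_lit 836) (nat_lit 2320059378) (nat_lit 912) (nat_lit 667558364) (nat_lit 706) (nat_lit 5) (nat_lit 717) (nat_lit 5) (nat_lit 718) (nat_lit 5) (nat_lit 542) (nat_lit 524) (nat_lit 494))) (XT.nd (nat_lit 78) (nat_lit 0) (nat_lit 0) (XT.lf (nat_lit 0) (nat_lit 953620969) (nat_lit 912) (nat_lit 823845219) (nat_lit 988) (nat_lit 5068839956) (nat_lit 693) (nat_lit 5) (nat_lit 705) (nat_lit 5) (nat_lit 706) (nat_lit 5) (nat_lit 543) (nat_lit 524) (nat_lit 493)) (XT.lf (nat_lit 0) (nat_lit 4231191920) (nat_lit 988) (nat_lit 1912893487) (nat_lit 76) (nat_lit 734569623) (nat_lit 693) (nat_lit 5) (nat_lit 706) (nat_lit 5) (nat_lit 694) (nat_lit 5) (nat_lit 544) (nat_lit 524) (nat_lit 492)))) (XT.nd (nat_lit 156) (nat_lit 2280) (nat_lit 0) (XT.nd (nat_lit 78) (nat_lit 76) (nat_lit 0) (XT.lf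 (nat_lit 0) (nat_lit 2129506022) (nat_lit 988) (nat_lit 4568856401) (nat_lit 1064) (nat_lit 214005781) (nat_lit 680) (nat_lit 5) (nat_lit 693) (nat_lit 5) (nat_lit 694) (nat_lit 5) (nat_lit 545) (nat_lit 524) (nat_lit 491)) (XT.lf (nat_lit 0) (nat_lit 2196842988) (nat_lit 1064) (nat_lit 722556271) (nat_lit 76) (nat_lit 4027897008) (nat_lit 679) (nat_lit 5) (nat_lit 693) (nat_lit 5) (nat_lit 680) (nat_lit 5) (nat_lit 546) (nat_lit 524) (nat_lit 490))) (XT.nd (nat_lit 78) (nat_lit 1216) (nat_lit 0) (XT.lf (nat_lit 0) (nat_lit 3423288980) (nat_lit 1064) (nat_lit 1198598425) (nat_lit 1140) (nat_lit 2361634755) (nat_lit 665) (nat_lit 5) (nat_lit 679) (nat_lit 5) (nat_lit 680) (nat_lit 5) (nat_lit 547) (nat_lit 524) (nat_lit 489)) (XT.lf (nat_lit 0) (nat_lit 33633434) (nat_lit 1216) (nat_lit 6415765585) (nat_lit 76) (nat_lit 571874960) (nat_lit 649) (nat_lit 5) (nat_lit 665) (nat_lit 5) (nat_lit 650) (nat_lit 5) (nat_lit 548) (nat_lit 524) (nat_lit 488))))))) (XT.nd (nat_lit 1170) (nat_lit 8816) (nat_lit 0) (XT.nd (nat_lit 546) (nat_lit 8512)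 (nat_lit 0) (XT.nd (nat_lit 234) (nat_lit 4180) (nat_lit 0) (XT.nd (nat_lit 78) (nat_lit 1292) (nat_lit 0) (XT.lf (nat_lit 0) (nat_lit 2425124170) (nat_lit 1216) (nat_lit 2220681270) (nat_lit 76) (nat_lit 2414068584) (nat_lit 649) (nat_lit 5) (nat_lit 665) (nat_lit 5) (nat_lit 650) (nat_lit 5) (nat_lit 549) (nat_lit 524) (nat_lit 487)) (XT.nd (nat_lit 78) (nat_lit 76) (nat_lit 0) (XT.lf (nat_lit 0) (nat_lit 2045457714) (nat_lit 1216) (nat_lit 2781211510) (nat_lit 1292) (nat_lit 2273336460) (nat_lit 633) (nat_lit 5) (nat_lit 649) (nat_lit 5) (nat_lit 650) (nat_lit 5) (nat_lit 550) (nat_lit 524) (nat_lit 486)) (XT.lf (nat_lit 0) (nat_lit 97883362) (nat_lit 1292) (nat_lit 754687303) (nat_lit 76) (nat_lit 6289068634) (nat_lit 632) (nat_lit 5) (nat_lit 649) (nat_lit 5) (nat_lit 633) (nat_lit 5) (nat_lit 551) (nat_lit 524) (nat_lit 485)))) (XT.nd (nat_lit 156) (nat_lit 1520) (nat_lit 0) (XT.nd (nat_lit 78) (nat_lit 1368) (nat_lit 0) (XT.lf (nat_lit 0) (nat_lit 2467552651) (nat_lit 1368) (nat_lit 3567544760) (nat_lit 76) (nat_lit 1149082207) (nat_lit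 615) (nat_lit 5) (nat_lit 633) (nat_lit 5) (nat_lit 616) (nat_lit 5) (nat_lit 552) (nat_lit 524) (nat_lit 484)) (XT.lf (nat_lit 0) (nat_lit 823168662) (nat_lit 1368) (nat_lit 4028664783) (nat_lit 1444) (nat_lit 2376396728) (nat_lit 597) (nat_lit 5) (nat_lit 615) (nat_lit 5) (nat_lit 616) (nat_lit 5) (nat_lit 553) (nat_lit 524) (nat_lit 483))) (XT.nd (nat_lit 78) (nat_lit 1520) (nat_lit 0) (XT.lf (nat_lit 0) (nat_lit 5310227490) (nat_lit 1368) (nat_lit 1949341634) (nat_lit 1444) (nat_lit 14080947) (nat_lit 597) (nat_lit 5) (nat_lit 615) (nat_lit 5) (nat_lit 616) (nat_lit 5) (nat_lit 554) (nat_lit 524) (nat_lit 482)) (XT.lf (nat_lit 0) (nat_lit 2334423817) (nat_lit 1520) (nat_lit 4776474207) (nat_lit 76) (nat_lit 209365660) (nat_lit 577) (nat_lit 5) (nat_lit 597) (nat_lit 5) (nat_lit 578) (nat_lit 5) (nat_lit 555) (nat_lit 524) (nat_lit 481))))) (XT.nd (nat_lit 312) (nat_lit 5320) (nat_lit 0) (XT.nd (nat_lit 156) (nat_lit 1672) (nat_lit 0) (XT.nd (nat_lit 78) (nat_lit 1520) (nat_lit 0) (XT.lf (nat_lit 0) (nat_lit 4709064650) (nat_lit 1520)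 (nat_lit 253286048) (nat_lit 76) (nat_lit 2405873422) (nat_lit 577) (nat_lit 5) (nat_lit 597) (nat_lit 5) (nat_lit 578) (nat_lit 5) (nat_lit 556) (nat_lit 524) (nat_lit 480)) (XT.lf (nat_lit 0) (nat_lit 4378168273) (nat_lit 1520) (nat_lit 2735555937) (nat_lit 1596) (nat_lit 303772472) (nat_lit 557) (nat_lit 5) (nat_lit 577) (nat_lit 5) (nat_lit 578) (nat_lit 5) (nat_lit 557) (nat_lit 524) (nat_lit 479))) (XT.nd (nat_lit 78) (nat_lit 0) (nat_lit 0) (XT.lf (nat_lit 0) (nat_lit 1605415934) (nat_lit 1596) (nat_lit 432356953) (nat_lit 1672) (nat_lit 5430381068) (nat_lit 535) (nat_lit 5) (nat_lit 556) (nat_lit 5) (nat_lit 557) (nat_lit 5) (nat_lit 558) (nat_lit 524) (nat_lit 478)) (XT.lf (nat_lit 0) (nat_lit 4410172625) (nat_lit 1672) (nat_lit 1190393860) (nat_lit 76) (nat_lit 1919459145) (nat_lit 535) (nat_lit 5) (nat_lit 557) (nat_lit 5) (nat_lit 536) (nat_lit 5) (nat_lit 559) (nat_lit 524) (nat_lit 477)))) (XT.nd (nat_lit 156) (nat_lit 1824) (nat_lit 0) (XT.nd (nat_lit 78) (nat_lit 1824) (nat_lit 0) (XT.lf (nat_lit 0) (nat_lit 3579639522) (nat_lit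 1672) (nat_lit 3232476495) (nat_lit 1748) (nat_lit 761179983) (nat_lit 513) (nat_lit 5) (nat_lit 535) (nat_lit 5) (nat_lit 536) (nat_lit 5) (nat_lit 560) (nat_lit 524) (nat_lit 476)) (XT.lf (nat_lit 0) (nat_lit 793313586) (nat_lit 1748) (nat_lit 789214789) (nat_lit 1824) (nat_lit 6045504248) (nat_lit 489) (nat_lit 5) (nat_lit 512) (nat_lit 5) (nat_lit 513) (nat_lit 5) (nat_lit 561) (nat_lit 524) (nat_lit 475))) (XT.nd (nat_lit 78) (nat_lit 1824) (nat_lit 0) (XT.lf (nat_lit 0) (nat_lit 3957886531) (nat_lit 1824) (nat_lit 2010229722) (nat_lit 76) (nat_lit 1715750731) (nat_lit 489) (nat_lit 5) (nat_lit 513) (nat_lit 5) (nat_lit 490) (nat_lit 5) (nat_lit 562) (nat_lit 524) (nat_lit 474)) (XT.lf (nat_lit 0) (nat_lit 2903618973) (nat_lit 1824) (nat_lit 3458981144) (nat_lit 1900) (nat_lit 1378583880) (nat_lit 465) (nat_lit 5) (nat_lit 489) (nat_lit 5) (nat_lit 490) (nat_lit 5) (nat_lit 563) (nat_lit 524) (nat_lit 473)))))) (XT.nd (nat_lit 546) (nat_lit 4940) (nat_lit 0) (XT.nd (nat_lit 234) (nat_lit 1824) (nat_lit 0) (XT.nd (nat_lit 78) (nat_lit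 912) (nat_lit 0) (XT.lf (nat_lit 0) (nat_lit 97933962) (nat_lit 1064) (nat_lit 876780538) (nat_lit 1140) (nat_lit 6825358255) (nat_lit 450) (nat_lit 5) (nat_lit 464) (nat_lit 5) (nat_lit 465) (nat_lit 5) (nat_lit 564) (nat_lit 524) (nat_lit 472)) (XT.nd (nat_lit 78) (nat_lit 912) (nat_lit 0) (XT.lf (nat_lit 0) (nat_lit 3359354697) (nat_lit 1140) (nat_lit 2723381855) (nat_lit 76) (nat_lit 1777168546) (nat_lit 450) (nat_lit 5) (nat_lit 465) (nat_lit 5) (nat_lit 451) (nat_lit 5) (nat_lit 565) (nat_lit 524) (nat_lit 471)) (XT.lf (nat_lit 0) (nat_lit 2339774891) (nat_lit 912) (nat_lit 3432354017) (nat_lit 988) (nat_lit 2149199063) (nat_lit 438) (nat_lit 5) (nat_lit 450) (nat_lit 5) (nat_lit 451) (nat_lit 5) (nat_lit 566) (nat_lit 524) (nat_lit 470)))) (XT.nd (nat_lit 156) (nat_lit 836) (nat_lit 0) (XT.nd (nat_lit 78) (nat_lit 912) (nat_lit 0) (XT.lf (nat_lit 0) (nat_lit 224020192) (nat_lit 988) (nat_lit 484571616) (nat_lit 76) (nat_lit 7275795563) (nat_lit 437) (nat_lit 5) (nat_lit 450) (nat_lit 5) (nat_lit 438) (nat_lit 5) (nat_lit 567) (nat_lit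 524) (nat_lit 469)) (XT.lf (nat_lit 0) (nat_lit 2620851728) (nat_lit 988) (nat_lit 3339823236) (nat_lit 76) (nat_lit 2087652909) (nat_lit 425) (nat_lit 5) (nat_lit 438) (nat_lit 5) (nat_lit 426) (nat_lit 5) (nat_lit 568) (nat_lit 524) (nat_lit 468))) (XT.nd (nat_lit 78) (nat_lit 0) (nat_lit 0) (XT.lf (nat_lit 0) (nat_lit 1878390915) (nat_lit 836) (nat_lit 3168410665) (nat_lit 912) (nat_lit 3067124475) (nat_lit 414) (nat_lit 5) (nat_lit 425) (nat_lit 5) (nat_lit 426) (nat_lit 5) (nat_lit 569) (nat_lit 524) (nat_lit 467)) (XT.lf (nat_lit 0) (nat_lit 7206445994) (nat_lit 836) (nat_lit 298762341) (nat_lit 912) (nat_lit 675951559) (nat_lit 414) (nat_lit 5) (nat_lit 425) (nat_lit 5) (nat_lit 426) (nat_lit 5) (nat_lit 570) (nat_lit 524) (nat_lit 466))))) (XT.nd (nat_lit 312) (nat_lit 2280) (nat_lit 0) (XT.nd (nat_lit 156) (nat_lit 912) (nat_lit 0) (XT.nd (nat_lit 78) (nat_lit 836) (nat_lit 0) (XT.lf (nat_lit 0) (nat_lit 1747824663) (nat_lit 912) (nat_lit 3868983824) (nat_lit 76) (nat_lit 2632545293) (nat_lit 402) (nat_lit 5) (nat_lit 414) (nat_lit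 5) (nat_lit 403) (nat_lit 5) (nat_lit 571) (nat_lit 524) (nat_lit 465)) (XT.lf (nat_lit 0) (nat_lit 1510294066) (nat_lit 836) (nat_lit 2681614589) (nat_lit 912) (nat_lit 4127298173) (nat_lit 391) (nat_lit 5) (nat_lit 402) (nat_lit 5) (nat_lit 403) (nat_lit 5) (nat_lit 572) (nat_lit 524) (nat_lit 464))) (XT.nd (nat_lit 78) (nat_lit 912) (nat_lit 0) (XT.lf (nat_lit 0) (nat_lit 6676002444) (nat_lit 912) (nat_lit 1382998909) (nat_lit 76) (nat_lit 331635290) (nat_lit 391) (nat_lit 5) (nat_lit 403) (nat_lit 5) (nat_lit 392) (nat_lit 5) (nat_lit 573) (nat_lit 524) (nat_lit 463)) (XT.lf (nat_lit 0) (nat_lit 744933892) (nat_lit 912) (nat_lit 4319820051) (nat_lit 76) (nat_lit 3398477613) (nat_lit 379) (nat_lit 5) (nat_lit 391) (nat_lit 5) (nat_lit 380) (nat_lit 5) (nat_lit 574) (nat_lit 524) (nat_lit 462)))) (XT.nd (nat_lit 156) (nat_lit 1520) (nat_lit 0) (XT.nd (nat_lit 78) (nat_lit 0) (nat_lit 0) (XT.lf (nat_lit 0) (nat_lit 1226785436) (nat_lit 760) (nat_lit 1985185974) (nat_lit 836) (nat_lit 5325457676) (nat_lit 369) (nat_lit 5) (nat_lit 379) (nat_lit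 5) (nat_lit 380) (nat_lit 5) (nat_lit 575) (nat_lit 524) (nat_lit 461)) (XT.lf (nat_lit 0) (nat_lit 5729368092) (nat_lit 836) (nat_lit 1717667083) (nat_lit 76) (nat_lit 1166057117) (nat_lit 369) (nat_lit 5) (nat_lit 380) (nat_lit 5) (nat_lit 370) (nat_lit 5) (nat_lit 576) (nat_lit 524) (nat_lit 460))) (XT.nd (nat_lit 78) (nat_lit 760) (nat_lit 0) (XT.lf (nat_lit 0) (nat_lit 3986781710) (nat_lit 760) (nat_lit 4314394937) (nat_lit 836) (nat_lit 389012890) (nat_lit 359) (nat_lit 5) (nat_lit 369) (nat_lit 5) (nat_lit 370) (nat_lit 5) (nat_lit 577) (nat_lit 524) (nat_lit 459)) (XT.lf (nat_lit 0) (nat_lit 1019573018) (nat_lit 684) (nat_lit 1091203335) (nat_lit 760) (nat_lit 6658105342) (nat_lit 349) (nat_lit 5) (nat_lit 358) (nat_lit 5) (nat_lit 359) (nat_lit 5) (nat_lit 578) (nat_lit 524) (nat_lit 458))))))))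
noncomputable def xc40 : XT := (XT.nd (nat_lit 77220) (nat_lit 0) (nat_lit 26144) (XT.nd (nat_lit 1092) (nat_lit 4256) (nat_lit 0) (XT.nd (nat_lit 546) (nat_lit 3268) (nat_lit 0) (XT.nd (nat_lit 234) (nat_lit 1368) (nat_lit 0) (XT.nd (nat_lit 78) (nat_lit 1520) (nat_lit 0) (XT.lf (nat_lit 0) (nat_lit 4667013885) (nat_lit 760) (nat_lit 1984918926) (nat_lit 76) (nat_lit 2196932164) (nat_lit 349) (nat_lit 5) (nat_lit 359) (nat_lit 5) (nat_lit 350) (nat_lit 5) (nat_lit 579) (nat_lit 524) (nat_lit 457)) (XT.nd (nat_lit 78) (nat_lit 760) (nat_lit 0) (XT.lf (nat_lit 0) (nat_lit 3899333549) (nat_lit 760) (nat_lit 3373884547) (nat_lit 836) (nat_lit 1657254882) (nat_lit 339) (nat_lit 5) (nat_lit 349) (nat_lit 5) (nat_lit 350) (nat_lit 5) (nat_lit 580) (nat_lit 524) (nat_lit 456)) (XT.lf (nat_lit 0) (nat_lit 880706201) (nat_lit 684) (nat_lit 10698803) (nat_lit 760) (nat_lit 8122478589) (nat_lit 329) (nat_lit 5) (nat_lit 338) (nat_lit 5) (nat_lit 339) (nat_lit 5) (nat_lit 581) (nat_lit 524) (nat_lit 455)))) (XT.nd (nat_lit 156) (nat_lit 684) (nat_lit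 0) (XT.nd (nat_lit 78) (nat_lit 684) (nat_lit 0) (XT.lf (nat_lit 0) (nat_lit 3491902069) (nat_lit 760) (nat_lit 2192593637) (nat_lit 76) (nat_lit 3413788321) (nat_lit 329) (nat_lit 5) (nat_lit 339) (nat_lit 5) (nat_lit 330) (nat_lit 5) (nat_lit 582) (nat_lit 524) (nat_lit 454)) (XT.lf (nat_lit 0) (nat_lit 3878488667) (nat_lit 684) (nat_lit 2258668478) (nat_lit 760) (nat_lit 3047362114) (nat_lit 320) (nat_lit 5) (nat_lit 329) (nat_lit 5) (nat_lit 330) (nat_lit 5) (nat_lit 583) (nat_lit 524) (nat_lit 453))) (XT.nd (nat_lit 78) (nat_lit 76) (nat_lit 0) (XT.lf (nat_lit 0) (nat_lit 791334661) (nat_lit 608) (nat_lit 8039791129) (nat_lit 684) (nat_lit 441438955) (nat_lit 312) (nat_lit 5) (nat_lit 320) (nat_lit 5) (nat_lit 321) (nat_lit 5) (nat_lit 584) (nat_lit 524) (nat_lit 452)) (XT.lf (nat_lit 0) (nat_lit 2206332542) (nat_lit 684) (nat_lit 2348292470) (nat_lit 76) (nat_lit 4807083924) (nat_lit 311) (nat_lit 5) (nat_lit 320) (nat_lit 5) (nat_lit 312) (nat_lit 5) (nat_lit 585) (nat_lit 524) (nat_lit 451))))) (XT.nd (nat_lit 234) (nat_lit 1900)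 (nat_lit 0) (XT.nd (nat_lit 78) (nat_lit 684) (nat_lit 0) (XT.lf (nat_lit 0) (nat_lit 3916908485) (nat_lit 684) (nat_lit 978305131) (nat_lit 760) (nat_lit 4557484357) (nat_lit 302) (nat_lit 5) (nat_lit 311) (nat_lit 5) (nat_lit 312) (nat_lit 5) (nat_lit 586) (nat_lit 524) (nat_lit 450)) (XT.nd (nat_lit 78) (nat_lit 76) (nat_lit 0) (XT.lf (nat_lit 0) (nat_lit 747257281) (nat_lit 608) (nat_lit 6897605490) (nat_lit 684) (nat_lit 1900505795) (nat_lit 294) (nat_lit 5) (nat_lit 302) (nat_lit 5) (nat_lit 303) (nat_lit 5) (nat_lit 587) (nat_lit 524) (nat_lit 449)) (XT.lf (nat_lit 0) (nat_lit 811962265) (nat_lit 684) (nat_lit 2459441437) (nat_lit 76) (nat_lit 6368125901) (nat_lit 293) (nat_lit 5) (nat_lit 302) (nat_lit 5) (nat_lit 294) (nat_lit 5) (nat_lit 588) (nat_lit 524) (nat_lit 448)))) (XT.nd (nat_lit 156) (nat_lit 684) (nat_lit 0) (XT.nd (nat_lit 78) (nat_lit 608) (nat_lit 0) (XT.lf (nat_lit 0) (nat_lit 3551952386) (nat_lit 684) (nat_lit 5730955608) (nat_lit 76) (nat_lit 452441707) (nat_lit 285) (nat_lit 5) (nat_lit 294) (nat_lit 5) (nat_lit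 286) (nat_lit 5) (nat_lit 589) (nat_lit 524) (nat_lit 447)) (XT.lf (nat_lit 0) (nat_lit 747278607) (nat_lit 608) (nat_lit 5612586462) (nat_lit 684) (nat_lit 3472960141) (nat_lit 277) (nat_lit 5) (nat_lit 285) (nat_lit 5) (nat_lit 286) (nat_lit 5) (nat_lit 590) (nat_lit 524) (nat_lit 446))) (XT.nd (nat_lit 78) (nat_lit 684) (nat_lit 0) (XT.lf (nat_lit 0) (nat_lit 7394181165) (nat_lit 608) (nat_lit 1838543018) (nat_lit 684) (nat_lit 699351720) (nat_lit 277) (nat_lit 5) (nat_lit 285) (nat_lit 5) (nat_lit 286) (nat_lit 5) (nat_lit 591) (nat_lit 524) (nat_lit 445)) (XT.lf (nat_lit 0) (nat_lit 2112682737) (nat_lit 684) (nat_lit 5903348626) (nat_lit 76) (nat_lit 2016787363) (nat_lit 268) (nat_lit 5) (nat_lit 277) (nat_lit 5) (nat_lit 269) (nat_lit 5) (nat_lit 592) (nat_lit 524) (nat_lit 444)))))) (XT.nd (nat_lit 546) (nat_lit 1520) (nat_lit 0) (XT.nd (nat_lit 234) (nat_lit 1596) (nat_lit 0) (XT.nd (nat_lit 78) (nat_lit 608) (nat_lit 0) (XT.lf (nat_lit 0) (nat_lit 784228017) (nat_lit 532) (nat_lit 4192772559) (nat_lit 608) (nat_lit 5158376589) (nat_lit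 261) (nat_lit 5) (nat_lit 268) (nat_lit 5) (nat_lit 269) (nat_lit 5) (nat_lit 593) (nat_lit 524) (nat_lit 443)) (XT.nd (nat_lit 78) (nat_lit 608) (nat_lit 0) (XT.lf (nat_lit 0) (nat_lit 7647345319) (nat_lit 532) (nat_lit 262182029) (nat_lit 608) (nat_lit 2330242301) (nat_lit 261) (nat_lit 5) (nat_lit 268) (nat_lit 5) (nat_lit 269) (nat_lit 5) (nat_lit 594) (nat_lit 524) (nat_lit 442)) (XT.lf (nat_lit 0) (nat_lit 571367953) (nat_lit 608) (nat_lit 6054032507) (nat_lit 76) (nat_lit 3720295099) (nat_lit 253) (nat_lit 5) (nat_lit 261) (nat_lit 5) (nat_lit 254) (nat_lit 5) (nat_lit 595) (nat_lit 524) (nat_lit 441)))) (XT.nd (nat_lit 156) (nat_lit 1064) (nat_lit 0) (XT.nd (nat_lit 78) (nat_lit 0) (nat_lit 0) (XT.lf (nat_lit 0) (nat_lit 850947685) (nat_lit 532) (nat_lit 2645594603) (nat_lit 608) (nat_lit 6956956218) (nat_lit 246) (nat_lit 5) (nat_lit 253) (nat_lit 5) (nat_lit 254) (nat_lit 5) (nat_lit 596) (nat_lit 524) (nat_lit 440)) (XT.lf (nat_lit 0) (nat_lit 6502464966) (nat_lit 608) (nat_lit 2634352344) (nat_lit 76) (nat_lit 1426196529) (nat_lit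 246) (nat_lit 5) (nat_lit 254) (nat_lit 5) (nat_lit 247) (nat_lit 5) (nat_lit 597) (nat_lit 524) (nat_lit 439))) (XT.nd (nat_lit 78) (nat_lit 532) (nat_lit 0) (XT.lf (nat_lit 0) (nat_lit 4476805268) (nat_lit 532) (nat_lit 5111004077) (nat_lit 608) (nat_lit 1086525272) (nat_lit 239) (nat_lit 5) (nat_lit 246) (nat_lit 5) (nat_lit 247) (nat_lit 5) (nat_lit 598) (nat_lit 524) (nat_lit 438)) (XT.lf (nat_lit 0) (nat_lit 940226881) (nat_lit 456) (nat_lit 977945398) (nat_lit 532) (nat_lit 8869523297) (nat_lit 232) (nat_lit 5) (nat_lit 238) (nat_lit 5) (nat_lit 239) (nat_lit 5) (nat_lit 599) (nat_lit 524) (nat_lit 437))))) (XT.nd (nat_lit 312) (nat_lit 456) (nat_lit 0) (XT.nd (nat_lit 156) (nat_lit 532) (nat_lit 0) (XT.nd (nat_lit 78) (nat_lit 532) (nat_lit 0) (XT.lf (nat_lit 0) (nat_lit 5004364414) (nat_lit 532) (nat_lit 2664172602) (nat_lit 76) (nat_lit 3233925249) (nat_lit 232) (nat_lit 5) (nat_lit 239) (nat_lit 5) (nat_lit 233) (nat_lit 5) (nat_lit 600) (nat_lit 524) (nat_lit 436)) (XT.lf (nat_lit 0) (nat_lit 4680507210) (nat_lit 532) (nat_lit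 3482216752) (nat_lit 608) (nat_lit 2856592564) (nat_lit 225) (nat_lit 5) (nat_lit 232) (nat_lit 5) (nat_lit 233) (nat_lit 5) (nat_lit 601) (nat_lit 524) (nat_lit 435))) (XT.nd (nat_lit 78) (nat_lit 0) (nat_lit 0) (XT.lf (nat_lit 0) (nat_lit 246200004) (nat_lit 532) (nat_lit 10098992050) (nat_lit 76) (nat_lit 793211374) (nat_lit 218) (nat_lit 5) (nat_lit 225) (nat_lit 5) (nat_lit 219) (nat_lit 5) (nat_lit 602) (nat_lit 524) (nat_lit 434)) (XT.lf (nat_lit 0) (nat_lit 3412600013) (nat_lit 532) (nat_lit 2687663793) (nat_lit 76) (nat_lit 5158435640) (nat_lit 218) (nat_lit 5) (nat_lit 225) (nat_lit 5) (nat_lit 219) (nat_lit 5) (nat_lit 603) (nat_lit 524) (nat_lit 433)))) (XT.nd (nat_lit 75114) (nat_lit 0) (nat_lit 41572) (XT.nd (nat_lit 75036) (nat_lit 0) (nat_lit 42104) (XT.lf (nat_lit 0) (nat_lit 4899380014) (nat_lit 456) (nat_lit 1749156191) (nat_lit 532) (nat_lit 4732742041) (nat_lit 212) (nat_lit 5) (nat_lit 218) (nat_lit 5) (nat_lit 219) (nat_lit 5) (nat_lit 604) (nat_lit 524) (nat_lit 432)) (XT.lf (nat_lit 0) (nat_lit 977725960) (nat_lit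 0) (nat_lit 977725960) (nat_lit 380) (nat_lit 1289400295) (nat_lit 766) (nat_lit 5) (nat_lit 766) (nat_lit 3) (nat_lit 771) (nat_lit 3) (nat_lit 525) (nat_lit 525) (nat_lit 510))) (XT.nd (nat_lit 78) (nat_lit 0) (nat_lit 0) (XT.lf (nat_lit 0) (nat_lit 163877592) (nat_lit 532) (nat_lit 1292279271) (nat_lit 532) (nat_lit 5043813239) (nat_lit 759) (nat_lit 3) (nat_lit 766) (nat_lit 3) (nat_lit 766) (nat_lit 5) (nat_lit 526) (nat_lit 525) (nat_lit 509)) (XT.lf (nat_lit 76) (nat_lit 1986932401) (nat_lit 0) (nat_lit 881157715) (nat_lit 532) (nat_lit 3643193271) (nat_lit 760) (nat_lit 5) (nat_lit 759) (nat_lit 3) (nat_lit 766) (nat_lit 5) (nat_lit 527) (nat_lit 525) (nat_lit 508))))))) (XT.nd (nat_lit 1170) (nat_lit 11324) (nat_lit 0) (XT.nd (nat_lit 546) (nat_lit 2356) (nat_lit 0) (XT.nd (nat_lit 234) (nat_lit 1292) (nat_lit 0) (XT.nd (nat_lit 78) (nat_lit 456) (nat_lit 0) (XT.lf (nat_lit 76) (nat_lit 5312904305) (nat_lit 0) (nat_lit 251602975) (nat_lit 532) (nat_lit 959560539) (nat_lit 760) (nat_lit 5) (nat_lit 759) (nat_lit 3) (nat_lit 766)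 (nat_lit 5) (nat_lit 528) (nat_lit 525) (nat_lit 507)) (XT.nd (nat_lit 78) (nat_lit 0) (nat_lit 0) (XT.lf (nat_lit 0) (nat_lit 1701663947) (nat_lit 532) (nat_lit 4392556467) (nat_lit 608) (nat_lit 443718996) (nat_lit 753) (nat_lit 5) (nat_lit 760) (nat_lit 5) (nat_lit 761) (nat_lit 5) (nat_lit 529) (nat_lit 525) (nat_lit 506)) (XT.lf (nat_lit 0) (nat_lit 4344829286) (nat_lit 532) (nat_lit 1012429062) (nat_lit 608) (nat_lit 1195878801) (nat_lit 753) (nat_lit 5) (nat_lit 760) (nat_lit 5) (nat_lit 761) (nat_lit 5) (nat_lit 530) (nat_lit 525) (nat_lit 505)))) (XT.nd (nat_lit 156) (nat_lit 684) (nat_lit 0) (XT.nd (nat_lit 78) (nat_lit 0) (nat_lit 0) (XT.lf (nat_lit 0) (nat_lit 414501863) (nat_lit 608) (nat_lit 4142388366) (nat_lit 684) (nat_lit 2012724377) (nat_lit 745) (nat_lit 5) (nat_lit 753) (nat_lit 5) (nat_lit 754) (nat_lit 5) (nat_lit 531) (nat_lit 525) (nat_lit 504)) (XT.lf (nat_lit 0) (nat_lit 3000739806) (nat_lit 608) (nat_lit 689363411) (nat_lit 684) (nat_lit 2897222104) (nat_lit 745) (nat_lit 5) (nat_lit 753) (nat_lit 5) (nat_lit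 754) (nat_lit 5) (nat_lit 532) (nat_lit 525) (nat_lit 503))) (XT.nd (nat_lit 78) (nat_lit 684) (nat_lit 0) (XT.lf (nat_lit 76) (nat_lit 2832809634) (nat_lit 0) (nat_lit 2759260547) (nat_lit 684) (nat_lit 1014259061) (nat_lit 746) (nat_lit 5) (nat_lit 745) (nat_lit 5) (nat_lit 754) (nat_lit 5) (nat_lit 533) (nat_lit 525) (nat_lit 502)) (XT.lf (nat_lit 0) (nat_lit 1528642698) (nat_lit 684) (nat_lit 239014306) (nat_lit 760) (nat_lit 4859048582) (nat_lit 736) (nat_lit 5) (nat_lit 745) (nat_lit 5) (nat_lit 746) (nat_lit 5) (nat_lit 534) (nat_lit 525) (nat_lit 501))))) (XT.nd (nat_lit 312) (nat_lit 1672) (nat_lit 0) (XT.nd (nat_lit 156) (nat_lit 684) (nat_lit 0) (XT.nd (nat_lit 78) (nat_lit 0) (nat_lit 76) (XT.lf (nat_lit 76) (nat_lit 3366674027) (nat_lit 0) (nat_lit 700863242) (nat_lit 760) (nat_lit 2580649766) (nat_lit 737) (nat_lit 5) (nat_lit 736) (nat_lit 5) (nat_lit 746) (nat_lit 5) (nat_lit 535) (nat_lit 525) (nat_lit 500)) (XT.lf (nat_lit 76) (nat_lit 341487808) (nat_lit 0) (nat_lit 6260077662) (nat_lit 760) (nat_lit 69651393) (nat_lit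 738) (nat_lit 5) (nat_lit 737) (nat_lit 5) (nat_lit 747) (nat_lit 5) (nat_lit 536) (nat_lit 525) (nat_lit 499))) (XT.nd (nat_lit 78) (nat_lit 0) (nat_lit 0) (XT.lf (nat_lit 0) (nat_lit 2424267106) (nat_lit 760) (nat_lit 2672487772) (nat_lit 836) (nat_lit 1598326954) (nat_lit 727) (nat_lit 5) (nat_lit 737) (nat_lit 5) (nat_lit 738) (nat_lit 5) (nat_lit 537) (nat_lit 525) (nat_lit 498)) (XT.lf (nat_lit 76) (nat_lit 1033057272) (nat_lit 0) (nat_lit 3880556272) (nat_lit 836) (nat_lit 1806877229) (nat_lit 728) (nat_lit 5) (nat_lit 727) (nat_lit 5) (nat_lit 738) (nat_lit 5) (nat_lit 538) (nat_lit 525) (nat_lit 497)))) (XT.nd (nat_lit 156) (nat_lit 836) (nat_lit 0) (XT.nd (nat_lit 78) (nat_lit 0) (nat_lit 0) (XT.lf (nat_lit 0) (nat_lit 655440129) (nat_lit 836) (nat_lit 1940292038) (nat_lit 912) (nat_lit 4151422019) (nat_lit 716) (nat_lit 5) (nat_lit 727) (nat_lit 5) (nat_lit 728) (nat_lit 5) (nat_lit 539) (nat_lit 525) (nat_lit 496)) (XT.lf (nat_lit 76) (nat_lit 1856450801) (nat_lit 0) (nat_lit 1239917528) (nat_lit 912) (nat_lit 3678677703) (nat_lit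 717) (nat_lit 5) (nat_lit 716) (nat_lit 5) (nat_lit 728) (nat_lit 5) (nat_lit 540) (nat_lit 525) (nat_lit 495))) (XT.nd (nat_lit 78) (nat_lit 912) (nat_lit 0) (XT.lf (nat_lit 0) (nat_lit 5542667735) (nat_lit 836) (nat_lit 1087583412) (nat_lit 76) (nat_lit 174118618) (nat_lit 717) (nat_lit 5) (nat_lit 728) (nat_lit 5) (nat_lit 718) (nat_lit 5) (nat_lit 541) (nat_lit 525) (nat_lit 494)) (XT.lf (nat_lit 0) (nat_lit 1157729518) (nat_lit 912) (nat_lit 4031802403) (nat_lit 76) (nat_lit 1645198625) (nat_lit 705) (nat_lit 5) (nat_lit 717) (nat_lit 5) (nat_lit 706) (nat_lit 5) (nat_lit 542) (nat_lit 525) (nat_lit 493)))))) (XT.nd (nat_lit 546) (nat_lit 7068) (nat_lit 0) (XT.nd (nat_lit 234) (nat_lit 2280) (nat_lit 0) (XT.nd (nat_lit 78) (nat_lit 1976) (nat_lit 0) (XT.lf (nat_lit 0) (nat_lit 3560150023) (nat_lit 912) (nat_lit 126464335) (nat_lit 76) (nat_lit 3179892308) (nat_lit 705) (nat_lit 5) (nat_lit 717) (nat_lit 5) (nat_lit 706) (nat_lit 5) (nat_lit 543) (nat_lit 525) (nat_lit 492)) (XT.nd (nat_lit 78) (nat_lit 1064) (nat_lit 0) (XT.lf (nat_lit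 0) (nat_lit 3869990834) (nat_lit 912) (nat_lit 2110982231) (nat_lit 988) (nat_lit 918542875) (nat_lit 693) (nat_lit 5) (nat_lit 705) (nat_lit 5) (nat_lit 706) (nat_lit 5) (nat_lit 544) (nat_lit 525) (nat_lit 491)) (XT.lf (nat_lit 0) (nat_lit 979691437) (nat_lit 988) (nat_lit 470351016) (nat_lit 1064) (nat_lit 5483892260) (nat_lit 679) (nat_lit 5) (nat_lit 692) (nat_lit 5) (nat_lit 693) (nat_lit 5) (nat_lit 545) (nat_lit 525) (nat_lit 490)))) (XT.nd (nat_lit 156) (nat_lit 1216) (nat_lit 0) (XT.nd (nat_lit 78) (nat_lit 1064) (nat_lit 0) (XT.lf (nat_lit 0) (nat_lit 3828602584) (nat_lit 1064) (nat_lit 1911652492) (nat_lit 76) (nat_lit 1229171749) (nat_lit 679) (nat_lit 5) (nat_lit 693) (nat_lit 5) (nat_lit 680) (nat_lit 5) (nat_lit 546) (nat_lit 525) (nat_lit 489)) (XT.lf (nat_lit 0) (nat_lit 2199138302) (nat_lit 1064) (nat_lit 4020650813) (nat_lit 1140) (nat_lit 786542918) (nat_lit 665) (nat_lit 5) (nat_lit 679) (nat_lit 5) (nat_lit 680) (nat_lit 5) (nat_lit 547) (nat_lit 525) (nat_lit 488))) (XT.nd (nat_lit 78) (nat_lit 1140) (nat_lit 0) (XT.lf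 (nat_lit 0) (nat_lit 1554653527) (nat_lit 1140) (nat_lit 675050852) (nat_lit 76) (nat_lit 4814845296) (nat_lit 664) (nat_lit 5) (nat_lit 679) (nat_lit 5) (nat_lit 665) (nat_lit 5) (nat_lit 548) (nat_lit 525) (nat_lit 487)) (XT.lf (nat_lit 0) (nat_lit 3542932903) (nat_lit 1140) (nat_lit 361334900) (nat_lit 1216) (nat_lit 3179721479) (nat_lit 649) (nat_lit 5) (nat_lit 664) (nat_lit 5) (nat_lit 665) (nat_lit 5) (nat_lit 549) (nat_lit 525) (nat_lit 486))))) (XT.nd (nat_lit 312) (nat_lit 4484) (nat_lit 0) (XT.nd (nat_lit 156) (nat_lit 1292) (nat_lit 0) (XT.nd (nat_lit 78) (nat_lit 76) (nat_lit 0) (XT.lf (nat_lit 0) (nat_lit 690401553) (nat_lit 1216) (nat_lit 5579487718) (nat_lit 1292) (nat_lit 854952135) (nat_lit 633) (nat_lit 5) (nat_lit 649) (nat_lit 5) (nat_lit 650) (nat_lit 5) (nat_lit 550) (nat_lit 525) (nat_lit 485)) (XT.lf (nat_lit 0) (nat_lit 1473083729) (nat_lit 1292) (nat_lit 2163245460) (nat_lit 76) (nat_lit 3530455196) (nat_lit 632) (nat_lit 5) (nat_lit 649) (nat_lit 5) (nat_lit 633) (nat_lit 5) (nat_lit 551) (nat_lit 525) (nat_lit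 484))) (XT.nd (nat_lit 78) (nat_lit 0) (nat_lit 0) (XT.lf (nat_lit 0) (nat_lit 2177739475) (nat_lit 1292) (nat_lit 1623961862) (nat_lit 1368) (nat_lit 3408446278) (nat_lit 615) (nat_lit 5) (nat_lit 632) (nat_lit 5) (nat_lit 633) (nat_lit 5) (nat_lit 552) (nat_lit 525) (nat_lit 483)) (XT.lf (nat_lit 0) (nat_lit 6146374805) (nat_lit 1368) (nat_lit 661405065) (nat_lit 76) (nat_lit 447212288) (nat_lit 615) (nat_lit 5) (nat_lit 633) (nat_lit 5) (nat_lit 616) (nat_lit 5) (nat_lit 553) (nat_lit 525) (nat_lit 482)))) (XT.nd (nat_lit 156) (nat_lit 1596) (nat_lit 0) (XT.nd (nat_lit 78) (nat_lit 1444) (nat_lit 0) (XT.lf (nat_lit 0) (nat_lit 1209339809) (nat_lit 1444) (nat_lit 3511390786) (nat_lit 76) (nat_lit 2580078756) (nat_lit 596) (nat_lit 5) (nat_lit 615) (nat_lit 5) (nat_lit 597) (nat_lit 5) (nat_lit 554) (nat_lit 525) (nat_lit 481)) (XT.lf (nat_lit 0) (nat_lit 957046434) (nat_lit 1444) (nat_lit 2565850269) (nat_lit 1520) (nat_lit 3825221430) (nat_lit 577) (nat_lit 5) (nat_lit 596) (nat_lit 5) (nat_lit 597) (nat_lit 5) (nat_lit 555) (nat_lit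 525) (nat_lit 480))) (XT.nd (nat_lit 78) (nat_lit 1596) (nat_lit 0) (XT.lf (nat_lit 0) (nat_lit 5523801935) (nat_lit 1444) (nat_lit 336538628) (nat_lit 1520) (nat_lit 1536483646) (nat_lit 577) (nat_lit 5) (nat_lit 596) (nat_lit 5) (nat_lit 597) (nat_lit 5) (nat_lit 556) (nat_lit 525) (nat_lit 479)) (XT.lf (nat_lit 0) (nat_lit 772697752) (nat_lit 1596) (nat_lit 4732249783) (nat_lit 76) (nat_lit 1941753843) (nat_lit 556) (nat_lit 5) (nat_lit 577) (nat_lit 5) (nat_lit 557) (nat_lit 5) (nat_lit 557) (nat_lit 525) (nat_lit 478))))))))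
noncomputable def xc41 : XT := (XT.nd (nat_lit 2340) (nat_lit 6840) (nat_lit 0) (XT.nd (nat_lit 1170) (nat_lit 7600) (nat_lit 0) (XT.nd (nat_lit 546) (nat_lit 4712) (nat_lit 0) (XT.nd (nat_lit 234) (nat_lit 3648) (nat_lit 0) (XT.nd (nat_lit 78) (nat_lit 3344) (nat_lit 0) (XT.lf (nat_lit 0) (nat_lit 3077724113) (nat_lit 1596) (nat_lit 129930338) (nat_lit 76) (nat_lit 4290317056) (nat_lit 556) (nat_lit 5) (nat_lit 577) (nat_lit 5) (nat_lit 557) (nat_lit 5) (nat_lit 558) (nat_lit 525) (nat_lit 477)) (XT.nd (nat_lit 78) (nat_lit 1748) (nat_lit 0) (XT.lf (nat_lit 0) (nat_lit 4586169700) (nat_lit 1596) (nat_lit 828668230) (nat_lit 1672) (nat_lit 2135712542) (nat_lit 535) (nat_lit 5) (nat_lit 556) (nat_lit 5) (nat_lit 557) (nat_lit 5) (nat_lit 559) (nat_lit 525) (nat_lit 476)) (XT.lf (nat_lit 0) (nat_lit 171408453) (nat_lit 1748) (nat_lit 5837785091) (nat_lit 76) (nat_lit 1595376335) (nat_lit 512) (nat_lit 5) (nat_lit 535) (nat_lit 5) (nat_lit 513) (nat_lit 5) (nat_lit 560) (nat_lit 525) (nat_lit 475)))) (XT.nd (nat_lit 156) (nat_lit 1900) (nat_lit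 0) (XT.nd (nat_lit 78) (nat_lit 1748) (nat_lit 0) (XT.lf (nat_lit 0) (nat_lit 2478776720) (nat_lit 1748) (nat_lit 1085654660) (nat_lit 76) (nat_lit 4095304902) (nat_lit 512) (nat_lit 5) (nat_lit 535) (nat_lit 5) (nat_lit 513) (nat_lit 5) (nat_lit 561) (nat_lit 525) (nat_lit 474)) (XT.lf (nat_lit 0) (nat_lit 3772389972) (nat_lit 1748) (nat_lit 1042398323) (nat_lit 1824) (nat_lit 2901570730) (nat_lit 489) (nat_lit 5) (nat_lit 512) (nat_lit 5) (nat_lit 513) (nat_lit 5) (nat_lit 562) (nat_lit 525) (nat_lit 473))) (XT.nd (nat_lit 78) (nat_lit 76) (nat_lit 0) (XT.lf (nat_lit 0) (nat_lit 931374671) (nat_lit 1824) (nat_lit 6248057868) (nat_lit 1900) (nat_lit 595046309) (nat_lit 465) (nat_lit 5) (nat_lit 489) (nat_lit 5) (nat_lit 490) (nat_lit 5) (nat_lit 563) (nat_lit 525) (nat_lit 472)) (XT.lf (nat_lit 0) (nat_lit 1726985136) (nat_lit 1900) (nat_lit 1933527629) (nat_lit 76) (nat_lit 4173174277) (nat_lit 464) (nat_lit 5) (nat_lit 489) (nat_lit 5) (nat_lit 465) (nat_lit 5) (nat_lit 564) (nat_lit 525) (nat_lit 471))))) (XT.nd (nat_lit 312) (nat_lit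 1748) (nat_lit 0) (XT.nd (nat_lit 156) (nat_lit 988) (nat_lit 0) (XT.nd (nat_lit 78) (nat_lit 912) (nat_lit 0) (XT.lf (nat_lit 0) (nat_lit 3071869676) (nat_lit 1064) (nat_lit 995261347) (nat_lit 1140) (nat_lit 3827279588) (nat_lit 450) (nat_lit 5) (nat_lit 464) (nat_lit 5) (nat_lit 465) (nat_lit 5) (nat_lit 565) (nat_lit 525) (nat_lit 470)) (XT.lf (nat_lit 0) (nat_lit 199567911) (nat_lit 912) (nat_lit 6240295911) (nat_lit 988) (nat_lit 1516771806) (nat_lit 438) (nat_lit 5) (nat_lit 450) (nat_lit 5) (nat_lit 451) (nat_lit 5) (nat_lit 566) (nat_lit 525) (nat_lit 469))) (XT.nd (nat_lit 78) (nat_lit 912) (nat_lit 0) (XT.lf (nat_lit 0) (nat_lit 828599843) (nat_lit 988) (nat_lit 2683766203) (nat_lit 76) (nat_lit 4507639187) (nat_lit 437) (nat_lit 5) (nat_lit 450) (nat_lit 5) (nat_lit 438) (nat_lit 5) (nat_lit 567) (nat_lit 525) (nat_lit 468)) (XT.lf (nat_lit 0) (nat_lit 2474648124) (nat_lit 912) (nat_lit 703284247) (nat_lit 988) (nat_lit 4906964583) (nat_lit 425) (nat_lit 5) (nat_lit 437) (nat_lit 5) (nat_lit 438) (nat_lit 5) (nat_lit 568) (nat_lit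 525) (nat_lit 467)))) (XT.nd (nat_lit 156) (nat_lit 912) (nat_lit 0) (XT.nd (nat_lit 78) (nat_lit 836) (nat_lit 0) (XT.lf (nat_lit 0) (nat_lit 5568201620) (nat_lit 988) (nat_lit 431546308) (nat_lit 76) (nat_lit 2151462034) (nat_lit 425) (nat_lit 5) (nat_lit 438) (nat_lit 5) (nat_lit 426) (nat_lit 5) (nat_lit 569) (nat_lit 525) (nat_lit 466)) (XT.lf (nat_lit 0) (nat_lit 4871459275) (nat_lit 836) (nat_lit 3133636873) (nat_lit 912) (nat_lit 213779086) (nat_lit 414) (nat_lit 5) (nat_lit 425) (nat_lit 5) (nat_lit 426) (nat_lit 5) (nat_lit 570) (nat_lit 525) (nat_lit 465))) (XT.nd (nat_lit 78) (nat_lit 0) (nat_lit 0) (XT.lf (nat_lit 0) (nat_lit 1971324356) (nat_lit 836) (nat_lit 181106751) (nat_lit 912) (nat_lit 6135609234) (nat_lit 402) (nat_lit 5) (nat_lit 413) (nat_lit 5) (nat_lit 414) (nat_lit 5) (nat_lit 571) (nat_lit 525) (nat_lit 464)) (XT.lf (nat_lit 0) (nat_lit 4567336078) (nat_lit 912) (nat_lit 975484977) (nat_lit 76) (nat_lit 2815657038) (nat_lit 402) (nat_lit 5) (nat_lit 414) (nat_lit 5) (nat_lit 403) (nat_lit 5) (nat_lit 572) (nat_lit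 525) (nat_lit 463)))))) (XT.nd (nat_lit 546) (nat_lit 3572) (nat_lit 0) (XT.nd (nat_lit 234) (nat_lit 2280) (nat_lit 0) (XT.nd (nat_lit 78) (nat_lit 912) (nat_lit 0) (XT.lf (nat_lit 0) (nat_lit 4491833217) (nat_lit 836) (nat_lit 2533031431) (nat_lit 912) (nat_lit 1405575664) (nat_lit 391) (nat_lit 5) (nat_lit 402) (nat_lit 5) (nat_lit 403) (nat_lit 5) (nat_lit 573) (nat_lit 525) (nat_lit 462)) (XT.nd (nat_lit 78) (nat_lit 0) (nat_lit 0) (XT.lf (nat_lit 0) (nat_lit 998701233) (nat_lit 912) (nat_lit 6954728376) (nat_lit 76) (nat_lit 550591297) (nat_lit 379) (nat_lit 5) (nat_lit 391) (nat_lit 5) (nat_lit 380) (nat_lit 5) (nat_lit 574) (nat_lit 525) (nat_lit 461)) (XT.lf (nat_lit 0) (nat_lit 3440256824) (nat_lit 912) (nat_lit 1443573548) (nat_lit 76) (nat_lit 3694898740) (nat_lit 379) (nat_lit 5) (nat_lit 391) (nat_lit 5) (nat_lit 380) (nat_lit 5) (nat_lit 575) (nat_lit 525) (nat_lit 460)))) (XT.nd (nat_lit 156) (nat_lit 760) (nat_lit 0) (XT.nd (nat_lit 78) (nat_lit 760) (nat_lit 0) (XT.lf (nat_lit 0) (nat_lit 4194472977) (nat_lit 760) (nat_lit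 1728713671) (nat_lit 836) (nat_lit 2731896024) (nat_lit 369) (nat_lit 5) (nat_lit 379) (nat_lit 5) (nat_lit 380) (nat_lit 5) (nat_lit 576) (nat_lit 525) (nat_lit 459)) (XT.lf (nat_lit 0) (nat_lit 1199320503) (nat_lit 760) (nat_lit 7249381324) (nat_lit 836) (nat_lit 284404953) (nat_lit 359) (nat_lit 5) (nat_lit 369) (nat_lit 5) (nat_lit 370) (nat_lit 5) (nat_lit 577) (nat_lit 525) (nat_lit 458))) (XT.nd (nat_lit 78) (nat_lit 684) (nat_lit 0) (XT.lf (nat_lit 0) (nat_lit 2190518282) (nat_lit 836) (nat_lit 1844139989) (nat_lit 76) (nat_lit 4777597922) (nat_lit 358) (nat_lit 5) (nat_lit 369) (nat_lit 5) (nat_lit 359) (nat_lit 5) (nat_lit 578) (nat_lit 525) (nat_lit 457)) (XT.lf (nat_lit 0) (nat_lit 3971311337) (nat_lit 684) (nat_lit 732190652) (nat_lit 760) (nat_lit 4189603498) (nat_lit 349) (nat_lit 5) (nat_lit 358) (nat_lit 5) (nat_lit 359) (nat_lit 5) (nat_lit 579) (nat_lit 525) (nat_lit 456))))) (XT.nd (nat_lit 312) (nat_lit 1368) (nat_lit 0) (XT.nd (nat_lit 156) (nat_lit 1368) (nat_lit 0) (XT.nd (nat_lit 78) (nat_lit 76) (nat_lit 0) (XT.lf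 (nat_lit 0) (nat_lit 908899204) (nat_lit 760) (nat_lit 6360280403) (nat_lit 836) (nat_lit 1706345336) (nat_lit 339) (nat_lit 5) (nat_lit 349) (nat_lit 5) (nat_lit 350) (nat_lit 5) (nat_lit 580) (nat_lit 525) (nat_lit 455)) (XT.lf (nat_lit 0) (nat_lit 820973077) (nat_lit 836) (nat_lit 2185196359) (nat_lit 76) (nat_lit 6053213087) (nat_lit 338) (nat_lit 5) (nat_lit 349) (nat_lit 5) (nat_lit 339) (nat_lit 5) (nat_lit 581) (nat_lit 525) (nat_lit 454))) (XT.nd (nat_lit 78) (nat_lit 684) (nat_lit 0) (XT.lf (nat_lit 0) (nat_lit 3371458721) (nat_lit 760) (nat_lit 5333140039) (nat_lit 76) (nat_lit 440185292) (nat_lit 329) (nat_lit 5) (nat_lit 339) (nat_lit 5) (nat_lit 330) (nat_lit 5) (nat_lit 582) (nat_lit 525) (nat_lit 453)) (XT.lf (nat_lit 0) (nat_lit 676972368) (nat_lit 684) (nat_lit 5303179242) (nat_lit 760) (nat_lit 3251599769) (nat_lit 320) (nat_lit 5) (nat_lit 329) (nat_lit 5) (nat_lit 330) (nat_lit 5) (nat_lit 583) (nat_lit 525) (nat_lit 452)))) (XT.nd (nat_lit 156) (nat_lit 684) (nat_lit 0) (XT.nd (nat_lit 78) (nat_lit 684) (nat_lit 0)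 (XT.lf (nat_lit 0) (nat_lit 6841488893) (nat_lit 684) (nat_lit 1803828020) (nat_lit 760) (nat_lit 675056851) (nat_lit 320) (nat_lit 5) (nat_lit 329) (nat_lit 5) (nat_lit 330) (nat_lit 5) (nat_lit 584) (nat_lit 525) (nat_lit 451)) (XT.lf (nat_lit 0) (nat_lit 1932119948) (nat_lit 684) (nat_lit 5705482989) (nat_lit 76) (nat_lit 1772819329) (nat_lit 311) (nat_lit 5) (nat_lit 320) (nat_lit 5) (nat_lit 312) (nat_lit 5) (nat_lit 585) (nat_lit 525) (nat_lit 450))) (XT.nd (nat_lit 78) (nat_lit 0) (nat_lit 0) (XT.lf (nat_lit 0) (nat_lit 496000004) (nat_lit 684) (nat_lit 4087564196) (nat_lit 760) (nat_lit 4918596623) (nat_lit 302) (nat_lit 5) (nat_lit 311) (nat_lit 5) (nat_lit 312) (nat_lit 5) (nat_lit 586) (nat_lit 525) (nat_lit 449)) (XT.lf (nat_lit 0) (nat_lit 6861021211) (nat_lit 684) (nat_lit 434903821) (nat_lit 760) (nat_lit 2299652922) (nat_lit 302) (nat_lit 5) (nat_lit 311) (nat_lit 5) (nat_lit 312) (nat_lit 5) (nat_lit 587) (nat_lit 525) (nat_lit 448))))))) (XT.nd (nat_lit 1170) (nat_lit 988) (nat_lit 0) (XT.nd (nat_lit 546) (nat_lit 2736)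 (nat_lit 0) (XT.nd (nat_lit 234) (nat_lit 1824) (nat_lit 0) (XT.nd (nat_lit 78) (nat_lit 608) (nat_lit 0) (XT.lf (nat_lit 0) (nat_lit 382117286) (nat_lit 684) (nat_lit 6041712131) (nat_lit 76) (nat_lit 3266680800) (nat_lit 293) (nat_lit 5) (nat_lit 302) (nat_lit 5) (nat_lit 294) (nat_lit 5) (nat_lit 588) (nat_lit 525) (nat_lit 447)) (XT.nd (nat_lit 78) (nat_lit 0) (nat_lit 0) (XT.lf (nat_lit 0) (nat_lit 358597558) (nat_lit 608) (nat_lit 2722137316) (nat_lit 684) (nat_lit 6706423616) (nat_lit 285) (nat_lit 5) (nat_lit 293) (nat_lit 5) (nat_lit 294) (nat_lit 5) (nat_lit 589) (nat_lit 525) (nat_lit 446)) (XT.lf (nat_lit 0) (nat_lit 5851557918) (nat_lit 684) (nat_lit 2961302478) (nat_lit 76) (nat_lit 1072516108) (nat_lit 285) (nat_lit 5) (nat_lit 294) (nat_lit 5) (nat_lit 286) (nat_lit 5) (nat_lit 590) (nat_lit 525) (nat_lit 445)))) (XT.nd (nat_lit 156) (nat_lit 532) (nat_lit 0) (XT.nd (nat_lit 78) (nat_lit 684) (nat_lit 0) (XT.lf (nat_lit 0) (nat_lit 3627520945) (nat_lit 608) (nat_lit 5063013934) (nat_lit 684) (nat_lit 1294770658) (nat_lit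 277) (nat_lit 5) (nat_lit 285) (nat_lit 5) (nat_lit 286) (nat_lit 5) (nat_lit 591) (nat_lit 525) (nat_lit 444)) (XT.lf (nat_lit 0) (nat_lit 257473008) (nat_lit 608) (nat_lit 1214892319) (nat_lit 684) (nat_lit 8614815170) (nat_lit 268) (nat_lit 5) (nat_lit 276) (nat_lit 5) (nat_lit 277) (nat_lit 5) (nat_lit 592) (nat_lit 525) (nat_lit 443))) (XT.nd (nat_lit 78) (nat_lit 532) (nat_lit 0) (XT.lf (nat_lit 0) (nat_lit 4309622477) (nat_lit 684) (nat_lit 3163206912) (nat_lit 76) (nat_lit 2717451418) (nat_lit 268) (nat_lit 5) (nat_lit 277) (nat_lit 5) (nat_lit 269) (nat_lit 5) (nat_lit 593) (nat_lit 525) (nat_lit 442)) (XT.lf (nat_lit 0) (nat_lit 3639317259) (nat_lit 532) (nat_lit 3568095966) (nat_lit 608) (nat_lit 3087955432) (nat_lit 261) (nat_lit 5) (nat_lit 268) (nat_lit 5) (nat_lit 269) (nat_lit 5) (nat_lit 594) (nat_lit 525) (nat_lit 441))))) (XT.nd (nat_lit 312) (nat_lit 1064) (nat_lit 0) (XT.nd (nat_lit 156) (nat_lit 1064) (nat_lit 0) (XT.nd (nat_lit 78) (nat_lit 76) (nat_lit 0) (XT.lf (nat_lit 0) (nat_lit 180934985) (nat_lit 532) (nat_lit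 9979822235) (nat_lit 608) (nat_lit 241850370) (nat_lit 254) (nat_lit 5) (nat_lit 261) (nat_lit 5) (nat_lit 262) (nat_lit 5) (nat_lit 595) (nat_lit 525) (nat_lit 440)) (XT.lf (nat_lit 0) (nat_lit 2667348210) (nat_lit 608) (nat_lit 3344778990) (nat_lit 76) (nat_lit 4498698301) (nat_lit 253) (nat_lit 5) (nat_lit 261) (nat_lit 5) (nat_lit 254) (nat_lit 5) (nat_lit 596) (nat_lit 525) (nat_lit 439))) (XT.nd (nat_lit 78) (nat_lit 532) (nat_lit 0) (XT.lf (nat_lit 0) (nat_lit 3679680186) (nat_lit 532) (nat_lit 1948727768) (nat_lit 608) (nat_lit 4992830735) (nat_lit 246) (nat_lit 5) (nat_lit 253) (nat_lit 5) (nat_lit 254) (nat_lit 5) (nat_lit 597) (nat_lit 525) (nat_lit 438)) (XT.lf (nat_lit 0) (nat_lit 106688547) (nat_lit 532) (nat_lit 8552795746) (nat_lit 608) (nat_lit 2074161120) (nat_lit 239) (nat_lit 5) (nat_lit 246) (nat_lit 5) (nat_lit 247) (nat_lit 5) (nat_lit 598) (nat_lit 525) (nat_lit 437)))) (XT.nd (nat_lit 156) (nat_lit 532) (nat_lit 0) (XT.nd (nat_lit 78) (nat_lit 456) (nat_lit 0) (XT.lf (nat_lit 0) (nat_lit 924197593) (nat_lit 608)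 (nat_lit 3513423380) (nat_lit 76) (nat_lit 6409900044) (nat_lit 238) (nat_lit 5) (nat_lit 246) (nat_lit 5) (nat_lit 239) (nat_lit 5) (nat_lit 599) (nat_lit 525) (nat_lit 436)) (XT.lf (nat_lit 0) (nat_lit 3741465727) (nat_lit 456) (nat_lit 211486778) (nat_lit 532) (nat_lit 7010484495) (nat_lit 232) (nat_lit 5) (nat_lit 238) (nat_lit 5) (nat_lit 239) (nat_lit 5) (nat_lit 600) (nat_lit 525) (nat_lit 435))) (XT.nd (nat_lit 78) (nat_lit 0) (nat_lit 0) (XT.lf (nat_lit 0) (nat_lit 45238680) (nat_lit 532) (nat_lit 7021781375) (nat_lit 608) (nat_lit 4014157585) (nat_lit 225) (nat_lit 5) (nat_lit 232) (nat_lit 5) (nat_lit 233) (nat_lit 5) (nat_lit 601) (nat_lit 525) (nat_lit 434)) (XT.lf (nat_lit 0) (nat_lit 7518047056) (nat_lit 532) (nat_lit 2749545458) (nat_lit 608) (nat_lit 933197177) (nat_lit 225) (nat_lit 5) (nat_lit 232) (nat_lit 5) (nat_lit 233) (nat_lit 5) (nat_lit 602) (nat_lit 525) (nat_lit 433)))))) (XT.nd (nat_lit 75504) (nat_lit 0) (nat_lit 39064) (XT.nd (nat_lit 75192) (nat_lit 0) (nat_lit 41040) (XT.nd (nat_lit 78) (nat_lit 456) (nat_lit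 0) (XT.lf (nat_lit 0) (nat_lit 2190526804) (nat_lit 532) (nat_lit 7515760707) (nat_lit 76) (nat_lit 1616018185) (nat_lit 218) (nat_lit 5) (nat_lit 225) (nat_lit 5) (nat_lit 219) (nat_lit 5) (nat_lit 603) (nat_lit 525) (nat_lit 432)) (XT.nd (nat_lit 78) (nat_lit 456) (nat_lit 0) (XT.lf (nat_lit 0) (nat_lit 5382227307) (nat_lit 532) (nat_lit 10817870) (nat_lit 76) (nat_lit 6052724532) (nat_lit 218) (nat_lit 5) (nat_lit 225) (nat_lit 5) (nat_lit 219) (nat_lit 5) (nat_lit 604) (nat_lit 525) (nat_lit 431)) (XT.lf (nat_lit 0) (nat_lit 7710002346) (nat_lit 456) (nat_lit 953210233) (nat_lit 532) (nat_lit 2907982394) (nat_lit 212) (nat_lit 5) (nat_lit 218) (nat_lit 5) (nat_lit 219) (nat_lit 5) (nat_lit 605) (nat_lit 525) (nat_lit 430)))) (XT.nd (nat_lit 156) (nat_lit 532) (nat_lit 0) (XT.nd (nat_lit 78) (nat_lit 0) (nat_lit 0) (XT.lf (nat_lit 0) (nat_lit 1418614239) (nat_lit 532) (nat_lit 918346557) (nat_lit 532) (nat_lit 918346557) (nat_lit 759) (nat_lit 3) (nat_lit 766) (nat_lit 3) (nat_lit 766) (nat_lit 5) (nat_lit 526) (nat_lit 526) (nat_lit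 508)) (XT.lf (nat_lit 76) (nat_lit 1417292898) (nat_lit 0) (nat_lit 4085639957) (nat_lit 532) (nat_lit 1019768908) (nat_lit 760) (nat_lit 5) (nat_lit 759) (nat_lit 3) (nat_lit 766) (nat_lit 5) (nat_lit 527) (nat_lit 526) (nat_lit 507))) (XT.nd (nat_lit 78) (nat_lit 0) (nat_lit 0) (XT.lf (nat_lit 0) (nat_lit 1607570048) (nat_lit 532) (nat_lit 1821123812) (nat_lit 608) (nat_lit 3107269184) (nat_lit 752) (nat_lit 5) (nat_lit 759) (nat_lit 3) (nat_lit 760) (nat_lit 5) (nat_lit 528) (nat_lit 526) (nat_lit 506)) (XT.lf (nat_lit 76) (nat_lit 1506000849) (nat_lit 0) (nat_lit 2709323065) (nat_lit 608) (nat_lit 2335207234) (nat_lit 753) (nat_lit 5) (nat_lit 752) (nat_lit 5) (nat_lit 760) (nat_lit 5) (nat_lit 529) (nat_lit 526) (nat_lit 505))))) (XT.nd (nat_lit 312) (nat_lit 760) (nat_lit 0) (XT.nd (nat_lit 156) (nat_lit 608) (nat_lit 0) (XT.nd (nat_lit 78) (nat_lit 0) (nat_lit 0) (XT.lf (nat_lit 0) (nat_lit 250468327) (nat_lit 608) (nat_lit 1679398459) (nat_lit 684) (nat_lit 4636596403) (nat_lit 744) (nat_lit 5) (nat_lit 752) (nat_lit 5) (nat_lit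 753) (nat_lit 5) (nat_lit 530) (nat_lit 526) (nat_lit 504)) (XT.lf (nat_lit 76) (nat_lit 1724389254) (nat_lit 0) (nat_lit 1077138645) (nat_lit 684) (nat_lit 3781984951) (nat_lit 745) (nat_lit 5) (nat_lit 744) (nat_lit 5) (nat_lit 753) (nat_lit 5) (nat_lit 531) (nat_lit 526) (nat_lit 503))) (XT.nd (nat_lit 78) (nat_lit 608) (nat_lit 0) (XT.lf (nat_lit 76) (nat_lit 5183455428) (nat_lit 0) (nat_lit 166205534) (nat_lit 684) (nat_lit 1252327842) (nat_lit 745) (nat_lit 5) (nat_lit 744) (nat_lit 5) (nat_lit 753) (nat_lit 5) (nat_lit 532) (nat_lit 526) (nat_lit 502)) (XT.lf (nat_lit 0) (nat_lit 1264888047) (nat_lit 684) (nat_lit 4553253935) (nat_lit 760) (nat_lit 803438329) (nat_lit 736) (nat_lit 5) (nat_lit 745) (nat_lit 5) (nat_lit 746) (nat_lit 5) (nat_lit 533) (nat_lit 526) (nat_lit 501)))) (XT.nd (nat_lit 156) (nat_lit 760) (nat_lit 0) (XT.nd (nat_lit 78) (nat_lit 0) (nat_lit 0) (XT.lf (nat_lit 0) (nat_lit 3763222434) (nat_lit 684) (nat_lit 1043623311) (nat_lit 760) (nat_lit 1835607467) (nat_lit 736) (nat_lit 5) (nat_lit 745) (nat_lit 5) (nat_lit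 746) (nat_lit 5) (nat_lit 534) (nat_lit 526) (nat_lit 500)) (XT.lf (nat_lit 76) (nat_lit 2533203079) (nat_lit 0) (nat_lit 3732850338) (nat_lit 760) (nat_lit 398605419) (nat_lit 737) (nat_lit 5) (nat_lit 736) (nat_lit 5) (nat_lit 746) (nat_lit 5) (nat_lit 535) (nat_lit 526) (nat_lit 499))) (XT.nd (nat_lit 78) (nat_lit 0) (nat_lit 0) (XT.lf (nat_lit 0) (nat_lit 2049379239) (nat_lit 760) (nat_lit 542145132) (nat_lit 836) (nat_lit 4096598966) (nat_lit 726) (nat_lit 5) (nat_lit 736) (nat_lit 5) (nat_lit 737) (nat_lit 5) (nat_lit 536) (nat_lit 526) (nat_lit 498)) (XT.lf (nat_lit 76) (nat_lit 3121165344) (nat_lit 0) (nat_lit 1379947344) (nat_lit 836) (nat_lit 2211694741) (nat_lit 727) (nat_lit 5) (nat_lit 726) (nat_lit 5) (nat_lit 737) (nat_lit 5) (nat_lit 537) (nat_lit 526) (nat_lit 497))))))))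
noncomputable def xc42 : XT := (XT.nd (nat_lit 2340) (nat_lit 13984) (nat_lit 0) (XT.nd (nat_lit 1170) (nat_lit 13528) (nat_lit 0) (XT.nd (nat_lit 546) (nat_lit 5852) (nat_lit 0) (XT.nd (nat_lit 234) (nat_lit 1748) (nat_lit 0) (XT.nd (nat_lit 78) (nat_lit 0) (nat_lit 76) (XT.lf (nat_lit 76) (nat_lit 89979991) (nat_lit 0) (nat_lit 115106895) (nat_lit 912) (nat_lit 6533976312) (nat_lit 716) (nat_lit 5) (nat_lit 715) (nat_lit 5) (nat_lit 727) (nat_lit 5) (nat_lit 538) (nat_lit 526) (nat_lit 496)) (XT.nd (nat_lit 78) (nat_lit 0) (nat_lit 0) (XT.lf (nat_lit 0) (nat_lit 2613990392) (nat_lit 836) (nat_lit 2931600624) (nat_lit 912) (nat_lit 1220497869) (nat_lit 716) (nat_lit 5) (nat_lit 727) (nat_lit 5) (nat_lit 728) (nat_lit 5) (nat_lit 539) (nat_lit 526) (nat_lit 495)) (XT.lf (nat_lit 76) (nat_lit 833416322) (nat_lit 0) (nat_lit 4186459089) (nat_lit 912) (nat_lit 1774808710) (nat_lit 717) (nat_lit 5) (nat_lit 716) (nat_lit 5) (nat_lit 728) (nat_lit 5) (nat_lit 540) (nat_lit 526) (nat_lit 494)))) (XT.nd (nat_lit 156) (nat_lit 912) (nat_lit 0) (XT.nd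 (nat_lit 78) (nat_lit 0) (nat_lit 0) (XT.lf (nat_lit 0) (nat_lit 604441926) (nat_lit 912) (nat_lit 2151836936) (nat_lit 988) (nat_lit 4068234092) (nat_lit 704) (nat_lit 5) (nat_lit 716) (nat_lit 5) (nat_lit 717) (nat_lit 5) (nat_lit 541) (nat_lit 526) (nat_lit 493)) (XT.lf (nat_lit 76) (nat_lit 1707659753) (nat_lit 0) (nat_lit 1255214975) (nat_lit 988) (nat_lit 3892726579) (nat_lit 705) (nat_lit 5) (nat_lit 704) (nat_lit 5) (nat_lit 717) (nat_lit 5) (nat_lit 542) (nat_lit 526) (nat_lit 492))) (XT.nd (nat_lit 78) (nat_lit 988) (nat_lit 0) (XT.lf (nat_lit 0) (nat_lit 5330030485) (nat_lit 912) (nat_lit 1253139582) (nat_lit 76) (nat_lit 304914987) (nat_lit 705) (nat_lit 5) (nat_lit 717) (nat_lit 5) (nat_lit 706) (nat_lit 5) (nat_lit 543) (nat_lit 526) (nat_lit 491)) (XT.lf (nat_lit 0) (nat_lit 784532312) (nat_lit 988) (nat_lit 4217160526) (nat_lit 76) (nat_lit 1919982875) (nat_lit 692) (nat_lit 5) (nat_lit 705) (nat_lit 5) (nat_lit 693) (nat_lit 5) (nat_lit 544) (nat_lit 526) (nat_lit 490))))) (XT.nd (nat_lit 312) (nat_lit 3724) (nat_lit 0)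 (XT.nd (nat_lit 156) (nat_lit 1140) (nat_lit 0) (XT.nd (nat_lit 78) (nat_lit 988) (nat_lit 0) (XT.lf (nat_lit 0) (nat_lit 3108354079) (nat_lit 988) (nat_lit 245307931) (nat_lit 76) (nat_lit 3602969734) (nat_lit 692) (nat_lit 5) (nat_lit 705) (nat_lit 5) (nat_lit 693) (nat_lit 5) (nat_lit 545) (nat_lit 526) (nat_lit 489)) (XT.lf (nat_lit 0) (nat_lit 3819334058) (nat_lit 988) (nat_lit 1631920852) (nat_lit 1064) (nat_lit 1541584290) (nat_lit 679) (nat_lit 5) (nat_lit 692) (nat_lit 5) (nat_lit 693) (nat_lit 5) (nat_lit 546) (nat_lit 526) (nat_lit 488))) (XT.nd (nat_lit 78) (nat_lit 0) (nat_lit 0) (XT.lf (nat_lit 0) (nat_lit 757390695) (nat_lit 1140) (nat_lit 6123238280) (nat_lit 76) (nat_lit 149904926) (nat_lit 664) (nat_lit 5) (nat_lit 679) (nat_lit 5) (nat_lit 665) (nat_lit 5) (nat_lit 547) (nat_lit 526) (nat_lit 487)) (XT.lf (nat_lit 0) (nat_lit 3063079804) (nat_lit 1140) (nat_lit 2015043392) (nat_lit 76) (nat_lit 1991032079) (nat_lit 664) (nat_lit 5) (nat_lit 679) (nat_lit 5) (nat_lit 665) (nat_lit 5) (nat_lit 548) (nat_lit 526) (nat_lit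 486)))) (XT.nd (nat_lit 156) (nat_lit 2508) (nat_lit 0) (XT.nd (nat_lit 78) (nat_lit 76) (nat_lit 0) (XT.lf (nat_lit 0) (nat_lit 2166415291) (nat_lit 1140) (nat_lit 3212643793) (nat_lit 1216) (nat_lit 1730210489) (nat_lit 649) (nat_lit 5) (nat_lit 664) (nat_lit 5) (nat_lit 665) (nat_lit 5) (nat_lit 549) (nat_lit 526) (nat_lit 485)) (XT.lf (nat_lit 0) (nat_lit 547548759) (nat_lit 1216) (nat_lit 732754950) (nat_lit 76) (nat_lit 5870526945) (nat_lit 648) (nat_lit 5) (nat_lit 664) (nat_lit 5) (nat_lit 649) (nat_lit 5) (nat_lit 550) (nat_lit 526) (nat_lit 484))) (XT.nd (nat_lit 78) (nat_lit 1292) (nat_lit 0) (XT.lf (nat_lit 0) (nat_lit 2827106909) (nat_lit 1292) (nat_lit 3638507635) (nat_lit 76) (nat_lit 727795245) (nat_lit 632) (nat_lit 5) (nat_lit 649) (nat_lit 5) (nat_lit 633) (nat_lit 5) (nat_lit 551) (nat_lit 526) (nat_lit 483)) (XT.lf (nat_lit 0) (nat_lit 663921670) (nat_lit 1292) (nat_lit 4458347078) (nat_lit 1368) (nat_lit 2115175227) (nat_lit 615) (nat_lit 5) (nat_lit 632) (nat_lit 5) (nat_lit 633) (nat_lit 5) (nat_lit 552) (nat_lit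 526) (nat_lit 482)))))) (XT.nd (nat_lit 546) (nat_lit 7448) (nat_lit 0) (XT.nd (nat_lit 234) (nat_lit 4636) (nat_lit 0) (XT.nd (nat_lit 78) (nat_lit 1368) (nat_lit 0) (XT.lf (nat_lit 0) (nat_lit 155829868) (nat_lit 1368) (nat_lit 2219648333) (nat_lit 76) (nat_lit 4907316149) (nat_lit 614) (nat_lit 5) (nat_lit 632) (nat_lit 5) (nat_lit 615) (nat_lit 5) (nat_lit 553) (nat_lit 526) (nat_lit 481)) (XT.nd (nat_lit 78) (nat_lit 0) (nat_lit 0) (XT.lf (nat_lit 0) (nat_lit 2198718594) (nat_lit 1368) (nat_lit 213095123) (nat_lit 1444) (nat_lit 4917604276) (nat_lit 596) (nat_lit 5) (nat_lit 614) (nat_lit 5) (nat_lit 615) (nat_lit 5) (nat_lit 554) (nat_lit 526) (nat_lit 480)) (XT.lf (nat_lit 0) (nat_lit 4695151236) (nat_lit 1444) (nat_lit 692312346) (nat_lit 76) (nat_lit 1989869281) (nat_lit 596) (nat_lit 5) (nat_lit 615) (nat_lit 5) (nat_lit 597) (nat_lit 5) (nat_lit 555) (nat_lit 526) (nat_lit 479)))) (XT.nd (nat_lit 156) (nat_lit 1596) (nat_lit 0) (XT.nd (nat_lit 78) (nat_lit 1596) (nat_lit 0) (XT.lf (nat_lit 0) (nat_lit 3846485025) (nat_lit 1444)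 (nat_lit 3159255126) (nat_lit 1520) (nat_lit 420837553) (nat_lit 577) (nat_lit 5) (nat_lit 596) (nat_lit 5) (nat_lit 597) (nat_lit 5) (nat_lit 556) (nat_lit 526) (nat_lit 478)) (XT.lf (nat_lit 0) (nat_lit 971453274) (nat_lit 1520) (nat_lit 856073273) (nat_lit 1596) (nat_lit 5649708765) (nat_lit 556) (nat_lit 5) (nat_lit 576) (nat_lit 5) (nat_lit 577) (nat_lit 5) (nat_lit 557) (nat_lit 526) (nat_lit 477))) (XT.nd (nat_lit 78) (nat_lit 1596) (nat_lit 0) (XT.lf (nat_lit 0) (nat_lit 4105316730) (nat_lit 1596) (nat_lit 1916921347) (nat_lit 76) (nat_lit 1506813659) (nat_lit 556) (nat_lit 5) (nat_lit 577) (nat_lit 5) (nat_lit 557) (nat_lit 5) (nat_lit 558) (nat_lit 526) (nat_lit 476)) (XT.lf (nat_lit 0) (nat_lit 2756538685) (nat_lit 1596) (nat_lit 3652759760) (nat_lit 1672) (nat_lit 1172996439) (nat_lit 535) (nat_lit 5) (nat_lit 556) (nat_lit 5) (nat_lit 557) (nat_lit 5) (nat_lit 559) (nat_lit 526) (nat_lit 475))))) (XT.nd (nat_lit 312) (nat_lit 3876) (nat_lit 0) (XT.nd (nat_lit 156) (nat_lit 1824) (nat_lit 0) (XT.nd (nat_lit 78) (nat_lit 1672)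 (nat_lit 0) (XT.lf (nat_lit 0) (nat_lit 1078365087) (nat_lit 1672) (nat_lit 132250776) (nat_lit 76) (nat_lit 6426437560) (nat_lit 534) (nat_lit 5) (nat_lit 556) (nat_lit 5) (nat_lit 535) (nat_lit 5) (nat_lit 560) (nat_lit 526) (nat_lit 474)) (XT.lf (nat_lit 0) (nat_lit 3356206848) (nat_lit 1748) (nat_lit 3030193713) (nat_lit 76) (nat_lit 1306411246) (nat_lit 512) (nat_lit 5) (nat_lit 535) (nat_lit 5) (nat_lit 513) (nat_lit 5) (nat_lit 561) (nat_lit 526) (nat_lit 473))) (XT.nd (nat_lit 78) (nat_lit 76) (nat_lit 0) (XT.lf (nat_lit 0) (nat_lit 1783023866) (nat_lit 1748) (nat_lit 3875895380) (nat_lit 1824) (nat_lit 2091182712) (nat_lit 489) (nat_lit 5) (nat_lit 512) (nat_lit 5) (nat_lit 513) (nat_lit 5) (nat_lit 562) (nat_lit 526) (nat_lit 472)) (XT.lf (nat_lit 0) (nat_lit 176123020) (nat_lit 1824) (nat_lit 1114122128) (nat_lit 76) (nat_lit 6518677926) (nat_lit 488) (nat_lit 5) (nat_lit 512) (nat_lit 5) (nat_lit 489) (nat_lit 5) (nat_lit 563) (nat_lit 526) (nat_lit 471)))) (XT.nd (nat_lit 156) (nat_lit 988) (nat_lit 0) (XT.nd (nat_lit 78) (nat_lit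 1064) (nat_lit 0) (XT.lf (nat_lit 0) (nat_lit 2454639174) (nat_lit 1900) (nat_lit 4043026536) (nat_lit 76) (nat_lit 1371103853) (nat_lit 464) (nat_lit 5) (nat_lit 489) (nat_lit 5) (nat_lit 465) (nat_lit 5) (nat_lit 564) (nat_lit 526) (nat_lit 470)) (XT.lf (nat_lit 0) (nat_lit 915295317) (nat_lit 1064) (nat_lit 3845923389) (nat_lit 1140) (nat_lit 3168947068) (nat_lit 450) (nat_lit 5) (nat_lit 464) (nat_lit 5) (nat_lit 465) (nat_lit 5) (nat_lit 565) (nat_lit 526) (nat_lit 469))) (XT.nd (nat_lit 78) (nat_lit 988) (nat_lit 0) (XT.lf (nat_lit 0) (nat_lit 5989878614) (nat_lit 1064) (nat_lit 1112191948) (nat_lit 1140) (nat_lit 890959137) (nat_lit 450) (nat_lit 5) (nat_lit 464) (nat_lit 5) (nat_lit 465) (nat_lit 5) (nat_lit 566) (nat_lit 526) (nat_lit 468)) (XT.lf (nat_lit 0) (nat_lit 1406548065) (nat_lit 988) (nat_lit 4965708507) (nat_lit 76) (nat_lit 1684855842) (nat_lit 437) (nat_lit 5) (nat_lit 450) (nat_lit 5) (nat_lit 438) (nat_lit 5) (nat_lit 567) (nat_lit 526) (nat_lit 467))))))) (XT.nd (nat_lit 1170) (nat_lit 5776) (nat_lit 0) (XT.nd (nat_lit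 546) (nat_lit 4636) (nat_lit 0) (XT.nd (nat_lit 234) (nat_lit 1748) (nat_lit 0) (XT.nd (nat_lit 78) (nat_lit 912) (nat_lit 0) (XT.lf (nat_lit 0) (nat_lit 143316246) (nat_lit 912) (nat_lit 3578633861) (nat_lit 988) (nat_lit 4400733852) (nat_lit 425) (nat_lit 5) (nat_lit 437) (nat_lit 5) (nat_lit 438) (nat_lit 5) (nat_lit 568) (nat_lit 526) (nat_lit 466)) (XT.nd (nat_lit 78) (nat_lit 912) (nat_lit 0) (XT.lf (nat_lit 0) (nat_lit 5384079254) (nat_lit 912) (nat_lit 695438972) (nat_lit 988) (nat_lit 2110133953) (nat_lit 425) (nat_lit 5) (nat_lit 437) (nat_lit 5) (nat_lit 438) (nat_lit 5) (nat_lit 569) (nat_lit 526) (nat_lit 465)) (XT.lf (nat_lit 0) (nat_lit 217030583) (nat_lit 912) (nat_lit 5807992083) (nat_lit 76) (nat_lit 2233035620) (nat_lit 413) (nat_lit 5) (nat_lit 425) (nat_lit 5) (nat_lit 414) (nat_lit 5) (nat_lit 570) (nat_lit 526) (nat_lit 464)))) (XT.nd (nat_lit 156) (nat_lit 912) (nat_lit 0) (XT.nd (nat_lit 78) (nat_lit 836) (nat_lit 0) (XT.lf (nat_lit 0) (nat_lit 2549569885) (nat_lit 912) (nat_lit 535299738) (nat_lit 76) (nat_lit 5242944473)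 (nat_lit 413) (nat_lit 5) (nat_lit 425) (nat_lit 5) (nat_lit 414) (nat_lit 5) (nat_lit 571) (nat_lit 526) (nat_lit 463)) (XT.lf (nat_lit 0) (nat_lit 4869467728) (nat_lit 836) (nat_lit 55126342) (nat_lit 912) (nat_lit 3474456495) (nat_lit 402) (nat_lit 5) (nat_lit 413) (nat_lit 5) (nat_lit 414) (nat_lit 5) (nat_lit 572) (nat_lit 526) (nat_lit 462))) (XT.nd (nat_lit 78) (nat_lit 76) (nat_lit 0) (XT.lf (nat_lit 0) (nat_lit 1885246357) (nat_lit 836) (nat_lit 5462103974) (nat_lit 912) (nat_lit 1124358977) (nat_lit 391) (nat_lit 5) (nat_lit 402) (nat_lit 5) (nat_lit 403) (nat_lit 5) (nat_lit 573) (nat_lit 526) (nat_lit 461)) (XT.lf (nat_lit 0) (nat_lit 1245140865) (nat_lit 912) (nat_lit 1135832466) (nat_lit 76) (nat_lit 6164902867) (nat_lit 390) (nat_lit 5) (nat_lit 402) (nat_lit 5) (nat_lit 391) (nat_lit 5) (nat_lit 574) (nat_lit 526) (nat_lit 460))))) (XT.nd (nat_lit 312) (nat_lit 2204) (nat_lit 0) (XT.nd (nat_lit 156) (nat_lit 836) (nat_lit 0) (XT.nd (nat_lit 78) (nat_lit 760) (nat_lit 0) (XT.lf (nat_lit 0) (nat_lit 3646542173) (nat_lit 912)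 (nat_lit 4189271077) (nat_lit 76) (nat_lit 785575256) (nat_lit 379) (nat_lit 5) (nat_lit 391) (nat_lit 5) (nat_lit 380) (nat_lit 5) (nat_lit 575) (nat_lit 526) (nat_lit 459)) (XT.lf (nat_lit 0) (nat_lit 1393429934) (nat_lit 760) (nat_lit 4701019211) (nat_lit 836) (nat_lit 2603994374) (nat_lit 369) (nat_lit 5) (nat_lit 379) (nat_lit 5) (nat_lit 380) (nat_lit 5) (nat_lit 576) (nat_lit 526) (nat_lit 458))) (XT.nd (nat_lit 78) (nat_lit 836) (nat_lit 0) (XT.lf (nat_lit 0) (nat_lit 7107228096) (nat_lit 760) (nat_lit 1478612797) (nat_lit 836) (nat_lit 191310179) (nat_lit 369) (nat_lit 5) (nat_lit 379) (nat_lit 5) (nat_lit 380) (nat_lit 5) (nat_lit 577) (nat_lit 526) (nat_lit 457)) (XT.lf (nat_lit 0) (nat_lit 2245189430) (nat_lit 836) (nat_lit 4789676809) (nat_lit 76) (nat_lit 1822167149) (nat_lit 358) (nat_lit 5) (nat_lit 369) (nat_lit 5) (nat_lit 359) (nat_lit 5) (nat_lit 578) (nat_lit 526) (nat_lit 456)))) (XT.nd (nat_lit 156) (nat_lit 1520) (nat_lit 0) (XT.nd (nat_lit 78) (nat_lit 0) (nat_lit 0) (XT.lf (nat_lit 0) (nat_lit 967848877) (nat_lit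 684) (nat_lit 3754604726) (nat_lit 760) (nat_lit 4216144391) (nat_lit 349) (nat_lit 5) (nat_lit 358) (nat_lit 5) (nat_lit 359) (nat_lit 5) (nat_lit 579) (nat_lit 526) (nat_lit 455)) (XT.lf (nat_lit 0) (nat_lit 6868256651) (nat_lit 684) (nat_lit 380786070) (nat_lit 760) (nat_lit 1772757400) (nat_lit 349) (nat_lit 5) (nat_lit 358) (nat_lit 5) (nat_lit 359) (nat_lit 5) (nat_lit 580) (nat_lit 526) (nat_lit 454))) (XT.nd (nat_lit 78) (nat_lit 684) (nat_lit 0) (XT.lf (nat_lit 0) (nat_lit 722749615) (nat_lit 836) (nat_lit 5338627894) (nat_lit 76) (nat_lit 3044943332) (nat_lit 338) (nat_lit 5) (nat_lit 349) (nat_lit 5) (nat_lit 339) (nat_lit 5) (nat_lit 581) (nat_lit 526) (nat_lit 453)) (XT.lf (nat_lit 0) (nat_lit 600574452) (nat_lit 684) (nat_lit 2633261778) (nat_lit 760) (nat_lit 5958674971) (nat_lit 329) (nat_lit 5) (nat_lit 338) (nat_lit 5) (nat_lit 339) (nat_lit 5) (nat_lit 582) (nat_lit 526) (nat_lit 452)))))) (XT.nd (nat_lit 546) (nat_lit 3040) (nat_lit 0) (XT.nd (nat_lit 234) (nat_lit 1368) (nat_lit 0) (XT.nd (nat_lit 78) (nat_lit 1368)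 (nat_lit 0) (XT.lf (nat_lit 0) (nat_lit 5805570392) (nat_lit 760) (nat_lit 2592215326) (nat_lit 76) (nat_lit 882432818) (nat_lit 329) (nat_lit 5) (nat_lit 339) (nat_lit 5) (nat_lit 330) (nat_lit 5) (nat_lit 583) (nat_lit 526) (nat_lit 451)) (XT.nd (nat_lit 78) (nat_lit 684) (nat_lit 0) (XT.lf (nat_lit 0) (nat_lit 3519365200) (nat_lit 684) (nat_lit 4919033191) (nat_lit 760) (nat_lit 931090093) (nat_lit 320) (nat_lit 5) (nat_lit 329) (nat_lit 5) (nat_lit 330) (nat_lit 5) (nat_lit 584) (nat_lit 526) (nat_lit 450)) (XT.lf (nat_lit 0) (nat_lit 283910750) (nat_lit 608) (nat_lit 1346498162) (nat_lit 684) (nat_lit 7830142820) (nat_lit 311) (nat_lit 5) (nat_lit 319) (nat_lit 5) (nat_lit 320) (nat_lit 5) (nat_lit 585) (nat_lit 526) (nat_lit 449)))) (XT.nd (nat_lit 156) (nat_lit 684) (nat_lit 0) (XT.nd (nat_lit 78) (nat_lit 684) (nat_lit 0) (XT.lf (nat_lit 0) (nat_lit 4254962982) (nat_lit 684) (nat_lit 2991403241) (nat_lit 76) (nat_lit 2306462642) (nat_lit 311) (nat_lit 5) (nat_lit 320) (nat_lit 5) (nat_lit 312) (nat_lit 5) (nat_lit 586) (nat_lit 526)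 (nat_lit 448)) (XT.lf (nat_lit 0) (nat_lit 3315502903) (nat_lit 684) (nat_lit 3617386644) (nat_lit 760) (nat_lit 2714045887) (nat_lit 302) (nat_lit 5) (nat_lit 311) (nat_lit 5) (nat_lit 312) (nat_lit 5) (nat_lit 587) (nat_lit 526) (nat_lit 447))) (XT.nd (nat_lit 78) (nat_lit 76) (nat_lit 0) (XT.lf (nat_lit 0) (nat_lit 9112591) (nat_lit 608) (nat_lit 9646809508) (nat_lit 684) (nat_lit 87172584) (nat_lit 294) (nat_lit 5) (nat_lit 302) (nat_lit 5) (nat_lit 303) (nat_lit 5) (nat_lit 588) (nat_lit 526) (nat_lit 446)) (XT.lf (nat_lit 0) (nat_lit 2595843073) (nat_lit 684) (nat_lit 3356149557) (nat_lit 76) (nat_lit 3888097261) (nat_lit 293) (nat_lit 5) (nat_lit 302) (nat_lit 5) (nat_lit 294) (nat_lit 5) (nat_lit 589) (nat_lit 526) (nat_lit 445))))) (XT.nd (nat_lit 312) (nat_lit 1140) (nat_lit 0) (XT.nd (nat_lit 156) (nat_lit 1292) (nat_lit 0) (XT.nd (nat_lit 78) (nat_lit 0) (nat_lit 0) (XT.lf (nat_lit 0) (nat_lit 3153703189) (nat_lit 608) (nat_lit 2169574400) (nat_lit 684) (nat_lit 4615898784) (nat_lit 285) (nat_lit 5) (nat_lit 293) (nat_lit 5)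 (nat_lit 294) (nat_lit 5) (nat_lit 590) (nat_lit 526) (nat_lit 444)) (XT.lf (nat_lit 0) (nat_lit 8110617607) (nat_lit 684) (nat_lit 248256093) (nat_lit 76) (nat_lit 1681265129) (nat_lit 285) (nat_lit 5) (nat_lit 294) (nat_lit 5) (nat_lit 286) (nat_lit 5) (nat_lit 591) (nat_lit 526) (nat_lit 443))) (XT.nd (nat_lit 78) (nat_lit 608) (nat_lit 0) (XT.lf (nat_lit 0) (nat_lit 828690810) (nat_lit 684) (nat_lit 3693897636) (nat_lit 76) (nat_lit 5619853402) (nat_lit 276) (nat_lit 5) (nat_lit 285) (nat_lit 5) (nat_lit 277) (nat_lit 5) (nat_lit 592) (nat_lit 526) (nat_lit 442)) (XT.lf (nat_lit 0) (nat_lit 3026784766) (nat_lit 608) (nat_lit 583206123) (nat_lit 684) (nat_lit 6636671054) (nat_lit 268) (nat_lit 5) (nat_lit 276) (nat_lit 5) (nat_lit 277) (nat_lit 5) (nat_lit 593) (nat_lit 526) (nat_lit 441)))) (XT.nd (nat_lit 156) (nat_lit 608) (nat_lit 0) (XT.nd (nat_lit 78) (nat_lit 532) (nat_lit 0) (XT.lf (nat_lit 0) (nat_lit 6466831926) (nat_lit 684) (nat_lit 479250091) (nat_lit 76) (nat_lit 3406487402) (nat_lit 268) (nat_lit 5) (nat_lit 277) (nat_lit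 5) (nat_lit 269) (nat_lit 5) (nat_lit 594) (nat_lit 526) (nat_lit 440)) (XT.lf (nat_lit 0) (nat_lit 6441250741) (nat_lit 532) (nat_lit 2958439004) (nat_lit 608) (nat_lit 1060528949) (nat_lit 261) (nat_lit 5) (nat_lit 268) (nat_lit 5) (nat_lit 269) (nat_lit 5) (nat_lit 595) (nat_lit 526) (nat_lit 439))) (XT.nd (nat_lit 78) (nat_lit 0) (nat_lit 0) (XT.lf (nat_lit 0) (nat_lit 1800227282) (nat_lit 608) (nat_lit 7649666981) (nat_lit 76) (nat_lit 1119832836) (nat_lit 253) (nat_lit 5) (nat_lit 261) (nat_lit 5) (nat_lit 254) (nat_lit 5) (nat_lit 596) (nat_lit 526) (nat_lit 438)) (XT.lf (nat_lit 0) (nat_lit 4724302342) (nat_lit 608) (nat_lit 691245728) (nat_lit 76) (nat_lit 5265332494) (nat_lit 253) (nat_lit 5) (nat_lit 261) (nat_lit 5) (nat_lit 254) (nat_lit 5) (nat_lit 597) (nat_lit 526) (nat_lit 437))))))))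
noncomputable def xc43 : XT := (XT.nd (nat_lit 77376) (nat_lit 0) (nat_lit 11096) (XT.nd (nat_lit 76206) (nat_lit 0) (nat_lit 34352) (XT.nd (nat_lit 546) (nat_lit 456) (nat_lit 0) (XT.nd (nat_lit 234) (nat_lit 1520) (nat_lit 0) (XT.nd (nat_lit 78) (nat_lit 608) (nat_lit 0) (XT.lf (nat_lit 0) (nat_lit 6455805074) (nat_lit 532) (nat_lit 1267038418) (nat_lit 608) (nat_lit 3071095071) (nat_lit 246) (nat_lit 5) (nat_lit 253) (nat_lit 5) (nat_lit 254) (nat_lit 5) (nat_lit 598) (nat_lit 526) (nat_lit 436)) (XT.nd (nat_lit 78) (nat_lit 76) (nat_lit 0) (XT.lf (nat_lit 0) (nat_lit 2828389098) (nat_lit 532) (nat_lit 7969536628) (nat_lit 608) (nat_lit 111001723) (nat_lit 239) (nat_lit 5) (nat_lit 246) (nat_lit 5) (nat_lit 247) (nat_lit 5) (nat_lit 599) (nat_lit 526) (nat_lit 435)) (XT.lf (nat_lit 0) (nat_lit 2882241711) (nat_lit 608) (nat_lit 891591670) (nat_lit 76) (nat_lit 7251764350) (nat_lit 238) (nat_lit 5) (nat_lit 246) (nat_lit 5) (nat_lit 239) (nat_lit 5) (nat_lit 600) (nat_lit 526) (nat_lit 434)))) (XT.nd (nat_lit 156) (nat_lit 532) (nat_lit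 0) (XT.nd (nat_lit 78) (nat_lit 532) (nat_lit 0) (XT.lf (nat_lit 0) (nat_lit 5954409641) (nat_lit 532) (nat_lit 4657067554) (nat_lit 76) (nat_lit 532699697) (nat_lit 232) (nat_lit 5) (nat_lit 239) (nat_lit 5) (nat_lit 233) (nat_lit 5) (nat_lit 601) (nat_lit 526) (nat_lit 433)) (XT.lf (nat_lit 0) (nat_lit 2736270611) (nat_lit 532) (nat_lit 6375633053) (nat_lit 608) (nat_lit 2152747365) (nat_lit 225) (nat_lit 5) (nat_lit 232) (nat_lit 5) (nat_lit 233) (nat_lit 5) (nat_lit 602) (nat_lit 526) (nat_lit 432))) (XT.nd (nat_lit 78) (nat_lit 456) (nat_lit 0) (XT.lf (nat_lit 0) (nat_lit 939277330) (nat_lit 608) (nat_lit 1087795256) (nat_lit 76) (nat_lit 9360207188) (nat_lit 224) (nat_lit 5) (nat_lit 232) (nat_lit 5) (nat_lit 225) (nat_lit 5) (nat_lit 603) (nat_lit 526) (nat_lit 431)) (XT.lf (nat_lit 0) (nat_lit 4098430766) (nat_lit 532) (nat_lit 4989017882) (nat_lit 76) (nat_lit 2423946568) (nat_lit 218) (nat_lit 5) (nat_lit 225) (nat_lit 5) (nat_lit 219) (nat_lit 5) (nat_lit 604) (nat_lit 526) (nat_lit 430))))) (XT.nd (nat_lit 75348) (nat_lit 0)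 (nat_lit 39748) (XT.nd (nat_lit 75192) (nat_lit 0) (nat_lit 40432) (XT.nd (nat_lit 75114) (nat_lit 0) (nat_lit 41040) (XT.lf (nat_lit 0) (nat_lit 2648264948) (nat_lit 456) (nat_lit 4686343772) (nat_lit 532) (nat_lit 4303108385) (nat_lit 212) (nat_lit 5) (nat_lit 218) (nat_lit 5) (nat_lit 219) (nat_lit 5) (nat_lit 605) (nat_lit 526) (nat_lit 429)) (XT.lf (nat_lit 0) (nat_lit 392466661) (nat_lit 0) (nat_lit 392466661) (nat_lit 532) (nat_lit 2482782277) (nat_lit 752) (nat_lit 5) (nat_lit 752) (nat_lit 3) (nat_lit 759) (nat_lit 3) (nat_lit 527) (nat_lit 527) (nat_lit 506))) (XT.nd (nat_lit 78) (nat_lit 608) (nat_lit 0) (XT.lf (nat_lit 0) (nat_lit 4063315068) (nat_lit 0) (nat_lit 82157209) (nat_lit 532) (nat_lit 2403858359) (nat_lit 752) (nat_lit 5) (nat_lit 752) (nat_lit 3) (nat_lit 759) (nat_lit 3) (nat_lit 528) (nat_lit 527) (nat_lit 505)) (XT.lf (nat_lit 0) (nat_lit 148436421) (nat_lit 608) (nat_lit 5750456008) (nat_lit 684) (nat_lit 665753154) (nat_lit 744) (nat_lit 5) (nat_lit 752) (nat_lit 5) (nat_lit 753) (nat_lit 5) (nat_lit 529) (nat_lit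 527) (nat_lit 504)))) (XT.nd (nat_lit 156) (nat_lit 684) (nat_lit 0) (XT.nd (nat_lit 78) (nat_lit 0) (nat_lit 0) (XT.lf (nat_lit 0) (nat_lit 2670670378) (nat_lit 608) (nat_lit 2418207412) (nat_lit 684) (nat_lit 1492056103) (nat_lit 744) (nat_lit 5) (nat_lit 752) (nat_lit 5) (nat_lit 753) (nat_lit 5) (nat_lit 530) (nat_lit 527) (nat_lit 503)) (XT.lf (nat_lit 76) (nat_lit 958156977) (nat_lit 0) (nat_lit 4226426571) (nat_lit 684) (nat_lit 1414146075) (nat_lit 745) (nat_lit 5) (nat_lit 744) (nat_lit 5) (nat_lit 753) (nat_lit 5) (nat_lit 531) (nat_lit 527) (nat_lit 502))) (XT.nd (nat_lit 78) (nat_lit 0) (nat_lit 0) (XT.lf (nat_lit 0) (nat_lit 1069015485) (nat_lit 684) (nat_lit 2224911305) (nat_lit 760) (nat_lit 3323774264) (nat_lit 735) (nat_lit 5) (nat_lit 744) (nat_lit 5) (nat_lit 745) (nat_lit 5) (nat_lit 532) (nat_lit 527) (nat_lit 501)) (XT.lf (nat_lit 76) (nat_lit 1230814722) (nat_lit 0) (nat_lit 2296993074) (nat_lit 760) (nat_lit 3110165086) (nat_lit 736) (nat_lit 5) (nat_lit 735) (nat_lit 5) (nat_lit 745) (nat_lit 5) (nat_lit 533) (nat_lit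 527) (nat_lit 500)))))) (XT.nd (nat_lit 546) (nat_lit 2964) (nat_lit 0) (XT.nd (nat_lit 234) (nat_lit 1672) (nat_lit 0) (XT.nd (nat_lit 78) (nat_lit 760) (nat_lit 0) (XT.lf (nat_lit 76) (nat_lit 4751019269) (nat_lit 0) (nat_lit 1237592441) (nat_lit 760) (nat_lit 670987585) (nat_lit 736) (nat_lit 5) (nat_lit 735) (nat_lit 5) (nat_lit 745) (nat_lit 5) (nat_lit 534) (nat_lit 527) (nat_lit 499)) (XT.nd (nat_lit 78) (nat_lit 0) (nat_lit 76) (XT.lf (nat_lit 76) (nat_lit 1634678686) (nat_lit 0) (nat_lit 107792402) (nat_lit 836) (nat_lit 4939970293) (nat_lit 726) (nat_lit 5) (nat_lit 725) (nat_lit 5) (nat_lit 736) (nat_lit 5) (nat_lit 535) (nat_lit 527) (nat_lit 498)) (XT.lf (nat_lit 0) (nat_lit 4154754223) (nat_lit 760) (nat_lit 1478202218) (nat_lit 836) (nat_lit 1073509889) (nat_lit 726) (nat_lit 5) (nat_lit 736) (nat_lit 5) (nat_lit 737) (nat_lit 5) (nat_lit 536) (nat_lit 527) (nat_lit 497)))) (XT.nd (nat_lit 156) (nat_lit 912) (nat_lit 0) (XT.nd (nat_lit 78) (nat_lit 836) (nat_lit 0) (XT.lf (nat_lit 76) (nat_lit 2154924067) (nat_lit 0) (nat_lit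 4416100046) (nat_lit 836) (nat_lit 160838263) (nat_lit 727) (nat_lit 5) (nat_lit 726) (nat_lit 5) (nat_lit 737) (nat_lit 5) (nat_lit 537) (nat_lit 527) (nat_lit 496)) (XT.lf (nat_lit 0) (nat_lit 2199538263) (nat_lit 836) (nat_lit 927595365) (nat_lit 912) (nat_lit 3631310937) (nat_lit 715) (nat_lit 5) (nat_lit 726) (nat_lit 5) (nat_lit 727) (nat_lit 5) (nat_lit 538) (nat_lit 527) (nat_lit 495))) (XT.nd (nat_lit 78) (nat_lit 912) (nat_lit 0) (XT.lf (nat_lit 76) (nat_lit 2795109322) (nat_lit 0) (nat_lit 1770729141) (nat_lit 912) (nat_lit 2220486383) (nat_lit 716) (nat_lit 5) (nat_lit 715) (nat_lit 5) (nat_lit 727) (nat_lit 5) (nat_lit 539) (nat_lit 527) (nat_lit 494)) (XT.lf (nat_lit 0) (nat_lit 112045402) (nat_lit 912) (nat_lit 246652783) (nat_lit 988) (nat_lit 6457057994) (nat_lit 703) (nat_lit 5) (nat_lit 715) (nat_lit 5) (nat_lit 716) (nat_lit 5) (nat_lit 540) (nat_lit 527) (nat_lit 493))))) (XT.nd (nat_lit 312) (nat_lit 2052) (nat_lit 0) (XT.nd (nat_lit 156) (nat_lit 988) (nat_lit 0) (XT.nd (nat_lit 78) (nat_lit 0) (nat_lit 0) (XT.lf (nat_lit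 0) (nat_lit 2436458897) (nat_lit 912) (nat_lit 3283672694) (nat_lit 988) (nat_lit 1125856541) (nat_lit 704) (nat_lit 5) (nat_lit 716) (nat_lit 5) (nat_lit 717) (nat_lit 5) (nat_lit 541) (nat_lit 527) (nat_lit 492)) (XT.lf (nat_lit 76) (nat_lit 542701562) (nat_lit 0) (nat_lit 4217569749) (nat_lit 988) (nat_lit 2117499914) (nat_lit 705) (nat_lit 5) (nat_lit 704) (nat_lit 5) (nat_lit 717) (nat_lit 5) (nat_lit 542) (nat_lit 527) (nat_lit 491))) (XT.nd (nat_lit 78) (nat_lit 0) (nat_lit 0) (XT.lf (nat_lit 0) (nat_lit 185484575) (nat_lit 988) (nat_lit 2457743482) (nat_lit 1064) (nat_lit 4267577745) (nat_lit 691) (nat_lit 5) (nat_lit 704) (nat_lit 5) (nat_lit 705) (nat_lit 5) (nat_lit 543) (nat_lit 527) (nat_lit 490)) (XT.lf (nat_lit 76) (nat_lit 1466524244) (nat_lit 0) (nat_lit 996085293) (nat_lit 1064) (nat_lit 4482487361) (nat_lit 692) (nat_lit 5) (nat_lit 691) (nat_lit 5) (nat_lit 705) (nat_lit 5) (nat_lit 544) (nat_lit 527) (nat_lit 489)))) (XT.nd (nat_lit 156) (nat_lit 1064) (nat_lit 0) (XT.nd (nat_lit 78) (nat_lit 1064) (nat_lit 0) (XT.lf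 (nat_lit 0) (nat_lit 4754124939) (nat_lit 988) (nat_lit 1518440392) (nat_lit 76) (nat_lit 708135882) (nat_lit 692) (nat_lit 5) (nat_lit 705) (nat_lit 5) (nat_lit 693) (nat_lit 5) (nat_lit 545) (nat_lit 527) (nat_lit 488)) (XT.lf (nat_lit 0) (nat_lit 45014604) (nat_lit 1064) (nat_lit 4506669031) (nat_lit 76) (nat_lit 2465897737) (nat_lit 678) (nat_lit 5) (nat_lit 692) (nat_lit 5) (nat_lit 679) (nat_lit 5) (nat_lit 546) (nat_lit 527) (nat_lit 487))) (XT.nd (nat_lit 78) (nat_lit 1064) (nat_lit 0) (XT.lf (nat_lit 0) (nat_lit 2291769876) (nat_lit 1064) (nat_lit 464833340) (nat_lit 76) (nat_lit 4299114741) (nat_lit 678) (nat_lit 5) (nat_lit 692) (nat_lit 5) (nat_lit 679) (nat_lit 5) (nat_lit 547) (nat_lit 527) (nat_lit 486)) (XT.lf (nat_lit 0) (nat_lit 3670229721) (nat_lit 1064) (nat_lit 887316517) (nat_lit 1140) (nat_lit 2537593340) (nat_lit 664) (nat_lit 5) (nat_lit 678) (nat_lit 5) (nat_lit 679) (nat_lit 5) (nat_lit 548) (nat_lit 527) (nat_lit 485))))))) (XT.nd (nat_lit 1170) (nat_lit 9880) (nat_lit 0) (XT.nd (nat_lit 546) (nat_lit 8208) (nat_lit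 0) (XT.nd (nat_lit 234) (nat_lit 2736) (nat_lit 0) (XT.nd (nat_lit 78) (nat_lit 1292) (nat_lit 0) (XT.lf (nat_lit 0) (nat_lit 725299780) (nat_lit 1140) (nat_lit 6108894553) (nat_lit 1216) (nat_lit 301848120) (nat_lit 649) (nat_lit 5) (nat_lit 664) (nat_lit 5) (nat_lit 665) (nat_lit 5) (nat_lit 549) (nat_lit 527) (nat_lit 484)) (XT.nd (nat_lit 78) (nat_lit 1216) (nat_lit 0) (XT.lf (nat_lit 0) (nat_lit 1933162532) (nat_lit 1216) (nat_lit 2228228708) (nat_lit 76) (nat_lit 3016509001) (nat_lit 648) (nat_lit 5) (nat_lit 664) (nat_lit 5) (nat_lit 649) (nat_lit 5) (nat_lit 550) (nat_lit 527) (nat_lit 483)) (XT.lf (nat_lit 0) (nat_lit 2026247206) (nat_lit 1216) (nat_lit 2148184120) (nat_lit 1292) (nat_lit 3046815677) (nat_lit 632) (nat_lit 5) (nat_lit 648) (nat_lit 5) (nat_lit 649) (nat_lit 5) (nat_lit 551) (nat_lit 527) (nat_lit 482)))) (XT.nd (nat_lit 156) (nat_lit 1368) (nat_lit 0) (XT.nd (nat_lit 78) (nat_lit 1368) (nat_lit 0) (XT.lf (nat_lit 0) (nat_lit 6359991512) (nat_lit 1216) (nat_lit 68625375) (nat_lit 1292) (nat_lit 837485633) (nat_lit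 632) (nat_lit 5) (nat_lit 648) (nat_lit 5) (nat_lit 649) (nat_lit 5) (nat_lit 552) (nat_lit 527) (nat_lit 481)) (XT.lf (nat_lit 0) (nat_lit 1387335262) (nat_lit 1368) (nat_lit 3856832540) (nat_lit 76) (nat_lit 2067709457) (nat_lit 614) (nat_lit 5) (nat_lit 632) (nat_lit 5) (nat_lit 615) (nat_lit 5) (nat_lit 553) (nat_lit 527) (nat_lit 480))) (XT.nd (nat_lit 78) (nat_lit 0) (nat_lit 0) (XT.lf (nat_lit 0) (nat_lit 521377472) (nat_lit 1368) (nat_lit 3088521056) (nat_lit 1444) (nat_lit 3749272485) (nat_lit 596) (nat_lit 5) (nat_lit 614) (nat_lit 5) (nat_lit 615) (nat_lit 5) (nat_lit 554) (nat_lit 527) (nat_lit 479)) (XT.lf (nat_lit 0) (nat_lit 5002993642) (nat_lit 1368) (nat_lit 854945634) (nat_lit 1444) (nat_lit 1549854208) (nat_lit 596) (nat_lit 5) (nat_lit 614) (nat_lit 5) (nat_lit 615) (nat_lit 5) (nat_lit 555) (nat_lit 527) (nat_lit 478))))) (XT.nd (nat_lit 312) (nat_lit 3572) (nat_lit 0) (XT.nd (nat_lit 156) (nat_lit 3116) (nat_lit 0) (XT.nd (nat_lit 78) (nat_lit 0) (nat_lit 0) (XT.lf (nat_lit 0) (nat_lit 663257297) (nat_lit 1520) (nat_lit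 5363702124) (nat_lit 76) (nat_lit 1430766143) (nat_lit 576) (nat_lit 5) (nat_lit 596) (nat_lit 5) (nat_lit 577) (nat_lit 5) (nat_lit 556) (nat_lit 527) (nat_lit 477)) (XT.lf (nat_lit 0) (nat_lit 2878216878) (nat_lit 1520) (nat_lit 845946920) (nat_lit 76) (nat_lit 3784724002) (nat_lit 576) (nat_lit 5) (nat_lit 596) (nat_lit 5) (nat_lit 577) (nat_lit 5) (nat_lit 557) (nat_lit 527) (nat_lit 476))) (XT.nd (nat_lit 78) (nat_lit 1596) (nat_lit 0) (XT.lf (nat_lit 0) (nat_lit 3775402419) (nat_lit 1520) (nat_lit 1343853057) (nat_lit 1596) (nat_lit 2442185318) (nat_lit 556) (nat_lit 5) (nat_lit 576) (nat_lit 5) (nat_lit 577) (nat_lit 5) (nat_lit 558) (nat_lit 527) (nat_lit 475)) (XT.lf (nat_lit 0) (nat_lit 852901803) (nat_lit 1596) (nat_lit 6528414328) (nat_lit 1672) (nat_lit 234207742) (nat_lit 535) (nat_lit 5) (nat_lit 556) (nat_lit 5) (nat_lit 557) (nat_lit 5) (nat_lit 559) (nat_lit 527) (nat_lit 474)))) (XT.nd (nat_lit 156) (nat_lit 1824) (nat_lit 0) (XT.nd (nat_lit 78) (nat_lit 1672) (nat_lit 0) (XT.lf (nat_lit 0) (nat_lit 1984158334) (nat_lit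 1672) (nat_lit 2093646449) (nat_lit 76) (nat_lit 3592770839) (nat_lit 534) (nat_lit 5) (nat_lit 556) (nat_lit 5) (nat_lit 535) (nat_lit 5) (nat_lit 560) (nat_lit 527) (nat_lit 473)) (XT.lf (nat_lit 0) (nat_lit 2665609932) (nat_lit 1672) (nat_lit 1554495014) (nat_lit 1748) (nat_lit 3507068385) (nat_lit 512) (nat_lit 5) (nat_lit 534) (nat_lit 5) (nat_lit 535) (nat_lit 5) (nat_lit 561) (nat_lit 527) (nat_lit 472))) (XT.nd (nat_lit 78) (nat_lit 1824) (nat_lit 0) (XT.lf (nat_lit 0) (nat_lit 6481164729) (nat_lit 1748) (nat_lit 280006469) (nat_lit 76) (nat_lit 1024126731) (nat_lit 512) (nat_lit 5) (nat_lit 535) (nat_lit 5) (nat_lit 513) (nat_lit 5) (nat_lit 562) (nat_lit 527) (nat_lit 471)) (XT.lf (nat_lit 0) (nat_lit 931154131) (nat_lit 1824) (nat_lit 3239717226) (nat_lit 76) (nat_lit 3673580749) (nat_lit 488) (nat_lit 5) (nat_lit 512) (nat_lit 5) (nat_lit 489) (nat_lit 5) (nat_lit 563) (nat_lit 527) (nat_lit 470)))))) (XT.nd (nat_lit 546) (nat_lit 5016) (nat_lit 0) (XT.nd (nat_lit 234) (nat_lit 1976) (nat_lit 0) (XT.nd (nat_lit 78) (nat_lit 1064)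 (nat_lit 0) (XT.lf (nat_lit 0) (nat_lit 1662709550) (nat_lit 1824) (nat_lit 1504384024) (nat_lit 1900) (nat_lit 4738057869) (nat_lit 464) (nat_lit 5) (nat_lit 488) (nat_lit 5) (nat_lit 489) (nat_lit 5) (nat_lit 564) (nat_lit 527) (nat_lit 469)) (XT.nd (nat_lit 78) (nat_lit 1064) (nat_lit 0) (XT.lf (nat_lit 0) (nat_lit 5438782118) (nat_lit 1900) (nat_lit 1304779972) (nat_lit 76) (nat_lit 1223684674) (nat_lit 464) (nat_lit 5) (nat_lit 489) (nat_lit 5) (nat_lit 465) (nat_lit 5) (nat_lit 565) (nat_lit 527) (nat_lit 468)) (XT.lf (nat_lit 0) (nat_lit 3734161561) (nat_lit 1064) (nat_lit 4017964773) (nat_lit 1140) (nat_lit 278535771) (nat_lit 450) (nat_lit 5) (nat_lit 464) (nat_lit 5) (nat_lit 465) (nat_lit 5) (nat_lit 566) (nat_lit 527) (nat_lit 467)))) (XT.nd (nat_lit 156) (nat_lit 988) (nat_lit 0) (XT.nd (nat_lit 78) (nat_lit 0) (nat_lit 0) (XT.lf (nat_lit 0) (nat_lit 756419963) (nat_lit 912) (nat_lit 1209524578) (nat_lit 988) (nat_lit 6129621865) (nat_lit 437) (nat_lit 5) (nat_lit 449) (nat_lit 5) (nat_lit 450) (nat_lit 5) (nat_lit 567) (nat_lit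 527) (nat_lit 466)) (XT.lf (nat_lit 0) (nat_lit 4254137618) (nat_lit 988) (nat_lit 2242593113) (nat_lit 76) (nat_lit 1664952589) (nat_lit 437) (nat_lit 5) (nat_lit 450) (nat_lit 5) (nat_lit 438) (nat_lit 5) (nat_lit 568) (nat_lit 527) (nat_lit 465))) (XT.nd (nat_lit 78) (nat_lit 76) (nat_lit 0) (XT.lf (nat_lit 0) (nat_lit 2950043519) (nat_lit 912) (nat_lit 3628725205) (nat_lit 988) (nat_lit 1650542724) (nat_lit 425) (nat_lit 5) (nat_lit 437) (nat_lit 5) (nat_lit 438) (nat_lit 5) (nat_lit 569) (nat_lit 527) (nat_lit 464)) (XT.lf (nat_lit 0) (nat_lit 621952655) (nat_lit 988) (nat_lit 62161335) (nat_lit 76) (nat_lit 7614517838) (nat_lit 424) (nat_lit 5) (nat_lit 437) (nat_lit 5) (nat_lit 425) (nat_lit 5) (nat_lit 570) (nat_lit 527) (nat_lit 463))))) (XT.nd (nat_lit 312) (nat_lit 2432) (nat_lit 0) (XT.nd (nat_lit 156) (nat_lit 912) (nat_lit 0) (XT.nd (nat_lit 78) (nat_lit 836) (nat_lit 0) (XT.lf (nat_lit 0) (nat_lit 2931924849) (nat_lit 912) (nat_lit 3102927625) (nat_lit 76) (nat_lit 2333987607) (nat_lit 413) (nat_lit 5) (nat_lit 425) (nat_lit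 5) (nat_lit 414) (nat_lit 5) (nat_lit 571) (nat_lit 527) (nat_lit 462)) (XT.lf (nat_lit 0) (nat_lit 2249401750) (nat_lit 836) (nat_lit 3023169684) (nat_lit 912) (nat_lit 3168193745) (nat_lit 402) (nat_lit 5) (nat_lit 413) (nat_lit 5) (nat_lit 414) (nat_lit 5) (nat_lit 572) (nat_lit 527) (nat_lit 461))) (XT.nd (nat_lit 78) (nat_lit 912) (nat_lit 0) (XT.lf (nat_lit 0) (nat_lit 7646669172) (nat_lit 912) (nat_lit 800284233) (nat_lit 76) (nat_lit 67444745) (nat_lit 402) (nat_lit 5) (nat_lit 414) (nat_lit 5) (nat_lit 403) (nat_lit 5) (nat_lit 573) (nat_lit 527) (nat_lit 460)) (XT.lf (nat_lit 0) (nat_lit 1476062561) (nat_lit 912) (nat_lit 3894826200) (nat_lit 76) (nat_lit 3218090822) (nat_lit 390) (nat_lit 5) (nat_lit 402) (nat_lit 5) (nat_lit 391) (nat_lit 5) (nat_lit 574) (nat_lit 527) (nat_lit 459)))) (XT.nd (nat_lit 156) (nat_lit 1596) (nat_lit 0) (XT.nd (nat_lit 78) (nat_lit 0) (nat_lit 0) (XT.lf (nat_lit 0) (nat_lit 1623448512) (nat_lit 836) (nat_lit 2213868641) (nat_lit 912) (nat_lit 4827978668) (nat_lit 379) (nat_lit 5) (nat_lit 390) (nat_lit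 5) (nat_lit 391) (nat_lit 5) (nat_lit 575) (nat_lit 527) (nat_lit 458)) (XT.lf (nat_lit 0) (nat_lit 6245296657) (nat_lit 912) (nat_lit 1481291921) (nat_lit 76) (nat_lit 1016561782) (nat_lit 379) (nat_lit 5) (nat_lit 391) (nat_lit 5) (nat_lit 380) (nat_lit 5) (nat_lit 576) (nat_lit 527) (nat_lit 457))) (XT.nd (nat_lit 78) (nat_lit 836) (nat_lit 0) (XT.lf (nat_lit 0) (nat_lit 4194696238) (nat_lit 760) (nat_lit 4515946314) (nat_lit 836) (nat_lit 111737237) (nat_lit 369) (nat_lit 5) (nat_lit 379) (nat_lit 5) (nat_lit 380) (nat_lit 5) (nat_lit 577) (nat_lit 527) (nat_lit 456)) (XT.lf (nat_lit 0) (nat_lit 1063770374) (nat_lit 760) (nat_lit 1212292123) (nat_lit 836) (nat_lit 6627143320) (nat_lit 358) (nat_lit 5) (nat_lit 368) (nat_lit 5) (nat_lit 369) (nat_lit 5) (nat_lit 578) (nat_lit 527) (nat_lit 455))))))))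
noncomputable def xc44 : XT := (XT.nd (nat_lit 77532) (nat_lit 0) (nat_lit 22344) (XT.nd (nat_lit 1170) (nat_lit 4408) (nat_lit 0) (XT.nd (nat_lit 546) (nat_lit 3268) (nat_lit 0) (XT.nd (nat_lit 234) (nat_lit 1444) (nat_lit 0) (XT.nd (nat_lit 78) (nat_lit 1520) (nat_lit 0) (XT.lf (nat_lit 0) (nat_lit 4723270708) (nat_lit 836) (nat_lit 2104903528) (nat_lit 76) (nat_lit 2157198209) (nat_lit 358) (nat_lit 5) (nat_lit 369) (nat_lit 5) (nat_lit 359) (nat_lit 5) (nat_lit 579) (nat_lit 527) (nat_lit 454)) (XT.nd (nat_lit 78) (nat_lit 836) (nat_lit 0) (XT.lf (nat_lit 0) (nat_lit 3749479470) (nat_lit 684) (nat_lit 3470825846) (nat_lit 760) (nat_lit 1848861231) (nat_lit 349) (nat_lit 5) (nat_lit 358) (nat_lit 5) (nat_lit 359) (nat_lit 5) (nat_lit 580) (nat_lit 527) (nat_lit 453)) (XT.lf (nat_lit 0) (nat_lit 562264256) (nat_lit 760) (nat_lit 28901362) (nat_lit 836) (nat_lit 8563661947) (nat_lit 338) (nat_lit 5) (nat_lit 348) (nat_lit 5) (nat_lit 349) (nat_lit 5) (nat_lit 581) (nat_lit 527) (nat_lit 452)))) (XT.nd (nat_lit 156) (nat_lit 760) (nat_lit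 0) (XT.nd (nat_lit 78) (nat_lit 684) (nat_lit 0) (XT.lf (nat_lit 0) (nat_lit 3082836337) (nat_lit 836) (nat_lit 2679127808) (nat_lit 76) (nat_lit 3479442931) (nat_lit 338) (nat_lit 5) (nat_lit 349) (nat_lit 5) (nat_lit 339) (nat_lit 5) (nat_lit 582) (nat_lit 527) (nat_lit 451)) (XT.lf (nat_lit 0) (nat_lit 3360659423) (nat_lit 684) (nat_lit 2255334799) (nat_lit 760) (nat_lit 3713892531) (nat_lit 329) (nat_lit 5) (nat_lit 338) (nat_lit 5) (nat_lit 339) (nat_lit 5) (nat_lit 583) (nat_lit 527) (nat_lit 450))) (XT.nd (nat_lit 78) (nat_lit 76) (nat_lit 0) (XT.lf (nat_lit 0) (nat_lit 94187878) (nat_lit 684) (nat_lit 8102886783) (nat_lit 760) (nat_lit 1223117793) (nat_lit 320) (nat_lit 5) (nat_lit 329) (nat_lit 5) (nat_lit 330) (nat_lit 5) (nat_lit 584) (nat_lit 527) (nat_lit 449)) (XT.lf (nat_lit 0) (nat_lit 1325580025) (nat_lit 760) (nat_lit 3211764292) (nat_lit 76) (nat_lit 4974282700) (nat_lit 319) (nat_lit 5) (nat_lit 329) (nat_lit 5) (nat_lit 320) (nat_lit 5) (nat_lit 585) (nat_lit 527) (nat_lit 448))))) (XT.nd (nat_lit 312) (nat_lit 1292)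 (nat_lit 0) (XT.nd (nat_lit 156) (nat_lit 1368) (nat_lit 0) (XT.nd (nat_lit 78) (nat_lit 0) (nat_lit 0) (XT.lf (nat_lit 0) (nat_lit 3020697453) (nat_lit 608) (nat_lit 878518746) (nat_lit 684) (nat_lit 5705707063) (nat_lit 311) (nat_lit 5) (nat_lit 319) (nat_lit 5) (nat_lit 320) (nat_lit 5) (nat_lit 586) (nat_lit 527) (nat_lit 447)) (XT.lf (nat_lit 0) (nat_lit 6535564582) (nat_lit 684) (nat_lit 332863939) (nat_lit 76) (nat_lit 2831433615) (nat_lit 311) (nat_lit 5) (nat_lit 320) (nat_lit 5) (nat_lit 312) (nat_lit 5) (nat_lit 587) (nat_lit 527) (nat_lit 446))) (XT.nd (nat_lit 78) (nat_lit 684) (nat_lit 0) (XT.lf (nat_lit 0) (nat_lit 6082296332) (nat_lit 684) (nat_lit 3159237611) (nat_lit 760) (nat_lit 554829431) (nat_lit 302) (nat_lit 5) (nat_lit 311) (nat_lit 5) (nat_lit 312) (nat_lit 5) (nat_lit 588) (nat_lit 527) (nat_lit 445)) (XT.lf (nat_lit 0) (nat_lit 2075077017) (nat_lit 684) (nat_lit 7176715004) (nat_lit 76) (nat_lit 642812837) (nat_lit 293) (nat_lit 5) (nat_lit 302) (nat_lit 5) (nat_lit 294) (nat_lit 5) (nat_lit 589) (nat_lit 527)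 (nat_lit 444)))) (XT.nd (nat_lit 156) (nat_lit 684) (nat_lit 0) (XT.nd (nat_lit 78) (nat_lit 608) (nat_lit 0) (XT.lf (nat_lit 0) (nat_lit 4768178468) (nat_lit 684) (nat_lit 725851540) (nat_lit 76) (nat_lit 4500348678) (nat_lit 293) (nat_lit 5) (nat_lit 302) (nat_lit 5) (nat_lit 294) (nat_lit 5) (nat_lit 590) (nat_lit 527) (nat_lit 443)) (XT.lf (nat_lit 0) (nat_lit 5896452071) (nat_lit 608) (nat_lit 1629530996) (nat_lit 684) (nat_lit 2569949453) (nat_lit 285) (nat_lit 5) (nat_lit 293) (nat_lit 5) (nat_lit 294) (nat_lit 5) (nat_lit 591) (nat_lit 527) (nat_lit 442))) (XT.nd (nat_lit 78) (nat_lit 0) (nat_lit 0) (XT.lf (nat_lit 0) (nat_lit 146255008) (nat_lit 684) (nat_lit 7756862186) (nat_lit 76) (nat_lit 2296210288) (nat_lit 276) (nat_lit 5) (nat_lit 285) (nat_lit 5) (nat_lit 277) (nat_lit 5) (nat_lit 592) (nat_lit 527) (nat_lit 441)) (XT.lf (nat_lit 0) (nat_lit 2894511176) (nat_lit 684) (nat_lit 1093354203) (nat_lit 76) (nat_lit 6316343709) (nat_lit 276) (nat_lit 5) (nat_lit 285) (nat_lit 5) (nat_lit 277) (nat_lit 5) (nat_lit 593) (nat_lit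 527) (nat_lit 440)))))) (XT.nd (nat_lit 546) (nat_lit 1520) (nat_lit 0) (XT.nd (nat_lit 234) (nat_lit 1672) (nat_lit 0) (XT.nd (nat_lit 78) (nat_lit 608) (nat_lit 0) (XT.lf (nat_lit 0) (nat_lit 5708737238) (nat_lit 684) (nat_lit 4667058547) (nat_lit 76) (nat_lit 35173697) (nat_lit 268) (nat_lit 5) (nat_lit 277) (nat_lit 5) (nat_lit 269) (nat_lit 5) (nat_lit 594) (nat_lit 527) (nat_lit 439)) (XT.nd (nat_lit 78) (nat_lit 76) (nat_lit 0) (XT.lf (nat_lit 0) (nat_lit 2180302994) (nat_lit 532) (nat_lit 6420618428) (nat_lit 608) (nat_lit 1918511416) (nat_lit 261) (nat_lit 5) (nat_lit 268) (nat_lit 5) (nat_lit 269) (nat_lit 5) (nat_lit 595) (nat_lit 527) (nat_lit 438)) (XT.lf (nat_lit 0) (nat_lit 914171580) (nat_lit 608) (nat_lit 1442727543) (nat_lit 76) (nat_lit 8272940631) (nat_lit 260) (nat_lit 5) (nat_lit 268) (nat_lit 5) (nat_lit 261) (nat_lit 5) (nat_lit 596) (nat_lit 527) (nat_lit 437)))) (XT.nd (nat_lit 156) (nat_lit 608) (nat_lit 0) (XT.nd (nat_lit 78) (nat_lit 532) (nat_lit 0) (XT.lf (nat_lit 0) (nat_lit 3800552581) (nat_lit 608) (nat_lit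 5135573220) (nat_lit 76) (nat_lit 1805621872) (nat_lit 253) (nat_lit 5) (nat_lit 261) (nat_lit 5) (nat_lit 254) (nat_lit 5) (nat_lit 597) (nat_lit 527) (nat_lit 436)) (XT.lf (nat_lit 0) (nat_lit 1935099813) (nat_lit 532) (nat_lit 4822057186) (nat_lit 608) (nat_lit 4098487967) (nat_lit 246) (nat_lit 5) (nat_lit 253) (nat_lit 5) (nat_lit 254) (nat_lit 5) (nat_lit 598) (nat_lit 527) (nat_lit 435))) (XT.nd (nat_lit 78) (nat_lit 608) (nat_lit 0) (XT.lf (nat_lit 0) (nat_lit 9182509875) (nat_lit 532) (nat_lit 599699538) (nat_lit 608) (nat_lit 1189425586) (nat_lit 246) (nat_lit 5) (nat_lit 253) (nat_lit 5) (nat_lit 254) (nat_lit 5) (nat_lit 599) (nat_lit 527) (nat_lit 434)) (XT.lf (nat_lit 0) (nat_lit 1789792740) (nat_lit 608) (nat_lit 5602100108) (nat_lit 76) (nat_lit 3697116375) (nat_lit 238) (nat_lit 5) (nat_lit 246) (nat_lit 5) (nat_lit 239) (nat_lit 5) (nat_lit 600) (nat_lit 527) (nat_lit 433))))) (XT.nd (nat_lit 75504) (nat_lit 0) (nat_lit 39216) (XT.nd (nat_lit 156) (nat_lit 1064) (nat_lit 0) (XT.nd (nat_lit 78) (nat_lit 0) (nat_lit 0) (XT.lf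 (nat_lit 0) (nat_lit 1700440729) (nat_lit 456) (nat_lit 3114730887) (nat_lit 532) (nat_lit 6393353068) (nat_lit 232) (nat_lit 5) (nat_lit 238) (nat_lit 5) (nat_lit 239) (nat_lit 5) (nat_lit 601) (nat_lit 527) (nat_lit 432)) (XT.lf (nat_lit 0) (nat_lit 7922593048) (nat_lit 532) (nat_lit 2147419046) (nat_lit 76) (nat_lit 1259988688) (nat_lit 232) (nat_lit 5) (nat_lit 239) (nat_lit 5) (nat_lit 233) (nat_lit 5) (nat_lit 602) (nat_lit 527) (nat_lit 431))) (XT.nd (nat_lit 78) (nat_lit 532) (nat_lit 0) (XT.lf (nat_lit 0) (nat_lit 5376662266) (nat_lit 532) (nat_lit 5747105777) (nat_lit 608) (nat_lit 329507261) (nat_lit 225) (nat_lit 5) (nat_lit 232) (nat_lit 5) (nat_lit 233) (nat_lit 5) (nat_lit 603) (nat_lit 527) (nat_lit 430)) (XT.lf (nat_lit 0) (nat_lit 1468748764) (nat_lit 456) (nat_lit 1304554376) (nat_lit 532) (nat_lit 8805344164) (nat_lit 218) (nat_lit 5) (nat_lit 224) (nat_lit 5) (nat_lit 225) (nat_lit 5) (nat_lit 604) (nat_lit 527) (nat_lit 429)))) (XT.nd (nat_lit 156) (nat_lit 684) (nat_lit 0) (XT.nd (nat_lit 78) (nat_lit 0) (nat_lit 0)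 (XT.lf (nat_lit 0) (nat_lit 61156486) (nat_lit 684) (nat_lit 1610392291) (nat_lit 684) (nat_lit 1610392291) (nat_lit 743) (nat_lit 3) (nat_lit 752) (nat_lit 3) (nat_lit 752) (nat_lit 5) (nat_lit 528) (nat_lit 528) (nat_lit 504)) (XT.lf (nat_lit 76) (nat_lit 41352247) (nat_lit 0) (nat_lit 2559493249) (nat_lit 684) (nat_lit 3978887349) (nat_lit 744) (nat_lit 5) (nat_lit 743) (nat_lit 3) (nat_lit 752) (nat_lit 5) (nat_lit 529) (nat_lit 528) (nat_lit 503))) (XT.nd (nat_lit 78) (nat_lit 684) (nat_lit 0) (XT.lf (nat_lit 76) (nat_lit 3378810241) (nat_lit 0) (nat_lit 1706559891) (nat_lit 684) (nat_lit 1511408351) (nat_lit 744) (nat_lit 5) (nat_lit 743) (nat_lit 3) (nat_lit 752) (nat_lit 5) (nat_lit 530) (nat_lit 528) (nat_lit 502)) (XT.lf (nat_lit 76) (nat_lit 130249851) (nat_lit 0) (nat_lit 798486937) (nat_lit 760) (nat_lit 5686573730) (nat_lit 735) (nat_lit 5) (nat_lit 734) (nat_lit 5) (nat_lit 744) (nat_lit 5) (nat_lit 531) (nat_lit 528) (nat_lit 501))))))) (XT.nd (nat_lit 1170) (nat_lit 12540) (nat_lit 0) (XT.nd (nat_lit 546) (nat_lit 2812)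 (nat_lit 0) (XT.nd (nat_lit 234) (nat_lit 836) (nat_lit 0) (XT.nd (nat_lit 78) (nat_lit 760) (nat_lit 0) (XT.lf (nat_lit 0) (nat_lit 3356926654) (nat_lit 684) (nat_lit 3090736045) (nat_lit 760) (nat_lit 187167077) (nat_lit 735) (nat_lit 5) (nat_lit 744) (nat_lit 5) (nat_lit 745) (nat_lit 5) (nat_lit 532) (nat_lit 528) (nat_lit 500)) (XT.nd (nat_lit 78) (nat_lit 760) (nat_lit 0) (XT.lf (nat_lit 76) (nat_lit 336258251) (nat_lit 0) (nat_lit 5443024613) (nat_lit 760) (nat_lit 876550365) (nat_lit 736) (nat_lit 5) (nat_lit 735) (nat_lit 5) (nat_lit 745) (nat_lit 5) (nat_lit 533) (nat_lit 528) (nat_lit 499)) (XT.lf (nat_lit 0) (nat_lit 1511793464) (nat_lit 760) (nat_lit 2848436066) (nat_lit 836) (nat_lit 2317636781) (nat_lit 725) (nat_lit 5) (nat_lit 735) (nat_lit 5) (nat_lit 736) (nat_lit 5) (nat_lit 534) (nat_lit 528) (nat_lit 498)))) (XT.nd (nat_lit 156) (nat_lit 836) (nat_lit 0) (XT.nd (nat_lit 78) (nat_lit 0) (nat_lit 0) (XT.lf (nat_lit 76) (nat_lit 660738226) (nat_lit 0) (nat_lit 3219645678) (nat_lit 836) (nat_lit 2820961458) (nat_lit 726)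 (nat_lit 5) (nat_lit 725) (nat_lit 5) (nat_lit 736) (nat_lit 5) (nat_lit 535) (nat_lit 528) (nat_lit 497)) (XT.lf (nat_lit 76) (nat_lit 4244684494) (nat_lit 0) (nat_lit 2011649211) (nat_lit 836) (nat_lit 469765956) (nat_lit 726) (nat_lit 5) (nat_lit 725) (nat_lit 5) (nat_lit 736) (nat_lit 5) (nat_lit 536) (nat_lit 528) (nat_lit 496))) (XT.nd (nat_lit 78) (nat_lit 0) (nat_lit 76) (XT.lf (nat_lit 76) (nat_lit 1116952439) (nat_lit 0) (nat_lit 735104264) (nat_lit 912) (nat_lit 4900069228) (nat_lit 715) (nat_lit 5) (nat_lit 714) (nat_lit 5) (nat_lit 726) (nat_lit 5) (nat_lit 537) (nat_lit 528) (nat_lit 495)) (XT.lf (nat_lit 0) (nat_lit 4177194612) (nat_lit 836) (nat_lit 1999536846) (nat_lit 912) (nat_lit 602620889) (nat_lit 715) (nat_lit 5) (nat_lit 726) (nat_lit 5) (nat_lit 727) (nat_lit 5) (nat_lit 538) (nat_lit 528) (nat_lit 494))))) (XT.nd (nat_lit 312) (nat_lit 1976) (nat_lit 0) (XT.nd (nat_lit 156) (nat_lit 0) (nat_lit 0) (XT.nd (nat_lit 78) (nat_lit 912) (nat_lit 0) (XT.lf (nat_lit 76) (nat_lit 1691602193) (nat_lit 0) (nat_lit 4816927515)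 (nat_lit 912) (nat_lit 299404697) (nat_lit 716) (nat_lit 5) (nat_lit 715) (nat_lit 5) (nat_lit 727) (nat_lit 5) (nat_lit 539) (nat_lit 528) (nat_lit 493)) (XT.lf (nat_lit 0) (nat_lit 1980382585) (nat_lit 912) (nat_lit 1401591403) (nat_lit 988) (nat_lit 3455695656) (nat_lit 703) (nat_lit 5) (nat_lit 715) (nat_lit 5) (nat_lit 716) (nat_lit 5) (nat_lit 540) (nat_lit 528) (nat_lit 492))) (XT.nd (nat_lit 78) (nat_lit 0) (nat_lit 0) (XT.lf (nat_lit 76) (nat_lit 2382348525) (nat_lit 0) (nat_lit 1880321431) (nat_lit 988) (nat_lit 2606076497) (nat_lit 704) (nat_lit 5) (nat_lit 703) (nat_lit 5) (nat_lit 716) (nat_lit 5) (nat_lit 541) (nat_lit 528) (nat_lit 491)) (XT.lf (nat_lit 76) (nat_lit 6226834418) (nat_lit 0) (nat_lit 319464073) (nat_lit 988) (nat_lit 355037023) (nat_lit 704) (nat_lit 5) (nat_lit 703) (nat_lit 5) (nat_lit 716) (nat_lit 5) (nat_lit 542) (nat_lit 528) (nat_lit 490)))) (XT.nd (nat_lit 156) (nat_lit 1064) (nat_lit 0) (XT.nd (nat_lit 78) (nat_lit 0) (nat_lit 0) (XT.lf (nat_lit 0) (nat_lit 1891997299) (nat_lit 988) (nat_lit 3734632922)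 (nat_lit 1064) (nat_lit 1308169910) (nat_lit 691) (nat_lit 5) (nat_lit 704) (nat_lit 5) (nat_lit 705) (nat_lit 5) (nat_lit 543) (nat_lit 528) (nat_lit 489)) (XT.lf (nat_lit 76) (nat_lit 155051804) (nat_lit 0) (nat_lit 3979776997) (nat_lit 1064) (nat_lit 2834950452) (nat_lit 692) (nat_lit 5) (nat_lit 691) (nat_lit 5) (nat_lit 705) (nat_lit 5) (nat_lit 544) (nat_lit 528) (nat_lit 488))) (XT.nd (nat_lit 78) (nat_lit 1064) (nat_lit 0) (XT.lf (nat_lit 76) (nat_lit 4138271902) (nat_lit 0) (nat_lit 2258028342) (nat_lit 1064) (nat_lit 609686316) (nat_lit 692) (nat_lit 5) (nat_lit 691) (nat_lit 5) (nat_lit 705) (nat_lit 5) (nat_lit 545) (nat_lit 528) (nat_lit 487)) (XT.lf (nat_lit 76) (nat_lit 1127370726) (nat_lit 0) (nat_lit 467650073) (nat_lit 1140) (nat_lit 5448551553) (nat_lit 678) (nat_lit 5) (nat_lit 677) (nat_lit 5) (nat_lit 692) (nat_lit 5) (nat_lit 546) (nat_lit 528) (nat_lit 486)))))) (XT.nd (nat_lit 546) (nat_lit 7752) (nat_lit 0) (XT.nd (nat_lit 234) (nat_lit 3724) (nat_lit 0) (XT.nd (nat_lit 78) (nat_lit 1140) (nat_lit 0) (XT.lf (nat_lit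 0) (nat_lit 3814114243) (nat_lit 1064) (nat_lit 1889025218) (nat_lit 76) (nat_lit 1379124705) (nat_lit 678) (nat_lit 5) (nat_lit 692) (nat_lit 5) (nat_lit 679) (nat_lit 5) (nat_lit 547) (nat_lit 528) (nat_lit 485)) (XT.nd (nat_lit 78) (nat_lit 76) (nat_lit 0) (XT.lf (nat_lit 0) (nat_lit 2209531924) (nat_lit 1064) (nat_lit 3836732181) (nat_lit 1140) (nat_lit 1076096165) (nat_lit 664) (nat_lit 5) (nat_lit 678) (nat_lit 5) (nat_lit 679) (nat_lit 5) (nat_lit 548) (nat_lit 528) (nat_lit 484)) (XT.lf (nat_lit 0) (nat_lit 1108988042) (nat_lit 1140) (nat_lit 790412557) (nat_lit 76) (nat_lit 5264422879) (nat_lit 663) (nat_lit 5) (nat_lit 678) (nat_lit 5) (nat_lit 664) (nat_lit 5) (nat_lit 549) (nat_lit 528) (nat_lit 483)))) (XT.nd (nat_lit 156) (nat_lit 1368) (nat_lit 0) (XT.nd (nat_lit 78) (nat_lit 1216) (nat_lit 0) (XT.lf (nat_lit 0) (nat_lit 3298928737) (nat_lit 1216) (nat_lit 3789875873) (nat_lit 76) (nat_lit 117661524) (nat_lit 648) (nat_lit 5) (nat_lit 664) (nat_lit 5) (nat_lit 649) (nat_lit 5) (nat_lit 550) (nat_lit 528) (nat_lit 482)) (XT.lf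 (nat_lit 0) (nat_lit 426012238) (nat_lit 1216) (nat_lit 5080712686) (nat_lit 1292) (nat_lit 1743759229) (nat_lit 632) (nat_lit 5) (nat_lit 648) (nat_lit 5) (nat_lit 649) (nat_lit 5) (nat_lit 551) (nat_lit 528) (nat_lit 481))) (XT.nd (nat_lit 78) (nat_lit 1292) (nat_lit 0) (XT.lf (nat_lit 0) (nat_lit 436568665) (nat_lit 1292) (nat_lit 2556396573) (nat_lit 76) (nat_lit 4302773632) (nat_lit 631) (nat_lit 5) (nat_lit 648) (nat_lit 5) (nat_lit 632) (nat_lit 5) (nat_lit 552) (nat_lit 528) (nat_lit 480)) (XT.lf (nat_lit 0) (nat_lit 1773519763) (nat_lit 1292) (nat_lit 829827845) (nat_lit 1368) (nat_lit 4739000114) (nat_lit 614) (nat_lit 5) (nat_lit 631) (nat_lit 5) (nat_lit 632) (nat_lit 5) (nat_lit 553) (nat_lit 528) (nat_lit 479))))) (XT.nd (nat_lit 312) (nat_lit 4864) (nat_lit 0) (XT.nd (nat_lit 156) (nat_lit 1520) (nat_lit 0) (XT.nd (nat_lit 78) (nat_lit 1368) (nat_lit 0) (XT.lf (nat_lit 0) (nat_lit 4795049550) (nat_lit 1368) (nat_lit 1209870354) (nat_lit 76) (nat_lit 1385340466) (nat_lit 614) (nat_lit 5) (nat_lit 632) (nat_lit 5) (nat_lit 615)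 (nat_lit 5) (nat_lit 554) (nat_lit 528) (nat_lit 478)) (XT.lf (nat_lit 0) (nat_lit 3237982155) (nat_lit 1368) (nat_lit 3775378348) (nat_lit 1444) (nat_lit 426118569) (nat_lit 596) (nat_lit 5) (nat_lit 614) (nat_lit 5) (nat_lit 615) (nat_lit 5) (nat_lit 555) (nat_lit 528) (nat_lit 477))) (XT.nd (nat_lit 78) (nat_lit 0) (nat_lit 0) (XT.lf (nat_lit 0) (nat_lit 257797706) (nat_lit 1444) (nat_lit 1471573783) (nat_lit 1520) (nat_lit 5760752982) (nat_lit 576) (nat_lit 5) (nat_lit 595) (nat_lit 5) (nat_lit 596) (nat_lit 5) (nat_lit 556) (nat_lit 528) (nat_lit 476)) (XT.lf (nat_lit 0) (nat_lit 3913621890) (nat_lit 1520) (nat_lit 2722975569) (nat_lit 76) (nat_lit 905304972) (nat_lit 576) (nat_lit 5) (nat_lit 596) (nat_lit 5) (nat_lit 577) (nat_lit 5) (nat_lit 557) (nat_lit 528) (nat_lit 475)))) (XT.nd (nat_lit 156) (nat_lit 3268) (nat_lit 0) (XT.nd (nat_lit 78) (nat_lit 76) (nat_lit 0) (XT.lf (nat_lit 0) (nat_lit 1855588754) (nat_lit 1520) (nat_lit 4265867082) (nat_lit 1596) (nat_lit 1473665192) (nat_lit 556) (nat_lit 5) (nat_lit 576) (nat_lit 5)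 (nat_lit 577) (nat_lit 5) (nat_lit 558) (nat_lit 528) (nat_lit 474)) (XT.lf (nat_lit 0) (nat_lit 691361026) (nat_lit 1596) (nat_lit 1127111778) (nat_lit 76) (nat_lit 5831303816) (nat_lit 555) (nat_lit 5) (nat_lit 576) (nat_lit 5) (nat_lit 556) (nat_lit 5) (nat_lit 559) (nat_lit 528) (nat_lit 473))) (XT.nd (nat_lit 78) (nat_lit 1672) (nat_lit 0) (XT.lf (nat_lit 0) (nat_lit 2867106862) (nat_lit 1672) (nat_lit 4130777696) (nat_lit 76) (nat_lit 707705791) (nat_lit 534) (nat_lit 5) (nat_lit 556) (nat_lit 5) (nat_lit 535) (nat_lit 5) (nat_lit 560) (nat_lit 528) (nat_lit 472)) (XT.lf (nat_lit 0) (nat_lit 583452084) (nat_lit 1672) (nat_lit 4486202722) (nat_lit 1748) (nat_lit 2693202621) (nat_lit 512) (nat_lit 5) (nat_lit 534) (nat_lit 5) (nat_lit 535) (nat_lit 5) (nat_lit 561) (nat_lit 528) (nat_lit 471))))))))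
noncomputable def xc45 : XT := (XT.nd (nat_lit 2340) (nat_lit 4560) (nat_lit 0) (XT.nd (nat_lit 1170) (nat_lit 7144) (nat_lit 0) (XT.nd (nat_lit 546) (nat_lit 4408) (nat_lit 0) (XT.nd (nat_lit 234) (nat_lit 3876) (nat_lit 0) (XT.nd (nat_lit 78) (nat_lit 1824) (nat_lit 0) (XT.lf (nat_lit 0) (nat_lit 5412403886) (nat_lit 1672) (nat_lit 1891968624) (nat_lit 1748) (nat_lit 517137722) (nat_lit 512) (nat_lit 5) (nat_lit 534) (nat_lit 5) (nat_lit 535) (nat_lit 5) (nat_lit 562) (nat_lit 528) (nat_lit 470)) (XT.nd (nat_lit 78) (nat_lit 0) (nat_lit 0) (XT.lf (nat_lit 0) (nat_lit 1661991403) (nat_lit 1824) (nat_lit 5444487153) (nat_lit 76) (nat_lit 775001709) (nat_lit 488) (nat_lit 5) (nat_lit 512) (nat_lit 5) (nat_lit 489) (nat_lit 5) (nat_lit 563) (nat_lit 528) (nat_lit 469)) (XT.lf (nat_lit 0) (nat_lit 3868064157) (nat_lit 1824) (nat_lit 581661191) (nat_lit 76) (nat_lit 3493052876) (nat_lit 488) (nat_lit 5) (nat_lit 512) (nat_lit 5) (nat_lit 489) (nat_lit 5) (nat_lit 564) (nat_lit 528) (nat_lit 468)))) (XT.nd (nat_lit 156) (nat_lit 912) (nat_lit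 0) (XT.nd (nat_lit 78) (nat_lit 1140) (nat_lit 0) (XT.lf (nat_lit 0) (nat_lit 4400900632) (nat_lit 1824) (nat_lit 1708162690) (nat_lit 1900) (nat_lit 1896425273) (nat_lit 464) (nat_lit 5) (nat_lit 488) (nat_lit 5) (nat_lit 489) (nat_lit 5) (nat_lit 565) (nat_lit 528) (nat_lit 467)) (XT.lf (nat_lit 0) (nat_lit 303869699) (nat_lit 1140) (nat_lit 6674713143) (nat_lit 76) (nat_lit 1091176357) (nat_lit 449) (nat_lit 5) (nat_lit 464) (nat_lit 5) (nat_lit 450) (nat_lit 5) (nat_lit 566) (nat_lit 528) (nat_lit 466))) (XT.nd (nat_lit 78) (nat_lit 912) (nat_lit 0) (XT.lf (nat_lit 0) (nat_lit 2521475396) (nat_lit 1140) (nat_lit 1651357422) (nat_lit 76) (nat_lit 3962260136) (nat_lit 449) (nat_lit 5) (nat_lit 464) (nat_lit 5) (nat_lit 450) (nat_lit 5) (nat_lit 567) (nat_lit 528) (nat_lit 465)) (XT.lf (nat_lit 0) (nat_lit 3482821437) (nat_lit 912) (nat_lit 1286962805) (nat_lit 988) (nat_lit 3432224479) (nat_lit 437) (nat_lit 5) (nat_lit 449) (nat_lit 5) (nat_lit 450) (nat_lit 5) (nat_lit 568) (nat_lit 528) (nat_lit 464))))) (XT.nd (nat_lit 312) (nat_lit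 2584) (nat_lit 0) (XT.nd (nat_lit 156) (nat_lit 836) (nat_lit 0) (XT.nd (nat_lit 78) (nat_lit 76) (nat_lit 0) (XT.lf (nat_lit 0) (nat_lit 431039367) (nat_lit 912) (nat_lit 6620955175) (nat_lit 988) (nat_lit 1218491866) (nat_lit 425) (nat_lit 5) (nat_lit 437) (nat_lit 5) (nat_lit 438) (nat_lit 5) (nat_lit 569) (nat_lit 528) (nat_lit 463)) (XT.lf (nat_lit 0) (nat_lit 1030743201) (nat_lit 988) (nat_lit 2642992491) (nat_lit 76) (nat_lit 4666367970) (nat_lit 424) (nat_lit 5) (nat_lit 437) (nat_lit 5) (nat_lit 425) (nat_lit 5) (nat_lit 570) (nat_lit 528) (nat_lit 462))) (XT.nd (nat_lit 78) (nat_lit 0) (nat_lit 0) (XT.lf (nat_lit 0) (nat_lit 2648716229) (nat_lit 836) (nat_lit 642300811) (nat_lit 912) (nat_lit 5120289921) (nat_lit 413) (nat_lit 5) (nat_lit 424) (nat_lit 5) (nat_lit 425) (nat_lit 5) (nat_lit 571) (nat_lit 528) (nat_lit 461)) (XT.lf (nat_lit 0) (nat_lit 5595862899) (nat_lit 912) (nat_lit 453313457) (nat_lit 76) (nat_lit 2434772775) (nat_lit 413) (nat_lit 5) (nat_lit 425) (nat_lit 5) (nat_lit 414) (nat_lit 5) (nat_lit 572) (nat_lit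 528) (nat_lit 460)))) (XT.nd (nat_lit 156) (nat_lit 836) (nat_lit 0) (XT.nd (nat_lit 78) (nat_lit 912) (nat_lit 0) (XT.lf (nat_lit 0) (nat_lit 4988222554) (nat_lit 836) (nat_lit 2961505706) (nat_lit 912) (nat_lit 608259525) (nat_lit 402) (nat_lit 5) (nat_lit 413) (nat_lit 5) (nat_lit 414) (nat_lit 5) (nat_lit 573) (nat_lit 528) (nat_lit 459)) (XT.lf (nat_lit 0) (nat_lit 1677851544) (nat_lit 912) (nat_lit 6745443578) (nat_lit 76) (nat_lit 210326948) (nat_lit 390) (nat_lit 5) (nat_lit 402) (nat_lit 5) (nat_lit 391) (nat_lit 5) (nat_lit 574) (nat_lit 528) (nat_lit 458))) (XT.nd (nat_lit 78) (nat_lit 836) (nat_lit 0) (XT.lf (nat_lit 0) (nat_lit 4012184760) (nat_lit 912) (nat_lit 1266148401) (nat_lit 76) (nat_lit 3432144552) (nat_lit 390) (nat_lit 5) (nat_lit 402) (nat_lit 5) (nat_lit 391) (nat_lit 5) (nat_lit 575) (nat_lit 528) (nat_lit 457)) (XT.lf (nat_lit 0) (nat_lit 4344685395) (nat_lit 836) (nat_lit 2044287275) (nat_lit 912) (nat_lit 2399984371) (nat_lit 379) (nat_lit 5) (nat_lit 390) (nat_lit 5) (nat_lit 391) (nat_lit 5) (nat_lit 576)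 (nat_lit 528) (nat_lit 456)))))) (XT.nd (nat_lit 546) (nat_lit 4028) (nat_lit 0) (XT.nd (nat_lit 234) (nat_lit 1520) (nat_lit 0) (XT.nd (nat_lit 78) (nat_lit 836) (nat_lit 0) (XT.lf (nat_lit 0) (nat_lit 1188020296) (nat_lit 760) (nat_lit 7617638539) (nat_lit 836) (nat_lit 63501767) (nat_lit 369) (nat_lit 5) (nat_lit 379) (nat_lit 5) (nat_lit 380) (nat_lit 5) (nat_lit 577) (nat_lit 528) (nat_lit 455)) (XT.nd (nat_lit 78) (nat_lit 760) (nat_lit 0) (XT.lf (nat_lit 0) (nat_lit 2300986437) (nat_lit 836) (nat_lit 2021582224) (nat_lit 76) (nat_lit 4627866188) (nat_lit 368) (nat_lit 5) (nat_lit 379) (nat_lit 5) (nat_lit 369) (nat_lit 5) (nat_lit 578) (nat_lit 528) (nat_lit 454)) (XT.lf (nat_lit 0) (nat_lit 3765211357) (nat_lit 760) (nat_lit 939914642) (nat_lit 836) (nat_lit 4328337735) (nat_lit 358) (nat_lit 5) (nat_lit 368) (nat_lit 5) (nat_lit 369) (nat_lit 5) (nat_lit 579) (nat_lit 528) (nat_lit 453)))) (XT.nd (nat_lit 156) (nat_lit 760) (nat_lit 0) (XT.nd (nat_lit 78) (nat_lit 76) (nat_lit 0) (XT.lf (nat_lit 0) (nat_lit 532577267) (nat_lit 684)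 (nat_lit 6627310942) (nat_lit 760) (nat_lit 1958215942) (nat_lit 349) (nat_lit 5) (nat_lit 358) (nat_lit 5) (nat_lit 359) (nat_lit 5) (nat_lit 580) (nat_lit 528) (nat_lit 452)) (XT.lf (nat_lit 0) (nat_lit 464397146) (nat_lit 760) (nat_lit 2727793289) (nat_lit 76) (nat_lit 6011966727) (nat_lit 348) (nat_lit 5) (nat_lit 358) (nat_lit 5) (nat_lit 349) (nat_lit 5) (nat_lit 581) (nat_lit 528) (nat_lit 451))) (XT.nd (nat_lit 78) (nat_lit 0) (nat_lit 0) (XT.lf (nat_lit 0) (nat_lit 2902436482) (nat_lit 836) (nat_lit 6052191171) (nat_lit 76) (nat_lit 337182464) (nat_lit 338) (nat_lit 5) (nat_lit 349) (nat_lit 5) (nat_lit 339) (nat_lit 5) (nat_lit 582) (nat_lit 528) (nat_lit 450)) (XT.lf (nat_lit 0) (nat_lit 5399041056) (nat_lit 836) (nat_lit 73855458) (nat_lit 76) (nat_lit 3908125149) (nat_lit 338) (nat_lit 5) (nat_lit 349) (nat_lit 5) (nat_lit 339) (nat_lit 5) (nat_lit 583) (nat_lit 528) (nat_lit 449))))) (XT.nd (nat_lit 312) (nat_lit 1976) (nat_lit 0) (XT.nd (nat_lit 156) (nat_lit 608) (nat_lit 0) (XT.nd (nat_lit 78) (nat_lit 760) (nat_lit 0) (XT.lf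 (nat_lit 0) (nat_lit 6069235052) (nat_lit 684) (nat_lit 1886569700) (nat_lit 760) (nat_lit 1516009732) (nat_lit 329) (nat_lit 5) (nat_lit 338) (nat_lit 5) (nat_lit 339) (nat_lit 5) (nat_lit 584) (nat_lit 528) (nat_lit 448)) (XT.lf (nat_lit 0) (nat_lit 987249027) (nat_lit 760) (nat_lit 6809135042) (nat_lit 76) (nat_lit 1767889374) (nat_lit 319) (nat_lit 5) (nat_lit 329) (nat_lit 5) (nat_lit 320) (nat_lit 5) (nat_lit 585) (nat_lit 528) (nat_lit 447))) (XT.nd (nat_lit 78) (nat_lit 608) (nat_lit 0) (XT.lf (nat_lit 0) (nat_lit 3527059213) (nat_lit 760) (nat_lit 633558883) (nat_lit 76) (nat_lit 5497628850) (nat_lit 319) (nat_lit 5) (nat_lit 329) (nat_lit 5) (nat_lit 320) (nat_lit 5) (nat_lit 586) (nat_lit 528) (nat_lit 446)) (XT.lf (nat_lit 0) (nat_lit 5706167618) (nat_lit 608) (nat_lit 420397675) (nat_lit 684) (nat_lit 3627358100) (nat_lit 311) (nat_lit 5) (nat_lit 319) (nat_lit 5) (nat_lit 320) (nat_lit 5) (nat_lit 587) (nat_lit 528) (nat_lit 445)))) (XT.nd (nat_lit 156) (nat_lit 1216) (nat_lit 0) (XT.nd (nat_lit 78) (nat_lit 76) (nat_lit 0)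 (XT.lf (nat_lit 0) (nat_lit 2303499439) (nat_lit 684) (nat_lit 6487980589) (nat_lit 760) (nat_lit 1059766407) (nat_lit 302) (nat_lit 5) (nat_lit 311) (nat_lit 5) (nat_lit 312) (nat_lit 5) (nat_lit 588) (nat_lit 528) (nat_lit 444)) (XT.lf (nat_lit 0) (nat_lit 1541137645) (nat_lit 760) (nat_lit 1161045942) (nat_lit 76) (nat_lit 7248083078) (nat_lit 301) (nat_lit 5) (nat_lit 311) (nat_lit 5) (nat_lit 302) (nat_lit 5) (nat_lit 589) (nat_lit 528) (nat_lit 443))) (XT.nd (nat_lit 78) (nat_lit 608) (nat_lit 0) (XT.lf (nat_lit 0) (nat_lit 4195420257) (nat_lit 684) (nat_lit 4675718903) (nat_lit 76) (nat_lit 1179678379) (nat_lit 293) (nat_lit 5) (nat_lit 302) (nat_lit 5) (nat_lit 294) (nat_lit 5) (nat_lit 590) (nat_lit 528) (nat_lit 442)) (XT.lf (nat_lit 0) (nat_lit 1876924494) (nat_lit 608) (nat_lit 5036883878) (nat_lit 684) (nat_lit 3239351989) (nat_lit 285) (nat_lit 5) (nat_lit 293) (nat_lit 5) (nat_lit 294) (nat_lit 5) (nat_lit 591) (nat_lit 528) (nat_lit 441))))))) (XT.nd (nat_lit 76518) (nat_lit 0) (nat_lit 34352) (XT.nd (nat_lit 546) (nat_lit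 2128) (nat_lit 0) (XT.nd (nat_lit 234) (nat_lit 1140) (nat_lit 0) (XT.nd (nat_lit 78) (nat_lit 1292) (nat_lit 0) (XT.lf (nat_lit 0) (nat_lit 8590000891) (nat_lit 608) (nat_lit 1101342212) (nat_lit 684) (nat_lit 566112662) (nat_lit 285) (nat_lit 5) (nat_lit 293) (nat_lit 5) (nat_lit 294) (nat_lit 5) (nat_lit 592) (nat_lit 528) (nat_lit 440)) (XT.nd (nat_lit 78) (nat_lit 608) (nat_lit 0) (XT.lf (nat_lit 0) (nat_lit 2158245353) (nat_lit 684) (nat_lit 5290017680) (nat_lit 76) (nat_lit 2914774925) (nat_lit 276) (nat_lit 5) (nat_lit 285) (nat_lit 5) (nat_lit 277) (nat_lit 5) (nat_lit 593) (nat_lit 528) (nat_lit 439)) (XT.lf (nat_lit 0) (nat_lit 1474689878) (nat_lit 608) (nat_lit 3456957994) (nat_lit 684) (nat_lit 5538967557) (nat_lit 268) (nat_lit 5) (nat_lit 276) (nat_lit 5) (nat_lit 277) (nat_lit 5) (nat_lit 594) (nat_lit 528) (nat_lit 438)))) (XT.nd (nat_lit 156) (nat_lit 532) (nat_lit 0) (XT.nd (nat_lit 78) (nat_lit 608) (nat_lit 0) (XT.lf (nat_lit 0) (nat_lit 7774477556) (nat_lit 684) (nat_lit 2171632050) (nat_lit 76) (nat_lit 633956864)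 (nat_lit 268) (nat_lit 5) (nat_lit 277) (nat_lit 5) (nat_lit 269) (nat_lit 5) (nat_lit 595) (nat_lit 528) (nat_lit 437)) (XT.lf (nat_lit 0) (nat_lit 11649778) (nat_lit 608) (nat_lit 5895563539) (nat_lit 76) (nat_lit 4783917400) (nat_lit 260) (nat_lit 5) (nat_lit 268) (nat_lit 5) (nat_lit 261) (nat_lit 5) (nat_lit 596) (nat_lit 528) (nat_lit 436))) (XT.nd (nat_lit 78) (nat_lit 0) (nat_lit 0) (XT.lf (nat_lit 0) (nat_lit 1089415123) (nat_lit 532) (nat_lit 1754884240) (nat_lit 608) (nat_lit 7959814463) (nat_lit 253) (nat_lit 5) (nat_lit 260) (nat_lit 5) (nat_lit 261) (nat_lit 5) (nat_lit 597) (nat_lit 528) (nat_lit 435)) (XT.lf (nat_lit 0) (nat_lit 5764607416) (nat_lit 608) (nat_lit 2674763827) (nat_lit 76) (nat_lit 2479366354) (nat_lit 253) (nat_lit 5) (nat_lit 261) (nat_lit 5) (nat_lit 254) (nat_lit 5) (nat_lit 598) (nat_lit 528) (nat_lit 434))))) (XT.nd (nat_lit 312) (nat_lit 532) (nat_lit 0) (XT.nd (nat_lit 156) (nat_lit 456) (nat_lit 0) (XT.nd (nat_lit 78) (nat_lit 608) (nat_lit 0) (XT.lf (nat_lit 0) (nat_lit 4520457398) (nat_lit 532) (nat_lit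 4239400636) (nat_lit 608) (nat_lit 2275466171) (nat_lit 246) (nat_lit 5) (nat_lit 253) (nat_lit 5) (nat_lit 254) (nat_lit 5) (nat_lit 599) (nat_lit 528) (nat_lit 433)) (XT.lf (nat_lit 0) (nat_lit 650885103) (nat_lit 608) (nat_lit 10440976842) (nat_lit 76) (nat_lit 62320241) (nat_lit 238) (nat_lit 5) (nat_lit 246) (nat_lit 5) (nat_lit 239) (nat_lit 5) (nat_lit 600) (nat_lit 528) (nat_lit 432))) (XT.nd (nat_lit 78) (nat_lit 456) (nat_lit 0) (XT.lf (nat_lit 0) (nat_lit 3653279460) (nat_lit 608) (nat_lit 3177315986) (nat_lit 76) (nat_lit 4443562401) (nat_lit 238) (nat_lit 5) (nat_lit 246) (nat_lit 5) (nat_lit 239) (nat_lit 5) (nat_lit 601) (nat_lit 528) (nat_lit 431)) (XT.lf (nat_lit 0) (nat_lit 4254586023) (nat_lit 456) (nat_lit 2465105212) (nat_lit 532) (nat_lit 4676763400) (nat_lit 232) (nat_lit 5) (nat_lit 238) (nat_lit 5) (nat_lit 239) (nat_lit 5) (nat_lit 602) (nat_lit 528) (nat_lit 430)))) (XT.nd (nat_lit 75504) (nat_lit 0) (nat_lit 38684) (XT.nd (nat_lit 75426) (nat_lit 0) (nat_lit 39368) (XT.lf (nat_lit 0) (nat_lit 315490645) (nat_lit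 532) (nat_lit 9544895230) (nat_lit 608) (nat_lit 1660553377) (nat_lit 225) (nat_lit 5) (nat_lit 232) (nat_lit 5) (nat_lit 233) (nat_lit 5) (nat_lit 603) (nat_lit 528) (nat_lit 429)) (XT.lf (nat_lit 0) (nat_lit 2523337931) (nat_lit 684) (nat_lit 387391218) (nat_lit 684) (nat_lit 387391218) (nat_lit 743) (nat_lit 3) (nat_lit 752) (nat_lit 3) (nat_lit 752) (nat_lit 5) (nat_lit 529) (nat_lit 529) (nat_lit 502))) (XT.nd (nat_lit 78) (nat_lit 0) (nat_lit 0) (XT.lf (nat_lit 0) (nat_lit 868891614) (nat_lit 684) (nat_lit 4083659375) (nat_lit 760) (nat_lit 1661358888) (nat_lit 734) (nat_lit 5) (nat_lit 743) (nat_lit 3) (nat_lit 744) (nat_lit 5) (nat_lit 530) (nat_lit 529) (nat_lit 501)) (XT.lf (nat_lit 0) (nat_lit 3257140372) (nat_lit 684) (nat_lit 763358880) (nat_lit 760) (nat_lit 2612390840) (nat_lit 734) (nat_lit 5) (nat_lit 743) (nat_lit 3) (nat_lit 744) (nat_lit 5) (nat_lit 531) (nat_lit 529) (nat_lit 500)))))) (XT.nd (nat_lit 546) (nat_lit 2812) (nat_lit 0) (XT.nd (nat_lit 234) (nat_lit 760) (nat_lit 0) (XT.nd (nat_lit 78) (nat_lit 760) (nat_lit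 0) (XT.lf (nat_lit 76) (nat_lit 2625307937) (nat_lit 0) (nat_lit 3023047081) (nat_lit 760) (nat_lit 1004796739) (nat_lit 735) (nat_lit 5) (nat_lit 734) (nat_lit 5) (nat_lit 744) (nat_lit 5) (nat_lit 532) (nat_lit 529) (nat_lit 499)) (XT.nd (nat_lit 78) (nat_lit 0) (nat_lit 0) (XT.lf (nat_lit 0) (nat_lit 1338942749) (nat_lit 760) (nat_lit 623909432) (nat_lit 836) (nat_lit 4711910414) (nat_lit 724) (nat_lit 5) (nat_lit 734) (nat_lit 5) (nat_lit 735) (nat_lit 5) (nat_lit 533) (nat_lit 529) (nat_lit 498)) (XT.lf (nat_lit 76) (nat_lit 2846351280) (nat_lit 0) (nat_lit 828195747) (nat_lit 836) (nat_lit 3022962429) (nat_lit 725) (nat_lit 5) (nat_lit 724) (nat_lit 5) (nat_lit 735) (nat_lit 5) (nat_lit 534) (nat_lit 529) (nat_lit 497)))) (XT.nd (nat_lit 156) (nat_lit 0) (nat_lit 0) (XT.nd (nat_lit 78) (nat_lit 836) (nat_lit 0) (XT.lf (nat_lit 0) (nat_lit 6004308909) (nat_lit 760) (nat_lit 361894466) (nat_lit 836) (nat_lit 355564387) (nat_lit 725) (nat_lit 5) (nat_lit 735) (nat_lit 5) (nat_lit 736) (nat_lit 5) (nat_lit 535) (nat_lit 529) (nat_lit 496))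 (XT.lf (nat_lit 0) (nat_lit 1581023773) (nat_lit 836) (nat_lit 3556818025) (nat_lit 912) (nat_lit 1609096417) (nat_lit 714) (nat_lit 5) (nat_lit 725) (nat_lit 5) (nat_lit 726) (nat_lit 5) (nat_lit 536) (nat_lit 529) (nat_lit 495))) (XT.nd (nat_lit 78) (nat_lit 0) (nat_lit 0) (XT.lf (nat_lit 76) (nat_lit 7379432) (nat_lit 0) (nat_lit 3853778838) (nat_lit 912) (nat_lit 2912458280) (nat_lit 715) (nat_lit 5) (nat_lit 714) (nat_lit 5) (nat_lit 726) (nat_lit 5) (nat_lit 537) (nat_lit 529) (nat_lit 494)) (XT.lf (nat_lit 76) (nat_lit 3657827530) (nat_lit 0) (nat_lit 2496629518) (nat_lit 912) (nat_lit 647025179) (nat_lit 715) (nat_lit 5) (nat_lit 714) (nat_lit 5) (nat_lit 726) (nat_lit 5) (nat_lit 538) (nat_lit 529) (nat_lit 493))))) (XT.nd (nat_lit 312) (nat_lit 988) (nat_lit 0) (XT.nd (nat_lit 156) (nat_lit 912) (nat_lit 0) (XT.nd (nat_lit 78) (nat_lit 0) (nat_lit 76) (XT.lf (nat_lit 76) (nat_lit 513980003) (nat_lit 0) (nat_lit 1075680834) (nat_lit 988) (nat_lit 5241077866) (nat_lit 703) (nat_lit 5) (nat_lit 702) (nat_lit 5) (nat_lit 715) (nat_lit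 5) (nat_lit 539) (nat_lit 529) (nat_lit 492)) (XT.lf (nat_lit 0) (nat_lit 3831528349) (nat_lit 912) (nat_lit 2613986609) (nat_lit 988) (nat_lit 415602299) (nat_lit 703) (nat_lit 5) (nat_lit 715) (nat_lit 5) (nat_lit 716) (nat_lit 5) (nat_lit 540) (nat_lit 529) (nat_lit 491))) (XT.nd (nat_lit 78) (nat_lit 988) (nat_lit 0) (XT.lf (nat_lit 76) (nat_lit 1136944307) (nat_lit 0) (nat_lit 4942306020) (nat_lit 988) (nat_lit 813637336) (nat_lit 704) (nat_lit 5) (nat_lit 703) (nat_lit 5) (nat_lit 716) (nat_lit 5) (nat_lit 541) (nat_lit 529) (nat_lit 490)) (XT.lf (nat_lit 0) (nat_lit 1392307747) (nat_lit 988) (nat_lit 1970295648) (nat_lit 1064) (nat_lit 3563213727) (nat_lit 690) (nat_lit 5) (nat_lit 703) (nat_lit 5) (nat_lit 704) (nat_lit 5) (nat_lit 542) (nat_lit 529) (nat_lit 489)))) (XT.nd (nat_lit 156) (nat_lit 988) (nat_lit 0) (XT.nd (nat_lit 78) (nat_lit 0) (nat_lit 0) (XT.lf (nat_lit 76) (nat_lit 1876789706) (nat_lit 0) (nat_lit 1714912327) (nat_lit 1064) (nat_lit 3368395435) (nat_lit 691) (nat_lit 5) (nat_lit 690) (nat_lit 5) (nat_lit 704)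 (nat_lit 5) (nat_lit 543) (nat_lit 529) (nat_lit 488)) (XT.lf (nat_lit 76) (nat_lit 5794243632) (nat_lit 0) (nat_lit 2894598) (nat_lit 1064) (nat_lit 1198688378) (nat_lit 691) (nat_lit 5) (nat_lit 690) (nat_lit 5) (nat_lit 704) (nat_lit 5) (nat_lit 544) (nat_lit 529) (nat_lit 487))) (XT.nd (nat_lit 78) (nat_lit 0) (nat_lit 0) (XT.lf (nat_lit 0) (nat_lit 980081451) (nat_lit 1064) (nat_lit 4290382207) (nat_lit 1140) (nat_lit 1762099598) (nat_lit 677) (nat_lit 5) (nat_lit 691) (nat_lit 5) (nat_lit 692) (nat_lit 5) (nat_lit 545) (nat_lit 529) (nat_lit 486)) (XT.lf (nat_lit 0) (nat_lit 3144909761) (nat_lit 1064) (nat_lit 330967289) (nat_lit 1140) (nat_lit 3594832473) (nat_lit 677) (nat_lit 5) (nat_lit 691) (nat_lit 5) (nat_lit 692) (nat_lit 5) (nat_lit 546) (nat_lit 529) (nat_lit 485))))))))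
noncomputable def xc46 : XT := (XT.nd (nat_lit 2340) (nat_lit 11172) (nat_lit 0) (XT.nd (nat_lit 1170) (nat_lit 11780) (nat_lit 0) (XT.nd (nat_lit 546) (nat_lit 6080) (nat_lit 0) (XT.nd (nat_lit 234) (nat_lit 3724) (nat_lit 0) (XT.nd (nat_lit 78) (nat_lit 1064) (nat_lit 0) (XT.lf (nat_lit 76) (nat_lit 3722942250) (nat_lit 0) (nat_lit 1605619779) (nat_lit 1140) (nat_lit 1781550085) (nat_lit 678) (nat_lit 5) (nat_lit 677) (nat_lit 5) (nat_lit 692) (nat_lit 5) (nat_lit 547) (nat_lit 529) (nat_lit 484)) (XT.nd (nat_lit 78) (nat_lit 0) (nat_lit 0) (XT.lf (nat_lit 0) (nat_lit 360833033) (nat_lit 1140) (nat_lit 6468657364) (nat_lit 76) (nat_lit 321552130) (nat_lit 663) (nat_lit 5) (nat_lit 678) (nat_lit 5) (nat_lit 664) (nat_lit 5) (nat_lit 548) (nat_lit 529) (nat_lit 483)) (XT.lf (nat_lit 0) (nat_lit 2508332896) (nat_lit 1140) (nat_lit 2370438602) (nat_lit 76) (nat_lit 2314065766) (nat_lit 663) (nat_lit 5) (nat_lit 678) (nat_lit 5) (nat_lit 664) (nat_lit 5) (nat_lit 549) (nat_lit 529) (nat_lit 482)))) (XT.nd (nat_lit 156) (nat_lit 2584) (nat_lit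 0) (XT.nd (nat_lit 78) (nat_lit 0) (nat_lit 0) (XT.lf (nat_lit 0) (nat_lit 1799258999) (nat_lit 1140) (nat_lit 2864723655) (nat_lit 1216) (nat_lit 2572184887) (nat_lit 648) (nat_lit 5) (nat_lit 663) (nat_lit 5) (nat_lit 664) (nat_lit 5) (nat_lit 550) (nat_lit 529) (nat_lit 481)) (XT.lf (nat_lit 0) (nat_lit 6050623564) (nat_lit 1140) (nat_lit 782238231) (nat_lit 1216) (nat_lit 448103876) (nat_lit 648) (nat_lit 5) (nat_lit 663) (nat_lit 5) (nat_lit 664) (nat_lit 5) (nat_lit 551) (nat_lit 529) (nat_lit 480))) (XT.nd (nat_lit 78) (nat_lit 1292) (nat_lit 0) (XT.lf (nat_lit 0) (nat_lit 1679557333) (nat_lit 1292) (nat_lit 4280466581) (nat_lit 76) (nat_lit 1366743409) (nat_lit 631) (nat_lit 5) (nat_lit 648) (nat_lit 5) (nat_lit 632) (nat_lit 5) (nat_lit 552) (nat_lit 529) (nat_lit 479)) (XT.lf (nat_lit 0) (nat_lit 9210706) (nat_lit 1292) (nat_lit 3803663485) (nat_lit 1368) (nat_lit 3561172892) (nat_lit 614) (nat_lit 5) (nat_lit 631) (nat_lit 5) (nat_lit 632) (nat_lit 5) (nat_lit 553) (nat_lit 529) (nat_lit 478))))) (XT.nd (nat_lit 312) (nat_lit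 3192) (nat_lit 0) (XT.nd (nat_lit 156) (nat_lit 1444) (nat_lit 0) (XT.nd (nat_lit 78) (nat_lit 1444) (nat_lit 0) (XT.lf (nat_lit 0) (nat_lit 4408390002) (nat_lit 1292) (nat_lit 1565386244) (nat_lit 1368) (nat_lit 1448801117) (nat_lit 614) (nat_lit 5) (nat_lit 631) (nat_lit 5) (nat_lit 632) (nat_lit 5) (nat_lit 554) (nat_lit 529) (nat_lit 477)) (XT.lf (nat_lit 0) (nat_lit 667245558) (nat_lit 1444) (nat_lit 6074406685) (nat_lit 76) (nat_lit 730923837) (nat_lit 595) (nat_lit 5) (nat_lit 614) (nat_lit 5) (nat_lit 596) (nat_lit 5) (nat_lit 555) (nat_lit 529) (nat_lit 476))) (XT.nd (nat_lit 78) (nat_lit 1444) (nat_lit 0) (XT.lf (nat_lit 0) (nat_lit 2794408316) (nat_lit 1444) (nat_lit 1638539635) (nat_lit 76) (nat_lit 3090674509) (nat_lit 595) (nat_lit 5) (nat_lit 614) (nat_lit 5) (nat_lit 596) (nat_lit 5) (nat_lit 556) (nat_lit 529) (nat_lit 475)) (XT.lf (nat_lit 0) (nat_lit 2889723080) (nat_lit 1444) (nat_lit 2051436512) (nat_lit 1520) (nat_lit 2634992319) (nat_lit 576) (nat_lit 5) (nat_lit 595) (nat_lit 5) (nat_lit 596) (nat_lit 5) (nat_lit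 557) (nat_lit 529) (nat_lit 474)))) (XT.nd (nat_lit 156) (nat_lit 1596) (nat_lit 0) (XT.nd (nat_lit 78) (nat_lit 1596) (nat_lit 0) (XT.lf (nat_lit 0) (nat_lit 7103293257) (nat_lit 1520) (nat_lit 136142694) (nat_lit 76) (nat_lit 390850043) (nat_lit 576) (nat_lit 5) (nat_lit 596) (nat_lit 5) (nat_lit 577) (nat_lit 5) (nat_lit 558) (nat_lit 529) (nat_lit 473)) (XT.lf (nat_lit 0) (nat_lit 1604535982) (nat_lit 1596) (nat_lit 3179393005) (nat_lit 76) (nat_lit 2901312728) (nat_lit 555) (nat_lit 5) (nat_lit 576) (nat_lit 5) (nat_lit 556) (nat_lit 5) (nat_lit 559) (nat_lit 529) (nat_lit 472))) (XT.nd (nat_lit 78) (nat_lit 0) (nat_lit 0) (XT.lf (nat_lit 0) (nat_lit 1482704215) (nat_lit 1596) (nat_lit 2259523032) (nat_lit 1672) (nat_lit 3999590685) (nat_lit 534) (nat_lit 5) (nat_lit 555) (nat_lit 5) (nat_lit 556) (nat_lit 5) (nat_lit 560) (nat_lit 529) (nat_lit 471)) (XT.lf (nat_lit 0) (nat_lit 5906826594) (nat_lit 1672) (nat_lit 1555236992) (nat_lit 76) (nat_lit 337781762) (nat_lit 534) (nat_lit 5) (nat_lit 556) (nat_lit 5) (nat_lit 535) (nat_lit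 5) (nat_lit 561) (nat_lit 529) (nat_lit 470)))))) (XT.nd (nat_lit 546) (nat_lit 4408) (nat_lit 0) (XT.nd (nat_lit 234) (nat_lit 3876) (nat_lit 0) (XT.nd (nat_lit 78) (nat_lit 1748) (nat_lit 0) (XT.lf (nat_lit 0) (nat_lit 249685751) (nat_lit 1748) (nat_lit 4624941687) (nat_lit 76) (nat_lit 2984428239) (nat_lit 511) (nat_lit 5) (nat_lit 534) (nat_lit 5) (nat_lit 512) (nat_lit 5) (nat_lit 562) (nat_lit 529) (nat_lit 469)) (XT.nd (nat_lit 78) (nat_lit 0) (nat_lit 0) (XT.lf (nat_lit 0) (nat_lit 176108705) (nat_lit 1748) (nat_lit 2207142970) (nat_lit 1824) (nat_lit 5536483788) (nat_lit 488) (nat_lit 5) (nat_lit 511) (nat_lit 5) (nat_lit 512) (nat_lit 5) (nat_lit 563) (nat_lit 529) (nat_lit 468)) (XT.lf (nat_lit 0) (nat_lit 4556296862) (nat_lit 1824) (nat_lit 2883915739) (nat_lit 76) (nat_lit 541482636) (nat_lit 488) (nat_lit 5) (nat_lit 512) (nat_lit 5) (nat_lit 489) (nat_lit 5) (nat_lit 564) (nat_lit 529) (nat_lit 467)))) (XT.nd (nat_lit 156) (nat_lit 1976) (nat_lit 0) (XT.nd (nat_lit 78) (nat_lit 76) (nat_lit 0) (XT.lf (nat_lit 0) (nat_lit 2050719926)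 (nat_lit 1824) (nat_lit 4712986452) (nat_lit 1900) (nat_lit 1281372262) (nat_lit 464) (nat_lit 5) (nat_lit 488) (nat_lit 5) (nat_lit 489) (nat_lit 5) (nat_lit 565) (nat_lit 529) (nat_lit 466)) (XT.lf (nat_lit 0) (nat_lit 876369732) (nat_lit 1900) (nat_lit 1027021660) (nat_lit 76) (nat_lit 6206568904) (nat_lit 463) (nat_lit 5) (nat_lit 488) (nat_lit 5) (nat_lit 464) (nat_lit 5) (nat_lit 566) (nat_lit 529) (nat_lit 465))) (XT.nd (nat_lit 78) (nat_lit 912) (nat_lit 0) (XT.lf (nat_lit 0) (nat_lit 3056864520) (nat_lit 1140) (nat_lit 4132493165) (nat_lit 76) (nat_lit 986679751) (nat_lit 449) (nat_lit 5) (nat_lit 464) (nat_lit 5) (nat_lit 450) (nat_lit 5) (nat_lit 567) (nat_lit 529) (nat_lit 464)) (XT.lf (nat_lit 0) (nat_lit 951341702) (nat_lit 912) (nat_lit 4319796243) (nat_lit 988) (nat_lit 2972497111) (nat_lit 437) (nat_lit 5) (nat_lit 449) (nat_lit 5) (nat_lit 450) (nat_lit 5) (nat_lit 568) (nat_lit 529) (nat_lit 463))))) (XT.nd (nat_lit 312) (nat_lit 2584) (nat_lit 0) (XT.nd (nat_lit 156) (nat_lit 836) (nat_lit 0) (XT.nd (nat_lit 78) (nat_lit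 988) (nat_lit 0) (XT.lf (nat_lit 0) (nat_lit 6158468902) (nat_lit 912) (nat_lit 1363882122) (nat_lit 988) (nat_lit 790382786) (nat_lit 437) (nat_lit 5) (nat_lit 449) (nat_lit 5) (nat_lit 450) (nat_lit 5) (nat_lit 569) (nat_lit 529) (nat_lit 462)) (XT.lf (nat_lit 0) (nat_lit 1412866761) (nat_lit 988) (nat_lit 5310784097) (nat_lit 76) (nat_lit 1659453108) (nat_lit 424) (nat_lit 5) (nat_lit 437) (nat_lit 5) (nat_lit 425) (nat_lit 5) (nat_lit 570) (nat_lit 529) (nat_lit 461))) (XT.nd (nat_lit 78) (nat_lit 836) (nat_lit 0) (XT.lf (nat_lit 0) (nat_lit 3639032682) (nat_lit 988) (nat_lit 70967633) (nat_lit 76) (nat_lit 4744990166) (nat_lit 424) (nat_lit 5) (nat_lit 437) (nat_lit 5) (nat_lit 425) (nat_lit 5) (nat_lit 571) (nat_lit 529) (nat_lit 460)) (XT.lf (nat_lit 0) (nat_lit 5309306283) (nat_lit 836) (nat_lit 601397368) (nat_lit 912) (nat_lit 2617593533) (nat_lit 413) (nat_lit 5) (nat_lit 424) (nat_lit 5) (nat_lit 425) (nat_lit 5) (nat_lit 572) (nat_lit 529) (nat_lit 459)))) (XT.nd (nat_lit 156) (nat_lit 1672) (nat_lit 0) (XT.nd (nat_lit 78) (nat_lit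 76) (nat_lit 0) (XT.lf (nat_lit 0) (nat_lit 2172488009) (nat_lit 836) (nat_lit 6053529976) (nat_lit 912) (nat_lit 377089891) (nat_lit 402) (nat_lit 5) (nat_lit 413) (nat_lit 5) (nat_lit 414) (nat_lit 5) (nat_lit 573) (nat_lit 529) (nat_lit 458)) (XT.lf (nat_lit 0) (nat_lit 1876075460) (nat_lit 912) (nat_lit 1014685888) (nat_lit 76) (nat_lit 5788550050) (nat_lit 401) (nat_lit 5) (nat_lit 413) (nat_lit 5) (nat_lit 402) (nat_lit 5) (nat_lit 574) (nat_lit 529) (nat_lit 457))) (XT.nd (nat_lit 78) (nat_lit 836) (nat_lit 0) (XT.lf (nat_lit 0) (nat_lit 4168860484) (nat_lit 912) (nat_lit 4226848212) (nat_lit 76) (nat_lit 361290265) (nat_lit 390) (nat_lit 5) (nat_lit 402) (nat_lit 5) (nat_lit 391) (nat_lit 5) (nat_lit 575) (nat_lit 529) (nat_lit 456)) (XT.lf (nat_lit 0) (nat_lit 1327412628) (nat_lit 836) (nat_lit 5182900848) (nat_lit 912) (nat_lit 2325872451) (nat_lit 379) (nat_lit 5) (nat_lit 390) (nat_lit 5) (nat_lit 391) (nat_lit 5) (nat_lit 576) (nat_lit 529) (nat_lit 455))))))) (XT.nd (nat_lit 1170) (nat_lit 4636) (nat_lit 0) (XT.nd (nat_lit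 546) (nat_lit 3420) (nat_lit 0) (XT.nd (nat_lit 234) (nat_lit 1520) (nat_lit 0) (XT.nd (nat_lit 78) (nat_lit 1596) (nat_lit 0) (XT.lf (nat_lit 0) (nat_lit 7015938880) (nat_lit 836) (nat_lit 1879618678) (nat_lit 912) (nat_lit 21461692) (nat_lit 379) (nat_lit 5) (nat_lit 390) (nat_lit 5) (nat_lit 391) (nat_lit 5) (nat_lit 577) (nat_lit 529) (nat_lit 454)) (XT.nd (nat_lit 78) (nat_lit 760) (nat_lit 0) (XT.lf (nat_lit 0) (nat_lit 2302218529) (nat_lit 836) (nat_lit 5189327850) (nat_lit 76) (nat_lit 1507547675) (nat_lit 368) (nat_lit 5) (nat_lit 379) (nat_lit 5) (nat_lit 369) (nat_lit 5) (nat_lit 578) (nat_lit 529) (nat_lit 453)) (XT.lf (nat_lit 0) (nat_lit 538196360) (nat_lit 760) (nat_lit 4132050053) (nat_lit 836) (nat_lit 4412599626) (nat_lit 358) (nat_lit 5) (nat_lit 368) (nat_lit 5) (nat_lit 369) (nat_lit 5) (nat_lit 579) (nat_lit 529) (nat_lit 452)))) (XT.nd (nat_lit 156) (nat_lit 760) (nat_lit 0) (XT.nd (nat_lit 78) (nat_lit 760) (nat_lit 0) (XT.lf (nat_lit 0) (nat_lit 6416607064) (nat_lit 760) (nat_lit 673607856) (nat_lit 836) (nat_lit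 2077968261) (nat_lit 358) (nat_lit 5) (nat_lit 368) (nat_lit 5) (nat_lit 369) (nat_lit 5) (nat_lit 580) (nat_lit 529) (nat_lit 451)) (XT.lf (nat_lit 0) (nat_lit 308720144) (nat_lit 760) (nat_lit 6110893206) (nat_lit 76) (nat_lit 2835389115) (nat_lit 348) (nat_lit 5) (nat_lit 358) (nat_lit 5) (nat_lit 349) (nat_lit 5) (nat_lit 581) (nat_lit 529) (nat_lit 450))) (XT.nd (nat_lit 78) (nat_lit 760) (nat_lit 0) (XT.lf (nat_lit 0) (nat_lit 2708885485) (nat_lit 760) (nat_lit 200608078) (nat_lit 76) (nat_lit 6433920139) (nat_lit 348) (nat_lit 5) (nat_lit 358) (nat_lit 5) (nat_lit 349) (nat_lit 5) (nat_lit 582) (nat_lit 529) (nat_lit 449)) (XT.lf (nat_lit 0) (nat_lit 5170826380) (nat_lit 836) (nat_lit 3566514498) (nat_lit 76) (nat_lit 695978427) (nat_lit 338) (nat_lit 5) (nat_lit 349) (nat_lit 5) (nat_lit 339) (nat_lit 5) (nat_lit 583) (nat_lit 529) (nat_lit 448))))) (XT.nd (nat_lit 312) (nat_lit 1368) (nat_lit 0) (XT.nd (nat_lit 156) (nat_lit 1292) (nat_lit 0) (XT.nd (nat_lit 78) (nat_lit 76) (nat_lit 0) (XT.lf (nat_lit 0) (nat_lit 2513237322) (nat_lit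 684) (nat_lit 5177103303) (nat_lit 760) (nat_lit 1834517261) (nat_lit 329) (nat_lit 5) (nat_lit 338) (nat_lit 5) (nat_lit 339) (nat_lit 5) (nat_lit 584) (nat_lit 529) (nat_lit 447)) (XT.lf (nat_lit 0) (nat_lit 629237716) (nat_lit 760) (nat_lit 893040213) (nat_lit 76) (nat_lit 8095954637) (nat_lit 328) (nat_lit 5) (nat_lit 338) (nat_lit 5) (nat_lit 329) (nat_lit 5) (nat_lit 585) (nat_lit 529) (nat_lit 446))) (XT.nd (nat_lit 78) (nat_lit 608) (nat_lit 0) (XT.lf (nat_lit 0) (nat_lit 3139315172) (nat_lit 760) (nat_lit 4354689611) (nat_lit 76) (nat_lit 2218796667) (nat_lit 319) (nat_lit 5) (nat_lit 329) (nat_lit 5) (nat_lit 320) (nat_lit 5) (nat_lit 586) (nat_lit 529) (nat_lit 445)) (XT.lf (nat_lit 0) (nat_lit 1918766406) (nat_lit 608) (nat_lit 3781802840) (nat_lit 684) (nat_lit 4108674401) (nat_lit 311) (nat_lit 5) (nat_lit 319) (nat_lit 5) (nat_lit 320) (nat_lit 5) (nat_lit 587) (nat_lit 529) (nat_lit 444)))) (XT.nd (nat_lit 156) (nat_lit 608) (nat_lit 0) (XT.nd (nat_lit 78) (nat_lit 760) (nat_lit 0) (XT.lf (nat_lit 0) (nat_lit 8315183399)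 (nat_lit 684) (nat_lit 1564348518) (nat_lit 76) (nat_lit 28041481) (nat_lit 311) (nat_lit 5) (nat_lit 320) (nat_lit 5) (nat_lit 312) (nat_lit 5) (nat_lit 588) (nat_lit 529) (nat_lit 443)) (XT.lf (nat_lit 0) (nat_lit 991687276) (nat_lit 760) (nat_lit 5119499230) (nat_lit 76) (nat_lit 3895953202) (nat_lit 301) (nat_lit 5) (nat_lit 311) (nat_lit 5) (nat_lit 302) (nat_lit 5) (nat_lit 589) (nat_lit 529) (nat_lit 442))) (XT.nd (nat_lit 78) (nat_lit 0) (nat_lit 0) (XT.lf (nat_lit 0) (nat_lit 1355256974) (nat_lit 608) (nat_lit 2243612458) (nat_lit 684) (nat_lit 6509763815) (nat_lit 293) (nat_lit 5) (nat_lit 301) (nat_lit 5) (nat_lit 302) (nat_lit 5) (nat_lit 590) (nat_lit 529) (nat_lit 441)) (XT.lf (nat_lit 0) (nat_lit 6277446404) (nat_lit 684) (nat_lit 2227393220) (nat_lit 76) (nat_lit 1706933313) (nat_lit 293) (nat_lit 5) (nat_lit 302) (nat_lit 5) (nat_lit 294) (nat_lit 5) (nat_lit 591) (nat_lit 529) (nat_lit 440)))))) (XT.nd (nat_lit 546) (nat_lit 1596) (nat_lit 0) (XT.nd (nat_lit 234) (nat_lit 1748) (nat_lit 0) (XT.nd (nat_lit 78) (nat_lit 684)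 (nat_lit 0) (XT.lf (nat_lit 0) (nat_lit 4439580414) (nat_lit 608) (nat_lit 4587837826) (nat_lit 684) (nat_lit 1289201989) (nat_lit 285) (nat_lit 5) (nat_lit 293) (nat_lit 5) (nat_lit 294) (nat_lit 5) (nat_lit 592) (nat_lit 529) (nat_lit 439)) (XT.nd (nat_lit 78) (nat_lit 0) (nat_lit 0) (XT.lf (nat_lit 0) (nat_lit 815243518) (nat_lit 608) (nat_lit 569708200) (nat_lit 684) (nat_lit 9038538962) (nat_lit 276) (nat_lit 5) (nat_lit 284) (nat_lit 5) (nat_lit 285) (nat_lit 5) (nat_lit 593) (nat_lit 529) (nat_lit 438)) (XT.lf (nat_lit 0) (nat_lit 4132461052) (nat_lit 684) (nat_lit 2875651030) (nat_lit 76) (nat_lit 3523474528) (nat_lit 276) (nat_lit 5) (nat_lit 285) (nat_lit 5) (nat_lit 277) (nat_lit 5) (nat_lit 594) (nat_lit 529) (nat_lit 437)))) (XT.nd (nat_lit 156) (nat_lit 608) (nat_lit 0) (XT.nd (nat_lit 78) (nat_lit 532) (nat_lit 0) (XT.lf (nat_lit 0) (nat_lit 4007770632) (nat_lit 608) (nat_lit 2931952196) (nat_lit 684) (nat_lit 3702026766) (nat_lit 268) (nat_lit 5) (nat_lit 276) (nat_lit 5) (nat_lit 277) (nat_lit 5) (nat_lit 595) (nat_lit 529)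 (nat_lit 436)) (XT.lf (nat_lit 0) (nat_lit 276808364) (nat_lit 532) (nat_lit 9530739870) (nat_lit 608) (nat_lit 946480391) (nat_lit 261) (nat_lit 5) (nat_lit 268) (nat_lit 5) (nat_lit 269) (nat_lit 5) (nat_lit 596) (nat_lit 529) (nat_lit 435))) (XT.nd (nat_lit 78) (nat_lit 532) (nat_lit 0) (XT.lf (nat_lit 0) (nat_lit 1879305466) (nat_lit 608) (nat_lit 3516700945) (nat_lit 76) (nat_lit 5471514314) (nat_lit 260) (nat_lit 5) (nat_lit 268) (nat_lit 5) (nat_lit 261) (nat_lit 5) (nat_lit 597) (nat_lit 529) (nat_lit 434)) (XT.lf (nat_lit 0) (nat_lit 3591551146) (nat_lit 532) (nat_lit 1156544828) (nat_lit 608) (nat_lit 6235079413) (nat_lit 253) (nat_lit 5) (nat_lit 260) (nat_lit 5) (nat_lit 261) (nat_lit 5) (nat_lit 598) (nat_lit 529) (nat_lit 433))))) (XT.nd (nat_lit 312) (nat_lit 456) (nat_lit 0) (XT.nd (nat_lit 156) (nat_lit 608) (nat_lit 0) (XT.nd (nat_lit 78) (nat_lit 532) (nat_lit 0) (XT.lf (nat_lit 0) (nat_lit 7694628307) (nat_lit 608) (nat_lit 264282886) (nat_lit 76) (nat_lit 3141825696) (nat_lit 253) (nat_lit 5) (nat_lit 261) (nat_lit 5)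 (nat_lit 254) (nat_lit 5) (nat_lit 599) (nat_lit 529) (nat_lit 432)) (XT.lf (nat_lit 0) (nat_lit 7058632394) (nat_lit 532) (nat_lit 3671461146) (nat_lit 608) (nat_lit 489957083) (nat_lit 246) (nat_lit 5) (nat_lit 253) (nat_lit 5) (nat_lit 254) (nat_lit 5) (nat_lit 600) (nat_lit 529) (nat_lit 431))) (XT.nd (nat_lit 78) (nat_lit 0) (nat_lit 0) (XT.lf (nat_lit 0) (nat_lit 2455756594) (nat_lit 608) (nat_lit 8162711943) (nat_lit 76) (nat_lit 722883998) (nat_lit 238) (nat_lit 5) (nat_lit 246) (nat_lit 5) (nat_lit 239) (nat_lit 5) (nat_lit 601) (nat_lit 529) (nat_lit 430)) (XT.lf (nat_lit 0) (nat_lit 5483064450) (nat_lit 608) (nat_lit 802544231) (nat_lit 76) (nat_lit 5178823209) (nat_lit 238) (nat_lit 5) (nat_lit 246) (nat_lit 5) (nat_lit 239) (nat_lit 5) (nat_lit 602) (nat_lit 529) (nat_lit 429)))) (XT.nd (nat_lit 75582) (nat_lit 0) (nat_lit 37392) (XT.nd (nat_lit 75504) (nat_lit 0) (nat_lit 38152) (XT.lf (nat_lit 0) (nat_lit 6761954251) (nat_lit 456) (nat_lit 1830131756) (nat_lit 532) (nat_lit 2997464441) (nat_lit 232) (nat_lit 5) (nat_lit 238)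 (nat_lit 5) (nat_lit 239) (nat_lit 5) (nat_lit 603) (nat_lit 529) (nat_lit 428)) (XT.lf (nat_lit 0) (nat_lit 805990895) (nat_lit 0) (nat_lit 805990895) (nat_lit 684) (nat_lit 1704139208) (nat_lit 734) (nat_lit 5) (nat_lit 734) (nat_lit 3) (nat_lit 743) (nat_lit 3) (nat_lit 530) (nat_lit 530) (nat_lit 500))) (XT.nd (nat_lit 78) (nat_lit 760) (nat_lit 0) (XT.lf (nat_lit 0) (nat_lit 4942286567) (nat_lit 0) (nat_lit 632953266) (nat_lit 684) (nat_lit 1076724731) (nat_lit 734) (nat_lit 5) (nat_lit 734) (nat_lit 3) (nat_lit 743) (nat_lit 3) (nat_lit 531) (nat_lit 530) (nat_lit 499)) (XT.lf (nat_lit 0) (nat_lit 1236556002) (nat_lit 760) (nat_lit 5026564994) (nat_lit 836) (nat_lit 409753925) (nat_lit 724) (nat_lit 5) (nat_lit 734) (nat_lit 5) (nat_lit 735) (nat_lit 5) (nat_lit 532) (nat_lit 530) (nat_lit 498))))))))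
noncomputable def xc47 : XT := (XT.nd (nat_lit 2340) (nat_lit 17176) (nat_lit 0) (XT.nd (nat_lit 1170) (nat_lit 12540) (nat_lit 0) (XT.nd (nat_lit 546) (nat_lit 1976) (nat_lit 0) (XT.nd (nat_lit 234) (nat_lit 836) (nat_lit 0) (XT.nd (nat_lit 78) (nat_lit 836) (nat_lit 0) (XT.lf (nat_lit 0) (nat_lit 3537390298) (nat_lit 760) (nat_lit 1645208120) (nat_lit 836) (nat_lit 1512354143) (nat_lit 724) (nat_lit 5) (nat_lit 734) (nat_lit 5) (nat_lit 735) (nat_lit 5) (nat_lit 533) (nat_lit 530) (nat_lit 497)) (XT.nd (nat_lit 78) (nat_lit 836) (nat_lit 0) (XT.lf (nat_lit 76) (nat_lit 1795531979) (nat_lit 0) (nat_lit 4041495763) (nat_lit 836) (nat_lit 881393699) (nat_lit 725) (nat_lit 5) (nat_lit 724) (nat_lit 5) (nat_lit 735) (nat_lit 5) (nat_lit 534) (nat_lit 530) (nat_lit 496)) (XT.lf (nat_lit 0) (nat_lit 1374210918) (nat_lit 836) (nat_lit 1456538871) (nat_lit 912) (nat_lit 3912372038) (nat_lit 713) (nat_lit 5) (nat_lit 724) (nat_lit 5) (nat_lit 725) (nat_lit 5) (nat_lit 535) (nat_lit 530) (nat_lit 495)))) (XT.nd (nat_lit 156) (nat_lit 836) (nat_lit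 0) (XT.nd (nat_lit 78) (nat_lit 0) (nat_lit 0) (XT.lf (nat_lit 76) (nat_lit 2068704093) (nat_lit 0) (nat_lit 1550696583) (nat_lit 912) (nat_lit 3149678632) (nat_lit 714) (nat_lit 5) (nat_lit 713) (nat_lit 5) (nat_lit 725) (nat_lit 5) (nat_lit 536) (nat_lit 530) (nat_lit 494)) (XT.lf (nat_lit 76) (nat_lit 5652675409) (nat_lit 0) (nat_lit 210341721) (nat_lit 912) (nat_lit 933473352) (nat_lit 714) (nat_lit 5) (nat_lit 713) (nat_lit 5) (nat_lit 725) (nat_lit 5) (nat_lit 537) (nat_lit 530) (nat_lit 493))) (XT.nd (nat_lit 78) (nat_lit 0) (nat_lit 0) (XT.lf (nat_lit 0) (nat_lit 1278038906) (nat_lit 912) (nat_lit 4356810929) (nat_lit 988) (nat_lit 1190064784) (nat_lit 702) (nat_lit 5) (nat_lit 714) (nat_lit 5) (nat_lit 715) (nat_lit 5) (nat_lit 538) (nat_lit 530) (nat_lit 492)) (XT.lf (nat_lit 0) (nat_lit 3475930071) (nat_lit 912) (nat_lit 726298612) (nat_lit 988) (nat_lit 2652466907) (nat_lit 702) (nat_lit 5) (nat_lit 714) (nat_lit 5) (nat_lit 715) (nat_lit 5) (nat_lit 539) (nat_lit 530) (nat_lit 491))))) (XT.nd (nat_lit 312) (nat_lit 988) (nat_lit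 0) (XT.nd (nat_lit 156) (nat_lit 0) (nat_lit 76) (XT.nd (nat_lit 78) (nat_lit 988) (nat_lit 0) (XT.lf (nat_lit 76) (nat_lit 2983914740) (nat_lit 0) (nat_lit 2699822934) (nat_lit 988) (nat_lit 1202019957) (nat_lit 703) (nat_lit 5) (nat_lit 702) (nat_lit 5) (nat_lit 715) (nat_lit 5) (nat_lit 540) (nat_lit 530) (nat_lit 490)) (XT.lf (nat_lit 0) (nat_lit 956885053) (nat_lit 988) (nat_lit 178350195) (nat_lit 1064) (nat_lit 5783038299) (nat_lit 689) (nat_lit 5) (nat_lit 702) (nat_lit 5) (nat_lit 703) (nat_lit 5) (nat_lit 541) (nat_lit 530) (nat_lit 489))) (XT.nd (nat_lit 78) (nat_lit 0) (nat_lit 0) (XT.lf (nat_lit 0) (nat_lit 3117879268) (nat_lit 988) (nat_lit 3327858745) (nat_lit 1064) (nat_lit 506047095) (nat_lit 690) (nat_lit 5) (nat_lit 703) (nat_lit 5) (nat_lit 704) (nat_lit 5) (nat_lit 542) (nat_lit 530) (nat_lit 488)) (XT.lf (nat_lit 76) (nat_lit 484709561) (nat_lit 0) (nat_lit 4798302114) (nat_lit 1064) (nat_lit 1703741129) (nat_lit 691) (nat_lit 5) (nat_lit 690) (nat_lit 5) (nat_lit 704) (nat_lit 5) (nat_lit 543) (nat_lit 530) (nat_lit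 487)))) (XT.nd (nat_lit 156) (nat_lit 0) (nat_lit 76) (XT.nd (nat_lit 78) (nat_lit 0) (nat_lit 0) (XT.lf (nat_lit 0) (nat_lit 434854327) (nat_lit 1064) (nat_lit 2639830787) (nat_lit 1140) (nat_lit 3948238364) (nat_lit 676) (nat_lit 5) (nat_lit 690) (nat_lit 5) (nat_lit 691) (nat_lit 5) (nat_lit 544) (nat_lit 530) (nat_lit 486)) (XT.lf (nat_lit 76) (nat_lit 1272379690) (nat_lit 0) (nat_lit 1279800824) (nat_lit 1140) (nat_lit 4508240402) (nat_lit 677) (nat_lit 5) (nat_lit 676) (nat_lit 5) (nat_lit 691) (nat_lit 5) (nat_lit 545) (nat_lit 530) (nat_lit 485))) (XT.nd (nat_lit 78) (nat_lit 0) (nat_lit 0) (XT.lf (nat_lit 0) (nat_lit 4684618114) (nat_lit 1064) (nat_lit 1836911415) (nat_lit 1140) (nat_lit 577687422) (nat_lit 677) (nat_lit 5) (nat_lit 691) (nat_lit 5) (nat_lit 692) (nat_lit 5) (nat_lit 546) (nat_lit 530) (nat_lit 484)) (XT.lf (nat_lit 76) (nat_lit 2180499672) (nat_lit 0) (nat_lit 4654146940) (nat_lit 1140) (nat_lit 304647320) (nat_lit 678) (nat_lit 5) (nat_lit 677) (nat_lit 5) (nat_lit 692) (nat_lit 5) (nat_lit 547) (nat_lit 530)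 (nat_lit 483)))))) (XT.nd (nat_lit 546) (nat_lit 7828) (nat_lit 0) (XT.nd (nat_lit 234) (nat_lit 2584) (nat_lit 0) (XT.nd (nat_lit 78) (nat_lit 1064) (nat_lit 0) (XT.lf (nat_lit 0) (nat_lit 1788398917) (nat_lit 1140) (nat_lit 922123301) (nat_lit 1216) (nat_lit 4470111528) (nat_lit 662) (nat_lit 5) (nat_lit 677) (nat_lit 5) (nat_lit 678) (nat_lit 5) (nat_lit 548) (nat_lit 530) (nat_lit 482)) (XT.nd (nat_lit 78) (nat_lit 1064) (nat_lit 0) (XT.lf (nat_lit 76) (nat_lit 3202639951) (nat_lit 0) (nat_lit 691029231) (nat_lit 1216) (nat_lit 3329605696) (nat_lit 663) (nat_lit 5) (nat_lit 662) (nat_lit 5) (nat_lit 678) (nat_lit 5) (nat_lit 549) (nat_lit 530) (nat_lit 481)) (XT.lf (nat_lit 0) (nat_lit 114916841) (nat_lit 1140) (nat_lit 5896419876) (nat_lit 1216) (nat_lit 1256029853) (nat_lit 648) (nat_lit 5) (nat_lit 663) (nat_lit 5) (nat_lit 664) (nat_lit 5) (nat_lit 550) (nat_lit 530) (nat_lit 480)))) (XT.nd (nat_lit 156) (nat_lit 1292) (nat_lit 0) (XT.nd (nat_lit 78) (nat_lit 1216) (nat_lit 0) (XT.lf (nat_lit 0) (nat_lit 834293534) (nat_lit 1216)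 (nat_lit 2968251456) (nat_lit 76) (nat_lit 3509956151) (nat_lit 647) (nat_lit 5) (nat_lit 663) (nat_lit 5) (nat_lit 648) (nat_lit 5) (nat_lit 551) (nat_lit 530) (nat_lit 479)) (XT.lf (nat_lit 0) (nat_lit 1274896892) (nat_lit 1216) (nat_lit 1638694190) (nat_lit 1292) (nat_lit 4445504923) (nat_lit 631) (nat_lit 5) (nat_lit 647) (nat_lit 5) (nat_lit 648) (nat_lit 5) (nat_lit 552) (nat_lit 530) (nat_lit 478))) (XT.nd (nat_lit 78) (nat_lit 1292) (nat_lit 0) (XT.lf (nat_lit 0) (nat_lit 5014633138) (nat_lit 1292) (nat_lit 1800767666) (nat_lit 76) (nat_lit 591622092) (nat_lit 631) (nat_lit 5) (nat_lit 648) (nat_lit 5) (nat_lit 632) (nat_lit 5) (nat_lit 553) (nat_lit 530) (nat_lit 477)) (XT.lf (nat_lit 0) (nat_lit 2557826138) (nat_lit 1292) (nat_lit 4584601306) (nat_lit 1368) (nat_lit 313789488) (nat_lit 614) (nat_lit 5) (nat_lit 631) (nat_lit 5) (nat_lit 632) (nat_lit 5) (nat_lit 554) (nat_lit 530) (nat_lit 476))))) (XT.nd (nat_lit 312) (nat_lit 4864) (nat_lit 0) (XT.nd (nat_lit 156) (nat_lit 1520) (nat_lit 0) (XT.nd (nat_lit 78) (nat_lit 1368)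 (nat_lit 0) (XT.lf (nat_lit 0) (nat_lit 1752469601) (nat_lit 1368) (nat_lit 523508053) (nat_lit 76) (nat_lit 5230790186) (nat_lit 613) (nat_lit 5) (nat_lit 631) (nat_lit 5) (nat_lit 614) (nat_lit 5) (nat_lit 555) (nat_lit 530) (nat_lit 475)) (XT.lf (nat_lit 0) (nat_lit 3840736413) (nat_lit 1444) (nat_lit 3603575953) (nat_lit 76) (nat_lit 114281282) (nat_lit 595) (nat_lit 5) (nat_lit 614) (nat_lit 5) (nat_lit 596) (nat_lit 5) (nat_lit 556) (nat_lit 530) (nat_lit 474))) (XT.nd (nat_lit 78) (nat_lit 76) (nat_lit 0) (XT.lf (nat_lit 0) (nat_lit 881742872) (nat_lit 1444) (nat_lit 5072460767) (nat_lit 1520) (nat_lit 1657586622) (nat_lit 576) (nat_lit 5) (nat_lit 595) (nat_lit 5) (nat_lit 596) (nat_lit 5) (nat_lit 557) (nat_lit 530) (nat_lit 473)) (XT.lf (nat_lit 0) (nat_lit 421826664) (nat_lit 1520) (nat_lit 2196865237) (nat_lit 76) (nat_lit 5047628960) (nat_lit 575) (nat_lit 5) (nat_lit 595) (nat_lit 5) (nat_lit 576) (nat_lit 5) (nat_lit 558) (nat_lit 530) (nat_lit 472)))) (XT.nd (nat_lit 156) (nat_lit 3344) (nat_lit 0) (XT.nd (nat_lit 78) (nat_lit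 0) (nat_lit 0) (XT.lf (nat_lit 0) (nat_lit 2414462018) (nat_lit 1520) (nat_lit 82080809) (nat_lit 1596) (nat_lit 5225664736) (nat_lit 555) (nat_lit 5) (nat_lit 575) (nat_lit 5) (nat_lit 576) (nat_lit 5) (nat_lit 559) (nat_lit 530) (nat_lit 471)) (XT.lf (nat_lit 0) (nat_lit 4604677977) (nat_lit 1596) (nat_lit 681302143) (nat_lit 76) (nat_lit 2493396147) (nat_lit 555) (nat_lit 5) (nat_lit 576) (nat_lit 5) (nat_lit 556) (nat_lit 5) (nat_lit 560) (nat_lit 530) (nat_lit 470))) (XT.nd (nat_lit 78) (nat_lit 1748) (nat_lit 0) (XT.lf (nat_lit 0) (nat_lit 4057183871) (nat_lit 1596) (nat_lit 2686264807) (nat_lit 1672) (nat_lit 1094472920) (nat_lit 534) (nat_lit 5) (nat_lit 555) (nat_lit 5) (nat_lit 556) (nat_lit 5) (nat_lit 561) (nat_lit 530) (nat_lit 469)) (XT.lf (nat_lit 0) (nat_lit 974767587) (nat_lit 1672) (nat_lit 11919662) (nat_lit 1748) (nat_lit 6911363699) (nat_lit 511) (nat_lit 5) (nat_lit 533) (nat_lit 5) (nat_lit 534) (nat_lit 5) (nat_lit 562) (nat_lit 530) (nat_lit 468))))))) (XT.nd (nat_lit 1170) (nat_lit 7068) (nat_lit 0) (XT.nd (nat_lit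 546) (nat_lit 4484) (nat_lit 0) (XT.nd (nat_lit 234) (nat_lit 3876) (nat_lit 0) (XT.nd (nat_lit 78) (nat_lit 1748) (nat_lit 0) (XT.lf (nat_lit 0) (nat_lit 3100435091) (nat_lit 1748) (nat_lit 2141300590) (nat_lit 76) (nat_lit 2717392677) (nat_lit 511) (nat_lit 5) (nat_lit 534) (nat_lit 5) (nat_lit 512) (nat_lit 5) (nat_lit 563) (nat_lit 530) (nat_lit 467)) (XT.nd (nat_lit 78) (nat_lit 0) (nat_lit 0) (XT.lf (nat_lit 0) (nat_lit 2738822521) (nat_lit 1748) (nat_lit 2498666653) (nat_lit 1824) (nat_lit 2784320020) (nat_lit 488) (nat_lit 5) (nat_lit 511) (nat_lit 5) (nat_lit 512) (nat_lit 5) (nat_lit 564) (nat_lit 530) (nat_lit 466)) (XT.lf (nat_lit 0) (nat_lit 7397389764) (nat_lit 1824) (nat_lit 375791327) (nat_lit 76) (nat_lit 312962898) (nat_lit 488) (nat_lit 5) (nat_lit 512) (nat_lit 5) (nat_lit 489) (nat_lit 5) (nat_lit 565) (nat_lit 530) (nat_lit 465)))) (XT.nd (nat_lit 156) (nat_lit 912) (nat_lit 0) (XT.nd (nat_lit 78) (nat_lit 1064) (nat_lit 0) (XT.lf (nat_lit 0) (nat_lit 1440881156) (nat_lit 1900) (nat_lit 3520368848) (nat_lit 76) (nat_lit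 3190106543) (nat_lit 463) (nat_lit 5) (nat_lit 488) (nat_lit 5) (nat_lit 464) (nat_lit 5) (nat_lit 566) (nat_lit 530) (nat_lit 464)) (XT.lf (nat_lit 0) (nat_lit 1506898336) (nat_lit 1064) (nat_lit 2073977993) (nat_lit 1140) (nat_lit 4637368493) (nat_lit 449) (nat_lit 5) (nat_lit 463) (nat_lit 5) (nat_lit 464) (nat_lit 5) (nat_lit 567) (nat_lit 530) (nat_lit 463))) (XT.nd (nat_lit 78) (nat_lit 912) (nat_lit 0) (XT.lf (nat_lit 0) (nat_lit 5758253085) (nat_lit 1140) (nat_lit 1643330033) (nat_lit 76) (nat_lit 884998379) (nat_lit 449) (nat_lit 5) (nat_lit 464) (nat_lit 5) (nat_lit 450) (nat_lit 5) (nat_lit 568) (nat_lit 530) (nat_lit 462)) (XT.lf (nat_lit 0) (nat_lit 3525261709) (nat_lit 912) (nat_lit 4456368698) (nat_lit 988) (nat_lit 374607659) (nat_lit 437) (nat_lit 5) (nat_lit 449) (nat_lit 5) (nat_lit 450) (nat_lit 5) (nat_lit 569) (nat_lit 530) (nat_lit 461))))) (XT.nd (nat_lit 312) (nat_lit 2660) (nat_lit 0) (XT.nd (nat_lit 156) (nat_lit 836) (nat_lit 0) (XT.nd (nat_lit 78) (nat_lit 0) (nat_lit 0) (XT.lf (nat_lit 0) (nat_lit 351622824)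 (nat_lit 912) (nat_lit 1426109612) (nat_lit 988) (nat_lit 6649731983) (nat_lit 424) (nat_lit 5) (nat_lit 436) (nat_lit 5) (nat_lit 437) (nat_lit 5) (nat_lit 570) (nat_lit 530) (nat_lit 460)) (XT.lf (nat_lit 0) (nat_lit 3978059996) (nat_lit 988) (nat_lit 2843583399) (nat_lit 76) (nat_lit 1678225343) (nat_lit 424) (nat_lit 5) (nat_lit 437) (nat_lit 5) (nat_lit 425) (nat_lit 5) (nat_lit 571) (nat_lit 530) (nat_lit 459))) (XT.nd (nat_lit 78) (nat_lit 0) (nat_lit 0) (XT.lf (nat_lit 0) (nat_lit 2483137038) (nat_lit 836) (nat_lit 3731990529) (nat_lit 912) (nat_lit 2358740959) (nat_lit 413) (nat_lit 5) (nat_lit 424) (nat_lit 5) (nat_lit 425) (nat_lit 5) (nat_lit 572) (nat_lit 530) (nat_lit 458)) (XT.lf (nat_lit 0) (nat_lit 7921851242) (nat_lit 836) (nat_lit 561763013) (nat_lit 912) (nat_lit 166002511) (nat_lit 413) (nat_lit 5) (nat_lit 424) (nat_lit 5) (nat_lit 425) (nat_lit 5) (nat_lit 573) (nat_lit 530) (nat_lit 457)))) (XT.nd (nat_lit 156) (nat_lit 912) (nat_lit 0) (XT.nd (nat_lit 78) (nat_lit 836) (nat_lit 0) (XT.lf (nat_lit 0) (nat_lit 2059984584)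 (nat_lit 912) (nat_lit 3985709060) (nat_lit 76) (nat_lit 2680588387) (nat_lit 401) (nat_lit 5) (nat_lit 413) (nat_lit 5) (nat_lit 402) (nat_lit 5) (nat_lit 574) (nat_lit 530) (nat_lit 456)) (XT.lf (nat_lit 0) (nat_lit 1505377336) (nat_lit 836) (nat_lit 2809730561) (nat_lit 912) (nat_lit 4489615871) (nat_lit 390) (nat_lit 5) (nat_lit 401) (nat_lit 5) (nat_lit 402) (nat_lit 5) (nat_lit 575) (nat_lit 530) (nat_lit 455))) (XT.nd (nat_lit 78) (nat_lit 912) (nat_lit 0) (XT.lf (nat_lit 0) (nat_lit 6614263751) (nat_lit 912) (nat_lit 1760919742) (nat_lit 76) (nat_lit 509574104) (nat_lit 390) (nat_lit 5) (nat_lit 402) (nat_lit 5) (nat_lit 391) (nat_lit 5) (nat_lit 576) (nat_lit 530) (nat_lit 454)) (XT.lf (nat_lit 0) (nat_lit 6467644) (nat_lit 912) (nat_lit 5078523954) (nat_lit 76) (nat_lit 3881135892) (nat_lit 378) (nat_lit 5) (nat_lit 390) (nat_lit 5) (nat_lit 379) (nat_lit 5) (nat_lit 577) (nat_lit 530) (nat_lit 453)))))) (XT.nd (nat_lit 546) (nat_lit 4028) (nat_lit 0) (XT.nd (nat_lit 234) (nat_lit 1520) (nat_lit 0) (XT.nd (nat_lit 78) (nat_lit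 760) (nat_lit 0) (XT.lf (nat_lit 0) (nat_lit 583418936) (nat_lit 760) (nat_lit 1700474226) (nat_lit 836) (nat_lit 6765226675) (nat_lit 368) (nat_lit 5) (nat_lit 378) (nat_lit 5) (nat_lit 379) (nat_lit 5) (nat_lit 578) (nat_lit 530) (nat_lit 452)) (XT.nd (nat_lit 78) (nat_lit 760) (nat_lit 0) (XT.lf (nat_lit 0) (nat_lit 4622523607) (nat_lit 836) (nat_lit 2750808831) (nat_lit 76) (nat_lit 1760128185) (nat_lit 368) (nat_lit 5) (nat_lit 379) (nat_lit 5) (nat_lit 369) (nat_lit 5) (nat_lit 579) (nat_lit 530) (nat_lit 451)) (XT.lf (nat_lit 0) (nat_lit 3074540169) (nat_lit 760) (nat_lit 3935176271) (nat_lit 836) (nat_lit 2209737670) (nat_lit 358) (nat_lit 5) (nat_lit 368) (nat_lit 5) (nat_lit 369) (nat_lit 5) (nat_lit 580) (nat_lit 530) (nat_lit 450)))) (XT.nd (nat_lit 156) (nat_lit 760) (nat_lit 0) (XT.nd (nat_lit 78) (nat_lit 684) (nat_lit 0) (XT.lf (nat_lit 0) (nat_lit 125001317) (nat_lit 836) (nat_lit 287205771) (nat_lit 76) (nat_lit 8895157770) (nat_lit 357) (nat_lit 5) (nat_lit 368) (nat_lit 5) (nat_lit 358) (nat_lit 5) (nat_lit 581) (nat_lit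 530) (nat_lit 449)) (XT.lf (nat_lit 0) (nat_lit 2506267485) (nat_lit 760) (nat_lit 3701992368) (nat_lit 76) (nat_lit 3187895012) (nat_lit 348) (nat_lit 5) (nat_lit 358) (nat_lit 5) (nat_lit 349) (nat_lit 5) (nat_lit 582) (nat_lit 530) (nat_lit 448))) (XT.nd (nat_lit 78) (nat_lit 0) (nat_lit 0) (XT.lf (nat_lit 0) (nat_lit 2307127071) (nat_lit 760) (nat_lit 2619320364) (nat_lit 836) (nat_lit 4560449022) (nat_lit 338) (nat_lit 5) (nat_lit 348) (nat_lit 5) (nat_lit 349) (nat_lit 5) (nat_lit 583) (nat_lit 530) (nat_lit 447)) (XT.lf (nat_lit 0) (nat_lit 7398753834) (nat_lit 836) (nat_lit 1132346426) (nat_lit 76) (nat_lit 1048279689) (nat_lit 338) (nat_lit 5) (nat_lit 349) (nat_lit 5) (nat_lit 339) (nat_lit 5) (nat_lit 584) (nat_lit 530) (nat_lit 446))))) (XT.nd (nat_lit 312) (nat_lit 1976) (nat_lit 0) (XT.nd (nat_lit 156) (nat_lit 608) (nat_lit 0) (XT.nd (nat_lit 78) (nat_lit 684) (nat_lit 0) (XT.lf (nat_lit 0) (nat_lit 266360331) (nat_lit 760) (nat_lit 4622496984) (nat_lit 76) (nat_lit 4784369139) (nat_lit 328) (nat_lit 5) (nat_lit 338) (nat_lit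 5) (nat_lit 329) (nat_lit 5) (nat_lit 585) (nat_lit 530) (nat_lit 445)) (XT.lf (nat_lit 0) (nat_lit 1577639887) (nat_lit 684) (nat_lit 1146020485) (nat_lit 760) (nat_lit 7045191226) (nat_lit 319) (nat_lit 5) (nat_lit 328) (nat_lit 5) (nat_lit 329) (nat_lit 5) (nat_lit 586) (nat_lit 530) (nat_lit 444))) (XT.nd (nat_lit 78) (nat_lit 608) (nat_lit 0) (XT.lf (nat_lit 0) (nat_lit 5251622010) (nat_lit 760) (nat_lit 1951752519) (nat_lit 76) (nat_lit 2662585813) (nat_lit 319) (nat_lit 5) (nat_lit 329) (nat_lit 5) (nat_lit 320) (nat_lit 5) (nat_lit 587) (nat_lit 530) (nat_lit 443)) (XT.lf (nat_lit 0) (nat_lit 4430790836) (nat_lit 608) (nat_lit 3409184223) (nat_lit 684) (nat_lit 2124840939) (nat_lit 311) (nat_lit 5) (nat_lit 319) (nat_lit 5) (nat_lit 320) (nat_lit 5) (nat_lit 588) (nat_lit 530) (nat_lit 442)))) (XT.nd (nat_lit 156) (nat_lit 1216) (nat_lit 0) (XT.nd (nat_lit 78) (nat_lit 0) (nat_lit 0) (XT.lf (nat_lit 0) (nat_lit 404607055) (nat_lit 760) (nat_lit 9190410916) (nat_lit 76) (nat_lit 470666383) (nat_lit 301) (nat_lit 5) (nat_lit 311) (nat_lit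 5) (nat_lit 302) (nat_lit 5) (nat_lit 589) (nat_lit 530) (nat_lit 441)) (XT.lf (nat_lit 0) (nat_lit 2990060048) (nat_lit 760) (nat_lit 2749585883) (nat_lit 76) (nat_lit 4427967191) (nat_lit 301) (nat_lit 5) (nat_lit 311) (nat_lit 5) (nat_lit 302) (nat_lit 5) (nat_lit 590) (nat_lit 530) (nat_lit 440))) (XT.nd (nat_lit 78) (nat_lit 608) (nat_lit 0) (XT.lf (nat_lit 0) (nat_lit 3838400291) (nat_lit 608) (nat_lit 1788136903) (nat_lit 684) (nat_lit 4645058246) (nat_lit 293) (nat_lit 5) (nat_lit 301) (nat_lit 5) (nat_lit 302) (nat_lit 5) (nat_lit 591) (nat_lit 530) (nat_lit 439)) (XT.lf (nat_lit 0) (nat_lit 173471337) (nat_lit 608) (nat_lit 8151178680) (nat_lit 684) (nat_lit 2052830514) (nat_lit 285) (nat_lit 5) (nat_lit 293) (nat_lit 5) (nat_lit 294) (nat_lit 5) (nat_lit 592) (nat_lit 530) (nat_lit 438))))))))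
noncomputable def xc48 : XT := (XT.nd (nat_lit 77688) (nat_lit 0) (nat_lit 11096) (XT.nd (nat_lit 76518) (nat_lit 0) (nat_lit 32604) (XT.nd (nat_lit 546) (nat_lit 1596) (nat_lit 0) (XT.nd (nat_lit 234) (nat_lit 1748) (nat_lit 0) (XT.nd (nat_lit 78) (nat_lit 608) (nat_lit 0) (XT.lf (nat_lit 0) (nat_lit 613554729) (nat_lit 684) (nat_lit 3533487620) (nat_lit 76) (nat_lit 6337764060) (nat_lit 284) (nat_lit 5) (nat_lit 293) (nat_lit 5) (nat_lit 285) (nat_lit 5) (nat_lit 593) (nat_lit 530) (nat_lit 437)) (XT.nd (nat_lit 78) (nat_lit 0) (nat_lit 0) (XT.lf (nat_lit 0) (nat_lit 3267968387) (nat_lit 608) (nat_lit 34319339) (nat_lit 684) (nat_lit 7291790725) (nat_lit 276) (nat_lit 5) (nat_lit 284) (nat_lit 5) (nat_lit 285) (nat_lit 5) (nat_lit 594) (nat_lit 530) (nat_lit 436)) (XT.lf (nat_lit 0) (nat_lit 6071176010) (nat_lit 684) (nat_lit 510858204) (nat_lit 76) (nat_lit 4122975261) (nat_lit 276) (nat_lit 5) (nat_lit 285) (nat_lit 5) (nat_lit 277) (nat_lit 5) (nat_lit 595) (nat_lit 530) (nat_lit 435)))) (XT.nd (nat_lit 156) (nat_lit 532) (nat_lit 0)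 (XT.nd (nat_lit 78) (nat_lit 608) (nat_lit 0) (XT.lf (nat_lit 0) (nat_lit 6494295669) (nat_lit 608) (nat_lit 2419517654) (nat_lit 684) (nat_lit 1903979506) (nat_lit 268) (nat_lit 5) (nat_lit 276) (nat_lit 5) (nat_lit 277) (nat_lit 5) (nat_lit 596) (nat_lit 530) (nat_lit 434)) (XT.lf (nat_lit 0) (nat_lit 878058087) (nat_lit 608) (nat_lit 8232679070) (nat_lit 76) (nat_lit 1821798767) (nat_lit 260) (nat_lit 5) (nat_lit 268) (nat_lit 5) (nat_lit 261) (nat_lit 5) (nat_lit 597) (nat_lit 530) (nat_lit 433))) (XT.nd (nat_lit 78) (nat_lit 532) (nat_lit 0) (XT.lf (nat_lit 0) (nat_lit 3711799969) (nat_lit 608) (nat_lit 1187213872) (nat_lit 76) (nat_lit 6149878246) (nat_lit 260) (nat_lit 5) (nat_lit 268) (nat_lit 5) (nat_lit 261) (nat_lit 5) (nat_lit 598) (nat_lit 530) (nat_lit 432)) (XT.lf (nat_lit 0) (nat_lit 6047414965) (nat_lit 532) (nat_lit 570835762) (nat_lit 608) (nat_lit 4549005012) (nat_lit 253) (nat_lit 5) (nat_lit 260) (nat_lit 5) (nat_lit 261) (nat_lit 5) (nat_lit 599) (nat_lit 530) (nat_lit 431))))) (XT.nd (nat_lit 234) (nat_lit 456) (nat_lit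 0) (XT.nd (nat_lit 78) (nat_lit 608) (nat_lit 0) (XT.lf (nat_lit 0) (nat_lit 2126619471) (nat_lit 532) (nat_lit 7479969440) (nat_lit 608) (nat_lit 1680923611) (nat_lit 246) (nat_lit 5) (nat_lit 253) (nat_lit 5) (nat_lit 254) (nat_lit 5) (nat_lit 600) (nat_lit 530) (nat_lit 430)) (XT.nd (nat_lit 78) (nat_lit 532) (nat_lit 0) (XT.lf (nat_lit 0) (nat_lit 1243634265) (nat_lit 608) (nat_lit 1865529365) (nat_lit 76) (nat_lit 8300541453) (nat_lit 245) (nat_lit 5) (nat_lit 253) (nat_lit 5) (nat_lit 246) (nat_lit 5) (nat_lit 601) (nat_lit 530) (nat_lit 429)) (XT.lf (nat_lit 0) (nat_lit 4227145648) (nat_lit 608) (nat_lit 5935458266) (nat_lit 76) (nat_lit 1371056933) (nat_lit 238) (nat_lit 5) (nat_lit 246) (nat_lit 5) (nat_lit 239) (nat_lit 5) (nat_lit 602) (nat_lit 530) (nat_lit 428)))) (XT.nd (nat_lit 75582) (nat_lit 0) (nat_lit 37316) (XT.nd (nat_lit 78) (nat_lit 0) (nat_lit 0) (XT.lf (nat_lit 0) (nat_lit 1545307076) (nat_lit 456) (nat_lit 5745955666) (nat_lit 532) (nat_lit 4368415222) (nat_lit 232) (nat_lit 5) (nat_lit 238) (nat_lit 5) (nat_lit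 239) (nat_lit 5) (nat_lit 603) (nat_lit 530) (nat_lit 427)) (XT.lf (nat_lit 0) (nat_lit 9225409896) (nat_lit 456) (nat_lit 1209030085) (nat_lit 532) (nat_lit 1353420816) (nat_lit 232) (nat_lit 5) (nat_lit 238) (nat_lit 5) (nat_lit 239) (nat_lit 5) (nat_lit 604) (nat_lit 530) (nat_lit 426))) (XT.nd (nat_lit 78) (nat_lit 0) (nat_lit 0) (XT.lf (nat_lit 0) (nat_lit 604027981) (nat_lit 836) (nat_lit 1366019332) (nat_lit 836) (nat_lit 1366019332) (nat_lit 723) (nat_lit 3) (nat_lit 734) (nat_lit 3) (nat_lit 734) (nat_lit 5) (nat_lit 531) (nat_lit 531) (nat_lit 498)) (XT.lf (nat_lit 76) (nat_lit 590667908) (nat_lit 0) (nat_lit 2877258561) (nat_lit 836) (nat_lit 3225765873) (nat_lit 724) (nat_lit 5) (nat_lit 723) (nat_lit 3) (nat_lit 734) (nat_lit 5) (nat_lit 532) (nat_lit 531) (nat_lit 497)))))) (XT.nd (nat_lit 546) (nat_lit 3040) (nat_lit 0) (XT.nd (nat_lit 234) (nat_lit 836) (nat_lit 0) (XT.nd (nat_lit 78) (nat_lit 836) (nat_lit 0) (XT.lf (nat_lit 76) (nat_lit 3986441973) (nat_lit 0) (nat_lit 1745828580) (nat_lit 836) (nat_lit 984231915) (nat_lit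 724) (nat_lit 5) (nat_lit 723) (nat_lit 3) (nat_lit 734) (nat_lit 5) (nat_lit 533) (nat_lit 531) (nat_lit 496)) (XT.nd (nat_lit 78) (nat_lit 0) (nat_lit 76) (XT.lf (nat_lit 76) (nat_lit 680226208) (nat_lit 0) (nat_lit 550957339) (nat_lit 912) (nat_lit 5509498797) (nat_lit 713) (nat_lit 5) (nat_lit 712) (nat_lit 5) (nat_lit 724) (nat_lit 5) (nat_lit 534) (nat_lit 531) (nat_lit 495)) (XT.lf (nat_lit 0) (nat_lit 3443350596) (nat_lit 836) (nat_lit 2611958393) (nat_lit 912) (nat_lit 710599376) (nat_lit 713) (nat_lit 5) (nat_lit 724) (nat_lit 5) (nat_lit 725) (nat_lit 5) (nat_lit 535) (nat_lit 531) (nat_lit 494)))) (XT.nd (nat_lit 156) (nat_lit 0) (nat_lit 0) (XT.nd (nat_lit 78) (nat_lit 912) (nat_lit 0) (XT.lf (nat_lit 76) (nat_lit 882325557) (nat_lit 0) (nat_lit 4770766203) (nat_lit 912) (nat_lit 1139485534) (nat_lit 714) (nat_lit 5) (nat_lit 713) (nat_lit 5) (nat_lit 725) (nat_lit 5) (nat_lit 536) (nat_lit 531) (nat_lit 493)) (XT.lf (nat_lit 0) (nat_lit 1035114046) (nat_lit 912) (nat_lit 2376348143) (nat_lit 988) (nat_lit 3408938531) (nat_lit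 701) (nat_lit 5) (nat_lit 713) (nat_lit 5) (nat_lit 714) (nat_lit 5) (nat_lit 537) (nat_lit 531) (nat_lit 492))) (XT.nd (nat_lit 78) (nat_lit 0) (nat_lit 0) (XT.lf (nat_lit 76) (nat_lit 1205472890) (nat_lit 0) (nat_lit 1985886266) (nat_lit 988) (nat_lit 3658207310) (nat_lit 702) (nat_lit 5) (nat_lit 701) (nat_lit 5) (nat_lit 714) (nat_lit 5) (nat_lit 538) (nat_lit 531) (nat_lit 491)) (XT.lf (nat_lit 76) (nat_lit 4860322114) (nat_lit 0) (nat_lit 492791003) (nat_lit 988) (nat_lit 1526959352) (nat_lit 702) (nat_lit 5) (nat_lit 701) (nat_lit 5) (nat_lit 714) (nat_lit 5) (nat_lit 539) (nat_lit 531) (nat_lit 490))))) (XT.nd (nat_lit 312) (nat_lit 2128) (nat_lit 0) (XT.nd (nat_lit 156) (nat_lit 0) (nat_lit 0) (XT.nd (nat_lit 78) (nat_lit 0) (nat_lit 0) (XT.lf (nat_lit 0) (nat_lit 603297271) (nat_lit 988) (nat_lit 5255103262) (nat_lit 1064) (nat_lit 1053411138) (nat_lit 689) (nat_lit 5) (nat_lit 702) (nat_lit 5) (nat_lit 703) (nat_lit 5) (nat_lit 540) (nat_lit 531) (nat_lit 489)) (XT.lf (nat_lit 0) (nat_lit 2720749885) (nat_lit 988) (nat_lit 1555208310)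 (nat_lit 1064) (nat_lit 2668729217) (nat_lit 689) (nat_lit 5) (nat_lit 702) (nat_lit 5) (nat_lit 703) (nat_lit 5) (nat_lit 541) (nat_lit 531) (nat_lit 488))) (XT.nd (nat_lit 78) (nat_lit 0) (nat_lit 0) (XT.lf (nat_lit 76) (nat_lit 2216476843) (nat_lit 0) (nat_lit 2627593846) (nat_lit 1064) (nat_lit 2134883865) (nat_lit 690) (nat_lit 5) (nat_lit 689) (nat_lit 5) (nat_lit 703) (nat_lit 5) (nat_lit 542) (nat_lit 531) (nat_lit 487)) (XT.lf (nat_lit 76) (nat_lit 6053605540) (nat_lit 0) (nat_lit 916612686) (nat_lit 1064) (nat_lit 44485795) (nat_lit 690) (nat_lit 5) (nat_lit 689) (nat_lit 5) (nat_lit 703) (nat_lit 5) (nat_lit 543) (nat_lit 531) (nat_lit 486)))) (XT.nd (nat_lit 156) (nat_lit 1140) (nat_lit 0) (XT.nd (nat_lit 78) (nat_lit 0) (nat_lit 0) (XT.lf (nat_lit 0) (nat_lit 2035521912) (nat_lit 1064) (nat_lit 4147432549) (nat_lit 1140) (nat_lit 868443293) (nat_lit 676) (nat_lit 5) (nat_lit 690) (nat_lit 5) (nat_lit 691) (nat_lit 5) (nat_lit 544) (nat_lit 531) (nat_lit 485)) (XT.lf (nat_lit 0) (nat_lit 4120557389) (nat_lit 1064) (nat_lit 267756318)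 (nat_lit 1140) (nat_lit 2701229252) (nat_lit 676) (nat_lit 5) (nat_lit 690) (nat_lit 5) (nat_lit 691) (nat_lit 5) (nat_lit 545) (nat_lit 531) (nat_lit 484))) (XT.nd (nat_lit 78) (nat_lit 1140) (nat_lit 0) (XT.lf (nat_lit 76) (nat_lit 3706745269) (nat_lit 0) (nat_lit 2517026969) (nat_lit 1140) (nat_lit 905153126) (nat_lit 677) (nat_lit 5) (nat_lit 676) (nat_lit 5) (nat_lit 691) (nat_lit 5) (nat_lit 546) (nat_lit 531) (nat_lit 483)) (XT.lf (nat_lit 76) (nat_lit 563082096) (nat_lit 0) (nat_lit 579429457) (nat_lit 1216) (nat_lit 6027265899) (nat_lit 662) (nat_lit 5) (nat_lit 661) (nat_lit 5) (nat_lit 677) (nat_lit 5) (nat_lit 547) (nat_lit 531) (nat_lit 482))))))) (XT.nd (nat_lit 1170) (nat_lit 11780) (nat_lit 0) (XT.nd (nat_lit 546) (nat_lit 6080) (nat_lit 0) (XT.nd (nat_lit 234) (nat_lit 2508) (nat_lit 0) (XT.nd (nat_lit 78) (nat_lit 1216) (nat_lit 0) (XT.lf (nat_lit 0) (nat_lit 3204852154) (nat_lit 1140) (nat_lit 2584392207) (nat_lit 1216) (nat_lit 1422369351) (nat_lit 662) (nat_lit 5) (nat_lit 677) (nat_lit 5) (nat_lit 678) (nat_lit 5) (nat_lit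 548) (nat_lit 531) (nat_lit 481)) (XT.nd (nat_lit 78) (nat_lit 1216) (nat_lit 0) (XT.lf (nat_lit 76) (nat_lit 1502234750) (nat_lit 0) (nat_lit 3774349382) (nat_lit 1216) (nat_lit 1978343249) (nat_lit 663) (nat_lit 5) (nat_lit 662) (nat_lit 5) (nat_lit 678) (nat_lit 5) (nat_lit 549) (nat_lit 531) (nat_lit 480)) (XT.lf (nat_lit 0) (nat_lit 61850781) (nat_lit 1216) (nat_lit 1626216364) (nat_lit 1292) (nat_lit 5611583918) (nat_lit 646) (nat_lit 5) (nat_lit 662) (nat_lit 5) (nat_lit 663) (nat_lit 5) (nat_lit 550) (nat_lit 531) (nat_lit 479)))) (XT.nd (nat_lit 156) (nat_lit 2584) (nat_lit 0) (XT.nd (nat_lit 78) (nat_lit 0) (nat_lit 0) (XT.lf (nat_lit 0) (nat_lit 2092037126) (nat_lit 1216) (nat_lit 4777022880) (nat_lit 76) (nat_lit 476437475) (nat_lit 647) (nat_lit 5) (nat_lit 663) (nat_lit 5) (nat_lit 648) (nat_lit 5) (nat_lit 551) (nat_lit 531) (nat_lit 478)) (XT.lf (nat_lit 0) (nat_lit 4141552992) (nat_lit 1216) (nat_lit 566677500) (nat_lit 76) (nat_lit 2684459121) (nat_lit 647) (nat_lit 5) (nat_lit 663) (nat_lit 5) (nat_lit 648) (nat_lit 5)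 (nat_lit 552) (nat_lit 531) (nat_lit 477))) (XT.nd (nat_lit 78) (nat_lit 1368) (nat_lit 0) (XT.lf (nat_lit 0) (nat_lit 3745143427) (nat_lit 1216) (nat_lit 2468644941) (nat_lit 1292) (nat_lit 1227405870) (nat_lit 631) (nat_lit 5) (nat_lit 647) (nat_lit 5) (nat_lit 648) (nat_lit 5) (nat_lit 553) (nat_lit 531) (nat_lit 476)) (XT.lf (nat_lit 0) (nat_lit 630900983) (nat_lit 1292) (nat_lit 160609703) (nat_lit 1368) (nat_lit 6699739002) (nat_lit 613) (nat_lit 5) (nat_lit 630) (nat_lit 5) (nat_lit 631) (nat_lit 5) (nat_lit 554) (nat_lit 531) (nat_lit 475))))) (XT.nd (nat_lit 312) (nat_lit 3192) (nat_lit 0) (XT.nd (nat_lit 156) (nat_lit 1520) (nat_lit 0) (XT.nd (nat_lit 78) (nat_lit 1368) (nat_lit 0) (XT.lf (nat_lit 0) (nat_lit 2832039718) (nat_lit 1368) (nat_lit 2502742939) (nat_lit 76) (nat_lit 2207410994) (nat_lit 613) (nat_lit 5) (nat_lit 631) (nat_lit 5) (nat_lit 614) (nat_lit 5) (nat_lit 555) (nat_lit 531) (nat_lit 474)) (XT.lf (nat_lit 0) (nat_lit 1934071396) (nat_lit 1368) (nat_lit 2952188481) (nat_lit 1444) (nat_lit 2708441996) (nat_lit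 595) (nat_lit 5) (nat_lit 613) (nat_lit 5) (nat_lit 614) (nat_lit 5) (nat_lit 556) (nat_lit 531) (nat_lit 473))) (XT.nd (nat_lit 78) (nat_lit 1520) (nat_lit 0) (XT.lf (nat_lit 0) (nat_lit 6461513902) (nat_lit 1368) (nat_lit 496695742) (nat_lit 1444) (nat_lit 690520642) (nat_lit 595) (nat_lit 5) (nat_lit 613) (nat_lit 5) (nat_lit 614) (nat_lit 5) (nat_lit 557) (nat_lit 531) (nat_lit 472)) (XT.lf (nat_lit 0) (nat_lit 1345425458) (nat_lit 1520) (nat_lit 4338139675) (nat_lit 76) (nat_lit 2020187250) (nat_lit 575) (nat_lit 5) (nat_lit 595) (nat_lit 5) (nat_lit 576) (nat_lit 5) (nat_lit 558) (nat_lit 531) (nat_lit 471)))) (XT.nd (nat_lit 156) (nat_lit 1672) (nat_lit 0) (XT.nd (nat_lit 78) (nat_lit 0) (nat_lit 0) (XT.lf (nat_lit 0) (nat_lit 228400090) (nat_lit 1520) (nat_lit 3158237674) (nat_lit 1596) (nat_lit 4373672766) (nat_lit 555) (nat_lit 5) (nat_lit 575) (nat_lit 5) (nat_lit 576) (nat_lit 5) (nat_lit 559) (nat_lit 531) (nat_lit 470)) (XT.lf (nat_lit 0) (nat_lit 4912733336) (nat_lit 1520) (nat_lit 546599847) (nat_lit 1596) (nat_lit 2358856188)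 (nat_lit 555) (nat_lit 5) (nat_lit 575) (nat_lit 5) (nat_lit 576) (nat_lit 5) (nat_lit 560) (nat_lit 531) (nat_lit 469))) (XT.nd (nat_lit 78) (nat_lit 76) (nat_lit 0) (XT.lf (nat_lit 0) (nat_lit 1790763615) (nat_lit 1596) (nat_lit 5770432974) (nat_lit 1672) (nat_lit 316277573) (nat_lit 534) (nat_lit 5) (nat_lit 555) (nat_lit 5) (nat_lit 556) (nat_lit 5) (nat_lit 561) (nat_lit 531) (nat_lit 468)) (XT.lf (nat_lit 0) (nat_lit 1729843051) (nat_lit 1672) (nat_lit 1365274106) (nat_lit 76) (nat_lit 4842883234) (nat_lit 533) (nat_lit 5) (nat_lit 555) (nat_lit 5) (nat_lit 534) (nat_lit 5) (nat_lit 562) (nat_lit 531) (nat_lit 467)))))) (XT.nd (nat_lit 546) (nat_lit 4408) (nat_lit 0) (XT.nd (nat_lit 234) (nat_lit 3952) (nat_lit 0) (XT.nd (nat_lit 78) (nat_lit 1748) (nat_lit 0) (XT.lf (nat_lit 0) (nat_lit 3461752162) (nat_lit 1672) (nat_lit 336732682) (nat_lit 1748) (nat_lit 4201496317) (nat_lit 511) (nat_lit 5) (nat_lit 533) (nat_lit 5) (nat_lit 534) (nat_lit 5) (nat_lit 563) (nat_lit 531) (nat_lit 466)) (XT.nd (nat_lit 78) (nat_lit 0) (nat_lit 0)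 (XT.lf (nat_lit 0) (nat_lit 295858918) (nat_lit 1748) (nat_lit 5603757253) (nat_lit 1824) (nat_lit 2163765494) (nat_lit 488) (nat_lit 5) (nat_lit 511) (nat_lit 5) (nat_lit 512) (nat_lit 5) (nat_lit 564) (nat_lit 531) (nat_lit 465)) (XT.lf (nat_lit 0) (nat_lit 5253414083) (nat_lit 1748) (nat_lit 2786414710) (nat_lit 1824) (nat_lit 88282618) (nat_lit 488) (nat_lit 5) (nat_lit 511) (nat_lit 5) (nat_lit 512) (nat_lit 5) (nat_lit 565) (nat_lit 531) (nat_lit 464)))) (XT.nd (nat_lit 156) (nat_lit 2052) (nat_lit 0) (XT.nd (nat_lit 78) (nat_lit 0) (nat_lit 0) (XT.lf (nat_lit 0) (nat_lit 1981341449) (nat_lit 1900) (nat_lit 6097043235) (nat_lit 76) (nat_lit 115905176) (nat_lit 463) (nat_lit 5) (nat_lit 488) (nat_lit 5) (nat_lit 464) (nat_lit 5) (nat_lit 566) (nat_lit 531) (nat_lit 463)) (XT.lf (nat_lit 0) (nat_lit 4094400171) (nat_lit 1900) (nat_lit 1105778981) (nat_lit 76) (nat_lit 3061538834) (nat_lit 463) (nat_lit 5) (nat_lit 488) (nat_lit 5) (nat_lit 464) (nat_lit 5) (nat_lit 567) (nat_lit 531) (nat_lit 462))) (XT.nd (nat_lit 78) (nat_lit 988)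 (nat_lit 0) (XT.lf (nat_lit 0) (nat_lit 4005684880) (nat_lit 1064) (nat_lit 2236073738) (nat_lit 1140) (nat_lit 2088897508) (nat_lit 449) (nat_lit 5) (nat_lit 463) (nat_lit 5) (nat_lit 464) (nat_lit 5) (nat_lit 568) (nat_lit 531) (nat_lit 461)) (XT.lf (nat_lit 0) (nat_lit 14893628) (nat_lit 988) (nat_lit 7595062047) (nat_lit 76) (nat_lit 791331249) (nat_lit 436) (nat_lit 5) (nat_lit 449) (nat_lit 5) (nat_lit 437) (nat_lit 5) (nat_lit 569) (nat_lit 531) (nat_lit 460))))) (XT.nd (nat_lit 312) (nat_lit 2584) (nat_lit 0) (XT.nd (nat_lit 156) (nat_lit 912) (nat_lit 0) (XT.nd (nat_lit 78) (nat_lit 912) (nat_lit 0) (XT.lf (nat_lit 0) (nat_lit 2143565003) (nat_lit 988) (nat_lit 2435774734) (nat_lit 76) (nat_lit 3893501047) (nat_lit 436) (nat_lit 5) (nat_lit 449) (nat_lit 5) (nat_lit 437) (nat_lit 5) (nat_lit 570) (nat_lit 531) (nat_lit 459)) (XT.lf (nat_lit 0) (nat_lit 2831618347) (nat_lit 912) (nat_lit 1468953784) (nat_lit 988) (nat_lit 4245540396) (nat_lit 424) (nat_lit 5) (nat_lit 436) (nat_lit 5) (nat_lit 437) (nat_lit 5) (nat_lit 571) (nat_lit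 531) (nat_lit 458))) (XT.nd (nat_lit 78) (nat_lit 912) (nat_lit 0) (XT.lf (nat_lit 0) (nat_lit 6496044782) (nat_lit 988) (nat_lit 426967581) (nat_lit 76) (nat_lit 1697932846) (nat_lit 424) (nat_lit 5) (nat_lit 437) (nat_lit 5) (nat_lit 425) (nat_lit 5) (nat_lit 572) (nat_lit 531) (nat_lit 457)) (XT.lf (nat_lit 0) (nat_lit 48288466) (nat_lit 912) (nat_lit 3707368516) (nat_lit 76) (nat_lit 4941401813) (nat_lit 412) (nat_lit 5) (nat_lit 424) (nat_lit 5) (nat_lit 413) (nat_lit 5) (nat_lit 573) (nat_lit 531) (nat_lit 456)))) (XT.nd (nat_lit 156) (nat_lit 1748) (nat_lit 0) (XT.nd (nat_lit 78) (nat_lit 0) (nat_lit 0) (XT.lf (nat_lit 0) (nat_lit 1722106212) (nat_lit 836) (nat_lit 497120258) (nat_lit 912) (nat_lit 6555534412) (nat_lit 401) (nat_lit 5) (nat_lit 412) (nat_lit 5) (nat_lit 413) (nat_lit 5) (nat_lit 574) (nat_lit 531) (nat_lit 455)) (XT.lf (nat_lit 0) (nat_lit 4446024491) (nat_lit 912) (nat_lit 1594233390) (nat_lit 76) (nat_lit 2813512163) (nat_lit 401) (nat_lit 5) (nat_lit 413) (nat_lit 5) (nat_lit 402) (nat_lit 5) (nat_lit 575) (nat_lit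 531) (nat_lit 454))) (XT.nd (nat_lit 78) (nat_lit 912) (nat_lit 0) (XT.lf (nat_lit 0) (nat_lit 3990416906) (nat_lit 836) (nat_lit 2725795152) (nat_lit 912) (nat_lit 2218172083) (nat_lit 390) (nat_lit 5) (nat_lit 401) (nat_lit 5) (nat_lit 402) (nat_lit 5) (nat_lit 576) (nat_lit 531) (nat_lit 453)) (XT.lf (nat_lit 0) (nat_lit 4283859) (nat_lit 912) (nat_lit 8352855172) (nat_lit 76) (nat_lit 659685463) (nat_lit 378) (nat_lit 5) (nat_lit 390) (nat_lit 5) (nat_lit 379) (nat_lit 5) (nat_lit 577) (nat_lit 531) (nat_lit 452))))))))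
noncomputable def xc49 : XT := (XT.nd (nat_lit 77922) (nat_lit 0) (nat_lit 18924) (XT.nd (nat_lit 1170) (nat_lit 4180) (nat_lit 0) (XT.nd (nat_lit 546) (nat_lit 3420) (nat_lit 0) (XT.nd (nat_lit 234) (nat_lit 2280) (nat_lit 0) (XT.nd (nat_lit 78) (nat_lit 760) (nat_lit 0) (XT.lf (nat_lit 0) (nat_lit 2263174491) (nat_lit 912) (nat_lit 2714675668) (nat_lit 76) (nat_lit 4122338232) (nat_lit 378) (nat_lit 5) (nat_lit 390) (nat_lit 5) (nat_lit 379) (nat_lit 5) (nat_lit 578) (nat_lit 531) (nat_lit 451)) (XT.nd (nat_lit 78) (nat_lit 0) (nat_lit 0) (XT.lf (nat_lit 0) (nat_lit 3044286219) (nat_lit 760) (nat_lit 1513517506) (nat_lit 836) (nat_lit 4627606306) (nat_lit 368) (nat_lit 5) (nat_lit 378) (nat_lit 5) (nat_lit 379) (nat_lit 5) (nat_lit 579) (nat_lit 531) (nat_lit 450)) (XT.lf (nat_lit 0) (nat_lit 6900922470) (nat_lit 836) (nat_lit 362240255) (nat_lit 76) (nat_lit 2009123095) (nat_lit 368) (nat_lit 5) (nat_lit 379) (nat_lit 5) (nat_lit 369) (nat_lit 5) (nat_lit 580) (nat_lit 531) (nat_lit 449)))) (XT.nd (nat_lit 156) (nat_lit 760) (nat_lit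 0) (XT.nd (nat_lit 78) (nat_lit 760) (nat_lit 0) (XT.lf (nat_lit 0) (nat_lit 5563539510) (nat_lit 760) (nat_lit 3745218914) (nat_lit 836) (nat_lit 51785221) (nat_lit 358) (nat_lit 5) (nat_lit 368) (nat_lit 5) (nat_lit 369) (nat_lit 5) (nat_lit 581) (nat_lit 531) (nat_lit 448)) (XT.lf (nat_lit 0) (nat_lit 2143505996) (nat_lit 684) (nat_lit 128565003) (nat_lit 760) (nat_lit 7178431928) (nat_lit 348) (nat_lit 5) (nat_lit 357) (nat_lit 5) (nat_lit 358) (nat_lit 5) (nat_lit 582) (nat_lit 531) (nat_lit 447))) (XT.nd (nat_lit 78) (nat_lit 760) (nat_lit 0) (XT.lf (nat_lit 0) (nat_lit 4662672090) (nat_lit 760) (nat_lit 1343199936) (nat_lit 76) (nat_lit 3535964826) (nat_lit 348) (nat_lit 5) (nat_lit 358) (nat_lit 5) (nat_lit 349) (nat_lit 5) (nat_lit 583) (nat_lit 531) (nat_lit 446)) (XT.lf (nat_lit 0) (nat_lit 4770096415) (nat_lit 760) (nat_lit 2335551274) (nat_lit 836) (nat_lit 2529260012) (nat_lit 338) (nat_lit 5) (nat_lit 348) (nat_lit 5) (nat_lit 349) (nat_lit 5) (nat_lit 584) (nat_lit 531) (nat_lit 445))))) (XT.nd (nat_lit 312) (nat_lit 1368)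 (nat_lit 0) (XT.nd (nat_lit 156) (nat_lit 1292) (nat_lit 0) (XT.nd (nat_lit 78) (nat_lit 76) (nat_lit 0) (XT.lf (nat_lit 0) (nat_lit 1269867999) (nat_lit 684) (nat_lit 8327119315) (nat_lit 760) (nat_lit 132864028) (nat_lit 329) (nat_lit 5) (nat_lit 338) (nat_lit 5) (nat_lit 339) (nat_lit 5) (nat_lit 585) (nat_lit 531) (nat_lit 444)) (XT.lf (nat_lit 0) (nat_lit 2302662850) (nat_lit 760) (nat_lit 2295486262) (nat_lit 76) (nat_lit 5227815638) (nat_lit 328) (nat_lit 5) (nat_lit 338) (nat_lit 5) (nat_lit 329) (nat_lit 5) (nat_lit 586) (nat_lit 531) (nat_lit 443))) (XT.nd (nat_lit 78) (nat_lit 608) (nat_lit 0) (XT.lf (nat_lit 0) (nat_lit 4012735842) (nat_lit 684) (nat_lit 772155401) (nat_lit 760) (nat_lit 5139097600) (nat_lit 319) (nat_lit 5) (nat_lit 328) (nat_lit 5) (nat_lit 329) (nat_lit 5) (nat_lit 587) (nat_lit 531) (nat_lit 442)) (XT.lf (nat_lit 0) (nat_lit 407902089) (nat_lit 608) (nat_lit 6921335886) (nat_lit 684) (nat_lit 2694487321) (nat_lit 311) (nat_lit 5) (nat_lit 319) (nat_lit 5) (nat_lit 320) (nat_lit 5) (nat_lit 588) (nat_lit 531)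 (nat_lit 441)))) (XT.nd (nat_lit 156) (nat_lit 608) (nat_lit 0) (XT.nd (nat_lit 78) (nat_lit 760) (nat_lit 0) (XT.lf (nat_lit 0) (nat_lit 6897000946) (nat_lit 608) (nat_lit 3046519509) (nat_lit 684) (nat_lit 181556375) (nat_lit 311) (nat_lit 5) (nat_lit 319) (nat_lit 5) (nat_lit 320) (nat_lit 5) (nat_lit 589) (nat_lit 531) (nat_lit 440)) (XT.lf (nat_lit 0) (nat_lit 2352443341) (nat_lit 760) (nat_lit 6950392340) (nat_lit 76) (nat_lit 925270813) (nat_lit 301) (nat_lit 5) (nat_lit 311) (nat_lit 5) (nat_lit 302) (nat_lit 5) (nat_lit 590) (nat_lit 531) (nat_lit 439))) (XT.nd (nat_lit 78) (nat_lit 608) (nat_lit 0) (XT.lf (nat_lit 0) (nat_lit 4951571194) (nat_lit 760) (nat_lit 428276821) (nat_lit 76) (nat_lit 4952988400) (nat_lit 301) (nat_lit 5) (nat_lit 311) (nat_lit 5) (nat_lit 302) (nat_lit 5) (nat_lit 591) (nat_lit 531) (nat_lit 438)) (XT.lf (nat_lit 0) (nat_lit 6275835519) (nat_lit 608) (nat_lit 1342980951) (nat_lit 684) (nat_lit 2820522996) (nat_lit 293) (nat_lit 5) (nat_lit 301) (nat_lit 5) (nat_lit 302) (nat_lit 5) (nat_lit 592) (nat_lit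 531) (nat_lit 437)))))) (XT.nd (nat_lit 546) (nat_lit 1140) (nat_lit 0) (XT.nd (nat_lit 234) (nat_lit 1748) (nat_lit 0) (XT.nd (nat_lit 78) (nat_lit 684) (nat_lit 0) (XT.lf (nat_lit 0) (nat_lit 2556415315) (nat_lit 608) (nat_lit 7796128766) (nat_lit 684) (nat_lit 195166949) (nat_lit 285) (nat_lit 5) (nat_lit 293) (nat_lit 5) (nat_lit 294) (nat_lit 5) (nat_lit 593) (nat_lit 531) (nat_lit 436)) (XT.nd (nat_lit 78) (nat_lit 608) (nat_lit 0) (XT.lf (nat_lit 0) (nat_lit 2462902411) (nat_lit 684) (nat_lit 1246837851) (nat_lit 76) (nat_lit 6947933191) (nat_lit 284) (nat_lit 5) (nat_lit 293) (nat_lit 5) (nat_lit 285) (nat_lit 5) (nat_lit 594) (nat_lit 531) (nat_lit 435)) (XT.lf (nat_lit 0) (nat_lit 5187778491) (nat_lit 684) (nat_lit 5097595331) (nat_lit 76) (nat_lit 484111461) (nat_lit 276) (nat_lit 5) (nat_lit 285) (nat_lit 5) (nat_lit 277) (nat_lit 5) (nat_lit 595) (nat_lit 531) (nat_lit 434)))) (XT.nd (nat_lit 156) (nat_lit 1140) (nat_lit 0) (XT.nd (nat_lit 78) (nat_lit 0) (nat_lit 0) (XT.lf (nat_lit 0) (nat_lit 1831185719) (nat_lit 608) (nat_lit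 6157295525) (nat_lit 684) (nat_lit 2894626634) (nat_lit 268) (nat_lit 5) (nat_lit 276) (nat_lit 5) (nat_lit 277) (nat_lit 5) (nat_lit 596) (nat_lit 531) (nat_lit 433)) (XT.lf (nat_lit 0) (nat_lit 8937108941) (nat_lit 608) (nat_lit 1919009904) (nat_lit 684) (nat_lit 142666751) (nat_lit 268) (nat_lit 5) (nat_lit 276) (nat_lit 5) (nat_lit 277) (nat_lit 5) (nat_lit 597) (nat_lit 531) (nat_lit 432))) (XT.nd (nat_lit 78) (nat_lit 532) (nat_lit 0) (XT.lf (nat_lit 0) (nat_lit 2655333360) (nat_lit 608) (nat_lit 6044566874) (nat_lit 76) (nat_lit 2416012827) (nat_lit 260) (nat_lit 5) (nat_lit 268) (nat_lit 5) (nat_lit 261) (nat_lit 5) (nat_lit 598) (nat_lit 531) (nat_lit 431)) (XT.lf (nat_lit 0) (nat_lit 1110235908) (nat_lit 532) (nat_lit 4408218361) (nat_lit 608) (nat_lit 5716689549) (nat_lit 253) (nat_lit 5) (nat_lit 260) (nat_lit 5) (nat_lit 261) (nat_lit 5) (nat_lit 599) (nat_lit 531) (nat_lit 430))))) (XT.nd (nat_lit 75894) (nat_lit 0) (nat_lit 36024) (XT.nd (nat_lit 156) (nat_lit 532) (nat_lit 0) (XT.nd (nat_lit 78) (nat_lit 608) (nat_lit 0)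 (XT.lf (nat_lit 0) (nat_lit 8456894798) (nat_lit 608) (nat_lit 2896597399) (nat_lit 76) (nat_lit 2906856) (nat_lit 253) (nat_lit 5) (nat_lit 261) (nat_lit 5) (nat_lit 254) (nat_lit 5) (nat_lit 600) (nat_lit 531) (nat_lit 429)) (XT.lf (nat_lit 0) (nat_lit 10724932) (nat_lit 608) (nat_lit 7003692223) (nat_lit 76) (nat_lit 4464939387) (nat_lit 245) (nat_lit 5) (nat_lit 253) (nat_lit 5) (nat_lit 246) (nat_lit 5) (nat_lit 601) (nat_lit 531) (nat_lit 428))) (XT.nd (nat_lit 78) (nat_lit 0) (nat_lit 0) (XT.lf (nat_lit 0) (nat_lit 385834796) (nat_lit 532) (nat_lit 2554569885) (nat_lit 608) (nat_lit 8663984725) (nat_lit 238) (nat_lit 5) (nat_lit 245) (nat_lit 5) (nat_lit 246) (nat_lit 5) (nat_lit 602) (nat_lit 531) (nat_lit 427)) (XT.lf (nat_lit 0) (nat_lit 5967084488) (nat_lit 608) (nat_lit 3756485851) (nat_lit 76) (nat_lit 2007585391) (nat_lit 238) (nat_lit 5) (nat_lit 246) (nat_lit 5) (nat_lit 239) (nat_lit 5) (nat_lit 603) (nat_lit 531) (nat_lit 426)))) (XT.nd (nat_lit 156) (nat_lit 0) (nat_lit 0) (XT.nd (nat_lit 78) (nat_lit 836) (nat_lit 0)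 (XT.lf (nat_lit 0) (nat_lit 2845494237) (nat_lit 836) (nat_lit 256250442) (nat_lit 836) (nat_lit 256250442) (nat_lit 723) (nat_lit 3) (nat_lit 734) (nat_lit 3) (nat_lit 734) (nat_lit 5) (nat_lit 532) (nat_lit 532) (nat_lit 496)) (XT.lf (nat_lit 0) (nat_lit 1168327683) (nat_lit 836) (nat_lit 3885431943) (nat_lit 912) (nat_lit 1685530341) (nat_lit 712) (nat_lit 5) (nat_lit 723) (nat_lit 3) (nat_lit 724) (nat_lit 5) (nat_lit 533) (nat_lit 532) (nat_lit 495))) (XT.nd (nat_lit 78) (nat_lit 0) (nat_lit 0) (XT.lf (nat_lit 0) (nat_lit 3338128662) (nat_lit 836) (nat_lit 505309993) (nat_lit 912) (nat_lit 2920560031) (nat_lit 712) (nat_lit 5) (nat_lit 723) (nat_lit 3) (nat_lit 724) (nat_lit 5) (nat_lit 534) (nat_lit 532) (nat_lit 494)) (XT.lf (nat_lit 76) (nat_lit 2951711500) (nat_lit 0) (nat_lit 2562754075) (nat_lit 912) (nat_lit 1275478211) (nat_lit 713) (nat_lit 5) (nat_lit 712) (nat_lit 5) (nat_lit 724) (nat_lit 5) (nat_lit 535) (nat_lit 532) (nat_lit 493))))))) (XT.nd (nat_lit 1170) (nat_lit 12084) (nat_lit 0) (XT.nd (nat_lit 546) (nat_lit 3192)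 (nat_lit 0) (XT.nd (nat_lit 234) (nat_lit 912) (nat_lit 0) (XT.nd (nat_lit 78) (nat_lit 0) (nat_lit 76) (XT.lf (nat_lit 0) (nat_lit 853810479) (nat_lit 912) (nat_lit 367562933) (nat_lit 988) (nat_lit 5595961436) (nat_lit 700) (nat_lit 5) (nat_lit 712) (nat_lit 5) (nat_lit 713) (nat_lit 5) (nat_lit 536) (nat_lit 532) (nat_lit 492)) (XT.nd (nat_lit 78) (nat_lit 0) (nat_lit 0) (XT.lf (nat_lit 0) (nat_lit 2976155927) (nat_lit 912) (nat_lit 3670738180) (nat_lit 988) (nat_lit 198864727) (nat_lit 701) (nat_lit 5) (nat_lit 713) (nat_lit 5) (nat_lit 714) (nat_lit 5) (nat_lit 537) (nat_lit 532) (nat_lit 491)) (XT.lf (nat_lit 0) (nat_lit 5098157232) (nat_lit 912) (nat_lit 119784586) (nat_lit 988) (nat_lit 1657669926) (nat_lit 701) (nat_lit 5) (nat_lit 713) (nat_lit 5) (nat_lit 714) (nat_lit 5) (nat_lit 538) (nat_lit 532) (nat_lit 490)))) (XT.nd (nat_lit 156) (nat_lit 0) (nat_lit 0) (XT.nd (nat_lit 78) (nat_lit 0) (nat_lit 0) (XT.lf (nat_lit 0) (nat_lit 322189516) (nat_lit 988) (nat_lit 3390260967) (nat_lit 1064) (nat_lit 3194162800) (nat_lit 688) (nat_lit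 5) (nat_lit 701) (nat_lit 5) (nat_lit 702) (nat_lit 5) (nat_lit 539) (nat_lit 532) (nat_lit 489)) (XT.lf (nat_lit 76) (nat_lit 249799926) (nat_lit 0) (nat_lit 2140851612) (nat_lit 1064) (nat_lit 4548340188) (nat_lit 689) (nat_lit 5) (nat_lit 688) (nat_lit 5) (nat_lit 702) (nat_lit 5) (nat_lit 540) (nat_lit 532) (nat_lit 488))) (XT.nd (nat_lit 78) (nat_lit 0) (nat_lit 76) (XT.lf (nat_lit 76) (nat_lit 3978500778) (nat_lit 0) (nat_lit 493725126) (nat_lit 1064) (nat_lit 2500361240) (nat_lit 689) (nat_lit 5) (nat_lit 688) (nat_lit 5) (nat_lit 702) (nat_lit 5) (nat_lit 541) (nat_lit 532) (nat_lit 487)) (XT.lf (nat_lit 76) (nat_lit 746343155) (nat_lit 0) (nat_lit 5811762676) (nat_lit 1064) (nat_lit 449499348) (nat_lit 690) (nat_lit 5) (nat_lit 689) (nat_lit 5) (nat_lit 703) (nat_lit 5) (nat_lit 542) (nat_lit 532) (nat_lit 486))))) (XT.nd (nat_lit 312) (nat_lit 1140) (nat_lit 0) (XT.nd (nat_lit 156) (nat_lit 1064) (nat_lit 0) (XT.nd (nat_lit 78) (nat_lit 0) (nat_lit 0) (XT.lf (nat_lit 0) (nat_lit 1594911086) (nat_lit 1064) (nat_lit 2485944027) (nat_lit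 1140) (nat_lit 2962777787) (nat_lit 675) (nat_lit 5) (nat_lit 689) (nat_lit 5) (nat_lit 690) (nat_lit 5) (nat_lit 543) (nat_lit 532) (nat_lit 485)) (XT.lf (nat_lit 76) (nat_lit 1349084241) (nat_lit 0) (nat_lit 2285417304) (nat_lit 1140) (nat_lit 3446617940) (nat_lit 676) (nat_lit 5) (nat_lit 675) (nat_lit 5) (nat_lit 690) (nat_lit 5) (nat_lit 544) (nat_lit 532) (nat_lit 484))) (XT.nd (nat_lit 78) (nat_lit 1064) (nat_lit 0) (XT.lf (nat_lit 76) (nat_lit 5264198690) (nat_lit 0) (nat_lit 419666231) (nat_lit 1140) (nat_lit 1436115128) (nat_lit 676) (nat_lit 5) (nat_lit 675) (nat_lit 5) (nat_lit 690) (nat_lit 5) (nat_lit 545) (nat_lit 532) (nat_lit 483)) (XT.lf (nat_lit 0) (nat_lit 582891057) (nat_lit 1140) (nat_lit 5078982815) (nat_lit 1216) (nat_lit 1498140783) (nat_lit 661) (nat_lit 5) (nat_lit 676) (nat_lit 5) (nat_lit 677) (nat_lit 5) (nat_lit 546) (nat_lit 532) (nat_lit 482)))) (XT.nd (nat_lit 156) (nat_lit 1140) (nat_lit 0) (XT.nd (nat_lit 78) (nat_lit 0) (nat_lit 0) (XT.lf (nat_lit 0) (nat_lit 2592134314) (nat_lit 1140) (nat_lit 1122419661)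 (nat_lit 1216) (nat_lit 3486728038) (nat_lit 661) (nat_lit 5) (nat_lit 676) (nat_lit 5) (nat_lit 677) (nat_lit 5) (nat_lit 547) (nat_lit 532) (nat_lit 481)) (XT.lf (nat_lit 76) (nat_lit 2921012529) (nat_lit 0) (nat_lit 1694175417) (nat_lit 1216) (nat_lit 2628717837) (nat_lit 662) (nat_lit 5) (nat_lit 661) (nat_lit 5) (nat_lit 677) (nat_lit 5) (nat_lit 548) (nat_lit 532) (nat_lit 480))) (XT.nd (nat_lit 78) (nat_lit 1216) (nat_lit 0) (XT.lf (nat_lit 0) (nat_lit 6644109720) (nat_lit 1140) (nat_lit 260493346) (nat_lit 1216) (nat_lit 383474323) (nat_lit 662) (nat_lit 5) (nat_lit 677) (nat_lit 5) (nat_lit 678) (nat_lit 5) (nat_lit 549) (nat_lit 532) (nat_lit 479)) (XT.lf (nat_lit 0) (nat_lit 1355130480) (nat_lit 1216) (nat_lit 3449957721) (nat_lit 1292) (nat_lit 2528013170) (nat_lit 646) (nat_lit 5) (nat_lit 662) (nat_lit 5) (nat_lit 663) (nat_lit 5) (nat_lit 550) (nat_lit 532) (nat_lit 478)))))) (XT.nd (nat_lit 546) (nat_lit 8132) (nat_lit 0) (XT.nd (nat_lit 234) (nat_lit 2812) (nat_lit 0) (XT.nd (nat_lit 78) (nat_lit 1140) (nat_lit 0) (XT.lf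 (nat_lit 76) (nat_lit 708082359) (nat_lit 0) (nat_lit 2640558995) (nat_lit 1292) (nat_lit 4031041580) (nat_lit 647) (nat_lit 5) (nat_lit 646) (nat_lit 5) (nat_lit 663) (nat_lit 5) (nat_lit 551) (nat_lit 532) (nat_lit 477)) (XT.nd (nat_lit 78) (nat_lit 1140) (nat_lit 0) (XT.lf (nat_lit 76) (nat_lit 4965131497) (nat_lit 0) (nat_lit 397378954) (nat_lit 1292) (nat_lit 2065079151) (nat_lit 647) (nat_lit 5) (nat_lit 646) (nat_lit 5) (nat_lit 663) (nat_lit 5) (nat_lit 552) (nat_lit 532) (nat_lit 476)) (XT.lf (nat_lit 0) (nat_lit 1811119838) (nat_lit 1216) (nat_lit 5587819808) (nat_lit 1292) (nat_lit 77872277) (nat_lit 631) (nat_lit 5) (nat_lit 647) (nat_lit 5) (nat_lit 648) (nat_lit 5) (nat_lit 553) (nat_lit 532) (nat_lit 475)))) (XT.nd (nat_lit 156) (nat_lit 1444) (nat_lit 0) (XT.nd (nat_lit 78) (nat_lit 1292) (nat_lit 0) (XT.lf (nat_lit 0) (nat_lit 1901371737) (nat_lit 1292) (nat_lit 1370108415) (nat_lit 76) (nat_lit 4255731383) (nat_lit 630) (nat_lit 5) (nat_lit 647) (nat_lit 5) (nat_lit 631) (nat_lit 5) (nat_lit 554) (nat_lit 532) (nat_lit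 474)) (XT.lf (nat_lit 0) (nat_lit 3019518802) (nat_lit 1292) (nat_lit 878646826) (nat_lit 1368) (nat_lit 3680866054) (nat_lit 613) (nat_lit 5) (nat_lit 630) (nat_lit 5) (nat_lit 631) (nat_lit 5) (nat_lit 555) (nat_lit 532) (nat_lit 473))) (XT.nd (nat_lit 78) (nat_lit 1444) (nat_lit 0) (XT.lf (nat_lit 0) (nat_lit 5914350718) (nat_lit 1368) (nat_lit 158009645) (nat_lit 76) (nat_lit 1559941693) (nat_lit 613) (nat_lit 5) (nat_lit 631) (nat_lit 5) (nat_lit 614) (nat_lit 5) (nat_lit 556) (nat_lit 532) (nat_lit 472)) (XT.lf (nat_lit 0) (nat_lit 275372706) (nat_lit 1444) (nat_lit 3336768279) (nat_lit 76) (nat_lit 4074565190) (nat_lit 594) (nat_lit 5) (nat_lit 613) (nat_lit 5) (nat_lit 595) (nat_lit 5) (nat_lit 557) (nat_lit 532) (nat_lit 471))))) (XT.nd (nat_lit 312) (nat_lit 5092) (nat_lit 0) (XT.nd (nat_lit 156) (nat_lit 1596) (nat_lit 0) (XT.nd (nat_lit 78) (nat_lit 0) (nat_lit 0) (XT.lf (nat_lit 0) (nat_lit 1180802736) (nat_lit 1444) (nat_lit 1074663724) (nat_lit 1520) (nat_lit 5487109434) (nat_lit 575) (nat_lit 5) (nat_lit 594) (nat_lit 5)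 (nat_lit 595) (nat_lit 5) (nat_lit 558) (nat_lit 532) (nat_lit 470)) (XT.lf (nat_lit 0) (nat_lit 4269286557) (nat_lit 1520) (nat_lit 2007052347) (nat_lit 76) (nat_lit 1523344322) (nat_lit 575) (nat_lit 5) (nat_lit 595) (nat_lit 5) (nat_lit 576) (nat_lit 5) (nat_lit 559) (nat_lit 532) (nat_lit 469))) (XT.nd (nat_lit 78) (nat_lit 76) (nat_lit 0) (XT.lf (nat_lit 0) (nat_lit 2634911305) (nat_lit 1520) (nat_lit 3675203821) (nat_lit 1596) (nat_lit 1548085592) (nat_lit 555) (nat_lit 5) (nat_lit 575) (nat_lit 5) (nat_lit 576) (nat_lit 5) (nat_lit 560) (nat_lit 532) (nat_lit 468)) (XT.lf (nat_lit 0) (nat_lit 444007850) (nat_lit 1596) (nat_lit 555447794) (nat_lit 76) (nat_lit 6918846913) (nat_lit 554) (nat_lit 5) (nat_lit 575) (nat_lit 5) (nat_lit 555) (nat_lit 5) (nat_lit 561) (nat_lit 532) (nat_lit 467)))) (XT.nd (nat_lit 156) (nat_lit 1824) (nat_lit 0) (XT.nd (nat_lit 78) (nat_lit 1672) (nat_lit 0) (XT.lf (nat_lit 0) (nat_lit 2457671145) (nat_lit 1672) (nat_lit 3771222547) (nat_lit 76) (nat_lit 1750461450) (nat_lit 533) (nat_lit 5) (nat_lit 555)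 (nat_lit 5) (nat_lit 534) (nat_lit 5) (nat_lit 562) (nat_lit 532) (nat_lit 466)) (XT.lf (nat_lit 0) (nat_lit 1008020842) (nat_lit 1672) (nat_lit 3484574861) (nat_lit 1748) (nat_lit 3549415767) (nat_lit 511) (nat_lit 5) (nat_lit 533) (nat_lit 5) (nat_lit 534) (nat_lit 5) (nat_lit 563) (nat_lit 532) (nat_lit 465))) (XT.nd (nat_lit 78) (nat_lit 1824) (nat_lit 0) (XT.lf (nat_lit 0) (nat_lit 5902660815) (nat_lit 1672) (nat_lit 655438333) (nat_lit 1748) (nat_lit 1548026575) (nat_lit 511) (nat_lit 5) (nat_lit 533) (nat_lit 5) (nat_lit 534) (nat_lit 5) (nat_lit 564) (nat_lit 532) (nat_lit 464)) (XT.lf (nat_lit 0) (nat_lit 484291647) (nat_lit 1824) (nat_lit 5461403373) (nat_lit 76) (nat_lit 2225818039) (nat_lit 487) (nat_lit 5) (nat_lit 511) (nat_lit 5) (nat_lit 488) (nat_lit 5) (nat_lit 565) (nat_lit 532) (nat_lit 463))))))))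
noncomputable def xc50 : XT := (XT.nd (nat_lit 2340) (nat_lit 2356) (nat_lit 0) (XT.nd (nat_lit 1170) (nat_lit 6992) (nat_lit 0) (XT.nd (nat_lit 546) (nat_lit 4256) (nat_lit 0) (XT.nd (nat_lit 234) (nat_lit 1900) (nat_lit 0) (XT.nd (nat_lit 78) (nat_lit 2888) (nat_lit 0) (XT.lf (nat_lit 0) (nat_lit 2521315782) (nat_lit 1824) (nat_lit 532449507) (nat_lit 76) (nat_lit 5184544719) (nat_lit 487) (nat_lit 5) (nat_lit 511) (nat_lit 5) (nat_lit 488) (nat_lit 5) (nat_lit 566) (nat_lit 532) (nat_lit 462)) (XT.nd (nat_lit 78) (nat_lit 1064) (nat_lit 0) (XT.lf (nat_lit 0) (nat_lit 4523358084) (nat_lit 1824) (nat_lit 71309843) (nat_lit 1900) (nat_lit 3711865440) (nat_lit 463) (nat_lit 5) (nat_lit 487) (nat_lit 5) (nat_lit 488) (nat_lit 5) (nat_lit 567) (nat_lit 532) (nat_lit 461)) (XT.lf (nat_lit 0) (nat_lit 1277360016) (nat_lit 1064) (nat_lit 5430002664) (nat_lit 1140) (nat_lit 1668803180) (nat_lit 449) (nat_lit 5) (nat_lit 463) (nat_lit 5) (nat_lit 464) (nat_lit 5) (nat_lit 568) (nat_lit 532) (nat_lit 460)))) (XT.nd (nat_lit 156) (nat_lit 912) (nat_lit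 0) (XT.nd (nat_lit 78) (nat_lit 912) (nat_lit 0) (XT.lf (nat_lit 0) (nat_lit 402630421) (nat_lit 1140) (nat_lit 1991395441) (nat_lit 76) (nat_lit 6053254239) (nat_lit 448) (nat_lit 5) (nat_lit 463) (nat_lit 5) (nat_lit 449) (nat_lit 5) (nat_lit 569) (nat_lit 532) (nat_lit 459)) (XT.lf (nat_lit 0) (nat_lit 2486420431) (nat_lit 988) (nat_lit 5306433576) (nat_lit 76) (nat_lit 726878597) (nat_lit 436) (nat_lit 5) (nat_lit 449) (nat_lit 5) (nat_lit 437) (nat_lit 5) (nat_lit 570) (nat_lit 532) (nat_lit 458))) (XT.nd (nat_lit 78) (nat_lit 912) (nat_lit 0) (XT.lf (nat_lit 0) (nat_lit 4609209764) (nat_lit 988) (nat_lit 91814041) (nat_lit 76) (nat_lit 3892665895) (nat_lit 436) (nat_lit 5) (nat_lit 449) (nat_lit 5) (nat_lit 437) (nat_lit 5) (nat_lit 571) (nat_lit 532) (nat_lit 457)) (XT.lf (nat_lit 0) (nat_lit 5265185611) (nat_lit 912) (nat_lit 1512098699) (nat_lit 988) (nat_lit 1891787010) (nat_lit 424) (nat_lit 5) (nat_lit 436) (nat_lit 5) (nat_lit 437) (nat_lit 5) (nat_lit 572) (nat_lit 532) (nat_lit 456))))) (XT.nd (nat_lit 312) (nat_lit 1672)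 (nat_lit 0) (XT.nd (nat_lit 156) (nat_lit 1672) (nat_lit 0) (XT.nd (nat_lit 78) (nat_lit 0) (nat_lit 0) (XT.lf (nat_lit 0) (nat_lit 233290513) (nat_lit 912) (nat_lit 6779882884) (nat_lit 76) (nat_lit 1732883258) (nat_lit 412) (nat_lit 5) (nat_lit 424) (nat_lit 5) (nat_lit 413) (nat_lit 5) (nat_lit 573) (nat_lit 532) (nat_lit 455)) (XT.lf (nat_lit 0) (nat_lit 2377830001) (nat_lit 912) (nat_lit 1388631610) (nat_lit 76) (nat_lit 5057826021) (nat_lit 412) (nat_lit 5) (nat_lit 424) (nat_lit 5) (nat_lit 413) (nat_lit 5) (nat_lit 574) (nat_lit 532) (nat_lit 454))) (XT.nd (nat_lit 78) (nat_lit 836) (nat_lit 0) (XT.lf (nat_lit 0) (nat_lit 4133689953) (nat_lit 836) (nat_lit 428272444) (nat_lit 912) (nat_lit 4342188612) (nat_lit 401) (nat_lit 5) (nat_lit 412) (nat_lit 5) (nat_lit 413) (nat_lit 5) (nat_lit 575) (nat_lit 532) (nat_lit 453)) (XT.lf (nat_lit 0) (nat_lit 759067789) (nat_lit 836) (nat_lit 6034592775) (nat_lit 912) (nat_lit 2191875215) (nat_lit 390) (nat_lit 5) (nat_lit 401) (nat_lit 5) (nat_lit 402) (nat_lit 5) (nat_lit 576) (nat_lit 532)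 (nat_lit 452)))) (XT.nd (nat_lit 156) (nat_lit 760) (nat_lit 0) (XT.nd (nat_lit 78) (nat_lit 836) (nat_lit 0) (XT.lf (nat_lit 0) (nat_lit 6918954) (nat_lit 912) (nat_lit 2638657070) (nat_lit 76) (nat_lit 6422863880) (nat_lit 389) (nat_lit 5) (nat_lit 401) (nat_lit 5) (nat_lit 390) (nat_lit 5) (nat_lit 577) (nat_lit 532) (nat_lit 451)) (XT.lf (nat_lit 0) (nat_lit 2216700412) (nat_lit 912) (nat_lit 6102835055) (nat_lit 76) (nat_lit 833251351) (nat_lit 378) (nat_lit 5) (nat_lit 390) (nat_lit 5) (nat_lit 379) (nat_lit 5) (nat_lit 578) (nat_lit 532) (nat_lit 450))) (XT.nd (nat_lit 78) (nat_lit 760) (nat_lit 0) (XT.lf (nat_lit 0) (nat_lit 4477389820) (nat_lit 912) (nat_lit 399285631) (nat_lit 76) (nat_lit 4362012623) (nat_lit 378) (nat_lit 5) (nat_lit 390) (nat_lit 5) (nat_lit 379) (nat_lit 5) (nat_lit 579) (nat_lit 532) (nat_lit 449)) (XT.lf (nat_lit 0) (nat_lit 5459265470) (nat_lit 760) (nat_lit 1331402039) (nat_lit 836) (nat_lit 2535493974) (nat_lit 368) (nat_lit 5) (nat_lit 378) (nat_lit 5) (nat_lit 379) (nat_lit 5) (nat_lit 580) (nat_lit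 532) (nat_lit 448)))))) (XT.nd (nat_lit 546) (nat_lit 3952) (nat_lit 0) (XT.nd (nat_lit 234) (nat_lit 1520) (nat_lit 0) (XT.nd (nat_lit 78) (nat_lit 760) (nat_lit 0) (XT.lf (nat_lit 0) (nat_lit 2005515008) (nat_lit 760) (nat_lit 7147512397) (nat_lit 836) (nat_lit 262302211) (nat_lit 358) (nat_lit 5) (nat_lit 368) (nat_lit 5) (nat_lit 369) (nat_lit 5) (nat_lit 581) (nat_lit 532) (nat_lit 447)) (XT.nd (nat_lit 78) (nat_lit 684) (nat_lit 0) (XT.lf (nat_lit 0) (nat_lit 2036746921) (nat_lit 836) (nat_lit 1511480273) (nat_lit 76) (nat_lit 5957641156) (nat_lit 357) (nat_lit 5) (nat_lit 368) (nat_lit 5) (nat_lit 358) (nat_lit 5) (nat_lit 582) (nat_lit 532) (nat_lit 446)) (XT.lf (nat_lit 0) (nat_lit 4381640658) (nat_lit 760) (nat_lit 5067155762) (nat_lit 76) (nat_lit 149320742) (nat_lit 348) (nat_lit 5) (nat_lit 358) (nat_lit 5) (nat_lit 349) (nat_lit 5) (nat_lit 583) (nat_lit 532) (nat_lit 445)))) (XT.nd (nat_lit 156) (nat_lit 760) (nat_lit 0) (XT.nd (nat_lit 78) (nat_lit 0) (nat_lit 0) (XT.lf (nat_lit 0) (nat_lit 981166678) (nat_lit 760) (nat_lit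 5805619104) (nat_lit 836) (nat_lit 2905159565) (nat_lit 338) (nat_lit 5) (nat_lit 348) (nat_lit 5) (nat_lit 349) (nat_lit 5) (nat_lit 584) (nat_lit 532) (nat_lit 444)) (XT.lf (nat_lit 0) (nat_lit 7188476816) (nat_lit 760) (nat_lit 2059160129) (nat_lit 836) (nat_lit 539862523) (nat_lit 338) (nat_lit 5) (nat_lit 348) (nat_lit 5) (nat_lit 349) (nat_lit 5) (nat_lit 585) (nat_lit 532) (nat_lit 443))) (XT.nd (nat_lit 78) (nat_lit 0) (nat_lit 0) (XT.lf (nat_lit 0) (nat_lit 1857408343) (nat_lit 760) (nat_lit 6256282860) (nat_lit 76) (nat_lit 1770847084) (nat_lit 328) (nat_lit 5) (nat_lit 338) (nat_lit 5) (nat_lit 329) (nat_lit 5) (nat_lit 586) (nat_lit 532) (nat_lit 442)) (XT.lf (nat_lit 0) (nat_lit 4300826172) (nat_lit 760) (nat_lit 15885933) (nat_lit 76) (nat_lit 5666627157) (nat_lit 328) (nat_lit 5) (nat_lit 338) (nat_lit 5) (nat_lit 329) (nat_lit 5) (nat_lit 587) (nat_lit 532) (nat_lit 441))))) (XT.nd (nat_lit 312) (nat_lit 1900) (nat_lit 0) (XT.nd (nat_lit 156) (nat_lit 760) (nat_lit 0) (XT.nd (nat_lit 78) (nat_lit 608) (nat_lit 0) (XT.lf (nat_lit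 0) (nat_lit 6403201205) (nat_lit 684) (nat_lit 406220680) (nat_lit 760) (nat_lit 3274369508) (nat_lit 319) (nat_lit 5) (nat_lit 328) (nat_lit 5) (nat_lit 329) (nat_lit 5) (nat_lit 588) (nat_lit 532) (nat_lit 440)) (XT.lf (nat_lit 0) (nat_lit 2747034927) (nat_lit 608) (nat_lit 6637362213) (nat_lit 684) (nat_lit 801532574) (nat_lit 311) (nat_lit 5) (nat_lit 319) (nat_lit 5) (nat_lit 320) (nat_lit 5) (nat_lit 589) (nat_lit 532) (nat_lit 439))) (XT.nd (nat_lit 78) (nat_lit 684) (nat_lit 0) (XT.lf (nat_lit 0) (nat_lit 1700879771) (nat_lit 684) (nat_lit 981038299) (nat_lit 76) (nat_lit 7607916803) (nat_lit 310) (nat_lit 5) (nat_lit 319) (nat_lit 5) (nat_lit 311) (nat_lit 5) (nat_lit 590) (nat_lit 532) (nat_lit 438)) (XT.lf (nat_lit 0) (nat_lit 4263913723) (nat_lit 760) (nat_lit 4759693540) (nat_lit 76) (nat_lit 1371680019) (nat_lit 301) (nat_lit 5) (nat_lit 311) (nat_lit 5) (nat_lit 302) (nat_lit 5) (nat_lit 591) (nat_lit 532) (nat_lit 437)))) (XT.nd (nat_lit 156) (nat_lit 1292) (nat_lit 0) (XT.nd (nat_lit 78) (nat_lit 0) (nat_lit 0) (XT.lf (nat_lit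 0) (nat_lit 1871731865) (nat_lit 608) (nat_lit 5018887508) (nat_lit 684) (nat_lit 3611982346) (nat_lit 293) (nat_lit 5) (nat_lit 301) (nat_lit 5) (nat_lit 302) (nat_lit 5) (nat_lit 592) (nat_lit 532) (nat_lit 436)) (XT.lf (nat_lit 0) (nat_lit 8670351866) (nat_lit 608) (nat_lit 907596540) (nat_lit 684) (nat_lit 1033953434) (nat_lit 293) (nat_lit 5) (nat_lit 301) (nat_lit 5) (nat_lit 302) (nat_lit 5) (nat_lit 593) (nat_lit 532) (nat_lit 435))) (XT.nd (nat_lit 78) (nat_lit 608) (nat_lit 0) (XT.lf (nat_lit 0) (nat_lit 1604596031) (nat_lit 684) (nat_lit 5838731564) (nat_lit 76) (nat_lit 3279256561) (nat_lit 284) (nat_lit 5) (nat_lit 293) (nat_lit 5) (nat_lit 285) (nat_lit 5) (nat_lit 594) (nat_lit 532) (nat_lit 434)) (XT.lf (nat_lit 0) (nat_lit 1007217157) (nat_lit 608) (nat_lit 3277223488) (nat_lit 684) (nat_lit 6550856521) (nat_lit 276) (nat_lit 5) (nat_lit 284) (nat_lit 5) (nat_lit 285) (nat_lit 5) (nat_lit 595) (nat_lit 532) (nat_lit 433))))))) (XT.nd (nat_lit 76908) (nat_lit 0) (nat_lit 27968) (XT.nd (nat_lit 76284) (nat_lit 0) (nat_lit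 33592) (XT.nd (nat_lit 234) (nat_lit 1140) (nat_lit 0) (XT.nd (nat_lit 78) (nat_lit 1216) (nat_lit 0) (XT.lf (nat_lit 0) (nat_lit 7040546259) (nat_lit 684) (nat_lit 2916954337) (nat_lit 76) (nat_lit 992311646) (nat_lit 276) (nat_lit 5) (nat_lit 285) (nat_lit 5) (nat_lit 277) (nat_lit 5) (nat_lit 596) (nat_lit 532) (nat_lit 432)) (XT.nd (nat_lit 78) (nat_lit 608) (nat_lit 0) (XT.lf (nat_lit 0) (nat_lit 4135385276) (nat_lit 608) (nat_lit 5742306041) (nat_lit 684) (nat_lit 1188409025) (nat_lit 268) (nat_lit 5) (nat_lit 276) (nat_lit 5) (nat_lit 277) (nat_lit 5) (nat_lit 597) (nat_lit 532) (nat_lit 431)) (XT.lf (nat_lit 0) (nat_lit 145821374) (nat_lit 532) (nat_lit 1418350614) (nat_lit 608) (nat_lit 9620374802) (nat_lit 260) (nat_lit 5) (nat_lit 267) (nat_lit 5) (nat_lit 268) (nat_lit 5) (nat_lit 598) (nat_lit 532) (nat_lit 430)))) (XT.nd (nat_lit 156) (nat_lit 608) (nat_lit 0) (XT.nd (nat_lit 78) (nat_lit 532) (nat_lit 0) (XT.lf (nat_lit 0) (nat_lit 4399822295) (nat_lit 608) (nat_lit 3904053197) (nat_lit 76) (nat_lit 3000451965) (nat_lit 260)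 (nat_lit 5) (nat_lit 268) (nat_lit 5) (nat_lit 261) (nat_lit 5) (nat_lit 599) (nat_lit 532) (nat_lit 429)) (XT.lf (nat_lit 0) (nat_lit 3378967976) (nat_lit 532) (nat_lit 3922659233) (nat_lit 608) (nat_lit 4124688683) (nat_lit 253) (nat_lit 5) (nat_lit 260) (nat_lit 5) (nat_lit 261) (nat_lit 5) (nat_lit 600) (nat_lit 532) (nat_lit 428))) (XT.nd (nat_lit 78) (nat_lit 608) (nat_lit 0) (XT.lf (nat_lit 0) (nat_lit 10269688428) (nat_lit 608) (nat_lit 722830171) (nat_lit 76) (nat_lit 558062060) (nat_lit 253) (nat_lit 5) (nat_lit 261) (nat_lit 5) (nat_lit 254) (nat_lit 5) (nat_lit 601) (nat_lit 532) (nat_lit 427)) (XT.lf (nat_lit 0) (nat_lit 1647598877) (nat_lit 608) (nat_lit 4904928365) (nat_lit 76) (nat_lit 5123612826) (nat_lit 245) (nat_lit 5) (nat_lit 253) (nat_lit 5) (nat_lit 246) (nat_lit 5) (nat_lit 602) (nat_lit 532) (nat_lit 426))))) (XT.nd (nat_lit 312) (nat_lit 988) (nat_lit 0) (XT.nd (nat_lit 156) (nat_lit 912) (nat_lit 0) (XT.nd (nat_lit 78) (nat_lit 0) (nat_lit 0) (XT.lf (nat_lit 0) (nat_lit 826088477) (nat_lit 0) (nat_lit 826088477)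 (nat_lit 836) (nat_lit 1729491204) (nat_lit 712) (nat_lit 5) (nat_lit 712) (nat_lit 3) (nat_lit 723) (nat_lit 3) (nat_lit 533) (nat_lit 533) (nat_lit 494)) (XT.lf (nat_lit 0) (nat_lit 5051382694) (nat_lit 0) (nat_lit 386821741) (nat_lit 836) (nat_lit 1350562088) (nat_lit 712) (nat_lit 5) (nat_lit 712) (nat_lit 3) (nat_lit 723) (nat_lit 3) (nat_lit 534) (nat_lit 533) (nat_lit 493))) (XT.nd (nat_lit 78) (nat_lit 0) (nat_lit 0) (XT.lf (nat_lit 0) (nat_lit 751200759) (nat_lit 912) (nat_lit 5129071087) (nat_lit 988) (nat_lit 935101079) (nat_lit 700) (nat_lit 5) (nat_lit 712) (nat_lit 5) (nat_lit 713) (nat_lit 5) (nat_lit 535) (nat_lit 533) (nat_lit 492)) (XT.lf (nat_lit 0) (nat_lit 2836831793) (nat_lit 912) (nat_lit 1681225686) (nat_lit 988) (nat_lit 2325081808) (nat_lit 700) (nat_lit 5) (nat_lit 712) (nat_lit 5) (nat_lit 713) (nat_lit 5) (nat_lit 536) (nat_lit 533) (nat_lit 491)))) (XT.nd (nat_lit 156) (nat_lit 0) (nat_lit 0) (XT.nd (nat_lit 78) (nat_lit 988) (nat_lit 0) (XT.lf (nat_lit 76) (nat_lit 1830787475) (nat_lit 0) (nat_lit 3091943626)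 (nat_lit 988) (nat_lit 1949563383) (nat_lit 701) (nat_lit 5) (nat_lit 700) (nat_lit 5) (nat_lit 713) (nat_lit 5) (nat_lit 537) (nat_lit 533) (nat_lit 490)) (XT.lf (nat_lit 0) (nat_lit 104903997) (nat_lit 988) (nat_lit 1496331682) (nat_lit 1064) (nat_lit 5301611619) (nat_lit 687) (nat_lit 5) (nat_lit 700) (nat_lit 5) (nat_lit 701) (nat_lit 5) (nat_lit 538) (nat_lit 533) (nat_lit 489))) (XT.nd (nat_lit 78) (nat_lit 0) (nat_lit 76) (XT.lf (nat_lit 76) (nat_lit 2105710542) (nat_lit 0) (nat_lit 30554298) (nat_lit 1064) (nat_lit 4798254776) (nat_lit 688) (nat_lit 5) (nat_lit 687) (nat_lit 5) (nat_lit 701) (nat_lit 5) (nat_lit 539) (nat_lit 533) (nat_lit 488)) (XT.lf (nat_lit 0) (nat_lit 4177752266) (nat_lit 988) (nat_lit 1206539907) (nat_lit 1064) (nat_lit 1583147492) (nat_lit 688) (nat_lit 5) (nat_lit 701) (nat_lit 5) (nat_lit 702) (nat_lit 5) (nat_lit 540) (nat_lit 533) (nat_lit 487)))))) (XT.nd (nat_lit 546) (nat_lit 3572) (nat_lit 0) (XT.nd (nat_lit 234) (nat_lit 1064) (nat_lit 0) (XT.nd (nat_lit 78) (nat_lit 1064) (nat_lit 0) (XT.lf (nat_lit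 76) (nat_lit 2491509532) (nat_lit 0) (nat_lit 3735123304) (nat_lit 1064) (nat_lit 775058197) (nat_lit 689) (nat_lit 5) (nat_lit 688) (nat_lit 5) (nat_lit 702) (nat_lit 5) (nat_lit 541) (nat_lit 533) (nat_lit 486)) (XT.nd (nat_lit 78) (nat_lit 0) (nat_lit 0) (XT.lf (nat_lit 0) (nat_lit 1221872699) (nat_lit 1064) (nat_lit 794561501) (nat_lit 1140) (nat_lit 5020855163) (nat_lit 674) (nat_lit 5) (nat_lit 688) (nat_lit 5) (nat_lit 689) (nat_lit 5) (nat_lit 542) (nat_lit 533) (nat_lit 485)) (XT.lf (nat_lit 76) (nat_lit 3000563954) (nat_lit 0) (nat_lit 218903949) (nat_lit 1140) (nat_lit 3854611164) (nat_lit 675) (nat_lit 5) (nat_lit 674) (nat_lit 5) (nat_lit 689) (nat_lit 5) (nat_lit 543) (nat_lit 533) (nat_lit 484)))) (XT.nd (nat_lit 156) (nat_lit 0) (nat_lit 0) (XT.nd (nat_lit 78) (nat_lit 1140) (nat_lit 0) (XT.lf (nat_lit 0) (nat_lit 5225361072) (nat_lit 1064) (nat_lit 269568199) (nat_lit 1140) (nat_lit 1617312243) (nat_lit 675) (nat_lit 5) (nat_lit 689) (nat_lit 5) (nat_lit 690) (nat_lit 5) (nat_lit 544) (nat_lit 533) (nat_lit 483)) (XT.lf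 (nat_lit 0) (nat_lit 96909372) (nat_lit 1140) (nat_lit 3524987894) (nat_lit 1216) (nat_lit 3529692432) (nat_lit 660) (nat_lit 5) (nat_lit 675) (nat_lit 5) (nat_lit 676) (nat_lit 5) (nat_lit 545) (nat_lit 533) (nat_lit 482))) (XT.nd (nat_lit 78) (nat_lit 0) (nat_lit 76) (XT.lf (nat_lit 76) (nat_lit 375323170) (nat_lit 0) (nat_lit 1677911966) (nat_lit 1216) (nat_lit 5139081399) (nat_lit 661) (nat_lit 5) (nat_lit 660) (nat_lit 5) (nat_lit 676) (nat_lit 5) (nat_lit 546) (nat_lit 533) (nat_lit 481)) (XT.lf (nat_lit 0) (nat_lit 4029138910) (nat_lit 1140) (nat_lit 2864670663) (nat_lit 1216) (nat_lit 340442879) (nat_lit 661) (nat_lit 5) (nat_lit 676) (nat_lit 5) (nat_lit 677) (nat_lit 5) (nat_lit 547) (nat_lit 533) (nat_lit 480))))) (XT.nd (nat_lit 312) (nat_lit 2432) (nat_lit 0) (XT.nd (nat_lit 156) (nat_lit 0) (nat_lit 0) (XT.nd (nat_lit 78) (nat_lit 1216) (nat_lit 0) (XT.lf (nat_lit 76) (nat_lit 1140572928) (nat_lit 0) (nat_lit 4878054557) (nat_lit 1216) (nat_lit 1258921772) (nat_lit 662) (nat_lit 5) (nat_lit 661) (nat_lit 5) (nat_lit 677) (nat_lit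 5) (nat_lit 548) (nat_lit 533) (nat_lit 479)) (XT.lf (nat_lit 0) (nat_lit 691954786) (nat_lit 1216) (nat_lit 2091781184) (nat_lit 1292) (nat_lit 4538379394) (nat_lit 645) (nat_lit 5) (nat_lit 661) (nat_lit 5) (nat_lit 662) (nat_lit 5) (nat_lit 549) (nat_lit 533) (nat_lit 478))) (XT.nd (nat_lit 78) (nat_lit 0) (nat_lit 76) (XT.lf (nat_lit 76) (nat_lit 2022740441) (nat_lit 0) (nat_lit 612198593) (nat_lit 1292) (nat_lit 4733071689) (nat_lit 646) (nat_lit 5) (nat_lit 645) (nat_lit 5) (nat_lit 662) (nat_lit 5) (nat_lit 550) (nat_lit 533) (nat_lit 477)) (XT.lf (nat_lit 0) (nat_lit 4598856832) (nat_lit 1216) (nat_lit 1207646657) (nat_lit 1292) (nat_lit 1608682259) (nat_lit 646) (nat_lit 5) (nat_lit 662) (nat_lit 5) (nat_lit 663) (nat_lit 5) (nat_lit 551) (nat_lit 533) (nat_lit 476)))) (XT.nd (nat_lit 156) (nat_lit 1216) (nat_lit 0) (XT.nd (nat_lit 78) (nat_lit 1292) (nat_lit 0) (XT.lf (nat_lit 76) (nat_lit 3018348236) (nat_lit 0) (nat_lit 3565726464) (nat_lit 1292) (nat_lit 879592312) (nat_lit 647) (nat_lit 5) (nat_lit 646) (nat_lit 5) (nat_lit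 663) (nat_lit 5) (nat_lit 552) (nat_lit 533) (nat_lit 475)) (XT.lf (nat_lit 0) (nat_lit 1048382983) (nat_lit 1292) (nat_lit 205159612) (nat_lit 1368) (nat_lit 6260098521) (nat_lit 629) (nat_lit 5) (nat_lit 646) (nat_lit 5) (nat_lit 647) (nat_lit 5) (nat_lit 553) (nat_lit 533) (nat_lit 474))) (XT.nd (nat_lit 78) (nat_lit 1292) (nat_lit 0) (XT.lf (nat_lit 0) (nat_lit 2997010172) (nat_lit 1292) (nat_lit 3433652083) (nat_lit 76) (nat_lit 1133961752) (nat_lit 630) (nat_lit 5) (nat_lit 647) (nat_lit 5) (nat_lit 631) (nat_lit 5) (nat_lit 554) (nat_lit 533) (nat_lit 473)) (XT.lf (nat_lit 0) (nat_lit 913328803) (nat_lit 1292) (nat_lit 4047096542) (nat_lit 1368) (nat_lit 2656687835) (nat_lit 613) (nat_lit 5) (nat_lit 630) (nat_lit 5) (nat_lit 631) (nat_lit 5) (nat_lit 555) (nat_lit 533) (nat_lit 472))))))))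
noncomputable def xc51 : XT := (XT.nd (nat_lit 2340) (nat_lit 7068) (nat_lit 0) (XT.nd (nat_lit 1170) (nat_lit 7448) (nat_lit 0) (XT.nd (nat_lit 546) (nat_lit 7372) (nat_lit 0) (XT.nd (nat_lit 234) (nat_lit 4636) (nat_lit 0) (XT.nd (nat_lit 78) (nat_lit 1444) (nat_lit 0) (XT.lf (nat_lit 0) (nat_lit 5363646009) (nat_lit 1292) (nat_lit 1583287168) (nat_lit 1368) (nat_lit 724045344) (nat_lit 613) (nat_lit 5) (nat_lit 630) (nat_lit 5) (nat_lit 631) (nat_lit 5) (nat_lit 556) (nat_lit 533) (nat_lit 471)) (XT.nd (nat_lit 78) (nat_lit 0) (nat_lit 0) (XT.lf (nat_lit 0) (nat_lit 1212497683) (nat_lit 1444) (nat_lit 5565192797) (nat_lit 76) (nat_lit 948439381) (nat_lit 594) (nat_lit 5) (nat_lit 613) (nat_lit 5) (nat_lit 595) (nat_lit 5) (nat_lit 557) (nat_lit 533) (nat_lit 470)) (XT.lf (nat_lit 0) (nat_lit 3166069899) (nat_lit 1444) (nat_lit 1078303620) (nat_lit 76) (nat_lit 3538157832) (nat_lit 594) (nat_lit 5) (nat_lit 613) (nat_lit 5) (nat_lit 595) (nat_lit 5) (nat_lit 558) (nat_lit 533) (nat_lit 469)))) (XT.nd (nat_lit 156) (nat_lit 1672) (nat_lit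 0) (XT.nd (nat_lit 78) (nat_lit 1520) (nat_lit 0) (XT.lf (nat_lit 0) (nat_lit 3514321447) (nat_lit 1444) (nat_lit 1629869155) (nat_lit 1520) (nat_lit 2696163384) (nat_lit 575) (nat_lit 5) (nat_lit 594) (nat_lit 5) (nat_lit 595) (nat_lit 5) (nat_lit 559) (nat_lit 533) (nat_lit 468)) (XT.lf (nat_lit 0) (nat_lit 280446770) (nat_lit 1520) (nat_lit 6860506755) (nat_lit 1596) (nat_lit 758800555) (nat_lit 555) (nat_lit 5) (nat_lit 575) (nat_lit 5) (nat_lit 576) (nat_lit 5) (nat_lit 560) (nat_lit 533) (nat_lit 467))) (XT.nd (nat_lit 78) (nat_lit 1596) (nat_lit 0) (XT.lf (nat_lit 0) (nat_lit 1204883364) (nat_lit 1596) (nat_lit 2971918864) (nat_lit 76) (nat_lit 3783313596) (nat_lit 554) (nat_lit 5) (nat_lit 575) (nat_lit 5) (nat_lit 555) (nat_lit 5) (nat_lit 561) (nat_lit 533) (nat_lit 466)) (XT.lf (nat_lit 0) (nat_lit 1756066649) (nat_lit 1596) (nat_lit 1417263279) (nat_lit 1672) (nat_lit 4848744029) (nat_lit 533) (nat_lit 5) (nat_lit 554) (nat_lit 5) (nat_lit 555) (nat_lit 5) (nat_lit 562) (nat_lit 533) (nat_lit 465))))) (XT.nd (nat_lit 312) (nat_lit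 3876) (nat_lit 0) (XT.nd (nat_lit 156) (nat_lit 1824) (nat_lit 0) (XT.nd (nat_lit 78) (nat_lit 1672) (nat_lit 0) (XT.lf (nat_lit 0) (nat_lit 5175070696) (nat_lit 1672) (nat_lit 1506078315) (nat_lit 76) (nat_lit 1404246141) (nat_lit 533) (nat_lit 5) (nat_lit 555) (nat_lit 5) (nat_lit 534) (nat_lit 5) (nat_lit 563) (nat_lit 533) (nat_lit 464)) (XT.lf (nat_lit 0) (nat_lit 3353351464) (nat_lit 1672) (nat_lit 3860120278) (nat_lit 1748) (nat_lit 936580877) (nat_lit 511) (nat_lit 5) (nat_lit 533) (nat_lit 5) (nat_lit 534) (nat_lit 5) (nat_lit 564) (nat_lit 533) (nat_lit 463))) (XT.nd (nat_lit 78) (nat_lit 0) (nat_lit 0) (XT.lf (nat_lit 0) (nat_lit 77999548) (nat_lit 1748) (nat_lit 960919038) (nat_lit 1824) (nat_lit 7177419084) (nat_lit 487) (nat_lit 5) (nat_lit 510) (nat_lit 5) (nat_lit 511) (nat_lit 5) (nat_lit 565) (nat_lit 533) (nat_lit 462)) (XT.lf (nat_lit 0) (nat_lit 3052980475) (nat_lit 1824) (nat_lit 3218516623) (nat_lit 76) (nat_lit 2012097867) (nat_lit 487) (nat_lit 5) (nat_lit 511) (nat_lit 5) (nat_lit 488) (nat_lit 5) (nat_lit 566)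 (nat_lit 533) (nat_lit 461)))) (XT.nd (nat_lit 156) (nat_lit 2052) (nat_lit 0) (XT.nd (nat_lit 78) (nat_lit 0) (nat_lit 0) (XT.lf (nat_lit 0) (nat_lit 1786324387) (nat_lit 1824) (nat_lit 3305842178) (nat_lit 1900) (nat_lit 3260336157) (nat_lit 463) (nat_lit 5) (nat_lit 487) (nat_lit 5) (nat_lit 488) (nat_lit 5) (nat_lit 567) (nat_lit 533) (nat_lit 460)) (XT.lf (nat_lit 0) (nat_lit 6904649146) (nat_lit 1824) (nat_lit 256419476) (nat_lit 1900) (nat_lit 1261943503) (nat_lit 463) (nat_lit 5) (nat_lit 487) (nat_lit 5) (nat_lit 488) (nat_lit 5) (nat_lit 568) (nat_lit 533) (nat_lit 459))) (XT.nd (nat_lit 78) (nat_lit 912) (nat_lit 0) (XT.lf (nat_lit 0) (nat_lit 776382092) (nat_lit 1140) (nat_lit 4870670017) (nat_lit 76) (nat_lit 2847577882) (nat_lit 448) (nat_lit 5) (nat_lit 463) (nat_lit 5) (nat_lit 449) (nat_lit 5) (nat_lit 569) (nat_lit 533) (nat_lit 458)) (XT.lf (nat_lit 0) (nat_lit 285322893) (nat_lit 912) (nat_lit 2535288082) (nat_lit 988) (nat_lit 5747263738) (nat_lit 436) (nat_lit 5) (nat_lit 448) (nat_lit 5) (nat_lit 449) (nat_lit 5) (nat_lit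 570) (nat_lit 533) (nat_lit 457)))))) (XT.nd (nat_lit 546) (nat_lit 3952) (nat_lit 0) (XT.nd (nat_lit 234) (nat_lit 2508) (nat_lit 0) (XT.nd (nat_lit 78) (nat_lit 988) (nat_lit 0) (XT.lf (nat_lit 0) (nat_lit 4911416938) (nat_lit 988) (nat_lit 3066801280) (nat_lit 76) (nat_lit 664254234) (nat_lit 436) (nat_lit 5) (nat_lit 449) (nat_lit 5) (nat_lit 437) (nat_lit 5) (nat_lit 571) (nat_lit 533) (nat_lit 456)) (XT.nd (nat_lit 78) (nat_lit 76) (nat_lit 0) (XT.lf (nat_lit 0) (nat_lit 2235433444) (nat_lit 912) (nat_lit 4809168645) (nat_lit 988) (nat_lit 1673950729) (nat_lit 424) (nat_lit 5) (nat_lit 436) (nat_lit 5) (nat_lit 437) (nat_lit 5) (nat_lit 572) (nat_lit 533) (nat_lit 455)) (XT.lf (nat_lit 0) (nat_lit 408910929) (nat_lit 988) (nat_lit 1143917031) (nat_lit 76) (nat_lit 7243470004) (nat_lit 423) (nat_lit 5) (nat_lit 436) (nat_lit 5) (nat_lit 424) (nat_lit 5) (nat_lit 573) (nat_lit 533) (nat_lit 454)))) (XT.nd (nat_lit 156) (nat_lit 836) (nat_lit 0) (XT.nd (nat_lit 78) (nat_lit 836) (nat_lit 0) (XT.lf (nat_lit 0) (nat_lit 2520873741) (nat_lit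 912) (nat_lit 4569515565) (nat_lit 76) (nat_lit 1784792072) (nat_lit 412) (nat_lit 5) (nat_lit 424) (nat_lit 5) (nat_lit 413) (nat_lit 5) (nat_lit 574) (nat_lit 533) (nat_lit 453)) (XT.lf (nat_lit 0) (nat_lit 895303486) (nat_lit 836) (nat_lit 3774050350) (nat_lit 912) (nat_lit 4286404849) (nat_lit 401) (nat_lit 5) (nat_lit 412) (nat_lit 5) (nat_lit 413) (nat_lit 5) (nat_lit 575) (nat_lit 533) (nat_lit 452))) (XT.nd (nat_lit 78) (nat_lit 836) (nat_lit 0) (XT.lf (nat_lit 0) (nat_lit 6501198062) (nat_lit 836) (nat_lit 361107195) (nat_lit 912) (nat_lit 2175613999) (nat_lit 401) (nat_lit 5) (nat_lit 412) (nat_lit 5) (nat_lit 413) (nat_lit 5) (nat_lit 576) (nat_lit 533) (nat_lit 451)) (XT.lf (nat_lit 0) (nat_lit 3087586420) (nat_lit 836) (nat_lit 6023236983) (nat_lit 912) (nat_lit 10667200) (nat_lit 390) (nat_lit 5) (nat_lit 401) (nat_lit 5) (nat_lit 402) (nat_lit 5) (nat_lit 577) (nat_lit 533) (nat_lit 450))))) (XT.nd (nat_lit 312) (nat_lit 2280) (nat_lit 0) (XT.nd (nat_lit 156) (nat_lit 760) (nat_lit 0) (XT.nd (nat_lit 78) (nat_lit 836) (nat_lit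 0) (XT.lf (nat_lit 0) (nat_lit 2159864831) (nat_lit 912) (nat_lit 394717766) (nat_lit 76) (nat_lit 6652044910) (nat_lit 389) (nat_lit 5) (nat_lit 401) (nat_lit 5) (nat_lit 390) (nat_lit 5) (nat_lit 578) (nat_lit 533) (nat_lit 449)) (XT.lf (nat_lit 0) (nat_lit 4387457793) (nat_lit 912) (nat_lit 3901672589) (nat_lit 76) (nat_lit 1004061109) (nat_lit 378) (nat_lit 5) (nat_lit 390) (nat_lit 5) (nat_lit 379) (nat_lit 5) (nat_lit 579) (nat_lit 533) (nat_lit 448))) (XT.nd (nat_lit 78) (nat_lit 0) (nat_lit 0) (XT.lf (nat_lit 0) (nat_lit 1895251063) (nat_lit 760) (nat_lit 4768720576) (nat_lit 836) (nat_lit 2717429325) (nat_lit 368) (nat_lit 5) (nat_lit 378) (nat_lit 5) (nat_lit 379) (nat_lit 5) (nat_lit 580) (nat_lit 533) (nat_lit 447)) (XT.lf (nat_lit 0) (nat_lit 7831131985) (nat_lit 760) (nat_lit 1153891463) (nat_lit 836) (nat_lit 486372579) (nat_lit 368) (nat_lit 5) (nat_lit 378) (nat_lit 5) (nat_lit 379) (nat_lit 5) (nat_lit 581) (nat_lit 533) (nat_lit 446)))) (XT.nd (nat_lit 156) (nat_lit 760) (nat_lit 0) (XT.nd (nat_lit 78) (nat_lit 684) (nat_lit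 0) (XT.lf (nat_lit 0) (nat_lit 1783877444) (nat_lit 836) (nat_lit 5241449293) (nat_lit 76) (nat_lit 2537272618) (nat_lit 357) (nat_lit 5) (nat_lit 368) (nat_lit 5) (nat_lit 358) (nat_lit 5) (nat_lit 582) (nat_lit 533) (nat_lit 445)) (XT.lf (nat_lit 0) (nat_lit 737397006) (nat_lit 684) (nat_lit 3352634050) (nat_lit 760) (nat_lit 5565592639) (nat_lit 348) (nat_lit 5) (nat_lit 357) (nat_lit 5) (nat_lit 358) (nat_lit 5) (nat_lit 583) (nat_lit 533) (nat_lit 444))) (XT.nd (nat_lit 78) (nat_lit 760) (nat_lit 0) (XT.lf (nat_lit 0) (nat_lit 6454067457) (nat_lit 760) (nat_lit 2875986685) (nat_lit 76) (nat_lit 420220623) (nat_lit 348) (nat_lit 5) (nat_lit 358) (nat_lit 5) (nat_lit 349) (nat_lit 5) (nat_lit 584) (nat_lit 533) (nat_lit 443)) (XT.lf (nat_lit 0) (nat_lit 3278219886) (nat_lit 760) (nat_lit 5604964652) (nat_lit 836) (nat_lit 963279727) (nat_lit 338) (nat_lit 5) (nat_lit 348) (nat_lit 5) (nat_lit 349) (nat_lit 5) (nat_lit 585) (nat_lit 533) (nat_lit 442))))))) (XT.nd (nat_lit 1170) (nat_lit 1140) (nat_lit 0) (XT.nd (nat_lit 546) (nat_lit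 3116) (nat_lit 0) (XT.nd (nat_lit 234) (nat_lit 1368) (nat_lit 0) (XT.nd (nat_lit 78) (nat_lit 1368) (nat_lit 0) (XT.lf (nat_lit 0) (nat_lit 1391614082) (nat_lit 836) (nat_lit 388835066) (nat_lit 76) (nat_lit 8164068194) (nat_lit 337) (nat_lit 5) (nat_lit 348) (nat_lit 5) (nat_lit 338) (nat_lit 5) (nat_lit 586) (nat_lit 533) (nat_lit 441)) (XT.nd (nat_lit 78) (nat_lit 684) (nat_lit 0) (XT.lf (nat_lit 0) (nat_lit 3808389908) (nat_lit 760) (nat_lit 4101496698) (nat_lit 76) (nat_lit 2133965209) (nat_lit 328) (nat_lit 5) (nat_lit 338) (nat_lit 5) (nat_lit 329) (nat_lit 5) (nat_lit 587) (nat_lit 533) (nat_lit 440)) (XT.lf (nat_lit 0) (nat_lit 2248493408) (nat_lit 684) (nat_lit 4029255250) (nat_lit 760) (nat_lit 3867340671) (nat_lit 319) (nat_lit 5) (nat_lit 328) (nat_lit 5) (nat_lit 329) (nat_lit 5) (nat_lit 588) (nat_lit 533) (nat_lit 439)))) (XT.nd (nat_lit 156) (nat_lit 684) (nat_lit 0) (XT.nd (nat_lit 78) (nat_lit 684) (nat_lit 0) (XT.lf (nat_lit 0) (nat_lit 8751767581) (nat_lit 684) (nat_lit 47776630) (nat_lit 760) (nat_lit 1448747667) (nat_lit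 319) (nat_lit 5) (nat_lit 328) (nat_lit 5) (nat_lit 329) (nat_lit 5) (nat_lit 589) (nat_lit 533) (nat_lit 438)) (XT.lf (nat_lit 0) (nat_lit 1039863681) (nat_lit 684) (nat_lit 5317269675) (nat_lit 76) (nat_lit 3995594117) (nat_lit 310) (nat_lit 5) (nat_lit 319) (nat_lit 5) (nat_lit 311) (nat_lit 5) (nat_lit 590) (nat_lit 533) (nat_lit 437))) (XT.nd (nat_lit 78) (nat_lit 0) (nat_lit 0) (XT.lf (nat_lit 0) (nat_lit 1236235607) (nat_lit 684) (nat_lit 2317182749) (nat_lit 760) (nat_lit 6905751705) (nat_lit 301) (nat_lit 5) (nat_lit 310) (nat_lit 5) (nat_lit 311) (nat_lit 5) (nat_lit 591) (nat_lit 533) (nat_lit 436)) (XT.lf (nat_lit 0) (nat_lit 6141215752) (nat_lit 760) (nat_lit 2615646112) (nat_lit 76) (nat_lit 1810401383) (nat_lit 301) (nat_lit 5) (nat_lit 311) (nat_lit 5) (nat_lit 302) (nat_lit 5) (nat_lit 592) (nat_lit 533) (nat_lit 435))))) (XT.nd (nat_lit 312) (nat_lit 1216) (nat_lit 0) (XT.nd (nat_lit 156) (nat_lit 608) (nat_lit 0) (XT.nd (nat_lit 78) (nat_lit 684) (nat_lit 0) (XT.lf (nat_lit 0) (nat_lit 4133675950) (nat_lit 608) (nat_lit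 4666084836) (nat_lit 684) (nat_lit 1877378834) (nat_lit 293) (nat_lit 5) (nat_lit 301) (nat_lit 5) (nat_lit 302) (nat_lit 5) (nat_lit 593) (nat_lit 533) (nat_lit 434)) (XT.lf (nat_lit 0) (nat_lit 233740136) (nat_lit 608) (nat_lit 475159088) (nat_lit 684) (nat_lit 10080299446) (nat_lit 284) (nat_lit 5) (nat_lit 292) (nat_lit 5) (nat_lit 293) (nat_lit 5) (nat_lit 594) (nat_lit 533) (nat_lit 433))) (XT.nd (nat_lit 78) (nat_lit 608) (nat_lit 0) (XT.lf (nat_lit 0) (nat_lit 3367806249) (nat_lit 684) (nat_lit 3734151360) (nat_lit 76) (nat_lit 3800373361) (nat_lit 284) (nat_lit 5) (nat_lit 293) (nat_lit 5) (nat_lit 285) (nat_lit 5) (nat_lit 595) (nat_lit 533) (nat_lit 432)) (XT.lf (nat_lit 0) (nat_lit 3234102158) (nat_lit 608) (nat_lit 2847529725) (nat_lit 684) (nat_lit 4936060292) (nat_lit 276) (nat_lit 5) (nat_lit 284) (nat_lit 5) (nat_lit 285) (nat_lit 5) (nat_lit 596) (nat_lit 533) (nat_lit 431)))) (XT.nd (nat_lit 156) (nat_lit 532) (nat_lit 0) (XT.nd (nat_lit 78) (nat_lit 684) (nat_lit 0) (XT.lf (nat_lit 0) (nat_lit 8862453107) (nat_lit 684)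 (nat_lit 781336388) (nat_lit 76) (nat_lit 1491317774) (nat_lit 276) (nat_lit 5) (nat_lit 285) (nat_lit 5) (nat_lit 277) (nat_lit 5) (nat_lit 597) (nat_lit 533) (nat_lit 430)) (XT.lf (nat_lit 0) (nat_lit 477090112) (nat_lit 684) (nat_lit 4859621581) (nat_lit 76) (nat_lit 5917324451) (nat_lit 267) (nat_lit 5) (nat_lit 276) (nat_lit 5) (nat_lit 268) (nat_lit 5) (nat_lit 598) (nat_lit 533) (nat_lit 429))) (XT.nd (nat_lit 78) (nat_lit 0) (nat_lit 0) (XT.lf (nat_lit 0) (nat_lit 2336089555) (nat_lit 532) (nat_lit 914125843) (nat_lit 608) (nat_lit 8124852403) (nat_lit 260) (nat_lit 5) (nat_lit 267) (nat_lit 5) (nat_lit 268) (nat_lit 5) (nat_lit 599) (nat_lit 533) (nat_lit 428)) (XT.lf (nat_lit 0) (nat_lit 6113522574) (nat_lit 608) (nat_lit 1808542360) (nat_lit 76) (nat_lit 3575761736) (nat_lit 260) (nat_lit 5) (nat_lit 268) (nat_lit 5) (nat_lit 261) (nat_lit 5) (nat_lit 600) (nat_lit 533) (nat_lit 427)))))) (XT.nd (nat_lit 76362) (nat_lit 0) (nat_lit 31540) (XT.nd (nat_lit 76050) (nat_lit 0) (nat_lit 33592) (XT.nd (nat_lit 78) (nat_lit 608) (nat_lit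 0) (XT.lf (nat_lit 0) (nat_lit 5605839290) (nat_lit 532) (nat_lit 3449667306) (nat_lit 608) (nat_lit 2567106853) (nat_lit 253) (nat_lit 5) (nat_lit 260) (nat_lit 5) (nat_lit 261) (nat_lit 5) (nat_lit 601) (nat_lit 533) (nat_lit 426)) (XT.nd (nat_lit 75894) (nat_lit 0) (nat_lit 34504) (XT.lf (nat_lit 0) (nat_lit 310310429) (nat_lit 608) (nat_lit 10325320436) (nat_lit 76) (nat_lit 1114068319) (nat_lit 245) (nat_lit 5) (nat_lit 253) (nat_lit 5) (nat_lit 246) (nat_lit 5) (nat_lit 602) (nat_lit 533) (nat_lit 425)) (XT.lf (nat_lit 0) (nat_lit 360228031) (nat_lit 988) (nat_lit 1523548473) (nat_lit 988) (nat_lit 1523548473) (nat_lit 699) (nat_lit 3) (nat_lit 712) (nat_lit 3) (nat_lit 712) (nat_lit 5) (nat_lit 534) (nat_lit 534) (nat_lit 492)))) (XT.nd (nat_lit 156) (nat_lit 912) (nat_lit 0) (XT.nd (nat_lit 78) (nat_lit 0) (nat_lit 0) (XT.lf (nat_lit 76) (nat_lit 342658042) (nat_lit 0) (nat_lit 2420007218) (nat_lit 988) (nat_lit 4079254872) (nat_lit 700) (nat_lit 5) (nat_lit 699) (nat_lit 3) (nat_lit 712) (nat_lit 5) (nat_lit 535) (nat_lit 534) (nat_lit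 491)) (XT.lf (nat_lit 76) (nat_lit 3813955124) (nat_lit 0) (nat_lit 998711674) (nat_lit 988) (nat_lit 2057734572) (nat_lit 700) (nat_lit 5) (nat_lit 699) (nat_lit 3) (nat_lit 712) (nat_lit 5) (nat_lit 536) (nat_lit 534) (nat_lit 490))) (XT.nd (nat_lit 78) (nat_lit 988) (nat_lit 0) (XT.lf (nat_lit 76) (nat_lit 429697676) (nat_lit 0) (nat_lit 6427403503) (nat_lit 988) (nat_lit 43286931) (nat_lit 701) (nat_lit 5) (nat_lit 700) (nat_lit 5) (nat_lit 713) (nat_lit 5) (nat_lit 537) (nat_lit 534) (nat_lit 489)) (XT.lf (nat_lit 0) (nat_lit 1960542012) (nat_lit 988) (nat_lit 2952120812) (nat_lit 1064) (nat_lit 2018545466) (nat_lit 687) (nat_lit 5) (nat_lit 700) (nat_lit 5) (nat_lit 701) (nat_lit 5) (nat_lit 538) (nat_lit 534) (nat_lit 488))))) (XT.nd (nat_lit 312) (nat_lit 1064) (nat_lit 0) (XT.nd (nat_lit 156) (nat_lit 988) (nat_lit 0) (XT.nd (nat_lit 78) (nat_lit 0) (nat_lit 0) (XT.lf (nat_lit 76) (nat_lit 616439458) (nat_lit 0) (nat_lit 3340659474) (nat_lit 1064) (nat_lit 3006479869) (nat_lit 688) (nat_lit 5) (nat_lit 687) (nat_lit 5) (nat_lit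 701) (nat_lit 5) (nat_lit 539) (nat_lit 534) (nat_lit 487)) (XT.lf (nat_lit 76) (nat_lit 4268394307) (nat_lit 0) (nat_lit 1695044878) (nat_lit 1064) (nat_lit 1033764681) (nat_lit 688) (nat_lit 5) (nat_lit 687) (nat_lit 5) (nat_lit 701) (nat_lit 5) (nat_lit 540) (nat_lit 534) (nat_lit 486))) (XT.nd (nat_lit 78) (nat_lit 0) (nat_lit 0) (XT.lf (nat_lit 0) (nat_lit 922480335) (nat_lit 1064) (nat_lit 6092599780) (nat_lit 1140) (nat_lit 17160141) (nat_lit 674) (nat_lit 5) (nat_lit 688) (nat_lit 5) (nat_lit 689) (nat_lit 5) (nat_lit 541) (nat_lit 534) (nat_lit 485)) (XT.lf (nat_lit 0) (nat_lit 2885291931) (nat_lit 1064) (nat_lit 2396381796) (nat_lit 1140) (nat_lit 1786545255) (nat_lit 674) (nat_lit 5) (nat_lit 688) (nat_lit 5) (nat_lit 689) (nat_lit 5) (nat_lit 542) (nat_lit 534) (nat_lit 484)))) (XT.nd (nat_lit 156) (nat_lit 1064) (nat_lit 0) (XT.nd (nat_lit 78) (nat_lit 0) (nat_lit 0) (XT.lf (nat_lit 76) (nat_lit 1363181025) (nat_lit 0) (nat_lit 3485590553) (nat_lit 1140) (nat_lit 2256921336) (nat_lit 675) (nat_lit 5) (nat_lit 674) (nat_lit 5)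 (nat_lit 689) (nat_lit 5) (nat_lit 543) (nat_lit 534) (nat_lit 483)) (XT.lf (nat_lit 76) (nat_lit 5202148024) (nat_lit 0) (nat_lit 1618761542) (nat_lit 1140) (nat_lit 323622773) (nat_lit 675) (nat_lit 5) (nat_lit 674) (nat_lit 5) (nat_lit 689) (nat_lit 5) (nat_lit 544) (nat_lit 534) (nat_lit 482))) (XT.nd (nat_lit 78) (nat_lit 0) (nat_lit 0) (XT.lf (nat_lit 0) (nat_lit 1595226851) (nat_lit 1140) (nat_lit 5266841248) (nat_lit 1216) (nat_lit 322499991) (nat_lit 660) (nat_lit 5) (nat_lit 675) (nat_lit 5) (nat_lit 676) (nat_lit 5) (nat_lit 545) (nat_lit 534) (nat_lit 481)) (XT.lf (nat_lit 0) (nat_lit 3526714339) (nat_lit 1140) (nat_lit 1385892524) (nat_lit 1216) (nat_lit 2313186598) (nat_lit 660) (nat_lit 5) (nat_lit 675) (nat_lit 5) (nat_lit 676) (nat_lit 5) (nat_lit 546) (nat_lit 534) (nat_lit 480))))))))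
noncomputable def xc52 : XT := (XT.nd (nat_lit 2340) (nat_lit 11248) (nat_lit 0) (XT.nd (nat_lit 1170) (nat_lit 11628) (nat_lit 0) (XT.nd (nat_lit 546) (nat_lit 5700) (nat_lit 0) (XT.nd (nat_lit 234) (nat_lit 1140) (nat_lit 0) (XT.nd (nat_lit 78) (nat_lit 1216) (nat_lit 0) (XT.lf (nat_lit 76) (nat_lit 2577887951) (nat_lit 0) (nat_lit 2891317367) (nat_lit 1216) (nat_lit 1799194050) (nat_lit 661) (nat_lit 5) (nat_lit 660) (nat_lit 5) (nat_lit 676) (nat_lit 5) (nat_lit 547) (nat_lit 534) (nat_lit 479)) (XT.nd (nat_lit 78) (nat_lit 0) (nat_lit 76) (XT.lf (nat_lit 0) (nat_lit 102260616) (nat_lit 1216) (nat_lit 701899534) (nat_lit 1292) (nat_lit 6508374786) (nat_lit 644) (nat_lit 5) (nat_lit 660) (nat_lit 5) (nat_lit 661) (nat_lit 5) (nat_lit 548) (nat_lit 534) (nat_lit 478)) (XT.lf (nat_lit 0) (nat_lit 2005369772) (nat_lit 1216) (nat_lit 3996318618) (nat_lit 1292) (nat_lit 1355875941) (nat_lit 645) (nat_lit 5) (nat_lit 661) (nat_lit 5) (nat_lit 662) (nat_lit 5) (nat_lit 549) (nat_lit 534) (nat_lit 477)))) (XT.nd (nat_lit 156) (nat_lit 1216) (nat_lit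 0) (XT.nd (nat_lit 78) (nat_lit 0) (nat_lit 0) (XT.lf (nat_lit 76) (nat_lit 78252634) (nat_lit 0) (nat_lit 3836508899) (nat_lit 1292) (nat_lit 3489371609) (nat_lit 646) (nat_lit 5) (nat_lit 645) (nat_lit 5) (nat_lit 662) (nat_lit 5) (nat_lit 550) (nat_lit 534) (nat_lit 476)) (XT.lf (nat_lit 76) (nat_lit 4259493375) (nat_lit 0) (nat_lit 1587952876) (nat_lit 1292) (nat_lit 1604488149) (nat_lit 646) (nat_lit 5) (nat_lit 645) (nat_lit 5) (nat_lit 662) (nat_lit 5) (nat_lit 551) (nat_lit 534) (nat_lit 475))) (XT.nd (nat_lit 78) (nat_lit 0) (nat_lit 0) (XT.lf (nat_lit 0) (nat_lit 284000440) (nat_lit 1292) (nat_lit 6500244614) (nat_lit 1368) (nat_lit 717006787) (nat_lit 629) (nat_lit 5) (nat_lit 646) (nat_lit 5) (nat_lit 647) (nat_lit 5) (nat_lit 552) (nat_lit 534) (nat_lit 474)) (XT.lf (nat_lit 0) (nat_lit 2180404293) (nat_lit 1292) (nat_lit 2280486670) (nat_lit 1368) (nat_lit 3090622952) (nat_lit 629) (nat_lit 5) (nat_lit 646) (nat_lit 5) (nat_lit 647) (nat_lit 5) (nat_lit 553) (nat_lit 534) (nat_lit 473))))) (XT.nd (nat_lit 312) (nat_lit 4408)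 (nat_lit 0) (XT.nd (nat_lit 156) (nat_lit 1292) (nat_lit 0) (XT.nd (nat_lit 78) (nat_lit 0) (nat_lit 76) (XT.lf (nat_lit 76) (nat_lit 2021080665) (nat_lit 0) (nat_lit 2067099743) (nat_lit 1368) (nat_lit 3515134871) (nat_lit 630) (nat_lit 5) (nat_lit 629) (nat_lit 5) (nat_lit 647) (nat_lit 5) (nat_lit 554) (nat_lit 534) (nat_lit 472)) (XT.lf (nat_lit 0) (nat_lit 6012927078) (nat_lit 1292) (nat_lit 1248539913) (nat_lit 76) (nat_lit 395112252) (nat_lit 630) (nat_lit 5) (nat_lit 647) (nat_lit 5) (nat_lit 631) (nat_lit 5) (nat_lit 555) (nat_lit 534) (nat_lit 471))) (XT.nd (nat_lit 78) (nat_lit 0) (nat_lit 0) (XT.lf (nat_lit 0) (nat_lit 257770452) (nat_lit 1368) (nat_lit 4542133741) (nat_lit 76) (nat_lit 2911052829) (nat_lit 612) (nat_lit 5) (nat_lit 630) (nat_lit 5) (nat_lit 613) (nat_lit 5) (nat_lit 556) (nat_lit 534) (nat_lit 470)) (XT.lf (nat_lit 0) (nat_lit 2145720678) (nat_lit 1368) (nat_lit 115221058) (nat_lit 76) (nat_lit 5505855882) (nat_lit 612) (nat_lit 5) (nat_lit 630) (nat_lit 5) (nat_lit 613) (nat_lit 5) (nat_lit 557) (nat_lit 534)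 (nat_lit 469)))) (XT.nd (nat_lit 156) (nat_lit 1596) (nat_lit 0) (XT.nd (nat_lit 78) (nat_lit 1444) (nat_lit 0) (XT.lf (nat_lit 0) (nat_lit 4065365028) (nat_lit 1444) (nat_lit 3396888786) (nat_lit 76) (nat_lit 361625166) (nat_lit 594) (nat_lit 5) (nat_lit 613) (nat_lit 5) (nat_lit 595) (nat_lit 5) (nat_lit 558) (nat_lit 534) (nat_lit 468)) (XT.lf (nat_lit 0) (nat_lit 1150124064) (nat_lit 1444) (nat_lit 4859888907) (nat_lit 1520) (nat_lit 1872359388) (nat_lit 575) (nat_lit 5) (nat_lit 594) (nat_lit 5) (nat_lit 595) (nat_lit 5) (nat_lit 559) (nat_lit 534) (nat_lit 467))) (XT.nd (nat_lit 78) (nat_lit 1520) (nat_lit 0) (XT.lf (nat_lit 0) (nat_lit 37466417) (nat_lit 1520) (nat_lit 2137736163) (nat_lit 76) (nat_lit 5767096360) (nat_lit 574) (nat_lit 5) (nat_lit 594) (nat_lit 5) (nat_lit 575) (nat_lit 5) (nat_lit 560) (nat_lit 534) (nat_lit 466)) (XT.lf (nat_lit 0) (nat_lit 1945214647) (nat_lit 1596) (nat_lit 5467076017) (nat_lit 76) (nat_lit 591192379) (nat_lit 554) (nat_lit 5) (nat_lit 575) (nat_lit 5) (nat_lit 555) (nat_lit 5) (nat_lit 561)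 (nat_lit 534) (nat_lit 465)))))) (XT.nd (nat_lit 546) (nat_lit 4712) (nat_lit 0) (XT.nd (nat_lit 234) (nat_lit 3648) (nat_lit 0) (XT.nd (nat_lit 78) (nat_lit 3268) (nat_lit 0) (XT.lf (nat_lit 0) (nat_lit 3884902964) (nat_lit 1596) (nat_lit 776855016) (nat_lit 76) (nat_lit 3404259552) (nat_lit 554) (nat_lit 5) (nat_lit 575) (nat_lit 5) (nat_lit 555) (nat_lit 5) (nat_lit 562) (nat_lit 534) (nat_lit 464)) (XT.nd (nat_lit 78) (nat_lit 1672) (nat_lit 0) (XT.lf (nat_lit 0) (nat_lit 4030857956) (nat_lit 1596) (nat_lit 1824325027) (nat_lit 1672) (nat_lit 2274786127) (nat_lit 533) (nat_lit 5) (nat_lit 554) (nat_lit 5) (nat_lit 555) (nat_lit 5) (nat_lit 563) (nat_lit 534) (nat_lit 463)) (XT.lf (nat_lit 0) (nat_lit 722963462) (nat_lit 1672) (nat_lit 7124937486) (nat_lit 1748) (nat_lit 347640435) (nat_lit 511) (nat_lit 5) (nat_lit 533) (nat_lit 5) (nat_lit 534) (nat_lit 5) (nat_lit 564) (nat_lit 534) (nat_lit 462)))) (XT.nd (nat_lit 156) (nat_lit 1824) (nat_lit 0) (XT.nd (nat_lit 78) (nat_lit 1748) (nat_lit 0) (XT.lf (nat_lit 0) (nat_lit 1602991667)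 (nat_lit 1748) (nat_lit 2617551337) (nat_lit 76) (nat_lit 4041550920) (nat_lit 510) (nat_lit 5) (nat_lit 533) (nat_lit 5) (nat_lit 511) (nat_lit 5) (nat_lit 565) (nat_lit 534) (nat_lit 461)) (XT.lf (nat_lit 0) (nat_lit 2333514008) (nat_lit 1748) (nat_lit 1236675027) (nat_lit 1824) (nat_lit 4760100550) (nat_lit 487) (nat_lit 5) (nat_lit 510) (nat_lit 5) (nat_lit 511) (nat_lit 5) (nat_lit 566) (nat_lit 534) (nat_lit 460))) (XT.nd (nat_lit 78) (nat_lit 1824) (nat_lit 0) (XT.lf (nat_lit 0) (nat_lit 5573673873) (nat_lit 1824) (nat_lit 1022107622) (nat_lit 76) (nat_lit 1804130930) (nat_lit 487) (nat_lit 5) (nat_lit 511) (nat_lit 5) (nat_lit 488) (nat_lit 5) (nat_lit 567) (nat_lit 534) (nat_lit 459)) (XT.lf (nat_lit 0) (nat_lit 4067956660) (nat_lit 1824) (nat_lit 3552040823) (nat_lit 1900) (nat_lit 850876952) (nat_lit 463) (nat_lit 5) (nat_lit 487) (nat_lit 5) (nat_lit 488) (nat_lit 5) (nat_lit 568) (nat_lit 534) (nat_lit 458))))) (XT.nd (nat_lit 312) (nat_lit 2660) (nat_lit 0) (XT.nd (nat_lit 156) (nat_lit 912) (nat_lit 0) (XT.nd (nat_lit 78)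 (nat_lit 0) (nat_lit 0) (XT.lf (nat_lit 0) (nat_lit 702682966) (nat_lit 1064) (nat_lit 425902336) (nat_lit 1140) (nat_lit 7414924059) (nat_lit 448) (nat_lit 5) (nat_lit 462) (nat_lit 5) (nat_lit 463) (nat_lit 5) (nat_lit 569) (nat_lit 534) (nat_lit 457)) (XT.lf (nat_lit 0) (nat_lit 3152768009) (nat_lit 1140) (nat_lit 2700628336) (nat_lit 76) (nat_lit 2763759637) (nat_lit 448) (nat_lit 5) (nat_lit 463) (nat_lit 5) (nat_lit 449) (nat_lit 5) (nat_lit 570) (nat_lit 534) (nat_lit 456))) (XT.nd (nat_lit 78) (nat_lit 0) (nat_lit 0) (XT.lf (nat_lit 0) (nat_lit 2543566965) (nat_lit 912) (nat_lit 2662648134) (nat_lit 988) (nat_lit 3486286757) (nat_lit 436) (nat_lit 5) (nat_lit 448) (nat_lit 5) (nat_lit 449) (nat_lit 5) (nat_lit 571) (nat_lit 534) (nat_lit 455)) (XT.lf (nat_lit 0) (nat_lit 7292678820) (nat_lit 988) (nat_lit 873465094) (nat_lit 76) (nat_lit 603373676) (nat_lit 436) (nat_lit 5) (nat_lit 449) (nat_lit 5) (nat_lit 437) (nat_lit 5) (nat_lit 572) (nat_lit 534) (nat_lit 454)))) (XT.nd (nat_lit 156) (nat_lit 836) (nat_lit 0) (XT.nd (nat_lit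 78) (nat_lit 836) (nat_lit 0) (XT.lf (nat_lit 0) (nat_lit 582832456) (nat_lit 988) (nat_lit 4331580307) (nat_lit 76) (nat_lit 3933237385) (nat_lit 423) (nat_lit 5) (nat_lit 436) (nat_lit 5) (nat_lit 424) (nat_lit 5) (nat_lit 573) (nat_lit 534) (nat_lit 453)) (XT.lf (nat_lit 0) (nat_lit 1072879247) (nat_lit 836) (nat_lit 1574576677) (nat_lit 912) (nat_lit 6280025309) (nat_lit 412) (nat_lit 5) (nat_lit 423) (nat_lit 5) (nat_lit 424) (nat_lit 5) (nat_lit 574) (nat_lit 534) (nat_lit 452))) (XT.nd (nat_lit 78) (nat_lit 836) (nat_lit 0) (XT.lf (nat_lit 0) (nat_lit 4765560168) (nat_lit 912) (nat_lit 2406037579) (nat_lit 76) (nat_lit 1837069178) (nat_lit 412) (nat_lit 5) (nat_lit 424) (nat_lit 5) (nat_lit 413) (nat_lit 5) (nat_lit 575) (nat_lit 534) (nat_lit 451)) (XT.lf (nat_lit 0) (nat_lit 3153243194) (nat_lit 836) (nat_lit 3775285574) (nat_lit 912) (nat_lit 2162899236) (nat_lit 401) (nat_lit 5) (nat_lit 412) (nat_lit 5) (nat_lit 413) (nat_lit 5) (nat_lit 576) (nat_lit 534) (nat_lit 450))))))) (XT.nd (nat_lit 1170) (nat_lit 4332) (nat_lit 0) (XT.nd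 (nat_lit 546) (nat_lit 3572) (nat_lit 0) (XT.nd (nat_lit 234) (nat_lit 1596) (nat_lit 0) (XT.nd (nat_lit 78) (nat_lit 1748) (nat_lit 0) (XT.lf (nat_lit 0) (nat_lit 8827333433) (nat_lit 836) (nat_lit 295539356) (nat_lit 912) (nat_lit 53210877) (nat_lit 401) (nat_lit 5) (nat_lit 412) (nat_lit 5) (nat_lit 413) (nat_lit 5) (nat_lit 577) (nat_lit 534) (nat_lit 449)) (XT.nd (nat_lit 78) (nat_lit 836) (nat_lit 0) (XT.lf (nat_lit 0) (nat_lit 2099857741) (nat_lit 912) (nat_lit 3902832755) (nat_lit 76) (nat_lit 3258896826) (nat_lit 389) (nat_lit 5) (nat_lit 401) (nat_lit 5) (nat_lit 390) (nat_lit 5) (nat_lit 578) (nat_lit 534) (nat_lit 448)) (XT.lf (nat_lit 0) (nat_lit 1828902567) (nat_lit 836) (nat_lit 2455245366) (nat_lit 912) (nat_lit 5064870215) (nat_lit 378) (nat_lit 5) (nat_lit 389) (nat_lit 5) (nat_lit 390) (nat_lit 5) (nat_lit 579) (nat_lit 534) (nat_lit 447)))) (XT.nd (nat_lit 156) (nat_lit 836) (nat_lit 0) (XT.nd (nat_lit 78) (nat_lit 760) (nat_lit 0) (XT.lf (nat_lit 0) (nat_lit 6519058710) (nat_lit 912) (nat_lit 1746700307) (nat_lit 76)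 (nat_lit 1172301435) (nat_lit 378) (nat_lit 5) (nat_lit 390) (nat_lit 5) (nat_lit 379) (nat_lit 5) (nat_lit 580) (nat_lit 534) (nat_lit 446)) (XT.lf (nat_lit 0) (nat_lit 4151470992) (nat_lit 760) (nat_lit 4663959089) (nat_lit 836) (nat_lit 713119799) (nat_lit 368) (nat_lit 5) (nat_lit 378) (nat_lit 5) (nat_lit 379) (nat_lit 5) (nat_lit 581) (nat_lit 534) (nat_lit 445))) (XT.nd (nat_lit 78) (nat_lit 0) (nat_lit 0) (XT.lf (nat_lit 0) (nat_lit 538615567) (nat_lit 760) (nat_lit 967109892) (nat_lit 836) (nat_lit 8115145489) (nat_lit 357) (nat_lit 5) (nat_lit 367) (nat_lit 5) (nat_lit 368) (nat_lit 5) (nat_lit 582) (nat_lit 534) (nat_lit 444)) (XT.lf (nat_lit 0) (nat_lit 3787948646) (nat_lit 836) (nat_lit 3121341229) (nat_lit 76) (nat_lit 2805084733) (nat_lit 357) (nat_lit 5) (nat_lit 368) (nat_lit 5) (nat_lit 358) (nat_lit 5) (nat_lit 583) (nat_lit 534) (nat_lit 443))))) (XT.nd (nat_lit 312) (nat_lit 1368) (nat_lit 0) (XT.nd (nat_lit 156) (nat_lit 1520) (nat_lit 0) (XT.nd (nat_lit 78) (nat_lit 0) (nat_lit 0) (XT.lf (nat_lit 0) (nat_lit 2962444252)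 (nat_lit 684) (nat_lit 3153535854) (nat_lit 760) (nat_lit 3693766369) (nat_lit 348) (nat_lit 5) (nat_lit 357) (nat_lit 5) (nat_lit 358) (nat_lit 5) (nat_lit 584) (nat_lit 534) (nat_lit 442)) (XT.lf (nat_lit 0) (nat_lit 8490870822) (nat_lit 760) (nat_lit 730015269) (nat_lit 76) (nat_lit 686135096) (nat_lit 348) (nat_lit 5) (nat_lit 358) (nat_lit 5) (nat_lit 349) (nat_lit 5) (nat_lit 585) (nat_lit 534) (nat_lit 441))) (XT.nd (nat_lit 78) (nat_lit 684) (nat_lit 0) (XT.lf (nat_lit 0) (nat_lit 927450598) (nat_lit 836) (nat_lit 4478923274) (nat_lit 76) (nat_lit 4599104502) (nat_lit 337) (nat_lit 5) (nat_lit 348) (nat_lit 5) (nat_lit 338) (nat_lit 5) (nat_lit 586) (nat_lit 534) (nat_lit 440)) (XT.lf (nat_lit 0) (nat_lit 1797856320) (nat_lit 684) (nat_lit 1493174352) (nat_lit 760) (nat_lit 6814846733) (nat_lit 328) (nat_lit 5) (nat_lit 337) (nat_lit 5) (nat_lit 338) (nat_lit 5) (nat_lit 587) (nat_lit 534) (nat_lit 439)))) (XT.nd (nat_lit 156) (nat_lit 684) (nat_lit 0) (XT.nd (nat_lit 78) (nat_lit 684) (nat_lit 0) (XT.lf (nat_lit 0) (nat_lit 5724074620)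 (nat_lit 760) (nat_lit 1992146568) (nat_lit 76) (nat_lit 2491620659) (nat_lit 328) (nat_lit 5) (nat_lit 338) (nat_lit 5) (nat_lit 329) (nat_lit 5) (nat_lit 588) (nat_lit 534) (nat_lit 438)) (XT.lf (nat_lit 0) (nat_lit 4470426366) (nat_lit 684) (nat_lit 3750459508) (nat_lit 760) (nat_lit 2090658826) (nat_lit 319) (nat_lit 5) (nat_lit 328) (nat_lit 5) (nat_lit 329) (nat_lit 5) (nat_lit 589) (nat_lit 534) (nat_lit 437))) (XT.nd (nat_lit 78) (nat_lit 0) (nat_lit 0) (XT.lf (nat_lit 0) (nat_lit 341727131) (nat_lit 684) (nat_lit 9769540645) (nat_lit 76) (nat_lit 306089353) (nat_lit 310) (nat_lit 5) (nat_lit 319) (nat_lit 5) (nat_lit 311) (nat_lit 5) (nat_lit 590) (nat_lit 534) (nat_lit 436)) (XT.lf (nat_lit 0) (nat_lit 2835655590) (nat_lit 684) (nat_lit 3246476616) (nat_lit 76) (nat_lit 4442060619) (nat_lit 310) (nat_lit 5) (nat_lit 319) (nat_lit 5) (nat_lit 311) (nat_lit 5) (nat_lit 591) (nat_lit 534) (nat_lit 435)))))) (XT.nd (nat_lit 546) (nat_lit 1140) (nat_lit 0) (XT.nd (nat_lit 234) (nat_lit 1900) (nat_lit 0) (XT.nd (nat_lit 78) (nat_lit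 608) (nat_lit 0) (XT.lf (nat_lit 0) (nat_lit 3423775493) (nat_lit 684) (nat_lit 1954944480) (nat_lit 760) (nat_lit 5254461272) (nat_lit 301) (nat_lit 5) (nat_lit 310) (nat_lit 5) (nat_lit 311) (nat_lit 5) (nat_lit 592) (nat_lit 534) (nat_lit 434)) (XT.nd (nat_lit 78) (nat_lit 608) (nat_lit 0) (XT.lf (nat_lit 0) (nat_lit 7986477356) (nat_lit 760) (nat_lit 515670205) (nat_lit 76) (nat_lit 2241926370) (nat_lit 301) (nat_lit 5) (nat_lit 311) (nat_lit 5) (nat_lit 302) (nat_lit 5) (nat_lit 593) (nat_lit 534) (nat_lit 433)) (XT.lf (nat_lit 0) (nat_lit 6354478504) (nat_lit 608) (nat_lit 4323823658) (nat_lit 684) (nat_lit 178245174) (nat_lit 293) (nat_lit 5) (nat_lit 301) (nat_lit 5) (nat_lit 302) (nat_lit 5) (nat_lit 594) (nat_lit 534) (nat_lit 432)))) (XT.nd (nat_lit 156) (nat_lit 1216) (nat_lit 0) (XT.nd (nat_lit 78) (nat_lit 0) (nat_lit 0) (XT.lf (nat_lit 0) (nat_lit 2385186334) (nat_lit 608) (nat_lit 32127521) (nat_lit 684) (nat_lit 8553703170) (nat_lit 284) (nat_lit 5) (nat_lit 292) (nat_lit 5) (nat_lit 293) (nat_lit 5) (nat_lit 595) (nat_lit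 534) (nat_lit 431)) (XT.lf (nat_lit 0) (nat_lit 5099059239) (nat_lit 684) (nat_lit 1673737468) (nat_lit 76) (nat_lit 4314223646) (nat_lit 284) (nat_lit 5) (nat_lit 293) (nat_lit 5) (nat_lit 285) (nat_lit 5) (nat_lit 596) (nat_lit 534) (nat_lit 430))) (XT.nd (nat_lit 78) (nat_lit 608) (nat_lit 0) (XT.lf (nat_lit 0) (nat_lit 5419834430) (nat_lit 608) (nat_lit 2428472792) (nat_lit 684) (nat_lit 3356760198) (nat_lit 276) (nat_lit 5) (nat_lit 284) (nat_lit 5) (nat_lit 285) (nat_lit 5) (nat_lit 597) (nat_lit 534) (nat_lit 429)) (XT.lf (nat_lit 0) (nat_lit 1329233024) (nat_lit 608) (nat_lit 9334916326) (nat_lit 684) (nat_lit 661094901) (nat_lit 268) (nat_lit 5) (nat_lit 276) (nat_lit 5) (nat_lit 277) (nat_lit 5) (nat_lit 598) (nat_lit 534) (nat_lit 428))))) (XT.nd (nat_lit 76206) (nat_lit 0) (nat_lit 32908) (XT.nd (nat_lit 156) (nat_lit 532) (nat_lit 0) (XT.nd (nat_lit 78) (nat_lit 532) (nat_lit 0) (XT.lf (nat_lit 0) (nat_lit 2095022338) (nat_lit 684) (nat_lit 2840476521) (nat_lit 76) (nat_lit 6511376940) (nat_lit 267) (nat_lit 5) (nat_lit 276)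 (nat_lit 5) (nat_lit 268) (nat_lit 5) (nat_lit 599) (nat_lit 534) (nat_lit 427)) (XT.lf (nat_lit 0) (nat_lit 4485225565) (nat_lit 532) (nat_lit 420497764) (nat_lit 608) (nat_lit 6664963931) (nat_lit 260) (nat_lit 5) (nat_lit 267) (nat_lit 5) (nat_lit 268) (nat_lit 5) (nat_lit 600) (nat_lit 534) (nat_lit 426))) (XT.nd (nat_lit 78) (nat_lit 0) (nat_lit 0) (XT.lf (nat_lit 0) (nat_lit 247724421) (nat_lit 532) (nat_lit 7552252766) (nat_lit 608) (nat_lit 3896451917) (nat_lit 253) (nat_lit 5) (nat_lit 260) (nat_lit 5) (nat_lit 261) (nat_lit 5) (nat_lit 601) (nat_lit 534) (nat_lit 425)) (XT.lf (nat_lit 0) (nat_lit 7793400093) (nat_lit 532) (nat_lit 2988628825) (nat_lit 608) (nat_lit 1042059522) (nat_lit 253) (nat_lit 5) (nat_lit 260) (nat_lit 5) (nat_lit 261) (nat_lit 5) (nat_lit 602) (nat_lit 534) (nat_lit 424)))) (XT.nd (nat_lit 156) (nat_lit 988) (nat_lit 0) (XT.nd (nat_lit 78) (nat_lit 0) (nat_lit 0) (XT.lf (nat_lit 0) (nat_lit 2387014310) (nat_lit 988) (nat_lit 523945223) (nat_lit 988) (nat_lit 523945223) (nat_lit 699) (nat_lit 3) (nat_lit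 712) (nat_lit 3) (nat_lit 712) (nat_lit 5) (nat_lit 535) (nat_lit 535) (nat_lit 490)) (XT.lf (nat_lit 76) (nat_lit 2396106034) (nat_lit 0) (nat_lit 4395064536) (nat_lit 988) (nat_lit 107779617) (nat_lit 700) (nat_lit 5) (nat_lit 699) (nat_lit 3) (nat_lit 712) (nat_lit 5) (nat_lit 536) (nat_lit 535) (nat_lit 489))) (XT.nd (nat_lit 78) (nat_lit 0) (nat_lit 0) (XT.lf (nat_lit 0) (nat_lit 1850112297) (nat_lit 988) (nat_lit 1045037966) (nat_lit 1064) (nat_lit 4034172223) (nat_lit 686) (nat_lit 5) (nat_lit 699) (nat_lit 3) (nat_lit 700) (nat_lit 5) (nat_lit 537) (nat_lit 535) (nat_lit 488)) (XT.lf (nat_lit 76) (nat_lit 2487183928) (nat_lit 0) (nat_lit 1323932842) (nat_lit 1064) (nat_lit 3149867522) (nat_lit 687) (nat_lit 5) (nat_lit 686) (nat_lit 5) (nat_lit 700) (nat_lit 5) (nat_lit 538) (nat_lit 535) (nat_lit 487))))))))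
noncomputable def xc53 : XT := (XT.nd (nat_lit 2340) (nat_lit 14212) (nat_lit 0) (XT.nd (nat_lit 1170) (nat_lit 12540) (nat_lit 0) (XT.nd (nat_lit 546) (nat_lit 2356) (nat_lit 0) (XT.nd (nat_lit 234) (nat_lit 1064) (nat_lit 0) (XT.nd (nat_lit 78) (nat_lit 1064) (nat_lit 0) (XT.lf (nat_lit 0) (nat_lit 5770433756) (nat_lit 988) (nat_lit 918405326) (nat_lit 1064) (nat_lit 305262593) (nat_lit 687) (nat_lit 5) (nat_lit 700) (nat_lit 5) (nat_lit 701) (nat_lit 5) (nat_lit 539) (nat_lit 535) (nat_lit 486)) (XT.nd (nat_lit 78) (nat_lit 0) (nat_lit 0) (XT.lf (nat_lit 0) (nat_lit 708731850) (nat_lit 1064) (nat_lit 4325239255) (nat_lit 1140) (nat_lit 1994270191) (nat_lit 673) (nat_lit 5) (nat_lit 687) (nat_lit 5) (nat_lit 688) (nat_lit 5) (nat_lit 540) (nat_lit 535) (nat_lit 485)) (XT.lf (nat_lit 0) (nat_lit 2621273688) (nat_lit 1064) (nat_lit 689350987) (nat_lit 1140) (nat_lit 3753123632) (nat_lit 673) (nat_lit 5) (nat_lit 687) (nat_lit 5) (nat_lit 688) (nat_lit 5) (nat_lit 541) (nat_lit 535) (nat_lit 484)))) (XT.nd (nat_lit 156) (nat_lit 1064) (nat_lit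 0) (XT.nd (nat_lit 78) (nat_lit 0) (nat_lit 76) (XT.lf (nat_lit 76) (nat_lit 3032007879) (nat_lit 0) (nat_lit 1512352005) (nat_lit 1140) (nat_lit 2556163571) (nat_lit 674) (nat_lit 5) (nat_lit 673) (nat_lit 5) (nat_lit 688) (nat_lit 5) (nat_lit 542) (nat_lit 535) (nat_lit 483)) (XT.lf (nat_lit 0) (nat_lit 6466145563) (nat_lit 1064) (nat_lit 330823753) (nat_lit 1140) (nat_lit 341863826) (nat_lit 674) (nat_lit 5) (nat_lit 688) (nat_lit 5) (nat_lit 689) (nat_lit 5) (nat_lit 543) (nat_lit 535) (nat_lit 482))) (XT.nd (nat_lit 78) (nat_lit 0) (nat_lit 0) (XT.lf (nat_lit 0) (nat_lit 1219073329) (nat_lit 1140) (nat_lit 3696165580) (nat_lit 1216) (nat_lit 2262771859) (nat_lit 659) (nat_lit 5) (nat_lit 674) (nat_lit 5) (nat_lit 675) (nat_lit 5) (nat_lit 544) (nat_lit 535) (nat_lit 481)) (XT.lf (nat_lit 76) (nat_lit 126740126) (nat_lit 0) (nat_lit 2970808121) (nat_lit 1216) (nat_lit 4121180624) (nat_lit 660) (nat_lit 5) (nat_lit 659) (nat_lit 5) (nat_lit 675) (nat_lit 5) (nat_lit 545) (nat_lit 535) (nat_lit 480))))) (XT.nd (nat_lit 312) (nat_lit 1216)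 (nat_lit 0) (XT.nd (nat_lit 156) (nat_lit 1140) (nat_lit 0) (XT.nd (nat_lit 78) (nat_lit 0) (nat_lit 76) (XT.lf (nat_lit 76) (nat_lit 4048612317) (nat_lit 0) (nat_lit 945310357) (nat_lit 1216) (nat_lit 2266735564) (nat_lit 660) (nat_lit 5) (nat_lit 659) (nat_lit 5) (nat_lit 675) (nat_lit 5) (nat_lit 546) (nat_lit 535) (nat_lit 479)) (XT.lf (nat_lit 76) (nat_lit 719621445) (nat_lit 0) (nat_lit 6177057974) (nat_lit 1216) (nat_lit 407381112) (nat_lit 661) (nat_lit 5) (nat_lit 660) (nat_lit 5) (nat_lit 676) (nat_lit 5) (nat_lit 547) (nat_lit 535) (nat_lit 478))) (XT.nd (nat_lit 78) (nat_lit 0) (nat_lit 0) (XT.lf (nat_lit 0) (nat_lit 1454478755) (nat_lit 1216) (nat_lit 2618936900) (nat_lit 1292) (nat_lit 3275028165) (nat_lit 644) (nat_lit 5) (nat_lit 660) (nat_lit 5) (nat_lit 661) (nat_lit 5) (nat_lit 548) (nat_lit 535) (nat_lit 477)) (XT.lf (nat_lit 76) (nat_lit 1413850033) (nat_lit 0) (nat_lit 1901192309) (nat_lit 1292) (nat_lit 4079283386) (nat_lit 645) (nat_lit 5) (nat_lit 644) (nat_lit 5) (nat_lit 661) (nat_lit 5) (nat_lit 549) (nat_lit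 535) (nat_lit 476)))) (XT.nd (nat_lit 156) (nat_lit 1292) (nat_lit 0) (XT.nd (nat_lit 78) (nat_lit 0) (nat_lit 0) (XT.lf (nat_lit 0) (nat_lit 5191025780) (nat_lit 1216) (nat_lit 1908751710) (nat_lit 1292) (nat_lit 341786786) (nat_lit 645) (nat_lit 5) (nat_lit 661) (nat_lit 5) (nat_lit 662) (nat_lit 5) (nat_lit 550) (nat_lit 535) (nat_lit 475)) (XT.lf (nat_lit 76) (nat_lit 2233051142) (nat_lit 0) (nat_lit 4857857029) (nat_lit 1292) (nat_lit 399114949) (nat_lit 646) (nat_lit 5) (nat_lit 645) (nat_lit 5) (nat_lit 662) (nat_lit 5) (nat_lit 551) (nat_lit 535) (nat_lit 474))) (XT.nd (nat_lit 78) (nat_lit 0) (nat_lit 0) (XT.lf (nat_lit 0) (nat_lit 1442336636) (nat_lit 1292) (nat_lit 1093792491) (nat_lit 1368) (nat_lit 5003680959) (nat_lit 628) (nat_lit 5) (nat_lit 645) (nat_lit 5) (nat_lit 646) (nat_lit 5) (nat_lit 552) (nat_lit 535) (nat_lit 473)) (XT.lf (nat_lit 76) (nat_lit 3163649649) (nat_lit 0) (nat_lit 132599291) (nat_lit 1368) (nat_lit 4294674503) (nat_lit 629) (nat_lit 5) (nat_lit 628) (nat_lit 5) (nat_lit 646) (nat_lit 5) (nat_lit 553)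 (nat_lit 535) (nat_lit 472)))))) (XT.nd (nat_lit 546) (nat_lit 8436) (nat_lit 0) (XT.nd (nat_lit 234) (nat_lit 2812) (nat_lit 0) (XT.nd (nat_lit 78) (nat_lit 1368) (nat_lit 0) (XT.lf (nat_lit 0) (nat_lit 5170784506) (nat_lit 1292) (nat_lit 165472252) (nat_lit 1368) (nat_lit 2307134282) (nat_lit 629) (nat_lit 5) (nat_lit 646) (nat_lit 5) (nat_lit 647) (nat_lit 5) (nat_lit 554) (nat_lit 535) (nat_lit 471)) (XT.nd (nat_lit 78) (nat_lit 1368) (nat_lit 0) (XT.lf (nat_lit 76) (nat_lit 4207911798) (nat_lit 0) (nat_lit 2864960414) (nat_lit 1368) (nat_lit 624237367) (nat_lit 630) (nat_lit 5) (nat_lit 629) (nat_lit 5) (nat_lit 647) (nat_lit 5) (nat_lit 555) (nat_lit 535) (nat_lit 470)) (XT.lf (nat_lit 76) (nat_lit 894376663) (nat_lit 0) (nat_lit 319286254) (nat_lit 1444) (nat_lit 6538696457) (nat_lit 612) (nat_lit 5) (nat_lit 611) (nat_lit 5) (nat_lit 630) (nat_lit 5) (nat_lit 556) (nat_lit 535) (nat_lit 469)))) (XT.nd (nat_lit 156) (nat_lit 1520) (nat_lit 0) (XT.nd (nat_lit 78) (nat_lit 1368) (nat_lit 0) (XT.lf (nat_lit 0) (nat_lit 3081122945) (nat_lit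 1368) (nat_lit 2443306707) (nat_lit 76) (nat_lit 2284181438) (nat_lit 612) (nat_lit 5) (nat_lit 630) (nat_lit 5) (nat_lit 613) (nat_lit 5) (nat_lit 557) (nat_lit 535) (nat_lit 468)) (XT.lf (nat_lit 0) (nat_lit 2056176655) (nat_lit 1368) (nat_lit 2908746817) (nat_lit 1444) (nat_lit 2901487145) (nat_lit 594) (nat_lit 5) (nat_lit 612) (nat_lit 5) (nat_lit 613) (nat_lit 5) (nat_lit 558) (nat_lit 535) (nat_lit 467))) (XT.nd (nat_lit 78) (nat_lit 1520) (nat_lit 0) (XT.lf (nat_lit 0) (nat_lit 6650616979) (nat_lit 1368) (nat_lit 216238041) (nat_lit 1444) (nat_lit 1058904566) (nat_lit 594) (nat_lit 5) (nat_lit 612) (nat_lit 5) (nat_lit 613) (nat_lit 5) (nat_lit 559) (nat_lit 535) (nat_lit 466)) (XT.lf (nat_lit 0) (nat_lit 812775379) (nat_lit 1520) (nat_lit 4641786039) (nat_lit 76) (nat_lit 2531569879) (nat_lit 574) (nat_lit 5) (nat_lit 594) (nat_lit 5) (nat_lit 575) (nat_lit 5) (nat_lit 560) (nat_lit 535) (nat_lit 465))))) (XT.nd (nat_lit 312) (nat_lit 5244) (nat_lit 0) (XT.nd (nat_lit 156) (nat_lit 1672) (nat_lit 0) (XT.nd (nat_lit 78) (nat_lit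 1520) (nat_lit 0) (XT.lf (nat_lit 0) (nat_lit 2682857411) (nat_lit 1520) (nat_lit 11169817) (nat_lit 76) (nat_lit 5354042687) (nat_lit 574) (nat_lit 5) (nat_lit 594) (nat_lit 5) (nat_lit 575) (nat_lit 5) (nat_lit 561) (nat_lit 535) (nat_lit 464)) (XT.lf (nat_lit 0) (nat_lit 4587963973) (nat_lit 1596) (nat_lit 3366121238) (nat_lit 76) (nat_lit 157211995) (nat_lit 554) (nat_lit 5) (nat_lit 575) (nat_lit 5) (nat_lit 555) (nat_lit 5) (nat_lit 562) (nat_lit 535) (nat_lit 463))) (XT.nd (nat_lit 78) (nat_lit 76) (nat_lit 0) (XT.lf (nat_lit 0) (nat_lit 1392832285) (nat_lit 1596) (nat_lit 5131601177) (nat_lit 1672) (nat_lit 1651492676) (nat_lit 533) (nat_lit 5) (nat_lit 554) (nat_lit 5) (nat_lit 555) (nat_lit 5) (nat_lit 563) (nat_lit 535) (nat_lit 462)) (XT.lf (nat_lit 0) (nat_lit 243696756) (nat_lit 1672) (nat_lit 1979489897) (nat_lit 76) (nat_lit 6018843884) (nat_lit 532) (nat_lit 5) (nat_lit 554) (nat_lit 5) (nat_lit 533) (nat_lit 5) (nat_lit 564) (nat_lit 535) (nat_lit 461)))) (XT.nd (nat_lit 156) (nat_lit 3572) (nat_lit 0) (XT.nd (nat_lit 78)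 (nat_lit 0) (nat_lit 0) (XT.lf (nat_lit 0) (nat_lit 2145915220) (nat_lit 1748) (nat_lit 5395333774) (nat_lit 76) (nat_lit 768167106) (nat_lit 510) (nat_lit 5) (nat_lit 533) (nat_lit 5) (nat_lit 511) (nat_lit 5) (nat_lit 565) (nat_lit 535) (nat_lit 460)) (XT.lf (nat_lit 0) (nat_lit 4081971020) (nat_lit 1748) (nat_lit 489124471) (nat_lit 76) (nat_lit 3807140159) (nat_lit 510) (nat_lit 5) (nat_lit 533) (nat_lit 5) (nat_lit 511) (nat_lit 5) (nat_lit 566) (nat_lit 535) (nat_lit 459))) (XT.nd (nat_lit 78) (nat_lit 1824) (nat_lit 0) (XT.lf (nat_lit 0) (nat_lit 4546614959) (nat_lit 1748) (nat_lit 1507984468) (nat_lit 1824) (nat_lit 2393877229) (nat_lit 487) (nat_lit 5) (nat_lit 510) (nat_lit 5) (nat_lit 511) (nat_lit 5) (nat_lit 567) (nat_lit 535) (nat_lit 458)) (XT.lf (nat_lit 0) (nat_lit 1145463703) (nat_lit 1824) (nat_lit 6911243969) (nat_lit 1900) (nat_lit 463616316) (nat_lit 463) (nat_lit 5) (nat_lit 487) (nat_lit 5) (nat_lit 488) (nat_lit 5) (nat_lit 568) (nat_lit 535) (nat_lit 457))))))) (XT.nd (nat_lit 1170) (nat_lit 6156) (nat_lit 0) (XT.nd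 (nat_lit 546) (nat_lit 4180) (nat_lit 0) (XT.nd (nat_lit 234) (nat_lit 2736) (nat_lit 0) (XT.nd (nat_lit 78) (nat_lit 1064) (nat_lit 0) (XT.lf (nat_lit 0) (nat_lit 1490864338) (nat_lit 1900) (nat_lit 2295301821) (nat_lit 76) (nat_lit 4807141495) (nat_lit 462) (nat_lit 5) (nat_lit 487) (nat_lit 5) (nat_lit 463) (nat_lit 5) (nat_lit 569) (nat_lit 535) (nat_lit 456)) (XT.nd (nat_lit 78) (nat_lit 0) (nat_lit 0) (XT.lf (nat_lit 0) (nat_lit 2892367835) (nat_lit 1064) (nat_lit 574264067) (nat_lit 1140) (nat_lit 5201291636) (nat_lit 448) (nat_lit 5) (nat_lit 462) (nat_lit 5) (nat_lit 463) (nat_lit 5) (nat_lit 570) (nat_lit 535) (nat_lit 455)) (XT.lf (nat_lit 0) (nat_lit 5485006641) (nat_lit 1140) (nat_lit 575233865) (nat_lit 76) (nat_lit 2683731291) (nat_lit 448) (nat_lit 5) (nat_lit 463) (nat_lit 5) (nat_lit 449) (nat_lit 5) (nat_lit 571) (nat_lit 535) (nat_lit 454)))) (XT.nd (nat_lit 156) (nat_lit 836) (nat_lit 0) (XT.nd (nat_lit 78) (nat_lit 988) (nat_lit 0) (XT.lf (nat_lit 0) (nat_lit 4759507138) (nat_lit 912) (nat_lit 2789578808) (nat_lit 988)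 (nat_lit 1272350194) (nat_lit 436) (nat_lit 5) (nat_lit 448) (nat_lit 5) (nat_lit 449) (nat_lit 5) (nat_lit 572) (nat_lit 535) (nat_lit 453)) (XT.lf (nat_lit 0) (nat_lit 730881544) (nat_lit 988) (nat_lit 7612376795) (nat_lit 76) (nat_lit 557359841) (nat_lit 423) (nat_lit 5) (nat_lit 436) (nat_lit 5) (nat_lit 424) (nat_lit 5) (nat_lit 573) (nat_lit 535) (nat_lit 452))) (XT.nd (nat_lit 78) (nat_lit 836) (nat_lit 0) (XT.lf (nat_lit 0) (nat_lit 2774293941) (nat_lit 988) (nat_lit 2236247585) (nat_lit 76) (nat_lit 3970332828) (nat_lit 423) (nat_lit 5) (nat_lit 436) (nat_lit 5) (nat_lit 424) (nat_lit 5) (nat_lit 574) (nat_lit 535) (nat_lit 451)) (XT.lf (nat_lit 0) (nat_lit 3261946132) (nat_lit 836) (nat_lit 1589596033) (nat_lit 912) (nat_lit 4211335852) (nat_lit 412) (nat_lit 5) (nat_lit 423) (nat_lit 5) (nat_lit 424) (nat_lit 5) (nat_lit 575) (nat_lit 535) (nat_lit 450))))) (XT.nd (nat_lit 312) (nat_lit 2432) (nat_lit 0) (XT.nd (nat_lit 156) (nat_lit 912) (nat_lit 0) (XT.nd (nat_lit 78) (nat_lit 836) (nat_lit 0) (XT.lf (nat_lit 0) (nat_lit 6969934185)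 (nat_lit 912) (nat_lit 286849318) (nat_lit 76) (nat_lit 1889747957) (nat_lit 412) (nat_lit 5) (nat_lit 424) (nat_lit 5) (nat_lit 413) (nat_lit 5) (nat_lit 576) (nat_lit 535) (nat_lit 449)) (XT.lf (nat_lit 0) (nat_lit 5369358459) (nat_lit 836) (nat_lit 3779428557) (nat_lit 912) (nat_lit 82710747) (nat_lit 401) (nat_lit 5) (nat_lit 412) (nat_lit 5) (nat_lit 413) (nat_lit 5) (nat_lit 577) (nat_lit 535) (nat_lit 448))) (XT.nd (nat_lit 78) (nat_lit 0) (nat_lit 0) (XT.lf (nat_lit 0) (nat_lit 1806577981) (nat_lit 836) (nat_lit 206095206) (nat_lit 912) (nat_lit 7305494280) (nat_lit 389) (nat_lit 5) (nat_lit 400) (nat_lit 5) (nat_lit 401) (nat_lit 5) (nat_lit 578) (nat_lit 535) (nat_lit 447)) (XT.lf (nat_lit 0) (nat_lit 4170493482) (nat_lit 912) (nat_lit 1816645976) (nat_lit 76) (nat_lit 3418989004) (nat_lit 389) (nat_lit 5) (nat_lit 401) (nat_lit 5) (nat_lit 390) (nat_lit 5) (nat_lit 579) (nat_lit 535) (nat_lit 446)))) (XT.nd (nat_lit 156) (nat_lit 836) (nat_lit 0) (XT.nd (nat_lit 78) (nat_lit 760) (nat_lit 0) (XT.lf (nat_lit 0) (nat_lit 4015485609)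 (nat_lit 836) (nat_lit 2357165901) (nat_lit 912) (nat_lit 3123175065) (nat_lit 378) (nat_lit 5) (nat_lit 389) (nat_lit 5) (nat_lit 390) (nat_lit 5) (nat_lit 580) (nat_lit 535) (nat_lit 445)) (XT.lf (nat_lit 0) (nat_lit 369507241) (nat_lit 760) (nat_lit 8246818235) (nat_lit 836) (nat_lit 971045214) (nat_lit 368) (nat_lit 5) (nat_lit 378) (nat_lit 5) (nat_lit 379) (nat_lit 5) (nat_lit 581) (nat_lit 535) (nat_lit 444))) (XT.nd (nat_lit 78) (nat_lit 760) (nat_lit 0) (XT.lf (nat_lit 0) (nat_lit 1234924220) (nat_lit 836) (nat_lit 3321662680) (nat_lit 76) (nat_lit 5123464235) (nat_lit 367) (nat_lit 5) (nat_lit 378) (nat_lit 5) (nat_lit 368) (nat_lit 5) (nat_lit 582) (nat_lit 535) (nat_lit 443)) (XT.lf (nat_lit 0) (nat_lit 2693424101) (nat_lit 760) (nat_lit 770813498) (nat_lit 836) (nat_lit 6310376090) (nat_lit 357) (nat_lit 5) (nat_lit 367) (nat_lit 5) (nat_lit 368) (nat_lit 5) (nat_lit 583) (nat_lit 535) (nat_lit 442)))))) (XT.nd (nat_lit 546) (nat_lit 3268) (nat_lit 0) (XT.nd (nat_lit 234) (nat_lit 1368) (nat_lit 0) (XT.nd (nat_lit 78) (nat_lit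 1520) (nat_lit 0) (XT.lf (nat_lit 0) (nat_lit 5755666148) (nat_lit 836) (nat_lit 1045228022) (nat_lit 76) (nat_lit 3069824127) (nat_lit 357) (nat_lit 5) (nat_lit 368) (nat_lit 5) (nat_lit 358) (nat_lit 5) (nat_lit 584) (nat_lit 535) (nat_lit 441)) (XT.nd (nat_lit 78) (nat_lit 836) (nat_lit 0) (XT.lf (nat_lit 0) (nat_lit 5146163827) (nat_lit 684) (nat_lit 2960790656) (nat_lit 760) (nat_lit 1861511243) (nat_lit 348) (nat_lit 5) (nat_lit 357) (nat_lit 5) (nat_lit 358) (nat_lit 5) (nat_lit 585) (nat_lit 535) (nat_lit 440)) (XT.lf (nat_lit 0) (nat_lit 429451359) (nat_lit 836) (nat_lit 8679470909) (nat_lit 76) (nat_lit 959228709) (nat_lit 337) (nat_lit 5) (nat_lit 348) (nat_lit 5) (nat_lit 338) (nat_lit 5) (nat_lit 586) (nat_lit 535) (nat_lit 439)))) (XT.nd (nat_lit 156) (nat_lit 684) (nat_lit 0) (XT.nd (nat_lit 78) (nat_lit 684) (nat_lit 0) (XT.lf (nat_lit 0) (nat_lit 2769442191) (nat_lit 836) (nat_lit 2440179309) (nat_lit 76) (nat_lit 4959400925) (nat_lit 337) (nat_lit 5) (nat_lit 348) (nat_lit 5) (nat_lit 338) (nat_lit 5) (nat_lit 587) (nat_lit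 535) (nat_lit 438)) (XT.lf (nat_lit 0) (nat_lit 3948133756) (nat_lit 684) (nat_lit 1210133905) (nat_lit 760) (nat_lit 5113604195) (nat_lit 328) (nat_lit 5) (nat_lit 337) (nat_lit 5) (nat_lit 338) (nat_lit 5) (nat_lit 588) (nat_lit 535) (nat_lit 437))) (XT.nd (nat_lit 78) (nat_lit 0) (nat_lit 0) (XT.lf (nat_lit 0) (nat_lit 75283967) (nat_lit 684) (nat_lit 7531847168) (nat_lit 760) (nat_lit 2769403137) (nat_lit 319) (nat_lit 5) (nat_lit 328) (nat_lit 5) (nat_lit 329) (nat_lit 5) (nat_lit 589) (nat_lit 535) (nat_lit 436)) (XT.lf (nat_lit 0) (nat_lit 6652263854) (nat_lit 684) (nat_lit 3480043048) (nat_lit 760) (nat_lit 350437537) (nat_lit 319) (nat_lit 5) (nat_lit 328) (nat_lit 5) (nat_lit 329) (nat_lit 5) (nat_lit 590) (nat_lit 535) (nat_lit 435))))) (XT.nd (nat_lit 312) (nat_lit 1292) (nat_lit 0) (XT.nd (nat_lit 156) (nat_lit 1292) (nat_lit 0) (XT.nd (nat_lit 78) (nat_lit 0) (nat_lit 0) (XT.lf (nat_lit 0) (nat_lit 2088752493) (nat_lit 684) (nat_lit 7830481994) (nat_lit 76) (nat_lit 671578415) (nat_lit 310) (nat_lit 5) (nat_lit 319) (nat_lit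 5) (nat_lit 311) (nat_lit 5) (nat_lit 591) (nat_lit 535) (nat_lit 434)) (XT.lf (nat_lit 0) (nat_lit 4598438132) (nat_lit 684) (nat_lit 1218808636) (nat_lit 76) (nat_lit 4883222689) (nat_lit 310) (nat_lit 5) (nat_lit 319) (nat_lit 5) (nat_lit 311) (nat_lit 5) (nat_lit 592) (nat_lit 535) (nat_lit 433))) (XT.nd (nat_lit 78) (nat_lit 608) (nat_lit 0) (XT.lf (nat_lit 0) (nat_lit 5571081427) (nat_lit 684) (nat_lit 1601327180) (nat_lit 760) (nat_lit 3639629825) (nat_lit 301) (nat_lit 5) (nat_lit 310) (nat_lit 5) (nat_lit 311) (nat_lit 5) (nat_lit 593) (nat_lit 535) (nat_lit 432)) (XT.lf (nat_lit 0) (nat_lit 1563231281) (nat_lit 608) (nat_lit 8248678106) (nat_lit 684) (nat_lit 1113649470) (nat_lit 293) (nat_lit 5) (nat_lit 301) (nat_lit 5) (nat_lit 302) (nat_lit 5) (nat_lit 594) (nat_lit 535) (nat_lit 431)))) (XT.nd (nat_lit 156) (nat_lit 608) (nat_lit 0) (XT.nd (nat_lit 78) (nat_lit 608) (nat_lit 0) (XT.lf (nat_lit 0) (nat_lit 1467925748) (nat_lit 684) (nat_lit 2513855168) (nat_lit 76) (nat_lit 7058894649) (nat_lit 292) (nat_lit 5) (nat_lit 301)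 (nat_lit 5) (nat_lit 293) (nat_lit 5) (nat_lit 595) (nat_lit 535) (nat_lit 430)) (XT.lf (nat_lit 0) (nat_lit 4096718804) (nat_lit 684) (nat_lit 6664102267) (nat_lit 76) (nat_lit 396917378) (nat_lit 284) (nat_lit 5) (nat_lit 293) (nat_lit 5) (nat_lit 285) (nat_lit 5) (nat_lit 596) (nat_lit 535) (nat_lit 429))) (XT.nd (nat_lit 78) (nat_lit 0) (nat_lit 0) (XT.lf (nat_lit 0) (nat_lit 349560838) (nat_lit 608) (nat_lit 6453034887) (nat_lit 684) (nat_lit 4474057709) (nat_lit 276) (nat_lit 5) (nat_lit 284) (nat_lit 5) (nat_lit 285) (nat_lit 5) (nat_lit 597) (nat_lit 535) (nat_lit 428)) (XT.lf (nat_lit 0) (nat_lit 7566918382) (nat_lit 608) (nat_lit 2019518672) (nat_lit 684) (nat_lit 1811033715) (nat_lit 276) (nat_lit 5) (nat_lit 284) (nat_lit 5) (nat_lit 285) (nat_lit 5) (nat_lit 598) (nat_lit 535) (nat_lit 427))))))))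
noncomputable def xc54 : XT := (XT.nd (nat_lit 78390) (nat_lit 0) (nat_lit 3800) (XT.nd (nat_lit 77220) (nat_lit 0) (nat_lit 22344) (XT.nd (nat_lit 76596) (nat_lit 0) (nat_lit 29108) (XT.nd (nat_lit 76284) (nat_lit 0) (nat_lit 31312) (XT.nd (nat_lit 78) (nat_lit 532) (nat_lit 0) (XT.lf (nat_lit 0) (nat_lit 911380343) (nat_lit 684) (nat_lit 8116712661) (nat_lit 76) (nat_lit 2492134804) (nat_lit 267) (nat_lit 5) (nat_lit 276) (nat_lit 5) (nat_lit 268) (nat_lit 5) (nat_lit 599) (nat_lit 535) (nat_lit 426)) (XT.nd (nat_lit 78) (nat_lit 532) (nat_lit 0) (XT.lf (nat_lit 0) (nat_lit 3682857448) (nat_lit 684) (nat_lit 863128523) (nat_lit 76) (nat_lit 7098838236) (nat_lit 267) (nat_lit 5) (nat_lit 276) (nat_lit 5) (nat_lit 268) (nat_lit 5) (nat_lit 600) (nat_lit 535) (nat_lit 425)) (XT.lf (nat_lit 0) (nat_lit 6532990074) (nat_lit 608) (nat_lit 5176161981) (nat_lit 76) (nat_lit 62296870) (nat_lit 260) (nat_lit 5) (nat_lit 268) (nat_lit 5) (nat_lit 261) (nat_lit 5) (nat_lit 601) (nat_lit 535) (nat_lit 424)))) (XT.nd (nat_lit 156) (nat_lit 1064) (nat_lit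 0) (XT.nd (nat_lit 78) (nat_lit 0) (nat_lit 0) (XT.lf (nat_lit 0) (nat_lit 452653350) (nat_lit 0) (nat_lit 452653350) (nat_lit 988) (nat_lit 2559067221) (nat_lit 686) (nat_lit 5) (nat_lit 686) (nat_lit 3) (nat_lit 699) (nat_lit 3) (nat_lit 536) (nat_lit 536) (nat_lit 488)) (XT.lf (nat_lit 0) (nat_lit 3736089209) (nat_lit 988) (nat_lit 2573648220) (nat_lit 1064) (nat_lit 649990880) (nat_lit 686) (nat_lit 5) (nat_lit 699) (nat_lit 3) (nat_lit 700) (nat_lit 5) (nat_lit 537) (nat_lit 536) (nat_lit 487))) (XT.nd (nat_lit 78) (nat_lit 1064) (nat_lit 0) (XT.lf (nat_lit 76) (nat_lit 925154692) (nat_lit 0) (nat_lit 4737165196) (nat_lit 1064) (nat_lit 1329767778) (nat_lit 687) (nat_lit 5) (nat_lit 686) (nat_lit 5) (nat_lit 700) (nat_lit 5) (nat_lit 538) (nat_lit 536) (nat_lit 486)) (XT.lf (nat_lit 0) (nat_lit 562192921) (nat_lit 1064) (nat_lit 2526562553) (nat_lit 1140) (nat_lit 3936902450) (nat_lit 672) (nat_lit 5) (nat_lit 686) (nat_lit 5) (nat_lit 687) (nat_lit 5) (nat_lit 539) (nat_lit 536) (nat_lit 485))))) (XT.nd (nat_lit 312) (nat_lit 1140)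 (nat_lit 0) (XT.nd (nat_lit 156) (nat_lit 1064) (nat_lit 0) (XT.nd (nat_lit 78) (nat_lit 0) (nat_lit 76) (XT.lf (nat_lit 76) (nat_lit 1063669812) (nat_lit 0) (nat_lit 1369128491) (nat_lit 1140) (nat_lit 4627757213) (nat_lit 673) (nat_lit 5) (nat_lit 672) (nat_lit 5) (nat_lit 687) (nat_lit 5) (nat_lit 540) (nat_lit 536) (nat_lit 484)) (XT.lf (nat_lit 0) (nat_lit 4312989324) (nat_lit 1064) (nat_lit 2365480668) (nat_lit 1140) (nat_lit 418241465) (nat_lit 673) (nat_lit 5) (nat_lit 687) (nat_lit 5) (nat_lit 688) (nat_lit 5) (nat_lit 541) (nat_lit 536) (nat_lit 483))) (XT.nd (nat_lit 78) (nat_lit 1140) (nat_lit 0) (XT.lf (nat_lit 76) (nat_lit 1320318771) (nat_lit 0) (nat_lit 4881641830) (nat_lit 1140) (nat_lit 932210179) (nat_lit 674) (nat_lit 5) (nat_lit 673) (nat_lit 5) (nat_lit 688) (nat_lit 5) (nat_lit 542) (nat_lit 536) (nat_lit 482)) (XT.lf (nat_lit 0) (nat_lit 913739025) (nat_lit 1140) (nat_lit 2093401129) (nat_lit 1216) (nat_lit 4165719608) (nat_lit 658) (nat_lit 5) (nat_lit 673) (nat_lit 5) (nat_lit 674) (nat_lit 5) (nat_lit 543) (nat_lit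 536) (nat_lit 481)))) (XT.nd (nat_lit 156) (nat_lit 1140) (nat_lit 0) (XT.nd (nat_lit 78) (nat_lit 0) (nat_lit 76) (XT.lf (nat_lit 76) (nat_lit 1691067812) (nat_lit 0) (nat_lit 1058921579) (nat_lit 1216) (nat_lit 4462896180) (nat_lit 659) (nat_lit 5) (nat_lit 658) (nat_lit 5) (nat_lit 674) (nat_lit 5) (nat_lit 544) (nat_lit 536) (nat_lit 480)) (XT.lf (nat_lit 0) (nat_lit 4598838461) (nat_lit 1140) (nat_lit 1707180350) (nat_lit 1216) (nat_lit 948179113) (nat_lit 659) (nat_lit 5) (nat_lit 674) (nat_lit 5) (nat_lit 675) (nat_lit 5) (nat_lit 545) (nat_lit 536) (nat_lit 479))) (XT.nd (nat_lit 78) (nat_lit 1216) (nat_lit 0) (XT.lf (nat_lit 76) (nat_lit 2178611704) (nat_lit 0) (nat_lit 4283784990) (nat_lit 1216) (nat_lit 834388621) (nat_lit 660) (nat_lit 5) (nat_lit 659) (nat_lit 5) (nat_lit 675) (nat_lit 5) (nat_lit 546) (nat_lit 536) (nat_lit 478)) (XT.lf (nat_lit 0) (nat_lit 978084065) (nat_lit 1216) (nat_lit 1208550125) (nat_lit 1292) (nat_lit 5154090741) (nat_lit 643) (nat_lit 5) (nat_lit 659) (nat_lit 5) (nat_lit 660) (nat_lit 5) (nat_lit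 547) (nat_lit 536) (nat_lit 477)))))) (XT.nd (nat_lit 546) (nat_lit 5548) (nat_lit 0) (XT.nd (nat_lit 234) (nat_lit 1216) (nat_lit 0) (XT.nd (nat_lit 78) (nat_lit 0) (nat_lit 76) (XT.lf (nat_lit 76) (nat_lit 2783682102) (nat_lit 0) (nat_lit 7846704) (nat_lit 1292) (nat_lit 4594389561) (nat_lit 644) (nat_lit 5) (nat_lit 643) (nat_lit 5) (nat_lit 660) (nat_lit 5) (nat_lit 548) (nat_lit 536) (nat_lit 476)) (XT.nd (nat_lit 78) (nat_lit 0) (nat_lit 0) (XT.lf (nat_lit 0) (nat_lit 4622349566) (nat_lit 1216) (nat_lit 601467931) (nat_lit 1292) (nat_lit 2208579204) (nat_lit 644) (nat_lit 5) (nat_lit 660) (nat_lit 5) (nat_lit 661) (nat_lit 5) (nat_lit 549) (nat_lit 536) (nat_lit 475)) (XT.lf (nat_lit 76) (nat_lit 3498357321) (nat_lit 0) (nat_lit 2973572785) (nat_lit 1292) (nat_lit 1008234742) (nat_lit 645) (nat_lit 5) (nat_lit 644) (nat_lit 5) (nat_lit 661) (nat_lit 5) (nat_lit 550) (nat_lit 536) (nat_lit 474)))) (XT.nd (nat_lit 156) (nat_lit 0) (nat_lit 76) (XT.nd (nat_lit 78) (nat_lit 0) (nat_lit 76) (XT.lf (nat_lit 76) (nat_lit 128648677) (nat_lit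 0) (nat_lit 654716429) (nat_lit 1368) (nat_lit 6746125878) (nat_lit 628) (nat_lit 5) (nat_lit 627) (nat_lit 5) (nat_lit 645) (nat_lit 5) (nat_lit 551) (nat_lit 536) (nat_lit 473)) (XT.lf (nat_lit 0) (nat_lit 2595742429) (nat_lit 1292) (nat_lit 3249790229) (nat_lit 1368) (nat_lit 1734171713) (nat_lit 628) (nat_lit 5) (nat_lit 645) (nat_lit 5) (nat_lit 646) (nat_lit 5) (nat_lit 552) (nat_lit 536) (nat_lit 472))) (XT.nd (nat_lit 78) (nat_lit 0) (nat_lit 0) (XT.lf (nat_lit 76) (nat_lit 965303597) (nat_lit 0) (nat_lit 3450873167) (nat_lit 1368) (nat_lit 3215311946) (nat_lit 629) (nat_lit 5) (nat_lit 628) (nat_lit 5) (nat_lit 646) (nat_lit 5) (nat_lit 553) (nat_lit 536) (nat_lit 471)) (XT.lf (nat_lit 76) (nat_lit 5281627136) (nat_lit 0) (nat_lit 974991213) (nat_lit 1368) (nat_lit 1428021233) (nat_lit 629) (nat_lit 5) (nat_lit 628) (nat_lit 5) (nat_lit 646) (nat_lit 5) (nat_lit 554) (nat_lit 536) (nat_lit 470))))) (XT.nd (nat_lit 312) (nat_lit 4332) (nat_lit 0) (XT.nd (nat_lit 156) (nat_lit 0) (nat_lit 0) (XT.nd (nat_lit 78) (nat_lit 0) (nat_lit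 0) (XT.lf (nat_lit 0) (nat_lit 374963109) (nat_lit 1368) (nat_lit 5808320177) (nat_lit 1444) (nat_lit 1555819031) (nat_lit 611) (nat_lit 5) (nat_lit 629) (nat_lit 5) (nat_lit 630) (nat_lit 5) (nat_lit 555) (nat_lit 536) (nat_lit 469)) (XT.lf (nat_lit 0) (nat_lit 2180513199) (nat_lit 1368) (nat_lit 1454256166) (nat_lit 1444) (nat_lit 4159986264) (nat_lit 611) (nat_lit 5) (nat_lit 629) (nat_lit 5) (nat_lit 630) (nat_lit 5) (nat_lit 556) (nat_lit 536) (nat_lit 468))) (XT.nd (nat_lit 78) (nat_lit 0) (nat_lit 76) (XT.lf (nat_lit 76) (nat_lit 2999036064) (nat_lit 0) (nat_lit 1006257240) (nat_lit 1444) (nat_lit 3846568928) (nat_lit 612) (nat_lit 5) (nat_lit 611) (nat_lit 5) (nat_lit 630) (nat_lit 5) (nat_lit 557) (nat_lit 536) (nat_lit 467)) (XT.lf (nat_lit 0) (nat_lit 5851508460) (nat_lit 1368) (nat_lit 387530676) (nat_lit 76) (nat_lit 1671375593) (nat_lit 612) (nat_lit 5) (nat_lit 630) (nat_lit 5) (nat_lit 613) (nat_lit 5) (nat_lit 558) (nat_lit 536) (nat_lit 466)))) (XT.nd (nat_lit 156) (nat_lit 1520) (nat_lit 0) (XT.nd (nat_lit 78) (nat_lit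 1520) (nat_lit 0) (XT.lf (nat_lit 0) (nat_lit 4188096023) (nat_lit 1368) (nat_lit 3545350808) (nat_lit 1444) (nat_lit 236717971) (nat_lit 594) (nat_lit 5) (nat_lit 612) (nat_lit 5) (nat_lit 613) (nat_lit 5) (nat_lit 559) (nat_lit 536) (nat_lit 465)) (XT.lf (nat_lit 0) (nat_lit 801875706) (nat_lit 1444) (nat_lit 771814323) (nat_lit 1520) (nat_lit 6457750686) (nat_lit 574) (nat_lit 5) (nat_lit 593) (nat_lit 5) (nat_lit 594) (nat_lit 5) (nat_lit 560) (nat_lit 536) (nat_lit 464))) (XT.nd (nat_lit 78) (nat_lit 1520) (nat_lit 0) (XT.lf (nat_lit 0) (nat_lit 3421816833) (nat_lit 1520) (nat_lit 2607836398) (nat_lit 76) (nat_lit 2064166375) (nat_lit 574) (nat_lit 5) (nat_lit 594) (nat_lit 5) (nat_lit 575) (nat_lit 5) (nat_lit 561) (nat_lit 536) (nat_lit 463)) (XT.lf (nat_lit 0) (nat_lit 2101248728) (nat_lit 1520) (nat_lit 3190855537) (nat_lit 1596) (nat_lit 2865640158) (nat_lit 554) (nat_lit 5) (nat_lit 574) (nat_lit 5) (nat_lit 575) (nat_lit 5) (nat_lit 562) (nat_lit 536) (nat_lit 462))))))) (XT.nd (nat_lit 1170) (nat_lit 6916) (nat_lit 0) (XT.nd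 (nat_lit 546) (nat_lit 4636) (nat_lit 0) (XT.nd (nat_lit 234) (nat_lit 3648) (nat_lit 0) (XT.nd (nat_lit 78) (nat_lit 3344) (nat_lit 0) (XT.lf (nat_lit 0) (nat_lit 6912521595) (nat_lit 1520) (nat_lit 271700273) (nat_lit 1596) (nat_lit 1039039648) (nat_lit 554) (nat_lit 5) (nat_lit 574) (nat_lit 5) (nat_lit 575) (nat_lit 5) (nat_lit 563) (nat_lit 536) (nat_lit 461)) (XT.nd (nat_lit 78) (nat_lit 1672) (nat_lit 0) (XT.lf (nat_lit 0) (nat_lit 821440572) (nat_lit 1672) (nat_lit 4764153329) (nat_lit 76) (nat_lit 2704227098) (nat_lit 532) (nat_lit 5) (nat_lit 554) (nat_lit 5) (nat_lit 533) (nat_lit 5) (nat_lit 564) (nat_lit 536) (nat_lit 460)) (XT.lf (nat_lit 0) (nat_lit 83650100) (nat_lit 1672) (nat_lit 2600630649) (nat_lit 1748) (nat_lit 5673714435) (nat_lit 510) (nat_lit 5) (nat_lit 532) (nat_lit 5) (nat_lit 533) (nat_lit 5) (nat_lit 565) (nat_lit 536) (nat_lit 459)))) (XT.nd (nat_lit 156) (nat_lit 1900) (nat_lit 0) (XT.nd (nat_lit 78) (nat_lit 1748) (nat_lit 0) (XT.lf (nat_lit 0) (nat_lit 4587774230) (nat_lit 1748) (nat_lit 3365222907) (nat_lit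 76) (nat_lit 474469881) (nat_lit 510) (nat_lit 5) (nat_lit 533) (nat_lit 5) (nat_lit 511) (nat_lit 5) (nat_lit 566) (nat_lit 536) (nat_lit 458)) (XT.lf (nat_lit 0) (nat_lit 1618414465) (nat_lit 1748) (nat_lit 4907606448) (nat_lit 1824) (nat_lit 1972375761) (nat_lit 487) (nat_lit 5) (nat_lit 510) (nat_lit 5) (nat_lit 511) (nat_lit 5) (nat_lit 567) (nat_lit 536) (nat_lit 457))) (XT.nd (nat_lit 78) (nat_lit 1900) (nat_lit 0) (XT.lf (nat_lit 0) (nat_lit 6719852784) (nat_lit 1748) (nat_lit 1775145254) (nat_lit 1824) (nat_lit 75909587) (nat_lit 487) (nat_lit 5) (nat_lit 510) (nat_lit 5) (nat_lit 511) (nat_lit 5) (nat_lit 568) (nat_lit 536) (nat_lit 456)) (XT.lf (nat_lit 0) (nat_lit 1834662630) (nat_lit 1900) (nat_lit 5372189769) (nat_lit 76) (nat_lit 1437765977) (nat_lit 462) (nat_lit 5) (nat_lit 487) (nat_lit 5) (nat_lit 463) (nat_lit 5) (nat_lit 569) (nat_lit 536) (nat_lit 455))))) (XT.nd (nat_lit 312) (nat_lit 2584) (nat_lit 0) (XT.nd (nat_lit 156) (nat_lit 988) (nat_lit 0) (XT.nd (nat_lit 78) (nat_lit 1064) (nat_lit 0) (XT.lf (nat_lit 0) (nat_lit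 3776906384) (nat_lit 1900) (nat_lit 236210392) (nat_lit 76) (nat_lit 4706788898) (nat_lit 462) (nat_lit 5) (nat_lit 487) (nat_lit 5) (nat_lit 463) (nat_lit 5) (nat_lit 570) (nat_lit 536) (nat_lit 454)) (XT.lf (nat_lit 0) (nat_lit 5041363990) (nat_lit 1064) (nat_lit 720162732) (nat_lit 1140) (nat_lit 3035103219) (nat_lit 448) (nat_lit 5) (nat_lit 462) (nat_lit 5) (nat_lit 463) (nat_lit 5) (nat_lit 571) (nat_lit 536) (nat_lit 453))) (XT.nd (nat_lit 78) (nat_lit 76) (nat_lit 0) (XT.lf (nat_lit 0) (nat_lit 1528080513) (nat_lit 912) (nat_lit 6257615691) (nat_lit 988) (nat_lit 1089197178) (nat_lit 436) (nat_lit 5) (nat_lit 448) (nat_lit 5) (nat_lit 449) (nat_lit 5) (nat_lit 572) (nat_lit 536) (nat_lit 452)) (XT.lf (nat_lit 0) (nat_lit 885420931) (nat_lit 988) (nat_lit 2024824528) (nat_lit 76) (nat_lit 6044331280) (nat_lit 435) (nat_lit 5) (nat_lit 448) (nat_lit 5) (nat_lit 436) (nat_lit 5) (nat_lit 573) (nat_lit 536) (nat_lit 451)))) (XT.nd (nat_lit 156) (nat_lit 1672) (nat_lit 0) (XT.nd (nat_lit 78) (nat_lit 0) (nat_lit 0) (XT.lf (nat_lit 0)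 (nat_lit 2882562740) (nat_lit 988) (nat_lit 5625443616) (nat_lit 76) (nat_lit 527752818) (nat_lit 423) (nat_lit 5) (nat_lit 436) (nat_lit 5) (nat_lit 424) (nat_lit 5) (nat_lit 574) (nat_lit 536) (nat_lit 450)) (XT.lf (nat_lit 0) (nat_lit 4924940178) (nat_lit 988) (nat_lit 183736542) (nat_lit 76) (nat_lit 4009784367) (nat_lit 423) (nat_lit 5) (nat_lit 436) (nat_lit 5) (nat_lit 424) (nat_lit 5) (nat_lit 575) (nat_lit 536) (nat_lit 449))) (XT.nd (nat_lit 78) (nat_lit 836) (nat_lit 0) (XT.lf (nat_lit 0) (nat_lit 5410623445) (nat_lit 836) (nat_lit 1605555410) (nat_lit 912) (nat_lit 2186479559) (nat_lit 412) (nat_lit 5) (nat_lit 423) (nat_lit 5) (nat_lit 424) (nat_lit 5) (nat_lit 576) (nat_lit 536) (nat_lit 448)) (XT.lf (nat_lit 0) (nat_lit 1814359104) (nat_lit 836) (nat_lit 7333919122) (nat_lit 912) (nat_lit 140282361) (nat_lit 401) (nat_lit 5) (nat_lit 412) (nat_lit 5) (nat_lit 413) (nat_lit 5) (nat_lit 577) (nat_lit 536) (nat_lit 447)))))) (XT.nd (nat_lit 546) (nat_lit 3572) (nat_lit 0) (XT.nd (nat_lit 234) (nat_lit 1596) (nat_lit 0) (XT.nd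 (nat_lit 78) (nat_lit 1672) (nat_lit 0) (XT.lf (nat_lit 0) (nat_lit 1930964001) (nat_lit 912) (nat_lit 1842503716) (nat_lit 76) (nat_lit 5602268672) (nat_lit 400) (nat_lit 5) (nat_lit 412) (nat_lit 5) (nat_lit 401) (nat_lit 5) (nat_lit 578) (nat_lit 536) (nat_lit 446)) (XT.nd (nat_lit 78) (nat_lit 836) (nat_lit 0) (XT.lf (nat_lit 0) (nat_lit 3925248513) (nat_lit 836) (nat_lit 115927304) (nat_lit 912) (nat_lit 5423474491) (nat_lit 389) (nat_lit 5) (nat_lit 400) (nat_lit 5) (nat_lit 401) (nat_lit 5) (nat_lit 579) (nat_lit 536) (nat_lit 445)) (XT.lf (nat_lit 0) (nat_lit 230244019) (nat_lit 836) (nat_lit 5975018306) (nat_lit 912) (nat_lit 3349848267) (nat_lit 378) (nat_lit 5) (nat_lit 389) (nat_lit 5) (nat_lit 390) (nat_lit 5) (nat_lit 580) (nat_lit 536) (nat_lit 444)))) (XT.nd (nat_lit 156) (nat_lit 760) (nat_lit 0) (XT.nd (nat_lit 78) (nat_lit 836) (nat_lit 0) (XT.lf (nat_lit 0) (nat_lit 6162312998) (nat_lit 836) (nat_lit 2262840195) (nat_lit 912) (nat_lit 1221977903) (nat_lit 378) (nat_lit 5) (nat_lit 389) (nat_lit 5) (nat_lit 390) (nat_lit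 5) (nat_lit 581) (nat_lit 536) (nat_lit 443)) (XT.lf (nat_lit 0) (nat_lit 937001147) (nat_lit 836) (nat_lit 7279873154) (nat_lit 76) (nat_lit 1523976149) (nat_lit 367) (nat_lit 5) (nat_lit 378) (nat_lit 5) (nat_lit 368) (nat_lit 5) (nat_lit 582) (nat_lit 536) (nat_lit 442))) (XT.nd (nat_lit 78) (nat_lit 760) (nat_lit 0) (XT.lf (nat_lit 0) (nat_lit 3136561063) (nat_lit 836) (nat_lit 1313667696) (nat_lit 76) (nat_lit 5385779998) (nat_lit 367) (nat_lit 5) (nat_lit 378) (nat_lit 5) (nat_lit 368) (nat_lit 5) (nat_lit 583) (nat_lit 536) (nat_lit 441)) (XT.lf (nat_lit 0) (nat_lit 4808073266) (nat_lit 760) (nat_lit 578964685) (nat_lit 836) (nat_lit 4545895117) (nat_lit 357) (nat_lit 5) (nat_lit 367) (nat_lit 5) (nat_lit 368) (nat_lit 5) (nat_lit 584) (nat_lit 536) (nat_lit 440))))) (XT.nd (nat_lit 312) (nat_lit 2052) (nat_lit 0) (XT.nd (nat_lit 156) (nat_lit 836) (nat_lit 0) (XT.nd (nat_lit 78) (nat_lit 0) (nat_lit 0) (XT.lf (nat_lit 0) (nat_lit 1002513478) (nat_lit 684) (nat_lit 6693266448) (nat_lit 760) (nat_lit 2335752157) (nat_lit 348) (nat_lit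 5) (nat_lit 357) (nat_lit 5) (nat_lit 358) (nat_lit 5) (nat_lit 585) (nat_lit 536) (nat_lit 439)) (XT.lf (nat_lit 0) (nat_lit 7291062007) (nat_lit 684) (nat_lit 2774124198) (nat_lit 760) (nat_lit 66628384) (nat_lit 348) (nat_lit 5) (nat_lit 357) (nat_lit 5) (nat_lit 358) (nat_lit 5) (nat_lit 586) (nat_lit 536) (nat_lit 438))) (XT.nd (nat_lit 78) (nat_lit 0) (nat_lit 0) (XT.lf (nat_lit 0) (nat_lit 2225729191) (nat_lit 836) (nat_lit 6766469709) (nat_lit 76) (nat_lit 1241466550) (nat_lit 337) (nat_lit 5) (nat_lit 348) (nat_lit 5) (nat_lit 338) (nat_lit 5) (nat_lit 587) (nat_lit 536) (nat_lit 437)) (XT.lf (nat_lit 0) (nat_lit 4577467118) (nat_lit 836) (nat_lit 443305818) (nat_lit 76) (nat_lit 5316484304) (nat_lit 337) (nat_lit 5) (nat_lit 348) (nat_lit 5) (nat_lit 338) (nat_lit 5) (nat_lit 588) (nat_lit 536) (nat_lit 436)))) (XT.nd (nat_lit 156) (nat_lit 684) (nat_lit 0) (XT.nd (nat_lit 78) (nat_lit 684) (nat_lit 0) (XT.lf (nat_lit 0) (nat_lit 6059315106) (nat_lit 684) (nat_lit 933583089) (nat_lit 760) (nat_lit 3449690704) (nat_lit 328) (nat_lit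 5) (nat_lit 337) (nat_lit 5) (nat_lit 338) (nat_lit 5) (nat_lit 589) (nat_lit 536) (nat_lit 435)) (XT.lf (nat_lit 0) (nat_lit 2128190588) (nat_lit 684) (nat_lit 7343831513) (nat_lit 760) (nat_lit 1077698586) (nat_lit 319) (nat_lit 5) (nat_lit 328) (nat_lit 5) (nat_lit 329) (nat_lit 5) (nat_lit 590) (nat_lit 536) (nat_lit 434))) (XT.nd (nat_lit 78) (nat_lit 608) (nat_lit 0) (XT.lf (nat_lit 0) (nat_lit 1337613428) (nat_lit 760) (nat_lit 1871042039) (nat_lit 76) (nat_lit 7449897005) (nat_lit 318) (nat_lit 5) (nat_lit 328) (nat_lit 5) (nat_lit 319) (nat_lit 5) (nat_lit 591) (nat_lit 536) (nat_lit 433)) (XT.lf (nat_lit 0) (nat_lit 3803144632) (nat_lit 684) (nat_lit 5935525445) (nat_lit 76) (nat_lit 1030422589) (nat_lit 310) (nat_lit 5) (nat_lit 319) (nat_lit 5) (nat_lit 311) (nat_lit 5) (nat_lit 592) (nat_lit 536) (nat_lit 432))))))))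
noncomputable def xc55 : XT := (XT.nd (nat_lit 78468) (nat_lit 0) (nat_lit 6612) (XT.nd (nat_lit 77298) (nat_lit 0) (nat_lit 26600) (XT.nd (nat_lit 546) (nat_lit 1216) (nat_lit 0) (XT.nd (nat_lit 234) (nat_lit 1216) (nat_lit 0) (XT.nd (nat_lit 78) (nat_lit 684) (nat_lit 0) (XT.lf (nat_lit 0) (nat_lit 778362962) (nat_lit 684) (nat_lit 5556918256) (nat_lit 760) (nat_lit 4546217639) (nat_lit 301) (nat_lit 5) (nat_lit 310) (nat_lit 5) (nat_lit 311) (nat_lit 5) (nat_lit 593) (nat_lit 536) (nat_lit 431)) (XT.nd (nat_lit 78) (nat_lit 684) (nat_lit 0) (XT.lf (nat_lit 0) (nat_lit 7680609960) (nat_lit 684) (nat_lit 1255887183) (nat_lit 760) (nat_lit 2059288365) (nat_lit 301) (nat_lit 5) (nat_lit 310) (nat_lit 5) (nat_lit 311) (nat_lit 5) (nat_lit 594) (nat_lit 536) (nat_lit 430)) (XT.lf (nat_lit 0) (nat_lit 494025715) (nat_lit 684) (nat_lit 7505851309) (nat_lit 76) (nat_lit 3111961761) (nat_lit 292) (nat_lit 5) (nat_lit 301) (nat_lit 5) (nat_lit 293) (nat_lit 5) (nat_lit 595) (nat_lit 536) (nat_lit 429)))) (XT.nd (nat_lit 156) (nat_lit 608) (nat_lit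 0) (XT.nd (nat_lit 78) (nat_lit 608) (nat_lit 0) (XT.lf (nat_lit 0) (nat_lit 3080666958) (nat_lit 684) (nat_lit 567713000) (nat_lit 76) (nat_lit 7581365245) (nat_lit 292) (nat_lit 5) (nat_lit 301) (nat_lit 5) (nat_lit 293) (nat_lit 5) (nat_lit 596) (nat_lit 536) (nat_lit 428)) (XT.lf (nat_lit 0) (nat_lit 5746580358) (nat_lit 684) (nat_lit 4785434798) (nat_lit 76) (nat_lit 817444792) (nat_lit 284) (nat_lit 5) (nat_lit 293) (nat_lit 5) (nat_lit 285) (nat_lit 5) (nat_lit 597) (nat_lit 536) (nat_lit 427))) (XT.nd (nat_lit 78) (nat_lit 0) (nat_lit 0) (XT.lf (nat_lit 0) (nat_lit 2355265059) (nat_lit 608) (nat_lit 6133543060) (nat_lit 684) (nat_lit 2982301914) (nat_lit 276) (nat_lit 5) (nat_lit 284) (nat_lit 5) (nat_lit 285) (nat_lit 5) (nat_lit 598) (nat_lit 536) (nat_lit 426)) (XT.lf (nat_lit 0) (nat_lit 9677779303) (nat_lit 608) (nat_lit 1620151668) (nat_lit 684) (nat_lit 297022087) (nat_lit 276) (nat_lit 5) (nat_lit 284) (nat_lit 5) (nat_lit 285) (nat_lit 5) (nat_lit 599) (nat_lit 536) (nat_lit 425))))) (XT.nd (nat_lit 76440) (nat_lit 0) (nat_lit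 30172) (XT.nd (nat_lit 76284) (nat_lit 0) (nat_lit 31236) (XT.nd (nat_lit 78) (nat_lit 532) (nat_lit 0) (XT.lf (nat_lit 0) (nat_lit 2445230168) (nat_lit 684) (nat_lit 6284774827) (nat_lit 76) (nat_lit 2990245889) (nat_lit 267) (nat_lit 5) (nat_lit 276) (nat_lit 5) (nat_lit 268) (nat_lit 5) (nat_lit 600) (nat_lit 536) (nat_lit 424)) (XT.lf (nat_lit 0) (nat_lit 1089060847) (nat_lit 532) (nat_lit 4160428791) (nat_lit 608) (nat_lit 6598303871) (nat_lit 260) (nat_lit 5) (nat_lit 267) (nat_lit 5) (nat_lit 268) (nat_lit 5) (nat_lit 601) (nat_lit 536) (nat_lit 423))) (XT.nd (nat_lit 78) (nat_lit 1140) (nat_lit 0) (XT.lf (nat_lit 0) (nat_lit 1407075054) (nat_lit 0) (nat_lit 1407075054) (nat_lit 988) (nat_lit 681537965) (nat_lit 686) (nat_lit 5) (nat_lit 686) (nat_lit 3) (nat_lit 699) (nat_lit 3) (nat_lit 537) (nat_lit 537) (nat_lit 486)) (XT.lf (nat_lit 0) (nat_lit 482808322) (nat_lit 1140) (nat_lit 695814278) (nat_lit 1140) (nat_lit 5845866481) (nat_lit 671) (nat_lit 3) (nat_lit 686) (nat_lit 3) (nat_lit 686) (nat_lit 5) (nat_lit 538) (nat_lit 537)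 (nat_lit 485)))) (XT.nd (nat_lit 156) (nat_lit 1140) (nat_lit 0) (XT.nd (nat_lit 78) (nat_lit 0) (nat_lit 0) (XT.lf (nat_lit 0) (nat_lit 2321151786) (nat_lit 1064) (nat_lit 4203138000) (nat_lit 1140) (nat_lit 534322373) (nat_lit 672) (nat_lit 5) (nat_lit 686) (nat_lit 5) (nat_lit 687) (nat_lit 5) (nat_lit 539) (nat_lit 537) (nat_lit 484)) (XT.lf (nat_lit 0) (nat_lit 4161403421) (nat_lit 1064) (nat_lit 639518093) (nat_lit 1140) (nat_lit 2293197226) (nat_lit 672) (nat_lit 5) (nat_lit 686) (nat_lit 5) (nat_lit 687) (nat_lit 5) (nat_lit 540) (nat_lit 537) (nat_lit 483))) (XT.nd (nat_lit 78) (nat_lit 1140) (nat_lit 0) (XT.lf (nat_lit 76) (nat_lit 3009771710) (nat_lit 0) (nat_lit 3001794177) (nat_lit 1140) (nat_lit 1119311243) (nat_lit 673) (nat_lit 5) (nat_lit 672) (nat_lit 5) (nat_lit 687) (nat_lit 5) (nat_lit 541) (nat_lit 537) (nat_lit 482)) (XT.lf (nat_lit 0) (nat_lit 679108919) (nat_lit 1140) (nat_lit 457865210) (nat_lit 1216) (nat_lit 6032138827) (nat_lit 657) (nat_lit 5) (nat_lit 672) (nat_lit 5) (nat_lit 673) (nat_lit 5) (nat_lit 542)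 (nat_lit 537) (nat_lit 481)))))) (XT.nd (nat_lit 546) (nat_lit 2432) (nat_lit 0) (XT.nd (nat_lit 234) (nat_lit 1216) (nat_lit 0) (XT.nd (nat_lit 78) (nat_lit 0) (nat_lit 0) (XT.lf (nat_lit 0) (nat_lit 2480077844) (nat_lit 1140) (nat_lit 3924390254) (nat_lit 1216) (nat_lit 803869643) (nat_lit 658) (nat_lit 5) (nat_lit 673) (nat_lit 5) (nat_lit 674) (nat_lit 5) (nat_lit 543) (nat_lit 537) (nat_lit 480)) (XT.nd (nat_lit 78) (nat_lit 0) (nat_lit 0) (XT.lf (nat_lit 0) (nat_lit 4283446748) (nat_lit 1140) (nat_lit 174911094) (nat_lit 1216) (nat_lit 2790665070) (nat_lit 658) (nat_lit 5) (nat_lit 673) (nat_lit 5) (nat_lit 674) (nat_lit 5) (nat_lit 544) (nat_lit 537) (nat_lit 479)) (XT.lf (nat_lit 76) (nat_lit 3672350133) (nat_lit 0) (nat_lit 2431001824) (nat_lit 1216) (nat_lit 1187563886) (nat_lit 659) (nat_lit 5) (nat_lit 658) (nat_lit 5) (nat_lit 674) (nat_lit 5) (nat_lit 545) (nat_lit 537) (nat_lit 478)))) (XT.nd (nat_lit 156) (nat_lit 0) (nat_lit 76) (XT.nd (nat_lit 78) (nat_lit 0) (nat_lit 76) (XT.lf (nat_lit 76) (nat_lit 238582680) (nat_lit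 0) (nat_lit 338972706) (nat_lit 1292) (nat_lit 6756818120) (nat_lit 643) (nat_lit 5) (nat_lit 642) (nat_lit 5) (nat_lit 659) (nat_lit 5) (nat_lit 546) (nat_lit 537) (nat_lit 477)) (XT.lf (nat_lit 0) (nat_lit 2355998492) (nat_lit 1216) (nat_lit 3202535624) (nat_lit 1292) (nat_lit 1820133987) (nat_lit 643) (nat_lit 5) (nat_lit 659) (nat_lit 5) (nat_lit 660) (nat_lit 5) (nat_lit 547) (nat_lit 537) (nat_lit 476))) (XT.nd (nat_lit 78) (nat_lit 0) (nat_lit 0) (XT.lf (nat_lit 76) (nat_lit 750132392) (nat_lit 0) (nat_lit 3385631619) (nat_lit 1292) (nat_lit 3288772683) (nat_lit 644) (nat_lit 5) (nat_lit 643) (nat_lit 5) (nat_lit 660) (nat_lit 5) (nat_lit 548) (nat_lit 537) (nat_lit 475)) (XT.lf (nat_lit 76) (nat_lit 4799390778) (nat_lit 0) (nat_lit 1132506126) (nat_lit 1292) (nat_lit 1539813423) (nat_lit 644) (nat_lit 5) (nat_lit 643) (nat_lit 5) (nat_lit 660) (nat_lit 5) (nat_lit 549) (nat_lit 537) (nat_lit 474))))) (XT.nd (nat_lit 312) (nat_lit 1292) (nat_lit 0) (XT.nd (nat_lit 156) (nat_lit 0) (nat_lit 0) (XT.nd (nat_lit 78) (nat_lit 0) (nat_lit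 0) (XT.lf (nat_lit 0) (nat_lit 217561702) (nat_lit 1292) (nat_lit 6127464209) (nat_lit 1368) (nat_lit 1175240043) (nat_lit 627) (nat_lit 5) (nat_lit 644) (nat_lit 5) (nat_lit 645) (nat_lit 5) (nat_lit 550) (nat_lit 537) (nat_lit 473)) (XT.lf (nat_lit 0) (nat_lit 1975560087) (nat_lit 1292) (nat_lit 2038418406) (nat_lit 1368) (nat_lit 3555891691) (nat_lit 627) (nat_lit 5) (nat_lit 644) (nat_lit 5) (nat_lit 645) (nat_lit 5) (nat_lit 551) (nat_lit 537) (nat_lit 472))) (XT.nd (nat_lit 78) (nat_lit 0) (nat_lit 76) (XT.lf (nat_lit 76) (nat_lit 2134304423) (nat_lit 0) (nat_lit 1609568506) (nat_lit 1368) (nat_lit 3877093355) (nat_lit 628) (nat_lit 5) (nat_lit 627) (nat_lit 5) (nat_lit 645) (nat_lit 5) (nat_lit 552) (nat_lit 537) (nat_lit 471)) (XT.lf (nat_lit 0) (nat_lit 5528761203) (nat_lit 1292) (nat_lit 1287029358) (nat_lit 1368) (nat_lit 857672377) (nat_lit 628) (nat_lit 5) (nat_lit 645) (nat_lit 5) (nat_lit 646) (nat_lit 5) (nat_lit 553) (nat_lit 537) (nat_lit 470)))) (XT.nd (nat_lit 156) (nat_lit 0) (nat_lit 76) (XT.nd (nat_lit 78) (nat_lit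 1368) (nat_lit 0) (XT.lf (nat_lit 76) (nat_lit 2999025839) (nat_lit 0) (nat_lit 4343165078) (nat_lit 1368) (nat_lit 384964499) (nat_lit 629) (nat_lit 5) (nat_lit 628) (nat_lit 5) (nat_lit 646) (nat_lit 5) (nat_lit 554) (nat_lit 537) (nat_lit 469)) (XT.lf (nat_lit 0) (nat_lit 1363197929) (nat_lit 1368) (nat_lit 429277144) (nat_lit 1444) (nat_lit 5989831788) (nat_lit 610) (nat_lit 5) (nat_lit 628) (nat_lit 5) (nat_lit 629) (nat_lit 5) (nat_lit 555) (nat_lit 537) (nat_lit 468))) (XT.nd (nat_lit 78) (nat_lit 0) (nat_lit 0) (XT.lf (nat_lit 0) (nat_lit 3136270792) (nat_lit 1368) (nat_lit 3865083100) (nat_lit 1444) (nat_lit 837257115) (nat_lit 611) (nat_lit 5) (nat_lit 629) (nat_lit 5) (nat_lit 630) (nat_lit 5) (nat_lit 556) (nat_lit 537) (nat_lit 467)) (XT.lf (nat_lit 76) (nat_lit 542800657) (nat_lit 0) (nat_lit 4384659206) (nat_lit 1444) (nat_lit 2968930831) (nat_lit 612) (nat_lit 5) (nat_lit 611) (nat_lit 5) (nat_lit 630) (nat_lit 5) (nat_lit 557) (nat_lit 537) (nat_lit 466))))))) (XT.nd (nat_lit 1170) (nat_lit 7676) (nat_lit 0) (XT.nd (nat_lit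 546) (nat_lit 6384) (nat_lit 0) (XT.nd (nat_lit 234) (nat_lit 4636) (nat_lit 0) (XT.nd (nat_lit 78) (nat_lit 1368) (nat_lit 0) (XT.lf (nat_lit 76) (nat_lit 5064756759) (nat_lit 0) (nat_lit 1680539690) (nat_lit 1444) (nat_lit 1210215553) (nat_lit 612) (nat_lit 5) (nat_lit 611) (nat_lit 5) (nat_lit 630) (nat_lit 5) (nat_lit 558) (nat_lit 537) (nat_lit 465)) (XT.nd (nat_lit 78) (nat_lit 0) (nat_lit 0) (XT.lf (nat_lit 0) (nat_lit 559241732) (nat_lit 1444) (nat_lit 6370565235) (nat_lit 76) (nat_lit 1086270928) (nat_lit 593) (nat_lit 5) (nat_lit 612) (nat_lit 5) (nat_lit 594) (nat_lit 5) (nat_lit 559) (nat_lit 537) (nat_lit 464)) (XT.lf (nat_lit 0) (nat_lit 2344460340) (nat_lit 1444) (nat_lit 1812032869) (nat_lit 76) (nat_lit 3921272724) (nat_lit 593) (nat_lit 5) (nat_lit 612) (nat_lit 5) (nat_lit 594) (nat_lit 5) (nat_lit 560) (nat_lit 537) (nat_lit 463)))) (XT.nd (nat_lit 156) (nat_lit 3192) (nat_lit 0) (XT.nd (nat_lit 78) (nat_lit 0) (nat_lit 0) (XT.lf (nat_lit 0) (nat_lit 2848574748) (nat_lit 1444) (nat_lit 1301877387) (nat_lit 1520) (nat_lit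 3990536533) (nat_lit 574) (nat_lit 5) (nat_lit 593) (nat_lit 5) (nat_lit 594) (nat_lit 5) (nat_lit 561) (nat_lit 537) (nat_lit 462)) (XT.lf (nat_lit 0) (nat_lit 5982358078) (nat_lit 1520) (nat_lit 615793432) (nat_lit 76) (nat_lit 1607530727) (nat_lit 574) (nat_lit 5) (nat_lit 594) (nat_lit 5) (nat_lit 575) (nat_lit 5) (nat_lit 562) (nat_lit 537) (nat_lit 461))) (XT.nd (nat_lit 78) (nat_lit 1672) (nat_lit 0) (XT.lf (nat_lit 0) (nat_lit 4174024715) (nat_lit 1520) (nat_lit 3680346724) (nat_lit 1596) (nat_lit 417231074) (nat_lit 554) (nat_lit 5) (nat_lit 574) (nat_lit 5) (nat_lit 575) (nat_lit 5) (nat_lit 563) (nat_lit 537) (nat_lit 460)) (XT.lf (nat_lit 0) (nat_lit 702451867) (nat_lit 1596) (nat_lit 680559675) (nat_lit 1672) (nat_lit 6956112418) (nat_lit 532) (nat_lit 5) (nat_lit 553) (nat_lit 5) (nat_lit 554) (nat_lit 5) (nat_lit 564) (nat_lit 537) (nat_lit 459))))) (XT.nd (nat_lit 312) (nat_lit 2888) (nat_lit 0) (XT.nd (nat_lit 156) (nat_lit 1824) (nat_lit 0) (XT.nd (nat_lit 78) (nat_lit 1672) (nat_lit 0) (XT.lf (nat_lit 0) (nat_lit 3225287960)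 (nat_lit 1672) (nat_lit 2799012170) (nat_lit 76) (nat_lit 2383410328) (nat_lit 532) (nat_lit 5) (nat_lit 554) (nat_lit 5) (nat_lit 533) (nat_lit 5) (nat_lit 565) (nat_lit 537) (nat_lit 458)) (XT.lf (nat_lit 0) (nat_lit 2132191905) (nat_lit 1672) (nat_lit 2959670536) (nat_lit 1748) (nat_lit 3386059245) (nat_lit 510) (nat_lit 5) (nat_lit 532) (nat_lit 5) (nat_lit 533) (nat_lit 5) (nat_lit 566) (nat_lit 537) (nat_lit 457))) (XT.nd (nat_lit 78) (nat_lit 1824) (nat_lit 0) (XT.lf (nat_lit 0) (nat_lit 6985316628) (nat_lit 1748) (nat_lit 1377531650) (nat_lit 76) (nat_lit 186899910) (nat_lit 510) (nat_lit 5) (nat_lit 533) (nat_lit 5) (nat_lit 511) (nat_lit 5) (nat_lit 567) (nat_lit 537) (nat_lit 456)) (XT.lf (nat_lit 0) (nat_lit 303598129) (nat_lit 1824) (nat_lit 4932477160) (nat_lit 76) (nat_lit 3386623328) (nat_lit 486) (nat_lit 5) (nat_lit 510) (nat_lit 5) (nat_lit 487) (nat_lit 5) (nat_lit 568) (nat_lit 537) (nat_lit 455)))) (XT.nd (nat_lit 156) (nat_lit 1064) (nat_lit 0) (XT.nd (nat_lit 78) (nat_lit 0) (nat_lit 0) (XT.lf (nat_lit 0) (nat_lit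 145752662) (nat_lit 1824) (nat_lit 2022934284) (nat_lit 1900) (nat_lit 6528603261) (nat_lit 462) (nat_lit 5) (nat_lit 486) (nat_lit 5) (nat_lit 487) (nat_lit 5) (nat_lit 569) (nat_lit 537) (nat_lit 454)) (XT.lf (nat_lit 0) (nat_lit 4083340940) (nat_lit 1900) (nat_lit 3415910559) (nat_lit 76) (nat_lit 1273878721) (nat_lit 462) (nat_lit 5) (nat_lit 487) (nat_lit 5) (nat_lit 463) (nat_lit 5) (nat_lit 570) (nat_lit 537) (nat_lit 453))) (XT.nd (nat_lit 78) (nat_lit 0) (nat_lit 0) (XT.lf (nat_lit 0) (nat_lit 1806009386) (nat_lit 1064) (nat_lit 4226773737) (nat_lit 1140) (nat_lit 2817775830) (nat_lit 448) (nat_lit 5) (nat_lit 462) (nat_lit 5) (nat_lit 463) (nat_lit 5) (nat_lit 571) (nat_lit 537) (nat_lit 452)) (XT.lf (nat_lit 0) (nat_lit 7152138211) (nat_lit 1064) (nat_lit 863759935) (nat_lit 1140) (nat_lit 913746221) (nat_lit 448) (nat_lit 5) (nat_lit 462) (nat_lit 5) (nat_lit 463) (nat_lit 5) (nat_lit 572) (nat_lit 537) (nat_lit 451)))))) (XT.nd (nat_lit 546) (nat_lit 3192) (nat_lit 0) (XT.nd (nat_lit 234) (nat_lit 2584) (nat_lit 0) (XT.nd (nat_lit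 78) (nat_lit 912) (nat_lit 0) (XT.lf (nat_lit 0) (nat_lit 1027312424) (nat_lit 988) (nat_lit 5417989926) (nat_lit 76) (nat_lit 2564628609) (nat_lit 435) (nat_lit 5) (nat_lit 448) (nat_lit 5) (nat_lit 436) (nat_lit 5) (nat_lit 573) (nat_lit 537) (nat_lit 450)) (XT.nd (nat_lit 78) (nat_lit 912) (nat_lit 0) (XT.lf (nat_lit 0) (nat_lit 2985210556) (nat_lit 988) (nat_lit 37334768) (nat_lit 76) (nat_lit 6069353777) (nat_lit 435) (nat_lit 5) (nat_lit 448) (nat_lit 5) (nat_lit 436) (nat_lit 5) (nat_lit 574) (nat_lit 537) (nat_lit 449)) (XT.lf (nat_lit 0) (nat_lit 4994292777) (nat_lit 988) (nat_lit 3681838768) (nat_lit 76) (nat_lit 499136189) (nat_lit 423) (nat_lit 5) (nat_lit 436) (nat_lit 5) (nat_lit 424) (nat_lit 5) (nat_lit 575) (nat_lit 537) (nat_lit 448)))) (XT.nd (nat_lit 156) (nat_lit 1748) (nat_lit 0) (XT.nd (nat_lit 78) (nat_lit 0) (nat_lit 0) (XT.lf (nat_lit 0) (nat_lit 1852684786) (nat_lit 836) (nat_lit 5196585781) (nat_lit 912) (nat_lit 2210920514) (nat_lit 412) (nat_lit 5) (nat_lit 423) (nat_lit 5) (nat_lit 424) (nat_lit 5) (nat_lit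 576) (nat_lit 537) (nat_lit 447)) (XT.lf (nat_lit 0) (nat_lit 7521371851) (nat_lit 836) (nat_lit 1622448772) (nat_lit 912) (nat_lit 203024403) (nat_lit 412) (nat_lit 5) (nat_lit 423) (nat_lit 5) (nat_lit 424) (nat_lit 5) (nat_lit 577) (nat_lit 537) (nat_lit 446))) (XT.nd (nat_lit 78) (nat_lit 836) (nat_lit 0) (XT.lf (nat_lit 0) (nat_lit 1833516559) (nat_lit 912) (nat_lit 5567530391) (nat_lit 76) (nat_lit 2033693346) (nat_lit 400) (nat_lit 5) (nat_lit 412) (nat_lit 5) (nat_lit 401) (nat_lit 5) (nat_lit 578) (nat_lit 537) (nat_lit 445)) (XT.lf (nat_lit 0) (nat_lit 137375462) (nat_lit 836) (nat_lit 3769107538) (nat_lit 912) (nat_lit 5617916863) (nat_lit 389) (nat_lit 5) (nat_lit 400) (nat_lit 5) (nat_lit 401) (nat_lit 5) (nat_lit 579) (nat_lit 537) (nat_lit 444))))) (XT.nd (nat_lit 312) (nat_lit 1520) (nat_lit 0) (XT.nd (nat_lit 156) (nat_lit 836) (nat_lit 0) (XT.nd (nat_lit 78) (nat_lit 836) (nat_lit 0) (XT.lf (nat_lit 0) (nat_lit 6005424930) (nat_lit 836) (nat_lit 27617433) (nat_lit 912) (nat_lit 3582569053) (nat_lit 389) (nat_lit 5) (nat_lit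 400) (nat_lit 5) (nat_lit 401) (nat_lit 5) (nat_lit 580) (nat_lit 537) (nat_lit 443)) (XT.lf (nat_lit 0) (nat_lit 2260846622) (nat_lit 836) (nat_lit 5955823551) (nat_lit 912) (nat_lit 1491687719) (nat_lit 378) (nat_lit 5) (nat_lit 389) (nat_lit 5) (nat_lit 390) (nat_lit 5) (nat_lit 581) (nat_lit 537) (nat_lit 442))) (XT.nd (nat_lit 78) (nat_lit 760) (nat_lit 0) (XT.lf (nat_lit 0) (nat_lit 632585141) (nat_lit 912) (nat_lit 1535291268) (nat_lit 76) (nat_lit 7635001413) (nat_lit 377) (nat_lit 5) (nat_lit 389) (nat_lit 5) (nat_lit 378) (nat_lit 5) (nat_lit 582) (nat_lit 537) (nat_lit 441)) (XT.lf (nat_lit 0) (nat_lit 2795876815) (nat_lit 836) (nat_lit 5391717443) (nat_lit 76) (nat_lit 1711167906) (nat_lit 367) (nat_lit 5) (nat_lit 378) (nat_lit 5) (nat_lit 368) (nat_lit 5) (nat_lit 583) (nat_lit 537) (nat_lit 440)))) (XT.nd (nat_lit 156) (nat_lit 760) (nat_lit 0) (XT.nd (nat_lit 78) (nat_lit 0) (nat_lit 0) (XT.lf (nat_lit 0) (nat_lit 662625057) (nat_lit 760) (nat_lit 4345023982) (nat_lit 836) (nat_lit 4988812188) (nat_lit 357) (nat_lit 5) (nat_lit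 367) (nat_lit 5) (nat_lit 368) (nat_lit 5) (nat_lit 584) (nat_lit 537) (nat_lit 439)) (XT.lf (nat_lit 0) (nat_lit 6884992789) (nat_lit 760) (nat_lit 391327251) (nat_lit 836) (nat_lit 2819542264) (nat_lit 357) (nat_lit 5) (nat_lit 367) (nat_lit 5) (nat_lit 368) (nat_lit 5) (nat_lit 585) (nat_lit 537) (nat_lit 438))) (XT.nd (nat_lit 78) (nat_lit 76) (nat_lit 0) (XT.lf (nat_lit 0) (nat_lit 3024499928) (nat_lit 684) (nat_lit 6586070727) (nat_lit 760) (nat_lit 586277902) (nat_lit 348) (nat_lit 5) (nat_lit 357) (nat_lit 5) (nat_lit 358) (nat_lit 5) (nat_lit 586) (nat_lit 537) (nat_lit 437)) (XT.lf (nat_lit 0) (nat_lit 1670804831) (nat_lit 760) (nat_lit 911255508) (nat_lit 76) (nat_lit 7717548966) (nat_lit 347) (nat_lit 5) (nat_lit 357) (nat_lit 5) (nat_lit 348) (nat_lit 5) (nat_lit 587) (nat_lit 537) (nat_lit 436))))))))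
noncomputable def xc56 : XT := (XT.nd (nat_lit 78546) (nat_lit 0) (nat_lit 7600) (XT.nd (nat_lit 77376) (nat_lit 0) (nat_lit 27284) (XT.nd (nat_lit 546) (nat_lit 2584) (nat_lit 0) (XT.nd (nat_lit 234) (nat_lit 2052) (nat_lit 0) (XT.nd (nat_lit 78) (nat_lit 684) (nat_lit 0) (XT.lf (nat_lit 0) (nat_lit 3988514445) (nat_lit 836) (nat_lit 4896233341) (nat_lit 76) (nat_lit 1519134470) (nat_lit 337) (nat_lit 5) (nat_lit 348) (nat_lit 5) (nat_lit 338) (nat_lit 5) (nat_lit 588) (nat_lit 537) (nat_lit 435)) (XT.nd (nat_lit 78) (nat_lit 0) (nat_lit 0) (XT.lf (nat_lit 0) (nat_lit 1534190188) (nat_lit 684) (nat_lit 4829366341) (nat_lit 760) (nat_lit 4146465751) (nat_lit 328) (nat_lit 5) (nat_lit 337) (nat_lit 5) (nat_lit 338) (nat_lit 5) (nat_lit 589) (nat_lit 537) (nat_lit 434)) (XT.lf (nat_lit 0) (nat_lit 8133806556) (nat_lit 684) (nat_lit 663179882) (nat_lit 760) (nat_lit 1821082081) (nat_lit 328) (nat_lit 5) (nat_lit 337) (nat_lit 5) (nat_lit 338) (nat_lit 5) (nat_lit 590) (nat_lit 537) (nat_lit 433)))) (XT.nd (nat_lit 156) (nat_lit 684) (nat_lit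 0) (XT.nd (nat_lit 78) (nat_lit 608) (nat_lit 0) (XT.lf (nat_lit 0) (nat_lit 572391537) (nat_lit 760) (nat_lit 6588973252) (nat_lit 76) (nat_lit 3566264356) (nat_lit 318) (nat_lit 5) (nat_lit 328) (nat_lit 5) (nat_lit 319) (nat_lit 5) (nat_lit 591) (nat_lit 537) (nat_lit 432)) (XT.lf (nat_lit 0) (nat_lit 46907588) (nat_lit 608) (nat_lit 2942495213) (nat_lit 684) (nat_lit 7849737475) (nat_lit 310) (nat_lit 5) (nat_lit 318) (nat_lit 5) (nat_lit 319) (nat_lit 5) (nat_lit 592) (nat_lit 537) (nat_lit 431))) (XT.nd (nat_lit 78) (nat_lit 684) (nat_lit 0) (XT.lf (nat_lit 0) (nat_lit 5486874853) (nat_lit 684) (nat_lit 4082334580) (nat_lit 76) (nat_lit 1383030854) (nat_lit 310) (nat_lit 5) (nat_lit 319) (nat_lit 5) (nat_lit 311) (nat_lit 5) (nat_lit 593) (nat_lit 537) (nat_lit 430)) (XT.lf (nat_lit 0) (nat_lit 2752858559) (nat_lit 684) (nat_lit 5297991385) (nat_lit 760) (nat_lit 3016422329) (nat_lit 301) (nat_lit 5) (nat_lit 310) (nat_lit 5) (nat_lit 311) (nat_lit 5) (nat_lit 594) (nat_lit 537) (nat_lit 429))))) (XT.nd (nat_lit 312) (nat_lit 1292)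 (nat_lit 0) (XT.nd (nat_lit 156) (nat_lit 608) (nat_lit 0) (XT.nd (nat_lit 78) (nat_lit 684) (nat_lit 0) (XT.lf (nat_lit 0) (nat_lit 9754740138) (nat_lit 684) (nat_lit 918195871) (nat_lit 760) (nat_lit 511533286) (nat_lit 301) (nat_lit 5) (nat_lit 310) (nat_lit 5) (nat_lit 311) (nat_lit 5) (nat_lit 595) (nat_lit 537) (nat_lit 428)) (XT.lf (nat_lit 0) (nat_lit 2056242205) (nat_lit 684) (nat_lit 5698694540) (nat_lit 76) (nat_lit 3548017372) (nat_lit 292) (nat_lit 5) (nat_lit 301) (nat_lit 5) (nat_lit 293) (nat_lit 5) (nat_lit 596) (nat_lit 537) (nat_lit 427))) (XT.nd (nat_lit 78) (nat_lit 0) (nat_lit 0) (XT.lf (nat_lit 0) (nat_lit 1357634234) (nat_lit 608) (nat_lit 3315358739) (nat_lit 684) (nat_lit 6750659620) (nat_lit 284) (nat_lit 5) (nat_lit 292) (nat_lit 5) (nat_lit 293) (nat_lit 5) (nat_lit 597) (nat_lit 537) (nat_lit 426)) (XT.lf (nat_lit 0) (nat_lit 7368554620) (nat_lit 684) (nat_lit 2947320433) (nat_lit 76) (nat_lit 1230361418) (nat_lit 284) (nat_lit 5) (nat_lit 293) (nat_lit 5) (nat_lit 285) (nat_lit 5) (nat_lit 598) (nat_lit 537)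 (nat_lit 425)))) (XT.nd (nat_lit 156) (nat_lit 608) (nat_lit 0) (XT.nd (nat_lit 78) (nat_lit 76) (nat_lit 0) (XT.lf (nat_lit 0) (nat_lit 4323470902) (nat_lit 608) (nat_lit 5825079237) (nat_lit 684) (nat_lit 1522112362) (nat_lit 276) (nat_lit 5) (nat_lit 284) (nat_lit 5) (nat_lit 285) (nat_lit 5) (nat_lit 599) (nat_lit 537) (nat_lit 424)) (XT.lf (nat_lit 0) (nat_lit 1171503695) (nat_lit 684) (nat_lit 50508536) (nat_lit 76) (nat_lit 10575401690) (nat_lit 275) (nat_lit 5) (nat_lit 284) (nat_lit 5) (nat_lit 276) (nat_lit 5) (nat_lit 600) (nat_lit 537) (nat_lit 423))) (XT.nd (nat_lit 76284) (nat_lit 0) (nat_lit 30704) (XT.lf (nat_lit 0) (nat_lit 3950903532) (nat_lit 684) (nat_lit 4493638253) (nat_lit 76) (nat_lit 3480912387) (nat_lit 267) (nat_lit 5) (nat_lit 276) (nat_lit 5) (nat_lit 268) (nat_lit 5) (nat_lit 601) (nat_lit 537) (nat_lit 422)) (XT.lf (nat_lit 0) (nat_lit 1143451819) (nat_lit 1140) (nat_lit 1192750392) (nat_lit 1140) (nat_lit 1192750392) (nat_lit 671) (nat_lit 3) (nat_lit 686) (nat_lit 3) (nat_lit 686) (nat_lit 5) (nat_lit 538)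 (nat_lit 538) (nat_lit 484)))))) (XT.nd (nat_lit 546) (nat_lit 1216) (nat_lit 0) (XT.nd (nat_lit 234) (nat_lit 1140) (nat_lit 0) (XT.nd (nat_lit 78) (nat_lit 1064) (nat_lit 0) (XT.lf (nat_lit 76) (nat_lit 1134802359) (nat_lit 0) (nat_lit 2952291354) (nat_lit 1140) (nat_lit 3005699556) (nat_lit 672) (nat_lit 5) (nat_lit 671) (nat_lit 3) (nat_lit 686) (nat_lit 5) (nat_lit 539) (nat_lit 538) (nat_lit 483)) (XT.nd (nat_lit 78) (nat_lit 1064) (nat_lit 0) (XT.lf (nat_lit 76) (nat_lit 4733853555) (nat_lit 0) (nat_lit 1158859707) (nat_lit 1140) (nat_lit 1236281108) (nat_lit 672) (nat_lit 5) (nat_lit 671) (nat_lit 3) (nat_lit 686) (nat_lit 5) (nat_lit 540) (nat_lit 538) (nat_lit 482)) (XT.lf (nat_lit 0) (nat_lit 527634307) (nat_lit 1140) (nat_lit 5943949244) (nat_lit 1216) (nat_lit 694934464) (nat_lit 657) (nat_lit 5) (nat_lit 672) (nat_lit 5) (nat_lit 673) (nat_lit 5) (nat_lit 541) (nat_lit 538) (nat_lit 481)))) (XT.nd (nat_lit 156) (nat_lit 1140) (nat_lit 0) (XT.nd (nat_lit 78) (nat_lit 0) (nat_lit 0) (XT.lf (nat_lit 0) (nat_lit 2289052086) (nat_lit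 1140) (nat_lit 2300365246) (nat_lit 1216) (nat_lit 2615639380) (nat_lit 657) (nat_lit 5) (nat_lit 672) (nat_lit 5) (nat_lit 673) (nat_lit 5) (nat_lit 542) (nat_lit 538) (nat_lit 480)) (XT.lf (nat_lit 76) (nat_lit 1410048590) (nat_lit 0) (nat_lit 2640597465) (nat_lit 1216) (nat_lit 3194424674) (nat_lit 658) (nat_lit 5) (nat_lit 657) (nat_lit 5) (nat_lit 673) (nat_lit 5) (nat_lit 543) (nat_lit 538) (nat_lit 479))) (XT.nd (nat_lit 78) (nat_lit 1140) (nat_lit 0) (XT.lf (nat_lit 76) (nat_lit 5201479290) (nat_lit 0) (nat_lit 617930696) (nat_lit 1216) (nat_lit 1467039714) (nat_lit 658) (nat_lit 5) (nat_lit 657) (nat_lit 5) (nat_lit 673) (nat_lit 5) (nat_lit 544) (nat_lit 538) (nat_lit 478)) (XT.lf (nat_lit 0) (nat_lit 268958633) (nat_lit 1216) (nat_lit 5602372275) (nat_lit 1292) (nat_lit 1457731686) (nat_lit 642) (nat_lit 5) (nat_lit 658) (nat_lit 5) (nat_lit 659) (nat_lit 5) (nat_lit 545) (nat_lit 538) (nat_lit 477))))) (XT.nd (nat_lit 312) (nat_lit 1216) (nat_lit 0) (XT.nd (nat_lit 156) (nat_lit 0) (nat_lit 76) (XT.nd (nat_lit 78) (nat_lit 0)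 (nat_lit 0) (XT.lf (nat_lit 0) (nat_lit 1996096838) (nat_lit 1216) (nat_lit 1768574811) (nat_lit 1292) (nat_lit 3608144119) (nat_lit 642) (nat_lit 5) (nat_lit 658) (nat_lit 5) (nat_lit 659) (nat_lit 5) (nat_lit 546) (nat_lit 538) (nat_lit 476)) (XT.lf (nat_lit 76) (nat_lit 2145256507) (nat_lit 0) (nat_lit 1585144855) (nat_lit 1292) (nat_lit 3687593347) (nat_lit 643) (nat_lit 5) (nat_lit 642) (nat_lit 5) (nat_lit 659) (nat_lit 5) (nat_lit 547) (nat_lit 538) (nat_lit 475))) (XT.nd (nat_lit 78) (nat_lit 0) (nat_lit 0) (XT.lf (nat_lit 0) (nat_lit 5474930136) (nat_lit 1216) (nat_lit 1332257514) (nat_lit 1292) (nat_lit 657381925) (nat_lit 643) (nat_lit 5) (nat_lit 659) (nat_lit 5) (nat_lit 660) (nat_lit 5) (nat_lit 548) (nat_lit 538) (nat_lit 474)) (XT.lf (nat_lit 76) (nat_lit 2686738015) (nat_lit 0) (nat_lit 4555797671) (nat_lit 1292) (nat_lit 269779579) (nat_lit 644) (nat_lit 5) (nat_lit 643) (nat_lit 5) (nat_lit 660) (nat_lit 5) (nat_lit 549) (nat_lit 538) (nat_lit 473)))) (XT.nd (nat_lit 156) (nat_lit 0) (nat_lit 76) (XT.nd (nat_lit 78) (nat_lit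 0) (nat_lit 76) (XT.lf (nat_lit 0) (nat_lit 1434608022) (nat_lit 1292) (nat_lit 791757937) (nat_lit 1368) (nat_lit 5335068083) (nat_lit 626) (nat_lit 5) (nat_lit 643) (nat_lit 5) (nat_lit 644) (nat_lit 5) (nat_lit 550) (nat_lit 538) (nat_lit 472)) (XT.lf (nat_lit 0) (nat_lit 3153748115) (nat_lit 1292) (nat_lit 4273201512) (nat_lit 1368) (nat_lit 184867233) (nat_lit 627) (nat_lit 5) (nat_lit 644) (nat_lit 5) (nat_lit 645) (nat_lit 5) (nat_lit 551) (nat_lit 538) (nat_lit 471))) (XT.nd (nat_lit 78) (nat_lit 0) (nat_lit 0) (XT.lf (nat_lit 0) (nat_lit 4889419503) (nat_lit 1292) (nat_lit 141135813) (nat_lit 1368) (nat_lit 2633011868) (nat_lit 627) (nat_lit 5) (nat_lit 644) (nat_lit 5) (nat_lit 645) (nat_lit 5) (nat_lit 552) (nat_lit 538) (nat_lit 470)) (XT.lf (nat_lit 76) (nat_lit 4102291138) (nat_lit 0) (nat_lit 2546948024) (nat_lit 1368) (nat_lit 1067327417) (nat_lit 628) (nat_lit 5) (nat_lit 627) (nat_lit 5) (nat_lit 645) (nat_lit 5) (nat_lit 553) (nat_lit 538) (nat_lit 469))))))) (XT.nd (nat_lit 1170) (nat_lit 9044) (nat_lit 0) (XT.nd (nat_lit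 546) (nat_lit 8056) (nat_lit 0) (XT.nd (nat_lit 234) (nat_lit 1368) (nat_lit 0) (XT.nd (nat_lit 78) (nat_lit 0) (nat_lit 0) (XT.lf (nat_lit 0) (nat_lit 633077357) (nat_lit 1368) (nat_lit 7130721923) (nat_lit 1444) (nat_lit 7376206) (nat_lit 610) (nat_lit 5) (nat_lit 628) (nat_lit 5) (nat_lit 629) (nat_lit 5) (nat_lit 554) (nat_lit 538) (nat_lit 468)) (XT.nd (nat_lit 78) (nat_lit 0) (nat_lit 0) (XT.lf (nat_lit 0) (nat_lit 2358247102) (nat_lit 1368) (nat_lit 2847261894) (nat_lit 1444) (nat_lit 2621128109) (nat_lit 610) (nat_lit 5) (nat_lit 628) (nat_lit 5) (nat_lit 629) (nat_lit 5) (nat_lit 555) (nat_lit 538) (nat_lit 467)) (XT.lf (nat_lit 76) (nat_lit 1516219709) (nat_lit 0) (nat_lit 2576009066) (nat_lit 1444) (nat_lit 3791495564) (nat_lit 611) (nat_lit 5) (nat_lit 610) (nat_lit 5) (nat_lit 629) (nat_lit 5) (nat_lit 556) (nat_lit 538) (nat_lit 466)))) (XT.nd (nat_lit 156) (nat_lit 1444) (nat_lit 0) (XT.nd (nat_lit 78) (nat_lit 0) (nat_lit 0) (XT.lf (nat_lit 0) (nat_lit 5845870893) (nat_lit 1368) (nat_lit 1962950430) (nat_lit 1444) (nat_lit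 133434882) (nat_lit 611) (nat_lit 5) (nat_lit 629) (nat_lit 5) (nat_lit 630) (nat_lit 5) (nat_lit 557) (nat_lit 538) (nat_lit 465)) (XT.lf (nat_lit 76) (nat_lit 2520068409) (nat_lit 0) (nat_lit 5113683082) (nat_lit 1444) (nat_lit 368226356) (nat_lit 612) (nat_lit 5) (nat_lit 611) (nat_lit 5) (nat_lit 630) (nat_lit 5) (nat_lit 558) (nat_lit 538) (nat_lit 464))) (XT.nd (nat_lit 78) (nat_lit 0) (nat_lit 76) (XT.lf (nat_lit 0) (nat_lit 1355490974) (nat_lit 1444) (nat_lit 978319032) (nat_lit 1520) (nat_lit 5729319507) (nat_lit 592) (nat_lit 5) (nat_lit 611) (nat_lit 5) (nat_lit 612) (nat_lit 5) (nat_lit 559) (nat_lit 538) (nat_lit 463)) (XT.lf (nat_lit 0) (nat_lit 3102530470) (nat_lit 1444) (nat_lit 4493947503) (nat_lit 76) (nat_lit 529104306) (nat_lit 593) (nat_lit 5) (nat_lit 612) (nat_lit 5) (nat_lit 594) (nat_lit 5) (nat_lit 560) (nat_lit 538) (nat_lit 462))))) (XT.nd (nat_lit 312) (nat_lit 5092) (nat_lit 0) (XT.nd (nat_lit 156) (nat_lit 1596) (nat_lit 0) (XT.nd (nat_lit 78) (nat_lit 0) (nat_lit 0) (XT.lf (nat_lit 0) (nat_lit 118008525) (nat_lit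 1444) (nat_lit 4756562018) (nat_lit 1520) (nat_lit 3314914626) (nat_lit 574) (nat_lit 5) (nat_lit 593) (nat_lit 5) (nat_lit 594) (nat_lit 5) (nat_lit 561) (nat_lit 538) (nat_lit 461)) (XT.lf (nat_lit 0) (nat_lit 4857354709) (nat_lit 1444) (nat_lit 1822558127) (nat_lit 1520) (nat_lit 1574798276) (nat_lit 574) (nat_lit 5) (nat_lit 593) (nat_lit 5) (nat_lit 594) (nat_lit 5) (nat_lit 562) (nat_lit 538) (nat_lit 460))) (XT.nd (nat_lit 78) (nat_lit 0) (nat_lit 0) (XT.lf (nat_lit 0) (nat_lit 182163638) (nat_lit 1596) (nat_lit 6968270958) (nat_lit 76) (nat_lit 1171089768) (nat_lit 553) (nat_lit 5) (nat_lit 574) (nat_lit 5) (nat_lit 554) (nat_lit 5) (nat_lit 563) (nat_lit 538) (nat_lit 459)) (XT.lf (nat_lit 0) (nat_lit 1956840574) (nat_lit 1596) (nat_lit 2193126287) (nat_lit 76) (nat_lit 4239427679) (nat_lit 553) (nat_lit 5) (nat_lit 574) (nat_lit 5) (nat_lit 554) (nat_lit 5) (nat_lit 564) (nat_lit 538) (nat_lit 458)))) (XT.nd (nat_lit 156) (nat_lit 3496) (nat_lit 0) (XT.nd (nat_lit 78) (nat_lit 0) (nat_lit 0) (XT.lf (nat_lit 0) (nat_lit 2687090589)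 (nat_lit 1596) (nat_lit 1066605724) (nat_lit 1672) (nat_lit 4705194154) (nat_lit 532) (nat_lit 5) (nat_lit 553) (nat_lit 5) (nat_lit 554) (nat_lit 5) (nat_lit 565) (nat_lit 538) (nat_lit 457)) (XT.lf (nat_lit 0) (nat_lit 5584505922) (nat_lit 1672) (nat_lit 874576972) (nat_lit 76) (nat_lit 2070735097) (nat_lit 532) (nat_lit 5) (nat_lit 554) (nat_lit 5) (nat_lit 533) (nat_lit 5) (nat_lit 566) (nat_lit 538) (nat_lit 456))) (XT.nd (nat_lit 78) (nat_lit 1824) (nat_lit 0) (XT.lf (nat_lit 0) (nat_lit 4142222136) (nat_lit 1672) (nat_lit 3313968978) (nat_lit 1748) (nat_lit 1145889735) (nat_lit 510) (nat_lit 5) (nat_lit 532) (nat_lit 5) (nat_lit 533) (nat_lit 5) (nat_lit 567) (nat_lit 538) (nat_lit 455)) (XT.lf (nat_lit 0) (nat_lit 572680229) (nat_lit 1748) (nat_lit 87946485) (nat_lit 1824) (nat_lit 8015471633) (nat_lit 486) (nat_lit 5) (nat_lit 509) (nat_lit 5) (nat_lit 510) (nat_lit 5) (nat_lit 568) (nat_lit 538) (nat_lit 454)))))) (XT.nd (nat_lit 546) (nat_lit 4256) (nat_lit 0) (XT.nd (nat_lit 234) (nat_lit 2964) (nat_lit 0) (XT.nd (nat_lit 78)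 (nat_lit 1824) (nat_lit 0) (XT.lf (nat_lit 0) (nat_lit 2509820017) (nat_lit 1824) (nat_lit 3039544040) (nat_lit 76) (nat_lit 3201644711) (nat_lit 486) (nat_lit 5) (nat_lit 510) (nat_lit 5) (nat_lit 487) (nat_lit 5) (nat_lit 569) (nat_lit 538) (nat_lit 453)) (XT.nd (nat_lit 78) (nat_lit 0) (nat_lit 0) (XT.lf (nat_lit 0) (nat_lit 2127147861) (nat_lit 1824) (nat_lit 2254768160) (nat_lit 1900) (nat_lit 4445784821) (nat_lit 462) (nat_lit 5) (nat_lit 486) (nat_lit 5) (nat_lit 487) (nat_lit 5) (nat_lit 570) (nat_lit 538) (nat_lit 452)) (XT.lf (nat_lit 0) (nat_lit 6291098740) (nat_lit 1900) (nat_lit 1500642644) (nat_lit 76) (nat_lit 1114194265) (nat_lit 462) (nat_lit 5) (nat_lit 487) (nat_lit 5) (nat_lit 463) (nat_lit 5) (nat_lit 571) (nat_lit 538) (nat_lit 451)))) (XT.nd (nat_lit 156) (nat_lit 912) (nat_lit 0) (XT.nd (nat_lit 78) (nat_lit 988) (nat_lit 0) (XT.lf (nat_lit 0) (nat_lit 3812665791) (nat_lit 1064) (nat_lit 4437969945) (nat_lit 1140) (nat_lit 734857755) (nat_lit 448) (nat_lit 5) (nat_lit 462) (nat_lit 5) (nat_lit 463) (nat_lit 5) (nat_lit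 572) (nat_lit 538) (nat_lit 450)) (XT.lf (nat_lit 0) (nat_lit 154554653) (nat_lit 912) (nat_lit 996471526) (nat_lit 988) (nat_lit 7915788080) (nat_lit 435) (nat_lit 5) (nat_lit 447) (nat_lit 5) (nat_lit 448) (nat_lit 5) (nat_lit 573) (nat_lit 538) (nat_lit 449))) (XT.nd (nat_lit 78) (nat_lit 912) (nat_lit 0) (XT.lf (nat_lit 0) (nat_lit 3089114757) (nat_lit 988) (nat_lit 3538127910) (nat_lit 76) (nat_lit 2521936742) (nat_lit 435) (nat_lit 5) (nat_lit 448) (nat_lit 5) (nat_lit 436) (nat_lit 5) (nat_lit 574) (nat_lit 538) (nat_lit 448)) (XT.lf (nat_lit 0) (nat_lit 1936553860) (nat_lit 912) (nat_lit 3122165754) (nat_lit 988) (nat_lit 4174618778) (nat_lit 423) (nat_lit 5) (nat_lit 435) (nat_lit 5) (nat_lit 436) (nat_lit 5) (nat_lit 575) (nat_lit 538) (nat_lit 447))))) (XT.nd (nat_lit 312) (nat_lit 2508) (nat_lit 0) (XT.nd (nat_lit 156) (nat_lit 912) (nat_lit 0) (XT.nd (nat_lit 78) (nat_lit 836) (nat_lit 0) (XT.lf (nat_lit 0) (nat_lit 7068495032) (nat_lit 988) (nat_lit 1779203225) (nat_lit 76) (nat_lit 471468313) (nat_lit 423) (nat_lit 5) (nat_lit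 436) (nat_lit 5) (nat_lit 424) (nat_lit 5) (nat_lit 576) (nat_lit 538) (nat_lit 446)) (XT.lf (nat_lit 0) (nat_lit 3853009009) (nat_lit 836) (nat_lit 5285598138) (nat_lit 912) (nat_lit 267702898) (nat_lit 412) (nat_lit 5) (nat_lit 423) (nat_lit 5) (nat_lit 424) (nat_lit 5) (nat_lit 577) (nat_lit 538) (nat_lit 445))) (XT.nd (nat_lit 78) (nat_lit 0) (nat_lit 0) (XT.lf (nat_lit 0) (nat_lit 90998126) (nat_lit 836) (nat_lit 1628135958) (nat_lit 912) (nat_lit 7776091415) (nat_lit 400) (nat_lit 5) (nat_lit 411) (nat_lit 5) (nat_lit 412) (nat_lit 5) (nat_lit 578) (nat_lit 538) (nat_lit 444)) (XT.lf (nat_lit 0) (nat_lit 3768233741) (nat_lit 912) (nat_lit 3703461833) (nat_lit 76) (nat_lit 2113667553) (nat_lit 400) (nat_lit 5) (nat_lit 412) (nat_lit 5) (nat_lit 401) (nat_lit 5) (nat_lit 579) (nat_lit 538) (nat_lit 443)))) (XT.nd (nat_lit 156) (nat_lit 1672) (nat_lit 0) (XT.nd (nat_lit 78) (nat_lit 0) (nat_lit 0) (XT.lf (nat_lit 0) (nat_lit 2102545958) (nat_lit 836) (nat_lit 3755638299) (nat_lit 912) (nat_lit 3819123311) (nat_lit 389) (nat_lit 5) (nat_lit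 400) (nat_lit 5) (nat_lit 401) (nat_lit 5) (nat_lit 580) (nat_lit 538) (nat_lit 442)) (XT.lf (nat_lit 0) (nat_lit 7990920783) (nat_lit 912) (nat_lit 1721985361) (nat_lit 76) (nat_lit 58166422) (nat_lit 389) (nat_lit 5) (nat_lit 401) (nat_lit 5) (nat_lit 390) (nat_lit 5) (nat_lit 581) (nat_lit 538) (nat_lit 441))) (XT.nd (nat_lit 78) (nat_lit 760) (nat_lit 0) (XT.lf (nat_lit 0) (nat_lit 324566508) (nat_lit 912) (nat_lit 5614886079) (nat_lit 76) (nat_lit 3926644794) (nat_lit 377) (nat_lit 5) (nat_lit 389) (nat_lit 5) (nat_lit 378) (nat_lit 5) (nat_lit 582) (nat_lit 538) (nat_lit 440)) (XT.lf (nat_lit 0) (nat_lit 371916629) (nat_lit 760) (nat_lit 2066061370) (nat_lit 836) (nat_lit 7525001986) (nat_lit 367) (nat_lit 5) (nat_lit 377) (nat_lit 5) (nat_lit 378) (nat_lit 5) (nat_lit 583) (nat_lit 538) (nat_lit 439))))))))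
noncomputable def xc57 : XT := (XT.nd (nat_lit 78702) (nat_lit 0) (nat_lit 8588) (XT.nd (nat_lit 1170) (nat_lit 608) (nat_lit 0) (XT.nd (nat_lit 546) (nat_lit 3344) (nat_lit 0) (XT.nd (nat_lit 234) (nat_lit 2204) (nat_lit 0) (XT.nd (nat_lit 78) (nat_lit 760) (nat_lit 0) (XT.lf (nat_lit 0) (nat_lit 4620475287) (nat_lit 836) (nat_lit 3544771732) (nat_lit 76) (nat_lit 1896018171) (nat_lit 367) (nat_lit 5) (nat_lit 378) (nat_lit 5) (nat_lit 368) (nat_lit 5) (nat_lit 584) (nat_lit 538) (nat_lit 438)) (XT.nd (nat_lit 78) (nat_lit 0) (nat_lit 0) (XT.lf (nat_lit 0) (nat_lit 2617797222) (nat_lit 760) (nat_lit 4236613945) (nat_lit 836) (nat_lit 3306950435) (nat_lit 357) (nat_lit 5) (nat_lit 367) (nat_lit 5) (nat_lit 368) (nat_lit 5) (nat_lit 585) (nat_lit 538) (nat_lit 437)) (XT.lf (nat_lit 0) (nat_lit 8926535453) (nat_lit 760) (nat_lit 207672897) (nat_lit 836) (nat_lit 1129229192) (nat_lit 357) (nat_lit 5) (nat_lit 367) (nat_lit 5) (nat_lit 368) (nat_lit 5) (nat_lit 586) (nat_lit 538) (nat_lit 436)))) (XT.nd (nat_lit 156) (nat_lit 684) (nat_lit 0)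 (XT.nd (nat_lit 78) (nat_lit 760) (nat_lit 0) (XT.lf (nat_lit 0) (nat_lit 1113637956) (nat_lit 760) (nat_lit 5364980732) (nat_lit 76) (nat_lit 3888077432) (nat_lit 347) (nat_lit 5) (nat_lit 357) (nat_lit 5) (nat_lit 348) (nat_lit 5) (nat_lit 587) (nat_lit 538) (nat_lit 435)) (XT.lf (nat_lit 0) (nat_lit 992290541) (nat_lit 760) (nat_lit 2388763674) (nat_lit 836) (nat_lit 7090921306) (nat_lit 337) (nat_lit 5) (nat_lit 347) (nat_lit 5) (nat_lit 348) (nat_lit 5) (nat_lit 588) (nat_lit 538) (nat_lit 434))) (XT.nd (nat_lit 78) (nat_lit 684) (nat_lit 0) (XT.lf (nat_lit 0) (nat_lit 5719832860) (nat_lit 836) (nat_lit 3066470809) (nat_lit 76) (nat_lit 1792537717) (nat_lit 337) (nat_lit 5) (nat_lit 348) (nat_lit 5) (nat_lit 338) (nat_lit 5) (nat_lit 589) (nat_lit 538) (nat_lit 433)) (XT.lf (nat_lit 0) (nat_lit 3479879038) (nat_lit 684) (nat_lit 4642546933) (nat_lit 760) (nat_lit 2565078951) (nat_lit 328) (nat_lit 5) (nat_lit 337) (nat_lit 5) (nat_lit 338) (nat_lit 5) (nat_lit 590) (nat_lit 538) (nat_lit 432))))) (XT.nd (nat_lit 312) (nat_lit 1976)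 (nat_lit 0) (XT.nd (nat_lit 156) (nat_lit 608) (nat_lit 0) (XT.nd (nat_lit 78) (nat_lit 760) (nat_lit 0) (XT.lf (nat_lit 0) (nat_lit 10173938615) (nat_lit 684) (nat_lit 398593740) (nat_lit 760) (nat_lit 225821257) (nat_lit 328) (nat_lit 5) (nat_lit 337) (nat_lit 5) (nat_lit 338) (nat_lit 5) (nat_lit 591) (nat_lit 538) (nat_lit 431)) (XT.lf (nat_lit 0) (nat_lit 2176714416) (nat_lit 760) (nat_lit 4804325985) (nat_lit 76) (nat_lit 3929202940) (nat_lit 318) (nat_lit 5) (nat_lit 328) (nat_lit 5) (nat_lit 319) (nat_lit 5) (nat_lit 592) (nat_lit 538) (nat_lit 430))) (XT.nd (nat_lit 78) (nat_lit 0) (nat_lit 0) (XT.lf (nat_lit 0) (nat_lit 1951664402) (nat_lit 608) (nat_lit 2671529513) (nat_lit 684) (nat_lit 6401169806) (nat_lit 310) (nat_lit 5) (nat_lit 318) (nat_lit 5) (nat_lit 319) (nat_lit 5) (nat_lit 593) (nat_lit 538) (nat_lit 429)) (XT.lf (nat_lit 0) (nat_lit 7141851997) (nat_lit 684) (nat_lit 2268651232) (nat_lit 76) (nat_lit 1729799327) (nat_lit 310) (nat_lit 5) (nat_lit 319) (nat_lit 5) (nat_lit 311) (nat_lit 5) (nat_lit 594) (nat_lit 538)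 (nat_lit 428)))) (XT.nd (nat_lit 156) (nat_lit 608) (nat_lit 0) (XT.nd (nat_lit 78) (nat_lit 684) (nat_lit 0) (XT.lf (nat_lit 0) (nat_lit 4690776494) (nat_lit 684) (nat_lit 5048256061) (nat_lit 760) (nat_lit 1518965632) (nat_lit 301) (nat_lit 5) (nat_lit 310) (nat_lit 5) (nat_lit 311) (nat_lit 5) (nat_lit 595) (nat_lit 538) (nat_lit 427)) (XT.lf (nat_lit 0) (nat_lit 416572536) (nat_lit 608) (nat_lit 578421509) (nat_lit 684) (nat_lit 10382960829) (nat_lit 292) (nat_lit 5) (nat_lit 300) (nat_lit 5) (nat_lit 301) (nat_lit 5) (nat_lit 596) (nat_lit 538) (nat_lit 426))) (XT.nd (nat_lit 78) (nat_lit 608) (nat_lit 0) (XT.lf (nat_lit 0) (nat_lit 3589423926) (nat_lit 684) (nat_lit 3931397962) (nat_lit 76) (nat_lit 3978278350) (nat_lit 292) (nat_lit 5) (nat_lit 301) (nat_lit 5) (nat_lit 293) (nat_lit 5) (nat_lit 597) (nat_lit 538) (nat_lit 425)) (XT.lf (nat_lit 0) (nat_lit 3253680608) (nat_lit 608) (nat_lit 2987707182) (nat_lit 684) (nat_lit 5381168740) (nat_lit 284) (nat_lit 5) (nat_lit 292) (nat_lit 5) (nat_lit 293) (nat_lit 5) (nat_lit 598) (nat_lit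 538) (nat_lit 424)))))) (XT.nd (nat_lit 76908) (nat_lit 0) (nat_lit 26524) (XT.nd (nat_lit 76596) (nat_lit 0) (nat_lit 28880) (XT.nd (nat_lit 78) (nat_lit 608) (nat_lit 0) (XT.lf (nat_lit 0) (nat_lit 8964448064) (nat_lit 684) (nat_lit 1147536486) (nat_lit 76) (nat_lit 1636137168) (nat_lit 284) (nat_lit 5) (nat_lit 293) (nat_lit 5) (nat_lit 285) (nat_lit 5) (nat_lit 599) (nat_lit 538) (nat_lit 423)) (XT.nd (nat_lit 76440) (nat_lit 0) (nat_lit 30020) (XT.lf (nat_lit 0) (nat_lit 6256442186) (nat_lit 608) (nat_lit 5527187623) (nat_lit 684) (nat_lit 91736088) (nat_lit 276) (nat_lit 5) (nat_lit 284) (nat_lit 5) (nat_lit 285) (nat_lit 5) (nat_lit 600) (nat_lit 538) (nat_lit 422)) (XT.lf (nat_lit 0) (nat_lit 2924782295) (nat_lit 1140) (nat_lit 319718250) (nat_lit 1140) (nat_lit 319718250) (nat_lit 671) (nat_lit 3) (nat_lit 686) (nat_lit 3) (nat_lit 686) (nat_lit 5) (nat_lit 539) (nat_lit 539) (nat_lit 482)))) (XT.nd (nat_lit 156) (nat_lit 0) (nat_lit 0) (XT.nd (nat_lit 78) (nat_lit 0) (nat_lit 0) (XT.lf (nat_lit 0) (nat_lit 457117260) (nat_lit 1140)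 (nat_lit 4228712628) (nat_lit 1216) (nat_lit 2479286801) (nat_lit 656) (nat_lit 5) (nat_lit 671) (nat_lit 3) (nat_lit 672) (nat_lit 5) (nat_lit 540) (nat_lit 539) (nat_lit 481)) (XT.lf (nat_lit 0) (nat_lit 2169965042) (nat_lit 1140) (nat_lit 642177118) (nat_lit 1216) (nat_lit 4391036478) (nat_lit 656) (nat_lit 5) (nat_lit 671) (nat_lit 3) (nat_lit 672) (nat_lit 5) (nat_lit 541) (nat_lit 539) (nat_lit 480))) (XT.nd (nat_lit 78) (nat_lit 0) (nat_lit 76) (XT.lf (nat_lit 76) (nat_lit 3032662069) (nat_lit 0) (nat_lit 859908004) (nat_lit 1216) (nat_lit 3349925253) (nat_lit 657) (nat_lit 5) (nat_lit 656) (nat_lit 5) (nat_lit 672) (nat_lit 5) (nat_lit 542) (nat_lit 539) (nat_lit 479)) (XT.lf (nat_lit 0) (nat_lit 5617970370) (nat_lit 1140) (nat_lit 524237193) (nat_lit 1216) (nat_lit 1141027354) (nat_lit 657) (nat_lit 5) (nat_lit 672) (nat_lit 5) (nat_lit 673) (nat_lit 5) (nat_lit 543) (nat_lit 539) (nat_lit 478))))) (XT.nd (nat_lit 312) (nat_lit 1216) (nat_lit 0) (XT.nd (nat_lit 156) (nat_lit 0) (nat_lit 76) (XT.nd (nat_lit 78) (nat_lit 0) (nat_lit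 0) (XT.lf (nat_lit 0) (nat_lit 36580749) (nat_lit 1216) (nat_lit 4076950246) (nat_lit 1292) (nat_lit 3211570961) (nat_lit 641) (nat_lit 5) (nat_lit 657) (nat_lit 5) (nat_lit 658) (nat_lit 5) (nat_lit 544) (nat_lit 539) (nat_lit 477)) (XT.lf (nat_lit 0) (nat_lit 1711637491) (nat_lit 1216) (nat_lit 299682552) (nat_lit 1292) (nat_lit 5357039930) (nat_lit 641) (nat_lit 5) (nat_lit 657) (nat_lit 5) (nat_lit 658) (nat_lit 5) (nat_lit 545) (nat_lit 539) (nat_lit 476))) (XT.nd (nat_lit 78) (nat_lit 0) (nat_lit 0) (XT.lf (nat_lit 0) (nat_lit 3403284263) (nat_lit 1216) (nat_lit 3837461337) (nat_lit 1292) (nat_lit 172078948) (nat_lit 642) (nat_lit 5) (nat_lit 658) (nat_lit 5) (nat_lit 659) (nat_lit 5) (nat_lit 546) (nat_lit 539) (nat_lit 475)) (XT.lf (nat_lit 76) (nat_lit 36690168) (nat_lit 0) (nat_lit 5067161389) (nat_lit 1292) (nat_lit 2354828215) (nat_lit 643) (nat_lit 5) (nat_lit 642) (nat_lit 5) (nat_lit 659) (nat_lit 5) (nat_lit 547) (nat_lit 539) (nat_lit 474)))) (XT.nd (nat_lit 156) (nat_lit 0) (nat_lit 76) (XT.nd (nat_lit 78) (nat_lit 1292)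 (nat_lit 0) (XT.lf (nat_lit 76) (nat_lit 4016210631) (nat_lit 0) (nat_lit 2808113318) (nat_lit 1292) (nat_lit 681413328) (nat_lit 643) (nat_lit 5) (nat_lit 642) (nat_lit 5) (nat_lit 659) (nat_lit 5) (nat_lit 548) (nat_lit 539) (nat_lit 473)) (XT.lf (nat_lit 76) (nat_lit 497264850) (nat_lit 0) (nat_lit 478646510) (nat_lit 1368) (nat_lit 6578416527) (nat_lit 626) (nat_lit 5) (nat_lit 625) (nat_lit 5) (nat_lit 643) (nat_lit 5) (nat_lit 549) (nat_lit 539) (nat_lit 472))) (XT.nd (nat_lit 78) (nat_lit 0) (nat_lit 0) (XT.lf (nat_lit 0) (nat_lit 2654530747) (nat_lit 1292) (nat_lit 3034213388) (nat_lit 1368) (nat_lit 1915113519) (nat_lit 626) (nat_lit 5) (nat_lit 643) (nat_lit 5) (nat_lit 644) (nat_lit 5) (nat_lit 550) (nat_lit 539) (nat_lit 471)) (XT.lf (nat_lit 76) (nat_lit 1055354725) (nat_lit 0) (nat_lit 3283520016) (nat_lit 1368) (nat_lit 3316063048) (nat_lit 627) (nat_lit 5) (nat_lit 626) (nat_lit 5) (nat_lit 644) (nat_lit 5) (nat_lit 551) (nat_lit 539) (nat_lit 470))))))) (XT.nd (nat_lit 1170) (nat_lit 10868) (nat_lit 0) (XT.nd (nat_lit 546)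 (nat_lit 4484) (nat_lit 0) (XT.nd (nat_lit 234) (nat_lit 1368) (nat_lit 0) (XT.nd (nat_lit 78) (nat_lit 1292) (nat_lit 0) (XT.lf (nat_lit 76) (nat_lit 5243594503) (nat_lit 0) (nat_lit 796387696) (nat_lit 1368) (nat_lit 1667398560) (nat_lit 627) (nat_lit 5) (nat_lit 626) (nat_lit 5) (nat_lit 644) (nat_lit 5) (nat_lit 552) (nat_lit 539) (nat_lit 469)) (XT.nd (nat_lit 78) (nat_lit 0) (nat_lit 0) (XT.lf (nat_lit 0) (nat_lit 95978) (nat_lit 1368) (nat_lit 6019475197) (nat_lit 1444) (nat_lit 1741581348) (nat_lit 609) (nat_lit 5) (nat_lit 627) (nat_lit 5) (nat_lit 628) (nat_lit 5) (nat_lit 553) (nat_lit 539) (nat_lit 468)) (XT.lf (nat_lit 0) (nat_lit 1664397195) (nat_lit 1368) (nat_lit 1792359395) (nat_lit 1444) (nat_lit 4359309640) (nat_lit 609) (nat_lit 5) (nat_lit 627) (nat_lit 5) (nat_lit 628) (nat_lit 5) (nat_lit 554) (nat_lit 539) (nat_lit 467)))) (XT.nd (nat_lit 156) (nat_lit 1368) (nat_lit 0) (XT.nd (nat_lit 78) (nat_lit 0) (nat_lit 76) (XT.lf (nat_lit 76) (nat_lit 2528030934) (nat_lit 0) (nat_lit 814921566) (nat_lit 1444) (nat_lit 4529508903)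 (nat_lit 610) (nat_lit 5) (nat_lit 609) (nat_lit 5) (nat_lit 628) (nat_lit 5) (nat_lit 555) (nat_lit 539) (nat_lit 466)) (XT.lf (nat_lit 0) (nat_lit 5044551834) (nat_lit 1368) (nat_lit 1007935659) (nat_lit 1444) (nat_lit 1877710030) (nat_lit 610) (nat_lit 5) (nat_lit 628) (nat_lit 5) (nat_lit 629) (nat_lit 5) (nat_lit 556) (nat_lit 539) (nat_lit 465))) (XT.nd (nat_lit 78) (nat_lit 1444) (nat_lit 0) (XT.lf (nat_lit 76) (nat_lit 3430340107) (nat_lit 0) (nat_lit 3343356048) (nat_lit 1444) (nat_lit 1215524403) (nat_lit 611) (nat_lit 5) (nat_lit 610) (nat_lit 5) (nat_lit 629) (nat_lit 5) (nat_lit 557) (nat_lit 539) (nat_lit 464)) (XT.lf (nat_lit 0) (nat_lit 454538056) (nat_lit 1444) (nat_lit 106290409) (nat_lit 1520) (nat_lit 7489075798) (nat_lit 591) (nat_lit 5) (nat_lit 610) (nat_lit 5) (nat_lit 611) (nat_lit 5) (nat_lit 558) (nat_lit 539) (nat_lit 463))))) (XT.nd (nat_lit 312) (nat_lit 3192) (nat_lit 0) (XT.nd (nat_lit 156) (nat_lit 1368) (nat_lit 0) (XT.nd (nat_lit 78) (nat_lit 0) (nat_lit 0) (XT.lf (nat_lit 0) (nat_lit 2152591137) (nat_lit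 1444) (nat_lit 3665347626) (nat_lit 1520) (nat_lit 2293487194) (nat_lit 592) (nat_lit 5) (nat_lit 611) (nat_lit 5) (nat_lit 612) (nat_lit 5) (nat_lit 559) (nat_lit 539) (nat_lit 462)) (XT.lf (nat_lit 76) (nat_lit 899958304) (nat_lit 0) (nat_lit 2962266083) (nat_lit 1520) (nat_lit 4312403581) (nat_lit 593) (nat_lit 5) (nat_lit 592) (nat_lit 5) (nat_lit 612) (nat_lit 5) (nat_lit 560) (nat_lit 539) (nat_lit 461))) (XT.nd (nat_lit 78) (nat_lit 1368) (nat_lit 0) (XT.lf (nat_lit 76) (nat_lit 5581521493) (nat_lit 0) (nat_lit 16948852) (nat_lit 1520) (nat_lit 2640777498) (nat_lit 593) (nat_lit 5) (nat_lit 592) (nat_lit 5) (nat_lit 612) (nat_lit 5) (nat_lit 561) (nat_lit 539) (nat_lit 460)) (XT.lf (nat_lit 0) (nat_lit 2033906407) (nat_lit 1444) (nat_lit 5336637565) (nat_lit 1520) (nat_lit 934596264) (nat_lit 574) (nat_lit 5) (nat_lit 593) (nat_lit 5) (nat_lit 594) (nat_lit 5) (nat_lit 562) (nat_lit 539) (nat_lit 459)))) (XT.nd (nat_lit 156) (nat_lit 1596) (nat_lit 0) (XT.nd (nat_lit 78) (nat_lit 1520) (nat_lit 0) (XT.lf (nat_lit 0) (nat_lit 781957730)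 (nat_lit 1520) (nat_lit 1547239805) (nat_lit 76) (nat_lit 6043314089) (nat_lit 573) (nat_lit 5) (nat_lit 593) (nat_lit 5) (nat_lit 574) (nat_lit 5) (nat_lit 563) (nat_lit 539) (nat_lit 458)) (XT.lf (nat_lit 0) (nat_lit 2516037077) (nat_lit 1596) (nat_lit 5162891330) (nat_lit 76) (nat_lit 762266361) (nat_lit 553) (nat_lit 5) (nat_lit 574) (nat_lit 5) (nat_lit 554) (nat_lit 5) (nat_lit 564) (nat_lit 539) (nat_lit 457))) (XT.nd (nat_lit 78) (nat_lit 1596) (nat_lit 0) (XT.lf (nat_lit 0) (nat_lit 4280516764) (nat_lit 1596) (nat_lit 330376022) (nat_lit 76) (nat_lit 3900446427) (nat_lit 553) (nat_lit 5) (nat_lit 574) (nat_lit 5) (nat_lit 554) (nat_lit 5) (nat_lit 565) (nat_lit 539) (nat_lit 456)) (XT.lf (nat_lit 0) (nat_lit 4634901687) (nat_lit 1596) (nat_lit 1445910596) (nat_lit 1672) (nat_lit 2502065711) (nat_lit 532) (nat_lit 5) (nat_lit 553) (nat_lit 5) (nat_lit 554) (nat_lit 5) (nat_lit 566) (nat_lit 539) (nat_lit 455)))))) (XT.nd (nat_lit 546) (nat_lit 4408) (nat_lit 0) (XT.nd (nat_lit 234) (nat_lit 2964) (nat_lit 0) (XT.nd (nat_lit 78) (nat_lit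 1824) (nat_lit 0) (XT.lf (nat_lit 0) (nat_lit 1024886556) (nat_lit 1672) (nat_lit 6883569459) (nat_lit 1748) (nat_lit 747566624) (nat_lit 510) (nat_lit 5) (nat_lit 532) (nat_lit 5) (nat_lit 533) (nat_lit 5) (nat_lit 567) (nat_lit 539) (nat_lit 454)) (XT.nd (nat_lit 78) (nat_lit 1748) (nat_lit 0) (XT.lf (nat_lit 0) (nat_lit 1035701034) (nat_lit 1748) (nat_lit 2621242967) (nat_lit 76) (nat_lit 5073405827) (nat_lit 509) (nat_lit 5) (nat_lit 532) (nat_lit 5) (nat_lit 510) (nat_lit 5) (nat_lit 568) (nat_lit 539) (nat_lit 453)) (XT.lf (nat_lit 0) (nat_lit 2491725026) (nat_lit 1748) (nat_lit 340753926) (nat_lit 1824) (nat_lit 5973830506) (nat_lit 486) (nat_lit 5) (nat_lit 509) (nat_lit 5) (nat_lit 510) (nat_lit 5) (nat_lit 569) (nat_lit 539) (nat_lit 452)))) (XT.nd (nat_lit 156) (nat_lit 1140) (nat_lit 0) (XT.nd (nat_lit 78) (nat_lit 1824) (nat_lit 0) (XT.lf (nat_lit 0) (nat_lit 4674731839) (nat_lit 1824) (nat_lit 1186087840) (nat_lit 76) (nat_lit 3022779601) (nat_lit 486) (nat_lit 5) (nat_lit 510) (nat_lit 5) (nat_lit 487) (nat_lit 5) (nat_lit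 570) (nat_lit 539) (nat_lit 451)) (XT.lf (nat_lit 0) (nat_lit 4071344168) (nat_lit 1824) (nat_lit 2483807382) (nat_lit 1900) (nat_lit 2407258664) (nat_lit 462) (nat_lit 5) (nat_lit 486) (nat_lit 5) (nat_lit 487) (nat_lit 5) (nat_lit 571) (nat_lit 539) (nat_lit 450))) (XT.nd (nat_lit 78) (nat_lit 76) (nat_lit 0) (XT.lf (nat_lit 0) (nat_lit 380901149) (nat_lit 1064) (nat_lit 8082024906) (nat_lit 1140) (nat_lit 580078102) (nat_lit 448) (nat_lit 5) (nat_lit 462) (nat_lit 5) (nat_lit 463) (nat_lit 5) (nat_lit 572) (nat_lit 539) (nat_lit 449)) (XT.lf (nat_lit 0) (nat_lit 1289511155) (nat_lit 1140) (nat_lit 3350307234) (nat_lit 76) (nat_lit 4484772548) (nat_lit 447) (nat_lit 5) (nat_lit 462) (nat_lit 5) (nat_lit 448) (nat_lit 5) (nat_lit 573) (nat_lit 539) (nat_lit 448))))) (XT.nd (nat_lit 312) (nat_lit 1748) (nat_lit 0) (XT.nd (nat_lit 156) (nat_lit 1748) (nat_lit 0) (XT.nd (nat_lit 78) (nat_lit 0) (nat_lit 0) (XT.lf (nat_lit 0) (nat_lit 2066117275) (nat_lit 912) (nat_lit 1109767077) (nat_lit 988) (nat_lit 6032106844) (nat_lit 435) (nat_lit 5)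 (nat_lit 447) (nat_lit 5) (nat_lit 448) (nat_lit 5) (nat_lit 574) (nat_lit 539) (nat_lit 447)) (XT.lf (nat_lit 0) (nat_lit 5112888674) (nat_lit 988) (nat_lit 1697873731) (nat_lit 76) (nat_lit 2482040568) (nat_lit 435) (nat_lit 5) (nat_lit 448) (nat_lit 5) (nat_lit 436) (nat_lit 5) (nat_lit 575) (nat_lit 539) (nat_lit 446))) (XT.nd (nat_lit 78) (nat_lit 836) (nat_lit 0) (XT.lf (nat_lit 0) (nat_lit 3873729196) (nat_lit 912) (nat_lit 3222011968) (nat_lit 988) (nat_lit 2283429218) (nat_lit 423) (nat_lit 5) (nat_lit 435) (nat_lit 5) (nat_lit 436) (nat_lit 5) (nat_lit 576) (nat_lit 539) (nat_lit 445)) (XT.lf (nat_lit 0) (nat_lit 85870168) (nat_lit 836) (nat_lit 9022203578) (nat_lit 912) (nat_lit 359396455) (nat_lit 412) (nat_lit 5) (nat_lit 423) (nat_lit 5) (nat_lit 424) (nat_lit 5) (nat_lit 577) (nat_lit 539) (nat_lit 444)))) (XT.nd (nat_lit 156) (nat_lit 836) (nat_lit 0) (XT.nd (nat_lit 78) (nat_lit 836) (nat_lit 0) (XT.lf (nat_lit 0) (nat_lit 1615732274) (nat_lit 912) (nat_lit 3750395390) (nat_lit 76) (nat_lit 4190528840) (nat_lit 411) (nat_lit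 5) (nat_lit 423) (nat_lit 5) (nat_lit 412) (nat_lit 5) (nat_lit 578) (nat_lit 539) (nat_lit 443)) (XT.lf (nat_lit 0) (nat_lit 1992436634) (nat_lit 836) (nat_lit 1621656892) (nat_lit 912) (nat_lit 6033716086) (nat_lit 400) (nat_lit 5) (nat_lit 411) (nat_lit 5) (nat_lit 412) (nat_lit 5) (nat_lit 579) (nat_lit 539) (nat_lit 442))) (XT.nd (nat_lit 78) (nat_lit 836) (nat_lit 0) (XT.lf (nat_lit 0) (nat_lit 5667941793) (nat_lit 912) (nat_lit 1878819838) (nat_lit 76) (nat_lit 2193715164) (nat_lit 400) (nat_lit 5) (nat_lit 412) (nat_lit 5) (nat_lit 401) (nat_lit 5) (nat_lit 580) (nat_lit 539) (nat_lit 441)) (XT.lf (nat_lit 0) (nat_lit 4030816587) (nat_lit 836) (nat_lit 3745349883) (nat_lit 912) (nat_lit 2058566244) (nat_lit 389) (nat_lit 5) (nat_lit 400) (nat_lit 5) (nat_lit 401) (nat_lit 5) (nat_lit 581) (nat_lit 539) (nat_lit 440))))))))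
noncomputable def xc58 : XT := (XT.nd (nat_lit 78780) (nat_lit 0) (nat_lit 9424) (XT.nd (nat_lit 1170) (nat_lit 1900) (nat_lit 0) (XT.nd (nat_lit 546) (nat_lit 3496) (nat_lit 0) (XT.nd (nat_lit 234) (nat_lit 1520) (nat_lit 0) (XT.nd (nat_lit 78) (nat_lit 836) (nat_lit 0) (XT.lf (nat_lit 0) (nat_lit 129375869) (nat_lit 836) (nat_lit 9788255293) (nat_lit 912) (nat_lit 13422433) (nat_lit 378) (nat_lit 5) (nat_lit 389) (nat_lit 5) (nat_lit 390) (nat_lit 5) (nat_lit 582) (nat_lit 539) (nat_lit 439)) (XT.nd (nat_lit 78) (nat_lit 760) (nat_lit 0) (XT.lf (nat_lit 0) (nat_lit 2086279825) (nat_lit 912) (nat_lit 3832050497) (nat_lit 76) (nat_lit 4109885969) (nat_lit 377) (nat_lit 5) (nat_lit 389) (nat_lit 5) (nat_lit 378) (nat_lit 5) (nat_lit 583) (nat_lit 539) (nat_lit 438)) (XT.lf (nat_lit 0) (nat_lit 2262020283) (nat_lit 760) (nat_lit 1957746657) (nat_lit 836) (nat_lit 5907715391) (nat_lit 367) (nat_lit 5) (nat_lit 377) (nat_lit 5) (nat_lit 378) (nat_lit 5) (nat_lit 584) (nat_lit 539) (nat_lit 437)))) (XT.nd (nat_lit 156) (nat_lit 760) (nat_lit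 0) (XT.nd (nat_lit 78) (nat_lit 760) (nat_lit 0) (XT.lf (nat_lit 0) (nat_lit 6412885691) (nat_lit 836) (nat_lit 1736793600) (nat_lit 76) (nat_lit 2078716415) (nat_lit 367) (nat_lit 5) (nat_lit 378) (nat_lit 5) (nat_lit 368) (nat_lit 5) (nat_lit 585) (nat_lit 539) (nat_lit 436)) (XT.lf (nat_lit 0) (nat_lit 4536665724) (nat_lit 760) (nat_lit 4133619852) (nat_lit 836) (nat_lit 1660634623) (nat_lit 357) (nat_lit 5) (nat_lit 367) (nat_lit 5) (nat_lit 368) (nat_lit 5) (nat_lit 586) (nat_lit 539) (nat_lit 435))) (XT.nd (nat_lit 78) (nat_lit 0) (nat_lit 0) (XT.lf (nat_lit 0) (nat_lit 502450286) (nat_lit 684) (nat_lit 20962921) (nat_lit 760) (nat_lit 9912150935) (nat_lit 347) (nat_lit 5) (nat_lit 356) (nat_lit 5) (nat_lit 357) (nat_lit 5) (nat_lit 587) (nat_lit 539) (nat_lit 434)) (XT.lf (nat_lit 0) (nat_lit 2773548637) (nat_lit 760) (nat_lit 3600949865) (nat_lit 76) (nat_lit 4166691230) (nat_lit 347) (nat_lit 5) (nat_lit 357) (nat_lit 5) (nat_lit 348) (nat_lit 5) (nat_lit 588) (nat_lit 539) (nat_lit 433))))) (XT.nd (nat_lit 312) (nat_lit 1292) (nat_lit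 0) (XT.nd (nat_lit 156) (nat_lit 1444) (nat_lit 0) (XT.nd (nat_lit 78) (nat_lit 0) (nat_lit 0) (XT.lf (nat_lit 0) (nat_lit 2871155450) (nat_lit 760) (nat_lit 2195117209) (nat_lit 836) (nat_lit 5582704590) (nat_lit 337) (nat_lit 5) (nat_lit 347) (nat_lit 5) (nat_lit 348) (nat_lit 5) (nat_lit 589) (nat_lit 539) (nat_lit 432)) (XT.lf (nat_lit 0) (nat_lit 7421646016) (nat_lit 836) (nat_lit 1274967469) (nat_lit 76) (nat_lit 2061972245) (nat_lit 337) (nat_lit 5) (nat_lit 348) (nat_lit 5) (nat_lit 338) (nat_lit 5) (nat_lit 590) (nat_lit 539) (nat_lit 431))) (XT.nd (nat_lit 78) (nat_lit 760) (nat_lit 0) (XT.lf (nat_lit 0) (nat_lit 5390119685) (nat_lit 684) (nat_lit 4462996167) (nat_lit 760) (nat_lit 1016691839) (nat_lit 328) (nat_lit 5) (nat_lit 337) (nat_lit 5) (nat_lit 338) (nat_lit 5) (nat_lit 591) (nat_lit 539) (nat_lit 430)) (XT.lf (nat_lit 0) (nat_lit 1205604074) (nat_lit 684) (nat_lit 122660162) (nat_lit 760) (nat_lit 9654895440) (nat_lit 318) (nat_lit 5) (nat_lit 327) (nat_lit 5) (nat_lit 328) (nat_lit 5) (nat_lit 592) (nat_lit 539) (nat_lit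 429)))) (XT.nd (nat_lit 156) (nat_lit 684) (nat_lit 0) (XT.nd (nat_lit 78) (nat_lit 608) (nat_lit 0) (XT.lf (nat_lit 0) (nat_lit 3751270474) (nat_lit 760) (nat_lit 3058402958) (nat_lit 76) (nat_lit 4288076597) (nat_lit 318) (nat_lit 5) (nat_lit 328) (nat_lit 5) (nat_lit 319) (nat_lit 5) (nat_lit 593) (nat_lit 539) (nat_lit 428)) (XT.lf (nat_lit 0) (nat_lit 3820588753) (nat_lit 608) (nat_lit 2407951642) (nat_lit 684) (nat_lit 4985976729) (nat_lit 310) (nat_lit 5) (nat_lit 318) (nat_lit 5) (nat_lit 319) (nat_lit 5) (nat_lit 594) (nat_lit 539) (nat_lit 427))) (XT.nd (nat_lit 78) (nat_lit 684) (nat_lit 0) (XT.lf (nat_lit 0) (nat_lit 8769925145) (nat_lit 684) (nat_lit 492292192) (nat_lit 76) (nat_lit 2071111822) (nat_lit 310) (nat_lit 5) (nat_lit 319) (nat_lit 5) (nat_lit 311) (nat_lit 5) (nat_lit 595) (nat_lit 539) (nat_lit 426)) (XT.lf (nat_lit 0) (nat_lit 6594339009) (nat_lit 684) (nat_lit 4807338106) (nat_lit 760) (nat_lit 52050497) (nat_lit 301) (nat_lit 5) (nat_lit 310) (nat_lit 5) (nat_lit 311) (nat_lit 5) (nat_lit 596) (nat_lit 539) (nat_lit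 425)))))) (XT.nd (nat_lit 76986) (nat_lit 0) (nat_lit 26524) (XT.nd (nat_lit 234) (nat_lit 608) (nat_lit 0) (XT.nd (nat_lit 78) (nat_lit 608) (nat_lit 0) (XT.lf (nat_lit 0) (nat_lit 2242324187) (nat_lit 608) (nat_lit 233053129) (nat_lit 684) (nat_lit 9100856573) (nat_lit 292) (nat_lit 5) (nat_lit 300) (nat_lit 5) (nat_lit 301) (nat_lit 5) (nat_lit 597) (nat_lit 539) (nat_lit 424)) (XT.nd (nat_lit 78) (nat_lit 608) (nat_lit 0) (XT.lf (nat_lit 0) (nat_lit 5095330894) (nat_lit 684) (nat_lit 2201807478) (nat_lit 76) (nat_lit 4403192466) (nat_lit 292) (nat_lit 5) (nat_lit 301) (nat_lit 5) (nat_lit 293) (nat_lit 5) (nat_lit 598) (nat_lit 539) (nat_lit 423)) (XT.lf (nat_lit 0) (nat_lit 5115076490) (nat_lit 608) (nat_lit 2668800491) (nat_lit 684) (nat_lit 4042709770) (nat_lit 284) (nat_lit 5) (nat_lit 292) (nat_lit 5) (nat_lit 293) (nat_lit 5) (nat_lit 599) (nat_lit 539) (nat_lit 422)))) (XT.nd (nat_lit 76596) (nat_lit 0) (nat_lit 28880) (XT.nd (nat_lit 76518) (nat_lit 0) (nat_lit 28880) (XT.lf (nat_lit 0) (nat_lit 624253572) (nat_lit 608) (nat_lit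 9915810984) (nat_lit 684) (nat_lit 1415026691) (nat_lit 276) (nat_lit 5) (nat_lit 284) (nat_lit 5) (nat_lit 285) (nat_lit 5) (nat_lit 600) (nat_lit 539) (nat_lit 421)) (XT.lf (nat_lit 0) (nat_lit 532421343) (nat_lit 0) (nat_lit 532421343) (nat_lit 1140) (nat_lit 2536439553) (nat_lit 656) (nat_lit 5) (nat_lit 656) (nat_lit 3) (nat_lit 671) (nat_lit 3) (nat_lit 540) (nat_lit 540) (nat_lit 480))) (XT.nd (nat_lit 78) (nat_lit 0) (nat_lit 0) (XT.lf (nat_lit 0) (nat_lit 3813743373) (nat_lit 1140) (nat_lit 2555758233) (nat_lit 1216) (nat_lit 871702355) (nat_lit 656) (nat_lit 5) (nat_lit 671) (nat_lit 3) (nat_lit 672) (nat_lit 5) (nat_lit 541) (nat_lit 540) (nat_lit 479)) (XT.lf (nat_lit 76) (nat_lit 1082240418) (nat_lit 0) (nat_lit 4419997378) (nat_lit 1216) (nat_lit 1778966763) (nat_lit 657) (nat_lit 5) (nat_lit 656) (nat_lit 5) (nat_lit 672) (nat_lit 5) (nat_lit 542) (nat_lit 540) (nat_lit 478))))) (XT.nd (nat_lit 312) (nat_lit 1140) (nat_lit 0) (XT.nd (nat_lit 156) (nat_lit 0) (nat_lit 76) (XT.nd (nat_lit 78) (nat_lit 1216) (nat_lit 0) (XT.lf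 (nat_lit 76) (nat_lit 4805046643) (nat_lit 0) (nat_lit 2393985419) (nat_lit 1216) (nat_lit 123485876) (nat_lit 657) (nat_lit 5) (nat_lit 656) (nat_lit 5) (nat_lit 672) (nat_lit 5) (nat_lit 543) (nat_lit 540) (nat_lit 477)) (XT.lf (nat_lit 76) (nat_lit 1220784959) (nat_lit 0) (nat_lit 289654374) (nat_lit 1292) (nat_lit 5854701029) (nat_lit 641) (nat_lit 5) (nat_lit 640) (nat_lit 5) (nat_lit 657) (nat_lit 5) (nat_lit 544) (nat_lit 540) (nat_lit 476))) (XT.nd (nat_lit 78) (nat_lit 0) (nat_lit 0) (XT.lf (nat_lit 0) (nat_lit 3163187561) (nat_lit 1216) (nat_lit 2376850259) (nat_lit 1292) (nat_lit 1868808301) (nat_lit 641) (nat_lit 5) (nat_lit 657) (nat_lit 5) (nat_lit 658) (nat_lit 5) (nat_lit 545) (nat_lit 540) (nat_lit 475)) (XT.lf (nat_lit 76) (nat_lit 1460179202) (nat_lit 0) (nat_lit 3359755016) (nat_lit 1292) (nat_lit 2634076019) (nat_lit 642) (nat_lit 5) (nat_lit 641) (nat_lit 5) (nat_lit 658) (nat_lit 5) (nat_lit 546) (nat_lit 540) (nat_lit 474)))) (XT.nd (nat_lit 156) (nat_lit 0) (nat_lit 0) (XT.nd (nat_lit 78) (nat_lit 1216) (nat_lit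 0) (XT.lf (nat_lit 76) (nat_lit 5383261725) (nat_lit 0) (nat_lit 1102693292) (nat_lit 1292) (nat_lit 1014602885) (nat_lit 642) (nat_lit 5) (nat_lit 641) (nat_lit 5) (nat_lit 658) (nat_lit 5) (nat_lit 547) (nat_lit 540) (nat_lit 473)) (XT.lf (nat_lit 0) (nat_lit 609516136) (nat_lit 1292) (nat_lit 5722805724) (nat_lit 1368) (nat_lit 1216022557) (nat_lit 625) (nat_lit 5) (nat_lit 642) (nat_lit 5) (nat_lit 643) (nat_lit 5) (nat_lit 548) (nat_lit 540) (nat_lit 472))) (XT.nd (nat_lit 78) (nat_lit 0) (nat_lit 0) (XT.lf (nat_lit 0) (nat_lit 2235583059) (nat_lit 1292) (nat_lit 1758697857) (nat_lit 1368) (nat_lit 3603013468) (nat_lit 625) (nat_lit 5) (nat_lit 642) (nat_lit 5) (nat_lit 643) (nat_lit 5) (nat_lit 549) (nat_lit 540) (nat_lit 471)) (XT.lf (nat_lit 76) (nat_lit 2291500307) (nat_lit 0) (nat_lit 1579738644) (nat_lit 1368) (nat_lit 3776445865) (nat_lit 626) (nat_lit 5) (nat_lit 625) (nat_lit 5) (nat_lit 643) (nat_lit 5) (nat_lit 550) (nat_lit 540) (nat_lit 470))))))) (XT.nd (nat_lit 1170) (nat_lit 11628) (nat_lit 0) (XT.nd (nat_lit 546) (nat_lit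 4180) (nat_lit 0) (XT.nd (nat_lit 234) (nat_lit 0) (nat_lit 76) (XT.nd (nat_lit 78) (nat_lit 1368) (nat_lit 0) (XT.lf (nat_lit 0) (nat_lit 5520094398) (nat_lit 1292) (nat_lit 1282047994) (nat_lit 1368) (nat_lit 897333699) (nat_lit 626) (nat_lit 5) (nat_lit 643) (nat_lit 5) (nat_lit 644) (nat_lit 5) (nat_lit 551) (nat_lit 540) (nat_lit 469)) (XT.nd (nat_lit 78) (nat_lit 1368) (nat_lit 0) (XT.lf (nat_lit 76) (nat_lit 2877384839) (nat_lit 0) (nat_lit 4317286690) (nat_lit 1368) (nat_lit 557779478) (nat_lit 627) (nat_lit 5) (nat_lit 626) (nat_lit 5) (nat_lit 644) (nat_lit 5) (nat_lit 552) (nat_lit 540) (nat_lit 468)) (XT.lf (nat_lit 0) (nat_lit 1054460664) (nat_lit 1368) (nat_lit 699892794) (nat_lit 1444) (nat_lit 6052540546) (nat_lit 608) (nat_lit 5) (nat_lit 626) (nat_lit 5) (nat_lit 627) (nat_lit 5) (nat_lit 553) (nat_lit 540) (nat_lit 467)))) (XT.nd (nat_lit 156) (nat_lit 0) (nat_lit 0) (XT.nd (nat_lit 78) (nat_lit 0) (nat_lit 0) (XT.lf (nat_lit 0) (nat_lit 2685189081) (nat_lit 1368) (nat_lit 4289734151) (nat_lit 1444) (nat_lit 887557198)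 (nat_lit 609) (nat_lit 5) (nat_lit 627) (nat_lit 5) (nat_lit 628) (nat_lit 5) (nat_lit 554) (nat_lit 540) (nat_lit 466)) (XT.lf (nat_lit 0) (nat_lit 4330127475) (nat_lit 1368) (nat_lit 14353103) (nat_lit 1444) (nat_lit 3575068601) (nat_lit 609) (nat_lit 5) (nat_lit 627) (nat_lit 5) (nat_lit 628) (nat_lit 5) (nat_lit 555) (nat_lit 540) (nat_lit 465))) (XT.nd (nat_lit 78) (nat_lit 0) (nat_lit 76) (XT.lf (nat_lit 76) (nat_lit 4380511787) (nat_lit 0) (nat_lit 1621824844) (nat_lit 1444) (nat_lit 1975537686) (nat_lit 610) (nat_lit 5) (nat_lit 609) (nat_lit 5) (nat_lit 628) (nat_lit 5) (nat_lit 556) (nat_lit 540) (nat_lit 464)) (XT.lf (nat_lit 76) (nat_lit 805101620) (nat_lit 0) (nat_lit 6882227278) (nat_lit 1444) (nat_lit 350452684) (nat_lit 611) (nat_lit 5) (nat_lit 610) (nat_lit 5) (nat_lit 629) (nat_lit 5) (nat_lit 557) (nat_lit 540) (nat_lit 463))))) (XT.nd (nat_lit 312) (nat_lit 2888) (nat_lit 0) (XT.nd (nat_lit 156) (nat_lit 0) (nat_lit 76) (XT.nd (nat_lit 78) (nat_lit 0) (nat_lit 0) (XT.lf (nat_lit 0) (nat_lit 1291825828) (nat_lit 1444)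 (nat_lit 2797758882) (nat_lit 1520) (nat_lit 4009098158) (nat_lit 591) (nat_lit 5) (nat_lit 610) (nat_lit 5) (nat_lit 611) (nat_lit 5) (nat_lit 558) (nat_lit 540) (nat_lit 462)) (XT.lf (nat_lit 76) (nat_lit 1722259115) (nat_lit 0) (nat_lit 1218630242) (nat_lit 1520) (nat_lit 5220296118) (nat_lit 592) (nat_lit 5) (nat_lit 591) (nat_lit 5) (nat_lit 611) (nat_lit 5) (nat_lit 559) (nat_lit 540) (nat_lit 461))) (XT.nd (nat_lit 78) (nat_lit 0) (nat_lit 0) (XT.lf (nat_lit 0) (nat_lit 4620917929) (nat_lit 1444) (nat_lit 1889595164) (nat_lit 1520) (nat_lit 1714467588) (nat_lit 592) (nat_lit 5) (nat_lit 611) (nat_lit 5) (nat_lit 612) (nat_lit 5) (nat_lit 560) (nat_lit 540) (nat_lit 460)) (XT.lf (nat_lit 76) (nat_lit 2754852021) (nat_lit 0) (nat_lit 3574263751) (nat_lit 1520) (nat_lit 1961046822) (nat_lit 593) (nat_lit 5) (nat_lit 592) (nat_lit 5) (nat_lit 612) (nat_lit 5) (nat_lit 561) (nat_lit 540) (nat_lit 459)))) (XT.nd (nat_lit 156) (nat_lit 1520) (nat_lit 0) (XT.nd (nat_lit 78) (nat_lit 1444) (nat_lit 0) (XT.lf (nat_lit 76) (nat_lit 7494028933)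 (nat_lit 0) (nat_lit 559201893) (nat_lit 1520) (nat_lit 303784390) (nat_lit 593) (nat_lit 5) (nat_lit 592) (nat_lit 5) (nat_lit 612) (nat_lit 5) (nat_lit 562) (nat_lit 540) (nat_lit 458)) (XT.lf (nat_lit 0) (nat_lit 1379984095) (nat_lit 1520) (nat_lit 4520239128) (nat_lit 76) (nat_lit 2524572729) (nat_lit 573) (nat_lit 5) (nat_lit 593) (nat_lit 5) (nat_lit 574) (nat_lit 5) (nat_lit 563) (nat_lit 540) (nat_lit 457))) (XT.nd (nat_lit 78) (nat_lit 0) (nat_lit 0) (XT.lf (nat_lit 0) (nat_lit 258768009) (nat_lit 1520) (nat_lit 2815773419) (nat_lit 1596) (nat_lit 5419729106) (nat_lit 553) (nat_lit 5) (nat_lit 573) (nat_lit 5) (nat_lit 574) (nat_lit 5) (nat_lit 564) (nat_lit 540) (nat_lit 456)) (XT.lf (nat_lit 0) (nat_lit 4806102307) (nat_lit 1596) (nat_lit 3396920930) (nat_lit 76) (nat_lit 362051094) (nat_lit 553) (nat_lit 5) (nat_lit 574) (nat_lit 5) (nat_lit 554) (nat_lit 5) (nat_lit 565) (nat_lit 540) (nat_lit 455)))))) (XT.nd (nat_lit 546) (nat_lit 4712) (nat_lit 0) (XT.nd (nat_lit 234) (nat_lit 3572) (nat_lit 0) (XT.nd (nat_lit 78) (nat_lit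 1748) (nat_lit 0) (XT.lf (nat_lit 0) (nat_lit 1515468796) (nat_lit 1596) (nat_lit 5056325662) (nat_lit 1672) (nat_lit 2065511679) (nat_lit 532) (nat_lit 5) (nat_lit 553) (nat_lit 5) (nat_lit 554) (nat_lit 5) (nat_lit 566) (nat_lit 540) (nat_lit 454)) (XT.nd (nat_lit 78) (nat_lit 1748) (nat_lit 0) (XT.lf (nat_lit 0) (nat_lit 6548119988) (nat_lit 1596) (nat_lit 1818901046) (nat_lit 1672) (nat_lit 344079030) (nat_lit 532) (nat_lit 5) (nat_lit 553) (nat_lit 5) (nat_lit 554) (nat_lit 5) (nat_lit 567) (nat_lit 540) (nat_lit 453)) (XT.lf (nat_lit 0) (nat_lit 1393736959) (nat_lit 1748) (nat_lit 5896235241) (nat_lit 76) (nat_lit 1496206757) (nat_lit 509) (nat_lit 5) (nat_lit 532) (nat_lit 5) (nat_lit 510) (nat_lit 5) (nat_lit 568) (nat_lit 540) (nat_lit 452)))) (XT.nd (nat_lit 156) (nat_lit 1824) (nat_lit 0) (XT.nd (nat_lit 78) (nat_lit 1748) (nat_lit 0) (XT.lf (nat_lit 0) (nat_lit 3160585993) (nat_lit 1748) (nat_lit 828008227) (nat_lit 76) (nat_lit 4874143831) (nat_lit 509) (nat_lit 5) (nat_lit 532) (nat_lit 5) (nat_lit 510) (nat_lit 5) (nat_lit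 569) (nat_lit 540) (nat_lit 451)) (XT.lf (nat_lit 0) (nat_lit 4375076629) (nat_lit 1748) (nat_lit 588868996) (nat_lit 1824) (nat_lit 3976860980) (nat_lit 486) (nat_lit 5) (nat_lit 509) (nat_lit 5) (nat_lit 510) (nat_lit 5) (nat_lit 570) (nat_lit 540) (nat_lit 450))) (XT.nd (nat_lit 78) (nat_lit 0) (nat_lit 0) (XT.lf (nat_lit 0) (nat_lit 638478699) (nat_lit 1824) (nat_lit 6166491649) (nat_lit 1900) (nat_lit 2215435941) (nat_lit 462) (nat_lit 5) (nat_lit 486) (nat_lit 5) (nat_lit 487) (nat_lit 5) (nat_lit 571) (nat_lit 540) (nat_lit 449)) (XT.lf (nat_lit 0) (nat_lit 5980580884) (nat_lit 1824) (nat_lit 2710284624) (nat_lit 1900) (nat_lit 410573144) (nat_lit 462) (nat_lit 5) (nat_lit 486) (nat_lit 5) (nat_lit 487) (nat_lit 5) (nat_lit 572) (nat_lit 540) (nat_lit 448))))) (XT.nd (nat_lit 312) (nat_lit 1748) (nat_lit 0) (XT.nd (nat_lit 156) (nat_lit 1824) (nat_lit 0) (XT.nd (nat_lit 78) (nat_lit 0) (nat_lit 0) (XT.lf (nat_lit 0) (nat_lit 1405526907) (nat_lit 1140) (nat_lit 6948061910) (nat_lit 76) (nat_lit 830440727) (nat_lit 447) (nat_lit 5)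 (nat_lit 462) (nat_lit 5) (nat_lit 448) (nat_lit 5) (nat_lit 573) (nat_lit 540) (nat_lit 447)) (XT.lf (nat_lit 0) (nat_lit 3265739208) (nat_lit 1140) (nat_lit 1570802024) (nat_lit 76) (nat_lit 4431412576) (nat_lit 447) (nat_lit 5) (nat_lit 462) (nat_lit 5) (nat_lit 448) (nat_lit 5) (nat_lit 574) (nat_lit 540) (nat_lit 446))) (XT.nd (nat_lit 78) (nat_lit 912) (nat_lit 0) (XT.lf (nat_lit 0) (nat_lit 3941802875) (nat_lit 912) (nat_lit 1221703018) (nat_lit 988) (nat_lit 4190045215) (nat_lit 435) (nat_lit 5) (nat_lit 447) (nat_lit 5) (nat_lit 448) (nat_lit 5) (nat_lit 575) (nat_lit 540) (nat_lit 445)) (XT.lf (nat_lit 0) (nat_lit 106373530) (nat_lit 912) (nat_lit 6995268662) (nat_lit 988) (nat_lit 2339171403) (nat_lit 423) (nat_lit 5) (nat_lit 435) (nat_lit 5) (nat_lit 436) (nat_lit 5) (nat_lit 576) (nat_lit 540) (nat_lit 444)))) (XT.nd (nat_lit 156) (nat_lit 836) (nat_lit 0) (XT.nd (nat_lit 78) (nat_lit 912) (nat_lit 0) (XT.lf (nat_lit 0) (nat_lit 5775929134) (nat_lit 912) (nat_lit 3322402706) (nat_lit 988) (nat_lit 431095173) (nat_lit 423) (nat_lit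 5) (nat_lit 435) (nat_lit 5) (nat_lit 436) (nat_lit 5) (nat_lit 577) (nat_lit 540) (nat_lit 443)) (XT.lf (nat_lit 0) (nat_lit 1486466612) (nat_lit 912) (nat_lit 7692147219) (nat_lit 76) (nat_lit 441179653) (nat_lit 411) (nat_lit 5) (nat_lit 423) (nat_lit 5) (nat_lit 412) (nat_lit 5) (nat_lit 578) (nat_lit 540) (nat_lit 442))) (XT.nd (nat_lit 78) (nat_lit 836) (nat_lit 0) (XT.lf (nat_lit 0) (nat_lit 3460050034) (nat_lit 912) (nat_lit 1987457507) (nat_lit 76) (nat_lit 4263935305) (nat_lit 411) (nat_lit 5) (nat_lit 423) (nat_lit 5) (nat_lit 412) (nat_lit 5) (nat_lit 579) (nat_lit 540) (nat_lit 441)) (XT.lf (nat_lit 0) (nat_lit 3858139408) (nat_lit 836) (nat_lit 1616564285) (nat_lit 912) (nat_lit 4330190912) (nat_lit 400) (nat_lit 5) (nat_lit 411) (nat_lit 5) (nat_lit 412) (nat_lit 5) (nat_lit 580) (nat_lit 540) (nat_lit 440))))))))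
noncomputable def xc59 : XT := (XT.nd (nat_lit 78858) (nat_lit 0) (nat_lit 9652) (XT.nd (nat_lit 1170) (nat_lit 1976) (nat_lit 0) (XT.nd (nat_lit 546) (nat_lit 3572) (nat_lit 0) (XT.nd (nat_lit 234) (nat_lit 1520) (nat_lit 0) (XT.nd (nat_lit 78) (nat_lit 1748) (nat_lit 0) (XT.lf (nat_lit 0) (nat_lit 7534802530) (nat_lit 912) (nat_lit 91414275) (nat_lit 76) (nat_lit 2273896906) (nat_lit 400) (nat_lit 5) (nat_lit 412) (nat_lit 5) (nat_lit 401) (nat_lit 5) (nat_lit 581) (nat_lit 540) (nat_lit 439)) (XT.nd (nat_lit 78) (nat_lit 912) (nat_lit 0) (XT.lf (nat_lit 0) (nat_lit 5924408419) (nat_lit 836) (nat_lit 3738171931) (nat_lit 912) (nat_lit 334128637) (nat_lit 389) (nat_lit 5) (nat_lit 400) (nat_lit 5) (nat_lit 401) (nat_lit 5) (nat_lit 582) (nat_lit 540) (nat_lit 438)) (XT.lf (nat_lit 0) (nat_lit 1707294544) (nat_lit 912) (nat_lit 8139648564) (nat_lit 76) (nat_lit 248220554) (nat_lit 377) (nat_lit 5) (nat_lit 389) (nat_lit 5) (nat_lit 378) (nat_lit 5) (nat_lit 583) (nat_lit 540) (nat_lit 437)))) (XT.nd (nat_lit 156) (nat_lit 760) (nat_lit 0)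 (XT.nd (nat_lit 78) (nat_lit 760) (nat_lit 0) (XT.lf (nat_lit 0) (nat_lit 3815069999) (nat_lit 912) (nat_lit 2087148539) (nat_lit 76) (nat_lit 4292726017) (nat_lit 377) (nat_lit 5) (nat_lit 389) (nat_lit 5) (nat_lit 378) (nat_lit 5) (nat_lit 584) (nat_lit 540) (nat_lit 436)) (XT.lf (nat_lit 0) (nat_lit 4116819821) (nat_lit 760) (nat_lit 1853076196) (nat_lit 836) (nat_lit 4326728375) (nat_lit 367) (nat_lit 5) (nat_lit 377) (nat_lit 5) (nat_lit 378) (nat_lit 5) (nat_lit 585) (nat_lit 540) (nat_lit 435))) (XT.nd (nat_lit 78) (nat_lit 0) (nat_lit 0) (XT.lf (nat_lit 0) (nat_lit 34842105) (nat_lit 760) (nat_lit 8140515310) (nat_lit 836) (nat_lit 2224830835) (nat_lit 357) (nat_lit 5) (nat_lit 367) (nat_lit 5) (nat_lit 368) (nat_lit 5) (nat_lit 586) (nat_lit 540) (nat_lit 434)) (XT.lf (nat_lit 0) (nat_lit 6421432638) (nat_lit 760) (nat_lit 4035855522) (nat_lit 836) (nat_lit 47889202) (nat_lit 357) (nat_lit 5) (nat_lit 367) (nat_lit 5) (nat_lit 368) (nat_lit 5) (nat_lit 587) (nat_lit 540) (nat_lit 433))))) (XT.nd (nat_lit 312) (nat_lit 1368) (nat_lit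 0) (XT.nd (nat_lit 156) (nat_lit 1444) (nat_lit 0) (XT.nd (nat_lit 78) (nat_lit 0) (nat_lit 0) (XT.lf (nat_lit 0) (nat_lit 2139270018) (nat_lit 760) (nat_lit 8296999578) (nat_lit 76) (nat_lit 175812221) (nat_lit 347) (nat_lit 5) (nat_lit 357) (nat_lit 5) (nat_lit 348) (nat_lit 5) (nat_lit 588) (nat_lit 540) (nat_lit 432)) (XT.lf (nat_lit 0) (nat_lit 4403066054) (nat_lit 760) (nat_lit 1874304423) (nat_lit 76) (nat_lit 4443077967) (nat_lit 347) (nat_lit 5) (nat_lit 357) (nat_lit 5) (nat_lit 348) (nat_lit 5) (nat_lit 589) (nat_lit 540) (nat_lit 431))) (XT.nd (nat_lit 78) (nat_lit 684) (nat_lit 0) (XT.lf (nat_lit 0) (nat_lit 4715409679) (nat_lit 760) (nat_lit 2006972515) (nat_lit 836) (nat_lit 4108396415) (nat_lit 337) (nat_lit 5) (nat_lit 347) (nat_lit 5) (nat_lit 348) (nat_lit 5) (nat_lit 590) (nat_lit 540) (nat_lit 430)) (XT.lf (nat_lit 0) (nat_lit 486802687) (nat_lit 684) (nat_lit 8612212077) (nat_lit 760) (nat_lit 1844083079) (nat_lit 328) (nat_lit 5) (nat_lit 337) (nat_lit 5) (nat_lit 338) (nat_lit 5) (nat_lit 591) (nat_lit 540) (nat_lit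 429)))) (XT.nd (nat_lit 156) (nat_lit 608) (nat_lit 0) (XT.nd (nat_lit 78) (nat_lit 684) (nat_lit 0) (XT.lf (nat_lit 0) (nat_lit 493980414) (nat_lit 760) (nat_lit 3793136792) (nat_lit 76) (nat_lit 6769795449) (nat_lit 327) (nat_lit 5) (nat_lit 337) (nat_lit 5) (nat_lit 328) (nat_lit 5) (nat_lit 592) (nat_lit 540) (nat_lit 428)) (XT.lf (nat_lit 0) (nat_lit 2855018936) (nat_lit 760) (nat_lit 8166402682) (nat_lit 76) (nat_lit 151321242) (nat_lit 318) (nat_lit 5) (nat_lit 328) (nat_lit 5) (nat_lit 319) (nat_lit 5) (nat_lit 593) (nat_lit 540) (nat_lit 427))) (XT.nd (nat_lit 78) (nat_lit 608) (nat_lit 0) (XT.lf (nat_lit 0) (nat_lit 5297866212) (nat_lit 760) (nat_lit 1349088945) (nat_lit 76) (nat_lit 4643243740) (nat_lit 318) (nat_lit 5) (nat_lit 328) (nat_lit 5) (nat_lit 319) (nat_lit 5) (nat_lit 594) (nat_lit 540) (nat_lit 426)) (XT.lf (nat_lit 0) (nat_lit 5655834691) (nat_lit 608) (nat_lit 2151412038) (nat_lit 684) (nat_lit 3602404767) (nat_lit 310) (nat_lit 5) (nat_lit 318) (nat_lit 5) (nat_lit 319) (nat_lit 5) (nat_lit 595) (nat_lit 540) (nat_lit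 425)))))) (XT.nd (nat_lit 77064) (nat_lit 0) (nat_lit 25840) (XT.nd (nat_lit 234) (nat_lit 608) (nat_lit 0) (XT.nd (nat_lit 78) (nat_lit 684) (nat_lit 0) (XT.lf (nat_lit 0) (nat_lit 1265450563) (nat_lit 684) (nat_lit 9115651809) (nat_lit 760) (nat_lit 1150105972) (nat_lit 301) (nat_lit 5) (nat_lit 310) (nat_lit 5) (nat_lit 311) (nat_lit 5) (nat_lit 596) (nat_lit 540) (nat_lit 424)) (XT.nd (nat_lit 78) (nat_lit 608) (nat_lit 0) (XT.lf (nat_lit 0) (nat_lit 1367882730) (nat_lit 760) (nat_lit 3197815585) (nat_lit 76) (nat_lit 7088636149) (nat_lit 300) (nat_lit 5) (nat_lit 310) (nat_lit 5) (nat_lit 301) (nat_lit 5) (nat_lit 597) (nat_lit 540) (nat_lit 423)) (XT.lf (nat_lit 0) (nat_lit 3929339984) (nat_lit 684) (nat_lit 7746281318) (nat_lit 76) (nat_lit 103980481) (nat_lit 292) (nat_lit 5) (nat_lit 301) (nat_lit 5) (nat_lit 293) (nat_lit 5) (nat_lit 598) (nat_lit 540) (nat_lit 422)))) (XT.nd (nat_lit 76674) (nat_lit 0) (nat_lit 28272) (XT.nd (nat_lit 78) (nat_lit 608) (nat_lit 0) (XT.lf (nat_lit 0) (nat_lit 6575667434) (nat_lit 684) (nat_lit 507840510)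 (nat_lit 76) (nat_lit 4823194559) (nat_lit 292) (nat_lit 5) (nat_lit 301) (nat_lit 5) (nat_lit 293) (nat_lit 5) (nat_lit 599) (nat_lit 540) (nat_lit 421)) (XT.lf (nat_lit 0) (nat_lit 6943946907) (nat_lit 608) (nat_lit 2358219528) (nat_lit 684) (nat_lit 2733634760) (nat_lit 284) (nat_lit 5) (nat_lit 292) (nat_lit 5) (nat_lit 293) (nat_lit 5) (nat_lit 600) (nat_lit 540) (nat_lit 420))) (XT.nd (nat_lit 78) (nat_lit 0) (nat_lit 0) (XT.lf (nat_lit 0) (nat_lit 1366203644) (nat_lit 0) (nat_lit 1366203644) (nat_lit 1140) (nat_lit 907845150) (nat_lit 656) (nat_lit 5) (nat_lit 656) (nat_lit 3) (nat_lit 671) (nat_lit 3) (nat_lit 541) (nat_lit 541) (nat_lit 478)) (XT.lf (nat_lit 0) (nat_lit 6399109203) (nat_lit 0) (nat_lit 713035429) (nat_lit 1140) (nat_lit 209185797) (nat_lit 656) (nat_lit 5) (nat_lit 656) (nat_lit 3) (nat_lit 671) (nat_lit 3) (nat_lit 542) (nat_lit 541) (nat_lit 477))))) (XT.nd (nat_lit 312) (nat_lit 1216) (nat_lit 0) (XT.nd (nat_lit 156) (nat_lit 0) (nat_lit 0) (XT.nd (nat_lit 78) (nat_lit 0) (nat_lit 0) (XT.lf (nat_lit 0) (nat_lit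 1395765580) (nat_lit 1216) (nat_lit 4590401949) (nat_lit 1292) (nat_lit 1376921298) (nat_lit 640) (nat_lit 5) (nat_lit 656) (nat_lit 5) (nat_lit 657) (nat_lit 5) (nat_lit 543) (nat_lit 541) (nat_lit 476)) (XT.lf (nat_lit 0) (nat_lit 2999729258) (nat_lit 1216) (nat_lit 879983093) (nat_lit 1292) (nat_lit 3526551275) (nat_lit 640) (nat_lit 5) (nat_lit 656) (nat_lit 5) (nat_lit 657) (nat_lit 5) (nat_lit 544) (nat_lit 541) (nat_lit 475))) (XT.nd (nat_lit 78) (nat_lit 0) (nat_lit 76) (XT.lf (nat_lit 76) (nat_lit 2921121685) (nat_lit 0) (nat_lit 1693185000) (nat_lit 1292) (nat_lit 2836427656) (nat_lit 641) (nat_lit 5) (nat_lit 640) (nat_lit 5) (nat_lit 657) (nat_lit 5) (nat_lit 545) (nat_lit 541) (nat_lit 474)) (XT.lf (nat_lit 0) (nat_lit 6230944965) (nat_lit 1216) (nat_lit 711931486) (nat_lit 1292) (nat_lit 553825684) (nat_lit 641) (nat_lit 5) (nat_lit 657) (nat_lit 5) (nat_lit 658) (nat_lit 5) (nat_lit 546) (nat_lit 541) (nat_lit 473)))) (XT.nd (nat_lit 156) (nat_lit 0) (nat_lit 76) (XT.nd (nat_lit 78) (nat_lit 0) (nat_lit 0) (XT.lf (nat_lit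 0) (nat_lit 324910880) (nat_lit 1292) (nat_lit 4355296555) (nat_lit 1368) (nat_lit 2863481204) (nat_lit 624) (nat_lit 5) (nat_lit 641) (nat_lit 5) (nat_lit 642) (nat_lit 5) (nat_lit 547) (nat_lit 541) (nat_lit 472)) (XT.lf (nat_lit 0) (nat_lit 1896747607) (nat_lit 1292) (nat_lit 446092593) (nat_lit 1368) (nat_lit 5249284140) (nat_lit 624) (nat_lit 5) (nat_lit 641) (nat_lit 5) (nat_lit 642) (nat_lit 5) (nat_lit 548) (nat_lit 541) (nat_lit 471))) (XT.nd (nat_lit 78) (nat_lit 0) (nat_lit 0) (XT.lf (nat_lit 0) (nat_lit 3485931027) (nat_lit 1292) (nat_lit 4076372965) (nat_lit 1368) (nat_lit 79509381) (nat_lit 625) (nat_lit 5) (nat_lit 642) (nat_lit 5) (nat_lit 643) (nat_lit 5) (nat_lit 549) (nat_lit 541) (nat_lit 470)) (XT.lf (nat_lit 0) (nat_lit 5088358023) (nat_lit 1292) (nat_lit 67510173) (nat_lit 1368) (nat_lit 2537001554) (nat_lit 625) (nat_lit 5) (nat_lit 642) (nat_lit 5) (nat_lit 643) (nat_lit 5) (nat_lit 550) (nat_lit 541) (nat_lit 469))))))) (XT.nd (nat_lit 1170) (nat_lit 10792) (nat_lit 0) (XT.nd (nat_lit 546) (nat_lit 2812) (nat_lit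 0) (XT.nd (nat_lit 234) (nat_lit 1292) (nat_lit 0) (XT.nd (nat_lit 78) (nat_lit 1368) (nat_lit 0) (XT.lf (nat_lit 76) (nat_lit 4052334311) (nat_lit 0) (nat_lit 2660467599) (nat_lit 1368) (nat_lit 1032348685) (nat_lit 626) (nat_lit 5) (nat_lit 625) (nat_lit 5) (nat_lit 643) (nat_lit 5) (nat_lit 551) (nat_lit 541) (nat_lit 468)) (XT.nd (nat_lit 78) (nat_lit 0) (nat_lit 76) (XT.lf (nat_lit 76) (nat_lit 436356858) (nat_lit 0) (nat_lit 94684619) (nat_lit 1444) (nat_lit 7268018485) (nat_lit 608) (nat_lit 5) (nat_lit 607) (nat_lit 5) (nat_lit 626) (nat_lit 5) (nat_lit 552) (nat_lit 541) (nat_lit 467)) (XT.lf (nat_lit 0) (nat_lit 2117841911) (nat_lit 1368) (nat_lit 3202082594) (nat_lit 1444) (nat_lit 2533869774) (nat_lit 608) (nat_lit 5) (nat_lit 626) (nat_lit 5) (nat_lit 627) (nat_lit 5) (nat_lit 553) (nat_lit 541) (nat_lit 466)))) (XT.nd (nat_lit 156) (nat_lit 1368) (nat_lit 0) (XT.nd (nat_lit 78) (nat_lit 0) (nat_lit 76) (XT.lf (nat_lit 76) (nat_lit 1031789487) (nat_lit 0) (nat_lit 2677239150) (nat_lit 1444) (nat_lit 4201144141) (nat_lit 609)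 (nat_lit 5) (nat_lit 608) (nat_lit 5) (nat_lit 627) (nat_lit 5) (nat_lit 554) (nat_lit 541) (nat_lit 465)) (XT.lf (nat_lit 0) (nat_lit 5319718682) (nat_lit 1368) (nat_lit 2597241108) (nat_lit 1444) (nat_lit 50967919) (nat_lit 609) (nat_lit 5) (nat_lit 627) (nat_lit 5) (nat_lit 628) (nat_lit 5) (nat_lit 555) (nat_lit 541) (nat_lit 464))) (XT.nd (nat_lit 78) (nat_lit 1444) (nat_lit 0) (XT.lf (nat_lit 76) (nat_lit 1751753739) (nat_lit 0) (nat_lit 5206571225) (nat_lit 1444) (nat_lit 1068601130) (nat_lit 610) (nat_lit 5) (nat_lit 609) (nat_lit 5) (nat_lit 628) (nat_lit 5) (nat_lit 556) (nat_lit 541) (nat_lit 463)) (XT.lf (nat_lit 0) (nat_lit 519912056) (nat_lit 1444) (nat_lit 1890765099) (nat_lit 1520) (nat_lit 5676670557) (nat_lit 590) (nat_lit 5) (nat_lit 609) (nat_lit 5) (nat_lit 610) (nat_lit 5) (nat_lit 557) (nat_lit 541) (nat_lit 462))))) (XT.nd (nat_lit 312) (nat_lit 2888) (nat_lit 0) (XT.nd (nat_lit 156) (nat_lit 0) (nat_lit 0) (XT.nd (nat_lit 78) (nat_lit 0) (nat_lit 0) (XT.lf (nat_lit 0) (nat_lit 2113304928) (nat_lit 1444) (nat_lit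 5566925088) (nat_lit 1520) (nat_lit 468860383) (nat_lit 591) (nat_lit 5) (nat_lit 610) (nat_lit 5) (nat_lit 611) (nat_lit 5) (nat_lit 558) (nat_lit 541) (nat_lit 461)) (XT.lf (nat_lit 0) (nat_lit 3735386357) (nat_lit 1444) (nat_lit 1081079162) (nat_lit 1520) (nat_lit 3395668229) (nat_lit 591) (nat_lit 5) (nat_lit 610) (nat_lit 5) (nat_lit 611) (nat_lit 5) (nat_lit 559) (nat_lit 541) (nat_lit 460))) (XT.nd (nat_lit 78) (nat_lit 0) (nat_lit 76) (XT.lf (nat_lit 76) (nat_lit 3517677123) (nat_lit 0) (nat_lit 1863781083) (nat_lit 1520) (nat_lit 2895150959) (nat_lit 592) (nat_lit 5) (nat_lit 591) (nat_lit 5) (nat_lit 611) (nat_lit 5) (nat_lit 560) (nat_lit 541) (nat_lit 459)) (XT.lf (nat_lit 0) (nat_lit 7044434874) (nat_lit 1444) (nat_lit 150128883) (nat_lit 1520) (nat_lit 1148132804) (nat_lit 592) (nat_lit 5) (nat_lit 611) (nat_lit 5) (nat_lit 612) (nat_lit 5) (nat_lit 561) (nat_lit 541) (nat_lit 458)))) (XT.nd (nat_lit 156) (nat_lit 1444) (nat_lit 0) (XT.nd (nat_lit 78) (nat_lit 0) (nat_lit 0) (XT.lf (nat_lit 0) (nat_lit 338187571) (nat_lit 1520)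 (nat_lit 3836580337) (nat_lit 1596) (nat_lit 4235057770) (nat_lit 572) (nat_lit 5) (nat_lit 592) (nat_lit 5) (nat_lit 593) (nat_lit 5) (nat_lit 562) (nat_lit 541) (nat_lit 457)) (XT.lf (nat_lit 76) (nat_lit 894725174) (nat_lit 0) (nat_lit 1072171550) (nat_lit 1596) (nat_lit 6511692743) (nat_lit 573) (nat_lit 5) (nat_lit 572) (nat_lit 5) (nat_lit 593) (nat_lit 5) (nat_lit 563) (nat_lit 541) (nat_lit 456))) (XT.nd (nat_lit 78) (nat_lit 1520) (nat_lit 0) (XT.lf (nat_lit 0) (nat_lit 3638235199) (nat_lit 1520) (nat_lit 2813037223) (nat_lit 76) (nat_lit 2097256979) (nat_lit 573) (nat_lit 5) (nat_lit 593) (nat_lit 5) (nat_lit 574) (nat_lit 5) (nat_lit 564) (nat_lit 541) (nat_lit 455)) (XT.lf (nat_lit 0) (nat_lit 2049723697) (nat_lit 1520) (nat_lit 3284816189) (nat_lit 1596) (nat_lit 3285499393) (nat_lit 553) (nat_lit 5) (nat_lit 573) (nat_lit 5) (nat_lit 574) (nat_lit 5) (nat_lit 565) (nat_lit 541) (nat_lit 454)))))) (XT.nd (nat_lit 546) (nat_lit 3876) (nat_lit 0) (XT.nd (nat_lit 234) (nat_lit 5244) (nat_lit 0) (XT.nd (nat_lit 78) (nat_lit 1672)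 (nat_lit 0) (XT.lf (nat_lit 0) (nat_lit 7024759642) (nat_lit 1520) (nat_lit 30434794) (nat_lit 1596) (nat_lit 1637978340) (nat_lit 553) (nat_lit 5) (nat_lit 573) (nat_lit 5) (nat_lit 574) (nat_lit 5) (nat_lit 566) (nat_lit 541) (nat_lit 453)) (XT.nd (nat_lit 78) (nat_lit 0) (nat_lit 0) (XT.lf (nat_lit 0) (nat_lit 57151896) (nat_lit 1672) (nat_lit 5437242483) (nat_lit 76) (nat_lit 3273066547) (nat_lit 531) (nat_lit 5) (nat_lit 553) (nat_lit 5) (nat_lit 532) (nat_lit 5) (nat_lit 567) (nat_lit 541) (nat_lit 452)) (XT.lf (nat_lit 0) (nat_lit 1748095694) (nat_lit 1672) (nat_lit 426164224) (nat_lit 76) (nat_lit 6669083298) (nat_lit 531) (nat_lit 5) (nat_lit 553) (nat_lit 5) (nat_lit 532) (nat_lit 5) (nat_lit 568) (nat_lit 541) (nat_lit 451)))) (XT.nd (nat_lit 156) (nat_lit 1824) (nat_lit 0) (XT.nd (nat_lit 78) (nat_lit 1748) (nat_lit 0) (XT.lf (nat_lit 0) (nat_lit 3484524383) (nat_lit 1748) (nat_lit 4204689751) (nat_lit 76) (nat_lit 1231297449) (nat_lit 509) (nat_lit 5) (nat_lit 532) (nat_lit 5) (nat_lit 510) (nat_lit 5) (nat_lit 569) (nat_lit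 541) (nat_lit 450)) (XT.lf (nat_lit 0) (nat_lit 941773524) (nat_lit 1748) (nat_lit 4310602222) (nat_lit 1824) (nat_lit 3746915406) (nat_lit 486) (nat_lit 5) (nat_lit 509) (nat_lit 5) (nat_lit 510) (nat_lit 5) (nat_lit 570) (nat_lit 541) (nat_lit 449))) (XT.nd (nat_lit 78) (nat_lit 1824) (nat_lit 0) (XT.lf (nat_lit 0) (nat_lit 6224897560) (nat_lit 1748) (nat_lit 832576394) (nat_lit 1824) (nat_lit 2022136246) (nat_lit 486) (nat_lit 5) (nat_lit 509) (nat_lit 5) (nat_lit 510) (nat_lit 5) (nat_lit 571) (nat_lit 541) (nat_lit 448)) (XT.lf (nat_lit 0) (nat_lit 2443218697) (nat_lit 1824) (nat_lit 6463155888) (nat_lit 1900) (nat_lit 255008686) (nat_lit 462) (nat_lit 5) (nat_lit 486) (nat_lit 5) (nat_lit 487) (nat_lit 5) (nat_lit 572) (nat_lit 541) (nat_lit 447))))) (XT.nd (nat_lit 312) (nat_lit 1824) (nat_lit 0) (XT.nd (nat_lit 156) (nat_lit 912) (nat_lit 0) (XT.nd (nat_lit 78) (nat_lit 1064) (nat_lit 0) (XT.lf (nat_lit 0) (nat_lit 1526358319) (nat_lit 1900) (nat_lit 1397825021) (nat_lit 76) (nat_lit 6320425264) (nat_lit 461) (nat_lit 5) (nat_lit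 486) (nat_lit 5) (nat_lit 462) (nat_lit 5) (nat_lit 573) (nat_lit 541) (nat_lit 446)) (XT.lf (nat_lit 0) (nat_lit 3345831396) (nat_lit 1140) (nat_lit 5276717898) (nat_lit 76) (nat_lit 706799127) (nat_lit 447) (nat_lit 5) (nat_lit 462) (nat_lit 5) (nat_lit 448) (nat_lit 5) (nat_lit 574) (nat_lit 541) (nat_lit 445))) (XT.nd (nat_lit 78) (nat_lit 0) (nat_lit 0) (XT.lf (nat_lit 0) (nat_lit 174884647) (nat_lit 912) (nat_lit 5032004763) (nat_lit 988) (nat_lit 4208791240) (nat_lit 435) (nat_lit 5) (nat_lit 447) (nat_lit 5) (nat_lit 448) (nat_lit 5) (nat_lit 575) (nat_lit 541) (nat_lit 444)) (XT.lf (nat_lit 0) (nat_lit 5783771625) (nat_lit 912) (nat_lit 1332392942) (nat_lit 988) (nat_lit 2387356533) (nat_lit 435) (nat_lit 5) (nat_lit 447) (nat_lit 5) (nat_lit 448) (nat_lit 5) (nat_lit 576) (nat_lit 541) (nat_lit 443)))) (XT.nd (nat_lit 156) (nat_lit 836) (nat_lit 0) (XT.nd (nat_lit 78) (nat_lit 76) (nat_lit 0) (XT.lf (nat_lit 0) (nat_lit 1897447426) (nat_lit 912) (nat_lit 7170419622) (nat_lit 988) (nat_lit 525167939) (nat_lit 423) (nat_lit 5) (nat_lit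 435) (nat_lit 5) (nat_lit 436) (nat_lit 5) (nat_lit 577) (nat_lit 541) (nat_lit 442)) (XT.lf (nat_lit 0) (nat_lit 1366424731) (nat_lit 988) (nat_lit 2047811096) (nat_lit 76) (nat_lit 6269722602) (nat_lit 422) (nat_lit 5) (nat_lit 435) (nat_lit 5) (nat_lit 423) (nat_lit 5) (nat_lit 578) (nat_lit 541) (nat_lit 441))) (XT.nd (nat_lit 78) (nat_lit 0) (nat_lit 0) (XT.lf (nat_lit 0) (nat_lit 3292669585) (nat_lit 912) (nat_lit 6044082525) (nat_lit 76) (nat_lit 439803136) (nat_lit 411) (nat_lit 5) (nat_lit 423) (nat_lit 5) (nat_lit 412) (nat_lit 5) (nat_lit 579) (nat_lit 541) (nat_lit 440)) (XT.lf (nat_lit 0) (nat_lit 5270891859) (nat_lit 912) (nat_lit 260630541) (nat_lit 76) (nat_lit 4339213903) (nat_lit 411) (nat_lit 5) (nat_lit 423) (nat_lit 5) (nat_lit 412) (nat_lit 5) (nat_lit 580) (nat_lit 541) (nat_lit 439))))))))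
noncomputable def xc60 : XT := (XT.nd (nat_lit 79014) (nat_lit 0) (nat_lit 8208) (XT.nd (nat_lit 1170) (nat_lit 1368) (nat_lit 0) (XT.nd (nat_lit 546) (nat_lit 3572) (nat_lit 0) (XT.nd (nat_lit 234) (nat_lit 2356) (nat_lit 0) (XT.nd (nat_lit 78) (nat_lit 912) (nat_lit 0) (XT.lf (nat_lit 0) (nat_lit 5690256101) (nat_lit 836) (nat_lit 1612826996) (nat_lit 912) (nat_lit 2663431123) (nat_lit 400) (nat_lit 5) (nat_lit 411) (nat_lit 5) (nat_lit 412) (nat_lit 5) (nat_lit 581) (nat_lit 541) (nat_lit 438)) (XT.nd (nat_lit 78) (nat_lit 76) (nat_lit 0) (XT.lf (nat_lit 0) (nat_lit 1682945255) (nat_lit 836) (nat_lit 7698891407) (nat_lit 912) (nat_lit 682253963) (nat_lit 389) (nat_lit 5) (nat_lit 400) (nat_lit 5) (nat_lit 401) (nat_lit 5) (nat_lit 582) (nat_lit 541) (nat_lit 437)) (XT.lf (nat_lit 0) (nat_lit 1338449683) (nat_lit 912) (nat_lit 2386606493) (nat_lit 76) (nat_lit 6438040655) (nat_lit 388) (nat_lit 5) (nat_lit 400) (nat_lit 5) (nat_lit 389) (nat_lit 5) (nat_lit 583) (nat_lit 541) (nat_lit 436)))) (XT.nd (nat_lit 156) (nat_lit 1520) (nat_lit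 0) (XT.nd (nat_lit 78) (nat_lit 0) (nat_lit 0) (XT.lf (nat_lit 0) (nat_lit 3395425315) (nat_lit 912) (nat_lit 6516615097) (nat_lit 76) (nat_lit 351853915) (nat_lit 377) (nat_lit 5) (nat_lit 389) (nat_lit 5) (nat_lit 378) (nat_lit 5) (nat_lit 584) (nat_lit 541) (nat_lit 435)) (XT.lf (nat_lit 0) (nat_lit 5512925203) (nat_lit 912) (nat_lit 378081276) (nat_lit 76) (nat_lit 4475314802) (nat_lit 377) (nat_lit 5) (nat_lit 389) (nat_lit 5) (nat_lit 378) (nat_lit 5) (nat_lit 585) (nat_lit 541) (nat_lit 434))) (XT.nd (nat_lit 78) (nat_lit 760) (nat_lit 0) (XT.lf (nat_lit 0) (nat_lit 5938447963) (nat_lit 760) (nat_lit 1751897241) (nat_lit 836) (nat_lit 2780101346) (nat_lit 367) (nat_lit 5) (nat_lit 377) (nat_lit 5) (nat_lit 378) (nat_lit 5) (nat_lit 586) (nat_lit 541) (nat_lit 433)) (XT.lf (nat_lit 0) (nat_lit 1794395417) (nat_lit 760) (nat_lit 8126426864) (nat_lit 836) (nat_lit 655643027) (nat_lit 357) (nat_lit 5) (nat_lit 367) (nat_lit 5) (nat_lit 368) (nat_lit 5) (nat_lit 587) (nat_lit 541) (nat_lit 432))))) (XT.nd (nat_lit 312) (nat_lit 2052) (nat_lit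 0) (XT.nd (nat_lit 156) (nat_lit 760) (nat_lit 0) (XT.nd (nat_lit 78) (nat_lit 684) (nat_lit 0) (XT.lf (nat_lit 0) (nat_lit 1513088418) (nat_lit 836) (nat_lit 2419900445) (nat_lit 76) (nat_lit 6750988341) (nat_lit 356) (nat_lit 5) (nat_lit 367) (nat_lit 5) (nat_lit 357) (nat_lit 5) (nat_lit 588) (nat_lit 541) (nat_lit 431)) (XT.lf (nat_lit 0) (nat_lit 3725238207) (nat_lit 760) (nat_lit 6699543061) (nat_lit 76) (nat_lit 368596026) (nat_lit 347) (nat_lit 5) (nat_lit 357) (nat_lit 5) (nat_lit 348) (nat_lit 5) (nat_lit 589) (nat_lit 541) (nat_lit 430))) (XT.nd (nat_lit 78) (nat_lit 760) (nat_lit 0) (XT.lf (nat_lit 0) (nat_lit 6004051679) (nat_lit 760) (nat_lit 182970405) (nat_lit 76) (nat_lit 4717495958) (nat_lit 347) (nat_lit 5) (nat_lit 357) (nat_lit 5) (nat_lit 348) (nat_lit 5) (nat_lit 590) (nat_lit 541) (nat_lit 429)) (XT.lf (nat_lit 0) (nat_lit 6527164163) (nat_lit 760) (nat_lit 1824075597) (nat_lit 836) (nat_lit 2666186924) (nat_lit 337) (nat_lit 5) (nat_lit 347) (nat_lit 5) (nat_lit 348) (nat_lit 5) (nat_lit 591) (nat_lit 541) (nat_lit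 428)))) (XT.nd (nat_lit 156) (nat_lit 1292) (nat_lit 0) (XT.nd (nat_lit 78) (nat_lit 76) (nat_lit 0) (XT.lf (nat_lit 0) (nat_lit 2231017812) (nat_lit 684) (nat_lit 8527766108) (nat_lit 760) (nat_lit 373542359) (nat_lit 328) (nat_lit 5) (nat_lit 337) (nat_lit 5) (nat_lit 338) (nat_lit 5) (nat_lit 592) (nat_lit 541) (nat_lit 427)) (XT.lf (nat_lit 0) (nat_lit 1962342636) (nat_lit 760) (nat_lit 2149072658) (nat_lit 76) (nat_lit 7137391236) (nat_lit 327) (nat_lit 5) (nat_lit 337) (nat_lit 5) (nat_lit 328) (nat_lit 5) (nat_lit 593) (nat_lit 541) (nat_lit 426))) (XT.nd (nat_lit 78) (nat_lit 608) (nat_lit 0) (XT.lf (nat_lit 0) (nat_lit 4354835323) (nat_lit 760) (nat_lit 6593964000) (nat_lit 76) (nat_lit 418470815) (nat_lit 318) (nat_lit 5) (nat_lit 328) (nat_lit 5) (nat_lit 319) (nat_lit 5) (nat_lit 594) (nat_lit 541) (nat_lit 425)) (XT.lf (nat_lit 0) (nat_lit 329989237) (nat_lit 608) (nat_lit 6490404265) (nat_lit 684) (nat_lit 4667206149) (nat_lit 310) (nat_lit 5) (nat_lit 318) (nat_lit 5) (nat_lit 319) (nat_lit 5) (nat_lit 595) (nat_lit 541) (nat_lit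 424)))))) (XT.nd (nat_lit 77220) (nat_lit 0) (nat_lit 23940) (XT.nd (nat_lit 234) (nat_lit 608) (nat_lit 0) (XT.nd (nat_lit 78) (nat_lit 760) (nat_lit 0) (XT.lf (nat_lit 0) (nat_lit 7459487873) (nat_lit 608) (nat_lit 1901573461) (nat_lit 684) (nat_lit 2248759383) (nat_lit 310) (nat_lit 5) (nat_lit 318) (nat_lit 5) (nat_lit 319) (nat_lit 5) (nat_lit 596) (nat_lit 541) (nat_lit 423)) (XT.nd (nat_lit 78) (nat_lit 0) (nat_lit 0) (XT.lf (nat_lit 0) (nat_lit 234706777) (nat_lit 760) (nat_lit 8739519003) (nat_lit 76) (nat_lit 2759842795) (nat_lit 300) (nat_lit 5) (nat_lit 310) (nat_lit 5) (nat_lit 301) (nat_lit 5) (nat_lit 597) (nat_lit 541) (nat_lit 422)) (XT.lf (nat_lit 0) (nat_lit 2760367195) (nat_lit 760) (nat_lit 1571637251) (nat_lit 76) (nat_lit 7528047817) (nat_lit 300) (nat_lit 5) (nat_lit 310) (nat_lit 5) (nat_lit 301) (nat_lit 5) (nat_lit 598) (nat_lit 541) (nat_lit 421)))) (XT.nd (nat_lit 76830) (nat_lit 0) (nat_lit 26372) (XT.nd (nat_lit 76752) (nat_lit 0) (nat_lit 26372) (XT.lf (nat_lit 0) (nat_lit 5359328667) (nat_lit 684) (nat_lit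 6197282319) (nat_lit 76) (nat_lit 431489741) (nat_lit 292) (nat_lit 5) (nat_lit 301) (nat_lit 5) (nat_lit 293) (nat_lit 5) (nat_lit 599) (nat_lit 541) (nat_lit 420)) (XT.lf (nat_lit 0) (nat_lit 679086274) (nat_lit 1292) (nat_lit 1501054998) (nat_lit 1292) (nat_lit 1501054998) (nat_lit 639) (nat_lit 3) (nat_lit 656) (nat_lit 3) (nat_lit 656) (nat_lit 5) (nat_lit 542) (nat_lit 542) (nat_lit 476))) (XT.nd (nat_lit 78) (nat_lit 0) (nat_lit 0) (XT.lf (nat_lit 76) (nat_lit 662471951) (nat_lit 0) (nat_lit 2254677031) (nat_lit 1292) (nat_lit 4487840991) (nat_lit 640) (nat_lit 5) (nat_lit 639) (nat_lit 3) (nat_lit 656) (nat_lit 5) (nat_lit 543) (nat_lit 542) (nat_lit 475)) (XT.lf (nat_lit 76) (nat_lit 4420148426) (nat_lit 0) (nat_lit 66743180) (nat_lit 1292) (nat_lit 2961959127) (nat_lit 640) (nat_lit 5) (nat_lit 639) (nat_lit 3) (nat_lit 656) (nat_lit 5) (nat_lit 544) (nat_lit 542) (nat_lit 474))))) (XT.nd (nat_lit 312) (nat_lit 1216) (nat_lit 0) (XT.nd (nat_lit 156) (nat_lit 0) (nat_lit 0) (XT.nd (nat_lit 78) (nat_lit 1292) (nat_lit 0) (XT.lf (nat_lit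 76) (nat_lit 733548673) (nat_lit 0) (nat_lit 5333660770) (nat_lit 1292) (nat_lit 1426798707) (nat_lit 641) (nat_lit 5) (nat_lit 640) (nat_lit 5) (nat_lit 657) (nat_lit 5) (nat_lit 545) (nat_lit 542) (nat_lit 473)) (XT.lf (nat_lit 0) (nat_lit 118881177) (nat_lit 1292) (nat_lit 2950831453) (nat_lit 1368) (nat_lit 4470708157) (nat_lit 623) (nat_lit 5) (nat_lit 640) (nat_lit 5) (nat_lit 641) (nat_lit 5) (nat_lit 546) (nat_lit 542) (nat_lit 472))) (XT.nd (nat_lit 78) (nat_lit 0) (nat_lit 76) (XT.lf (nat_lit 76) (nat_lit 916194181) (nat_lit 0) (nat_lit 727651188) (nat_lit 1368) (nat_lit 5944381048) (nat_lit 624) (nat_lit 5) (nat_lit 623) (nat_lit 5) (nat_lit 641) (nat_lit 5) (nat_lit 547) (nat_lit 542) (nat_lit 471)) (XT.lf (nat_lit 0) (nat_lit 3192261762) (nat_lit 1292) (nat_lit 2769039464) (nat_lit 1368) (nat_lit 1675830692) (nat_lit 624) (nat_lit 5) (nat_lit 641) (nat_lit 5) (nat_lit 642) (nat_lit 5) (nat_lit 548) (nat_lit 542) (nat_lit 470)))) (XT.nd (nat_lit 156) (nat_lit 1292) (nat_lit 0) (XT.nd (nat_lit 78) (nat_lit 0) (nat_lit 0) (XT.lf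 (nat_lit 76) (nat_lit 1201292707) (nat_lit 0) (nat_lit 3545946955) (nat_lit 1368) (nat_lit 2940266767) (nat_lit 625) (nat_lit 5) (nat_lit 624) (nat_lit 5) (nat_lit 642) (nat_lit 5) (nat_lit 549) (nat_lit 542) (nat_lit 469)) (XT.lf (nat_lit 76) (nat_lit 5267052315) (nat_lit 0) (nat_lit 1048407527) (nat_lit 1368) (nat_lit 1423788442) (nat_lit 625) (nat_lit 5) (nat_lit 624) (nat_lit 5) (nat_lit 642) (nat_lit 5) (nat_lit 550) (nat_lit 542) (nat_lit 468))) (XT.nd (nat_lit 78) (nat_lit 0) (nat_lit 0) (XT.lf (nat_lit 0) (nat_lit 105868324) (nat_lit 1368) (nat_lit 6181431817) (nat_lit 1444) (nat_lit 1505022216) (nat_lit 607) (nat_lit 5) (nat_lit 625) (nat_lit 5) (nat_lit 626) (nat_lit 5) (nat_lit 551) (nat_lit 542) (nat_lit 467)) (XT.lf (nat_lit 0) (nat_lit 1635407218) (nat_lit 1368) (nat_lit 2075690313) (nat_lit 1444) (nat_lit 4135407638) (nat_lit 607) (nat_lit 5) (nat_lit 625) (nat_lit 5) (nat_lit 626) (nat_lit 5) (nat_lit 552) (nat_lit 542) (nat_lit 466))))))) (XT.nd (nat_lit 1170) (nat_lit 9956) (nat_lit 0) (XT.nd (nat_lit 546) (nat_lit 4484)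 (nat_lit 0) (XT.nd (nat_lit 234) (nat_lit 1292) (nat_lit 0) (XT.nd (nat_lit 78) (nat_lit 0) (nat_lit 76) (XT.lf (nat_lit 76) (nat_lit 2118149642) (nat_lit 0) (nat_lit 1056524975) (nat_lit 1444) (nat_lit 4727516769) (nat_lit 608) (nat_lit 5) (nat_lit 607) (nat_lit 5) (nat_lit 626) (nat_lit 5) (nat_lit 553) (nat_lit 542) (nat_lit 465)) (XT.nd (nat_lit 78) (nat_lit 0) (nat_lit 0) (XT.lf (nat_lit 0) (nat_lit 4735472964) (nat_lit 1368) (nat_lit 1567939900) (nat_lit 1444) (nat_lit 1655766003) (nat_lit 608) (nat_lit 5) (nat_lit 626) (nat_lit 5) (nat_lit 627) (nat_lit 5) (nat_lit 554) (nat_lit 542) (nat_lit 464)) (XT.lf (nat_lit 76) (nat_lit 2739437358) (nat_lit 0) (nat_lit 3579503696) (nat_lit 1444) (nat_lit 1698538373) (nat_lit 609) (nat_lit 5) (nat_lit 608) (nat_lit 5) (nat_lit 627) (nat_lit 5) (nat_lit 555) (nat_lit 542) (nat_lit 463)))) (XT.nd (nat_lit 156) (nat_lit 0) (nat_lit 0) (XT.nd (nat_lit 78) (nat_lit 1368) (nat_lit 0) (XT.lf (nat_lit 76) (nat_lit 7132382608) (nat_lit 0) (nat_lit 779400037) (nat_lit 1444) (nat_lit 165611628) (nat_lit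 609) (nat_lit 5) (nat_lit 608) (nat_lit 5) (nat_lit 627) (nat_lit 5) (nat_lit 556) (nat_lit 542) (nat_lit 462)) (XT.lf (nat_lit 0) (nat_lit 1383667896) (nat_lit 1444) (nat_lit 4662754218) (nat_lit 1520) (nat_lit 2091825458) (nat_lit 590) (nat_lit 5) (nat_lit 609) (nat_lit 5) (nat_lit 610) (nat_lit 5) (nat_lit 557) (nat_lit 542) (nat_lit 461))) (XT.nd (nat_lit 78) (nat_lit 0) (nat_lit 0) (XT.lf (nat_lit 0) (nat_lit 2941433686) (nat_lit 1444) (nat_lit 231673777) (nat_lit 1520) (nat_lit 5027596439) (nat_lit 590) (nat_lit 5) (nat_lit 609) (nat_lit 5) (nat_lit 610) (nat_lit 5) (nat_lit 558) (nat_lit 542) (nat_lit 460)) (XT.lf (nat_lit 76) (nat_lit 4322760608) (nat_lit 0) (nat_lit 204455537) (nat_lit 1520) (nat_lit 3737258162) (nat_lit 591) (nat_lit 5) (nat_lit 590) (nat_lit 5) (nat_lit 610) (nat_lit 5) (nat_lit 559) (nat_lit 542) (nat_lit 459))))) (XT.nd (nat_lit 312) (nat_lit 3116) (nat_lit 0) (XT.nd (nat_lit 156) (nat_lit 1444) (nat_lit 0) (XT.nd (nat_lit 78) (nat_lit 0) (nat_lit 0) (XT.lf (nat_lit 76) (nat_lit 609088888) (nat_lit 0) (nat_lit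 5528800646) (nat_lit 1520) (nat_lit 2191769218) (nat_lit 592) (nat_lit 5) (nat_lit 591) (nat_lit 5) (nat_lit 611) (nat_lit 5) (nat_lit 560) (nat_lit 542) (nat_lit 458)) (XT.lf (nat_lit 76) (nat_lit 5280622771) (nat_lit 0) (nat_lit 2497729366) (nat_lit 1520) (nat_lit 617845328) (nat_lit 592) (nat_lit 5) (nat_lit 591) (nat_lit 5) (nat_lit 611) (nat_lit 5) (nat_lit 561) (nat_lit 542) (nat_lit 457))) (XT.nd (nat_lit 78) (nat_lit 0) (nat_lit 0) (XT.lf (nat_lit 0) (nat_lit 959010220) (nat_lit 1520) (nat_lit 6894907822) (nat_lit 1596) (nat_lit 610334580) (nat_lit 572) (nat_lit 5) (nat_lit 592) (nat_lit 5) (nat_lit 593) (nat_lit 5) (nat_lit 562) (nat_lit 542) (nat_lit 456)) (XT.lf (nat_lit 0) (nat_lit 2567386403) (nat_lit 1520) (nat_lit 2186620880) (nat_lit 1596) (nat_lit 3779416764) (nat_lit 572) (nat_lit 5) (nat_lit 592) (nat_lit 5) (nat_lit 593) (nat_lit 5) (nat_lit 563) (nat_lit 542) (nat_lit 455)))) (XT.nd (nat_lit 156) (nat_lit 3116) (nat_lit 0) (XT.nd (nat_lit 78) (nat_lit 0) (nat_lit 76) (XT.lf (nat_lit 76) (nat_lit 2627950931) (nat_lit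 0) (nat_lit 1568278717) (nat_lit 1596) (nat_lit 4407985194) (nat_lit 573) (nat_lit 5) (nat_lit 572) (nat_lit 5) (nat_lit 593) (nat_lit 5) (nat_lit 564) (nat_lit 542) (nat_lit 454)) (XT.lf (nat_lit 0) (nat_lit 5855032412) (nat_lit 1520) (nat_lit 1141494537) (nat_lit 76) (nat_lit 1679948749) (nat_lit 573) (nat_lit 5) (nat_lit 593) (nat_lit 5) (nat_lit 574) (nat_lit 5) (nat_lit 565) (nat_lit 542) (nat_lit 453))) (XT.nd (nat_lit 78) (nat_lit 1672) (nat_lit 0) (XT.lf (nat_lit 0) (nat_lit 3807154473) (nat_lit 1520) (nat_lit 3747213109) (nat_lit 1596) (nat_lit 1195668921) (nat_lit 553) (nat_lit 5) (nat_lit 573) (nat_lit 5) (nat_lit 574) (nat_lit 5) (nat_lit 566) (nat_lit 542) (nat_lit 452)) (XT.lf (nat_lit 0) (nat_lit 19959943) (nat_lit 1596) (nat_lit 416902750) (nat_lit 1672) (nat_lit 8388541363) (nat_lit 531) (nat_lit 5) (nat_lit 552) (nat_lit 5) (nat_lit 553) (nat_lit 5) (nat_lit 567) (nat_lit 542) (nat_lit 451)))))) (XT.nd (nat_lit 546) (nat_lit 3572) (nat_lit 0) (XT.nd (nat_lit 234) (nat_lit 4712) (nat_lit 0) (XT.nd (nat_lit 78) (nat_lit 1672)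 (nat_lit 0) (XT.lf (nat_lit 0) (nat_lit 2111680614) (nat_lit 1672) (nat_lit 3803049308) (nat_lit 76) (nat_lit 2986879808) (nat_lit 531) (nat_lit 5) (nat_lit 553) (nat_lit 5) (nat_lit 532) (nat_lit 5) (nat_lit 568) (nat_lit 542) (nat_lit 450)) (XT.nd (nat_lit 78) (nat_lit 0) (nat_lit 0) (XT.lf (nat_lit 0) (nat_lit 1291007049) (nat_lit 1672) (nat_lit 2513555848) (nat_lit 1748) (nat_lit 5175086978) (nat_lit 509) (nat_lit 5) (nat_lit 531) (nat_lit 5) (nat_lit 532) (nat_lit 5) (nat_lit 569) (nat_lit 542) (nat_lit 449)) (XT.lf (nat_lit 0) (nat_lit 5537022141) (nat_lit 1748) (nat_lit 2549577283) (nat_lit 76) (nat_lit 972538696) (nat_lit 509) (nat_lit 5) (nat_lit 532) (nat_lit 5) (nat_lit 510) (nat_lit 5) (nat_lit 570) (nat_lit 542) (nat_lit 448)))) (XT.nd (nat_lit 156) (nat_lit 2964) (nat_lit 0) (XT.nd (nat_lit 78) (nat_lit 0) (nat_lit 0) (XT.lf (nat_lit 0) (nat_lit 2688373111) (nat_lit 1748) (nat_lit 4624196638) (nat_lit 1824) (nat_lit 1827479250) (nat_lit 486) (nat_lit 5) (nat_lit 509) (nat_lit 5) (nat_lit 510) (nat_lit 5) (nat_lit 571) (nat_lit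 542) (nat_lit 447)) (XT.lf (nat_lit 0) (nat_lit 8043281899) (nat_lit 1748) (nat_lit 1072151816) (nat_lit 1824) (nat_lit 107309889) (nat_lit 486) (nat_lit 5) (nat_lit 509) (nat_lit 5) (nat_lit 510) (nat_lit 5) (nat_lit 572) (nat_lit 542) (nat_lit 446))) (XT.nd (nat_lit 78) (nat_lit 1064) (nat_lit 0) (XT.lf (nat_lit 0) (nat_lit 1644920643) (nat_lit 1900) (nat_lit 5103063699) (nat_lit 76) (nat_lit 2558510173) (nat_lit 461) (nat_lit 5) (nat_lit 486) (nat_lit 5) (nat_lit 462) (nat_lit 5) (nat_lit 573) (nat_lit 542) (nat_lit 445)) (XT.lf (nat_lit 0) (nat_lit 291547437) (nat_lit 1064) (nat_lit 3131562467) (nat_lit 1140) (nat_lit 5968950860) (nat_lit 447) (nat_lit 5) (nat_lit 461) (nat_lit 5) (nat_lit 462) (nat_lit 5) (nat_lit 574) (nat_lit 542) (nat_lit 444))))) (XT.nd (nat_lit 312) (nat_lit 1672) (nat_lit 0) (XT.nd (nat_lit 156) (nat_lit 988) (nat_lit 0) (XT.nd (nat_lit 78) (nat_lit 912) (nat_lit 0) (XT.lf (nat_lit 0) (nat_lit 5250689154) (nat_lit 1140) (nat_lit 3642243365) (nat_lit 76) (nat_lit 586130790) (nat_lit 447) (nat_lit 5) (nat_lit 462)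 (nat_lit 5) (nat_lit 448) (nat_lit 5) (nat_lit 575) (nat_lit 542) (nat_lit 443)) (XT.lf (nat_lit 0) (nat_lit 1906943804) (nat_lit 912) (nat_lit 5217209431) (nat_lit 988) (nat_lit 2443467471) (nat_lit 435) (nat_lit 5) (nat_lit 447) (nat_lit 5) (nat_lit 448) (nat_lit 5) (nat_lit 576) (nat_lit 542) (nat_lit 442))) (XT.nd (nat_lit 78) (nat_lit 988) (nat_lit 0) (XT.lf (nat_lit 0) (nat_lit 7594115159) (nat_lit 912) (nat_lit 1441947244) (nat_lit 988) (nat_lit 621868767) (nat_lit 435) (nat_lit 5) (nat_lit 447) (nat_lit 5) (nat_lit 448) (nat_lit 5) (nat_lit 577) (nat_lit 542) (nat_lit 441)) (XT.lf (nat_lit 0) (nat_lit 1236427499) (nat_lit 988) (nat_lit 6102980394) (nat_lit 76) (nat_lit 2410151252) (nat_lit 422) (nat_lit 5) (nat_lit 435) (nat_lit 5) (nat_lit 423) (nat_lit 5) (nat_lit 578) (nat_lit 542) (nat_lit 440)))) (XT.nd (nat_lit 156) (nat_lit 836) (nat_lit 0) (XT.nd (nat_lit 78) (nat_lit 836) (nat_lit 0) (XT.lf (nat_lit 0) (nat_lit 3124217316) (nat_lit 988) (nat_lit 379903607) (nat_lit 76) (nat_lit 6338804811) (nat_lit 422) (nat_lit 5) (nat_lit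 435) (nat_lit 5) (nat_lit 423) (nat_lit 5) (nat_lit 579) (nat_lit 542) (nat_lit 439)) (XT.lf (nat_lit 0) (nat_lit 5066013982) (nat_lit 912) (nat_lit 4433026807) (nat_lit 76) (nat_lit 438795171) (nat_lit 411) (nat_lit 5) (nat_lit 423) (nat_lit 5) (nat_lit 412) (nat_lit 5) (nat_lit 580) (nat_lit 542) (nat_lit 438))) (XT.nd (nat_lit 78) (nat_lit 0) (nat_lit 0) (XT.lf (nat_lit 0) (nat_lit 1451166975) (nat_lit 836) (nat_lit 5608575449) (nat_lit 912) (nat_lit 2974641353) (nat_lit 400) (nat_lit 5) (nat_lit 411) (nat_lit 5) (nat_lit 412) (nat_lit 5) (nat_lit 581) (nat_lit 542) (nat_lit 437)) (XT.lf (nat_lit 0) (nat_lit 7490868128) (nat_lit 836) (nat_lit 1610415548) (nat_lit 912) (nat_lit 1031421384) (nat_lit 400) (nat_lit 5) (nat_lit 411) (nat_lit 5) (nat_lit 412) (nat_lit 5) (nat_lit 582) (nat_lit 542) (nat_lit 436))))))))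
noncomputable def xc61 : XT := (XT.nd (nat_lit 79092) (nat_lit 0) (nat_lit 6460) (XT.nd (nat_lit 1170) (nat_lit 1368) (nat_lit 0) (XT.nd (nat_lit 546) (nat_lit 3496) (nat_lit 0) (XT.nd (nat_lit 234) (nat_lit 1596) (nat_lit 0) (XT.nd (nat_lit 78) (nat_lit 836) (nat_lit 0) (XT.lf (nat_lit 0) (nat_lit 955179850) (nat_lit 912) (nat_lit 6813929143) (nat_lit 76) (nat_lit 2463421856) (nat_lit 388) (nat_lit 5) (nat_lit 400) (nat_lit 5) (nat_lit 389) (nat_lit 5) (nat_lit 583) (nat_lit 542) (nat_lit 435)) (XT.nd (nat_lit 78) (nat_lit 836) (nat_lit 0) (XT.lf (nat_lit 0) (nat_lit 2974975590) (nat_lit 912) (nat_lit 737945588) (nat_lit 76) (nat_lit 6621151361) (nat_lit 388) (nat_lit 5) (nat_lit 400) (nat_lit 5) (nat_lit 389) (nat_lit 5) (nat_lit 584) (nat_lit 542) (nat_lit 434)) (XT.lf (nat_lit 0) (nat_lit 5053092453) (nat_lit 912) (nat_lit 4930466777) (nat_lit 76) (nat_lit 453728508) (nat_lit 377) (nat_lit 5) (nat_lit 389) (nat_lit 5) (nat_lit 378) (nat_lit 5) (nat_lit 585) (nat_lit 542) (nat_lit 433)))) (XT.nd (nat_lit 156) (nat_lit 836) (nat_lit 0)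 (XT.nd (nat_lit 78) (nat_lit 0) (nat_lit 0) (XT.lf (nat_lit 0) (nat_lit 1314420093) (nat_lit 760) (nat_lit 5875884595) (nat_lit 836) (nat_lit 3351913047) (nat_lit 367) (nat_lit 5) (nat_lit 377) (nat_lit 5) (nat_lit 378) (nat_lit 5) (nat_lit 586) (nat_lit 542) (nat_lit 432)) (XT.lf (nat_lit 0) (nat_lit 7728969850) (nat_lit 760) (nat_lit 1654062753) (nat_lit 836) (nat_lit 1265959432) (nat_lit 367) (nat_lit 5) (nat_lit 377) (nat_lit 5) (nat_lit 378) (nat_lit 5) (nat_lit 587) (nat_lit 542) (nat_lit 431))) (XT.nd (nat_lit 78) (nat_lit 0) (nat_lit 0) (XT.lf (nat_lit 0) (nat_lit 870696110) (nat_lit 836) (nat_lit 7242386903) (nat_lit 76) (nat_lit 2644302315) (nat_lit 356) (nat_lit 5) (nat_lit 367) (nat_lit 5) (nat_lit 357) (nat_lit 5) (nat_lit 588) (nat_lit 542) (nat_lit 430)) (XT.lf (nat_lit 0) (nat_lit 3044017975) (nat_lit 836) (nat_lit 790864748) (nat_lit 76) (nat_lit 7032679783) (nat_lit 356) (nat_lit 5) (nat_lit 367) (nat_lit 5) (nat_lit 357) (nat_lit 5) (nat_lit 589) (nat_lit 542) (nat_lit 429))))) (XT.nd (nat_lit 312) (nat_lit 1292) (nat_lit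 0) (XT.nd (nat_lit 156) (nat_lit 760) (nat_lit 0) (XT.nd (nat_lit 78) (nat_lit 760) (nat_lit 0) (XT.lf (nat_lit 0) (nat_lit 5283002093) (nat_lit 760) (nat_lit 5138612249) (nat_lit 76) (nat_lit 557886017) (nat_lit 347) (nat_lit 5) (nat_lit 357) (nat_lit 5) (nat_lit 348) (nat_lit 5) (nat_lit 590) (nat_lit 542) (nat_lit 428)) (XT.lf (nat_lit 0) (nat_lit 1494660847) (nat_lit 760) (nat_lit 6093351804) (nat_lit 836) (nat_lit 3505240409) (nat_lit 337) (nat_lit 5) (nat_lit 347) (nat_lit 5) (nat_lit 348) (nat_lit 5) (nat_lit 591) (nat_lit 542) (nat_lit 427))) (XT.nd (nat_lit 78) (nat_lit 760) (nat_lit 0) (XT.lf (nat_lit 0) (nat_lit 8308463204) (nat_lit 760) (nat_lit 1646181514) (nat_lit 836) (nat_lit 1254326676) (nat_lit 337) (nat_lit 5) (nat_lit 347) (nat_lit 5) (nat_lit 348) (nat_lit 5) (nat_lit 592) (nat_lit 542) (nat_lit 426)) (XT.lf (nat_lit 0) (nat_lit 1053868766) (nat_lit 760) (nat_lit 7390658033) (nat_lit 76) (nat_lit 2881824523) (nat_lit 327) (nat_lit 5) (nat_lit 337) (nat_lit 5) (nat_lit 328) (nat_lit 5) (nat_lit 593) (nat_lit 542) (nat_lit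 425)))) (XT.nd (nat_lit 156) (nat_lit 608) (nat_lit 0) (XT.nd (nat_lit 78) (nat_lit 684) (nat_lit 0) (XT.lf (nat_lit 0) (nat_lit 3403437446) (nat_lit 760) (nat_lit 538914098) (nat_lit 76) (nat_lit 7503322334) (nat_lit 327) (nat_lit 5) (nat_lit 337) (nat_lit 5) (nat_lit 328) (nat_lit 5) (nat_lit 594) (nat_lit 542) (nat_lit 424)) (XT.lf (nat_lit 0) (nat_lit 5828625616) (nat_lit 760) (nat_lit 5057478481) (nat_lit 76) (nat_lit 680707156) (nat_lit 318) (nat_lit 5) (nat_lit 328) (nat_lit 5) (nat_lit 319) (nat_lit 5) (nat_lit 595) (nat_lit 542) (nat_lit 423))) (XT.nd (nat_lit 78) (nat_lit 0) (nat_lit 0) (XT.lf (nat_lit 0) (nat_lit 1993977737) (nat_lit 608) (nat_lit 6333088020) (nat_lit 684) (nat_lit 3362811566) (nat_lit 310) (nat_lit 5) (nat_lit 318) (nat_lit 5) (nat_lit 319) (nat_lit 5) (nat_lit 596) (nat_lit 542) (nat_lit 422)) (XT.lf (nat_lit 0) (nat_lit 9233568527) (nat_lit 608) (nat_lit 1658110488) (nat_lit 684) (nat_lit 923402506) (nat_lit 310) (nat_lit 5) (nat_lit 318) (nat_lit 5) (nat_lit 319) (nat_lit 5) (nat_lit 597) (nat_lit 542) (nat_lit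 421)))))) (XT.nd (nat_lit 77298) (nat_lit 0) (nat_lit 23864) (XT.nd (nat_lit 76986) (nat_lit 0) (nat_lit 25156) (XT.nd (nat_lit 78) (nat_lit 608) (nat_lit 0) (XT.lf (nat_lit 0) (nat_lit 1577760531) (nat_lit 760) (nat_lit 7257314632) (nat_lit 76) (nat_lit 3106842538) (nat_lit 300) (nat_lit 5) (nat_lit 310) (nat_lit 5) (nat_lit 301) (nat_lit 5) (nat_lit 598) (nat_lit 542) (nat_lit 420)) (XT.nd (nat_lit 76830) (nat_lit 0) (nat_lit 26372) (XT.lf (nat_lit 0) (nat_lit 21719516) (nat_lit 608) (nat_lit 4106113313) (nat_lit 684) (nat_lit 7943111537) (nat_lit 292) (nat_lit 5) (nat_lit 300) (nat_lit 5) (nat_lit 301) (nat_lit 5) (nat_lit 599) (nat_lit 542) (nat_lit 419)) (XT.lf (nat_lit 0) (nat_lit 2223755700) (nat_lit 1292) (nat_lit 750162456) (nat_lit 1292) (nat_lit 750162456) (nat_lit 639) (nat_lit 3) (nat_lit 656) (nat_lit 3) (nat_lit 656) (nat_lit 5) (nat_lit 543) (nat_lit 543) (nat_lit 474)))) (XT.nd (nat_lit 156) (nat_lit 1216) (nat_lit 0) (XT.nd (nat_lit 78) (nat_lit 0) (nat_lit 0) (XT.lf (nat_lit 76) (nat_lit 2227273494) (nat_lit 0) (nat_lit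 3760424921) (nat_lit 1292) (nat_lit 1504916193) (nat_lit 640) (nat_lit 5) (nat_lit 639) (nat_lit 3) (nat_lit 656) (nat_lit 5) (nat_lit 544) (nat_lit 543) (nat_lit 473)) (XT.lf (nat_lit 76) (nat_lit 6029680908) (nat_lit 0) (nat_lit 1500092112) (nat_lit 1292) (nat_lit 8765351) (nat_lit 640) (nat_lit 5) (nat_lit 639) (nat_lit 3) (nat_lit 656) (nat_lit 5) (nat_lit 545) (nat_lit 543) (nat_lit 472))) (XT.nd (nat_lit 78) (nat_lit 0) (nat_lit 0) (XT.lf (nat_lit 0) (nat_lit 1479529865) (nat_lit 1292) (nat_lit 5267994996) (nat_lit 1368) (nat_lit 838019171) (nat_lit 623) (nat_lit 5) (nat_lit 640) (nat_lit 5) (nat_lit 641) (nat_lit 5) (nat_lit 546) (nat_lit 543) (nat_lit 471)) (XT.lf (nat_lit 0) (nat_lit 2979864263) (nat_lit 1292) (nat_lit 1423353304) (nat_lit 1368) (nat_lit 3230626085) (nat_lit 623) (nat_lit 5) (nat_lit 640) (nat_lit 5) (nat_lit 641) (nat_lit 5) (nat_lit 547) (nat_lit 543) (nat_lit 470))))) (XT.nd (nat_lit 312) (nat_lit 0) (nat_lit 76) (XT.nd (nat_lit 156) (nat_lit 1292) (nat_lit 0) (XT.nd (nat_lit 78) (nat_lit 0) (nat_lit 76) (XT.lf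 (nat_lit 76) (nat_lit 2510575377) (nat_lit 0) (nat_lit 1978934083) (nat_lit 1368) (nat_lit 3194016485) (nat_lit 624) (nat_lit 5) (nat_lit 623) (nat_lit 5) (nat_lit 641) (nat_lit 5) (nat_lit 548) (nat_lit 543) (nat_lit 469)) (XT.lf (nat_lit 0) (nat_lit 6005869266) (nat_lit 1292) (nat_lit 1216035956) (nat_lit 1368) (nat_lit 512768936) (nat_lit 624) (nat_lit 5) (nat_lit 641) (nat_lit 5) (nat_lit 642) (nat_lit 5) (nat_lit 549) (nat_lit 543) (nat_lit 468))) (XT.nd (nat_lit 78) (nat_lit 1368) (nat_lit 0) (XT.lf (nat_lit 76) (nat_lit 2823121382) (nat_lit 0) (nat_lit 4725282430) (nat_lit 1368) (nat_lit 238527228) (nat_lit 625) (nat_lit 5) (nat_lit 624) (nat_lit 5) (nat_lit 642) (nat_lit 5) (nat_lit 550) (nat_lit 543) (nat_lit 467)) (XT.lf (nat_lit 0) (nat_lit 1237703899) (nat_lit 1368) (nat_lit 910049011) (nat_lit 1444) (nat_lit 5692857172) (nat_lit 606) (nat_lit 5) (nat_lit 624) (nat_lit 5) (nat_lit 625) (nat_lit 5) (nat_lit 551) (nat_lit 543) (nat_lit 466)))) (XT.nd (nat_lit 156) (nat_lit 0) (nat_lit 0) (XT.nd (nat_lit 78) (nat_lit 0) (nat_lit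 0) (XT.lf (nat_lit 0) (nat_lit 2730135349) (nat_lit 1368) (nat_lit 4653937363) (nat_lit 1444) (nat_lit 511463569) (nat_lit 607) (nat_lit 5) (nat_lit 625) (nat_lit 5) (nat_lit 626) (nat_lit 5) (nat_lit 552) (nat_lit 543) (nat_lit 465)) (XT.lf (nat_lit 0) (nat_lit 4238850322) (nat_lit 1368) (nat_lit 498455992) (nat_lit 1444) (nat_lit 3214528447) (nat_lit 607) (nat_lit 5) (nat_lit 625) (nat_lit 5) (nat_lit 626) (nat_lit 5) (nat_lit 553) (nat_lit 543) (nat_lit 464))) (XT.nd (nat_lit 78) (nat_lit 0) (nat_lit 76) (XT.lf (nat_lit 76) (nat_lit 3768611103) (nat_lit 0) (nat_lit 2000326238) (nat_lit 1444) (nat_lit 2240500317) (nat_lit 608) (nat_lit 5) (nat_lit 607) (nat_lit 5) (nat_lit 626) (nat_lit 5) (nat_lit 554) (nat_lit 543) (nat_lit 463)) (XT.lf (nat_lit 76) (nat_lit 33380876) (nat_lit 0) (nat_lit 7272291456) (nat_lit 1444) (nat_lit 763001716) (nat_lit 609) (nat_lit 5) (nat_lit 608) (nat_lit 5) (nat_lit 627) (nat_lit 5) (nat_lit 555) (nat_lit 543) (nat_lit 462))))))) (XT.nd (nat_lit 1170) (nat_lit 10032) (nat_lit 0) (XT.nd (nat_lit 546) (nat_lit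 4712) (nat_lit 0) (XT.nd (nat_lit 234) (nat_lit 1368) (nat_lit 0) (XT.nd (nat_lit 78) (nat_lit 0) (nat_lit 0) (XT.lf (nat_lit 0) (nat_lit 743792949) (nat_lit 1444) (nat_lit 3718072519) (nat_lit 1520) (nat_lit 3666945259) (nat_lit 589) (nat_lit 5) (nat_lit 608) (nat_lit 5) (nat_lit 609) (nat_lit 5) (nat_lit 556) (nat_lit 543) (nat_lit 461)) (XT.nd (nat_lit 78) (nat_lit 0) (nat_lit 76) (XT.lf (nat_lit 76) (nat_lit 667787920) (nat_lit 0) (nat_lit 1575309918) (nat_lit 1520) (nat_lit 5947501834) (nat_lit 590) (nat_lit 5) (nat_lit 589) (nat_lit 5) (nat_lit 609) (nat_lit 5) (nat_lit 557) (nat_lit 543) (nat_lit 460)) (XT.lf (nat_lit 0) (nat_lit 3775187714) (nat_lit 1444) (nat_lit 3092375358) (nat_lit 1520) (nat_lit 1386007526) (nat_lit 590) (nat_lit 5) (nat_lit 609) (nat_lit 5) (nat_lit 610) (nat_lit 5) (nat_lit 558) (nat_lit 543) (nat_lit 459)))) (XT.nd (nat_lit 156) (nat_lit 1444) (nat_lit 0) (XT.nd (nat_lit 78) (nat_lit 0) (nat_lit 0) (XT.lf (nat_lit 76) (nat_lit 1413241332) (nat_lit 0) (nat_lit 3913693256) (nat_lit 1520) (nat_lit 2991088185)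 (nat_lit 591) (nat_lit 5) (nat_lit 590) (nat_lit 5) (nat_lit 610) (nat_lit 5) (nat_lit 559) (nat_lit 543) (nat_lit 458)) (XT.lf (nat_lit 76) (nat_lit 6029499139) (nat_lit 0) (nat_lit 870836704) (nat_lit 1520) (nat_lit 1483617853) (nat_lit 591) (nat_lit 5) (nat_lit 590) (nat_lit 5) (nat_lit 610) (nat_lit 5) (nat_lit 560) (nat_lit 543) (nat_lit 457))) (XT.nd (nat_lit 78) (nat_lit 0) (nat_lit 0) (XT.lf (nat_lit 0) (nat_lit 53109841) (nat_lit 1520) (nat_lit 6170883620) (nat_lit 1596) (nat_lit 2227208454) (nat_lit 571) (nat_lit 5) (nat_lit 591) (nat_lit 5) (nat_lit 592) (nat_lit 5) (nat_lit 561) (nat_lit 543) (nat_lit 456)) (XT.lf (nat_lit 0) (nat_lit 1593155224) (nat_lit 1520) (nat_lit 1517340954) (nat_lit 1596) (nat_lit 5409255782) (nat_lit 571) (nat_lit 5) (nat_lit 591) (nat_lit 5) (nat_lit 592) (nat_lit 5) (nat_lit 562) (nat_lit 543) (nat_lit 455))))) (XT.nd (nat_lit 312) (nat_lit 3344) (nat_lit 0) (XT.nd (nat_lit 156) (nat_lit 1444) (nat_lit 0) (XT.nd (nat_lit 78) (nat_lit 0) (nat_lit 0) (XT.lf (nat_lit 0) (nat_lit 3157048347) (nat_lit 1520)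 (nat_lit 5339971603) (nat_lit 1596) (nat_lit 92794054) (nat_lit 572) (nat_lit 5) (nat_lit 592) (nat_lit 5) (nat_lit 593) (nat_lit 5) (nat_lit 563) (nat_lit 543) (nat_lit 454)) (XT.lf (nat_lit 0) (nat_lit 4754869349) (nat_lit 1520) (nat_lit 570711752) (nat_lit 1596) (nat_lit 3335645082) (nat_lit 572) (nat_lit 5) (nat_lit 592) (nat_lit 5) (nat_lit 593) (nat_lit 5) (nat_lit 564) (nat_lit 543) (nat_lit 453))) (XT.nd (nat_lit 78) (nat_lit 1444) (nat_lit 0) (XT.lf (nat_lit 76) (nat_lit 4329232801) (nat_lit 0) (nat_lit 2055876257) (nat_lit 1596) (nat_lit 2348950162) (nat_lit 573) (nat_lit 5) (nat_lit 572) (nat_lit 5) (nat_lit 593) (nat_lit 5) (nat_lit 565) (nat_lit 543) (nat_lit 452)) (XT.lf (nat_lit 0) (nat_lit 502983000) (nat_lit 1520) (nat_lit 7533192873) (nat_lit 1596) (nat_lit 772410422) (nat_lit 553) (nat_lit 5) (nat_lit 573) (nat_lit 5) (nat_lit 574) (nat_lit 5) (nat_lit 566) (nat_lit 543) (nat_lit 451)))) (XT.nd (nat_lit 156) (nat_lit 1672) (nat_lit 0) (XT.nd (nat_lit 78) (nat_lit 1596) (nat_lit 0) (XT.lf (nat_lit 0) (nat_lit 841078407)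 (nat_lit 1596) (nat_lit 3356731115) (nat_lit 76) (nat_lit 4686360065) (nat_lit 552) (nat_lit 5) (nat_lit 573) (nat_lit 5) (nat_lit 553) (nat_lit 5) (nat_lit 567) (nat_lit 543) (nat_lit 450)) (XT.lf (nat_lit 0) (nat_lit 1686415873) (nat_lit 1596) (nat_lit 774575401) (nat_lit 1672) (nat_lit 6500482937) (nat_lit 531) (nat_lit 5) (nat_lit 552) (nat_lit 5) (nat_lit 553) (nat_lit 5) (nat_lit 568) (nat_lit 543) (nat_lit 449))) (XT.nd (nat_lit 78) (nat_lit 1672) (nat_lit 0) (XT.lf (nat_lit 0) (nat_lit 4127564439) (nat_lit 1672) (nat_lit 2203852678) (nat_lit 76) (nat_lit 2708624256) (nat_lit 531) (nat_lit 5) (nat_lit 553) (nat_lit 5) (nat_lit 532) (nat_lit 5) (nat_lit 569) (nat_lit 543) (nat_lit 448)) (XT.lf (nat_lit 0) (nat_lit 2981063375) (nat_lit 1672) (nat_lit 2845347294) (nat_lit 1748) (nat_lit 3293792027) (nat_lit 509) (nat_lit 5) (nat_lit 531) (nat_lit 5) (nat_lit 532) (nat_lit 5) (nat_lit 570) (nat_lit 543) (nat_lit 447)))))) (XT.nd (nat_lit 546) (nat_lit 4408) (nat_lit 0) (XT.nd (nat_lit 234) (nat_lit 1976) (nat_lit 0) (XT.nd (nat_lit 78)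 (nat_lit 3648) (nat_lit 0) (XT.lf (nat_lit 0) (nat_lit 7553575031) (nat_lit 1748) (nat_lit 928898066) (nat_lit 76) (nat_lit 719608942) (nat_lit 509) (nat_lit 5) (nat_lit 532) (nat_lit 5) (nat_lit 510) (nat_lit 5) (nat_lit 571) (nat_lit 543) (nat_lit 446)) (XT.nd (nat_lit 78) (nat_lit 1824) (nat_lit 0) (XT.lf (nat_lit 0) (nat_lit 52207822) (nat_lit 1824) (nat_lit 4882675242) (nat_lit 76) (nat_lit 4350255338) (nat_lit 485) (nat_lit 5) (nat_lit 509) (nat_lit 5) (nat_lit 486) (nat_lit 5) (nat_lit 572) (nat_lit 543) (nat_lit 445)) (XT.lf (nat_lit 0) (nat_lit 456521248) (nat_lit 1824) (nat_lit 1293117910) (nat_lit 1900) (nat_lit 7620304812) (nat_lit 461) (nat_lit 5) (nat_lit 485) (nat_lit 5) (nat_lit 486) (nat_lit 5) (nat_lit 573) (nat_lit 543) (nat_lit 444)))) (XT.nd (nat_lit 156) (nat_lit 912) (nat_lit 0) (XT.nd (nat_lit 78) (nat_lit 1064) (nat_lit 0) (XT.lf (nat_lit 0) (nat_lit 3505595035) (nat_lit 1900) (nat_lit 3525217853) (nat_lit 76) (nat_lit 2425142739) (nat_lit 461) (nat_lit 5) (nat_lit 486) (nat_lit 5) (nat_lit 462) (nat_lit 5) (nat_lit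 574) (nat_lit 543) (nat_lit 443)) (XT.lf (nat_lit 0) (nat_lit 1966233485) (nat_lit 1064) (nat_lit 3328111166) (nat_lit 1140) (nat_lit 4249390839) (nat_lit 447) (nat_lit 5) (nat_lit 461) (nat_lit 5) (nat_lit 462) (nat_lit 5) (nat_lit 575) (nat_lit 543) (nat_lit 442))) (XT.nd (nat_lit 78) (nat_lit 912) (nat_lit 0) (XT.lf (nat_lit 0) (nat_lit 7122274572) (nat_lit 1140) (nat_lit 2042646008) (nat_lit 76) (nat_lit 468283701) (nat_lit 447) (nat_lit 5) (nat_lit 462) (nat_lit 5) (nat_lit 448) (nat_lit 5) (nat_lit 576) (nat_lit 543) (nat_lit 441)) (XT.lf (nat_lit 0) (nat_lit 3606521995) (nat_lit 912) (nat_lit 5402834446) (nat_lit 988) (nat_lit 714655549) (nat_lit 435) (nat_lit 5) (nat_lit 447) (nat_lit 5) (nat_lit 448) (nat_lit 5) (nat_lit 577) (nat_lit 543) (nat_lit 440))))) (XT.nd (nat_lit 312) (nat_lit 2584) (nat_lit 0) (XT.nd (nat_lit 156) (nat_lit 836) (nat_lit 0) (XT.nd (nat_lit 78) (nat_lit 912) (nat_lit 0) (XT.lf (nat_lit 0) (nat_lit 1093980211) (nat_lit 988) (nat_lit 449151879) (nat_lit 76) (nat_lit 8273538142) (nat_lit 434) (nat_lit 5) (nat_lit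 447) (nat_lit 5) (nat_lit 435) (nat_lit 5) (nat_lit 578) (nat_lit 543) (nat_lit 439)) (XT.lf (nat_lit 0) (nat_lit 2957689471) (nat_lit 988) (nat_lit 4549683422) (nat_lit 76) (nat_lit 2403146196) (nat_lit 422) (nat_lit 5) (nat_lit 435) (nat_lit 5) (nat_lit 423) (nat_lit 5) (nat_lit 579) (nat_lit 543) (nat_lit 438))) (XT.nd (nat_lit 78) (nat_lit 0) (nat_lit 0) (XT.lf (nat_lit 0) (nat_lit 1271683124) (nat_lit 836) (nat_lit 3586543209) (nat_lit 912) (nat_lit 5148028823) (nat_lit 411) (nat_lit 5) (nat_lit 422) (nat_lit 5) (nat_lit 423) (nat_lit 5) (nat_lit 580) (nat_lit 543) (nat_lit 437)) (XT.lf (nat_lit 0) (nat_lit 6808521310) (nat_lit 912) (nat_lit 2857003214) (nat_lit 76) (nat_lit 438147749) (nat_lit 411) (nat_lit 5) (nat_lit 423) (nat_lit 5) (nat_lit 412) (nat_lit 5) (nat_lit 581) (nat_lit 543) (nat_lit 436)))) (XT.nd (nat_lit 156) (nat_lit 1672) (nat_lit 0) (XT.nd (nat_lit 78) (nat_lit 76) (nat_lit 0) (XT.lf (nat_lit 0) (nat_lit 3133922574) (nat_lit 836) (nat_lit 5686758734) (nat_lit 912) (nat_lit 1381900492) (nat_lit 400) (nat_lit 5) (nat_lit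 411) (nat_lit 5) (nat_lit 412) (nat_lit 5) (nat_lit 582) (nat_lit 543) (nat_lit 435)) (XT.lf (nat_lit 0) (nat_lit 560340505) (nat_lit 912) (nat_lit 1045201385) (nat_lit 76) (nat_lit 8697890943) (nat_lit 399) (nat_lit 5) (nat_lit 411) (nat_lit 5) (nat_lit 400) (nat_lit 5) (nat_lit 583) (nat_lit 543) (nat_lit 434))) (XT.nd (nat_lit 78) (nat_lit 836) (nat_lit 0) (XT.lf (nat_lit 0) (nat_lit 2552476500) (nat_lit 912) (nat_lit 5287077299) (nat_lit 76) (nat_lit 2565974503) (nat_lit 388) (nat_lit 5) (nat_lit 400) (nat_lit 5) (nat_lit 389) (nat_lit 5) (nat_lit 584) (nat_lit 543) (nat_lit 433)) (XT.lf (nat_lit 0) (nat_lit 889481232) (nat_lit 836) (nat_lit 3698017062) (nat_lit 912) (nat_lit 5922107679) (nat_lit 377) (nat_lit 5) (nat_lit 388) (nat_lit 5) (nat_lit 389) (nat_lit 5) (nat_lit 585) (nat_lit 543) (nat_lit 432))))))))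
noncomputable def xc62 : XT := (XT.nd (nat_lit 79170) (nat_lit 0) (nat_lit 4256) (XT.nd (nat_lit 78000) (nat_lit 0) (nat_lit 21888) (XT.nd (nat_lit 546) (nat_lit 2812) (nat_lit 0) (XT.nd (nat_lit 234) (nat_lit 2204) (nat_lit 0) (XT.nd (nat_lit 78) (nat_lit 836) (nat_lit 0) (XT.lf (nat_lit 0) (nat_lit 6682180668) (nat_lit 912) (nat_lit 3379248525) (nat_lit 76) (nat_lit 553957936) (nat_lit 377) (nat_lit 5) (nat_lit 389) (nat_lit 5) (nat_lit 378) (nat_lit 5) (nat_lit 586) (nat_lit 543) (nat_lit 431)) (XT.nd (nat_lit 78) (nat_lit 76) (nat_lit 0) (XT.lf (nat_lit 0) (nat_lit 2979681953) (nat_lit 760) (nat_lit 5863135196) (nat_lit 836) (nat_lit 1879986660) (nat_lit 367) (nat_lit 5) (nat_lit 377) (nat_lit 5) (nat_lit 378) (nat_lit 5) (nat_lit 587) (nat_lit 543) (nat_lit 430)) (XT.lf (nat_lit 0) (nat_lit 214657563) (nat_lit 836) (nat_lit 1343333145) (nat_lit 76) (nat_lit 9274287943) (nat_lit 366) (nat_lit 5) (nat_lit 377) (nat_lit 5) (nat_lit 367) (nat_lit 5) (nat_lit 588) (nat_lit 543) (nat_lit 429)))) (XT.nd (nat_lit 156) (nat_lit 760) (nat_lit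 0) (XT.nd (nat_lit 78) (nat_lit 684) (nat_lit 0) (XT.lf (nat_lit 0) (nat_lit 2359352963) (nat_lit 836) (nat_lit 5742691792) (nat_lit 76) (nat_lit 2840984122) (nat_lit 356) (nat_lit 5) (nat_lit 367) (nat_lit 5) (nat_lit 357) (nat_lit 5) (nat_lit 589) (nat_lit 543) (nat_lit 428)) (XT.lf (nat_lit 0) (nat_lit 816321064) (nat_lit 684) (nat_lit 3736272398) (nat_lit 760) (nat_lit 6503288648) (nat_lit 347) (nat_lit 5) (nat_lit 356) (nat_lit 5) (nat_lit 357) (nat_lit 5) (nat_lit 590) (nat_lit 543) (nat_lit 427))) (XT.nd (nat_lit 78) (nat_lit 760) (nat_lit 0) (XT.lf (nat_lit 0) (nat_lit 6814324496) (nat_lit 760) (nat_lit 3612278695) (nat_lit 76) (nat_lit 743897708) (nat_lit 347) (nat_lit 5) (nat_lit 357) (nat_lit 5) (nat_lit 348) (nat_lit 5) (nat_lit 591) (nat_lit 543) (nat_lit 426)) (XT.lf (nat_lit 0) (nat_lit 3142942061) (nat_lit 760) (nat_lit 6005046688) (nat_lit 836) (nat_lit 2138890329) (nat_lit 337) (nat_lit 5) (nat_lit 347) (nat_lit 5) (nat_lit 348) (nat_lit 5) (nat_lit 592) (nat_lit 543) (nat_lit 425))))) (XT.nd (nat_lit 312) (nat_lit 1368)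 (nat_lit 0) (XT.nd (nat_lit 156) (nat_lit 684) (nat_lit 0) (XT.nd (nat_lit 78) (nat_lit 684) (nat_lit 0) (XT.lf (nat_lit 0) (nat_lit 127185665) (nat_lit 836) (nat_lit 1345014867) (nat_lit 76) (nat_lit 9933248219) (nat_lit 336) (nat_lit 5) (nat_lit 347) (nat_lit 5) (nat_lit 337) (nat_lit 5) (nat_lit 593) (nat_lit 543) (nat_lit 424)) (XT.lf (nat_lit 0) (nat_lit 2449306883) (nat_lit 760) (nat_lit 5917745690) (nat_lit 76) (nat_lit 3158268144) (nat_lit 327) (nat_lit 5) (nat_lit 337) (nat_lit 5) (nat_lit 328) (nat_lit 5) (nat_lit 594) (nat_lit 543) (nat_lit 423))) (XT.nd (nat_lit 78) (nat_lit 0) (nat_lit 0) (XT.lf (nat_lit 0) (nat_lit 1053065332) (nat_lit 684) (nat_lit 3772690553) (nat_lit 760) (nat_lit 6821677442) (nat_lit 318) (nat_lit 5) (nat_lit 327) (nat_lit 5) (nat_lit 328) (nat_lit 5) (nat_lit 595) (nat_lit 543) (nat_lit 422)) (XT.lf (nat_lit 0) (nat_lit 7278044714) (nat_lit 760) (nat_lit 3555047890) (nat_lit 76) (nat_lit 938330261) (nat_lit 318) (nat_lit 5) (nat_lit 328) (nat_lit 5) (nat_lit 319) (nat_lit 5) (nat_lit 596) (nat_lit 543)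 (nat_lit 421)))) (XT.nd (nat_lit 156) (nat_lit 684) (nat_lit 0) (XT.nd (nat_lit 78) (nat_lit 76) (nat_lit 0) (XT.lf (nat_lit 0) (nat_lit 3626887582) (nat_lit 608) (nat_lit 6183774837) (nat_lit 684) (nat_lit 2086604989) (nat_lit 310) (nat_lit 5) (nat_lit 318) (nat_lit 5) (nat_lit 319) (nat_lit 5) (nat_lit 597) (nat_lit 543) (nat_lit 420)) (XT.lf (nat_lit 0) (nat_lit 370328375) (nat_lit 684) (nat_lit 1047895554) (nat_lit 76) (nat_lit 10607220827) (nat_lit 309) (nat_lit 5) (nat_lit 318) (nat_lit 5) (nat_lit 310) (nat_lit 5) (nat_lit 598) (nat_lit 543) (nat_lit 419))) (XT.nd (nat_lit 76908) (nat_lit 0) (nat_lit 25764) (XT.lf (nat_lit 0) (nat_lit 2895705224) (nat_lit 760) (nat_lit 5809809300) (nat_lit 76) (nat_lit 3449451214) (nat_lit 300) (nat_lit 5) (nat_lit 310) (nat_lit 5) (nat_lit 301) (nat_lit 5) (nat_lit 599) (nat_lit 543) (nat_lit 418)) (XT.lf (nat_lit 0) (nat_lit 3739864514) (nat_lit 1292) (nat_lit 14575892) (nat_lit 1292) (nat_lit 14575892) (nat_lit 639) (nat_lit 3) (nat_lit 656) (nat_lit 3) (nat_lit 656) (nat_lit 5) (nat_lit 544) (nat_lit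 544) (nat_lit 472)))))) (XT.nd (nat_lit 546) (nat_lit 1292) (nat_lit 0) (XT.nd (nat_lit 234) (nat_lit 1292) (nat_lit 0) (XT.nd (nat_lit 78) (nat_lit 0) (nat_lit 0) (XT.lf (nat_lit 0) (nat_lit 1399749197) (nat_lit 1292) (nat_lit 3830426529) (nat_lit 1368) (nat_lit 2353980158) (nat_lit 622) (nat_lit 5) (nat_lit 639) (nat_lit 3) (nat_lit 640) (nat_lit 5) (nat_lit 545) (nat_lit 544) (nat_lit 471)) (XT.nd (nat_lit 78) (nat_lit 0) (nat_lit 0) (XT.lf (nat_lit 0) (nat_lit 2848658682) (nat_lit 1292) (nat_lit 38726489) (nat_lit 1368) (nat_lit 4744562046) (nat_lit 622) (nat_lit 5) (nat_lit 639) (nat_lit 3) (nat_lit 640) (nat_lit 5) (nat_lit 546) (nat_lit 544) (nat_lit 470)) (XT.lf (nat_lit 76) (nat_lit 3860016047) (nat_lit 0) (nat_lit 454610423) (nat_lit 1368) (nat_lit 3366309067) (nat_lit 623) (nat_lit 5) (nat_lit 622) (nat_lit 5) (nat_lit 640) (nat_lit 5) (nat_lit 547) (nat_lit 544) (nat_lit 469)))) (XT.nd (nat_lit 156) (nat_lit 1368) (nat_lit 0) (XT.nd (nat_lit 78) (nat_lit 0) (nat_lit 0) (XT.lf (nat_lit 76) (nat_lit 74039929) (nat_lit 0) (nat_lit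 5713504664) (nat_lit 1368) (nat_lit 1943809119) (nat_lit 624) (nat_lit 5) (nat_lit 623) (nat_lit 5) (nat_lit 641) (nat_lit 5) (nat_lit 548) (nat_lit 544) (nat_lit 468)) (XT.lf (nat_lit 76) (nat_lit 4075643971) (nat_lit 0) (nat_lit 3207218909) (nat_lit 1368) (nat_lit 500061190) (nat_lit 624) (nat_lit 5) (nat_lit 623) (nat_lit 5) (nat_lit 641) (nat_lit 5) (nat_lit 549) (nat_lit 544) (nat_lit 467))) (XT.nd (nat_lit 78) (nat_lit 0) (nat_lit 76) (XT.lf (nat_lit 76) (nat_lit 299288959) (nat_lit 0) (nat_lit 627236665) (nat_lit 1444) (nat_lit 6909542087) (nat_lit 606) (nat_lit 5) (nat_lit 605) (nat_lit 5) (nat_lit 624) (nat_lit 5) (nat_lit 550) (nat_lit 544) (nat_lit 466)) (XT.lf (nat_lit 0) (nat_lit 2378443517) (nat_lit 1368) (nat_lit 3490759324) (nat_lit 1444) (nat_lit 2020937875) (nat_lit 606) (nat_lit 5) (nat_lit 624) (nat_lit 5) (nat_lit 625) (nat_lit 5) (nat_lit 551) (nat_lit 544) (nat_lit 465))))) (XT.nd (nat_lit 312) (nat_lit 0) (nat_lit 0) (XT.nd (nat_lit 156) (nat_lit 1368) (nat_lit 0) (XT.nd (nat_lit 78) (nat_lit 0) (nat_lit 0) (XT.lf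 (nat_lit 76) (nat_lit 619827069) (nat_lit 0) (nat_lit 3213861506) (nat_lit 1444) (nat_lit 4112123283) (nat_lit 607) (nat_lit 5) (nat_lit 606) (nat_lit 5) (nat_lit 625) (nat_lit 5) (nat_lit 552) (nat_lit 544) (nat_lit 464)) (XT.lf (nat_lit 76) (nat_lit 4839748413) (nat_lit 0) (nat_lit 468358930) (nat_lit 1444) (nat_lit 2694690109) (nat_lit 607) (nat_lit 5) (nat_lit 606) (nat_lit 5) (nat_lit 625) (nat_lit 5) (nat_lit 553) (nat_lit 544) (nat_lit 463))) (XT.nd (nat_lit 78) (nat_lit 1444) (nat_lit 0) (XT.lf (nat_lit 76) (nat_lit 1061385311) (nat_lit 0) (nat_lit 5740043421) (nat_lit 1444) (nat_lit 1259708098) (nat_lit 608) (nat_lit 5) (nat_lit 607) (nat_lit 5) (nat_lit 626) (nat_lit 5) (nat_lit 554) (nat_lit 544) (nat_lit 462)) (XT.lf (nat_lit 0) (nat_lit 193440357) (nat_lit 1444) (nat_lit 2732436653) (nat_lit 1520) (nat_lit 5194898926) (nat_lit 588) (nat_lit 5) (nat_lit 607) (nat_lit 5) (nat_lit 608) (nat_lit 5) (nat_lit 555) (nat_lit 544) (nat_lit 461)))) (XT.nd (nat_lit 156) (nat_lit 0) (nat_lit 76) (XT.nd (nat_lit 78) (nat_lit 0) (nat_lit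 76) (XT.lf (nat_lit 76) (nat_lit 1612604346) (nat_lit 0) (nat_lit 24973602) (nat_lit 1520) (nat_lit 6544289692) (nat_lit 589) (nat_lit 5) (nat_lit 588) (nat_lit 5) (nat_lit 608) (nat_lit 5) (nat_lit 556) (nat_lit 544) (nat_lit 460)) (XT.lf (nat_lit 0) (nat_lit 3116973231) (nat_lit 1444) (nat_lit 2202389953) (nat_lit 1520) (nat_lit 2924692672) (nat_lit 589) (nat_lit 5) (nat_lit 608) (nat_lit 5) (nat_lit 609) (nat_lit 5) (nat_lit 557) (nat_lit 544) (nat_lit 459))) (XT.nd (nat_lit 78) (nat_lit 0) (nat_lit 76) (XT.lf (nat_lit 76) (nat_lit 2260726879) (nat_lit 0) (nat_lit 2349551778) (nat_lit 1520) (nat_lit 3697524871) (nat_lit 590) (nat_lit 5) (nat_lit 589) (nat_lit 5) (nat_lit 609) (nat_lit 5) (nat_lit 558) (nat_lit 544) (nat_lit 458)) (XT.lf (nat_lit 0) (nat_lit 6122746889) (nat_lit 1444) (nat_lit 1555189854) (nat_lit 1520) (nat_lit 695105569) (nat_lit 590) (nat_lit 5) (nat_lit 609) (nat_lit 5) (nat_lit 610) (nat_lit 5) (nat_lit 559) (nat_lit 544) (nat_lit 457))))))) (XT.nd (nat_lit 1170) (nat_lit 7980) (nat_lit 0) (XT.nd (nat_lit 546) (nat_lit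 8284) (nat_lit 0) (XT.nd (nat_lit 234) (nat_lit 0) (nat_lit 76) (XT.nd (nat_lit 78) (nat_lit 1520) (nat_lit 0) (XT.lf (nat_lit 76) (nat_lit 3030019216) (nat_lit 0) (nat_lit 4641273059) (nat_lit 1520) (nat_lit 768179094) (nat_lit 591) (nat_lit 5) (nat_lit 590) (nat_lit 5) (nat_lit 610) (nat_lit 5) (nat_lit 560) (nat_lit 544) (nat_lit 456)) (XT.nd (nat_lit 78) (nat_lit 0) (nat_lit 76) (XT.lf (nat_lit 0) (nat_lit 715176890) (nat_lit 1520) (nat_lit 804851783) (nat_lit 1596) (nat_lit 6987478760) (nat_lit 570) (nat_lit 5) (nat_lit 590) (nat_lit 5) (nat_lit 591) (nat_lit 5) (nat_lit 561) (nat_lit 544) (nat_lit 455)) (XT.lf (nat_lit 0) (nat_lit 2225831099) (nat_lit 1520) (nat_lit 4670327231) (nat_lit 1596) (nat_lit 1680487929) (nat_lit 571) (nat_lit 5) (nat_lit 591) (nat_lit 5) (nat_lit 592) (nat_lit 5) (nat_lit 562) (nat_lit 544) (nat_lit 454)))) (XT.nd (nat_lit 156) (nat_lit 0) (nat_lit 76) (XT.nd (nat_lit 78) (nat_lit 0) (nat_lit 0) (XT.lf (nat_lit 76) (nat_lit 45034292) (nat_lit 0) (nat_lit 3709353939) (nat_lit 1596) (nat_lit 4893027730) (nat_lit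 572) (nat_lit 5) (nat_lit 571) (nat_lit 5) (nat_lit 592) (nat_lit 5) (nat_lit 563) (nat_lit 544) (nat_lit 453)) (XT.lf (nat_lit 76) (nat_lit 4897131285) (nat_lit 0) (nat_lit 420035391) (nat_lit 1596) (nat_lit 3402363237) (nat_lit 572) (nat_lit 5) (nat_lit 571) (nat_lit 5) (nat_lit 592) (nat_lit 5) (nat_lit 564) (nat_lit 544) (nat_lit 452))) (XT.nd (nat_lit 78) (nat_lit 0) (nat_lit 0) (XT.lf (nat_lit 76) (nat_lit 1026532816) (nat_lit 0) (nat_lit 5883285336) (nat_lit 1596) (nat_lit 1883297465) (nat_lit 573) (nat_lit 5) (nat_lit 572) (nat_lit 5) (nat_lit 593) (nat_lit 5) (nat_lit 565) (nat_lit 544) (nat_lit 451)) (XT.lf (nat_lit 76) (nat_lit 6000518390) (nat_lit 0) (nat_lit 2535509704) (nat_lit 1596) (nat_lit 332112618) (nat_lit 573) (nat_lit 5) (nat_lit 572) (nat_lit 5) (nat_lit 593) (nat_lit 5) (nat_lit 566) (nat_lit 544) (nat_lit 450))))) (XT.nd (nat_lit 312) (nat_lit 5320) (nat_lit 0) (XT.nd (nat_lit 156) (nat_lit 1596) (nat_lit 0) (XT.nd (nat_lit 78) (nat_lit 0) (nat_lit 0) (XT.lf (nat_lit 0) (nat_lit 1227048459) (nat_lit 1596) (nat_lit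 6822393962) (nat_lit 76) (nat_lit 895196323) (nat_lit 552) (nat_lit 5) (nat_lit 573) (nat_lit 5) (nat_lit 553) (nat_lit 5) (nat_lit 567) (nat_lit 544) (nat_lit 449)) (XT.lf (nat_lit 0) (nat_lit 2823168781) (nat_lit 1596) (nat_lit 1811898974) (nat_lit 76) (nat_lit 4387352298) (nat_lit 552) (nat_lit 5) (nat_lit 573) (nat_lit 5) (nat_lit 553) (nat_lit 5) (nat_lit 568) (nat_lit 544) (nat_lit 448))) (XT.nd (nat_lit 78) (nat_lit 0) (nat_lit 0) (XT.lf (nat_lit 0) (nat_lit 3321505909) (nat_lit 1596) (nat_lit 1125836418) (nat_lit 1672) (nat_lit 4654493698) (nat_lit 531) (nat_lit 5) (nat_lit 552) (nat_lit 5) (nat_lit 553) (nat_lit 5) (nat_lit 569) (nat_lit 544) (nat_lit 447)) (XT.lf (nat_lit 0) (nat_lit 6107126696) (nat_lit 1672) (nat_lit 637724410) (nat_lit 76) (nat_lit 2437928280) (nat_lit 531) (nat_lit 5) (nat_lit 553) (nat_lit 5) (nat_lit 532) (nat_lit 5) (nat_lit 570) (nat_lit 544) (nat_lit 446)))) (XT.nd (nat_lit 156) (nat_lit 1824) (nat_lit 0) (XT.nd (nat_lit 78) (nat_lit 1824) (nat_lit 0) (XT.lf (nat_lit 0) (nat_lit 4640296508) (nat_lit 1672)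 (nat_lit 3172842790) (nat_lit 1748) (nat_lit 1451943252) (nat_lit 509) (nat_lit 5) (nat_lit 531) (nat_lit 5) (nat_lit 532) (nat_lit 5) (nat_lit 571) (nat_lit 544) (nat_lit 445)) (XT.lf (nat_lit 0) (nat_lit 188996721) (nat_lit 1824) (nat_lit 8682483120) (nat_lit 76) (nat_lit 477778240) (nat_lit 485) (nat_lit 5) (nat_lit 509) (nat_lit 5) (nat_lit 486) (nat_lit 5) (nat_lit 572) (nat_lit 544) (nat_lit 444))) (XT.nd (nat_lit 78) (nat_lit 1824) (nat_lit 0) (XT.lf (nat_lit 0) (nat_lit 1871581069) (nat_lit 1824) (nat_lit 3359863876) (nat_lit 76) (nat_lit 4202916385) (nat_lit 485) (nat_lit 5) (nat_lit 509) (nat_lit 5) (nat_lit 486) (nat_lit 5) (nat_lit 573) (nat_lit 544) (nat_lit 443)) (XT.lf (nat_lit 0) (nat_lit 2075455592) (nat_lit 1824) (nat_lit 1502303843) (nat_lit 1900) (nat_lit 5943609828) (nat_lit 461) (nat_lit 5) (nat_lit 485) (nat_lit 5) (nat_lit 486) (nat_lit 5) (nat_lit 574) (nat_lit 544) (nat_lit 442)))))) (XT.nd (nat_lit 546) (nat_lit 4180) (nat_lit 0) (XT.nd (nat_lit 234) (nat_lit 2736) (nat_lit 0) (XT.nd (nat_lit 78) (nat_lit 1064)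 (nat_lit 0) (XT.lf (nat_lit 0) (nat_lit 5332508146) (nat_lit 1900) (nat_lit 1981047932) (nat_lit 76) (nat_lit 2296273777) (nat_lit 461) (nat_lit 5) (nat_lit 486) (nat_lit 5) (nat_lit 462) (nat_lit 5) (nat_lit 575) (nat_lit 544) (nat_lit 441)) (XT.nd (nat_lit 78) (nat_lit 0) (nat_lit 0) (XT.lf (nat_lit 0) (nat_lit 3609609576) (nat_lit 1064) (nat_lit 3523390661) (nat_lit 1140) (nat_lit 2566847862) (nat_lit 447) (nat_lit 5) (nat_lit 461) (nat_lit 5) (nat_lit 462) (nat_lit 5) (nat_lit 576) (nat_lit 544) (nat_lit 440)) (XT.lf (nat_lit 0) (nat_lit 8962693569) (nat_lit 1140) (nat_lit 475999673) (nat_lit 76) (nat_lit 353111021) (nat_lit 447) (nat_lit 5) (nat_lit 462) (nat_lit 5) (nat_lit 448) (nat_lit 5) (nat_lit 577) (nat_lit 544) (nat_lit 439)))) (XT.nd (nat_lit 156) (nat_lit 836) (nat_lit 0) (XT.nd (nat_lit 78) (nat_lit 912) (nat_lit 0) (XT.lf (nat_lit 0) (nat_lit 966854098) (nat_lit 988) (nat_lit 4615673529) (nat_lit 76) (nat_lit 4302233839) (nat_lit 434) (nat_lit 5) (nat_lit 447) (nat_lit 5) (nat_lit 435) (nat_lit 5) (nat_lit 578) (nat_lit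 544) (nat_lit 438)) (XT.lf (nat_lit 0) (nat_lit 1144555990) (nat_lit 912) (nat_lit 1631913929) (nat_lit 988) (nat_lit 7203222917) (nat_lit 422) (nat_lit 5) (nat_lit 434) (nat_lit 5) (nat_lit 435) (nat_lit 5) (nat_lit 579) (nat_lit 544) (nat_lit 437))) (XT.nd (nat_lit 78) (nat_lit 836) (nat_lit 0) (XT.lf (nat_lit 0) (nat_lit 4647498222) (nat_lit 988) (nat_lit 3030376648) (nat_lit 76) (nat_lit 2398144836) (nat_lit 422) (nat_lit 5) (nat_lit 435) (nat_lit 5) (nat_lit 423) (nat_lit 5) (nat_lit 580) (nat_lit 544) (nat_lit 436)) (XT.lf (nat_lit 0) (nat_lit 2896823147) (nat_lit 836) (nat_lit 3667635403) (nat_lit 912) (nat_lit 3609645585) (nat_lit 411) (nat_lit 5) (nat_lit 422) (nat_lit 5) (nat_lit 423) (nat_lit 5) (nat_lit 581) (nat_lit 544) (nat_lit 435))))) (XT.nd (nat_lit 312) (nat_lit 2432) (nat_lit 0) (XT.nd (nat_lit 156) (nat_lit 836) (nat_lit 0) (XT.nd (nat_lit 78) (nat_lit 912) (nat_lit 0) (XT.lf (nat_lit 0) (nat_lit 8522149491) (nat_lit 912) (nat_lit 1314100863) (nat_lit 76) (nat_lit 437853299) (nat_lit 411) (nat_lit 5) (nat_lit 423) (nat_lit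 5) (nat_lit 412) (nat_lit 5) (nat_lit 582) (nat_lit 544) (nat_lit 434)) (XT.lf (nat_lit 0) (nat_lit 176195392) (nat_lit 912) (nat_lit 5590447733) (nat_lit 76) (nat_lit 4608739090) (nat_lit 399) (nat_lit 5) (nat_lit 411) (nat_lit 5) (nat_lit 400) (nat_lit 5) (nat_lit 583) (nat_lit 544) (nat_lit 433))) (XT.nd (nat_lit 78) (nat_lit 0) (nat_lit 0) (XT.lf (nat_lit 0) (nat_lit 519564672) (nat_lit 836) (nat_lit 1591873202) (nat_lit 912) (nat_lit 8367178252) (nat_lit 388) (nat_lit 5) (nat_lit 399) (nat_lit 5) (nat_lit 400) (nat_lit 5) (nat_lit 584) (nat_lit 544) (nat_lit 432)) (XT.lf (nat_lit 0) (nat_lit 4120435923) (nat_lit 912) (nat_lit 3794269800) (nat_lit 76) (nat_lit 2668509111) (nat_lit 388) (nat_lit 5) (nat_lit 400) (nat_lit 5) (nat_lit 389) (nat_lit 5) (nat_lit 585) (nat_lit 544) (nat_lit 431)))) (XT.nd (nat_lit 156) (nat_lit 1596) (nat_lit 0) (XT.nd (nat_lit 78) (nat_lit 0) (nat_lit 0) (XT.lf (nat_lit 0) (nat_lit 2495303133) (nat_lit 836) (nat_lit 3681422248) (nat_lit 912) (nat_lit 4513039016) (nat_lit 377) (nat_lit 5) (nat_lit 388) (nat_lit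 5) (nat_lit 389) (nat_lit 5) (nat_lit 586) (nat_lit 544) (nat_lit 430)) (XT.lf (nat_lit 0) (nat_lit 8284515521) (nat_lit 912) (nat_lit 1861070724) (nat_lit 76) (nat_lit 652652298) (nat_lit 377) (nat_lit 5) (nat_lit 389) (nat_lit 5) (nat_lit 378) (nat_lit 5) (nat_lit 587) (nat_lit 544) (nat_lit 429))) (XT.nd (nat_lit 78) (nat_lit 836) (nat_lit 0) (XT.lf (nat_lit 0) (nat_lit 4614605714) (nat_lit 760) (nat_lit 5855189239) (nat_lit 836) (nat_lit 438381618) (nat_lit 367) (nat_lit 5) (nat_lit 377) (nat_lit 5) (nat_lit 378) (nat_lit 5) (nat_lit 588) (nat_lit 544) (nat_lit 428)) (XT.lf (nat_lit 0) (nat_lit 195908246) (nat_lit 760) (nat_lit 1455495550) (nat_lit 836) (nat_lit 9368793622) (nat_lit 356) (nat_lit 5) (nat_lit 366) (nat_lit 5) (nat_lit 367) (nat_lit 5) (nat_lit 589) (nat_lit 544) (nat_lit 427))))))))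
noncomputable def xc63 : XT := (XT.nd (nat_lit 79326) (nat_lit 0) (nat_lit 1292) (XT.nd (nat_lit 78156) (nat_lit 0) (nat_lit 19760) (XT.nd (nat_lit 546) (nat_lit 608) (nat_lit 0) (XT.nd (nat_lit 234) (nat_lit 2204) (nat_lit 0) (XT.nd (nat_lit 78) (nat_lit 684) (nat_lit 0) (XT.lf (nat_lit 0) (nat_lit 3820652797) (nat_lit 836) (nat_lit 4276862383) (nat_lit 76) (nat_lit 3036015799) (nat_lit 356) (nat_lit 5) (nat_lit 367) (nat_lit 5) (nat_lit 357) (nat_lit 5) (nat_lit 590) (nat_lit 544) (nat_lit 426)) (XT.nd (nat_lit 78) (nat_lit 0) (nat_lit 0) (XT.lf (nat_lit 0) (nat_lit 2402931499) (nat_lit 684) (nat_lit 3637294231) (nat_lit 760) (nat_lit 5208767689) (nat_lit 347) (nat_lit 5) (nat_lit 356) (nat_lit 5) (nat_lit 357) (nat_lit 5) (nat_lit 591) (nat_lit 544) (nat_lit 425)) (XT.lf (nat_lit 0) (nat_lit 8320913140) (nat_lit 760) (nat_lit 2118678634) (nat_lit 76) (nat_lit 926839839) (nat_lit 347) (nat_lit 5) (nat_lit 357) (nat_lit 5) (nat_lit 348) (nat_lit 5) (nat_lit 592) (nat_lit 544) (nat_lit 424)))) (XT.nd (nat_lit 156) (nat_lit 684) (nat_lit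 0) (XT.nd (nat_lit 78) (nat_lit 760) (nat_lit 0) (XT.lf (nat_lit 0) (nat_lit 4761344922) (nat_lit 760) (nat_lit 5923136711) (nat_lit 836) (nat_lit 800992541) (nat_lit 337) (nat_lit 5) (nat_lit 347) (nat_lit 5) (nat_lit 348) (nat_lit 5) (nat_lit 593) (nat_lit 544) (nat_lit 423)) (XT.lf (nat_lit 0) (nat_lit 173221611) (nat_lit 684) (nat_lit 1293483206) (nat_lit 760) (nat_lit 10140044366) (nat_lit 327) (nat_lit 5) (nat_lit 336) (nat_lit 5) (nat_lit 337) (nat_lit 5) (nat_lit 594) (nat_lit 544) (nat_lit 422))) (XT.nd (nat_lit 78) (nat_lit 684) (nat_lit 0) (XT.lf (nat_lit 0) (nat_lit 3819285660) (nat_lit 760) (nat_lit 4478309847) (nat_lit 76) (nat_lit 3431744090) (nat_lit 327) (nat_lit 5) (nat_lit 337) (nat_lit 5) (nat_lit 328) (nat_lit 5) (nat_lit 595) (nat_lit 544) (nat_lit 421)) (XT.lf (nat_lit 0) (nat_lit 2621668772) (nat_lit 684) (nat_lit 3605740724) (nat_lit 760) (nat_lit 5626803374) (nat_lit 318) (nat_lit 5) (nat_lit 327) (nat_lit 5) (nat_lit 328) (nat_lit 5) (nat_lit 596) (nat_lit 544) (nat_lit 420))))) (XT.nd (nat_lit 77298) (nat_lit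 0) (nat_lit 22420) (XT.nd (nat_lit 77142) (nat_lit 0) (nat_lit 23712) (XT.nd (nat_lit 78) (nat_lit 608) (nat_lit 0) (XT.lf (nat_lit 0) (nat_lit 8704696135) (nat_lit 760) (nat_lit 2084837660) (nat_lit 76) (nat_lit 1191630663) (nat_lit 318) (nat_lit 5) (nat_lit 328) (nat_lit 5) (nat_lit 319) (nat_lit 5) (nat_lit 597) (nat_lit 544) (nat_lit 419)) (XT.lf (nat_lit 0) (nat_lit 5230596317) (nat_lit 608) (nat_lit 6042191834) (nat_lit 684) (nat_lit 837042579) (nat_lit 310) (nat_lit 5) (nat_lit 318) (nat_lit 5) (nat_lit 319) (nat_lit 5) (nat_lit 598) (nat_lit 544) (nat_lit 418))) (XT.nd (nat_lit 78) (nat_lit 0) (nat_lit 0) (XT.lf (nat_lit 0) (nat_lit 701927558) (nat_lit 0) (nat_lit 701927558) (nat_lit 1292) (nat_lit 2411774650) (nat_lit 622) (nat_lit 5) (nat_lit 622) (nat_lit 3) (nat_lit 639) (nat_lit 3) (nat_lit 545) (nat_lit 545) (nat_lit 470)) (XT.lf (nat_lit 0) (nat_lit 4229197203) (nat_lit 1292) (nat_lit 2436201653) (nat_lit 1368) (nat_lit 1014201829) (nat_lit 622) (nat_lit 5) (nat_lit 639) (nat_lit 3) (nat_lit 640) (nat_lit 5) (nat_lit 546)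 (nat_lit 545) (nat_lit 469)))) (XT.nd (nat_lit 156) (nat_lit 1292) (nat_lit 0) (XT.nd (nat_lit 78) (nat_lit 0) (nat_lit 0) (XT.lf (nat_lit 76) (nat_lit 1421130903) (nat_lit 0) (nat_lit 4240250446) (nat_lit 1368) (nat_lit 2067884669) (nat_lit 623) (nat_lit 5) (nat_lit 622) (nat_lit 5) (nat_lit 640) (nat_lit 5) (nat_lit 547) (nat_lit 545) (nat_lit 468)) (XT.lf (nat_lit 76) (nat_lit 5369723104) (nat_lit 0) (nat_lit 1733165866) (nat_lit 1368) (nat_lit 677424748) (nat_lit 623) (nat_lit 5) (nat_lit 622) (nat_lit 5) (nat_lit 640) (nat_lit 5) (nat_lit 548) (nat_lit 545) (nat_lit 467))) (XT.nd (nat_lit 78) (nat_lit 0) (nat_lit 0) (XT.lf (nat_lit 0) (nat_lit 711618085) (nat_lit 1368) (nat_lit 6276779521) (nat_lit 1444) (nat_lit 844281316) (nat_lit 605) (nat_lit 5) (nat_lit 623) (nat_lit 5) (nat_lit 624) (nat_lit 5) (nat_lit 549) (nat_lit 545) (nat_lit 466)) (XT.lf (nat_lit 0) (nat_lit 2112607648) (nat_lit 1368) (nat_lit 2287126164) (nat_lit 1444) (nat_lit 3486405832) (nat_lit 605) (nat_lit 5) (nat_lit 623) (nat_lit 5) (nat_lit 624) (nat_lit 5) (nat_lit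 550) (nat_lit 545) (nat_lit 465)))))) (XT.nd (nat_lit 546) (nat_lit 1368) (nat_lit 0) (XT.nd (nat_lit 234) (nat_lit 1292) (nat_lit 0) (XT.nd (nat_lit 78) (nat_lit 0) (nat_lit 76) (XT.lf (nat_lit 76) (nat_lit 1786453481) (nat_lit 0) (nat_lit 1732906218) (nat_lit 1444) (nat_lit 4421757482) (nat_lit 606) (nat_lit 5) (nat_lit 605) (nat_lit 5) (nat_lit 624) (nat_lit 5) (nat_lit 551) (nat_lit 545) (nat_lit 464)) (XT.nd (nat_lit 78) (nat_lit 0) (nat_lit 0) (XT.lf (nat_lit 0) (nat_lit 4942881280) (nat_lit 1368) (nat_lit 2050821649) (nat_lit 1444) (nat_lit 1003721053) (nat_lit 606) (nat_lit 5) (nat_lit 624) (nat_lit 5) (nat_lit 625) (nat_lit 5) (nat_lit 552) (nat_lit 545) (nat_lit 463)) (XT.lf (nat_lit 76) (nat_lit 2132043887) (nat_lit 0) (nat_lit 4255574811) (nat_lit 1444) (nat_lit 1667385673) (nat_lit 607) (nat_lit 5) (nat_lit 606) (nat_lit 5) (nat_lit 625) (nat_lit 5) (nat_lit 553) (nat_lit 545) (nat_lit 462)))) (XT.nd (nat_lit 156) (nat_lit 0) (nat_lit 0) (XT.nd (nat_lit 78) (nat_lit 1368) (nat_lit 0) (XT.lf (nat_lit 76) (nat_lit 6406955417)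 (nat_lit 0) (nat_lit 1435996770) (nat_lit 1444) (nat_lit 271152465) (nat_lit 607) (nat_lit 5) (nat_lit 606) (nat_lit 5) (nat_lit 625) (nat_lit 5) (nat_lit 554) (nat_lit 545) (nat_lit 461)) (XT.lf (nat_lit 0) (nat_lit 1132712626) (nat_lit 1444) (nat_lit 5583983833) (nat_lit 1520) (nat_lit 1457646396) (nat_lit 588) (nat_lit 5) (nat_lit 607) (nat_lit 5) (nat_lit 608) (nat_lit 5) (nat_lit 555) (nat_lit 545) (nat_lit 460))) (XT.nd (nat_lit 78) (nat_lit 0) (nat_lit 0) (XT.lf (nat_lit 0) (nat_lit 2550998540) (nat_lit 1444) (nat_lit 1270006681) (nat_lit 1520) (nat_lit 4414947449) (nat_lit 588) (nat_lit 5) (nat_lit 607) (nat_lit 5) (nat_lit 608) (nat_lit 5) (nat_lit 556) (nat_lit 545) (nat_lit 459)) (XT.lf (nat_lit 76) (nat_lit 3151954356) (nat_lit 0) (nat_lit 835698833) (nat_lit 1520) (nat_lit 4311343568) (nat_lit 589) (nat_lit 5) (nat_lit 588) (nat_lit 5) (nat_lit 608) (nat_lit 5) (nat_lit 557) (nat_lit 545) (nat_lit 458))))) (XT.nd (nat_lit 312) (nat_lit 0) (nat_lit 0) (XT.nd (nat_lit 156) (nat_lit 1444) (nat_lit 0) (XT.nd (nat_lit 78) (nat_lit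 0) (nat_lit 0) (XT.lf (nat_lit 0) (nat_lit 5446041283) (nat_lit 1444) (nat_lit 718137084) (nat_lit 1520) (nat_lit 2199265444) (nat_lit 589) (nat_lit 5) (nat_lit 608) (nat_lit 5) (nat_lit 609) (nat_lit 5) (nat_lit 558) (nat_lit 545) (nat_lit 457)) (XT.lf (nat_lit 76) (nat_lit 3824187475) (nat_lit 0) (nat_lit 3110437144) (nat_lit 1520) (nat_lit 1494536690) (nat_lit 590) (nat_lit 5) (nat_lit 589) (nat_lit 5) (nat_lit 609) (nat_lit 5) (nat_lit 559) (nat_lit 545) (nat_lit 456))) (XT.nd (nat_lit 78) (nat_lit 1520) (nat_lit 0) (XT.lf (nat_lit 0) (nat_lit 8429030566) (nat_lit 1444) (nat_lit 49353040) (nat_lit 1520) (nat_lit 18290545) (nat_lit 590) (nat_lit 5) (nat_lit 609) (nat_lit 5) (nat_lit 610) (nat_lit 5) (nat_lit 560) (nat_lit 545) (nat_lit 455)) (XT.lf (nat_lit 0) (nat_lit 1392047380) (nat_lit 1520) (nat_lit 3956802366) (nat_lit 1596) (nat_lit 3216060008) (nat_lit 570) (nat_lit 5) (nat_lit 590) (nat_lit 5) (nat_lit 591) (nat_lit 5) (nat_lit 561) (nat_lit 545) (nat_lit 454)))) (XT.nd (nat_lit 156) (nat_lit 0) (nat_lit 76) (XT.nd (nat_lit 78)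 (nat_lit 0) (nat_lit 76) (XT.lf (nat_lit 76) (nat_lit 713657547) (nat_lit 0) (nat_lit 2143313040) (nat_lit 1596) (nat_lit 5777993552) (nat_lit 571) (nat_lit 5) (nat_lit 570) (nat_lit 5) (nat_lit 591) (nat_lit 5) (nat_lit 562) (nat_lit 545) (nat_lit 453)) (XT.lf (nat_lit 0) (nat_lit 4357678615) (nat_lit 1520) (nat_lit 3202820605) (nat_lit 1596) (nat_lit 1145792523) (nat_lit 571) (nat_lit 5) (nat_lit 591) (nat_lit 5) (nat_lit 592) (nat_lit 5) (nat_lit 563) (nat_lit 545) (nat_lit 452))) (XT.nd (nat_lit 78) (nat_lit 0) (nat_lit 0) (XT.lf (nat_lit 76) (nat_lit 1596578983) (nat_lit 0) (nat_lit 4289367660) (nat_lit 1596) (nat_lit 2893150163) (nat_lit 572) (nat_lit 5) (nat_lit 571) (nat_lit 5) (nat_lit 592) (nat_lit 5) (nat_lit 564) (nat_lit 545) (nat_lit 451)) (XT.lf (nat_lit 76) (nat_lit 6515313130) (nat_lit 0) (nat_lit 924344571) (nat_lit 1596) (nat_lit 1413804501) (nat_lit 572) (nat_lit 5) (nat_lit 571) (nat_lit 5) (nat_lit 592) (nat_lit 5) (nat_lit 565) (nat_lit 545) (nat_lit 450))))))) (XT.nd (nat_lit 1170) (nat_lit 7220) (nat_lit 0) (XT.nd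 (nat_lit 546) (nat_lit 6536) (nat_lit 0) (XT.nd (nat_lit 234) (nat_lit 3268) (nat_lit 0) (XT.nd (nat_lit 78) (nat_lit 0) (nat_lit 0) (XT.lf (nat_lit 0) (nat_lit 101043328) (nat_lit 1596) (nat_lit 6329147231) (nat_lit 1672) (nat_lit 2498970455) (nat_lit 551) (nat_lit 5) (nat_lit 572) (nat_lit 5) (nat_lit 573) (nat_lit 5) (nat_lit 566) (nat_lit 545) (nat_lit 449)) (XT.nd (nat_lit 78) (nat_lit 0) (nat_lit 76) (XT.lf (nat_lit 0) (nat_lit 1623347727) (nat_lit 1596) (nat_lit 1373466468) (nat_lit 1672) (nat_lit 6009452578) (nat_lit 551) (nat_lit 5) (nat_lit 572) (nat_lit 5) (nat_lit 573) (nat_lit 5) (nat_lit 567) (nat_lit 545) (nat_lit 448)) (XT.lf (nat_lit 0) (nat_lit 3178323552) (nat_lit 1596) (nat_lit 5378482271) (nat_lit 76) (nat_lit 528065967) (nat_lit 552) (nat_lit 5) (nat_lit 573) (nat_lit 5) (nat_lit 553) (nat_lit 5) (nat_lit 568) (nat_lit 545) (nat_lit 447)))) (XT.nd (nat_lit 156) (nat_lit 1748) (nat_lit 0) (XT.nd (nat_lit 78) (nat_lit 1596) (nat_lit 0) (XT.lf (nat_lit 0) (nat_lit 4768587180) (nat_lit 1596) (nat_lit 298764825) (nat_lit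 76) (nat_lit 4097614754) (nat_lit 552) (nat_lit 5) (nat_lit 573) (nat_lit 5) (nat_lit 553) (nat_lit 5) (nat_lit 569) (nat_lit 545) (nat_lit 446)) (XT.lf (nat_lit 0) (nat_lit 4927114918) (nat_lit 1596) (nat_lit 1471084315) (nat_lit 1672) (nat_lit 2848315120) (nat_lit 531) (nat_lit 5) (nat_lit 552) (nat_lit 5) (nat_lit 553) (nat_lit 5) (nat_lit 570) (nat_lit 545) (nat_lit 445))) (XT.nd (nat_lit 78) (nat_lit 76) (nat_lit 0) (XT.lf (nat_lit 0) (nat_lit 909123506) (nat_lit 1672) (nat_lit 7149396077) (nat_lit 1748) (nat_lit 1271212549) (nat_lit 509) (nat_lit 5) (nat_lit 531) (nat_lit 5) (nat_lit 532) (nat_lit 5) (nat_lit 571) (nat_lit 545) (nat_lit 444)) (XT.lf (nat_lit 0) (nat_lit 348037985) (nat_lit 1748) (nat_lit 3146007410) (nat_lit 76) (nat_lit 5920225922) (nat_lit 508) (nat_lit 5) (nat_lit 531) (nat_lit 5) (nat_lit 509) (nat_lit 5) (nat_lit 572) (nat_lit 545) (nat_lit 443))))) (XT.nd (nat_lit 312) (nat_lit 2964) (nat_lit 0) (XT.nd (nat_lit 156) (nat_lit 1824) (nat_lit 0) (XT.nd (nat_lit 78) (nat_lit 0) (nat_lit 0) (XT.lf (nat_lit 0) (nat_lit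 1975452234) (nat_lit 1824) (nat_lit 7267441732) (nat_lit 76) (nat_lit 257584728) (nat_lit 485) (nat_lit 5) (nat_lit 509) (nat_lit 5) (nat_lit 486) (nat_lit 5) (nat_lit 573) (nat_lit 545) (nat_lit 442)) (XT.lf (nat_lit 0) (nat_lit 3656733845) (nat_lit 1824) (nat_lit 1869520908) (nat_lit 76) (nat_lit 4061730519) (nat_lit 485) (nat_lit 5) (nat_lit 509) (nat_lit 5) (nat_lit 486) (nat_lit 5) (nat_lit 574) (nat_lit 545) (nat_lit 441))) (XT.nd (nat_lit 78) (nat_lit 0) (nat_lit 0) (XT.lf (nat_lit 0) (nat_lit 3664257974) (nat_lit 1824) (nat_lit 1708554817) (nat_lit 1900) (nat_lit 4304407167) (nat_lit 461) (nat_lit 5) (nat_lit 485) (nat_lit 5) (nat_lit 486) (nat_lit 5) (nat_lit 575) (nat_lit 545) (nat_lit 440)) (XT.lf (nat_lit 0) (nat_lit 7127740787) (nat_lit 1900) (nat_lit 468694382) (nat_lit 76) (nat_lit 2171714999) (nat_lit 461) (nat_lit 5) (nat_lit 486) (nat_lit 5) (nat_lit 462) (nat_lit 5) (nat_lit 576) (nat_lit 545) (nat_lit 439)))) (XT.nd (nat_lit 156) (nat_lit 912) (nat_lit 0) (XT.nd (nat_lit 78) (nat_lit 988) (nat_lit 0) (XT.lf (nat_lit 0)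 (nat_lit 5223565918) (nat_lit 1064) (nat_lit 3717577498) (nat_lit 1140) (nat_lit 919289400) (nat_lit 447) (nat_lit 5) (nat_lit 461) (nat_lit 5) (nat_lit 462) (nat_lit 5) (nat_lit 577) (nat_lit 545) (nat_lit 438)) (XT.lf (nat_lit 0) (nat_lit 815362032) (nat_lit 988) (nat_lit 8886484398) (nat_lit 76) (nat_lit 252805866) (nat_lit 434) (nat_lit 5) (nat_lit 447) (nat_lit 5) (nat_lit 435) (nat_lit 5) (nat_lit 578) (nat_lit 545) (nat_lit 437))) (XT.nd (nat_lit 78) (nat_lit 912) (nat_lit 0) (XT.lf (nat_lit 0) (nat_lit 2606954795) (nat_lit 988) (nat_lit 3151438127) (nat_lit 76) (nat_lit 4291551835) (nat_lit 434) (nat_lit 5) (nat_lit 447) (nat_lit 5) (nat_lit 435) (nat_lit 5) (nat_lit 579) (nat_lit 545) (nat_lit 436)) (XT.lf (nat_lit 0) (nat_lit 2713755530) (nat_lit 912) (nat_lit 1717267385) (nat_lit 988) (nat_lit 5716188536) (nat_lit 422) (nat_lit 5) (nat_lit 434) (nat_lit 5) (nat_lit 435) (nat_lit 5) (nat_lit 580) (nat_lit 545) (nat_lit 435)))))) (XT.nd (nat_lit 546) (nat_lit 3800) (nat_lit 0) (XT.nd (nat_lit 234) (nat_lit 1748) (nat_lit 0) (XT.nd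 (nat_lit 78) (nat_lit 1672) (nat_lit 0) (XT.lf (nat_lit 0) (nat_lit 6307782829) (nat_lit 988) (nat_lit 1543213668) (nat_lit 76) (nat_lit 2395103999) (nat_lit 422) (nat_lit 5) (nat_lit 435) (nat_lit 5) (nat_lit 423) (nat_lit 5) (nat_lit 581) (nat_lit 545) (nat_lit 434)) (XT.nd (nat_lit 78) (nat_lit 836) (nat_lit 0) (XT.lf (nat_lit 0) (nat_lit 4492347423) (nat_lit 836) (nat_lit 3749985929) (nat_lit 912) (nat_lit 2104230064) (nat_lit 411) (nat_lit 5) (nat_lit 422) (nat_lit 5) (nat_lit 423) (nat_lit 5) (nat_lit 582) (nat_lit 545) (nat_lit 433)) (XT.lf (nat_lit 0) (nat_lit 200152980) (nat_lit 836) (nat_lit 10009942173) (nat_lit 912) (nat_lit 239051214) (nat_lit 400) (nat_lit 5) (nat_lit 411) (nat_lit 5) (nat_lit 412) (nat_lit 5) (nat_lit 583) (nat_lit 545) (nat_lit 432)))) (XT.nd (nat_lit 156) (nat_lit 836) (nat_lit 0) (XT.nd (nat_lit 78) (nat_lit 836) (nat_lit 0) (XT.lf (nat_lit 0) (nat_lit 1686108713) (nat_lit 912) (nat_lit 4154358745) (nat_lit 76) (nat_lit 4712208778) (nat_lit 399) (nat_lit 5) (nat_lit 411) (nat_lit 5) (nat_lit 400) (nat_lit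 5) (nat_lit 584) (nat_lit 545) (nat_lit 431)) (XT.lf (nat_lit 0) (nat_lit 2067670369) (nat_lit 836) (nat_lit 1572832489) (nat_lit 912) (nat_lit 7017864713) (nat_lit 388) (nat_lit 5) (nat_lit 399) (nat_lit 5) (nat_lit 400) (nat_lit 5) (nat_lit 585) (nat_lit 545) (nat_lit 430))) (XT.nd (nat_lit 78) (nat_lit 836) (nat_lit 0) (XT.lf (nat_lit 0) (nat_lit 5660851074) (nat_lit 912) (nat_lit 2333679758) (nat_lit 76) (nat_lit 2771105667) (nat_lit 388) (nat_lit 5) (nat_lit 400) (nat_lit 5) (nat_lit 389) (nat_lit 5) (nat_lit 586) (nat_lit 545) (nat_lit 429)) (XT.lf (nat_lit 0) (nat_lit 4071576242) (nat_lit 836) (nat_lit 3668011906) (nat_lit 912) (nat_lit 3135104087) (nat_lit 377) (nat_lit 5) (nat_lit 388) (nat_lit 5) (nat_lit 389) (nat_lit 5) (nat_lit 587) (nat_lit 545) (nat_lit 428))))) (XT.nd (nat_lit 312) (nat_lit 2204) (nat_lit 0) (XT.nd (nat_lit 156) (nat_lit 760) (nat_lit 0) (XT.nd (nat_lit 78) (nat_lit 836) (nat_lit 0) (XT.lf (nat_lit 0) (nat_lit 9861866001) (nat_lit 912) (nat_lit 374106468) (nat_lit 76) (nat_lit 749918342) (nat_lit 377) (nat_lit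 5) (nat_lit 389) (nat_lit 5) (nat_lit 378) (nat_lit 5) (nat_lit 588) (nat_lit 545) (nat_lit 427)) (XT.lf (nat_lit 0) (nat_lit 961833933) (nat_lit 836) (nat_lit 4883658022) (nat_lit 76) (nat_lit 5252767616) (nat_lit 366) (nat_lit 5) (nat_lit 377) (nat_lit 5) (nat_lit 367) (nat_lit 5) (nat_lit 589) (nat_lit 545) (nat_lit 426))) (XT.nd (nat_lit 78) (nat_lit 0) (nat_lit 0) (XT.lf (nat_lit 0) (nat_lit 1722622730) (nat_lit 760) (nat_lit 1347302755) (nat_lit 836) (nat_lit 8142891284) (nat_lit 356) (nat_lit 5) (nat_lit 366) (nat_lit 5) (nat_lit 367) (nat_lit 5) (nat_lit 590) (nat_lit 545) (nat_lit 425)) (XT.lf (nat_lit 0) (nat_lit 5256266905) (nat_lit 836) (nat_lit 2843096242) (nat_lit 76) (nat_lit 3229581171) (nat_lit 356) (nat_lit 5) (nat_lit 367) (nat_lit 5) (nat_lit 357) (nat_lit 5) (nat_lit 591) (nat_lit 545) (nat_lit 424)))) (XT.nd (nat_lit 156) (nat_lit 1520) (nat_lit 0) (XT.nd (nat_lit 78) (nat_lit 0) (nat_lit 0) (XT.lf (nat_lit 0) (nat_lit 3960298100) (nat_lit 684) (nat_lit 3543081624) (nat_lit 760) (nat_lit 3943674750) (nat_lit 347) (nat_lit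 5) (nat_lit 356) (nat_lit 5) (nat_lit 357) (nat_lit 5) (nat_lit 592) (nat_lit 545) (nat_lit 423)) (XT.lf (nat_lit 0) (nat_lit 9804423055) (nat_lit 760) (nat_lit 656010266) (nat_lit 76) (nat_lit 1106914677) (nat_lit 347) (nat_lit 5) (nat_lit 357) (nat_lit 5) (nat_lit 348) (nat_lit 5) (nat_lit 593) (nat_lit 545) (nat_lit 422))) (XT.nd (nat_lit 78) (nat_lit 684) (nat_lit 0) (XT.lf (nat_lit 0) (nat_lit 503360489) (nat_lit 836) (nat_lit 5340694561) (nat_lit 76) (nat_lit 5844973866) (nat_lit 336) (nat_lit 5) (nat_lit 347) (nat_lit 5) (nat_lit 337) (nat_lit 5) (nat_lit 594) (nat_lit 545) (nat_lit 421)) (XT.lf (nat_lit 0) (nat_lit 1679347335) (nat_lit 684) (nat_lit 1110425909) (nat_lit 760) (nat_lit 9023169882) (nat_lit 327) (nat_lit 5) (nat_lit 336) (nat_lit 5) (nat_lit 337) (nat_lit 5) (nat_lit 595) (nat_lit 545) (nat_lit 420))))))))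
noncomputable def xc64 : XT := (XT.nd (nat_lit 79326) (nat_lit 0) (nat_lit 0) (XT.nd (nat_lit 78156) (nat_lit 0) (nat_lit 16188) (XT.nd (nat_lit 77610) (nat_lit 0) (nat_lit 20444) (XT.nd (nat_lit 77298) (nat_lit 0) (nat_lit 21736) (XT.nd (nat_lit 78) (nat_lit 684) (nat_lit 0) (XT.lf (nat_lit 0) (nat_lit 5165368259) (nat_lit 760) (nat_lit 3070576201) (nat_lit 76) (nat_lit 3702522939) (nat_lit 327) (nat_lit 5) (nat_lit 337) (nat_lit 5) (nat_lit 328) (nat_lit 5) (nat_lit 596) (nat_lit 545) (nat_lit 419)) (XT.nd (nat_lit 78) (nat_lit 0) (nat_lit 0) (XT.lf (nat_lit 0) (nat_lit 4161551333) (nat_lit 684) (nat_lit 3444864727) (nat_lit 760) (nat_lit 4459728122) (nat_lit 318) (nat_lit 5) (nat_lit 327) (nat_lit 5) (nat_lit 328) (nat_lit 5) (nat_lit 597) (nat_lit 545) (nat_lit 418)) (XT.lf (nat_lit 0) (nat_lit 10110134279) (nat_lit 760) (nat_lit 645074217) (nat_lit 76) (nat_lit 1440889841) (nat_lit 318) (nat_lit 5) (nat_lit 328) (nat_lit 5) (nat_lit 319) (nat_lit 5) (nat_lit 598) (nat_lit 545) (nat_lit 417)))) (XT.nd (nat_lit 156) (nat_lit 1368) (nat_lit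 0) (XT.nd (nat_lit 78) (nat_lit 0) (nat_lit 0) (XT.lf (nat_lit 0) (nat_lit 1404833042) (nat_lit 0) (nat_lit 1404833042) (nat_lit 1292) (nat_lit 1054619023) (nat_lit 622) (nat_lit 5) (nat_lit 622) (nat_lit 3) (nat_lit 639) (nat_lit 3) (nat_lit 546) (nat_lit 546) (nat_lit 468)) (XT.lf (nat_lit 0) (nat_lit 6705928434) (nat_lit 0) (nat_lit 302485837) (nat_lit 1292) (nat_lit 770684634) (nat_lit 622) (nat_lit 5) (nat_lit 622) (nat_lit 3) (nat_lit 639) (nat_lit 3) (nat_lit 547) (nat_lit 546) (nat_lit 467))) (XT.nd (nat_lit 78) (nat_lit 0) (nat_lit 0) (XT.lf (nat_lit 0) (nat_lit 585148479) (nat_lit 1368) (nat_lit 4980552120) (nat_lit 1444) (nat_lit 2264896757) (nat_lit 604) (nat_lit 5) (nat_lit 622) (nat_lit 5) (nat_lit 623) (nat_lit 5) (nat_lit 548) (nat_lit 546) (nat_lit 466)) (XT.lf (nat_lit 0) (nat_lit 1932527964) (nat_lit 1368) (nat_lit 1042501369) (nat_lit 1444) (nat_lit 4908502076) (nat_lit 604) (nat_lit 5) (nat_lit 622) (nat_lit 5) (nat_lit 623) (nat_lit 5) (nat_lit 549) (nat_lit 546) (nat_lit 465))))) (XT.nd (nat_lit 234) (nat_lit 1292)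 (nat_lit 0) (XT.nd (nat_lit 78) (nat_lit 0) (nat_lit 76) (XT.lf (nat_lit 76) (nat_lit 2995322819) (nat_lit 0) (nat_lit 297143648) (nat_lit 1444) (nat_lit 4645347900) (nat_lit 605) (nat_lit 5) (nat_lit 604) (nat_lit 5) (nat_lit 623) (nat_lit 5) (nat_lit 550) (nat_lit 546) (nat_lit 464)) (XT.nd (nat_lit 78) (nat_lit 0) (nat_lit 0) (XT.lf (nat_lit 0) (nat_lit 4669258593) (nat_lit 1368) (nat_lit 899777691) (nat_lit 1444) (nat_lit 2424356009) (nat_lit 605) (nat_lit 5) (nat_lit 623) (nat_lit 5) (nat_lit 624) (nat_lit 5) (nat_lit 551) (nat_lit 546) (nat_lit 463)) (XT.lf (nat_lit 76) (nat_lit 3245845317) (nat_lit 0) (nat_lit 2818241793) (nat_lit 1444) (nat_lit 1986187012) (nat_lit 606) (nat_lit 5) (nat_lit 605) (nat_lit 5) (nat_lit 624) (nat_lit 5) (nat_lit 552) (nat_lit 546) (nat_lit 462)))) (XT.nd (nat_lit 156) (nat_lit 0) (nat_lit 0) (XT.nd (nat_lit 78) (nat_lit 1444) (nat_lit 0) (XT.lf (nat_lit 0) (nat_lit 7460874712) (nat_lit 1368) (nat_lit 640710765) (nat_lit 1444) (nat_lit 7229174) (nat_lit 606) (nat_lit 5) (nat_lit 624) (nat_lit 5) (nat_lit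 625) (nat_lit 5) (nat_lit 553) (nat_lit 546) (nat_lit 461)) (XT.lf (nat_lit 0) (nat_lit 718571534) (nat_lit 1444) (nat_lit 4556773819) (nat_lit 1520) (nat_lit 2892871664) (nat_lit 587) (nat_lit 5) (nat_lit 606) (nat_lit 5) (nat_lit 607) (nat_lit 5) (nat_lit 554) (nat_lit 546) (nat_lit 460))) (XT.nd (nat_lit 78) (nat_lit 0) (nat_lit 76) (XT.lf (nat_lit 0) (nat_lit 2077051330) (nat_lit 1444) (nat_lit 294787110) (nat_lit 1520) (nat_lit 5857419231) (nat_lit 587) (nat_lit 5) (nat_lit 606) (nat_lit 5) (nat_lit 607) (nat_lit 5) (nat_lit 555) (nat_lit 546) (nat_lit 459)) (XT.lf (nat_lit 0) (nat_lit 3462905482) (nat_lit 1444) (nat_lit 4208331446) (nat_lit 1520) (nat_lit 620280250) (nat_lit 588) (nat_lit 5) (nat_lit 607) (nat_lit 5) (nat_lit 608) (nat_lit 5) (nat_lit 556) (nat_lit 546) (nat_lit 458)))))) (XT.nd (nat_lit 546) (nat_lit 2888) (nat_lit 0) (XT.nd (nat_lit 234) (nat_lit 1444) (nat_lit 0) (XT.nd (nat_lit 78) (nat_lit 0) (nat_lit 0) (XT.lf (nat_lit 76) (nat_lit 164924894) (nat_lit 0) (nat_lit 4700457167) (nat_lit 1520) (nat_lit 3489863802)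 (nat_lit 589) (nat_lit 5) (nat_lit 588) (nat_lit 5) (nat_lit 608) (nat_lit 5) (nat_lit 557) (nat_lit 546) (nat_lit 457)) (XT.nd (nat_lit 78) (nat_lit 0) (nat_lit 76) (XT.lf (nat_lit 76) (nat_lit 4663568918) (nat_lit 0) (nat_lit 1631176515) (nat_lit 1520) (nat_lit 2125528995) (nat_lit 589) (nat_lit 5) (nat_lit 588) (nat_lit 5) (nat_lit 608) (nat_lit 5) (nat_lit 558) (nat_lit 546) (nat_lit 456)) (XT.lf (nat_lit 76) (nat_lit 746242165) (nat_lit 0) (nat_lit 6992273797) (nat_lit 1520) (nat_lit 748373217) (nat_lit 590) (nat_lit 5) (nat_lit 589) (nat_lit 5) (nat_lit 609) (nat_lit 5) (nat_lit 559) (nat_lit 546) (nat_lit 455)))) (XT.nd (nat_lit 156) (nat_lit 0) (nat_lit 76) (XT.nd (nat_lit 78) (nat_lit 0) (nat_lit 0) (XT.lf (nat_lit 0) (nat_lit 655385224) (nat_lit 1520) (nat_lit 3199035626) (nat_lit 1596) (nat_lit 4700178735) (nat_lit 569) (nat_lit 5) (nat_lit 589) (nat_lit 5) (nat_lit 590) (nat_lit 5) (nat_lit 560) (nat_lit 546) (nat_lit 454)) (XT.lf (nat_lit 76) (nat_lit 1427919718) (nat_lit 0) (nat_lit 630606280) (nat_lit 1596) (nat_lit 6565414604)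 (nat_lit 570) (nat_lit 5) (nat_lit 569) (nat_lit 5) (nat_lit 590) (nat_lit 5) (nat_lit 561) (nat_lit 546) (nat_lit 453))) (XT.nd (nat_lit 78) (nat_lit 0) (nat_lit 0) (XT.lf (nat_lit 0) (nat_lit 3501120309) (nat_lit 1520) (nat_lit 2540598590) (nat_lit 1596) (nat_lit 2652723587) (nat_lit 570) (nat_lit 5) (nat_lit 590) (nat_lit 5) (nat_lit 591) (nat_lit 5) (nat_lit 562) (nat_lit 546) (nat_lit 452)) (XT.lf (nat_lit 76) (nat_lit 2213432759) (nat_lit 0) (nat_lit 2750745616) (nat_lit 1596) (nat_lit 3802345618) (nat_lit 571) (nat_lit 5) (nat_lit 570) (nat_lit 5) (nat_lit 591) (nat_lit 5) (nat_lit 563) (nat_lit 546) (nat_lit 451))))) (XT.nd (nat_lit 312) (nat_lit 1444) (nat_lit 0) (XT.nd (nat_lit 156) (nat_lit 1596) (nat_lit 0) (XT.nd (nat_lit 78) (nat_lit 0) (nat_lit 0) (XT.lf (nat_lit 0) (nat_lit 6451109479) (nat_lit 1520) (nat_lit 1766576008) (nat_lit 1596) (nat_lit 622471191) (nat_lit 571) (nat_lit 5) (nat_lit 591) (nat_lit 5) (nat_lit 592) (nat_lit 5) (nat_lit 564) (nat_lit 546) (nat_lit 450)) (XT.lf (nat_lit 76) (nat_lit 3118941170) (nat_lit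 0) (nat_lit 4861339790) (nat_lit 1596) (nat_lit 934732773) (nat_lit 572) (nat_lit 5) (nat_lit 571) (nat_lit 5) (nat_lit 592) (nat_lit 5) (nat_lit 565) (nat_lit 546) (nat_lit 449))) (XT.nd (nat_lit 78) (nat_lit 0) (nat_lit 76) (XT.lf (nat_lit 0) (nat_lit 527652666) (nat_lit 1596) (nat_lit 888289712) (nat_lit 1672) (nat_lit 7575632378) (nat_lit 550) (nat_lit 5) (nat_lit 571) (nat_lit 5) (nat_lit 572) (nat_lit 5) (nat_lit 566) (nat_lit 546) (nat_lit 448)) (XT.lf (nat_lit 0) (nat_lit 2022338477) (nat_lit 1596) (nat_lit 4936799900) (nat_lit 1672) (nat_lit 2110095325) (nat_lit 551) (nat_lit 5) (nat_lit 572) (nat_lit 5) (nat_lit 573) (nat_lit 5) (nat_lit 567) (nat_lit 546) (nat_lit 447)))) (XT.nd (nat_lit 156) (nat_lit 1520) (nat_lit 0) (XT.nd (nat_lit 78) (nat_lit 0) (nat_lit 76) (XT.lf (nat_lit 76) (nat_lit 89383815) (nat_lit 0) (nat_lit 3448652658) (nat_lit 1672) (nat_lit 5610588604) (nat_lit 552) (nat_lit 5) (nat_lit 551) (nat_lit 5) (nat_lit 573) (nat_lit 5) (nat_lit 568) (nat_lit 546) (nat_lit 446)) (XT.lf (nat_lit 0) (nat_lit 5093806713)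 (nat_lit 1596) (nat_lit 3967059633) (nat_lit 76) (nat_lit 168544354) (nat_lit 552) (nat_lit 5) (nat_lit 573) (nat_lit 5) (nat_lit 553) (nat_lit 5) (nat_lit 569) (nat_lit 546) (nat_lit 445))) (XT.nd (nat_lit 78) (nat_lit 0) (nat_lit 0) (XT.lf (nat_lit 0) (nat_lit 1200208954) (nat_lit 1596) (nat_lit 5487147120) (nat_lit 1672) (nat_lit 2624324243) (nat_lit 531) (nat_lit 5) (nat_lit 552) (nat_lit 5) (nat_lit 553) (nat_lit 5) (nat_lit 570) (nat_lit 546) (nat_lit 444)) (XT.lf (nat_lit 0) (nat_lit 6505067915) (nat_lit 1596) (nat_lit 1810705126) (nat_lit 1672) (nat_lit 1079763878) (nat_lit 531) (nat_lit 5) (nat_lit 552) (nat_lit 5) (nat_lit 553) (nat_lit 5) (nat_lit 571) (nat_lit 546) (nat_lit 443))))))) (XT.nd (nat_lit 1170) (nat_lit 5320) (nat_lit 0) (XT.nd (nat_lit 546) (nat_lit 4408) (nat_lit 0) (XT.nd (nat_lit 234) (nat_lit 2964) (nat_lit 0) (XT.nd (nat_lit 78) (nat_lit 1748) (nat_lit 0) (XT.lf (nat_lit 0) (nat_lit 494483290) (nat_lit 1748) (nat_lit 7049564100) (nat_lit 76) (nat_lit 1936854429) (nat_lit 508) (nat_lit 5) (nat_lit 531) (nat_lit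 5) (nat_lit 509) (nat_lit 5) (nat_lit 572) (nat_lit 546) (nat_lit 442)) (XT.nd (nat_lit 78) (nat_lit 1748) (nat_lit 0) (XT.lf (nat_lit 0) (nat_lit 2094326653) (nat_lit 1748) (nat_lit 1707909840) (nat_lit 76) (nat_lit 5765424832) (nat_lit 508) (nat_lit 5) (nat_lit 531) (nat_lit 5) (nat_lit 509) (nat_lit 5) (nat_lit 573) (nat_lit 546) (nat_lit 441)) (XT.lf (nat_lit 0) (nat_lit 3728413392) (nat_lit 1824) (nat_lit 5885790326) (nat_lit 76) (nat_lit 41908781) (nat_lit 485) (nat_lit 5) (nat_lit 509) (nat_lit 5) (nat_lit 486) (nat_lit 5) (nat_lit 574) (nat_lit 546) (nat_lit 440)))) (XT.nd (nat_lit 156) (nat_lit 1140) (nat_lit 0) (XT.nd (nat_lit 78) (nat_lit 1824) (nat_lit 0) (XT.lf (nat_lit 0) (nat_lit 5409723534) (nat_lit 1824) (nat_lit 409852267) (nat_lit 76) (nat_lit 3926467443) (nat_lit 485) (nat_lit 5) (nat_lit 509) (nat_lit 5) (nat_lit 486) (nat_lit 5) (nat_lit 575) (nat_lit 546) (nat_lit 439)) (XT.lf (nat_lit 0) (nat_lit 5224753120) (nat_lit 1824) (nat_lit 1912088559) (nat_lit 1900) (nat_lit 2700688643) (nat_lit 461) (nat_lit 5) (nat_lit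 485) (nat_lit 5) (nat_lit 486) (nat_lit 5) (nat_lit 576) (nat_lit 546) (nat_lit 438))) (XT.nd (nat_lit 78) (nat_lit 76) (nat_lit 0) (XT.lf (nat_lit 0) (nat_lit 1027111935) (nat_lit 1064) (nat_lit 7872865123) (nat_lit 1140) (nat_lit 1030841915) (nat_lit 447) (nat_lit 5) (nat_lit 461) (nat_lit 5) (nat_lit 462) (nat_lit 5) (nat_lit 577) (nat_lit 546) (nat_lit 437)) (XT.lf (nat_lit 0) (nat_lit 686131721) (nat_lit 1140) (nat_lit 3220107885) (nat_lit 76) (nat_lit 6119196779) (nat_lit 446) (nat_lit 5) (nat_lit 461) (nat_lit 5) (nat_lit 447) (nat_lit 5) (nat_lit 578) (nat_lit 546) (nat_lit 436))))) (XT.nd (nat_lit 312) (nat_lit 2584) (nat_lit 0) (XT.nd (nat_lit 156) (nat_lit 912) (nat_lit 0) (XT.nd (nat_lit 78) (nat_lit 0) (nat_lit 0) (XT.lf (nat_lit 0) (nat_lit 2420653209) (nat_lit 988) (nat_lit 7538185779) (nat_lit 76) (nat_lit 163031904) (nat_lit 434) (nat_lit 5) (nat_lit 447) (nat_lit 5) (nat_lit 435) (nat_lit 5) (nat_lit 579) (nat_lit 546) (nat_lit 435)) (XT.lf (nat_lit 0) (nat_lit 4216921281) (nat_lit 988) (nat_lit 1718360706) (nat_lit 76)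 (nat_lit 4284412206) (nat_lit 434) (nat_lit 5) (nat_lit 447) (nat_lit 5) (nat_lit 435) (nat_lit 5) (nat_lit 580) (nat_lit 546) (nat_lit 434))) (XT.nd (nat_lit 78) (nat_lit 0) (nat_lit 0) (XT.lf (nat_lit 0) (nat_lit 4254294020) (nat_lit 912) (nat_lit 1802280915) (nat_lit 988) (nat_lit 4262751024) (nat_lit 422) (nat_lit 5) (nat_lit 434) (nat_lit 5) (nat_lit 435) (nat_lit 5) (nat_lit 581) (nat_lit 546) (nat_lit 433)) (XT.lf (nat_lit 0) (nat_lit 7940411613) (nat_lit 988) (nat_lit 86409243) (nat_lit 76) (nat_lit 2393982883) (nat_lit 422) (nat_lit 5) (nat_lit 435) (nat_lit 5) (nat_lit 423) (nat_lit 5) (nat_lit 582) (nat_lit 546) (nat_lit 432)))) (XT.nd (nat_lit 156) (nat_lit 836) (nat_lit 0) (XT.nd (nat_lit 78) (nat_lit 912) (nat_lit 0) (XT.lf (nat_lit 0) (nat_lit 6060075775) (nat_lit 836) (nat_lit 3833634069) (nat_lit 912) (nat_lit 629966691) (nat_lit 411) (nat_lit 5) (nat_lit 422) (nat_lit 5) (nat_lit 423) (nat_lit 5) (nat_lit 583) (nat_lit 546) (nat_lit 431)) (XT.lf (nat_lit 0) (nat_lit 1236218029) (nat_lit 912) (nat_lit 8934843132) (nat_lit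 76) (nat_lit 457478595) (nat_lit 399) (nat_lit 5) (nat_lit 411) (nat_lit 5) (nat_lit 400) (nat_lit 5) (nat_lit 584) (nat_lit 546) (nat_lit 430))) (XT.nd (nat_lit 78) (nat_lit 836) (nat_lit 0) (XT.lf (nat_lit 0) (nat_lit 3167725362) (nat_lit 912) (nat_lit 2749654740) (nat_lit 76) (nat_lit 4817309265) (nat_lit 399) (nat_lit 5) (nat_lit 411) (nat_lit 5) (nat_lit 400) (nat_lit 5) (nat_lit 585) (nat_lit 546) (nat_lit 429)) (XT.lf (nat_lit 0) (nat_lit 3587026856) (nat_lit 836) (nat_lit 1555386624) (nat_lit 912) (nat_lit 5700458546) (nat_lit 388) (nat_lit 5) (nat_lit 399) (nat_lit 5) (nat_lit 400) (nat_lit 5) (nat_lit 586) (nat_lit 546) (nat_lit 428)))))) (XT.nd (nat_lit 546) (nat_lit 2204) (nat_lit 0) (XT.nd (nat_lit 234) (nat_lit 1444) (nat_lit 0) (XT.nd (nat_lit 78) (nat_lit 1672) (nat_lit 0) (XT.lf (nat_lit 0) (nat_lit 7175458362) (nat_lit 912) (nat_lit 903541129) (nat_lit 76) (nat_lit 2873842633) (nat_lit 388) (nat_lit 5) (nat_lit 400) (nat_lit 5) (nat_lit 389) (nat_lit 5) (nat_lit 587) (nat_lit 546) (nat_lit 427)) (XT.nd (nat_lit 78) (nat_lit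 836) (nat_lit 0) (XT.lf (nat_lit 0) (nat_lit 5620104121) (nat_lit 836) (nat_lit 3657713178) (nat_lit 912) (nat_lit 1786622288) (nat_lit 377) (nat_lit 5) (nat_lit 388) (nat_lit 5) (nat_lit 389) (nat_lit 5) (nat_lit 588) (nat_lit 546) (nat_lit 426)) (XT.lf (nat_lit 0) (nat_lit 241610847) (nat_lit 836) (nat_lit 10082033478) (nat_lit 76) (nat_lit 854576864) (nat_lit 366) (nat_lit 5) (nat_lit 377) (nat_lit 5) (nat_lit 367) (nat_lit 5) (nat_lit 589) (nat_lit 546) (nat_lit 425)))) (XT.nd (nat_lit 156) (nat_lit 684) (nat_lit 0) (XT.nd (nat_lit 78) (nat_lit 760) (nat_lit 0) (XT.lf (nat_lit 0) (nat_lit 2329704542) (nat_lit 836) (nat_lit 3507973760) (nat_lit 76) (nat_lit 5455500521) (nat_lit 366) (nat_lit 5) (nat_lit 377) (nat_lit 5) (nat_lit 367) (nat_lit 5) (nat_lit 590) (nat_lit 546) (nat_lit 424)) (XT.lf (nat_lit 0) (nat_lit 3220739467) (nat_lit 760) (nat_lit 1242277735) (nat_lit 836) (nat_lit 6947350214) (nat_lit 356) (nat_lit 5) (nat_lit 366) (nat_lit 5) (nat_lit 367) (nat_lit 5) (nat_lit 591) (nat_lit 546) (nat_lit 423))) (XT.nd (nat_lit 78)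 (nat_lit 684) (nat_lit 0) (XT.lf (nat_lit 0) (nat_lit 6667813862) (nat_lit 836) (nat_lit 1439651180) (nat_lit 76) (nat_lit 3421859314) (nat_lit 356) (nat_lit 5) (nat_lit 367) (nat_lit 5) (nat_lit 357) (nat_lit 5) (nat_lit 592) (nat_lit 546) (nat_lit 422)) (XT.lf (nat_lit 0) (nat_lit 5490203766) (nat_lit 684) (nat_lit 3453467966) (nat_lit 760) (nat_lit 2706450308) (nat_lit 347) (nat_lit 5) (nat_lit 356) (nat_lit 5) (nat_lit 357) (nat_lit 5) (nat_lit 593) (nat_lit 546) (nat_lit 421))))) (XT.nd (nat_lit 312) (nat_lit 684) (nat_lit 0) (XT.nd (nat_lit 156) (nat_lit 684) (nat_lit 0) (XT.nd (nat_lit 78) (nat_lit 76) (nat_lit 0) (XT.lf (nat_lit 0) (nat_lit 787801008) (nat_lit 760) (nat_lit 10483772812) (nat_lit 836) (nat_lit 501632210) (nat_lit 337) (nat_lit 5) (nat_lit 347) (nat_lit 5) (nat_lit 348) (nat_lit 5) (nat_lit 594) (nat_lit 546) (nat_lit 420)) (XT.lf (nat_lit 0) (nat_lit 1772229715) (nat_lit 836) (nat_lit 3993632355) (nat_lit 76) (nat_lit 6131706330) (nat_lit 336) (nat_lit 5) (nat_lit 347) (nat_lit 5) (nat_lit 337) (nat_lit 5) (nat_lit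 595) (nat_lit 546) (nat_lit 419))) (XT.nd (nat_lit 78) (nat_lit 0) (nat_lit 0) (XT.lf (nat_lit 0) (nat_lit 3157245404) (nat_lit 684) (nat_lit 931820355) (nat_lit 760) (nat_lit 7935202511) (nat_lit 327) (nat_lit 5) (nat_lit 336) (nat_lit 5) (nat_lit 337) (nat_lit 5) (nat_lit 596) (nat_lit 546) (nat_lit 418)) (XT.lf (nat_lit 0) (nat_lit 6489068632) (nat_lit 760) (nat_lit 1692829860) (nat_lit 76) (nat_lit 3970867868) (nat_lit 327) (nat_lit 5) (nat_lit 337) (nat_lit 5) (nat_lit 328) (nat_lit 5) (nat_lit 597) (nat_lit 546) (nat_lit 417)))) (XT.nd (nat_lit 77298) (nat_lit 0) (nat_lit 21660) (XT.nd (nat_lit 77220) (nat_lit 0) (nat_lit 21660) (XT.lf (nat_lit 0) (nat_lit 5674472081) (nat_lit 684) (nat_lit 3289818527) (nat_lit 760) (nat_lit 3319000232) (nat_lit 318) (nat_lit 5) (nat_lit 327) (nat_lit 5) (nat_lit 328) (nat_lit 5) (nat_lit 598) (nat_lit 546) (nat_lit 416)) (XT.lf (nat_lit 0) (nat_lit 271498593) (nat_lit 1444) (nat_lit 1821726602) (nat_lit 1444) (nat_lit 1821726602) (nat_lit 603) (nat_lit 3) (nat_lit 622) (nat_lit 3) (nat_lit 622) (nat_lit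 5) (nat_lit 547) (nat_lit 547) (nat_lit 466))) (XT.nd (nat_lit 78) (nat_lit 0) (nat_lit 76) (XT.lf (nat_lit 76) (nat_lit 246904804) (nat_lit 0) (nat_lit 1592834952) (nat_lit 1444) (nat_lit 6042543111) (nat_lit 604) (nat_lit 5) (nat_lit 603) (nat_lit 3) (nat_lit 622) (nat_lit 5) (nat_lit 548) (nat_lit 547) (nat_lit 465)) (XT.lf (nat_lit 0) (nat_lit 3160026909) (nat_lit 1368) (nat_lit 3696031004) (nat_lit 1444) (nat_lit 1079702067) (nat_lit 604) (nat_lit 5) (nat_lit 622) (nat_lit 5) (nat_lit 623) (nat_lit 5) (nat_lit 549) (nat_lit 547) (nat_lit 464))))))))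
noncomputable def xc65 : XT := (XT.nd (nat_lit 2340) (nat_lit 9044) (nat_lit 0) (XT.nd (nat_lit 1170) (nat_lit 9272) (nat_lit 0) (XT.nd (nat_lit 546) (nat_lit 1368) (nat_lit 0) (XT.nd (nat_lit 234) (nat_lit 1368) (nat_lit 0) (XT.nd (nat_lit 78) (nat_lit 0) (nat_lit 0) (XT.lf (nat_lit 76) (nat_lit 297543248) (nat_lit 0) (nat_lit 4188484241) (nat_lit 1444) (nat_lit 3504695399) (nat_lit 605) (nat_lit 5) (nat_lit 604) (nat_lit 5) (nat_lit 623) (nat_lit 5) (nat_lit 550) (nat_lit 547) (nat_lit 463)) (XT.nd (nat_lit 78) (nat_lit 0) (nat_lit 76) (XT.lf (nat_lit 76) (nat_lit 4403294006) (nat_lit 0) (nat_lit 1427418553) (nat_lit 1444) (nat_lit 2216231561) (nat_lit 605) (nat_lit 5) (nat_lit 604) (nat_lit 5) (nat_lit 623) (nat_lit 5) (nat_lit 551) (nat_lit 547) (nat_lit 462)) (XT.lf (nat_lit 76) (nat_lit 465777841) (nat_lit 0) (nat_lit 6716651683) (nat_lit 1444) (nat_lit 922259802) (nat_lit 606) (nat_lit 5) (nat_lit 605) (nat_lit 5) (nat_lit 624) (nat_lit 5) (nat_lit 552) (nat_lit 547) (nat_lit 461)))) (XT.nd (nat_lit 156) (nat_lit 0) (nat_lit 76) (XT.nd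 (nat_lit 78) (nat_lit 0) (nat_lit 0) (XT.lf (nat_lit 0) (nat_lit 394837470) (nat_lit 1444) (nat_lit 3486997957) (nat_lit 1520) (nat_lit 4281655392) (nat_lit 586) (nat_lit 5) (nat_lit 605) (nat_lit 5) (nat_lit 606) (nat_lit 5) (nat_lit 553) (nat_lit 547) (nat_lit 460)) (XT.lf (nat_lit 76) (nat_lit 733340451) (nat_lit 0) (nat_lit 966374487) (nat_lit 1520) (nat_lit 6524157911) (nat_lit 587) (nat_lit 5) (nat_lit 586) (nat_lit 5) (nat_lit 606) (nat_lit 5) (nat_lit 554) (nat_lit 547) (nat_lit 459))) (XT.nd (nat_lit 78) (nat_lit 0) (nat_lit 0) (XT.lf (nat_lit 0) (nat_lit 3036864051) (nat_lit 1444) (nat_lit 3231527533) (nat_lit 1520) (nat_lit 2016949591) (nat_lit 587) (nat_lit 5) (nat_lit 606) (nat_lit 5) (nat_lit 607) (nat_lit 5) (nat_lit 555) (nat_lit 547) (nat_lit 458)) (XT.lf (nat_lit 76) (nat_lit 1102384692) (nat_lit 0) (nat_lit 3282111240) (nat_lit 1520) (nat_lit 3963870232) (nat_lit 588) (nat_lit 5) (nat_lit 587) (nat_lit 5) (nat_lit 607) (nat_lit 5) (nat_lit 556) (nat_lit 547) (nat_lit 457))))) (XT.nd (nat_lit 312) (nat_lit 0) (nat_lit 76)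 (XT.nd (nat_lit 156) (nat_lit 1444) (nat_lit 0) (XT.nd (nat_lit 78) (nat_lit 0) (nat_lit 76) (XT.lf (nat_lit 76) (nat_lit 5548569085) (nat_lit 0) (nat_lit 202845582) (nat_lit 1520) (nat_lit 2661392354) (nat_lit 588) (nat_lit 5) (nat_lit 587) (nat_lit 5) (nat_lit 607) (nat_lit 5) (nat_lit 557) (nat_lit 547) (nat_lit 456)) (XT.lf (nat_lit 76) (nat_lit 1588395426) (nat_lit 0) (nat_lit 5557960139) (nat_lit 1520) (nat_lit 1332169467) (nat_lit 589) (nat_lit 5) (nat_lit 588) (nat_lit 5) (nat_lit 608) (nat_lit 5) (nat_lit 558) (nat_lit 547) (nat_lit 455))) (XT.nd (nat_lit 78) (nat_lit 0) (nat_lit 76) (XT.lf (nat_lit 0) (nat_lit 15568828) (nat_lit 1520) (nat_lit 2396650103) (nat_lit 1596) (nat_lit 6133492517) (nat_lit 568) (nat_lit 5) (nat_lit 588) (nat_lit 5) (nat_lit 589) (nat_lit 5) (nat_lit 559) (nat_lit 547) (nat_lit 454)) (XT.lf (nat_lit 0) (nat_lit 1364140775) (nat_lit 1520) (nat_lit 6431542967) (nat_lit 1596) (nat_lit 818549301) (nat_lit 569) (nat_lit 5) (nat_lit 589) (nat_lit 5) (nat_lit 590) (nat_lit 5) (nat_lit 560) (nat_lit 547) (nat_lit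 453)))) (XT.nd (nat_lit 156) (nat_lit 0) (nat_lit 76) (XT.nd (nat_lit 78) (nat_lit 0) (nat_lit 0) (XT.lf (nat_lit 0) (nat_lit 2744444014) (nat_lit 1520) (nat_lit 1832662541) (nat_lit 1596) (nat_lit 4106925177) (nat_lit 569) (nat_lit 5) (nat_lit 589) (nat_lit 5) (nat_lit 590) (nat_lit 5) (nat_lit 561) (nat_lit 547) (nat_lit 452)) (XT.lf (nat_lit 76) (nat_lit 2877421688) (nat_lit 0) (nat_lit 1266746701) (nat_lit 1596) (nat_lit 4611223527) (nat_lit 570) (nat_lit 5) (nat_lit 569) (nat_lit 5) (nat_lit 590) (nat_lit 5) (nat_lit 562) (nat_lit 547) (nat_lit 451))) (XT.nd (nat_lit 78) (nat_lit 0) (nat_lit 0) (XT.lf (nat_lit 0) (nat_lit 5571557922) (nat_lit 1520) (nat_lit 1154136607) (nat_lit 1596) (nat_lit 2102493148) (nat_lit 570) (nat_lit 5) (nat_lit 590) (nat_lit 5) (nat_lit 591) (nat_lit 5) (nat_lit 563) (nat_lit 547) (nat_lit 450)) (XT.lf (nat_lit 76) (nat_lit 3685519619) (nat_lit 0) (nat_lit 3348404045) (nat_lit 1596) (nat_lit 1868388872) (nat_lit 571) (nat_lit 5) (nat_lit 570) (nat_lit 5) (nat_lit 591) (nat_lit 5) (nat_lit 564) (nat_lit 547)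 (nat_lit 449)))))) (XT.nd (nat_lit 546) (nat_lit 6460) (nat_lit 0) (XT.nd (nat_lit 234) (nat_lit 1444) (nat_lit 0) (XT.nd (nat_lit 78) (nat_lit 1596) (nat_lit 0) (XT.lf (nat_lit 0) (nat_lit 8508502767) (nat_lit 1520) (nat_lit 359865036) (nat_lit 1596) (nat_lit 109894488) (nat_lit 571) (nat_lit 5) (nat_lit 591) (nat_lit 5) (nat_lit 592) (nat_lit 5) (nat_lit 565) (nat_lit 547) (nat_lit 448)) (XT.nd (nat_lit 78) (nat_lit 0) (nat_lit 0) (XT.lf (nat_lit 0) (nat_lit 971645679) (nat_lit 1596) (nat_lit 4447706282) (nat_lit 1672) (nat_lit 3635709431) (nat_lit 550) (nat_lit 5) (nat_lit 571) (nat_lit 5) (nat_lit 572) (nat_lit 5) (nat_lit 566) (nat_lit 547) (nat_lit 447)) (XT.lf (nat_lit 76) (nat_lit 530408196) (nat_lit 0) (nat_lit 1886308673) (nat_lit 1672) (nat_lit 6716996563) (nat_lit 551) (nat_lit 5) (nat_lit 550) (nat_lit 5) (nat_lit 572) (nat_lit 5) (nat_lit 567) (nat_lit 547) (nat_lit 446)))) (XT.nd (nat_lit 156) (nat_lit 1520) (nat_lit 0) (XT.nd (nat_lit 78) (nat_lit 0) (nat_lit 0) (XT.lf (nat_lit 0) (nat_lit 3907531769) (nat_lit 1596) (nat_lit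 3575587537) (nat_lit 1672) (nat_lit 1730483949) (nat_lit 551) (nat_lit 5) (nat_lit 572) (nat_lit 5) (nat_lit 573) (nat_lit 5) (nat_lit 568) (nat_lit 547) (nat_lit 445)) (XT.lf (nat_lit 76) (nat_lit 1541514929) (nat_lit 0) (nat_lit 3885273887) (nat_lit 1672) (nat_lit 3868331096) (nat_lit 552) (nat_lit 5) (nat_lit 551) (nat_lit 5) (nat_lit 573) (nat_lit 5) (nat_lit 569) (nat_lit 547) (nat_lit 444))) (XT.nd (nat_lit 78) (nat_lit 1520) (nat_lit 0) (XT.lf (nat_lit 76) (nat_lit 6790657062) (nat_lit 0) (nat_lit 186239482) (nat_lit 1672) (nat_lit 2401362572) (nat_lit 552) (nat_lit 5) (nat_lit 551) (nat_lit 5) (nat_lit 573) (nat_lit 5) (nat_lit 570) (nat_lit 547) (nat_lit 443)) (XT.lf (nat_lit 0) (nat_lit 2674615779) (nat_lit 1596) (nat_lit 5901006851) (nat_lit 1672) (nat_lit 887087646) (nat_lit 531) (nat_lit 5) (nat_lit 552) (nat_lit 5) (nat_lit 553) (nat_lit 5) (nat_lit 571) (nat_lit 547) (nat_lit 442))))) (XT.nd (nat_lit 312) (nat_lit 2964) (nat_lit 0) (XT.nd (nat_lit 156) (nat_lit 1748) (nat_lit 0) (XT.nd (nat_lit 78) (nat_lit 1672) (nat_lit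 0) (XT.lf (nat_lit 0) (nat_lit 644703545) (nat_lit 1672) (nat_lit 1496043097) (nat_lit 76) (nat_lit 7408102806) (nat_lit 530) (nat_lit 5) (nat_lit 552) (nat_lit 5) (nat_lit 531) (nat_lit 5) (nat_lit 572) (nat_lit 547) (nat_lit 441)) (XT.lf (nat_lit 0) (nat_lit 2209596395) (nat_lit 1748) (nat_lit 5718969383) (nat_lit 76) (nat_lit 1707742882) (nat_lit 508) (nat_lit 5) (nat_lit 531) (nat_lit 5) (nat_lit 509) (nat_lit 5) (nat_lit 573) (nat_lit 547) (nat_lit 440))) (XT.nd (nat_lit 78) (nat_lit 1748) (nat_lit 0) (XT.lf (nat_lit 0) (nat_lit 3808000871) (nat_lit 1748) (nat_lit 299336665) (nat_lit 76) (nat_lit 5618136627) (nat_lit 508) (nat_lit 5) (nat_lit 531) (nat_lit 5) (nat_lit 509) (nat_lit 5) (nat_lit 574) (nat_lit 547) (nat_lit 439)) (XT.lf (nat_lit 0) (nat_lit 5279255189) (nat_lit 1748) (nat_lit 171758318) (nat_lit 1824) (nat_lit 4365158023) (nat_lit 485) (nat_lit 5) (nat_lit 508) (nat_lit 5) (nat_lit 509) (nat_lit 5) (nat_lit 575) (nat_lit 547) (nat_lit 438)))) (XT.nd (nat_lit 156) (nat_lit 1140) (nat_lit 0) (XT.nd (nat_lit 78) (nat_lit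 0) (nat_lit 0) (XT.lf (nat_lit 0) (nat_lit 1034444038) (nat_lit 1824) (nat_lit 6104814458) (nat_lit 1900) (nat_lit 2769178231) (nat_lit 461) (nat_lit 5) (nat_lit 485) (nat_lit 5) (nat_lit 486) (nat_lit 5) (nat_lit 576) (nat_lit 547) (nat_lit 437)) (XT.lf (nat_lit 0) (nat_lit 6758707992) (nat_lit 1824) (nat_lit 2113116418) (nat_lit 1900) (nat_lit 1130513001) (nat_lit 461) (nat_lit 5) (nat_lit 485) (nat_lit 5) (nat_lit 486) (nat_lit 5) (nat_lit 577) (nat_lit 547) (nat_lit 436))) (XT.nd (nat_lit 78) (nat_lit 0) (nat_lit 0) (XT.lf (nat_lit 0) (nat_lit 542242230) (nat_lit 1140) (nat_lit 7601024663) (nat_lit 76) (nat_lit 1954612006) (nat_lit 446) (nat_lit 5) (nat_lit 461) (nat_lit 5) (nat_lit 447) (nat_lit 5) (nat_lit 578) (nat_lit 547) (nat_lit 435)) (XT.lf (nat_lit 0) (nat_lit 2248786623) (nat_lit 1140) (nat_lit 1839480878) (nat_lit 76) (nat_lit 6106606055) (nat_lit 446) (nat_lit 5) (nat_lit 461) (nat_lit 5) (nat_lit 447) (nat_lit 5) (nat_lit 579) (nat_lit 547) (nat_lit 434))))))) (XT.nd (nat_lit 1170) (nat_lit 1520) (nat_lit 0) (XT.nd (nat_lit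 546) (nat_lit 3952) (nat_lit 0) (XT.nd (nat_lit 234) (nat_lit 1748) (nat_lit 0) (XT.nd (nat_lit 78) (nat_lit 912) (nat_lit 0) (XT.lf (nat_lit 0) (nat_lit 3996348028) (nat_lit 988) (nat_lit 6222178727) (nat_lit 76) (nat_lit 75144831) (nat_lit 434) (nat_lit 5) (nat_lit 447) (nat_lit 5) (nat_lit 435) (nat_lit 5) (nat_lit 580) (nat_lit 547) (nat_lit 433)) (XT.nd (nat_lit 78) (nat_lit 912) (nat_lit 0) (XT.lf (nat_lit 0) (nat_lit 5798594759) (nat_lit 988) (nat_lit 314717364) (nat_lit 76) (nat_lit 4280739949) (nat_lit 434) (nat_lit 5) (nat_lit 447) (nat_lit 5) (nat_lit 435) (nat_lit 5) (nat_lit 581) (nat_lit 547) (nat_lit 432)) (XT.lf (nat_lit 0) (nat_lit 5767929861) (nat_lit 912) (nat_lit 1887027208) (nat_lit 988) (nat_lit 2841122843) (nat_lit 422) (nat_lit 5) (nat_lit 434) (nat_lit 5) (nat_lit 435) (nat_lit 5) (nat_lit 582) (nat_lit 547) (nat_lit 431)))) (XT.nd (nat_lit 156) (nat_lit 836) (nat_lit 0) (XT.nd (nat_lit 78) (nat_lit 76) (nat_lit 0) (XT.lf (nat_lit 0) (nat_lit 1359594608) (nat_lit 836) (nat_lit 8196427567) (nat_lit 912) (nat_lit 1043975756)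 (nat_lit 411) (nat_lit 5) (nat_lit 422) (nat_lit 5) (nat_lit 423) (nat_lit 5) (nat_lit 583) (nat_lit 547) (nat_lit 430)) (XT.lf (nat_lit 0) (nat_lit 804212745) (nat_lit 912) (nat_lit 3109009906) (nat_lit 76) (nat_lit 6792161322) (nat_lit 410) (nat_lit 5) (nat_lit 422) (nat_lit 5) (nat_lit 411) (nat_lit 5) (nat_lit 584) (nat_lit 547) (nat_lit 429))) (XT.nd (nat_lit 78) (nat_lit 0) (nat_lit 0) (XT.lf (nat_lit 0) (nat_lit 2680446778) (nat_lit 912) (nat_lit 7654921192) (nat_lit 76) (nat_lit 477271610) (nat_lit 399) (nat_lit 5) (nat_lit 411) (nat_lit 5) (nat_lit 400) (nat_lit 5) (nat_lit 585) (nat_lit 547) (nat_lit 428)) (XT.lf (nat_lit 0) (nat_lit 4622750838) (nat_lit 912) (nat_lit 1374629401) (nat_lit 76) (nat_lit 4924090198) (nat_lit 399) (nat_lit 5) (nat_lit 411) (nat_lit 5) (nat_lit 400) (nat_lit 5) (nat_lit 586) (nat_lit 547) (nat_lit 427))))) (XT.nd (nat_lit 312) (nat_lit 1444) (nat_lit 0) (XT.nd (nat_lit 156) (nat_lit 836) (nat_lit 0) (XT.nd (nat_lit 78) (nat_lit 836) (nat_lit 0) (XT.lf (nat_lit 0) (nat_lit 5079377812) (nat_lit 836) (nat_lit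 1539490785) (nat_lit 912) (nat_lit 4413310989) (nat_lit 388) (nat_lit 5) (nat_lit 399) (nat_lit 5) (nat_lit 400) (nat_lit 5) (nat_lit 587) (nat_lit 547) (nat_lit 426)) (XT.lf (nat_lit 0) (nat_lit 504470069) (nat_lit 836) (nat_lit 8164745389) (nat_lit 912) (nat_lit 2475602330) (nat_lit 377) (nat_lit 5) (nat_lit 388) (nat_lit 5) (nat_lit 389) (nat_lit 5) (nat_lit 588) (nat_lit 547) (nat_lit 425))) (XT.nd (nat_lit 78) (nat_lit 836) (nat_lit 0) (XT.lf (nat_lit 0) (nat_lit 7142633418) (nat_lit 836) (nat_lit 3650457056) (nat_lit 912) (nat_lit 465968843) (nat_lit 377) (nat_lit 5) (nat_lit 388) (nat_lit 5) (nat_lit 389) (nat_lit 5) (nat_lit 589) (nat_lit 547) (nat_lit 424)) (XT.lf (nat_lit 0) (nat_lit 1568633192) (nat_lit 836) (nat_lit 8839206086) (nat_lit 76) (nat_lit 967430708) (nat_lit 366) (nat_lit 5) (nat_lit 377) (nat_lit 5) (nat_lit 367) (nat_lit 5) (nat_lit 590) (nat_lit 547) (nat_lit 423)))) (XT.nd (nat_lit 156) (nat_lit 684) (nat_lit 0) (XT.nd (nat_lit 78) (nat_lit 760) (nat_lit 0) (XT.lf (nat_lit 0) (nat_lit 3672563464) (nat_lit 836)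 (nat_lit 2161988077) (nat_lit 76) (nat_lit 5658495147) (nat_lit 366) (nat_lit 5) (nat_lit 377) (nat_lit 5) (nat_lit 367) (nat_lit 5) (nat_lit 591) (nat_lit 547) (nat_lit 422)) (XT.lf (nat_lit 0) (nat_lit 4691982670) (nat_lit 760) (nat_lit 1140276813) (nat_lit 836) (nat_lit 5780646608) (nat_lit 356) (nat_lit 5) (nat_lit 366) (nat_lit 5) (nat_lit 367) (nat_lit 5) (nat_lit 592) (nat_lit 547) (nat_lit 421))) (XT.nd (nat_lit 78) (nat_lit 684) (nat_lit 0) (XT.lf (nat_lit 0) (nat_lit 8056861814) (nat_lit 836) (nat_lit 64842718) (nat_lit 76) (nat_lit 3613024797) (nat_lit 356) (nat_lit 5) (nat_lit 367) (nat_lit 5) (nat_lit 357) (nat_lit 5) (nat_lit 593) (nat_lit 547) (nat_lit 420)) (XT.lf (nat_lit 0) (nat_lit 6994375107) (nat_lit 684) (nat_lit 3368293486) (nat_lit 760) (nat_lit 1495587065) (nat_lit 347) (nat_lit 5) (nat_lit 356) (nat_lit 5) (nat_lit 357) (nat_lit 5) (nat_lit 594) (nat_lit 547) (nat_lit 419)))))) (XT.nd (nat_lit 77844) (nat_lit 0) (nat_lit 18316) (XT.nd (nat_lit 77532) (nat_lit 0) (nat_lit 20976) (XT.nd (nat_lit 78) (nat_lit 684)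 (nat_lit 0) (XT.lf (nat_lit 0) (nat_lit 729165345) (nat_lit 836) (nat_lit 9776422333) (nat_lit 76) (nat_lit 1478402743) (nat_lit 336) (nat_lit 5) (nat_lit 347) (nat_lit 5) (nat_lit 337) (nat_lit 5) (nat_lit 595) (nat_lit 547) (nat_lit 418)) (XT.nd (nat_lit 78) (nat_lit 684) (nat_lit 0) (XT.lf (nat_lit 0) (nat_lit 3017595510) (nat_lit 836) (nat_lit 2676084687) (nat_lit 76) (nat_lit 6417578621) (nat_lit 336) (nat_lit 5) (nat_lit 347) (nat_lit 5) (nat_lit 337) (nat_lit 5) (nat_lit 596) (nat_lit 547) (nat_lit 417)) (XT.lf (nat_lit 0) (nat_lit 4608617073) (nat_lit 684) (nat_lit 757440545) (nat_lit 760) (nat_lit 6874730506) (nat_lit 327) (nat_lit 5) (nat_lit 336) (nat_lit 5) (nat_lit 337) (nat_lit 5) (nat_lit 597) (nat_lit 547) (nat_lit 416)))) (XT.nd (nat_lit 156) (nat_lit 0) (nat_lit 0) (XT.nd (nat_lit 78) (nat_lit 0) (nat_lit 0) (XT.lf (nat_lit 0) (nat_lit 1558264443) (nat_lit 1444) (nat_lit 1204633383) (nat_lit 1444) (nat_lit 1204633383) (nat_lit 603) (nat_lit 3) (nat_lit 622) (nat_lit 3) (nat_lit 622) (nat_lit 5) (nat_lit 548) (nat_lit 548)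 (nat_lit 464)) (XT.lf (nat_lit 76) (nat_lit 1550299353) (nat_lit 0) (nat_lit 2847088929) (nat_lit 1444) (nat_lit 3591940997) (nat_lit 604) (nat_lit 5) (nat_lit 603) (nat_lit 3) (nat_lit 622) (nat_lit 5) (nat_lit 549) (nat_lit 548) (nat_lit 463))) (XT.nd (nat_lit 78) (nat_lit 0) (nat_lit 76) (XT.lf (nat_lit 76) (nat_lit 5604910356) (nat_lit 0) (nat_lit 82496949) (nat_lit 1444) (nat_lit 2357605680) (nat_lit 604) (nat_lit 5) (nat_lit 603) (nat_lit 3) (nat_lit 622) (nat_lit 5) (nat_lit 550) (nat_lit 548) (nat_lit 462)) (XT.lf (nat_lit 76) (nat_lit 1625126202) (nat_lit 0) (nat_lit 5374540232) (nat_lit 1444) (nat_lit 1102217447) (nat_lit 605) (nat_lit 5) (nat_lit 604) (nat_lit 5) (nat_lit 623) (nat_lit 5) (nat_lit 551) (nat_lit 548) (nat_lit 461))))) (XT.nd (nat_lit 312) (nat_lit 1292) (nat_lit 0) (XT.nd (nat_lit 156) (nat_lit 0) (nat_lit 76) (XT.nd (nat_lit 78) (nat_lit 0) (nat_lit 76) (XT.lf (nat_lit 0) (nat_lit 161389089) (nat_lit 1444) (nat_lit 2374167679) (nat_lit 1520) (nat_lit 5624605526) (nat_lit 585) (nat_lit 5) (nat_lit 604) (nat_lit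 5) (nat_lit 605) (nat_lit 5) (nat_lit 552) (nat_lit 548) (nat_lit 460)) (XT.lf (nat_lit 0) (nat_lit 1418865888) (nat_lit 1444) (nat_lit 6412674320) (nat_lit 1520) (nat_lit 388255395) (nat_lit 586) (nat_lit 5) (nat_lit 605) (nat_lit 5) (nat_lit 606) (nat_lit 5) (nat_lit 553) (nat_lit 548) (nat_lit 459))) (XT.nd (nat_lit 78) (nat_lit 0) (nat_lit 0) (XT.lf (nat_lit 0) (nat_lit 2703943407) (nat_lit 1444) (nat_lit 2210749960) (nat_lit 1520) (nat_lit 3365881322) (nat_lit 586) (nat_lit 5) (nat_lit 605) (nat_lit 5) (nat_lit 606) (nat_lit 5) (nat_lit 554) (nat_lit 548) (nat_lit 458)) (XT.lf (nat_lit 76) (nat_lit 2085140032) (nat_lit 0) (nat_lit 1913338197) (nat_lit 1520) (nat_lit 4344418108) (nat_lit 587) (nat_lit 5) (nat_lit 586) (nat_lit 5) (nat_lit 606) (nat_lit 5) (nat_lit 555) (nat_lit 548) (nat_lit 457)))) (XT.nd (nat_lit 156) (nat_lit 1444) (nat_lit 0) (XT.nd (nat_lit 78) (nat_lit 0) (nat_lit 0) (XT.lf (nat_lit 0) (nat_lit 5312058354) (nat_lit 1444) (nat_lit 1934776151) (nat_lit 1520) (nat_lit 1159768873) (nat_lit 587) (nat_lit 5) (nat_lit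 606) (nat_lit 5) (nat_lit 607) (nat_lit 5) (nat_lit 556) (nat_lit 548) (nat_lit 456)) (XT.lf (nat_lit 76) (nat_lit 2476857858) (nat_lit 0) (nat_lit 4175145131) (nat_lit 1520) (nat_lit 1819581723) (nat_lit 588) (nat_lit 5) (nat_lit 587) (nat_lit 5) (nat_lit 607) (nat_lit 5) (nat_lit 557) (nat_lit 548) (nat_lit 455))) (XT.nd (nat_lit 78) (nat_lit 1444) (nat_lit 0) (XT.lf (nat_lit 76) (nat_lit 6985447792) (nat_lit 0) (nat_lit 1018070794) (nat_lit 1520) (nat_lit 534653619) (nat_lit 588) (nat_lit 5) (nat_lit 587) (nat_lit 5) (nat_lit 607) (nat_lit 5) (nat_lit 558) (nat_lit 548) (nat_lit 454)) (XT.lf (nat_lit 0) (nat_lit 771924075) (nat_lit 1520) (nat_lit 5625861681) (nat_lit 1596) (nat_lit 2208084265) (nat_lit 568) (nat_lit 5) (nat_lit 588) (nat_lit 5) (nat_lit 589) (nat_lit 5) (nat_lit 559) (nat_lit 548) (nat_lit 453))))))))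
noncomputable def xc66 : XT := (XT.nd (nat_lit 2340) (nat_lit 3116) (nat_lit 0) (XT.nd (nat_lit 1170) (nat_lit 9956) (nat_lit 0) (XT.nd (nat_lit 546) (nat_lit 3116) (nat_lit 0) (XT.nd (nat_lit 234) (nat_lit 1444) (nat_lit 0) (XT.nd (nat_lit 78) (nat_lit 0) (nat_lit 76) (XT.lf (nat_lit 0) (nat_lit 2087366339) (nat_lit 1520) (nat_lit 1078653495) (nat_lit 1596) (nat_lit 5509035296) (nat_lit 568) (nat_lit 5) (nat_lit 588) (nat_lit 5) (nat_lit 589) (nat_lit 5) (nat_lit 560) (nat_lit 548) (nat_lit 452)) (XT.nd (nat_lit 78) (nat_lit 0) (nat_lit 0) (XT.lf (nat_lit 0) (nat_lit 3426669753) (nat_lit 1520) (nat_lit 5157866181) (nat_lit 1596) (nat_lit 161138784) (nat_lit 569) (nat_lit 5) (nat_lit 589) (nat_lit 5) (nat_lit 590) (nat_lit 5) (nat_lit 561) (nat_lit 548) (nat_lit 451)) (XT.lf (nat_lit 0) (nat_lit 4794672269) (nat_lit 1520) (nat_lit 494504375) (nat_lit 1596) (nat_lit 3528493580) (nat_lit 569) (nat_lit 5) (nat_lit 589) (nat_lit 5) (nat_lit 590) (nat_lit 5) (nat_lit 562) (nat_lit 548) (nat_lit 450)))) (XT.nd (nat_lit 156) (nat_lit 1520) (nat_lit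 0) (XT.nd (nat_lit 78) (nat_lit 0) (nat_lit 76) (XT.lf (nat_lit 76) (nat_lit 4300736727) (nat_lit 0) (nat_lit 1891397566) (nat_lit 1596) (nat_lit 2698931110) (nat_lit 570) (nat_lit 5) (nat_lit 569) (nat_lit 5) (nat_lit 590) (nat_lit 5) (nat_lit 563) (nat_lit 548) (nat_lit 449)) (XT.lf (nat_lit 76) (nat_lit 206957805) (nat_lit 0) (nat_lit 7400111629) (nat_lit 1596) (nat_lit 1359070291) (nat_lit 571) (nat_lit 5) (nat_lit 570) (nat_lit 5) (nat_lit 591) (nat_lit 5) (nat_lit 564) (nat_lit 548) (nat_lit 448))) (XT.nd (nat_lit 78) (nat_lit 0) (nat_lit 0) (XT.lf (nat_lit 0) (nat_lit 25852548) (nat_lit 1596) (nat_lit 3910918101) (nat_lit 1672) (nat_lit 5105578263) (nat_lit 549) (nat_lit 5) (nat_lit 570) (nat_lit 5) (nat_lit 571) (nat_lit 5) (nat_lit 565) (nat_lit 548) (nat_lit 447)) (XT.lf (nat_lit 76) (nat_lit 1020605071) (nat_lit 0) (nat_lit 381638777) (nat_lit 1672) (nat_lit 7718021025) (nat_lit 550) (nat_lit 5) (nat_lit 549) (nat_lit 5) (nat_lit 571) (nat_lit 5) (nat_lit 566) (nat_lit 548) (nat_lit 446))))) (XT.nd (nat_lit 312) (nat_lit 3192)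 (nat_lit 0) (XT.nd (nat_lit 156) (nat_lit 0) (nat_lit 76) (XT.nd (nat_lit 78) (nat_lit 0) (nat_lit 0) (XT.lf (nat_lit 0) (nat_lit 2829379954) (nat_lit 1596) (nat_lit 3135182659) (nat_lit 1672) (nat_lit 3234713788) (nat_lit 550) (nat_lit 5) (nat_lit 571) (nat_lit 5) (nat_lit 572) (nat_lit 5) (nat_lit 567) (nat_lit 548) (nat_lit 445)) (XT.lf (nat_lit 76) (nat_lit 1933273860) (nat_lit 0) (nat_lit 2343073042) (nat_lit 1672) (nat_lit 5003697050) (nat_lit 551) (nat_lit 5) (nat_lit 550) (nat_lit 5) (nat_lit 572) (nat_lit 5) (nat_lit 568) (nat_lit 548) (nat_lit 444))) (XT.nd (nat_lit 78) (nat_lit 0) (nat_lit 0) (XT.lf (nat_lit 0) (nat_lit 5758795171) (nat_lit 1596) (nat_lit 2243842501) (nat_lit 1672) (nat_lit 1359659869) (nat_lit 551) (nat_lit 5) (nat_lit 572) (nat_lit 5) (nat_lit 573) (nat_lit 5) (nat_lit 569) (nat_lit 548) (nat_lit 443)) (XT.lf (nat_lit 76) (nat_lit 2966370062) (nat_lit 0) (nat_lit 4316351313) (nat_lit 1672) (nat_lit 2163239740) (nat_lit 552) (nat_lit 5) (nat_lit 551) (nat_lit 5) (nat_lit 573) (nat_lit 5) (nat_lit 570) (nat_lit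 548) (nat_lit 442)))) (XT.nd (nat_lit 156) (nat_lit 1672) (nat_lit 0) (XT.nd (nat_lit 78) (nat_lit 1596) (nat_lit 0) (XT.lf (nat_lit 76) (nat_lit 8293161217) (nat_lit 0) (nat_lit 536407359) (nat_lit 1672) (nat_lit 701882002) (nat_lit 552) (nat_lit 5) (nat_lit 551) (nat_lit 5) (nat_lit 573) (nat_lit 5) (nat_lit 571) (nat_lit 548) (nat_lit 441)) (XT.lf (nat_lit 0) (nat_lit 804702481) (nat_lit 1672) (nat_lit 5501232092) (nat_lit 76) (nat_lit 3312087379) (nat_lit 530) (nat_lit 5) (nat_lit 552) (nat_lit 5) (nat_lit 531) (nat_lit 5) (nat_lit 572) (nat_lit 548) (nat_lit 440))) (XT.nd (nat_lit 78) (nat_lit 1672) (nat_lit 0) (XT.lf (nat_lit 0) (nat_lit 2321974950) (nat_lit 1672) (nat_lit 136993819) (nat_lit 76) (nat_lit 7247465487) (nat_lit 530) (nat_lit 5) (nat_lit 552) (nat_lit 5) (nat_lit 531) (nat_lit 5) (nat_lit 573) (nat_lit 548) (nat_lit 439)) (XT.lf (nat_lit 0) (nat_lit 3892795858) (nat_lit 1748) (nat_lit 4418906250) (nat_lit 76) (nat_lit 1484449993) (nat_lit 508) (nat_lit 5) (nat_lit 531) (nat_lit 5) (nat_lit 509) (nat_lit 5) (nat_lit 574)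 (nat_lit 548) (nat_lit 438)))))) (XT.nd (nat_lit 546) (nat_lit 4332) (nat_lit 0) (XT.nd (nat_lit 234) (nat_lit 2052) (nat_lit 0) (XT.nd (nat_lit 78) (nat_lit 1824) (nat_lit 0) (XT.lf (nat_lit 0) (nat_lit 1095755991) (nat_lit 1748) (nat_lit 4402389404) (nat_lit 1824) (nat_lit 4389457991) (nat_lit 485) (nat_lit 5) (nat_lit 508) (nat_lit 5) (nat_lit 509) (nat_lit 5) (nat_lit 575) (nat_lit 548) (nat_lit 437)) (XT.nd (nat_lit 78) (nat_lit 1824) (nat_lit 0) (XT.lf (nat_lit 0) (nat_lit 6762425565) (nat_lit 1748) (nat_lit 381915284) (nat_lit 1824) (nat_lit 2836369371) (nat_lit 485) (nat_lit 5) (nat_lit 508) (nat_lit 5) (nat_lit 509) (nat_lit 5) (nat_lit 576) (nat_lit 548) (nat_lit 436)) (XT.lf (nat_lit 0) (nat_lit 2456564106) (nat_lit 1824) (nat_lit 6386504951) (nat_lit 1900) (nat_lit 1232219232) (nat_lit 461) (nat_lit 5) (nat_lit 485) (nat_lit 5) (nat_lit 486) (nat_lit 5) (nat_lit 577) (nat_lit 548) (nat_lit 435)))) (XT.nd (nat_lit 156) (nat_lit 912) (nat_lit 0) (XT.nd (nat_lit 78) (nat_lit 1064) (nat_lit 0) (XT.lf (nat_lit 0) (nat_lit 402645946)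 (nat_lit 1900) (nat_lit 1906495740) (nat_lit 76) (nat_lit 7862486383) (nat_lit 460) (nat_lit 5) (nat_lit 485) (nat_lit 5) (nat_lit 461) (nat_lit 5) (nat_lit 578) (nat_lit 548) (nat_lit 434)) (XT.lf (nat_lit 0) (nat_lit 2071648121) (nat_lit 1140) (nat_lit 6336349897) (nat_lit 76) (nat_lit 1861376147) (nat_lit 446) (nat_lit 5) (nat_lit 461) (nat_lit 5) (nat_lit 447) (nat_lit 5) (nat_lit 579) (nat_lit 548) (nat_lit 433))) (XT.nd (nat_lit 78) (nat_lit 912) (nat_lit 0) (XT.lf (nat_lit 0) (nat_lit 3782547695) (nat_lit 1140) (nat_lit 487353574) (nat_lit 76) (nat_lit 6099004746) (nat_lit 446) (nat_lit 5) (nat_lit 461) (nat_lit 5) (nat_lit 447) (nat_lit 5) (nat_lit 580) (nat_lit 548) (nat_lit 432)) (XT.lf (nat_lit 0) (nat_lit 5533216372) (nat_lit 912) (nat_lit 11106267) (nat_lit 988) (nat_lit 4925773871) (nat_lit 434) (nat_lit 5) (nat_lit 446) (nat_lit 5) (nat_lit 447) (nat_lit 5) (nat_lit 581) (nat_lit 548) (nat_lit 431))))) (XT.nd (nat_lit 312) (nat_lit 2508) (nat_lit 0) (XT.nd (nat_lit 156) (nat_lit 912) (nat_lit 0) (XT.nd (nat_lit 78) (nat_lit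 0) (nat_lit 0) (XT.lf (nat_lit 0) (nat_lit 1075261389) (nat_lit 912) (nat_lit 6285478284) (nat_lit 988) (nat_lit 3212184145) (nat_lit 422) (nat_lit 5) (nat_lit 434) (nat_lit 5) (nat_lit 435) (nat_lit 5) (nat_lit 582) (nat_lit 548) (nat_lit 430)) (XT.lf (nat_lit 0) (nat_lit 7256366083) (nat_lit 912) (nat_lit 1971577321) (nat_lit 988) (nat_lit 1449576209) (nat_lit 422) (nat_lit 5) (nat_lit 434) (nat_lit 5) (nat_lit 435) (nat_lit 5) (nat_lit 583) (nat_lit 548) (nat_lit 429))) (XT.nd (nat_lit 78) (nat_lit 0) (nat_lit 0) (XT.lf (nat_lit 0) (nat_lit 359258930) (nat_lit 912) (nat_lit 8006835973) (nat_lit 76) (nat_lit 2417757409) (nat_lit 410) (nat_lit 5) (nat_lit 422) (nat_lit 5) (nat_lit 411) (nat_lit 5) (nat_lit 584) (nat_lit 548) (nat_lit 428)) (XT.lf (nat_lit 0) (nat_lit 2202795464) (nat_lit 912) (nat_lit 1787404153) (nat_lit 76) (nat_lit 6901562768) (nat_lit 410) (nat_lit 5) (nat_lit 422) (nat_lit 5) (nat_lit 411) (nat_lit 5) (nat_lit 585) (nat_lit 548) (nat_lit 427)))) (XT.nd (nat_lit 156) (nat_lit 1672) (nat_lit 0) (XT.nd (nat_lit 78) (nat_lit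 0) (nat_lit 0) (XT.lf (nat_lit 0) (nat_lit 4098439016) (nat_lit 912) (nat_lit 6406040758) (nat_lit 76) (nat_lit 497047187) (nat_lit 399) (nat_lit 5) (nat_lit 411) (nat_lit 5) (nat_lit 400) (nat_lit 5) (nat_lit 586) (nat_lit 548) (nat_lit 426)) (XT.lf (nat_lit 0) (nat_lit 6052836543) (nat_lit 912) (nat_lit 27632913) (nat_lit 76) (nat_lit 5032601555) (nat_lit 399) (nat_lit 5) (nat_lit 411) (nat_lit 5) (nat_lit 400) (nat_lit 5) (nat_lit 587) (nat_lit 548) (nat_lit 425))) (XT.nd (nat_lit 78) (nat_lit 836) (nat_lit 0) (XT.lf (nat_lit 0) (nat_lit 6546411752) (nat_lit 836) (nat_lit 1525102236) (nat_lit 912) (nat_lit 3154829103) (nat_lit 388) (nat_lit 5) (nat_lit 399) (nat_lit 5) (nat_lit 400) (nat_lit 5) (nat_lit 588) (nat_lit 548) (nat_lit 424)) (XT.lf (nat_lit 0) (nat_lit 1897037131) (nat_lit 836) (nat_lit 8249206585) (nat_lit 912) (nat_lit 1195324288) (nat_lit 377) (nat_lit 5) (nat_lit 388) (nat_lit 5) (nat_lit 389) (nat_lit 5) (nat_lit 589) (nat_lit 548) (nat_lit 423))))))) (XT.nd (nat_lit 78546) (nat_lit 0) (nat_lit 16188) (XT.nd (nat_lit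 546) (nat_lit 0) (nat_lit 0) (XT.nd (nat_lit 234) (nat_lit 2280) (nat_lit 0) (XT.nd (nat_lit 78) (nat_lit 760) (nat_lit 0) (XT.lf (nat_lit 0) (nat_lit 817562576) (nat_lit 912) (nat_lit 2823129392) (nat_lit 76) (nat_lit 7817807491) (nat_lit 376) (nat_lit 5) (nat_lit 388) (nat_lit 5) (nat_lit 377) (nat_lit 5) (nat_lit 590) (nat_lit 548) (nat_lit 422)) (XT.nd (nat_lit 78) (nat_lit 0) (nat_lit 0) (XT.lf (nat_lit 0) (nat_lit 2870853730) (nat_lit 836) (nat_lit 7627612601) (nat_lit 76) (nat_lit 1078823063) (nat_lit 366) (nat_lit 5) (nat_lit 377) (nat_lit 5) (nat_lit 367) (nat_lit 5) (nat_lit 591) (nat_lit 548) (nat_lit 421)) (XT.lf (nat_lit 0) (nat_lit 4991944021) (nat_lit 836) (nat_lit 844073322) (nat_lit 76) (nat_lit 5861904011) (nat_lit 366) (nat_lit 5) (nat_lit 377) (nat_lit 5) (nat_lit 367) (nat_lit 5) (nat_lit 592) (nat_lit 548) (nat_lit 420)))) (XT.nd (nat_lit 156) (nat_lit 836) (nat_lit 0) (XT.nd (nat_lit 78) (nat_lit 684) (nat_lit 0) (XT.lf (nat_lit 0) (nat_lit 6138021875) (nat_lit 760) (nat_lit 1041161476) (nat_lit 836) (nat_lit 4641308934)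 (nat_lit 356) (nat_lit 5) (nat_lit 366) (nat_lit 5) (nat_lit 367) (nat_lit 5) (nat_lit 593) (nat_lit 548) (nat_lit 419)) (XT.lf (nat_lit 0) (nat_lit 1300008198) (nat_lit 684) (nat_lit 8133363004) (nat_lit 760) (nat_lit 2511680217) (nat_lit 347) (nat_lit 5) (nat_lit 356) (nat_lit 5) (nat_lit 357) (nat_lit 5) (nat_lit 594) (nat_lit 548) (nat_lit 418))) (XT.nd (nat_lit 78) (nat_lit 836) (nat_lit 0) (XT.lf (nat_lit 0) (nat_lit 8474484895) (nat_lit 684) (nat_lit 3287404993) (nat_lit 760) (nat_lit 309627748) (nat_lit 347) (nat_lit 5) (nat_lit 356) (nat_lit 5) (nat_lit 357) (nat_lit 5) (nat_lit 595) (nat_lit 548) (nat_lit 417)) (XT.lf (nat_lit 0) (nat_lit 1929945907) (nat_lit 836) (nat_lit 8601930863) (nat_lit 76) (nat_lit 1668008215) (nat_lit 336) (nat_lit 5) (nat_lit 347) (nat_lit 5) (nat_lit 337) (nat_lit 5) (nat_lit 596) (nat_lit 548) (nat_lit 416))))) (XT.nd (nat_lit 77688) (nat_lit 0) (nat_lit 18924) (XT.nd (nat_lit 77532) (nat_lit 0) (nat_lit 18848) (XT.nd (nat_lit 77454) (nat_lit 0) (nat_lit 20292) (XT.lf (nat_lit 0) (nat_lit 4240885905)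 (nat_lit 836) (nat_lit 1386449599) (nat_lit 76) (nat_lit 6702829622) (nat_lit 336) (nat_lit 5) (nat_lit 347) (nat_lit 5) (nat_lit 337) (nat_lit 5) (nat_lit 597) (nat_lit 548) (nat_lit 415)) (XT.lf (nat_lit 0) (nat_lit 2821009777) (nat_lit 1444) (nat_lit 600575578) (nat_lit 1444) (nat_lit 600575578) (nat_lit 603) (nat_lit 3) (nat_lit 622) (nat_lit 3) (nat_lit 622) (nat_lit 5) (nat_lit 549) (nat_lit 549) (nat_lit 462))) (XT.nd (nat_lit 78) (nat_lit 1444) (nat_lit 0) (XT.lf (nat_lit 76) (nat_lit 2829341147) (nat_lit 0) (nat_lit 4078960810) (nat_lit 1444) (nat_lit 1192179494) (nat_lit 604) (nat_lit 5) (nat_lit 603) (nat_lit 3) (nat_lit 622) (nat_lit 5) (nat_lit 550) (nat_lit 549) (nat_lit 461)) (XT.lf (nat_lit 0) (nat_lit 18138723) (nat_lit 1444) (nat_lit 1217778701) (nat_lit 1520) (nat_lit 6922312635) (nat_lit 584) (nat_lit 5) (nat_lit 603) (nat_lit 3) (nat_lit 604) (nat_lit 5) (nat_lit 551) (nat_lit 549) (nat_lit 460)))) (XT.nd (nat_lit 156) (nat_lit 0) (nat_lit 0) (XT.nd (nat_lit 78) (nat_lit 0) (nat_lit 0) (XT.lf (nat_lit 0) (nat_lit 1235872983)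 (nat_lit 1444) (nat_lit 5297347882) (nat_lit 1520) (nat_lit 1683773889) (nat_lit 585) (nat_lit 5) (nat_lit 604) (nat_lit 5) (nat_lit 605) (nat_lit 5) (nat_lit 552) (nat_lit 549) (nat_lit 459)) (XT.lf (nat_lit 0) (nat_lit 2464018718) (nat_lit 1444) (nat_lit 1145527995) (nat_lit 1520) (nat_lit 4667669028) (nat_lit 585) (nat_lit 5) (nat_lit 604) (nat_lit 5) (nat_lit 605) (nat_lit 5) (nat_lit 553) (nat_lit 549) (nat_lit 458))) (XT.nd (nat_lit 78) (nat_lit 0) (nat_lit 76) (XT.lf (nat_lit 76) (nat_lit 3113648706) (nat_lit 0) (nat_lit 593535565) (nat_lit 1520) (nat_lit 4631649832) (nat_lit 586) (nat_lit 5) (nat_lit 585) (nat_lit 5) (nat_lit 605) (nat_lit 5) (nat_lit 554) (nat_lit 549) (nat_lit 457)) (XT.lf (nat_lit 0) (nat_lit 4969872706) (nat_lit 1444) (nat_lit 961243356) (nat_lit 1520) (nat_lit 2470677632) (nat_lit 586) (nat_lit 5) (nat_lit 605) (nat_lit 5) (nat_lit 606) (nat_lit 5) (nat_lit 555) (nat_lit 549) (nat_lit 456)))))) (XT.nd (nat_lit 546) (nat_lit 1368) (nat_lit 0) (XT.nd (nat_lit 234) (nat_lit 0) (nat_lit 0) (XT.nd (nat_lit 78) (nat_lit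 1444) (nat_lit 0) (XT.lf (nat_lit 76) (nat_lit 3412053109) (nat_lit 0) (nat_lit 2843219936) (nat_lit 1520) (nat_lit 2210792281) (nat_lit 587) (nat_lit 5) (nat_lit 586) (nat_lit 5) (nat_lit 606) (nat_lit 5) (nat_lit 556) (nat_lit 549) (nat_lit 455)) (XT.nd (nat_lit 78) (nat_lit 1520) (nat_lit 0) (XT.lf (nat_lit 0) (nat_lit 7546766478) (nat_lit 1444) (nat_lit 664953861) (nat_lit 1520) (nat_lit 320296324) (nat_lit 587) (nat_lit 5) (nat_lit 606) (nat_lit 5) (nat_lit 607) (nat_lit 5) (nat_lit 557) (nat_lit 549) (nat_lit 454)) (XT.lf (nat_lit 0) (nat_lit 277560152) (nat_lit 1520) (nat_lit 4774488346) (nat_lit 1596) (nat_lit 3546881430) (nat_lit 567) (nat_lit 5) (nat_lit 587) (nat_lit 5) (nat_lit 588) (nat_lit 5) (nat_lit 558) (nat_lit 549) (nat_lit 453)))) (XT.nd (nat_lit 156) (nat_lit 0) (nat_lit 76) (XT.nd (nat_lit 78) (nat_lit 0) (nat_lit 76) (XT.lf (nat_lit 0) (nat_lit 1529641007) (nat_lit 1520) (nat_lit 278196154) (nat_lit 1596) (nat_lit 6859671773) (nat_lit 567) (nat_lit 5) (nat_lit 587) (nat_lit 5) (nat_lit 588) (nat_lit 5) (nat_lit 559)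 (nat_lit 549) (nat_lit 452)) (XT.lf (nat_lit 0) (nat_lit 2818231317) (nat_lit 1520) (nat_lit 4399232238) (nat_lit 1596) (nat_lit 1519768429) (nat_lit 568) (nat_lit 5) (nat_lit 588) (nat_lit 5) (nat_lit 589) (nat_lit 5) (nat_lit 560) (nat_lit 549) (nat_lit 451))) (XT.nd (nat_lit 78) (nat_lit 0) (nat_lit 0) (XT.lf (nat_lit 76) (nat_lit 215488503) (nat_lit 0) (nat_lit 3906072060) (nat_lit 1596) (nat_lit 4687011377) (nat_lit 569) (nat_lit 5) (nat_lit 568) (nat_lit 5) (nat_lit 589) (nat_lit 5) (nat_lit 561) (nat_lit 549) (nat_lit 450)) (XT.lf (nat_lit 76) (nat_lit 4964919133) (nat_lit 0) (nat_lit 489678405) (nat_lit 1596) (nat_lit 3426670086) (nat_lit 569) (nat_lit 5) (nat_lit 568) (nat_lit 5) (nat_lit 589) (nat_lit 5) (nat_lit 562) (nat_lit 549) (nat_lit 449))))) (XT.nd (nat_lit 312) (nat_lit 0) (nat_lit 0) (XT.nd (nat_lit 156) (nat_lit 1520) (nat_lit 0) (XT.nd (nat_lit 78) (nat_lit 0) (nat_lit 0) (XT.lf (nat_lit 76) (nat_lit 827889267) (nat_lit 0) (nat_lit 5985909569) (nat_lit 1596) (nat_lit 2141630032) (nat_lit 570) (nat_lit 5) (nat_lit 569)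 (nat_lit 5) (nat_lit 590) (nat_lit 5) (nat_lit 563) (nat_lit 549) (nat_lit 448)) (XT.lf (nat_lit 76) (nat_lit 5699483684) (nat_lit 0) (nat_lit 2505269281) (nat_lit 1596) (nat_lit 826230678) (nat_lit 570) (nat_lit 5) (nat_lit 569) (nat_lit 5) (nat_lit 590) (nat_lit 5) (nat_lit 564) (nat_lit 549) (nat_lit 447))) (XT.nd (nat_lit 78) (nat_lit 0) (nat_lit 0) (XT.lf (nat_lit 0) (nat_lit 501159496) (nat_lit 1596) (nat_lit 7554936427) (nat_lit 1672) (nat_lit 1052039405) (nat_lit 549) (nat_lit 5) (nat_lit 570) (nat_lit 5) (nat_lit 571) (nat_lit 5) (nat_lit 565) (nat_lit 549) (nat_lit 446)) (XT.lf (nat_lit 0) (nat_lit 1858948279) (nat_lit 1596) (nat_lit 2645578947) (nat_lit 1672) (nat_lit 4681896900) (nat_lit 549) (nat_lit 5) (nat_lit 570) (nat_lit 5) (nat_lit 571) (nat_lit 5) (nat_lit 566) (nat_lit 549) (nat_lit 445)))) (XT.nd (nat_lit 156) (nat_lit 0) (nat_lit 76) (XT.nd (nat_lit 78) (nat_lit 0) (nat_lit 76) (XT.lf (nat_lit 76) (nat_lit 2375735494) (nat_lit 0) (nat_lit 859864872) (nat_lit 1672) (nat_lit 6030845737) (nat_lit 550) (nat_lit 5) (nat_lit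 549) (nat_lit 5) (nat_lit 571) (nat_lit 5) (nat_lit 567) (nat_lit 549) (nat_lit 444)) (XT.lf (nat_lit 0) (nat_lit 4652885432) (nat_lit 1596) (nat_lit 1850829652) (nat_lit 1672) (nat_lit 2844092963) (nat_lit 550) (nat_lit 5) (nat_lit 571) (nat_lit 5) (nat_lit 572) (nat_lit 5) (nat_lit 568) (nat_lit 549) (nat_lit 443))) (XT.nd (nat_lit 78) (nat_lit 0) (nat_lit 76) (XT.lf (nat_lit 76) (nat_lit 3310133782) (nat_lit 0) (nat_lit 2792700934) (nat_lit 1672) (nat_lit 3327877638) (nat_lit 551) (nat_lit 5) (nat_lit 550) (nat_lit 5) (nat_lit 572) (nat_lit 5) (nat_lit 569) (nat_lit 549) (nat_lit 442)) (XT.lf (nat_lit 0) (nat_lit 7578231711) (nat_lit 1596) (nat_lit 939952735) (nat_lit 1672) (nat_lit 997162794) (nat_lit 551) (nat_lit 5) (nat_lit 572) (nat_lit 5) (nat_lit 573) (nat_lit 5) (nat_lit 570) (nat_lit 549) (nat_lit 441))))))))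
noncomputable def xc67 : XT := (XT.nd (nat_lit 79872) (nat_lit 0) (nat_lit 6688) (XT.nd (nat_lit 1170) (nat_lit 4864) (nat_lit 0) (XT.nd (nat_lit 546) (nat_lit 5700) (nat_lit 0) (XT.nd (nat_lit 234) (nat_lit 3344) (nat_lit 0) (XT.nd (nat_lit 78) (nat_lit 1672) (nat_lit 0) (XT.lf (nat_lit 76) (nat_lit 4365590615) (nat_lit 0) (nat_lit 4742328425) (nat_lit 1672) (nat_lit 493261572) (nat_lit 552) (nat_lit 5) (nat_lit 551) (nat_lit 5) (nat_lit 573) (nat_lit 5) (nat_lit 571) (nat_lit 549) (nat_lit 440)) (XT.nd (nat_lit 78) (nat_lit 0) (nat_lit 76) (XT.lf (nat_lit 76) (nat_lit 78375263) (nat_lit 0) (nat_lit 873224425) (nat_lit 1748) (nat_lit 8737305635) (nat_lit 530) (nat_lit 5) (nat_lit 529) (nat_lit 5) (nat_lit 552) (nat_lit 5) (nat_lit 572) (nat_lit 549) (nat_lit 439)) (XT.lf (nat_lit 0) (nat_lit 2452539015) (nat_lit 1672) (nat_lit 4249521303) (nat_lit 76) (nat_lit 3075584641) (nat_lit 530) (nat_lit 5) (nat_lit 552) (nat_lit 5) (nat_lit 531) (nat_lit 5) (nat_lit 573) (nat_lit 549) (nat_lit 438)))) (XT.nd (nat_lit 156) (nat_lit 1748) (nat_lit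 0) (XT.nd (nat_lit 78) (nat_lit 0) (nat_lit 0) (XT.lf (nat_lit 0) (nat_lit 1211185961) (nat_lit 1672) (nat_lit 2764839844) (nat_lit 1748) (nat_lit 5892284339) (nat_lit 508) (nat_lit 5) (nat_lit 530) (nat_lit 5) (nat_lit 531) (nat_lit 5) (nat_lit 574) (nat_lit 549) (nat_lit 437)) (XT.lf (nat_lit 0) (nat_lit 5546014650) (nat_lit 1748) (nat_lit 3147766381) (nat_lit 76) (nat_lit 1266688256) (nat_lit 508) (nat_lit 5) (nat_lit 531) (nat_lit 5) (nat_lit 509) (nat_lit 5) (nat_lit 575) (nat_lit 549) (nat_lit 436))) (XT.nd (nat_lit 78) (nat_lit 0) (nat_lit 0) (XT.lf (nat_lit 0) (nat_lit 2468244908) (nat_lit 1748) (nat_lit 4693105623) (nat_lit 1824) (nat_lit 2892843413) (nat_lit 485) (nat_lit 5) (nat_lit 508) (nat_lit 5) (nat_lit 509) (nat_lit 5) (nat_lit 576) (nat_lit 549) (nat_lit 435)) (XT.lf (nat_lit 0) (nat_lit 8221766034) (nat_lit 1748) (nat_lit 588248130) (nat_lit 1824) (nat_lit 1339759761) (nat_lit 485) (nat_lit 5) (nat_lit 508) (nat_lit 5) (nat_lit 509) (nat_lit 5) (nat_lit 577) (nat_lit 549) (nat_lit 434))))) (XT.nd (nat_lit 312) (nat_lit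 1824) (nat_lit 0) (XT.nd (nat_lit 156) (nat_lit 1976) (nat_lit 0) (XT.nd (nat_lit 78) (nat_lit 0) (nat_lit 0) (XT.lf (nat_lit 0) (nat_lit 270057422) (nat_lit 1900) (nat_lit 6395762367) (nat_lit 76) (nat_lit 3580837643) (nat_lit 460) (nat_lit 5) (nat_lit 485) (nat_lit 5) (nat_lit 461) (nat_lit 5) (nat_lit 578) (nat_lit 549) (nat_lit 433)) (XT.lf (nat_lit 0) (nat_lit 1891519500) (nat_lit 1900) (nat_lit 604257117) (nat_lit 76) (nat_lit 7849578298) (nat_lit 460) (nat_lit 5) (nat_lit 485) (nat_lit 5) (nat_lit 461) (nat_lit 5) (nat_lit 579) (nat_lit 549) (nat_lit 432))) (XT.nd (nat_lit 78) (nat_lit 912) (nat_lit 0) (XT.lf (nat_lit 0) (nat_lit 3572674554) (nat_lit 1140) (nat_lit 5101393639) (nat_lit 76) (nat_lit 1771414033) (nat_lit 446) (nat_lit 5) (nat_lit 461) (nat_lit 5) (nat_lit 447) (nat_lit 5) (nat_lit 580) (nat_lit 549) (nat_lit 431)) (XT.lf (nat_lit 0) (nat_lit 849017960) (nat_lit 912) (nat_lit 4445667066) (nat_lit 988) (nat_lit 5252783546) (nat_lit 434) (nat_lit 5) (nat_lit 446) (nat_lit 5) (nat_lit 447) (nat_lit 5) (nat_lit 581) (nat_lit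 549) (nat_lit 430)))) (XT.nd (nat_lit 156) (nat_lit 912) (nat_lit 0) (XT.nd (nat_lit 78) (nat_lit 912) (nat_lit 0) (XT.lf (nat_lit 0) (nat_lit 6970081497) (nat_lit 912) (nat_lit 96653848) (nat_lit 988) (nat_lit 3584448418) (nat_lit 434) (nat_lit 5) (nat_lit 446) (nat_lit 5) (nat_lit 447) (nat_lit 5) (nat_lit 582) (nat_lit 549) (nat_lit 429)) (XT.lf (nat_lit 0) (nat_lit 2442921151) (nat_lit 912) (nat_lit 6457079583) (nat_lit 988) (nat_lit 1856458131) (nat_lit 422) (nat_lit 5) (nat_lit 434) (nat_lit 5) (nat_lit 435) (nat_lit 5) (nat_lit 583) (nat_lit 549) (nat_lit 428))) (XT.nd (nat_lit 78) (nat_lit 912) (nat_lit 0) (XT.lf (nat_lit 0) (nat_lit 8721252752) (nat_lit 912) (nat_lit 2056000764) (nat_lit 988) (nat_lit 86440580) (nat_lit 422) (nat_lit 5) (nat_lit 434) (nat_lit 5) (nat_lit 435) (nat_lit 5) (nat_lit 584) (nat_lit 549) (nat_lit 427)) (XT.lf (nat_lit 0) (nat_lit 1721834759) (nat_lit 912) (nat_lit 6810319798) (nat_lit 76) (nat_lit 2440189242) (nat_lit 410) (nat_lit 5) (nat_lit 422) (nat_lit 5) (nat_lit 411) (nat_lit 5) (nat_lit 585) (nat_lit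 549) (nat_lit 426)))))) (XT.nd (nat_lit 546) (nat_lit 1520) (nat_lit 0) (XT.nd (nat_lit 234) (nat_lit 1672) (nat_lit 0) (XT.nd (nat_lit 78) (nat_lit 1672) (nat_lit 0) (XT.lf (nat_lit 0) (nat_lit 3575665737) (nat_lit 912) (nat_lit 493100380) (nat_lit 76) (nat_lit 7014179009) (nat_lit 410) (nat_lit 5) (nat_lit 422) (nat_lit 5) (nat_lit 411) (nat_lit 5) (nat_lit 586) (nat_lit 549) (nat_lit 425)) (XT.nd (nat_lit 78) (nat_lit 836) (nat_lit 0) (XT.lf (nat_lit 0) (nat_lit 5491810432) (nat_lit 912) (nat_lit 5186623263) (nat_lit 76) (nat_lit 516821026) (nat_lit 399) (nat_lit 5) (nat_lit 411) (nat_lit 5) (nat_lit 400) (nat_lit 5) (nat_lit 587) (nat_lit 549) (nat_lit 424)) (XT.lf (nat_lit 0) (nat_lit 1310112783) (nat_lit 836) (nat_lit 6157975471) (nat_lit 912) (nat_lit 3841287018) (nat_lit 388) (nat_lit 5) (nat_lit 399) (nat_lit 5) (nat_lit 400) (nat_lit 5) (nat_lit 588) (nat_lit 549) (nat_lit 423)))) (XT.nd (nat_lit 156) (nat_lit 760) (nat_lit 0) (XT.nd (nat_lit 78) (nat_lit 912) (nat_lit 0) (XT.lf (nat_lit 0) (nat_lit 7989764425) (nat_lit 836) (nat_lit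 1512180246) (nat_lit 912) (nat_lit 1923473450) (nat_lit 388) (nat_lit 5) (nat_lit 399) (nat_lit 5) (nat_lit 400) (nat_lit 5) (nat_lit 589) (nat_lit 549) (nat_lit 422)) (XT.lf (nat_lit 0) (nat_lit 58149172) (nat_lit 912) (nat_lit 8279878830) (nat_lit 76) (nat_lit 3205232859) (nat_lit 376) (nat_lit 5) (nat_lit 388) (nat_lit 5) (nat_lit 377) (nat_lit 5) (nat_lit 590) (nat_lit 549) (nat_lit 421))) (XT.nd (nat_lit 78) (nat_lit 760) (nat_lit 0) (XT.lf (nat_lit 0) (nat_lit 2070570216) (nat_lit 912) (nat_lit 1560350209) (nat_lit 76) (nat_lit 8031948214) (nat_lit 376) (nat_lit 5) (nat_lit 388) (nat_lit 5) (nat_lit 377) (nat_lit 5) (nat_lit 591) (nat_lit 549) (nat_lit 420)) (XT.lf (nat_lit 0) (nat_lit 4149770107) (nat_lit 836) (nat_lit 6445699642) (nat_lit 76) (nat_lit 1188869093) (nat_lit 366) (nat_lit 5) (nat_lit 377) (nat_lit 5) (nat_lit 367) (nat_lit 5) (nat_lit 592) (nat_lit 549) (nat_lit 419))))) (XT.nd (nat_lit 77844) (nat_lit 0) (nat_lit 18088) (XT.nd (nat_lit 156) (nat_lit 760) (nat_lit 0) (XT.nd (nat_lit 78) (nat_lit 0) (nat_lit 0) (XT.lf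 (nat_lit 0) (nat_lit 453289410) (nat_lit 760) (nat_lit 5838984883) (nat_lit 836) (nat_lit 5615530608) (nat_lit 356) (nat_lit 5) (nat_lit 366) (nat_lit 5) (nat_lit 367) (nat_lit 5) (nat_lit 593) (nat_lit 549) (nat_lit 418)) (XT.lf (nat_lit 0) (nat_lit 7560474308) (nat_lit 760) (nat_lit 944798168) (nat_lit 836) (nat_lit 3527915768) (nat_lit 356) (nat_lit 5) (nat_lit 366) (nat_lit 5) (nat_lit 367) (nat_lit 5) (nat_lit 594) (nat_lit 549) (nat_lit 417))) (XT.nd (nat_lit 78) (nat_lit 76) (nat_lit 0) (XT.lf (nat_lit 0) (nat_lit 2639951779) (nat_lit 684) (nat_lit 8150682849) (nat_lit 760) (nat_lit 1369883371) (nat_lit 347) (nat_lit 5) (nat_lit 356) (nat_lit 5) (nat_lit 357) (nat_lit 5) (nat_lit 595) (nat_lit 549) (nat_lit 416)) (XT.lf (nat_lit 0) (nat_lit 841651889) (nat_lit 760) (nat_lit 2363355810) (nat_lit 76) (nat_lit 9084854597) (nat_lit 346) (nat_lit 5) (nat_lit 356) (nat_lit 5) (nat_lit 347) (nat_lit 5) (nat_lit 596) (nat_lit 549) (nat_lit 415)))) (XT.nd (nat_lit 156) (nat_lit 0) (nat_lit 0) (XT.nd (nat_lit 78) (nat_lit 1444) (nat_lit 0)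 (XT.lf (nat_lit 0) (nat_lit 4061186263) (nat_lit 1444) (nat_lit 8828466) (nat_lit 1444) (nat_lit 8828466) (nat_lit 603) (nat_lit 3) (nat_lit 622) (nat_lit 3) (nat_lit 622) (nat_lit 5) (nat_lit 550) (nat_lit 550) (nat_lit 460)) (XT.lf (nat_lit 0) (nat_lit 1144393597) (nat_lit 1444) (nat_lit 4137773079) (nat_lit 1520) (nat_lit 2933427944) (nat_lit 584) (nat_lit 5) (nat_lit 603) (nat_lit 3) (nat_lit 604) (nat_lit 5) (nat_lit 551) (nat_lit 550) (nat_lit 459))) (XT.nd (nat_lit 78) (nat_lit 0) (nat_lit 76) (XT.lf (nat_lit 0) (nat_lit 2316999851) (nat_lit 1444) (nat_lit 35374665) (nat_lit 1520) (nat_lit 5922888416) (nat_lit 584) (nat_lit 5) (nat_lit 603) (nat_lit 3) (nat_lit 604) (nat_lit 5) (nat_lit 552) (nat_lit 550) (nat_lit 458)) (XT.lf (nat_lit 0) (nat_lit 3514905978) (nat_lit 1444) (nat_lit 4152193822) (nat_lit 1520) (nat_lit 668989948) (nat_lit 585) (nat_lit 5) (nat_lit 604) (nat_lit 5) (nat_lit 605) (nat_lit 5) (nat_lit 553) (nat_lit 550) (nat_lit 457))))))) (XT.nd (nat_lit 1170) (nat_lit 8664) (nat_lit 0) (XT.nd (nat_lit 546) (nat_lit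 1368) (nat_lit 0) (XT.nd (nat_lit 234) (nat_lit 1444) (nat_lit 0) (XT.nd (nat_lit 78) (nat_lit 0) (nat_lit 0) (XT.lf (nat_lit 76) (nat_lit 58903600) (nat_lit 0) (nat_lit 4664891203) (nat_lit 1520) (nat_lit 3674599858) (nat_lit 586) (nat_lit 5) (nat_lit 585) (nat_lit 5) (nat_lit 605) (nat_lit 5) (nat_lit 554) (nat_lit 550) (nat_lit 456)) (XT.nd (nat_lit 78) (nat_lit 0) (nat_lit 76) (XT.lf (nat_lit 76) (nat_lit 4394421768) (nat_lit 0) (nat_lit 1561595215) (nat_lit 1520) (nat_lit 2505947590) (nat_lit 586) (nat_lit 5) (nat_lit 585) (nat_lit 5) (nat_lit 605) (nat_lit 5) (nat_lit 555) (nat_lit 550) (nat_lit 455)) (XT.lf (nat_lit 76) (nat_lit 266511944) (nat_lit 0) (nat_lit 6930450170) (nat_lit 1520) (nat_lit 1330164172) (nat_lit 587) (nat_lit 5) (nat_lit 586) (nat_lit 5) (nat_lit 606) (nat_lit 5) (nat_lit 556) (nat_lit 550) (nat_lit 454)))) (XT.nd (nat_lit 156) (nat_lit 0) (nat_lit 76) (XT.nd (nat_lit 78) (nat_lit 1520) (nat_lit 0) (XT.lf (nat_lit 76) (nat_lit 4715598167) (nat_lit 0) (nat_lit 3757076814) (nat_lit 1520) (nat_lit 120719211) (nat_lit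 587) (nat_lit 5) (nat_lit 586) (nat_lit 5) (nat_lit 606) (nat_lit 5) (nat_lit 557) (nat_lit 550) (nat_lit 453)) (XT.lf (nat_lit 76) (nat_lit 576664445) (nat_lit 0) (nat_lit 498138415) (nat_lit 1596) (nat_lit 7586512252) (nat_lit 567) (nat_lit 5) (nat_lit 566) (nat_lit 5) (nat_lit 587) (nat_lit 5) (nat_lit 558) (nat_lit 550) (nat_lit 452))) (XT.nd (nat_lit 78) (nat_lit 0) (nat_lit 0) (XT.lf (nat_lit 0) (nat_lit 2310400943) (nat_lit 1520) (nat_lit 3593466353) (nat_lit 1596) (nat_lit 2826357378) (nat_lit 567) (nat_lit 5) (nat_lit 587) (nat_lit 5) (nat_lit 588) (nat_lit 5) (nat_lit 559) (nat_lit 550) (nat_lit 451)) (XT.lf (nat_lit 76) (nat_lit 980582557) (nat_lit 0) (nat_lit 2573556673) (nat_lit 1596) (nat_lit 5246706420) (nat_lit 568) (nat_lit 5) (nat_lit 567) (nat_lit 5) (nat_lit 588) (nat_lit 5) (nat_lit 560) (nat_lit 550) (nat_lit 450))))) (XT.nd (nat_lit 312) (nat_lit 1520) (nat_lit 0) (XT.nd (nat_lit 156) (nat_lit 0) (nat_lit 0) (XT.nd (nat_lit 78) (nat_lit 0) (nat_lit 0) (XT.lf (nat_lit 0) (nat_lit 4826603594) (nat_lit 1520) (nat_lit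 3200070904) (nat_lit 1596) (nat_lit 846129273) (nat_lit 568) (nat_lit 5) (nat_lit 588) (nat_lit 5) (nat_lit 589) (nat_lit 5) (nat_lit 561) (nat_lit 550) (nat_lit 449)) (XT.lf (nat_lit 76) (nat_lit 1498476187) (nat_lit 0) (nat_lit 4627550604) (nat_lit 1596) (nat_lit 2820145789) (nat_lit 569) (nat_lit 5) (nat_lit 568) (nat_lit 5) (nat_lit 589) (nat_lit 5) (nat_lit 562) (nat_lit 550) (nat_lit 448))) (XT.nd (nat_lit 78) (nat_lit 0) (nat_lit 76) (XT.lf (nat_lit 76) (nat_lit 6317823313) (nat_lit 0) (nat_lit 1130214231) (nat_lit 1596) (nat_lit 1573040924) (nat_lit 569) (nat_lit 5) (nat_lit 568) (nat_lit 5) (nat_lit 589) (nat_lit 5) (nat_lit 563) (nat_lit 550) (nat_lit 447)) (XT.lf (nat_lit 76) (nat_lit 2131439428) (nat_lit 0) (nat_lit 6670376547) (nat_lit 1596) (nat_lit 295561599) (nat_lit 570) (nat_lit 5) (nat_lit 569) (nat_lit 5) (nat_lit 590) (nat_lit 5) (nat_lit 564) (nat_lit 550) (nat_lit 446)))) (XT.nd (nat_lit 156) (nat_lit 0) (nat_lit 76) (XT.nd (nat_lit 78) (nat_lit 0) (nat_lit 76) (XT.lf (nat_lit 0) (nat_lit 995873827) (nat_lit 1596)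 (nat_lit 2106493284) (nat_lit 1672) (nat_lit 6072673924) (nat_lit 548) (nat_lit 5) (nat_lit 569) (nat_lit 5) (nat_lit 570) (nat_lit 5) (nat_lit 565) (nat_lit 550) (nat_lit 445)) (XT.lf (nat_lit 0) (nat_lit 2307828450) (nat_lit 1596) (nat_lit 6388821905) (nat_lit 1672) (nat_lit 557596930) (nat_lit 549) (nat_lit 5) (nat_lit 570) (nat_lit 5) (nat_lit 571) (nat_lit 5) (nat_lit 566) (nat_lit 550) (nat_lit 444))) (XT.nd (nat_lit 78) (nat_lit 0) (nat_lit 0) (XT.lf (nat_lit 0) (nat_lit 3657544660) (nat_lit 1596) (nat_lit 1407104986) (nat_lit 1672) (nat_lit 4270159089) (nat_lit 549) (nat_lit 5) (nat_lit 570) (nat_lit 5) (nat_lit 571) (nat_lit 5) (nat_lit 567) (nat_lit 550) (nat_lit 443)) (XT.lf (nat_lit 76) (nat_lit 3706139787) (nat_lit 0) (nat_lit 1329381777) (nat_lit 1672) (nat_lit 4381436020) (nat_lit 550) (nat_lit 5) (nat_lit 549) (nat_lit 5) (nat_lit 571) (nat_lit 5) (nat_lit 568) (nat_lit 550) (nat_lit 442)))))) (XT.nd (nat_lit 546) (nat_lit 5624) (nat_lit 0) (XT.nd (nat_lit 234) (nat_lit 3192) (nat_lit 0) (XT.nd (nat_lit 78) (nat_lit 0) (nat_lit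 0) (XT.lf (nat_lit 0) (nat_lit 6444249446) (nat_lit 1596) (nat_lit 593097437) (nat_lit 1672) (nat_lit 2463340161) (nat_lit 550) (nat_lit 5) (nat_lit 571) (nat_lit 5) (nat_lit 572) (nat_lit 5) (nat_lit 569) (nat_lit 550) (nat_lit 441)) (XT.nd (nat_lit 78) (nat_lit 0) (nat_lit 76) (XT.lf (nat_lit 76) (nat_lit 4662567181) (nat_lit 0) (nat_lit 3235681473) (nat_lit 1672) (nat_lit 1687501942) (nat_lit 551) (nat_lit 5) (nat_lit 550) (nat_lit 5) (nat_lit 572) (nat_lit 5) (nat_lit 570) (nat_lit 550) (nat_lit 440)) (XT.lf (nat_lit 76) (nat_lit 342127639) (nat_lit 0) (nat_lit 9027972145) (nat_lit 1672) (nat_lit 302641606) (nat_lit 552) (nat_lit 5) (nat_lit 551) (nat_lit 5) (nat_lit 573) (nat_lit 5) (nat_lit 571) (nat_lit 550) (nat_lit 439)))) (XT.nd (nat_lit 156) (nat_lit 1596) (nat_lit 0) (XT.nd (nat_lit 78) (nat_lit 0) (nat_lit 0) (XT.lf (nat_lit 0) (nat_lit 1128590472) (nat_lit 1672) (nat_lit 4027472143) (nat_lit 1748) (nat_lit 4604601985) (nat_lit 529) (nat_lit 5) (nat_lit 551) (nat_lit 5) (nat_lit 552) (nat_lit 5) (nat_lit 572) (nat_lit 550) (nat_lit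 438)) (XT.lf (nat_lit 76) (nat_lit 1380890243) (nat_lit 0) (nat_lit 1191441658) (nat_lit 1748) (nat_lit 7278216952) (nat_lit 530) (nat_lit 5) (nat_lit 529) (nat_lit 5) (nat_lit 552) (nat_lit 5) (nat_lit 573) (nat_lit 550) (nat_lit 437))) (XT.nd (nat_lit 78) (nat_lit 1672) (nat_lit 0) (XT.lf (nat_lit 0) (nat_lit 4069969730) (nat_lit 1672) (nat_lit 3025654145) (nat_lit 76) (nat_lit 2846107786) (nat_lit 530) (nat_lit 5) (nat_lit 552) (nat_lit 5) (nat_lit 531) (nat_lit 5) (nat_lit 574) (nat_lit 550) (nat_lit 436)) (XT.lf (nat_lit 0) (nat_lit 2535656360) (nat_lit 1672) (nat_lit 3065959412) (nat_lit 1748) (nat_lit 4433042520) (nat_lit 508) (nat_lit 5) (nat_lit 530) (nat_lit 5) (nat_lit 531) (nat_lit 5) (nat_lit 575) (nat_lit 550) (nat_lit 435))))) (XT.nd (nat_lit 312) (nat_lit 1976) (nat_lit 0) (XT.nd (nat_lit 156) (nat_lit 1900) (nat_lit 0) (XT.nd (nat_lit 78) (nat_lit 1748) (nat_lit 0) (XT.lf (nat_lit 0) (nat_lit 7171124558) (nat_lit 1748) (nat_lit 1903995455) (nat_lit 76) (nat_lit 1054180097) (nat_lit 508) (nat_lit 5) (nat_lit 531) (nat_lit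 5) (nat_lit 509) (nat_lit 5) (nat_lit 576) (nat_lit 550) (nat_lit 434)) (XT.lf (nat_lit 0) (nat_lit 3815739176) (nat_lit 1748) (nat_lit 4981766305) (nat_lit 1824) (nat_lit 1427820872) (nat_lit 485) (nat_lit 5) (nat_lit 508) (nat_lit 5) (nat_lit 509) (nat_lit 5) (nat_lit 577) (nat_lit 550) (nat_lit 433))) (XT.nd (nat_lit 78) (nat_lit 1824) (nat_lit 0) (XT.lf (nat_lit 0) (nat_lit 124805473) (nat_lit 1824) (nat_lit 665349097) (nat_lit 76) (nat_lit 9533234224) (nat_lit 484) (nat_lit 5) (nat_lit 508) (nat_lit 5) (nat_lit 485) (nat_lit 5) (nat_lit 578) (nat_lit 550) (nat_lit 432)) (XT.lf (nat_lit 0) (nat_lit 1727243507) (nat_lit 1900) (nat_lit 5209590812) (nat_lit 76) (nat_lit 3485633010) (nat_lit 460) (nat_lit 5) (nat_lit 485) (nat_lit 5) (nat_lit 461) (nat_lit 5) (nat_lit 579) (nat_lit 550) (nat_lit 431)))) (XT.nd (nat_lit 156) (nat_lit 912) (nat_lit 0) (XT.nd (nat_lit 78) (nat_lit 0) (nat_lit 0) (XT.lf (nat_lit 0) (nat_lit 680908370) (nat_lit 1064) (nat_lit 2676180993) (nat_lit 1140) (nat_lit 7166532023) (nat_lit 446) (nat_lit 5) (nat_lit 460)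 (nat_lit 5) (nat_lit 461) (nat_lit 5) (nat_lit 580) (nat_lit 550) (nat_lit 430)) (XT.lf (nat_lit 0) (nat_lit 5047043722) (nat_lit 1140) (nat_lit 3894614077) (nat_lit 76) (nat_lit 1684591606) (nat_lit 446) (nat_lit 5) (nat_lit 461) (nat_lit 5) (nat_lit 447) (nat_lit 5) (nat_lit 581) (nat_lit 550) (nat_lit 429))) (XT.nd (nat_lit 78) (nat_lit 0) (nat_lit 0) (XT.lf (nat_lit 0) (nat_lit 2166195180) (nat_lit 912) (nat_lit 4618232814) (nat_lit 988) (nat_lit 3946230461) (nat_lit 434) (nat_lit 5) (nat_lit 446) (nat_lit 5) (nat_lit 447) (nat_lit 5) (nat_lit 582) (nat_lit 550) (nat_lit 428)) (XT.lf (nat_lit 0) (nat_lit 8384185931) (nat_lit 912) (nat_lit 180599088) (nat_lit 988) (nat_lit 2272207234) (nat_lit 434) (nat_lit 5) (nat_lit 446) (nat_lit 5) (nat_lit 447) (nat_lit 5) (nat_lit 583) (nat_lit 550) (nat_lit 427))))))))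
noncomputable def xc68 : XT := (XT.nd (nat_lit 79950) (nat_lit 0) (nat_lit 684) (XT.nd (nat_lit 78780) (nat_lit 0) (nat_lit 15200) (XT.nd (nat_lit 546) (nat_lit 3116) (nat_lit 0) (XT.nd (nat_lit 234) (nat_lit 1672) (nat_lit 0) (XT.nd (nat_lit 78) (nat_lit 912) (nat_lit 0) (XT.lf (nat_lit 0) (nat_lit 3785661287) (nat_lit 912) (nat_lit 6630330877) (nat_lit 988) (nat_lit 528756751) (nat_lit 422) (nat_lit 5) (nat_lit 434) (nat_lit 5) (nat_lit 435) (nat_lit 5) (nat_lit 584) (nat_lit 550) (nat_lit 426)) (XT.nd (nat_lit 78) (nat_lit 836) (nat_lit 0) (XT.lf (nat_lit 0) (nat_lit 1233507107) (nat_lit 988) (nat_lit 898580996) (nat_lit 76) (nat_lit 8922404702) (nat_lit 421) (nat_lit 5) (nat_lit 434) (nat_lit 5) (nat_lit 422) (nat_lit 5) (nat_lit 585) (nat_lit 550) (nat_lit 425)) (XT.lf (nat_lit 0) (nat_lit 3059030634) (nat_lit 912) (nat_lit 5642553786) (nat_lit 76) (nat_lit 2464076347) (nat_lit 410) (nat_lit 5) (nat_lit 422) (nat_lit 5) (nat_lit 411) (nat_lit 5) (nat_lit 586) (nat_lit 550) (nat_lit 424)))) (XT.nd (nat_lit 156) (nat_lit 836) (nat_lit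 0) (XT.nd (nat_lit 78) (nat_lit 0) (nat_lit 0) (XT.lf (nat_lit 0) (nat_lit 785747149) (nat_lit 836) (nat_lit 4143748376) (nat_lit 912) (nat_lit 6349388913) (nat_lit 399) (nat_lit 5) (nat_lit 410) (nat_lit 5) (nat_lit 411) (nat_lit 5) (nat_lit 587) (nat_lit 550) (nat_lit 423)) (XT.lf (nat_lit 0) (nat_lit 6862125914) (nat_lit 912) (nat_lit 3995143974) (nat_lit 76) (nat_lit 536608519) (nat_lit 399) (nat_lit 5) (nat_lit 411) (nat_lit 5) (nat_lit 400) (nat_lit 5) (nat_lit 588) (nat_lit 550) (nat_lit 422))) (XT.nd (nat_lit 78) (nat_lit 0) (nat_lit 0) (XT.lf (nat_lit 0) (nat_lit 2623005663) (nat_lit 836) (nat_lit 6238562398) (nat_lit 912) (nat_lit 2649041940) (nat_lit 388) (nat_lit 5) (nat_lit 399) (nat_lit 5) (nat_lit 400) (nat_lit 5) (nat_lit 589) (nat_lit 550) (nat_lit 421)) (XT.lf (nat_lit 0) (nat_lit 9411021110) (nat_lit 836) (nat_lit 1500686025) (nat_lit 912) (nat_lit 717755842) (nat_lit 388) (nat_lit 5) (nat_lit 399) (nat_lit 5) (nat_lit 400) (nat_lit 5) (nat_lit 590) (nat_lit 550) (nat_lit 420))))) (XT.nd (nat_lit 312) (nat_lit 684) (nat_lit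 0) (XT.nd (nat_lit 156) (nat_lit 1520) (nat_lit 0) (XT.nd (nat_lit 78) (nat_lit 0) (nat_lit 0) (XT.lf (nat_lit 0) (nat_lit 1271720380) (nat_lit 912) (nat_lit 7152102121) (nat_lit 76) (nat_lit 3325989058) (nat_lit 376) (nat_lit 5) (nat_lit 388) (nat_lit 5) (nat_lit 377) (nat_lit 5) (nat_lit 591) (nat_lit 550) (nat_lit 419)) (XT.lf (nat_lit 0) (nat_lit 3300617134) (nat_lit 912) (nat_lit 323543208) (nat_lit 76) (nat_lit 8248127907) (nat_lit 376) (nat_lit 5) (nat_lit 388) (nat_lit 5) (nat_lit 377) (nat_lit 5) (nat_lit 592) (nat_lit 550) (nat_lit 418))) (XT.nd (nat_lit 78) (nat_lit 760) (nat_lit 0) (XT.lf (nat_lit 0) (nat_lit 5406832504) (nat_lit 836) (nat_lit 5291967333) (nat_lit 76) (nat_lit 1297680664) (nat_lit 366) (nat_lit 5) (nat_lit 377) (nat_lit 5) (nat_lit 367) (nat_lit 5) (nat_lit 593) (nat_lit 550) (nat_lit 417)) (XT.lf (nat_lit 0) (nat_lit 1736563036) (nat_lit 760) (nat_lit 5840875818) (nat_lit 836) (nat_lit 4545273236) (nat_lit 356) (nat_lit 5) (nat_lit 366) (nat_lit 5) (nat_lit 367) (nat_lit 5) (nat_lit 594) (nat_lit 550) (nat_lit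 416)))) (XT.nd (nat_lit 77766) (nat_lit 0) (nat_lit 18012) (XT.nd (nat_lit 78) (nat_lit 684) (nat_lit 0) (XT.lf (nat_lit 0) (nat_lit 8960907165) (nat_lit 760) (nat_lit 851058090) (nat_lit 836) (nat_lit 2439093706) (nat_lit 356) (nat_lit 5) (nat_lit 366) (nat_lit 5) (nat_lit 367) (nat_lit 5) (nat_lit 595) (nat_lit 550) (nat_lit 415)) (XT.lf (nat_lit 0) (nat_lit 3955672208) (nat_lit 684) (nat_lit 8173993109) (nat_lit 760) (nat_lit 251538584) (nat_lit 347) (nat_lit 5) (nat_lit 356) (nat_lit 5) (nat_lit 357) (nat_lit 5) (nat_lit 596) (nat_lit 550) (nat_lit 414))) (XT.nd (nat_lit 78) (nat_lit 0) (nat_lit 0) (XT.lf (nat_lit 0) (nat_lit 567550293) (nat_lit 0) (nat_lit 567550293) (nat_lit 1444) (nat_lit 3002183441) (nat_lit 584) (nat_lit 5) (nat_lit 584) (nat_lit 3) (nat_lit 603) (nat_lit 3) (nat_lit 551) (nat_lit 551) (nat_lit 458)) (XT.lf (nat_lit 0) (nat_lit 3420711227) (nat_lit 1444) (nat_lit 3037430884) (nat_lit 1520) (nat_lit 1876537217) (nat_lit 584) (nat_lit 5) (nat_lit 603) (nat_lit 3) (nat_lit 604) (nat_lit 5) (nat_lit 552) (nat_lit 551)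 (nat_lit 457)))))) (XT.nd (nat_lit 546) (nat_lit 1444) (nat_lit 0) (XT.nd (nat_lit 234) (nat_lit 1368) (nat_lit 0) (XT.nd (nat_lit 78) (nat_lit 0) (nat_lit 0) (XT.lf (nat_lit 76) (nat_lit 1138752447) (nat_lit 0) (nat_lit 3441225797) (nat_lit 1520) (nat_lit 3816301698) (nat_lit 585) (nat_lit 5) (nat_lit 584) (nat_lit 5) (nat_lit 604) (nat_lit 5) (nat_lit 553) (nat_lit 551) (nat_lit 456)) (XT.nd (nat_lit 78) (nat_lit 0) (nat_lit 76) (XT.lf (nat_lit 76) (nat_lit 5424421650) (nat_lit 0) (nat_lit 329700800) (nat_lit 1520) (nat_lit 2705158294) (nat_lit 585) (nat_lit 5) (nat_lit 584) (nat_lit 5) (nat_lit 604) (nat_lit 5) (nat_lit 554) (nat_lit 551) (nat_lit 455)) (XT.lf (nat_lit 76) (nat_lit 1254689602) (nat_lit 0) (nat_lit 5695629164) (nat_lit 1520) (nat_lit 1573253385) (nat_lit 586) (nat_lit 5) (nat_lit 585) (nat_lit 5) (nat_lit 605) (nat_lit 5) (nat_lit 555) (nat_lit 551) (nat_lit 454)))) (XT.nd (nat_lit 156) (nat_lit 0) (nat_lit 0) (XT.nd (nat_lit 78) (nat_lit 1444) (nat_lit 0) (XT.lf (nat_lit 76) (nat_lit 5653494448) (nat_lit 0) (nat_lit 2511886077)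 (nat_lit 1520) (nat_lit 423871963) (nat_lit 586) (nat_lit 5) (nat_lit 585) (nat_lit 5) (nat_lit 605) (nat_lit 5) (nat_lit 556) (nat_lit 551) (nat_lit 453)) (XT.lf (nat_lit 0) (nat_lit 726024178) (nat_lit 1520) (nat_lit 7178351695) (nat_lit 1596) (nat_lit 752028348) (nat_lit 566) (nat_lit 5) (nat_lit 586) (nat_lit 5) (nat_lit 587) (nat_lit 5) (nat_lit 557) (nat_lit 551) (nat_lit 452))) (XT.nd (nat_lit 78) (nat_lit 0) (nat_lit 0) (XT.lf (nat_lit 0) (nat_lit 1902988564) (nat_lit 1520) (nat_lit 2740174147) (nat_lit 1596) (nat_lit 4081487146) (nat_lit 566) (nat_lit 5) (nat_lit 586) (nat_lit 5) (nat_lit 587) (nat_lit 5) (nat_lit 558) (nat_lit 551) (nat_lit 451)) (XT.lf (nat_lit 76) (nat_lit 1794586737) (nat_lit 0) (nat_lit 1294355879) (nat_lit 1596) (nat_lit 5705610570) (nat_lit 567) (nat_lit 5) (nat_lit 566) (nat_lit 5) (nat_lit 587) (nat_lit 5) (nat_lit 559) (nat_lit 551) (nat_lit 450))))) (XT.nd (nat_lit 312) (nat_lit 1520) (nat_lit 0) (XT.nd (nat_lit 156) (nat_lit 0) (nat_lit 76) (XT.nd (nat_lit 78) (nat_lit 0) (nat_lit 0) (XT.lf (nat_lit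 0) (nat_lit 4305176423) (nat_lit 1520) (nat_lit 2438392427) (nat_lit 1596) (nat_lit 2122156267) (nat_lit 567) (nat_lit 5) (nat_lit 587) (nat_lit 5) (nat_lit 588) (nat_lit 5) (nat_lit 560) (nat_lit 551) (nat_lit 449)) (XT.lf (nat_lit 76) (nat_lit 2219065466) (nat_lit 0) (nat_lit 3324430526) (nat_lit 1596) (nat_lit 3394870993) (nat_lit 568) (nat_lit 5) (nat_lit 567) (nat_lit 5) (nat_lit 588) (nat_lit 5) (nat_lit 561) (nat_lit 551) (nat_lit 448))) (XT.nd (nat_lit 78) (nat_lit 0) (nat_lit 0) (XT.lf (nat_lit 0) (nat_lit 6799344480) (nat_lit 1520) (nat_lit 2026907790) (nat_lit 1596) (nat_lit 186355851) (nat_lit 568) (nat_lit 5) (nat_lit 588) (nat_lit 5) (nat_lit 589) (nat_lit 5) (nat_lit 562) (nat_lit 551) (nat_lit 447)) (XT.lf (nat_lit 76) (nat_lit 2757471002) (nat_lit 0) (nat_lit 5338476378) (nat_lit 1596) (nat_lit 992075603) (nat_lit 569) (nat_lit 5) (nat_lit 568) (nat_lit 5) (nat_lit 589) (nat_lit 5) (nat_lit 563) (nat_lit 551) (nat_lit 446)))) (XT.nd (nat_lit 156) (nat_lit 0) (nat_lit 76) (XT.nd (nat_lit 78) (nat_lit 0) (nat_lit 76) (XT.lf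 (nat_lit 0) (nat_lit 239833643) (nat_lit 1596) (nat_lit 1517625229) (nat_lit 1672) (nat_lit 7407663483) (nat_lit 547) (nat_lit 5) (nat_lit 568) (nat_lit 5) (nat_lit 569) (nat_lit 5) (nat_lit 564) (nat_lit 551) (nat_lit 445)) (XT.lf (nat_lit 0) (nat_lit 1494222442) (nat_lit 1596) (nat_lit 5842353521) (nat_lit 1672) (nat_lit 1906835648) (nat_lit 548) (nat_lit 5) (nat_lit 569) (nat_lit 5) (nat_lit 570) (nat_lit 5) (nat_lit 565) (nat_lit 551) (nat_lit 444))) (XT.nd (nat_lit 78) (nat_lit 0) (nat_lit 76) (XT.lf (nat_lit 0) (nat_lit 2772400522) (nat_lit 1596) (nat_lit 912401554) (nat_lit 1672) (nat_lit 5638492070) (nat_lit 548) (nat_lit 5) (nat_lit 569) (nat_lit 5) (nat_lit 570) (nat_lit 5) (nat_lit 566) (nat_lit 551) (nat_lit 443)) (XT.lf (nat_lit 0) (nat_lit 4080864838) (nat_lit 1596) (nat_lit 5250534089) (nat_lit 1672) (nat_lit 73282449) (nat_lit 549) (nat_lit 5) (nat_lit 570) (nat_lit 5) (nat_lit 571) (nat_lit 5) (nat_lit 567) (nat_lit 551) (nat_lit 442))))))) (XT.nd (nat_lit 1170) (nat_lit 6840) (nat_lit 0) (XT.nd (nat_lit 546) (nat_lit 6308)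 (nat_lit 0) (XT.nd (nat_lit 234) (nat_lit 1520) (nat_lit 0) (XT.nd (nat_lit 78) (nat_lit 0) (nat_lit 0) (XT.lf (nat_lit 0) (nat_lit 5423714984) (nat_lit 1596) (nat_lit 194007621) (nat_lit 1672) (nat_lit 3869810879) (nat_lit 549) (nat_lit 5) (nat_lit 570) (nat_lit 5) (nat_lit 571) (nat_lit 5) (nat_lit 568) (nat_lit 551) (nat_lit 441)) (XT.nd (nat_lit 78) (nat_lit 0) (nat_lit 76) (XT.lf (nat_lit 76) (nat_lit 5013335999) (nat_lit 0) (nat_lit 1790724898) (nat_lit 1672) (nat_lit 2767770399) (nat_lit 550) (nat_lit 5) (nat_lit 549) (nat_lit 5) (nat_lit 571) (nat_lit 5) (nat_lit 569) (nat_lit 551) (nat_lit 440)) (XT.lf (nat_lit 76) (nat_lit 648011534) (nat_lit 0) (nat_lit 7561689221) (nat_lit 1672) (nat_lit 1448161977) (nat_lit 551) (nat_lit 5) (nat_lit 550) (nat_lit 5) (nat_lit 572) (nat_lit 5) (nat_lit 570) (nat_lit 551) (nat_lit 439)))) (XT.nd (nat_lit 156) (nat_lit 0) (nat_lit 0) (XT.nd (nat_lit 78) (nat_lit 1596) (nat_lit 0) (XT.lf (nat_lit 76) (nat_lit 5992103342) (nat_lit 0) (nat_lit 3672489029) (nat_lit 1672) (nat_lit 80601029) (nat_lit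 551) (nat_lit 5) (nat_lit 550) (nat_lit 5) (nat_lit 572) (nat_lit 5) (nat_lit 571) (nat_lit 551) (nat_lit 438)) (XT.lf (nat_lit 0) (nat_lit 1288607750) (nat_lit 1672) (nat_lit 8231336462) (nat_lit 1748) (nat_lit 314326447) (nat_lit 529) (nat_lit 5) (nat_lit 551) (nat_lit 5) (nat_lit 552) (nat_lit 5) (nat_lit 572) (nat_lit 551) (nat_lit 437))) (XT.nd (nat_lit 78) (nat_lit 0) (nat_lit 0) (XT.lf (nat_lit 0) (nat_lit 2713175621) (nat_lit 1672) (nat_lit 2849310493) (nat_lit 1748) (nat_lit 4362052913) (nat_lit 529) (nat_lit 5) (nat_lit 551) (nat_lit 5) (nat_lit 552) (nat_lit 5) (nat_lit 573) (nat_lit 551) (nat_lit 436)) (XT.lf (nat_lit 76) (nat_lit 2658938147) (nat_lit 0) (nat_lit 1504344641) (nat_lit 1748) (nat_lit 5853390292) (nat_lit 530) (nat_lit 5) (nat_lit 529) (nat_lit 5) (nat_lit 552) (nat_lit 5) (nat_lit 574) (nat_lit 551) (nat_lit 435))))) (XT.nd (nat_lit 312) (nat_lit 2888) (nat_lit 0) (XT.nd (nat_lit 156) (nat_lit 1824) (nat_lit 0) (XT.nd (nat_lit 78) (nat_lit 1672) (nat_lit 0) (XT.lf (nat_lit 0) (nat_lit 5658846956) (nat_lit 1672)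 (nat_lit 1828134178) (nat_lit 76) (nat_lit 2623340834) (nat_lit 530) (nat_lit 5) (nat_lit 552) (nat_lit 5) (nat_lit 531) (nat_lit 5) (nat_lit 575) (nat_lit 551) (nat_lit 434)) (XT.lf (nat_lit 0) (nat_lit 3836126003) (nat_lit 1672) (nat_lit 3363555774) (nat_lit 1748) (nat_lit 3005856095) (nat_lit 508) (nat_lit 5) (nat_lit 530) (nat_lit 5) (nat_lit 531) (nat_lit 5) (nat_lit 576) (nat_lit 551) (nat_lit 433))) (XT.nd (nat_lit 78) (nat_lit 1824) (nat_lit 0) (XT.lf (nat_lit 0) (nat_lit 8769938835) (nat_lit 1748) (nat_lit 686090884) (nat_lit 76) (nat_lit 846657468) (nat_lit 508) (nat_lit 5) (nat_lit 531) (nat_lit 5) (nat_lit 509) (nat_lit 5) (nat_lit 577) (nat_lit 551) (nat_lit 432)) (XT.lf (nat_lit 0) (nat_lit 7270238) (nat_lit 1824) (nat_lit 5261316908) (nat_lit 76) (nat_lit 5132456358) (nat_lit 484) (nat_lit 5) (nat_lit 508) (nat_lit 5) (nat_lit 485) (nat_lit 5) (nat_lit 578) (nat_lit 551) (nat_lit 431)))) (XT.nd (nat_lit 156) (nat_lit 1064) (nat_lit 0) (XT.nd (nat_lit 78) (nat_lit 0) (nat_lit 0) (XT.lf (nat_lit 0) (nat_lit 570995615) (nat_lit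 1824) (nat_lit 976235678) (nat_lit 1900) (nat_lit 8954140846) (nat_lit 460) (nat_lit 5) (nat_lit 484) (nat_lit 5) (nat_lit 485) (nat_lit 5) (nat_lit 579) (nat_lit 551) (nat_lit 430)) (XT.lf (nat_lit 0) (nat_lit 3157198735) (nat_lit 1900) (nat_lit 4050723418) (nat_lit 76) (nat_lit 3395002162) (nat_lit 460) (nat_lit 5) (nat_lit 485) (nat_lit 5) (nat_lit 461) (nat_lit 5) (nat_lit 580) (nat_lit 551) (nat_lit 429))) (XT.nd (nat_lit 78) (nat_lit 0) (nat_lit 0) (XT.lf (nat_lit 0) (nat_lit 1949276147) (nat_lit 1064) (nat_lit 2851151040) (nat_lit 1140) (nat_lit 5906060203) (nat_lit 446) (nat_lit 5) (nat_lit 460) (nat_lit 5) (nat_lit 461) (nat_lit 5) (nat_lit 581) (nat_lit 551) (nat_lit 428)) (XT.lf (nat_lit 0) (nat_lit 6496423348) (nat_lit 1140) (nat_lit 2714521511) (nat_lit 76) (nat_lit 1600779874) (nat_lit 446) (nat_lit 5) (nat_lit 461) (nat_lit 5) (nat_lit 447) (nat_lit 5) (nat_lit 582) (nat_lit 551) (nat_lit 427)))))) (XT.nd (nat_lit 546) (nat_lit 3268) (nat_lit 0) (XT.nd (nat_lit 234) (nat_lit 1672) (nat_lit 0) (XT.nd (nat_lit 78) (nat_lit 988)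 (nat_lit 0) (XT.lf (nat_lit 0) (nat_lit 3459227715) (nat_lit 912) (nat_lit 4791001553) (nat_lit 988) (nat_lit 2668360803) (nat_lit 434) (nat_lit 5) (nat_lit 446) (nat_lit 5) (nat_lit 447) (nat_lit 5) (nat_lit 583) (nat_lit 551) (nat_lit 426)) (XT.nd (nat_lit 78) (nat_lit 988) (nat_lit 0) (XT.lf (nat_lit 0) (nat_lit 9777074190) (nat_lit 912) (nat_lit 263038601) (nat_lit 988) (nat_lit 987460921) (nat_lit 434) (nat_lit 5) (nat_lit 446) (nat_lit 5) (nat_lit 447) (nat_lit 5) (nat_lit 584) (nat_lit 551) (nat_lit 425)) (XT.lf (nat_lit 0) (nat_lit 762369137) (nat_lit 988) (nat_lit 6037849327) (nat_lit 76) (nat_lit 4337528186) (nat_lit 421) (nat_lit 5) (nat_lit 434) (nat_lit 5) (nat_lit 422) (nat_lit 5) (nat_lit 585) (nat_lit 551) (nat_lit 424)))) (XT.nd (nat_lit 156) (nat_lit 836) (nat_lit 0) (XT.nd (nat_lit 78) (nat_lit 0) (nat_lit 0) (XT.lf (nat_lit 0) (nat_lit 323889720) (nat_lit 836) (nat_lit 2205633171) (nat_lit 912) (nat_lit 8720559596) (nat_lit 410) (nat_lit 5) (nat_lit 421) (nat_lit 5) (nat_lit 422) (nat_lit 5) (nat_lit 586) (nat_lit 551)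 (nat_lit 423)) (XT.lf (nat_lit 0) (nat_lit 4372382700) (nat_lit 912) (nat_lit 4502067291) (nat_lit 76) (nat_lit 2489408738) (nat_lit 410) (nat_lit 5) (nat_lit 422) (nat_lit 5) (nat_lit 411) (nat_lit 5) (nat_lit 587) (nat_lit 551) (nat_lit 422))) (XT.nd (nat_lit 78) (nat_lit 0) (nat_lit 0) (XT.lf (nat_lit 0) (nat_lit 2046554021) (nat_lit 836) (nat_lit 4217234449) (nat_lit 912) (nat_lit 5215889180) (nat_lit 399) (nat_lit 5) (nat_lit 410) (nat_lit 5) (nat_lit 411) (nat_lit 5) (nat_lit 588) (nat_lit 551) (nat_lit 421)) (XT.lf (nat_lit 0) (nat_lit 8210901759) (nat_lit 912) (nat_lit 2830129750) (nat_lit 76) (nat_lit 556424765) (nat_lit 399) (nat_lit 5) (nat_lit 411) (nat_lit 5) (nat_lit 400) (nat_lit 5) (nat_lit 589) (nat_lit 551) (nat_lit 420))))) (XT.nd (nat_lit 312) (nat_lit 760) (nat_lit 0) (XT.nd (nat_lit 156) (nat_lit 1596) (nat_lit 0) (XT.nd (nat_lit 78) (nat_lit 76) (nat_lit 0) (XT.lf (nat_lit 0) (nat_lit 3912192636) (nat_lit 836) (nat_lit 6322414209) (nat_lit 912) (nat_lit 1482231527) (nat_lit 388) (nat_lit 5) (nat_lit 399) (nat_lit 5)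 (nat_lit 400) (nat_lit 5) (nat_lit 590) (nat_lit 551) (nat_lit 419)) (XT.lf (nat_lit 0) (nat_lit 457680484) (nat_lit 912) (nat_lit 1029830889) (nat_lit 76) (nat_lit 10350967084) (nat_lit 387) (nat_lit 5) (nat_lit 399) (nat_lit 5) (nat_lit 388) (nat_lit 5) (nat_lit 591) (nat_lit 551) (nat_lit 418))) (XT.nd (nat_lit 78) (nat_lit 760) (nat_lit 0) (XT.lf (nat_lit 0) (nat_lit 2462483723) (nat_lit 912) (nat_lit 6051993178) (nat_lit 76) (nat_lit 3446960534) (nat_lit 376) (nat_lit 5) (nat_lit 388) (nat_lit 5) (nat_lit 377) (nat_lit 5) (nat_lit 592) (nat_lit 551) (nat_lit 417)) (XT.lf (nat_lit 0) (nat_lit 900572574) (nat_lit 760) (nat_lit 3614383365) (nat_lit 836) (nat_lit 7571749019) (nat_lit 366) (nat_lit 5) (nat_lit 376) (nat_lit 5) (nat_lit 377) (nat_lit 5) (nat_lit 593) (nat_lit 551) (nat_lit 416)))) (XT.nd (nat_lit 77922) (nat_lit 0) (nat_lit 17328) (XT.nd (nat_lit 78) (nat_lit 760) (nat_lit 0) (XT.lf (nat_lit 0) (nat_lit 6643445697) (nat_lit 836) (nat_lit 4164967098) (nat_lit 76) (nat_lit 1405366484) (nat_lit 366) (nat_lit 5) (nat_lit 377)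 (nat_lit 5) (nat_lit 367) (nat_lit 5) (nat_lit 594) (nat_lit 551) (nat_lit 415)) (XT.lf (nat_lit 0) (nat_lit 2996023092) (nat_lit 760) (nat_lit 5847265843) (nat_lit 836) (nat_lit 3499531271) (nat_lit 356) (nat_lit 5) (nat_lit 366) (nat_lit 5) (nat_lit 367) (nat_lit 5) (nat_lit 595) (nat_lit 551) (nat_lit 414))) (XT.nd (nat_lit 78) (nat_lit 0) (nat_lit 0) (XT.lf (nat_lit 0) (nat_lit 1133011339) (nat_lit 0) (nat_lit 1133011339) (nat_lit 1444) (nat_lit 1931764888) (nat_lit 584) (nat_lit 5) (nat_lit 584) (nat_lit 3) (nat_lit 603) (nat_lit 3) (nat_lit 552) (nat_lit 552) (nat_lit 456)) (XT.lf (nat_lit 0) (nat_lit 5655051786) (nat_lit 1444) (nat_lit 1961022969) (nat_lit 1520) (nat_lit 841827202) (nat_lit 584) (nat_lit 5) (nat_lit 603) (nat_lit 3) (nat_lit 604) (nat_lit 5) (nat_lit 553) (nat_lit 552) (nat_lit 455))))))))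
noncomputable def xc69 : XT := (XT.nd (nat_lit 2340) (nat_lit 6080) (nat_lit 0) (XT.nd (nat_lit 1170) (nat_lit 7676) (nat_lit 0) (XT.nd (nat_lit 546) (nat_lit 1368) (nat_lit 0) (XT.nd (nat_lit 234) (nat_lit 0) (nat_lit 0) (XT.nd (nat_lit 78) (nat_lit 1444) (nat_lit 0) (XT.lf (nat_lit 76) (nat_lit 2291202736) (nat_lit 0) (nat_lit 4511166864) (nat_lit 1520) (nat_lit 1719070662) (nat_lit 585) (nat_lit 5) (nat_lit 584) (nat_lit 5) (nat_lit 604) (nat_lit 5) (nat_lit 554) (nat_lit 552) (nat_lit 454)) (XT.nd (nat_lit 78) (nat_lit 1444) (nat_lit 0) (XT.lf (nat_lit 76) (nat_lit 6640434828) (nat_lit 0) (nat_lit 1317781631) (nat_lit 1520) (nat_lit 628323156) (nat_lit 585) (nat_lit 5) (nat_lit 584) (nat_lit 5) (nat_lit 604) (nat_lit 5) (nat_lit 555) (nat_lit 552) (nat_lit 453)) (XT.lf (nat_lit 0) (nat_lit 479298759) (nat_lit 1520) (nat_lit 6228064834) (nat_lit 1596) (nat_lit 1945488134) (nat_lit 565) (nat_lit 5) (nat_lit 585) (nat_lit 5) (nat_lit 586) (nat_lit 5) (nat_lit 556) (nat_lit 552) (nat_lit 452)))) (XT.nd (nat_lit 156) (nat_lit 0) (nat_lit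 76) (XT.nd (nat_lit 78) (nat_lit 0) (nat_lit 0) (XT.lf (nat_lit 0) (nat_lit 1595841566) (nat_lit 1520) (nat_lit 1838944073) (nat_lit 1596) (nat_lit 5285719566) (nat_lit 565) (nat_lit 5) (nat_lit 585) (nat_lit 5) (nat_lit 586) (nat_lit 5) (nat_lit 557) (nat_lit 552) (nat_lit 451)) (XT.lf (nat_lit 76) (nat_lit 2657899346) (nat_lit 0) (nat_lit 67897170) (nat_lit 1596) (nat_lit 6063895399) (nat_lit 566) (nat_lit 5) (nat_lit 565) (nat_lit 5) (nat_lit 586) (nat_lit 5) (nat_lit 558) (nat_lit 552) (nat_lit 450))) (XT.nd (nat_lit 78) (nat_lit 0) (nat_lit 0) (XT.lf (nat_lit 0) (nat_lit 3886941493) (nat_lit 1520) (nat_lit 1627755087) (nat_lit 1596) (nat_lit 3345395710) (nat_lit 566) (nat_lit 5) (nat_lit 586) (nat_lit 5) (nat_lit 587) (nat_lit 5) (nat_lit 559) (nat_lit 552) (nat_lit 449)) (XT.lf (nat_lit 76) (nat_lit 2990021918) (nat_lit 0) (nat_lit 2075966464) (nat_lit 1596) (nat_lit 3866020429) (nat_lit 567) (nat_lit 5) (nat_lit 566) (nat_lit 5) (nat_lit 587) (nat_lit 5) (nat_lit 560) (nat_lit 552) (nat_lit 448))))) (XT.nd (nat_lit 312) (nat_lit 0)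 (nat_lit 0) (XT.nd (nat_lit 156) (nat_lit 1520) (nat_lit 0) (XT.nd (nat_lit 78) (nat_lit 0) (nat_lit 0) (XT.lf (nat_lit 0) (nat_lit 6264182164) (nat_lit 1520) (nat_lit 1307860725) (nat_lit 1596) (nat_lit 1433411139) (nat_lit 567) (nat_lit 5) (nat_lit 587) (nat_lit 5) (nat_lit 588) (nat_lit 5) (nat_lit 561) (nat_lit 552) (nat_lit 447)) (XT.lf (nat_lit 76) (nat_lit 3434987776) (nat_lit 0) (nat_lit 4063163196) (nat_lit 1596) (nat_lit 1581982604) (nat_lit 568) (nat_lit 5) (nat_lit 567) (nat_lit 5) (nat_lit 588) (nat_lit 5) (nat_lit 562) (nat_lit 552) (nat_lit 446))) (XT.nd (nat_lit 78) (nat_lit 1520) (nat_lit 0) (XT.lf (nat_lit 76) (nat_lit 8275259505) (nat_lit 0) (nat_lit 466453731) (nat_lit 1596) (nat_lit 414896815) (nat_lit 568) (nat_lit 5) (nat_lit 567) (nat_lit 5) (nat_lit 588) (nat_lit 5) (nat_lit 563) (nat_lit 552) (nat_lit 445)) (XT.lf (nat_lit 0) (nat_lit 788895592) (nat_lit 1596) (nat_lit 5245418926) (nat_lit 1672) (nat_lit 3199731667) (nat_lit 547) (nat_lit 5) (nat_lit 568) (nat_lit 5) (nat_lit 569) (nat_lit 5) (nat_lit 564) (nat_lit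 552) (nat_lit 444)))) (XT.nd (nat_lit 156) (nat_lit 0) (nat_lit 76) (XT.nd (nat_lit 78) (nat_lit 0) (nat_lit 76) (XT.lf (nat_lit 0) (nat_lit 1997121720) (nat_lit 1596) (nat_lit 366434539) (nat_lit 1672) (nat_lit 6949703190) (nat_lit 547) (nat_lit 5) (nat_lit 568) (nat_lit 5) (nat_lit 569) (nat_lit 5) (nat_lit 565) (nat_lit 552) (nat_lit 443)) (XT.lf (nat_lit 0) (nat_lit 3246272792) (nat_lit 1596) (nat_lit 4747218635) (nat_lit 1672) (nat_lit 1400231839) (nat_lit 548) (nat_lit 5) (nat_lit 569) (nat_lit 5) (nat_lit 570) (nat_lit 5) (nat_lit 566) (nat_lit 552) (nat_lit 442))) (XT.nd (nat_lit 78) (nat_lit 0) (nat_lit 0) (XT.lf (nat_lit 76) (nat_lit 260990962) (nat_lit 0) (nat_lit 4256950039) (nat_lit 1672) (nat_lit 4957906141) (nat_lit 549) (nat_lit 5) (nat_lit 548) (nat_lit 5) (nat_lit 570) (nat_lit 5) (nat_lit 567) (nat_lit 552) (nat_lit 441)) (XT.lf (nat_lit 76) (nat_lit 5418132215) (nat_lit 0) (nat_lit 406814198) (nat_lit 1672) (nat_lit 3734470443) (nat_lit 549) (nat_lit 5) (nat_lit 548) (nat_lit 5) (nat_lit 570) (nat_lit 5) (nat_lit 568)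 (nat_lit 552) (nat_lit 440)))))) (XT.nd (nat_lit 546) (nat_lit 6232) (nat_lit 0) (XT.nd (nat_lit 234) (nat_lit 0) (nat_lit 0) (XT.nd (nat_lit 78) (nat_lit 1596) (nat_lit 0) (XT.lf (nat_lit 76) (nat_lit 1008377908) (nat_lit 0) (nat_lit 6157635856) (nat_lit 1672) (nat_lit 2478487173) (nat_lit 550) (nat_lit 5) (nat_lit 549) (nat_lit 5) (nat_lit 571) (nat_lit 5) (nat_lit 569) (nat_lit 552) (nat_lit 439)) (XT.nd (nat_lit 78) (nat_lit 1596) (nat_lit 0) (XT.lf (nat_lit 76) (nat_lit 6298794392) (nat_lit 0) (nat_lit 2244412796) (nat_lit 1672) (nat_lit 1187894799) (nat_lit 550) (nat_lit 5) (nat_lit 549) (nat_lit 5) (nat_lit 571) (nat_lit 5) (nat_lit 570) (nat_lit 552) (nat_lit 438)) (XT.lf (nat_lit 0) (nat_lit 129633348) (nat_lit 1672) (nat_lit 7947217715) (nat_lit 1748) (nat_lit 1742512446) (nat_lit 528) (nat_lit 5) (nat_lit 550) (nat_lit 5) (nat_lit 551) (nat_lit 5) (nat_lit 571) (nat_lit 552) (nat_lit 437)))) (XT.nd (nat_lit 156) (nat_lit 0) (nat_lit 76) (XT.nd (nat_lit 78) (nat_lit 0) (nat_lit 0) (XT.lf (nat_lit 0) (nat_lit 1475125779) (nat_lit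 1672) (nat_lit 2618559224) (nat_lit 1748) (nat_lit 5815199130) (nat_lit 528) (nat_lit 5) (nat_lit 550) (nat_lit 5) (nat_lit 551) (nat_lit 5) (nat_lit 572) (nat_lit 552) (nat_lit 436)) (XT.lf (nat_lit 76) (nat_lit 2838248883) (nat_lit 0) (nat_lit 7565771) (nat_lit 1748) (nat_lit 7154416059) (nat_lit 529) (nat_lit 5) (nat_lit 528) (nat_lit 5) (nat_lit 551) (nat_lit 5) (nat_lit 573) (nat_lit 552) (nat_lit 435))) (XT.nd (nat_lit 78) (nat_lit 0) (nat_lit 0) (XT.lf (nat_lit 0) (nat_lit 4268797591) (nat_lit 1672) (nat_lit 1696462896) (nat_lit 1748) (nat_lit 4127647382) (nat_lit 529) (nat_lit 5) (nat_lit 551) (nat_lit 5) (nat_lit 552) (nat_lit 5) (nat_lit 574) (nat_lit 552) (nat_lit 434)) (XT.lf (nat_lit 76) (nat_lit 3913991284) (nat_lit 0) (nat_lit 1812280582) (nat_lit 1748) (nat_lit 4461047296) (nat_lit 530) (nat_lit 5) (nat_lit 529) (nat_lit 5) (nat_lit 552) (nat_lit 5) (nat_lit 575) (nat_lit 552) (nat_lit 433))))) (XT.nd (nat_lit 312) (nat_lit 2888) (nat_lit 0) (XT.nd (nat_lit 156) (nat_lit 1824) (nat_lit 0) (XT.nd (nat_lit 78) (nat_lit 1672)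 (nat_lit 0) (XT.lf (nat_lit 0) (nat_lit 7220964524) (nat_lit 1672) (nat_lit 655514769) (nat_lit 76) (nat_lit 2406979212) (nat_lit 530) (nat_lit 5) (nat_lit 552) (nat_lit 5) (nat_lit 531) (nat_lit 5) (nat_lit 576) (nat_lit 552) (nat_lit 432)) (XT.lf (nat_lit 0) (nat_lit 5114075471) (nat_lit 1672) (nat_lit 3657929133) (nat_lit 1748) (nat_lit 1608988139) (nat_lit 508) (nat_lit 5) (nat_lit 530) (nat_lit 5) (nat_lit 531) (nat_lit 5) (nat_lit 577) (nat_lit 552) (nat_lit 431))) (XT.nd (nat_lit 78) (nat_lit 76) (nat_lit 0) (XT.lf (nat_lit 0) (nat_lit 514143453) (nat_lit 1748) (nat_lit 9833409468) (nat_lit 1824) (nat_lit 133056151) (nat_lit 485) (nat_lit 5) (nat_lit 508) (nat_lit 5) (nat_lit 509) (nat_lit 5) (nat_lit 578) (nat_lit 552) (nat_lit 430)) (XT.lf (nat_lit 0) (nat_lit 1395869005) (nat_lit 1824) (nat_lit 4148736398) (nat_lit 76) (nat_lit 5036605751) (nat_lit 484) (nat_lit 5) (nat_lit 508) (nat_lit 5) (nat_lit 485) (nat_lit 5) (nat_lit 579) (nat_lit 552) (nat_lit 429)))) (XT.nd (nat_lit 156) (nat_lit 1064) (nat_lit 0) (XT.nd (nat_lit 78)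 (nat_lit 0) (nat_lit 0) (XT.lf (nat_lit 0) (nat_lit 1792210489) (nat_lit 1824) (nat_lit 1155049009) (nat_lit 1900) (nat_lit 7736675910) (nat_lit 460) (nat_lit 5) (nat_lit 484) (nat_lit 5) (nat_lit 485) (nat_lit 5) (nat_lit 580) (nat_lit 552) (nat_lit 428)) (XT.lf (nat_lit 0) (nat_lit 4561567583) (nat_lit 1900) (nat_lit 2917724805) (nat_lit 76) (nat_lit 3308785031) (nat_lit 460) (nat_lit 5) (nat_lit 485) (nat_lit 5) (nat_lit 461) (nat_lit 5) (nat_lit 581) (nat_lit 552) (nat_lit 427))) (XT.nd (nat_lit 78) (nat_lit 0) (nat_lit 0) (XT.lf (nat_lit 0) (nat_lit 3194287824) (nat_lit 1064) (nat_lit 3024904576) (nat_lit 1140) (nat_lit 4674890306) (nat_lit 446) (nat_lit 5) (nat_lit 460) (nat_lit 5) (nat_lit 461) (nat_lit 5) (nat_lit 582) (nat_lit 552) (nat_lit 426)) (XT.lf (nat_lit 0) (nat_lit 7922429046) (nat_lit 1140) (nat_lit 1559676178) (nat_lit 76) (nat_lit 1519854713) (nat_lit 446) (nat_lit 5) (nat_lit 461) (nat_lit 5) (nat_lit 447) (nat_lit 5) (nat_lit 583) (nat_lit 552) (nat_lit 425))))))) (XT.nd (nat_lit 79014) (nat_lit 0) (nat_lit 13680)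 (XT.nd (nat_lit 546) (nat_lit 2508) (nat_lit 0) (XT.nd (nat_lit 234) (nat_lit 1672) (nat_lit 0) (XT.nd (nat_lit 78) (nat_lit 988) (nat_lit 0) (XT.lf (nat_lit 0) (nat_lit 4729593191) (nat_lit 912) (nat_lit 4964103477) (nat_lit 988) (nat_lit 1417619728) (nat_lit 434) (nat_lit 5) (nat_lit 446) (nat_lit 5) (nat_lit 447) (nat_lit 5) (nat_lit 584) (nat_lit 552) (nat_lit 424)) (XT.nd (nat_lit 78) (nat_lit 912) (nat_lit 0) (XT.lf (nat_lit 0) (nat_lit 267768893) (nat_lit 988) (nat_lit 74500172) (nat_lit 76) (nat_lit 10880678266) (nat_lit 433) (nat_lit 5) (nat_lit 446) (nat_lit 5) (nat_lit 434) (nat_lit 5) (nat_lit 585) (nat_lit 552) (nat_lit 423)) (XT.lf (nat_lit 0) (nat_lit 2021972143) (nat_lit 988) (nat_lit 4946650956) (nat_lit 76) (nat_lit 4366919548) (nat_lit 421) (nat_lit 5) (nat_lit 434) (nat_lit 5) (nat_lit 422) (nat_lit 5) (nat_lit 586) (nat_lit 552) (nat_lit 422)))) (XT.nd (nat_lit 156) (nat_lit 836) (nat_lit 0) (XT.nd (nat_lit 78) (nat_lit 0) (nat_lit 0) (XT.lf (nat_lit 0) (nat_lit 1534349482) (nat_lit 836) (nat_lit 2273537410) (nat_lit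 912) (nat_lit 7642571359) (nat_lit 410) (nat_lit 5) (nat_lit 421) (nat_lit 5) (nat_lit 422) (nat_lit 5) (nat_lit 587) (nat_lit 552) (nat_lit 421)) (XT.lf (nat_lit 0) (nat_lit 5663378464) (nat_lit 912) (nat_lit 3387439692) (nat_lit 76) (nat_lit 2516177751) (nat_lit 410) (nat_lit 5) (nat_lit 422) (nat_lit 5) (nat_lit 411) (nat_lit 5) (nat_lit 588) (nat_lit 552) (nat_lit 420))) (XT.nd (nat_lit 78) (nat_lit 0) (nat_lit 0) (XT.lf (nat_lit 0) (nat_lit 3284228593) (nat_lit 836) (nat_lit 4292554826) (nat_lit 912) (nat_lit 4108665720) (nat_lit 399) (nat_lit 5) (nat_lit 410) (nat_lit 5) (nat_lit 411) (nat_lit 5) (nat_lit 589) (nat_lit 552) (nat_lit 419)) (XT.lf (nat_lit 0) (nat_lit 9539607805) (nat_lit 912) (nat_lit 1690156889) (nat_lit 76) (nat_lit 576284590) (nat_lit 399) (nat_lit 5) (nat_lit 411) (nat_lit 5) (nat_lit 400) (nat_lit 5) (nat_lit 590) (nat_lit 552) (nat_lit 418))))) (XT.nd (nat_lit 312) (nat_lit 0) (nat_lit 0) (XT.nd (nat_lit 156) (nat_lit 760) (nat_lit 0) (XT.nd (nat_lit 78) (nat_lit 912) (nat_lit 0) (XT.lf (nat_lit 0) (nat_lit 5179139737)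 (nat_lit 836) (nat_lit 6409532007) (nat_lit 912) (nat_lit 339450886) (nat_lit 388) (nat_lit 5) (nat_lit 399) (nat_lit 5) (nat_lit 400) (nat_lit 5) (nat_lit 591) (nat_lit 552) (nat_lit 417)) (XT.lf (nat_lit 0) (nat_lit 131834461) (nat_lit 836) (nat_lit 1470217063) (nat_lit 912) (nat_lit 10450429627) (nat_lit 376) (nat_lit 5) (nat_lit 387) (nat_lit 5) (nat_lit 388) (nat_lit 5) (nat_lit 592) (nat_lit 552) (nat_lit 416))) (XT.nd (nat_lit 78) (nat_lit 760) (nat_lit 0) (XT.lf (nat_lit 0) (nat_lit 3631811189) (nat_lit 912) (nat_lit 4978155124) (nat_lit 76) (nat_lit 3568237013) (nat_lit 376) (nat_lit 5) (nat_lit 388) (nat_lit 5) (nat_lit 377) (nat_lit 5) (nat_lit 593) (nat_lit 552) (nat_lit 415)) (XT.lf (nat_lit 0) (nat_lit 2105600904) (nat_lit 760) (nat_lit 3605476537) (nat_lit 836) (nat_lit 6595185069) (nat_lit 366) (nat_lit 5) (nat_lit 376) (nat_lit 5) (nat_lit 377) (nat_lit 5) (nat_lit 594) (nat_lit 552) (nat_lit 414)))) (XT.nd (nat_lit 78000) (nat_lit 0) (nat_lit 15048) (XT.nd (nat_lit 77922) (nat_lit 0) (nat_lit 16568) (XT.lf (nat_lit 0) (nat_lit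 7860971035) (nat_lit 836) (nat_lit 3063299521) (nat_lit 76) (nat_lit 1512032260) (nat_lit 366) (nat_lit 5) (nat_lit 377) (nat_lit 5) (nat_lit 367) (nat_lit 5) (nat_lit 595) (nat_lit 552) (nat_lit 413)) (XT.lf (nat_lit 0) (nat_lit 1688264838) (nat_lit 0) (nat_lit 1688264838) (nat_lit 1444) (nat_lit 883835190) (nat_lit 584) (nat_lit 5) (nat_lit 584) (nat_lit 3) (nat_lit 603) (nat_lit 3) (nat_lit 553) (nat_lit 553) (nat_lit 454))) (XT.nd (nat_lit 78) (nat_lit 1520) (nat_lit 0) (XT.lf (nat_lit 0) (nat_lit 7676879187) (nat_lit 0) (nat_lit 174225597) (nat_lit 1444) (nat_lit 734149659) (nat_lit 584) (nat_lit 5) (nat_lit 584) (nat_lit 3) (nat_lit 603) (nat_lit 3) (nat_lit 554) (nat_lit 553) (nat_lit 453)) (XT.lf (nat_lit 0) (nat_lit 331300317) (nat_lit 1520) (nat_lit 5230108660) (nat_lit 1596) (nat_lit 3089311848) (nat_lit 564) (nat_lit 5) (nat_lit 584) (nat_lit 5) (nat_lit 585) (nat_lit 5) (nat_lit 555) (nat_lit 553) (nat_lit 452)))))) (XT.nd (nat_lit 546) (nat_lit 1368) (nat_lit 0) (XT.nd (nat_lit 234) (nat_lit 0) (nat_lit 76) (XT.nd (nat_lit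 78) (nat_lit 0) (nat_lit 76) (XT.lf (nat_lit 0) (nat_lit 1388844736) (nat_lit 1520) (nat_lit 889347134) (nat_lit 1596) (nat_lit 6439597118) (nat_lit 564) (nat_lit 5) (nat_lit 584) (nat_lit 5) (nat_lit 585) (nat_lit 5) (nat_lit 556) (nat_lit 553) (nat_lit 451)) (XT.nd (nat_lit 78) (nat_lit 0) (nat_lit 0) (XT.lf (nat_lit 0) (nat_lit 2471748097) (nat_lit 1520) (nat_lit 5222506494) (nat_lit 1596) (nat_lit 1091861549) (nat_lit 565) (nat_lit 5) (nat_lit 585) (nat_lit 5) (nat_lit 586) (nat_lit 5) (nat_lit 557) (nat_lit 553) (nat_lit 450)) (XT.lf (nat_lit 0) (nat_lit 3571742086) (nat_lit 1520) (nat_lit 767762527) (nat_lit 1596) (nat_lit 4516398322) (nat_lit 565) (nat_lit 5) (nat_lit 585) (nat_lit 5) (nat_lit 586) (nat_lit 5) (nat_lit 558) (nat_lit 553) (nat_lit 449)))) (XT.nd (nat_lit 156) (nat_lit 0) (nat_lit 76) (XT.nd (nat_lit 78) (nat_lit 0) (nat_lit 76) (XT.lf (nat_lit 76) (nat_lit 3811728547) (nat_lit 0) (nat_lit 881596547) (nat_lit 1596) (nat_lit 4233770306) (nat_lit 566) (nat_lit 5) (nat_lit 565) (nat_lit 5) (nat_lit 586) (nat_lit 5) (nat_lit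 559) (nat_lit 553) (nat_lit 448)) (XT.lf (nat_lit 0) (nat_lit 5835012077) (nat_lit 1520) (nat_lit 538412321) (nat_lit 1596) (nat_lit 2626335556) (nat_lit 566) (nat_lit 5) (nat_lit 586) (nat_lit 5) (nat_lit 587) (nat_lit 5) (nat_lit 560) (nat_lit 553) (nat_lit 447))) (XT.nd (nat_lit 78) (nat_lit 0) (nat_lit 76) (XT.lf (nat_lit 76) (nat_lit 4164339318) (nat_lit 0) (nat_lit 2843863598) (nat_lit 1596) (nat_lit 2065503130) (nat_lit 567) (nat_lit 5) (nat_lit 566) (nat_lit 5) (nat_lit 587) (nat_lit 5) (nat_lit 561) (nat_lit 553) (nat_lit 446)) (XT.lf (nat_lit 0) (nat_lit 8189640944) (nat_lit 1520) (nat_lit 200512027) (nat_lit 1596) (nat_lit 759284039) (nat_lit 567) (nat_lit 5) (nat_lit 587) (nat_lit 5) (nat_lit 588) (nat_lit 5) (nat_lit 562) (nat_lit 553) (nat_lit 445))))) (XT.nd (nat_lit 312) (nat_lit 0) (nat_lit 152) (XT.nd (nat_lit 156) (nat_lit 0) (nat_lit 76) (XT.nd (nat_lit 78) (nat_lit 0) (nat_lit 0) (XT.lf (nat_lit 0) (nat_lit 191584293) (nat_lit 1596) (nat_lit 4597696538) (nat_lit 1672) (nat_lit 4436866244) (nat_lit 546) (nat_lit 5) (nat_lit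 567) (nat_lit 5) (nat_lit 568) (nat_lit 5) (nat_lit 563) (nat_lit 553) (nat_lit 444)) (XT.lf (nat_lit 76) (nat_lit 234170180) (nat_lit 0) (nat_lit 1098768087) (nat_lit 1672) (nat_lit 7971731760) (nat_lit 547) (nat_lit 5) (nat_lit 546) (nat_lit 5) (nat_lit 568) (nat_lit 5) (nat_lit 564) (nat_lit 553) (nat_lit 443))) (XT.nd (nat_lit 78) (nat_lit 0) (nat_lit 0) (XT.lf (nat_lit 0) (nat_lit 2522802332) (nat_lit 1596) (nat_lit 4191951623) (nat_lit 1672) (nat_lit 2669497318) (nat_lit 547) (nat_lit 5) (nat_lit 568) (nat_lit 5) (nat_lit 569) (nat_lit 5) (nat_lit 565) (nat_lit 553) (nat_lit 442)) (XT.lf (nat_lit 76) (nat_lit 772024441) (nat_lit 0) (nat_lit 2954492235) (nat_lit 1672) (nat_lit 5739107874) (nat_lit 548) (nat_lit 5) (nat_lit 547) (nat_lit 5) (nat_lit 569) (nat_lit 5) (nat_lit 566) (nat_lit 553) (nat_lit 441)))) (XT.nd (nat_lit 156) (nat_lit 0) (nat_lit 0) (XT.nd (nat_lit 78) (nat_lit 0) (nat_lit 0) (XT.lf (nat_lit 0) (nat_lit 4966490348) (nat_lit 1596) (nat_lit 3677243787) (nat_lit 1672) (nat_lit 904648893) (nat_lit 548) (nat_lit 5) (nat_lit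 569) (nat_lit 5) (nat_lit 570) (nat_lit 5) (nat_lit 567) (nat_lit 553) (nat_lit 440)) (XT.lf (nat_lit 76) (nat_lit 1423466059) (nat_lit 0) (nat_lit 4815182824) (nat_lit 1672) (nat_lit 3394001495) (nat_lit 549) (nat_lit 5) (nat_lit 548) (nat_lit 5) (nat_lit 570) (nat_lit 5) (nat_lit 568) (nat_lit 553) (nat_lit 439))) (XT.nd (nat_lit 78) (nat_lit 0) (nat_lit 76) (XT.lf (nat_lit 76) (nat_lit 6661058858) (nat_lit 0) (nat_lit 878767917) (nat_lit 1672) (nat_lit 2178706157) (nat_lit 549) (nat_lit 5) (nat_lit 548) (nat_lit 5) (nat_lit 570) (nat_lit 5) (nat_lit 569) (nat_lit 553) (nat_lit 438)) (XT.lf (nat_lit 76) (nat_lit 2190498086) (nat_lit 0) (nat_lit 6690468377) (nat_lit 1672) (nat_lit 924889262) (nat_lit 550) (nat_lit 5) (nat_lit 549) (nat_lit 5) (nat_lit 571) (nat_lit 5) (nat_lit 570) (nat_lit 553) (nat_lit 437))))))))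
noncomputable def xc70 : XT := (XT.nd (nat_lit 80262) (nat_lit 0) (nat_lit 4180) (XT.nd (nat_lit 1170) (nat_lit 5168) (nat_lit 0) (XT.nd (nat_lit 546) (nat_lit 5624) (nat_lit 0) (XT.nd (nat_lit 234) (nat_lit 1444) (nat_lit 0) (XT.nd (nat_lit 78) (nat_lit 0) (nat_lit 76) (XT.lf (nat_lit 0) (nat_lit 355357781) (nat_lit 1672) (nat_lit 2333205499) (nat_lit 1748) (nat_lit 7206197096) (nat_lit 527) (nat_lit 5) (nat_lit 549) (nat_lit 5) (nat_lit 550) (nat_lit 5) (nat_lit 571) (nat_lit 553) (nat_lit 436)) (XT.nd (nat_lit 78) (nat_lit 0) (nat_lit 0) (XT.lf (nat_lit 0) (nat_lit 1657971693) (nat_lit 1672) (nat_lit 6920810252) (nat_lit 1748) (nat_lit 1406357256) (nat_lit 528) (nat_lit 5) (nat_lit 550) (nat_lit 5) (nat_lit 551) (nat_lit 5) (nat_lit 572) (nat_lit 553) (nat_lit 435)) (XT.lf (nat_lit 0) (nat_lit 3000457390) (nat_lit 1672) (nat_lit 1508820784) (nat_lit 1748) (nat_lit 5567772289) (nat_lit 528) (nat_lit 5) (nat_lit 550) (nat_lit 5) (nat_lit 551) (nat_lit 5) (nat_lit 573) (nat_lit 553) (nat_lit 434)))) (XT.nd (nat_lit 156) (nat_lit 1520) (nat_lit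 0) (XT.nd (nat_lit 78) (nat_lit 0) (nat_lit 76) (XT.lf (nat_lit 76) (nat_lit 4049478027) (nat_lit 0) (nat_lit 327247580) (nat_lit 1748) (nat_lit 5793936915) (nat_lit 529) (nat_lit 5) (nat_lit 528) (nat_lit 5) (nat_lit 551) (nat_lit 5) (nat_lit 574) (nat_lit 553) (nat_lit 433)) (XT.lf (nat_lit 0) (nat_lit 5797232422) (nat_lit 1672) (nat_lit 567537668) (nat_lit 1748) (nat_lit 3901043669) (nat_lit 529) (nat_lit 5) (nat_lit 551) (nat_lit 5) (nat_lit 552) (nat_lit 5) (nat_lit 575) (nat_lit 553) (nat_lit 432))) (XT.nd (nat_lit 78) (nat_lit 1596) (nat_lit 0) (XT.lf (nat_lit 76) (nat_lit 5147475237) (nat_lit 0) (nat_lit 2115586024) (nat_lit 1748) (nat_lit 3099469701) (nat_lit 530) (nat_lit 5) (nat_lit 529) (nat_lit 5) (nat_lit 552) (nat_lit 5) (nat_lit 576) (nat_lit 553) (nat_lit 431)) (XT.lf (nat_lit 0) (nat_lit 500162738) (nat_lit 1672) (nat_lit 8261144963) (nat_lit 1748) (nat_lit 1699813943) (nat_lit 508) (nat_lit 5) (nat_lit 530) (nat_lit 5) (nat_lit 531) (nat_lit 5) (nat_lit 577) (nat_lit 553) (nat_lit 430))))) (XT.nd (nat_lit 312) (nat_lit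 1976) (nat_lit 0) (XT.nd (nat_lit 156) (nat_lit 1824) (nat_lit 0) (XT.nd (nat_lit 78) (nat_lit 1824) (nat_lit 0) (XT.lf (nat_lit 0) (nat_lit 6370938822) (nat_lit 1672) (nat_lit 3949371302) (nat_lit 1748) (nat_lit 240759329) (nat_lit 508) (nat_lit 5) (nat_lit 530) (nat_lit 5) (nat_lit 531) (nat_lit 5) (nat_lit 578) (nat_lit 553) (nat_lit 429)) (XT.lf (nat_lit 0) (nat_lit 1227291468) (nat_lit 1824) (nat_lit 8970985482) (nat_lit 76) (nat_lit 464654848) (nat_lit 484) (nat_lit 5) (nat_lit 508) (nat_lit 5) (nat_lit 485) (nat_lit 5) (nat_lit 579) (nat_lit 553) (nat_lit 428))) (XT.nd (nat_lit 78) (nat_lit 1824) (nat_lit 0) (XT.lf (nat_lit 0) (nat_lit 2758324411) (nat_lit 1824) (nat_lit 3061193201) (nat_lit 76) (nat_lit 4946546119) (nat_lit 484) (nat_lit 5) (nat_lit 508) (nat_lit 5) (nat_lit 485) (nat_lit 5) (nat_lit 580) (nat_lit 553) (nat_lit 427)) (XT.lf (nat_lit 0) (nat_lit 2990871847) (nat_lit 1824) (nat_lit 1331253234) (nat_lit 1900) (nat_lit 6549091327) (nat_lit 460) (nat_lit 5) (nat_lit 484) (nat_lit 5) (nat_lit 485) (nat_lit 5) (nat_lit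 581) (nat_lit 553) (nat_lit 426)))) (XT.nd (nat_lit 156) (nat_lit 912) (nat_lit 0) (XT.nd (nat_lit 78) (nat_lit 1064) (nat_lit 0) (XT.lf (nat_lit 0) (nat_lit 5941942412) (nat_lit 1900) (nat_lit 1809207827) (nat_lit 76) (nat_lit 3226828115) (nat_lit 460) (nat_lit 5) (nat_lit 485) (nat_lit 5) (nat_lit 461) (nat_lit 5) (nat_lit 582) (nat_lit 553) (nat_lit 425)) (XT.lf (nat_lit 0) (nat_lit 4417368268) (nat_lit 1064) (nat_lit 3197600394) (nat_lit 1140) (nat_lit 3471491630) (nat_lit 446) (nat_lit 5) (nat_lit 460) (nat_lit 5) (nat_lit 461) (nat_lit 5) (nat_lit 583) (nat_lit 553) (nat_lit 424))) (XT.nd (nat_lit 78) (nat_lit 912) (nat_lit 0) (XT.lf (nat_lit 0) (nat_lit 9326626600) (nat_lit 1140) (nat_lit 428686154) (nat_lit 76) (nat_lit 1441696677) (nat_lit 446) (nat_lit 5) (nat_lit 461) (nat_lit 5) (nat_lit 447) (nat_lit 5) (nat_lit 584) (nat_lit 553) (nat_lit 423)) (XT.lf (nat_lit 0) (nat_lit 5978722658) (nat_lit 912) (nat_lit 5137666490) (nat_lit 988) (nat_lit 192503945) (nat_lit 434) (nat_lit 5) (nat_lit 446) (nat_lit 5) (nat_lit 447) (nat_lit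 5) (nat_lit 585) (nat_lit 553) (nat_lit 422)))))) (XT.nd (nat_lit 546) (nat_lit 1596) (nat_lit 0) (XT.nd (nat_lit 234) (nat_lit 1748) (nat_lit 0) (XT.nd (nat_lit 78) (nat_lit 836) (nat_lit 0) (XT.lf (nat_lit 0) (nat_lit 1086344572) (nat_lit 912) (nat_lit 406606219) (nat_lit 988) (nat_lit 9929988540) (nat_lit 421) (nat_lit 5) (nat_lit 433) (nat_lit 5) (nat_lit 434) (nat_lit 5) (nat_lit 586) (nat_lit 553) (nat_lit 421)) (XT.nd (nat_lit 78) (nat_lit 836) (nat_lit 0) (XT.lf (nat_lit 0) (nat_lit 3258447363) (nat_lit 988) (nat_lit 3880690322) (nat_lit 76) (nat_lit 4399126065) (nat_lit 421) (nat_lit 5) (nat_lit 434) (nat_lit 5) (nat_lit 422) (nat_lit 5) (nat_lit 587) (nat_lit 553) (nat_lit 420)) (XT.lf (nat_lit 0) (nat_lit 2722266351) (nat_lit 836) (nat_lit 2341875877) (nat_lit 912) (nat_lit 6591655554) (nat_lit 410) (nat_lit 5) (nat_lit 421) (nat_lit 5) (nat_lit 422) (nat_lit 5) (nat_lit 588) (nat_lit 553) (nat_lit 419)))) (XT.nd (nat_lit 156) (nat_lit 912) (nat_lit 0) (XT.nd (nat_lit 78) (nat_lit 836) (nat_lit 0) (XT.lf (nat_lit 0) (nat_lit 6933458903)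 (nat_lit 912) (nat_lit 2297298304) (nat_lit 76) (nat_lit 2544376007) (nat_lit 410) (nat_lit 5) (nat_lit 422) (nat_lit 5) (nat_lit 411) (nat_lit 5) (nat_lit 589) (nat_lit 553) (nat_lit 418)) (XT.lf (nat_lit 0) (nat_lit 4500185648) (nat_lit 836) (nat_lit 4369732036) (nat_lit 912) (nat_lit 3026343413) (nat_lit 399) (nat_lit 5) (nat_lit 410) (nat_lit 5) (nat_lit 411) (nat_lit 5) (nat_lit 590) (nat_lit 553) (nat_lit 417))) (XT.nd (nat_lit 78) (nat_lit 912) (nat_lit 0) (XT.lf (nat_lit 0) (nat_lit 10849669484) (nat_lit 912) (nat_lit 573849055) (nat_lit 76) (nat_lit 596202563) (nat_lit 399) (nat_lit 5) (nat_lit 411) (nat_lit 5) (nat_lit 400) (nat_lit 5) (nat_lit 591) (nat_lit 553) (nat_lit 416)) (XT.lf (nat_lit 0) (nat_lit 770420186) (nat_lit 912) (nat_lit 5724329302) (nat_lit 76) (nat_lit 5649676874) (nat_lit 387) (nat_lit 5) (nat_lit 399) (nat_lit 5) (nat_lit 388) (nat_lit 5) (nat_lit 592) (nat_lit 553) (nat_lit 415))))) (XT.nd (nat_lit 78234) (nat_lit 0) (nat_lit 14972) (XT.nd (nat_lit 156) (nat_lit 760) (nat_lit 0) (XT.nd (nat_lit 78) (nat_lit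 0) (nat_lit 0) (XT.lf (nat_lit 0) (nat_lit 1284242004) (nat_lit 836) (nat_lit 1447628460) (nat_lit 912) (nat_lit 9539644652) (nat_lit 376) (nat_lit 5) (nat_lit 387) (nat_lit 5) (nat_lit 388) (nat_lit 5) (nat_lit 593) (nat_lit 553) (nat_lit 414)) (XT.lf (nat_lit 0) (nat_lit 4781031220) (nat_lit 912) (nat_lit 3929238874) (nat_lit 76) (nat_lit 3689906702) (nat_lit 376) (nat_lit 5) (nat_lit 388) (nat_lit 5) (nat_lit 377) (nat_lit 5) (nat_lit 594) (nat_lit 553) (nat_lit 413))) (XT.nd (nat_lit 78000) (nat_lit 0) (nat_lit 14972) (XT.lf (nat_lit 0) (nat_lit 3288636489) (nat_lit 760) (nat_lit 3599544454) (nat_lit 836) (nat_lit 5642891414) (nat_lit 366) (nat_lit 5) (nat_lit 376) (nat_lit 5) (nat_lit 377) (nat_lit 5) (nat_lit 595) (nat_lit 553) (nat_lit 412)) (XT.lf (nat_lit 0) (nat_lit 140986818) (nat_lit 1596) (nat_lit 2092009246) (nat_lit 1596) (nat_lit 2092009246) (nat_lit 563) (nat_lit 3) (nat_lit 584) (nat_lit 3) (nat_lit 584) (nat_lit 5) (nat_lit 554) (nat_lit 554) (nat_lit 452)))) (XT.nd (nat_lit 156) (nat_lit 0) (nat_lit 76) (XT.nd (nat_lit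 78) (nat_lit 0) (nat_lit 76) (XT.lf (nat_lit 76) (nat_lit 110512803) (nat_lit 0) (nat_lit 1172124948) (nat_lit 1596) (nat_lit 7433847971) (nat_lit 564) (nat_lit 5) (nat_lit 563) (nat_lit 3) (nat_lit 584) (nat_lit 5) (nat_lit 555) (nat_lit 554) (nat_lit 451)) (XT.lf (nat_lit 0) (nat_lit 2319621396) (nat_lit 1520) (nat_lit 4264594491) (nat_lit 1596) (nat_lit 2199750099) (nat_lit 564) (nat_lit 5) (nat_lit 584) (nat_lit 5) (nat_lit 585) (nat_lit 5) (nat_lit 556) (nat_lit 554) (nat_lit 450))) (XT.nd (nat_lit 78) (nat_lit 0) (nat_lit 76) (XT.lf (nat_lit 76) (nat_lit 143886692) (nat_lit 0) (nat_lit 3216507453) (nat_lit 1596) (nat_lit 5492742471) (nat_lit 565) (nat_lit 5) (nat_lit 564) (nat_lit 5) (nat_lit 585) (nat_lit 5) (nat_lit 557) (nat_lit 554) (nat_lit 449)) (XT.lf (nat_lit 0) (nat_lit 4427049420) (nat_lit 1520) (nat_lit 4240720910) (nat_lit 1596) (nat_lit 255820706) (nat_lit 565) (nat_lit 5) (nat_lit 585) (nat_lit 5) (nat_lit 586) (nat_lit 5) (nat_lit 558) (nat_lit 554) (nat_lit 448))))))) (XT.nd (nat_lit 1170) (nat_lit 8056) (nat_lit 0)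 (XT.nd (nat_lit 546) (nat_lit 1444) (nat_lit 0) (XT.nd (nat_lit 234) (nat_lit 1444) (nat_lit 0) (XT.nd (nat_lit 78) (nat_lit 0) (nat_lit 0) (XT.lf (nat_lit 76) (nat_lit 285564425) (nat_lit 0) (nat_lit 5227963009) (nat_lit 1596) (nat_lit 3481959002) (nat_lit 566) (nat_lit 5) (nat_lit 565) (nat_lit 5) (nat_lit 586) (nat_lit 5) (nat_lit 559) (nat_lit 554) (nat_lit 447)) (XT.nd (nat_lit 78) (nat_lit 0) (nat_lit 76) (XT.lf (nat_lit 76) (nat_lit 4945893928) (nat_lit 0) (nat_lit 1680025704) (nat_lit 1596) (nat_lit 2442818069) (nat_lit 566) (nat_lit 5) (nat_lit 565) (nat_lit 5) (nat_lit 586) (nat_lit 5) (nat_lit 560) (nat_lit 554) (nat_lit 446)) (XT.lf (nat_lit 76) (nat_lit 536184799) (nat_lit 0) (nat_lit 7216713279) (nat_lit 1596) (nat_lit 1390710764) (nat_lit 567) (nat_lit 5) (nat_lit 566) (nat_lit 5) (nat_lit 587) (nat_lit 5) (nat_lit 561) (nat_lit 554) (nat_lit 445)))) (XT.nd (nat_lit 156) (nat_lit 0) (nat_lit 0) (XT.nd (nat_lit 78) (nat_lit 1520) (nat_lit 0) (XT.lf (nat_lit 76) (nat_lit 5318865014) (nat_lit 0) (nat_lit 3598912539) (nat_lit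 1596) (nat_lit 301894211) (nat_lit 567) (nat_lit 5) (nat_lit 566) (nat_lit 5) (nat_lit 587) (nat_lit 5) (nat_lit 562) (nat_lit 554) (nat_lit 444)) (XT.lf (nat_lit 0) (nat_lit 781555571) (nat_lit 1596) (nat_lit 8405998854) (nat_lit 1672) (nat_lit 109928769) (nat_lit 546) (nat_lit 5) (nat_lit 567) (nat_lit 5) (nat_lit 568) (nat_lit 5) (nat_lit 563) (nat_lit 554) (nat_lit 443))) (XT.nd (nat_lit 78) (nat_lit 0) (nat_lit 0) (XT.lf (nat_lit 0) (nat_lit 1910182995) (nat_lit 1596) (nat_lit 3584426064) (nat_lit 1672) (nat_lit 3881652359) (nat_lit 546) (nat_lit 5) (nat_lit 567) (nat_lit 5) (nat_lit 568) (nat_lit 5) (nat_lit 564) (nat_lit 554) (nat_lit 442)) (XT.lf (nat_lit 76) (nat_lit 1336806776) (nat_lit 0) (nat_lit 1711063030) (nat_lit 1672) (nat_lit 6409017128) (nat_lit 547) (nat_lit 5) (nat_lit 546) (nat_lit 5) (nat_lit 568) (nat_lit 5) (nat_lit 565) (nat_lit 554) (nat_lit 441))))) (XT.nd (nat_lit 312) (nat_lit 1520) (nat_lit 0) (XT.nd (nat_lit 156) (nat_lit 0) (nat_lit 76) (XT.nd (nat_lit 78) (nat_lit 0) (nat_lit 0) (XT.lf (nat_lit 0) (nat_lit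 4224670170) (nat_lit 1596) (nat_lit 3162396114) (nat_lit 1672) (nat_lit 2151732918) (nat_lit 547) (nat_lit 5) (nat_lit 568) (nat_lit 5) (nat_lit 569) (nat_lit 5) (nat_lit 566) (nat_lit 554) (nat_lit 440)) (XT.lf (nat_lit 76) (nat_lit 1893534507) (nat_lit 0) (nat_lit 3533725008) (nat_lit 1672) (nat_lit 4195046549) (nat_lit 548) (nat_lit 5) (nat_lit 547) (nat_lit 5) (nat_lit 569) (nat_lit 5) (nat_lit 567) (nat_lit 554) (nat_lit 439))) (XT.nd (nat_lit 78) (nat_lit 0) (nat_lit 0) (XT.lf (nat_lit 0) (nat_lit 6656835246) (nat_lit 1596) (nat_lit 2631104676) (nat_lit 1672) (nat_lit 419485831) (nat_lit 548) (nat_lit 5) (nat_lit 569) (nat_lit 5) (nat_lit 570) (nat_lit 5) (nat_lit 568) (nat_lit 554) (nat_lit 438)) (XT.lf (nat_lit 76) (nat_lit 2564253026) (nat_lit 0) (nat_lit 5366209455) (nat_lit 1672) (nat_lit 1863397510) (nat_lit 549) (nat_lit 5) (nat_lit 548) (nat_lit 5) (nat_lit 570) (nat_lit 5) (nat_lit 569) (nat_lit 554) (nat_lit 437)))) (XT.nd (nat_lit 156) (nat_lit 0) (nat_lit 0) (XT.nd (nat_lit 78) (nat_lit 1596) (nat_lit 0) (XT.lf (nat_lit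 76) (nat_lit 7884787530) (nat_lit 0) (nat_lit 1342150113) (nat_lit 1672) (nat_lit 655139089) (nat_lit 549) (nat_lit 5) (nat_lit 548) (nat_lit 5) (nat_lit 570) (nat_lit 5) (nat_lit 570) (nat_lit 554) (nat_lit 436)) (XT.lf (nat_lit 0) (nat_lit 589690971) (nat_lit 1672) (nat_lit 6624401075) (nat_lit 1748) (nat_lit 2757492524) (nat_lit 527) (nat_lit 5) (nat_lit 549) (nat_lit 5) (nat_lit 550) (nat_lit 5) (nat_lit 571) (nat_lit 554) (nat_lit 435))) (XT.nd (nat_lit 78) (nat_lit 0) (nat_lit 76) (XT.lf (nat_lit 0) (nat_lit 1853352513) (nat_lit 1672) (nat_lit 1265027822) (nat_lit 1748) (nat_lit 6944362727) (nat_lit 527) (nat_lit 5) (nat_lit 549) (nat_lit 5) (nat_lit 550) (nat_lit 5) (nat_lit 572) (nat_lit 554) (nat_lit 434)) (XT.lf (nat_lit 0) (nat_lit 3157630240) (nat_lit 1672) (nat_lit 5919903295) (nat_lit 1748) (nat_lit 1077885555) (nat_lit 528) (nat_lit 5) (nat_lit 550) (nat_lit 5) (nat_lit 551) (nat_lit 5) (nat_lit 573) (nat_lit 554) (nat_lit 433)))))) (XT.nd (nat_lit 546) (nat_lit 4788) (nat_lit 0) (XT.nd (nat_lit 234) (nat_lit 3344) (nat_lit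 0) (XT.nd (nat_lit 78) (nat_lit 0) (nat_lit 0) (XT.lf (nat_lit 0) (nat_lit 4498210767) (nat_lit 1672) (nat_lit 422013708) (nat_lit 1748) (nat_lit 5329521024) (nat_lit 528) (nat_lit 5) (nat_lit 550) (nat_lit 5) (nat_lit 551) (nat_lit 5) (nat_lit 574) (nat_lit 554) (nat_lit 432)) (XT.nd (nat_lit 78) (nat_lit 0) (nat_lit 76) (XT.lf (nat_lit 76) (nat_lit 5240102504) (nat_lit 0) (nat_lit 640915266) (nat_lit 1748) (nat_lit 4464633545) (nat_lit 529) (nat_lit 5) (nat_lit 528) (nat_lit 5) (nat_lit 551) (nat_lit 5) (nat_lit 575) (nat_lit 554) (nat_lit 431)) (XT.lf (nat_lit 76) (nat_lit 545971521) (nat_lit 0) (nat_lit 6757773502) (nat_lit 1748) (nat_lit 3139486099) (nat_lit 530) (nat_lit 5) (nat_lit 529) (nat_lit 5) (nat_lit 552) (nat_lit 5) (nat_lit 576) (nat_lit 554) (nat_lit 430)))) (XT.nd (nat_lit 156) (nat_lit 1824) (nat_lit 0) (XT.nd (nat_lit 78) (nat_lit 1596) (nat_lit 0) (XT.lf (nat_lit 76) (nat_lit 6360770885) (nat_lit 0) (nat_lit 2414587317) (nat_lit 1748) (nat_lit 1766996829) (nat_lit 530) (nat_lit 5) (nat_lit 529) (nat_lit 5) (nat_lit 552)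 (nat_lit 5) (nat_lit 577) (nat_lit 554) (nat_lit 429)) (XT.lf (nat_lit 0) (nat_lit 1642108974) (nat_lit 1672) (nat_lit 8640371379) (nat_lit 1748) (nat_lit 360860642) (nat_lit 508) (nat_lit 5) (nat_lit 530) (nat_lit 5) (nat_lit 531) (nat_lit 5) (nat_lit 578) (nat_lit 554) (nat_lit 428))) (XT.nd (nat_lit 78) (nat_lit 1748) (nat_lit 0) (XT.lf (nat_lit 0) (nat_lit 1086021825) (nat_lit 1748) (nat_lit 3144856493) (nat_lit 76) (nat_lit 6514796015) (nat_lit 507) (nat_lit 5) (nat_lit 530) (nat_lit 5) (nat_lit 508) (nat_lit 5) (nat_lit 579) (nat_lit 554) (nat_lit 427)) (XT.lf (nat_lit 0) (nat_lit 2560207912) (nat_lit 1824) (nat_lit 8002838599) (nat_lit 76) (nat_lit 286897212) (nat_lit 484) (nat_lit 5) (nat_lit 508) (nat_lit 5) (nat_lit 485) (nat_lit 5) (nat_lit 580) (nat_lit 554) (nat_lit 426))))) (XT.nd (nat_lit 312) (nat_lit 1900) (nat_lit 0) (XT.nd (nat_lit 156) (nat_lit 1064) (nat_lit 0) (XT.nd (nat_lit 78) (nat_lit 1824) (nat_lit 0) (XT.lf (nat_lit 0) (nat_lit 4096207188) (nat_lit 1824) (nat_lit 1997351779) (nat_lit 76) (nat_lit 4862093970) (nat_lit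 484) (nat_lit 5) (nat_lit 508) (nat_lit 5) (nat_lit 485) (nat_lit 5) (nat_lit 581) (nat_lit 554) (nat_lit 425)) (XT.lf (nat_lit 0) (nat_lit 4168352826) (nat_lit 1824) (nat_lit 1505036359) (nat_lit 1900) (nat_lit 5389878900) (nat_lit 460) (nat_lit 5) (nat_lit 484) (nat_lit 5) (nat_lit 485) (nat_lit 5) (nat_lit 582) (nat_lit 554) (nat_lit 424))) (XT.nd (nat_lit 78) (nat_lit 1064) (nat_lit 0) (XT.lf (nat_lit 0) (nat_lit 7299865724) (nat_lit 1900) (nat_lit 723831551) (nat_lit 76) (nat_lit 3148984231) (nat_lit 460) (nat_lit 5) (nat_lit 485) (nat_lit 5) (nat_lit 461) (nat_lit 5) (nat_lit 583) (nat_lit 554) (nat_lit 423)) (XT.lf (nat_lit 0) (nat_lit 5619897379) (nat_lit 1064) (nat_lit 3369393354) (nat_lit 1140) (nat_lit 2294385051) (nat_lit 446) (nat_lit 5) (nat_lit 460) (nat_lit 5) (nat_lit 461) (nat_lit 5) (nat_lit 584) (nat_lit 554) (nat_lit 422)))) (XT.nd (nat_lit 156) (nat_lit 912) (nat_lit 0) (XT.nd (nat_lit 78) (nat_lit 76) (nat_lit 0) (XT.lf (nat_lit 0) (nat_lit 688828779) (nat_lit 912) (nat_lit 10026177708) (nat_lit 988) (nat_lit 681834362)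 (nat_lit 434) (nat_lit 5) (nat_lit 446) (nat_lit 5) (nat_lit 447) (nat_lit 5) (nat_lit 585) (nat_lit 554) (nat_lit 421)) (XT.lf (nat_lit 0) (nat_lit 995214578) (nat_lit 988) (nat_lit 4309923351) (nat_lit 76) (nat_lit 6206109620) (nat_lit 433) (nat_lit 5) (nat_lit 446) (nat_lit 5) (nat_lit 434) (nat_lit 5) (nat_lit 586) (nat_lit 554) (nat_lit 420))) (XT.nd (nat_lit 78) (nat_lit 0) (nat_lit 0) (XT.lf (nat_lit 0) (nat_lit 2226241993) (nat_lit 912) (nat_lit 469507508) (nat_lit 988) (nat_lit 8932122142) (nat_lit 421) (nat_lit 5) (nat_lit 433) (nat_lit 5) (nat_lit 434) (nat_lit 5) (nat_lit 587) (nat_lit 554) (nat_lit 419)) (XT.lf (nat_lit 0) (nat_lit 4473208561) (nat_lit 988) (nat_lit 2838644714) (nat_lit 76) (nat_lit 4434117550) (nat_lit 421) (nat_lit 5) (nat_lit 434) (nat_lit 5) (nat_lit 422) (nat_lit 5) (nat_lit 588) (nat_lit 554) (nat_lit 418))))))))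
noncomputable def xc71 : XT := (XT.nd (nat_lit 80418) (nat_lit 0) (nat_lit 836) (XT.nd (nat_lit 79248) (nat_lit 0) (nat_lit 11400) (XT.nd (nat_lit 78624) (nat_lit 0) (nat_lit 12844) (XT.nd (nat_lit 234) (nat_lit 1748) (nat_lit 0) (XT.nd (nat_lit 78) (nat_lit 836) (nat_lit 0) (XT.lf (nat_lit 0) (nat_lit 3889004911) (nat_lit 836) (nat_lit 2410693133) (nat_lit 912) (nat_lit 5566465181) (nat_lit 410) (nat_lit 5) (nat_lit 421) (nat_lit 5) (nat_lit 422) (nat_lit 5) (nat_lit 589) (nat_lit 554) (nat_lit 417)) (XT.nd (nat_lit 78) (nat_lit 836) (nat_lit 0) (XT.lf (nat_lit 0) (nat_lit 8184020497) (nat_lit 912) (nat_lit 1230316375) (nat_lit 76) (nat_lit 2573997380) (nat_lit 410) (nat_lit 5) (nat_lit 422) (nat_lit 5) (nat_lit 411) (nat_lit 5) (nat_lit 590) (nat_lit 554) (nat_lit 416)) (XT.lf (nat_lit 0) (nat_lit 5695795361) (nat_lit 836) (nat_lit 4448789607) (nat_lit 912) (nat_lit 1967593444) (nat_lit 399) (nat_lit 5) (nat_lit 410) (nat_lit 5) (nat_lit 411) (nat_lit 5) (nat_lit 591) (nat_lit 554) (nat_lit 415)))) (XT.nd (nat_lit 156) (nat_lit 836) (nat_lit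 0) (XT.nd (nat_lit 78) (nat_lit 76) (nat_lit 0) (XT.lf (nat_lit 0) (nat_lit 527036908) (nat_lit 836) (nat_lit 11618854761) (nat_lit 912) (nat_lit 92577978) (nat_lit 388) (nat_lit 5) (nat_lit 399) (nat_lit 5) (nat_lit 400) (nat_lit 5) (nat_lit 592) (nat_lit 554) (nat_lit 414)) (XT.lf (nat_lit 0) (nat_lit 1854762741) (nat_lit 912) (nat_lit 4726373336) (nat_lit 76) (nat_lit 5784741208) (nat_lit 387) (nat_lit 5) (nat_lit 399) (nat_lit 5) (nat_lit 388) (nat_lit 5) (nat_lit 593) (nat_lit 554) (nat_lit 413))) (XT.nd (nat_lit 78156) (nat_lit 0) (nat_lit 14212) (XT.lf (nat_lit 0) (nat_lit 2415050695) (nat_lit 836) (nat_lit 1426607034) (nat_lit 912) (nat_lit 8654126927) (nat_lit 376) (nat_lit 5) (nat_lit 387) (nat_lit 5) (nat_lit 388) (nat_lit 5) (nat_lit 594) (nat_lit 554) (nat_lit 412)) (XT.lf (nat_lit 0) (nat_lit 1134459402) (nat_lit 1596) (nat_lit 1628582641) (nat_lit 1596) (nat_lit 1628582641) (nat_lit 563) (nat_lit 3) (nat_lit 584) (nat_lit 3) (nat_lit 584) (nat_lit 5) (nat_lit 555) (nat_lit 555) (nat_lit 450))))) (XT.nd (nat_lit 312) (nat_lit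 1368) (nat_lit 0) (XT.nd (nat_lit 156) (nat_lit 0) (nat_lit 76) (XT.nd (nat_lit 78) (nat_lit 0) (nat_lit 76) (XT.lf (nat_lit 76) (nat_lit 1116608393) (nat_lit 0) (nat_lit 2140656565) (nat_lit 1596) (nat_lit 5594438289) (nat_lit 564) (nat_lit 5) (nat_lit 563) (nat_lit 3) (nat_lit 584) (nat_lit 5) (nat_lit 556) (nat_lit 555) (nat_lit 449)) (XT.lf (nat_lit 0) (nat_lit 4270757262) (nat_lit 1520) (nat_lit 3321323960) (nat_lit 1596) (nat_lit 1329339116) (nat_lit 564) (nat_lit 5) (nat_lit 584) (nat_lit 5) (nat_lit 585) (nat_lit 5) (nat_lit 557) (nat_lit 555) (nat_lit 448))) (XT.nd (nat_lit 78) (nat_lit 0) (nat_lit 0) (XT.lf (nat_lit 76) (nat_lit 1168559989) (nat_lit 0) (nat_lit 4133071741) (nat_lit 1596) (nat_lit 3690959477) (nat_lit 565) (nat_lit 5) (nat_lit 564) (nat_lit 5) (nat_lit 585) (nat_lit 5) (nat_lit 558) (nat_lit 555) (nat_lit 447)) (XT.lf (nat_lit 76) (nat_lit 5780038911) (nat_lit 0) (nat_lit 571118827) (nat_lit 1596) (nat_lit 2714068726) (nat_lit 565) (nat_lit 5) (nat_lit 564) (nat_lit 5) (nat_lit 585) (nat_lit 5) (nat_lit 559) (nat_lit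 555) (nat_lit 446)))) (XT.nd (nat_lit 156) (nat_lit 1520) (nat_lit 0) (XT.nd (nat_lit 78) (nat_lit 0) (nat_lit 0) (XT.lf (nat_lit 76) (nat_lit 1328462782) (nat_lit 0) (nat_lit 6098009746) (nat_lit 1596) (nat_lit 1712747551) (nat_lit 566) (nat_lit 5) (nat_lit 565) (nat_lit 5) (nat_lit 586) (nat_lit 5) (nat_lit 560) (nat_lit 555) (nat_lit 445)) (XT.lf (nat_lit 76) (nat_lit 6061661874) (nat_lit 0) (nat_lit 2464104137) (nat_lit 1596) (nat_lit 688879693) (nat_lit 566) (nat_lit 5) (nat_lit 565) (nat_lit 5) (nat_lit 586) (nat_lit 5) (nat_lit 561) (nat_lit 555) (nat_lit 444))) (XT.nd (nat_lit 78) (nat_lit 0) (nat_lit 0) (XT.lf (nat_lit 0) (nat_lit 346399960) (nat_lit 1596) (nat_lit 7696805087) (nat_lit 1672) (nat_lit 1248418234) (nat_lit 545) (nat_lit 5) (nat_lit 566) (nat_lit 5) (nat_lit 567) (nat_lit 5) (nat_lit 562) (nat_lit 555) (nat_lit 443)) (XT.lf (nat_lit 0) (nat_lit 1408185636) (nat_lit 1596) (nat_lit 2924316299) (nat_lit 1672) (nat_lit 5037248409) (nat_lit 545) (nat_lit 5) (nat_lit 566) (nat_lit 5) (nat_lit 567) (nat_lit 5) (nat_lit 563)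 (nat_lit 555) (nat_lit 442)))))) (XT.nd (nat_lit 546) (nat_lit 1444) (nat_lit 0) (XT.nd (nat_lit 234) (nat_lit 0) (nat_lit 152) (XT.nd (nat_lit 78) (nat_lit 0) (nat_lit 76) (XT.lf (nat_lit 76) (nat_lit 1955649358) (nat_lit 0) (nat_lit 526097230) (nat_lit 1672) (nat_lit 6967884034) (nat_lit 546) (nat_lit 5) (nat_lit 545) (nat_lit 5) (nat_lit 567) (nat_lit 5) (nat_lit 564) (nat_lit 555) (nat_lit 441)) (XT.nd (nat_lit 78) (nat_lit 0) (nat_lit 0) (XT.lf (nat_lit 0) (nat_lit 3596567177) (nat_lit 1596) (nat_lit 2593807390) (nat_lit 1672) (nat_lit 3340339607) (nat_lit 546) (nat_lit 5) (nat_lit 567) (nat_lit 5) (nat_lit 568) (nat_lit 5) (nat_lit 565) (nat_lit 555) (nat_lit 440)) (XT.lf (nat_lit 76) (nat_lit 2418861243) (nat_lit 0) (nat_lit 2312681043) (nat_lit 1672) (nat_lit 4881921358) (nat_lit 547) (nat_lit 5) (nat_lit 546) (nat_lit 5) (nat_lit 568) (nat_lit 5) (nat_lit 566) (nat_lit 555) (nat_lit 439)))) (XT.nd (nat_lit 156) (nat_lit 0) (nat_lit 0) (XT.nd (nat_lit 78) (nat_lit 0) (nat_lit 0) (XT.lf (nat_lit 0) (nat_lit 5896449032) (nat_lit 1596)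 (nat_lit 2155483962) (nat_lit 1672) (nat_lit 1645791849) (nat_lit 547) (nat_lit 5) (nat_lit 568) (nat_lit 5) (nat_lit 569) (nat_lit 5) (nat_lit 567) (nat_lit 555) (nat_lit 438)) (XT.lf (nat_lit 76) (nat_lit 2994524745) (nat_lit 0) (nat_lit 4104344652) (nat_lit 1672) (nat_lit 2684518912) (nat_lit 548) (nat_lit 5) (nat_lit 547) (nat_lit 5) (nat_lit 569) (nat_lit 5) (nat_lit 568) (nat_lit 555) (nat_lit 437))) (XT.nd (nat_lit 78) (nat_lit 0) (nat_lit 76) (XT.lf (nat_lit 76) (nat_lit 8262992836) (nat_lit 0) (nat_lit 56580508) (nat_lit 1672) (nat_lit 1551308325) (nat_lit 548) (nat_lit 5) (nat_lit 547) (nat_lit 5) (nat_lit 569) (nat_lit 5) (nat_lit 569) (nat_lit 555) (nat_lit 436)) (XT.lf (nat_lit 76) (nat_lit 3684663081) (nat_lit 0) (nat_lit 5910599172) (nat_lit 1672) (nat_lit 364252527) (nat_lit 549) (nat_lit 5) (nat_lit 548) (nat_lit 5) (nat_lit 570) (nat_lit 5) (nat_lit 570) (nat_lit 555) (nat_lit 435))))) (XT.nd (nat_lit 312) (nat_lit 0) (nat_lit 152) (XT.nd (nat_lit 156) (nat_lit 0) (nat_lit 76) (XT.nd (nat_lit 78) (nat_lit 0) (nat_lit 76)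 (XT.lf (nat_lit 0) (nat_lit 827054202) (nat_lit 1672) (nat_lit 964884560) (nat_lit 1748) (nat_lit 8258040869) (nat_lit 526) (nat_lit 5) (nat_lit 548) (nat_lit 5) (nat_lit 549) (nat_lit 5) (nat_lit 571) (nat_lit 555) (nat_lit 434)) (XT.lf (nat_lit 0) (nat_lit 2063139276) (nat_lit 1672) (nat_lit 5663906952) (nat_lit 1748) (nat_lit 2414644031) (nat_lit 527) (nat_lit 5) (nat_lit 549) (nat_lit 5) (nat_lit 550) (nat_lit 5) (nat_lit 572) (nat_lit 555) (nat_lit 433))) (XT.nd (nat_lit 78) (nat_lit 0) (nat_lit 76) (XT.lf (nat_lit 0) (nat_lit 3323414157) (nat_lit 1672) (nat_lit 218777257) (nat_lit 1748) (nat_lit 6693055527) (nat_lit 527) (nat_lit 5) (nat_lit 549) (nat_lit 5) (nat_lit 550) (nat_lit 5) (nat_lit 573) (nat_lit 555) (nat_lit 432)) (XT.lf (nat_lit 0) (nat_lit 4630336010) (nat_lit 1672) (nat_lit 4943219507) (nat_lit 1748) (nat_lit 756691589) (nat_lit 528) (nat_lit 5) (nat_lit 550) (nat_lit 5) (nat_lit 551) (nat_lit 5) (nat_lit 574) (nat_lit 555) (nat_lit 431)))) (XT.nd (nat_lit 156) (nat_lit 0) (nat_lit 76) (XT.nd (nat_lit 78) (nat_lit 0)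 (nat_lit 0) (XT.lf (nat_lit 76) (nat_lit 651702879) (nat_lit 0) (nat_lit 5322618258) (nat_lit 1748) (nat_lit 4452608795) (nat_lit 529) (nat_lit 5) (nat_lit 528) (nat_lit 5) (nat_lit 551) (nat_lit 5) (nat_lit 575) (nat_lit 555) (nat_lit 430)) (XT.lf (nat_lit 76) (nat_lit 6411450994) (nat_lit 0) (nat_lit 948930357) (nat_lit 1748) (nat_lit 3164862290) (nat_lit 529) (nat_lit 5) (nat_lit 528) (nat_lit 5) (nat_lit 551) (nat_lit 5) (nat_lit 576) (nat_lit 555) (nat_lit 429))) (XT.nd (nat_lit 78) (nat_lit 0) (nat_lit 0) (XT.lf (nat_lit 76) (nat_lit 1645465602) (nat_lit 0) (nat_lit 7144585415) (nat_lit 1748) (nat_lit 1835155953) (nat_lit 530) (nat_lit 5) (nat_lit 529) (nat_lit 5) (nat_lit 552) (nat_lit 5) (nat_lit 577) (nat_lit 555) (nat_lit 428)) (XT.lf (nat_lit 76) (nat_lit 7555216352) (nat_lit 0) (nat_lit 2709601066) (nat_lit 1748) (nat_lit 462023169) (nat_lit 530) (nat_lit 5) (nat_lit 529) (nat_lit 5) (nat_lit 552) (nat_lit 5) (nat_lit 578) (nat_lit 555) (nat_lit 427))))))) (XT.nd (nat_lit 1170) (nat_lit 0) (nat_lit 0) (XT.nd (nat_lit 546) (nat_lit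 4484) (nat_lit 0) (XT.nd (nat_lit 234) (nat_lit 2888) (nat_lit 0) (XT.nd (nat_lit 78) (nat_lit 1748) (nat_lit 0) (XT.lf (nat_lit 0) (nat_lit 939078560) (nat_lit 1748) (nat_lit 8073492033) (nat_lit 76) (nat_lit 1817559138) (nat_lit 507) (nat_lit 5) (nat_lit 530) (nat_lit 5) (nat_lit 508) (nat_lit 5) (nat_lit 579) (nat_lit 555) (nat_lit 426)) (XT.nd (nat_lit 78) (nat_lit 1748) (nat_lit 0) (XT.lf (nat_lit 0) (nat_lit 2384535407) (nat_lit 1748) (nat_lit 2124052816) (nat_lit 76) (nat_lit 6426385990) (nat_lit 507) (nat_lit 5) (nat_lit 530) (nat_lit 5) (nat_lit 508) (nat_lit 5) (nat_lit 580) (nat_lit 555) (nat_lit 425)) (XT.lf (nat_lit 0) (nat_lit 3868977058) (nat_lit 1824) (nat_lit 7059890188) (nat_lit 76) (nat_lit 112847831) (nat_lit 484) (nat_lit 5) (nat_lit 508) (nat_lit 5) (nat_lit 485) (nat_lit 5) (nat_lit 581) (nat_lit 555) (nat_lit 424)))) (XT.nd (nat_lit 156) (nat_lit 1064) (nat_lit 0) (XT.nd (nat_lit 78) (nat_lit 1824) (nat_lit 0) (XT.lf (nat_lit 0) (nat_lit 5411038183) (nat_lit 1824) (nat_lit 955921184) (nat_lit 76) (nat_lit 4783073766)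 (nat_lit 484) (nat_lit 5) (nat_lit 508) (nat_lit 5) (nat_lit 485) (nat_lit 5) (nat_lit 582) (nat_lit 555) (nat_lit 423)) (XT.lf (nat_lit 0) (nat_lit 5325983186) (nat_lit 1824) (nat_lit 1676580819) (nat_lit 1900) (nat_lit 4257582040) (nat_lit 460) (nat_lit 5) (nat_lit 484) (nat_lit 5) (nat_lit 485) (nat_lit 5) (nat_lit 583) (nat_lit 555) (nat_lit 422))) (XT.nd (nat_lit 78) (nat_lit 0) (nat_lit 0) (XT.lf (nat_lit 0) (nat_lit 344215134) (nat_lit 1064) (nat_lit 8294852081) (nat_lit 1140) (nat_lit 2733132013) (nat_lit 446) (nat_lit 5) (nat_lit 460) (nat_lit 5) (nat_lit 461) (nat_lit 5) (nat_lit 584) (nat_lit 555) (nat_lit 421)) (XT.lf (nat_lit 0) (nat_lit 6803212037) (nat_lit 1064) (nat_lit 3540434577) (nat_lit 1140) (nat_lit 1142140868) (nat_lit 446) (nat_lit 5) (nat_lit 460) (nat_lit 5) (nat_lit 461) (nat_lit 5) (nat_lit 585) (nat_lit 555) (nat_lit 420))))) (XT.nd (nat_lit 312) (nat_lit 2584) (nat_lit 0) (XT.nd (nat_lit 156) (nat_lit 912) (nat_lit 0) (XT.nd (nat_lit 78) (nat_lit 0) (nat_lit 0) (XT.lf (nat_lit 0) (nat_lit 479329966) (nat_lit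 988) (nat_lit 9814151332) (nat_lit 76) (nat_lit 1308005401) (nat_lit 433) (nat_lit 5) (nat_lit 446) (nat_lit 5) (nat_lit 434) (nat_lit 5) (nat_lit 586) (nat_lit 555) (nat_lit 419)) (XT.lf (nat_lit 0) (nat_lit 2157942192) (nat_lit 988) (nat_lit 3314253660) (nat_lit 76) (nat_lit 6246353828) (nat_lit 433) (nat_lit 5) (nat_lit 446) (nat_lit 5) (nat_lit 434) (nat_lit 5) (nat_lit 587) (nat_lit 555) (nat_lit 418))) (XT.nd (nat_lit 78) (nat_lit 0) (nat_lit 0) (XT.lf (nat_lit 0) (nat_lit 3345517437) (nat_lit 912) (nat_lit 531540069) (nat_lit 988) (nat_lit 7960758656) (nat_lit 421) (nat_lit 5) (nat_lit 433) (nat_lit 5) (nat_lit 434) (nat_lit 5) (nat_lit 588) (nat_lit 555) (nat_lit 417)) (XT.lf (nat_lit 0) (nat_lit 5667624915) (nat_lit 988) (nat_lit 1819235935) (nat_lit 76) (nat_lit 4471866572) (nat_lit 421) (nat_lit 5) (nat_lit 434) (nat_lit 5) (nat_lit 422) (nat_lit 5) (nat_lit 589) (nat_lit 555) (nat_lit 416)))) (XT.nd (nat_lit 156) (nat_lit 1748) (nat_lit 0) (XT.nd (nat_lit 78) (nat_lit 0) (nat_lit 0) (XT.lf (nat_lit 0) (nat_lit 5035886541) (nat_lit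 836) (nat_lit 2480033234) (nat_lit 912) (nat_lit 4565699633) (nat_lit 410) (nat_lit 5) (nat_lit 421) (nat_lit 5) (nat_lit 422) (nat_lit 5) (nat_lit 590) (nat_lit 555) (nat_lit 415)) (XT.lf (nat_lit 0) (nat_lit 9416417185) (nat_lit 912) (nat_lit 185211154) (nat_lit 76) (nat_lit 2605036971) (nat_lit 410) (nat_lit 5) (nat_lit 422) (nat_lit 5) (nat_lit 411) (nat_lit 5) (nat_lit 591) (nat_lit 555) (nat_lit 414))) (XT.nd (nat_lit 78) (nat_lit 912) (nat_lit 0) (XT.lf (nat_lit 0) (nat_lit 6872385241) (nat_lit 836) (nat_lit 4529752069) (nat_lit 912) (nat_lit 931131359) (nat_lit 399) (nat_lit 5) (nat_lit 410) (nat_lit 5) (nat_lit 411) (nat_lit 5) (nat_lit 592) (nat_lit 555) (nat_lit 413)) (XT.lf (nat_lit 0) (nat_lit 954783580) (nat_lit 912) (nat_lit 10854418342) (nat_lit 76) (nat_lit 653032121) (nat_lit 387) (nat_lit 5) (nat_lit 399) (nat_lit 5) (nat_lit 388) (nat_lit 5) (nat_lit 593) (nat_lit 555) (nat_lit 412)))))) (XT.nd (nat_lit 78702) (nat_lit 0) (nat_lit 11932) (XT.nd (nat_lit 78390) (nat_lit 0) (nat_lit 11932) (XT.nd (nat_lit 78234) (nat_lit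 0) (nat_lit 13376) (XT.lf (nat_lit 0) (nat_lit 2919284132) (nat_lit 912) (nat_lit 3751655751) (nat_lit 76) (nat_lit 5921649792) (nat_lit 387) (nat_lit 5) (nat_lit 399) (nat_lit 5) (nat_lit 388) (nat_lit 5) (nat_lit 594) (nat_lit 555) (nat_lit 411)) (XT.nd (nat_lit 78) (nat_lit 0) (nat_lit 0) (XT.lf (nat_lit 0) (nat_lit 2109333179) (nat_lit 1596) (nat_lit 1175507628) (nat_lit 1596) (nat_lit 1175507628) (nat_lit 563) (nat_lit 3) (nat_lit 584) (nat_lit 3) (nat_lit 584) (nat_lit 5) (nat_lit 556) (nat_lit 556) (nat_lit 448)) (XT.lf (nat_lit 76) (nat_lit 2103843804) (nat_lit 0) (nat_lit 3091859852) (nat_lit 1596) (nat_lit 3795440240) (nat_lit 564) (nat_lit 5) (nat_lit 563) (nat_lit 3) (nat_lit 584) (nat_lit 5) (nat_lit 557) (nat_lit 556) (nat_lit 447)))) (XT.nd (nat_lit 156) (nat_lit 1520) (nat_lit 0) (XT.nd (nat_lit 78) (nat_lit 0) (nat_lit 0) (XT.lf (nat_lit 0) (nat_lit 6186952336) (nat_lit 1520) (nat_lit 2399128350) (nat_lit 1596) (nat_lit 477027413) (nat_lit 564) (nat_lit 5) (nat_lit 584) (nat_lit 5) (nat_lit 585) (nat_lit 5) (nat_lit 558)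 (nat_lit 556) (nat_lit 446)) (XT.lf (nat_lit 76) (nat_lit 2174049185) (nat_lit 0) (nat_lit 5034874025) (nat_lit 1596) (nat_lit 1927372050) (nat_lit 565) (nat_lit 5) (nat_lit 564) (nat_lit 5) (nat_lit 585) (nat_lit 5) (nat_lit 559) (nat_lit 556) (nat_lit 445))) (XT.nd (nat_lit 78) (nat_lit 1520) (nat_lit 0) (XT.lf (nat_lit 76) (nat_lit 6858500469) (nat_lit 0) (nat_lit 1385620467) (nat_lit 1596) (nat_lit 966971064) (nat_lit 565) (nat_lit 5) (nat_lit 564) (nat_lit 5) (nat_lit 585) (nat_lit 5) (nat_lit 560) (nat_lit 556) (nat_lit 444)) (XT.lf (nat_lit 0) (nat_lit 20175199) (nat_lit 1596) (nat_lit 6935422019) (nat_lit 1672) (nat_lit 2331633282) (nat_lit 544) (nat_lit 5) (nat_lit 565) (nat_lit 5) (nat_lit 566) (nat_lit 5) (nat_lit 561) (nat_lit 556) (nat_lit 443))))) (XT.nd (nat_lit 312) (nat_lit 0) (nat_lit 152) (XT.nd (nat_lit 156) (nat_lit 0) (nat_lit 76) (XT.nd (nat_lit 78) (nat_lit 0) (nat_lit 76) (XT.lf (nat_lit 0) (nat_lit 1016622355) (nat_lit 1596) (nat_lit 2211277739) (nat_lit 1672) (nat_lit 6136815224) (nat_lit 544) (nat_lit 5) (nat_lit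 565) (nat_lit 5) (nat_lit 566) (nat_lit 5) (nat_lit 562) (nat_lit 556) (nat_lit 442)) (XT.lf (nat_lit 0) (nat_lit 2031836927) (nat_lit 1596) (nat_lit 6818871299) (nat_lit 1672) (nat_lit 593066303) (nat_lit 545) (nat_lit 5) (nat_lit 566) (nat_lit 5) (nat_lit 567) (nat_lit 5) (nat_lit 563) (nat_lit 556) (nat_lit 441))) (XT.nd (nat_lit 78) (nat_lit 0) (nat_lit 0) (XT.lf (nat_lit 0) (nat_lit 3081946376) (nat_lit 1596) (nat_lit 1971165478) (nat_lit 1672) (nat_lit 4471012694) (nat_lit 545) (nat_lit 5) (nat_lit 566) (nat_lit 5) (nat_lit 567) (nat_lit 5) (nat_lit 564) (nat_lit 556) (nat_lit 440)) (XT.lf (nat_lit 76) (nat_lit 2999743984) (nat_lit 0) (nat_lit 1151492962) (nat_lit 1672) (nat_lit 5454882453) (nat_lit 546) (nat_lit 5) (nat_lit 545) (nat_lit 5) (nat_lit 567) (nat_lit 5) (nat_lit 565) (nat_lit 556) (nat_lit 439)))) (XT.nd (nat_lit 156) (nat_lit 0) (nat_lit 76) (XT.nd (nat_lit 78) (nat_lit 0) (nat_lit 0) (XT.lf (nat_lit 0) (nat_lit 5252678185) (nat_lit 1596) (nat_lit 1624627026) (nat_lit 1672) (nat_lit 2812235019) (nat_lit 546) (nat_lit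 5) (nat_lit 567) (nat_lit 5) (nat_lit 568) (nat_lit 5) (nat_lit 566) (nat_lit 556) (nat_lit 438)) (XT.lf (nat_lit 76) (nat_lit 3481577503) (nat_lit 0) (nat_lit 2904298709) (nat_lit 1672) (nat_lit 3388560062) (nat_lit 547) (nat_lit 5) (nat_lit 546) (nat_lit 5) (nat_lit 568) (nat_lit 5) (nat_lit 567) (nat_lit 556) (nat_lit 437))) (XT.nd (nat_lit 78) (nat_lit 0) (nat_lit 0) (XT.lf (nat_lit 0) (nat_lit 7540027243) (nat_lit 1596) (nat_lit 1169989187) (nat_lit 1672) (nat_lit 1151049355) (nat_lit 547) (nat_lit 5) (nat_lit 568) (nat_lit 5) (nat_lit 569) (nat_lit 5) (nat_lit 568) (nat_lit 556) (nat_lit 436)) (XT.lf (nat_lit 76) (nat_lit 4076252560) (nat_lit 0) (nat_lit 4666963210) (nat_lit 1672) (nat_lit 1205694327) (nat_lit 548) (nat_lit 5) (nat_lit 547) (nat_lit 5) (nat_lit 569) (nat_lit 5) (nat_lit 569) (nat_lit 556) (nat_lit 435))))))))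
noncomputable def xc72 : XT := (XT.nd (nat_lit 80574) (nat_lit 0) (nat_lit 912) (XT.nd (nat_lit 1092) (nat_lit 4712) (nat_lit 0) (XT.nd (nat_lit 546) (nat_lit 5016) (nat_lit 0) (XT.nd (nat_lit 234) (nat_lit 0) (nat_lit 76) (XT.nd (nat_lit 78) (nat_lit 1596) (nat_lit 0) (XT.lf (nat_lit 76) (nat_lit 9430053987) (nat_lit 0) (nat_lit 528821594) (nat_lit 1672) (nat_lit 79868842) (nat_lit 548) (nat_lit 5) (nat_lit 547) (nat_lit 5) (nat_lit 569) (nat_lit 5) (nat_lit 570) (nat_lit 556) (nat_lit 434)) (XT.nd (nat_lit 78) (nat_lit 0) (nat_lit 0) (XT.lf (nat_lit 0) (nat_lit 1090719479) (nat_lit 1672) (nat_lit 5350866115) (nat_lit 1748) (nat_lit 3687927130) (nat_lit 526) (nat_lit 5) (nat_lit 548) (nat_lit 5) (nat_lit 549) (nat_lit 5) (nat_lit 571) (nat_lit 556) (nat_lit 433)) (XT.lf (nat_lit 76) (nat_lit 42920213) (nat_lit 0) (nat_lit 2229761852) (nat_lit 1748) (nat_lit 7949624333) (nat_lit 527) (nat_lit 5) (nat_lit 526) (nat_lit 5) (nat_lit 549) (nat_lit 5) (nat_lit 572) (nat_lit 556) (nat_lit 432)))) (XT.nd (nat_lit 156) (nat_lit 0) (nat_lit 76) (XT.nd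 (nat_lit 78) (nat_lit 0) (nat_lit 0) (XT.lf (nat_lit 0) (nat_lit 3509298723) (nat_lit 1672) (nat_lit 4726644776) (nat_lit 1748) (nat_lit 2080393329) (nat_lit 527) (nat_lit 5) (nat_lit 549) (nat_lit 5) (nat_lit 550) (nat_lit 5) (nat_lit 573) (nat_lit 556) (nat_lit 431)) (XT.lf (nat_lit 76) (nat_lit 817510480) (nat_lit 0) (nat_lit 3955029448) (nat_lit 1748) (nat_lit 5639671249) (nat_lit 528) (nat_lit 5) (nat_lit 527) (nat_lit 5) (nat_lit 550) (nat_lit 5) (nat_lit 574) (nat_lit 556) (nat_lit 430))) (XT.nd (nat_lit 78) (nat_lit 0) (nat_lit 0) (XT.lf (nat_lit 0) (nat_lit 6077761229) (nat_lit 1672) (nat_lit 3989525405) (nat_lit 1748) (nat_lit 442383208) (nat_lit 528) (nat_lit 5) (nat_lit 550) (nat_lit 5) (nat_lit 551) (nat_lit 5) (nat_lit 575) (nat_lit 556) (nat_lit 429)) (XT.lf (nat_lit 76) (nat_lit 1710370702) (nat_lit 0) (nat_lit 5718479236) (nat_lit 1748) (nat_lit 3179833593) (nat_lit 529) (nat_lit 5) (nat_lit 528) (nat_lit 5) (nat_lit 551) (nat_lit 5) (nat_lit 576) (nat_lit 556) (nat_lit 428))))) (XT.nd (nat_lit 234) (nat_lit 3496) (nat_lit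 0) (XT.nd (nat_lit 78) (nat_lit 1672) (nat_lit 0) (XT.lf (nat_lit 76) (nat_lit 7564811156) (nat_lit 0) (nat_lit 1251642898) (nat_lit 1748) (nat_lit 1893034655) (nat_lit 529) (nat_lit 5) (nat_lit 528) (nat_lit 5) (nat_lit 551) (nat_lit 5) (nat_lit 577) (nat_lit 556) (nat_lit 427)) (XT.nd (nat_lit 78) (nat_lit 1748) (nat_lit 0) (XT.lf (nat_lit 76) (nat_lit 2724678884) (nat_lit 0) (nat_lit 7529361440) (nat_lit 1748) (nat_lit 557826134) (nat_lit 530) (nat_lit 5) (nat_lit 529) (nat_lit 5) (nat_lit 552) (nat_lit 5) (nat_lit 578) (nat_lit 556) (nat_lit 426)) (XT.lf (nat_lit 0) (nat_lit 806288799) (nat_lit 1748) (nat_lit 2189235153) (nat_lit 1824) (nat_lit 7920409464) (nat_lit 506) (nat_lit 5) (nat_lit 529) (nat_lit 5) (nat_lit 530) (nat_lit 5) (nat_lit 579) (nat_lit 556) (nat_lit 425)))) (XT.nd (nat_lit 156) (nat_lit 3572) (nat_lit 0) (XT.nd (nat_lit 78) (nat_lit 0) (nat_lit 0) (XT.lf (nat_lit 0) (nat_lit 2209618116) (nat_lit 1748) (nat_lit 7172510103) (nat_lit 76) (nat_lit 1639492727) (nat_lit 507) (nat_lit 5) (nat_lit 530) (nat_lit 5) (nat_lit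 508) (nat_lit 5) (nat_lit 580) (nat_lit 556) (nat_lit 424)) (XT.lf (nat_lit 0) (nat_lit 3659439826) (nat_lit 1748) (nat_lit 1124914489) (nat_lit 76) (nat_lit 6344700382) (nat_lit 507) (nat_lit 5) (nat_lit 530) (nat_lit 5) (nat_lit 508) (nat_lit 5) (nat_lit 581) (nat_lit 556) (nat_lit 423))) (XT.nd (nat_lit 78) (nat_lit 1824) (nat_lit 0) (XT.lf (nat_lit 0) (nat_lit 5097000425) (nat_lit 1748) (nat_lit 58467994) (nat_lit 1824) (nat_lit 6082825463) (nat_lit 484) (nat_lit 5) (nat_lit 507) (nat_lit 5) (nat_lit 508) (nat_lit 5) (nat_lit 582) (nat_lit 556) (nat_lit 422)) (XT.lf (nat_lit 0) (nat_lit 65201946) (nat_lit 1824) (nat_lit 6639511910) (nat_lit 1900) (nat_lit 4644539017) (nat_lit 460) (nat_lit 5) (nat_lit 484) (nat_lit 5) (nat_lit 485) (nat_lit 5) (nat_lit 583) (nat_lit 556) (nat_lit 421)))))) (XT.nd (nat_lit 546) (nat_lit 1748) (nat_lit 0) (XT.nd (nat_lit 234) (nat_lit 1900) (nat_lit 0) (XT.nd (nat_lit 78) (nat_lit 1064) (nat_lit 0) (XT.lf (nat_lit 0) (nat_lit 6465051200) (nat_lit 1824) (nat_lit 1846063736) (nat_lit 1900) (nat_lit 3150793621)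 (nat_lit 460) (nat_lit 5) (nat_lit 484) (nat_lit 5) (nat_lit 485) (nat_lit 5) (nat_lit 584) (nat_lit 556) (nat_lit 420)) (XT.nd (nat_lit 78) (nat_lit 0) (nat_lit 0) (XT.lf (nat_lit 0) (nat_lit 1401017781) (nat_lit 1064) (nat_lit 8562370060) (nat_lit 1140) (nat_lit 1613155552) (nat_lit 446) (nat_lit 5) (nat_lit 460) (nat_lit 5) (nat_lit 461) (nat_lit 5) (nat_lit 585) (nat_lit 556) (nat_lit 419)) (XT.lf (nat_lit 0) (nat_lit 7968607987) (nat_lit 1064) (nat_lit 3710871639) (nat_lit 1140) (nat_lit 13376723) (nat_lit 446) (nat_lit 5) (nat_lit 460) (nat_lit 5) (nat_lit 461) (nat_lit 5) (nat_lit 586) (nat_lit 556) (nat_lit 418)))) (XT.nd (nat_lit 156) (nat_lit 912) (nat_lit 0) (XT.nd (nat_lit 78) (nat_lit 0) (nat_lit 0) (XT.lf (nat_lit 0) (nat_lit 1609331587) (nat_lit 988) (nat_lit 8949779301) (nat_lit 76) (nat_lit 1251932191) (nat_lit 433) (nat_lit 5) (nat_lit 446) (nat_lit 5) (nat_lit 434) (nat_lit 5) (nat_lit 587) (nat_lit 556) (nat_lit 417)) (XT.lf (nat_lit 0) (nat_lit 3299547135) (nat_lit 988) (nat_lit 2340680834) (nat_lit 76) (nat_lit 6290660005)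 (nat_lit 433) (nat_lit 5) (nat_lit 446) (nat_lit 5) (nat_lit 434) (nat_lit 5) (nat_lit 588) (nat_lit 556) (nat_lit 416))) (XT.nd (nat_lit 78) (nat_lit 0) (nat_lit 0) (XT.lf (nat_lit 0) (nat_lit 4445444515) (nat_lit 912) (nat_lit 592769112) (nat_lit 988) (nat_lit 7014624032) (nat_lit 421) (nat_lit 5) (nat_lit 433) (nat_lit 5) (nat_lit 434) (nat_lit 5) (nat_lit 589) (nat_lit 556) (nat_lit 415)) (XT.lf (nat_lit 0) (nat_lit 6843022955) (nat_lit 988) (nat_lit 821228425) (nat_lit 76) (nat_lit 4512348377) (nat_lit 421) (nat_lit 5) (nat_lit 434) (nat_lit 5) (nat_lit 422) (nat_lit 5) (nat_lit 590) (nat_lit 556) (nat_lit 414))))) (XT.nd (nat_lit 78624) (nat_lit 0) (nat_lit 11020) (XT.nd (nat_lit 156) (nat_lit 76) (nat_lit 0) (XT.nd (nat_lit 78) (nat_lit 836) (nat_lit 0) (XT.lf (nat_lit 0) (nat_lit 6164191288) (nat_lit 836) (nat_lit 2549939779) (nat_lit 912) (nat_lit 3588102772) (nat_lit 410) (nat_lit 5) (nat_lit 421) (nat_lit 5) (nat_lit 422) (nat_lit 5) (nat_lit 591) (nat_lit 556) (nat_lit 413)) (XT.lf (nat_lit 0) (nat_lit 850411263) (nat_lit 836)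 (nat_lit 9787072422) (nat_lit 912) (nat_lit 1792601248) (nat_lit 399) (nat_lit 5) (nat_lit 410) (nat_lit 5) (nat_lit 411) (nat_lit 5) (nat_lit 592) (nat_lit 556) (nat_lit 412))) (XT.nd (nat_lit 78390) (nat_lit 0) (nat_lit 12540) (XT.lf (nat_lit 0) (nat_lit 83179388) (nat_lit 912) (nat_lit 4528907380) (nat_lit 76) (nat_lit 7947504426) (nat_lit 398) (nat_lit 5) (nat_lit 410) (nat_lit 5) (nat_lit 399) (nat_lit 5) (nat_lit 593) (nat_lit 556) (nat_lit 411)) (XT.lf (nat_lit 0) (nat_lit 3066729944) (nat_lit 1596) (nat_lit 732229367) (nat_lit 1596) (nat_lit 732229367) (nat_lit 563) (nat_lit 3) (nat_lit 584) (nat_lit 3) (nat_lit 584) (nat_lit 5) (nat_lit 557) (nat_lit 557) (nat_lit 446)))) (XT.nd (nat_lit 156) (nat_lit 1520) (nat_lit 0) (XT.nd (nat_lit 78) (nat_lit 0) (nat_lit 0) (XT.lf (nat_lit 76) (nat_lit 3073355555) (nat_lit 0) (nat_lit 4026813308) (nat_lit 1596) (nat_lit 2034664294) (nat_lit 564) (nat_lit 5) (nat_lit 563) (nat_lit 3) (nat_lit 584) (nat_lit 5) (nat_lit 558) (nat_lit 557) (nat_lit 445)) (XT.lf (nat_lit 76) (nat_lit 7709774348)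 (nat_lit 0) (nat_lit 362962138) (nat_lit 1596) (nat_lit 1136272681) (nat_lit 564) (nat_lit 5) (nat_lit 563) (nat_lit 3) (nat_lit 584) (nat_lit 5) (nat_lit 559) (nat_lit 557) (nat_lit 444))) (XT.nd (nat_lit 78) (nat_lit 1596) (nat_lit 0) (XT.lf (nat_lit 76) (nat_lit 3161511326) (nat_lit 0) (nat_lit 5922904116) (nat_lit 1596) (nat_lit 199861612) (nat_lit 565) (nat_lit 5) (nat_lit 564) (nat_lit 5) (nat_lit 585) (nat_lit 5) (nat_lit 560) (nat_lit 557) (nat_lit 443)) (XT.lf (nat_lit 0) (nat_lit 735346439) (nat_lit 1596) (nat_lit 1444946592) (nat_lit 1672) (nat_lit 7180861201) (nat_lit 543) (nat_lit 5) (nat_lit 564) (nat_lit 5) (nat_lit 565) (nat_lit 5) (nat_lit 561) (nat_lit 557) (nat_lit 442))))))) (XT.nd (nat_lit 1170) (nat_lit 8740) (nat_lit 0) (XT.nd (nat_lit 546) (nat_lit 1444) (nat_lit 0) (XT.nd (nat_lit 234) (nat_lit 0) (nat_lit 76) (XT.nd (nat_lit 78) (nat_lit 0) (nat_lit 0) (XT.lf (nat_lit 0) (nat_lit 1697112201) (nat_lit 1596) (nat_lit 6093538644) (nat_lit 1672) (nat_lit 1648682558) (nat_lit 544) (nat_lit 5) (nat_lit 565) (nat_lit 5)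 (nat_lit 566) (nat_lit 5) (nat_lit 562) (nat_lit 557) (nat_lit 441)) (XT.nd (nat_lit 78) (nat_lit 0) (nat_lit 0) (XT.lf (nat_lit 0) (nat_lit 2680615094) (nat_lit 1596) (nat_lit 1294138769) (nat_lit 1672) (nat_lit 5544273696) (nat_lit 544) (nat_lit 5) (nat_lit 565) (nat_lit 5) (nat_lit 566) (nat_lit 5) (nat_lit 563) (nat_lit 557) (nat_lit 440)) (XT.lf (nat_lit 76) (nat_lit 3636500435) (nat_lit 0) (nat_lit 49625852) (nat_lit 1672) (nat_lit 5914143953) (nat_lit 545) (nat_lit 5) (nat_lit 544) (nat_lit 5) (nat_lit 566) (nat_lit 5) (nat_lit 564) (nat_lit 557) (nat_lit 439)))) (XT.nd (nat_lit 156) (nat_lit 0) (nat_lit 76) (XT.nd (nat_lit 78) (nat_lit 0) (nat_lit 0) (XT.lf (nat_lit 0) (nat_lit 4725281792) (nat_lit 1596) (nat_lit 1038234745) (nat_lit 1672) (nat_lit 3919351939) (nat_lit 545) (nat_lit 5) (nat_lit 566) (nat_lit 5) (nat_lit 567) (nat_lit 5) (nat_lit 565) (nat_lit 557) (nat_lit 438)) (XT.lf (nat_lit 76) (nat_lit 4025695840) (nat_lit 0) (nat_lit 1765520310) (nat_lit 1672) (nat_lit 3975783965) (nat_lit 546) (nat_lit 5) (nat_lit 545) (nat_lit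 5) (nat_lit 567) (nat_lit 5) (nat_lit 566) (nat_lit 557) (nat_lit 437))) (XT.nd (nat_lit 78) (nat_lit 0) (nat_lit 0) (XT.lf (nat_lit 0) (nat_lit 6880395786) (nat_lit 1596) (nat_lit 675711923) (nat_lit 1672) (nat_lit 2296669474) (nat_lit 546) (nat_lit 5) (nat_lit 567) (nat_lit 5) (nat_lit 568) (nat_lit 5) (nat_lit 567) (nat_lit 557) (nat_lit 436)) (XT.lf (nat_lit 76) (nat_lit 4526160067) (nat_lit 0) (nat_lit 3486571577) (nat_lit 1672) (nat_lit 1927111998) (nat_lit 547) (nat_lit 5) (nat_lit 546) (nat_lit 5) (nat_lit 568) (nat_lit 5) (nat_lit 568) (nat_lit 557) (nat_lit 435))))) (XT.nd (nat_lit 312) (nat_lit 0) (nat_lit 76) (XT.nd (nat_lit 156) (nat_lit 0) (nat_lit 0) (XT.nd (nat_lit 78) (nat_lit 1672) (nat_lit 0) (XT.lf (nat_lit 0) (nat_lit 9157234199) (nat_lit 1596) (nat_lit 204726480) (nat_lit 1672) (nat_lit 666901627) (nat_lit 547) (nat_lit 5) (nat_lit 568) (nat_lit 5) (nat_lit 569) (nat_lit 5) (nat_lit 569) (nat_lit 557) (nat_lit 434)) (XT.lf (nat_lit 0) (nat_lit 240007748) (nat_lit 1672) (nat_lit 4980556182) (nat_lit 1748) (nat_lit 4898317416)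 (nat_lit 525) (nat_lit 5) (nat_lit 547) (nat_lit 5) (nat_lit 548) (nat_lit 5) (nat_lit 570) (nat_lit 557) (nat_lit 433))) (XT.nd (nat_lit 78) (nat_lit 0) (nat_lit 76) (XT.lf (nat_lit 76) (nat_lit 366401258) (nat_lit 0) (nat_lit 980763030) (nat_lit 1748) (nat_lit 8863723270) (nat_lit 526) (nat_lit 5) (nat_lit 525) (nat_lit 5) (nat_lit 548) (nat_lit 5) (nat_lit 571) (nat_lit 557) (nat_lit 432)) (XT.lf (nat_lit 0) (nat_lit 2513326137) (nat_lit 1672) (nat_lit 4451472105) (nat_lit 1748) (nat_lit 3339199588) (nat_lit 526) (nat_lit 5) (nat_lit 548) (nat_lit 5) (nat_lit 549) (nat_lit 5) (nat_lit 572) (nat_lit 557) (nat_lit 431)))) (XT.nd (nat_lit 156) (nat_lit 0) (nat_lit 76) (XT.nd (nat_lit 78) (nat_lit 0) (nat_lit 76) (XT.lf (nat_lit 76) (nat_lit 1043568823) (nat_lit 0) (nat_lit 2654383938) (nat_lit 1748) (nat_lit 6701115871) (nat_lit 527) (nat_lit 5) (nat_lit 526) (nat_lit 5) (nat_lit 549) (nat_lit 5) (nat_lit 573) (nat_lit 557) (nat_lit 430)) (XT.lf (nat_lit 0) (nat_lit 4929827509) (nat_lit 1672) (nat_lit 3811431117) (nat_lit 1748) (nat_lit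 1754312246) (nat_lit 527) (nat_lit 5) (nat_lit 549) (nat_lit 5) (nat_lit 550) (nat_lit 5) (nat_lit 574) (nat_lit 557) (nat_lit 429))) (XT.nd (nat_lit 78) (nat_lit 0) (nat_lit 76) (XT.lf (nat_lit 76) (nat_lit 1836964175) (nat_lit 0) (nat_lit 4361404867) (nat_lit 1748) (nat_lit 4395394640) (nat_lit 528) (nat_lit 5) (nat_lit 527) (nat_lit 5) (nat_lit 550) (nat_lit 5) (nat_lit 575) (nat_lit 557) (nat_lit 428)) (XT.lf (nat_lit 0) (nat_lit 7501525698) (nat_lit 1672) (nat_lit 3057629551) (nat_lit 1748) (nat_lit 134581302) (nat_lit 528) (nat_lit 5) (nat_lit 550) (nat_lit 5) (nat_lit 551) (nat_lit 5) (nat_lit 576) (nat_lit 557) (nat_lit 427)))))) (XT.nd (nat_lit 546) (nat_lit 5624) (nat_lit 0) (XT.nd (nat_lit 234) (nat_lit 1672) (nat_lit 0) (XT.nd (nat_lit 78) (nat_lit 1672) (nat_lit 0) (XT.lf (nat_lit 76) (nat_lit 2749608647) (nat_lit 0) (nat_lit 6111019344) (nat_lit 1748) (nat_lit 1934484303) (nat_lit 529) (nat_lit 5) (nat_lit 528) (nat_lit 5) (nat_lit 551) (nat_lit 5) (nat_lit 577) (nat_lit 557) (nat_lit 426)) (XT.nd (nat_lit 78) (nat_lit 1672)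 (nat_lit 0) (XT.lf (nat_lit 76) (nat_lit 8701431429) (nat_lit 0) (nat_lit 1549391956) (nat_lit 1748) (nat_lit 647614994) (nat_lit 529) (nat_lit 5) (nat_lit 528) (nat_lit 5) (nat_lit 551) (nat_lit 5) (nat_lit 578) (nat_lit 557) (nat_lit 425)) (XT.lf (nat_lit 0) (nat_lit 684922520) (nat_lit 1748) (nat_lit 7222921612) (nat_lit 1824) (nat_lit 3095328463) (nat_lit 506) (nat_lit 5) (nat_lit 529) (nat_lit 5) (nat_lit 530) (nat_lit 5) (nat_lit 579) (nat_lit 557) (nat_lit 424)))) (XT.nd (nat_lit 156) (nat_lit 1672) (nat_lit 0) (XT.nd (nat_lit 78) (nat_lit 0) (nat_lit 76) (XT.lf (nat_lit 0) (nat_lit 2044417386) (nat_lit 1748) (nat_lit 1230749757) (nat_lit 1824) (nat_lit 7834570159) (nat_lit 506) (nat_lit 5) (nat_lit 529) (nat_lit 5) (nat_lit 530) (nat_lit 5) (nat_lit 580) (nat_lit 557) (nat_lit 423)) (XT.lf (nat_lit 0) (nat_lit 3456961176) (nat_lit 1748) (nat_lit 6294764832) (nat_lit 76) (nat_lit 1466191083) (nat_lit 507) (nat_lit 5) (nat_lit 530) (nat_lit 5) (nat_lit 508) (nat_lit 5) (nat_lit 581) (nat_lit 557) (nat_lit 422))) (XT.nd (nat_lit 78)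 (nat_lit 1748) (nat_lit 0) (XT.lf (nat_lit 0) (nat_lit 4912188130) (nat_lit 1748) (nat_lit 146240746) (nat_lit 76) (nat_lit 6269543901) (nat_lit 507) (nat_lit 5) (nat_lit 530) (nat_lit 5) (nat_lit 508) (nat_lit 5) (nat_lit 582) (nat_lit 557) (nat_lit 421)) (XT.lf (nat_lit 0) (nat_lit 6193525808) (nat_lit 1748) (nat_lit 227940376) (nat_lit 1824) (nat_lit 5018265391) (nat_lit 484) (nat_lit 5) (nat_lit 507) (nat_lit 5) (nat_lit 508) (nat_lit 5) (nat_lit 583) (nat_lit 557) (nat_lit 420))))) (XT.nd (nat_lit 312) (nat_lit 2660) (nat_lit 0) (XT.nd (nat_lit 156) (nat_lit 1140) (nat_lit 0) (XT.nd (nat_lit 78) (nat_lit 0) (nat_lit 0) (XT.lf (nat_lit 0) (nat_lit 1078808289) (nat_lit 1824) (nat_lit 6905587737) (nat_lit 1900) (nat_lit 3568861111) (nat_lit 460) (nat_lit 5) (nat_lit 484) (nat_lit 5) (nat_lit 485) (nat_lit 5) (nat_lit 584) (nat_lit 557) (nat_lit 419)) (XT.lf (nat_lit 0) (nat_lit 7586805464) (nat_lit 1824) (nat_lit 2013657157) (nat_lit 1900) (nat_lit 2068153919) (nat_lit 460) (nat_lit 5) (nat_lit 484) (nat_lit 5) (nat_lit 485) (nat_lit 5)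 (nat_lit 585) (nat_lit 557) (nat_lit 418))) (XT.nd (nat_lit 78) (nat_lit 76) (nat_lit 0) (XT.lf (nat_lit 0) (nat_lit 2438186871) (nat_lit 1064) (nat_lit 8831292334) (nat_lit 1140) (nat_lit 516392229) (nat_lit 446) (nat_lit 5) (nat_lit 460) (nat_lit 5) (nat_lit 461) (nat_lit 5) (nat_lit 586) (nat_lit 557) (nat_lit 417)) (XT.lf (nat_lit 0) (nat_lit 1078906305) (nat_lit 1140) (nat_lit 2794702416) (nat_lit 76) (nat_lit 8031195317) (nat_lit 445) (nat_lit 5) (nat_lit 460) (nat_lit 5) (nat_lit 446) (nat_lit 5) (nat_lit 587) (nat_lit 557) (nat_lit 416)))) (XT.nd (nat_lit 156) (nat_lit 1748) (nat_lit 0) (XT.nd (nat_lit 78) (nat_lit 0) (nat_lit 0) (XT.lf (nat_lit 0) (nat_lit 2718426159) (nat_lit 988) (nat_lit 8109306359) (nat_lit 76) (nat_lit 1197930737) (nat_lit 433) (nat_lit 5) (nat_lit 446) (nat_lit 5) (nat_lit 434) (nat_lit 5) (nat_lit 588) (nat_lit 557) (nat_lit 415)) (XT.lf (nat_lit 0) (nat_lit 4421330177) (nat_lit 988) (nat_lit 1388015501) (nat_lit 76) (nat_lit 6338982912) (nat_lit 433) (nat_lit 5) (nat_lit 446) (nat_lit 5) (nat_lit 434) (nat_lit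 5) (nat_lit 589) (nat_lit 557) (nat_lit 414))) (XT.nd (nat_lit 78) (nat_lit 836) (nat_lit 0) (XT.lf (nat_lit 0) (nat_lit 5527256836) (nat_lit 912) (nat_lit 653257945) (nat_lit 988) (nat_lit 6092488796) (nat_lit 421) (nat_lit 5) (nat_lit 433) (nat_lit 5) (nat_lit 434) (nat_lit 5) (nat_lit 590) (nat_lit 557) (nat_lit 413)) (XT.lf (nat_lit 0) (nat_lit 158653288) (nat_lit 836) (nat_lit 7843065227) (nat_lit 912) (nat_lit 4397917614) (nat_lit 410) (nat_lit 5) (nat_lit 421) (nat_lit 5) (nat_lit 422) (nat_lit 5) (nat_lit 591) (nat_lit 557) (nat_lit 412))))))))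
noncomputable def xc73 : XT := (XT.nd (nat_lit 80730) (nat_lit 0) (nat_lit 836) (XT.nd (nat_lit 79560) (nat_lit 0) (nat_lit 4636) (XT.nd (nat_lit 78936) (nat_lit 0) (nat_lit 9576) (XT.nd (nat_lit 78624) (nat_lit 0) (nat_lit 10868) (XT.nd (nat_lit 78) (nat_lit 836) (nat_lit 0) (XT.lf (nat_lit 0) (nat_lit 7275159673) (nat_lit 836) (nat_lit 2620455953) (nat_lit 912) (nat_lit 2632461085) (nat_lit 410) (nat_lit 5) (nat_lit 421) (nat_lit 5) (nat_lit 422) (nat_lit 5) (nat_lit 592) (nat_lit 557) (nat_lit 411)) (XT.nd (nat_lit 78468) (nat_lit 0) (nat_lit 12464) (XT.lf (nat_lit 0) (nat_lit 1868800907) (nat_lit 836) (nat_lit 9975262730) (nat_lit 912) (nat_lit 814689757) (nat_lit 399) (nat_lit 5) (nat_lit 410) (nat_lit 5) (nat_lit 411) (nat_lit 5) (nat_lit 593) (nat_lit 557) (nat_lit 410)) (XT.lf (nat_lit 0) (nat_lit 4007735921) (nat_lit 1596) (nat_lit 298211504) (nat_lit 1596) (nat_lit 298211504) (nat_lit 563) (nat_lit 3) (nat_lit 584) (nat_lit 3) (nat_lit 584) (nat_lit 5) (nat_lit 558) (nat_lit 558) (nat_lit 444)))) (XT.nd (nat_lit 156) (nat_lit 0)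 (nat_lit 76) (XT.nd (nat_lit 78) (nat_lit 1596) (nat_lit 0) (XT.lf (nat_lit 76) (nat_lit 4026244113) (nat_lit 0) (nat_lit 4946561665) (nat_lit 1596) (nat_lit 309993536) (nat_lit 564) (nat_lit 5) (nat_lit 563) (nat_lit 3) (nat_lit 584) (nat_lit 5) (nat_lit 559) (nat_lit 558) (nat_lit 443)) (XT.lf (nat_lit 0) (nat_lit 564252310) (nat_lit 1596) (nat_lit 624939592) (nat_lit 1672) (nat_lit 8169873690) (nat_lit 542) (nat_lit 5) (nat_lit 563) (nat_lit 3) (nat_lit 564) (nat_lit 5) (nat_lit 560) (nat_lit 558) (nat_lit 442))) (XT.nd (nat_lit 78) (nat_lit 0) (nat_lit 0) (XT.lf (nat_lit 0) (nat_lit 1474031747) (nat_lit 1596) (nat_lit 5314198449) (nat_lit 1672) (nat_lit 2648143495) (nat_lit 543) (nat_lit 5) (nat_lit 564) (nat_lit 5) (nat_lit 565) (nat_lit 5) (nat_lit 561) (nat_lit 558) (nat_lit 441)) (XT.lf (nat_lit 0) (nat_lit 2392422924) (nat_lit 1596) (nat_lit 562375908) (nat_lit 1672) (nat_lit 6560622232) (nat_lit 543) (nat_lit 5) (nat_lit 564) (nat_lit 5) (nat_lit 565) (nat_lit 5) (nat_lit 562) (nat_lit 558) (nat_lit 440))))) (XT.nd (nat_lit 312)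 (nat_lit 1444) (nat_lit 0) (XT.nd (nat_lit 156) (nat_lit 0) (nat_lit 0) (XT.nd (nat_lit 78) (nat_lit 0) (nat_lit 0) (XT.lf (nat_lit 0) (nat_lit 3342486103) (nat_lit 1596) (nat_lit 5272895177) (nat_lit 1672) (nat_lit 980403431) (nat_lit 544) (nat_lit 5) (nat_lit 565) (nat_lit 5) (nat_lit 566) (nat_lit 5) (nat_lit 563) (nat_lit 558) (nat_lit 439)) (XT.lf (nat_lit 0) (nat_lit 4314062355) (nat_lit 1596) (nat_lit 395987975) (nat_lit 1672) (nat_lit 4967656446) (nat_lit 544) (nat_lit 5) (nat_lit 565) (nat_lit 5) (nat_lit 566) (nat_lit 5) (nat_lit 564) (nat_lit 558) (nat_lit 438))) (XT.nd (nat_lit 78) (nat_lit 0) (nat_lit 76) (XT.lf (nat_lit 76) (nat_lit 4627184844) (nat_lit 0) (nat_lit 687481740) (nat_lit 1672) (nat_lit 4446410123) (nat_lit 545) (nat_lit 5) (nat_lit 544) (nat_lit 5) (nat_lit 566) (nat_lit 5) (nat_lit 565) (nat_lit 558) (nat_lit 437)) (XT.lf (nat_lit 0) (nat_lit 6340064715) (nat_lit 1596) (nat_lit 124403090) (nat_lit 1672) (nat_lit 3381551925) (nat_lit 545) (nat_lit 5) (nat_lit 566) (nat_lit 5) (nat_lit 567) (nat_lit 5) (nat_lit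 566) (nat_lit 558) (nat_lit 436)))) (XT.nd (nat_lit 156) (nat_lit 1520) (nat_lit 0) (XT.nd (nat_lit 78) (nat_lit 0) (nat_lit 76) (XT.lf (nat_lit 76) (nat_lit 5034657447) (nat_lit 0) (nat_lit 2368879052) (nat_lit 1672) (nat_lit 2528775099) (nat_lit 546) (nat_lit 5) (nat_lit 545) (nat_lit 5) (nat_lit 567) (nat_lit 5) (nat_lit 567) (nat_lit 558) (nat_lit 435)) (XT.lf (nat_lit 76) (nat_lit 257448712) (nat_lit 0) (nat_lit 8225763654) (nat_lit 1672) (nat_lit 1537219523) (nat_lit 547) (nat_lit 5) (nat_lit 546) (nat_lit 5) (nat_lit 568) (nat_lit 5) (nat_lit 568) (nat_lit 558) (nat_lit 434))) (XT.nd (nat_lit 78) (nat_lit 1596) (nat_lit 0) (XT.lf (nat_lit 76) (nat_lit 5553775746) (nat_lit 0) (nat_lit 4060135087) (nat_lit 1672) (nat_lit 495816421) (nat_lit 547) (nat_lit 5) (nat_lit 546) (nat_lit 5) (nat_lit 568) (nat_lit 5) (nat_lit 569) (nat_lit 558) (nat_lit 433)) (XT.lf (nat_lit 0) (nat_lit 546399743) (nat_lit 1672) (nat_lit 9453350539) (nat_lit 1748) (nat_lit 201237623) (nat_lit 525) (nat_lit 5) (nat_lit 547) (nat_lit 5) (nat_lit 548) (nat_lit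 5) (nat_lit 570) (nat_lit 558) (nat_lit 432)))))) (XT.nd (nat_lit 546) (nat_lit 4940) (nat_lit 0) (XT.nd (nat_lit 234) (nat_lit 0) (nat_lit 76) (XT.nd (nat_lit 78) (nat_lit 0) (nat_lit 0) (XT.lf (nat_lit 0) (nat_lit 1642046280) (nat_lit 1672) (nat_lit 4117489705) (nat_lit 1748) (nat_lit 4533688917) (nat_lit 525) (nat_lit 5) (nat_lit 547) (nat_lit 5) (nat_lit 548) (nat_lit 5) (nat_lit 571) (nat_lit 558) (nat_lit 431)) (XT.nd (nat_lit 78) (nat_lit 0) (nat_lit 76) (XT.lf (nat_lit 76) (nat_lit 1330073479) (nat_lit 0) (nat_lit 1420084862) (nat_lit 1748) (nat_lit 7637338401) (nat_lit 526) (nat_lit 5) (nat_lit 525) (nat_lit 5) (nat_lit 548) (nat_lit 5) (nat_lit 572) (nat_lit 558) (nat_lit 430)) (XT.lf (nat_lit 0) (nat_lit 3909990457) (nat_lit 1672) (nat_lit 3573170393) (nat_lit 1748) (nat_lit 2999903145) (nat_lit 526) (nat_lit 5) (nat_lit 548) (nat_lit 5) (nat_lit 549) (nat_lit 5) (nat_lit 573) (nat_lit 558) (nat_lit 429)))) (XT.nd (nat_lit 156) (nat_lit 0) (nat_lit 76) (XT.nd (nat_lit 78) (nat_lit 0) (nat_lit 76) (XT.lf (nat_lit 76) (nat_lit 2025407333)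 (nat_lit 0) (nat_lit 3072741560) (nat_lit 1748) (nat_lit 5482292218) (nat_lit 527) (nat_lit 5) (nat_lit 526) (nat_lit 5) (nat_lit 549) (nat_lit 5) (nat_lit 574) (nat_lit 558) (nat_lit 428)) (XT.lf (nat_lit 0) (nat_lit 6326331414) (nat_lit 1672) (nat_lit 2917122874) (nat_lit 1748) (nat_lit 1435987352) (nat_lit 527) (nat_lit 5) (nat_lit 549) (nat_lit 5) (nat_lit 550) (nat_lit 5) (nat_lit 575) (nat_lit 558) (nat_lit 427))) (XT.nd (nat_lit 78) (nat_lit 0) (nat_lit 0) (XT.lf (nat_lit 76) (nat_lit 2837855213) (nat_lit 0) (nat_lit 4763199313) (nat_lit 1748) (nat_lit 3178929182) (nat_lit 528) (nat_lit 5) (nat_lit 527) (nat_lit 5) (nat_lit 550) (nat_lit 5) (nat_lit 576) (nat_lit 558) (nat_lit 426)) (XT.lf (nat_lit 76) (nat_lit 8734997132) (nat_lit 0) (nat_lit 169301167) (nat_lit 1748) (nat_lit 1978178841) (nat_lit 528) (nat_lit 5) (nat_lit 527) (nat_lit 5) (nat_lit 550) (nat_lit 5) (nat_lit 577) (nat_lit 558) (nat_lit 425))))) (XT.nd (nat_lit 312) (nat_lit 3420) (nat_lit 0) (XT.nd (nat_lit 156) (nat_lit 0) (nat_lit 76) (XT.nd (nat_lit 78) (nat_lit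 1748) (nat_lit 0) (XT.lf (nat_lit 76) (nat_lit 3770604791) (nat_lit 0) (nat_lit 6500608554) (nat_lit 1748) (nat_lit 715055995) (nat_lit 529) (nat_lit 5) (nat_lit 528) (nat_lit 5) (nat_lit 551) (nat_lit 5) (nat_lit 578) (nat_lit 558) (nat_lit 424)) (XT.lf (nat_lit 0) (nat_lit 565368272) (nat_lit 1748) (nat_lit 1273343901) (nat_lit 1824) (nat_lit 9253360583) (nat_lit 505) (nat_lit 5) (nat_lit 528) (nat_lit 5) (nat_lit 529) (nat_lit 5) (nat_lit 579) (nat_lit 558) (nat_lit 423))) (XT.nd (nat_lit 78) (nat_lit 0) (nat_lit 0) (XT.lf (nat_lit 0) (nat_lit 1896662942) (nat_lit 1748) (nat_lit 6384762300) (nat_lit 1824) (nat_lit 2917776705) (nat_lit 506) (nat_lit 5) (nat_lit 529) (nat_lit 5) (nat_lit 530) (nat_lit 5) (nat_lit 580) (nat_lit 558) (nat_lit 422)) (XT.lf (nat_lit 0) (nat_lit 3259856687) (nat_lit 1748) (nat_lit 292014022) (nat_lit 1824) (nat_lit 7756498497) (nat_lit 506) (nat_lit 5) (nat_lit 529) (nat_lit 5) (nat_lit 530) (nat_lit 5) (nat_lit 581) (nat_lit 558) (nat_lit 421)))) (XT.nd (nat_lit 156) (nat_lit 1824) (nat_lit 0) (XT.nd (nat_lit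 78) (nat_lit 1748) (nat_lit 0) (XT.lf (nat_lit 0) (nat_lit 4682531289) (nat_lit 1748) (nat_lit 5439118919) (nat_lit 76) (nat_lit 1297426191) (nat_lit 507) (nat_lit 5) (nat_lit 530) (nat_lit 5) (nat_lit 508) (nat_lit 5) (nat_lit 582) (nat_lit 558) (nat_lit 420)) (XT.lf (nat_lit 0) (nat_lit 823935807) (nat_lit 1748) (nat_lit 5325601396) (nat_lit 1824) (nat_lit 5382143888) (nat_lit 484) (nat_lit 5) (nat_lit 507) (nat_lit 5) (nat_lit 508) (nat_lit 5) (nat_lit 583) (nat_lit 558) (nat_lit 419))) (XT.nd (nat_lit 78) (nat_lit 1824) (nat_lit 0) (XT.lf (nat_lit 0) (nat_lit 7273360737) (nat_lit 1748) (nat_lit 394266794) (nat_lit 1824) (nat_lit 3978476354) (nat_lit 484) (nat_lit 5) (nat_lit 507) (nat_lit 5) (nat_lit 508) (nat_lit 5) (nat_lit 584) (nat_lit 558) (nat_lit 418)) (XT.lf (nat_lit 0) (nat_lit 2073377827) (nat_lit 1824) (nat_lit 7171809439) (nat_lit 1900) (nat_lit 2517046594) (nat_lit 460) (nat_lit 5) (nat_lit 484) (nat_lit 5) (nat_lit 485) (nat_lit 5) (nat_lit 585) (nat_lit 558) (nat_lit 417))))))) (XT.nd (nat_lit 79716) (nat_lit 0) (nat_lit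 7220) (XT.nd (nat_lit 79092) (nat_lit 0) (nat_lit 10032) (XT.nd (nat_lit 234) (nat_lit 2660) (nat_lit 0) (XT.nd (nat_lit 78) (nat_lit 1140) (nat_lit 0) (XT.lf (nat_lit 0) (nat_lit 8692456644) (nat_lit 1824) (nat_lit 2179528287) (nat_lit 1900) (nat_lit 1008348626) (nat_lit 460) (nat_lit 5) (nat_lit 484) (nat_lit 5) (nat_lit 485) (nat_lit 5) (nat_lit 586) (nat_lit 558) (nat_lit 416)) (XT.nd (nat_lit 78) (nat_lit 0) (nat_lit 0) (XT.lf (nat_lit 0) (nat_lit 551140519) (nat_lit 1140) (nat_lit 8546961257) (nat_lit 76) (nat_lit 2902073905) (nat_lit 445) (nat_lit 5) (nat_lit 460) (nat_lit 5) (nat_lit 446) (nat_lit 5) (nat_lit 587) (nat_lit 558) (nat_lit 415)) (XT.lf (nat_lit 0) (nat_lit 2150437926) (nat_lit 1140) (nat_lit 1885638443) (nat_lit 76) (nat_lit 8085763379) (nat_lit 445) (nat_lit 5) (nat_lit 460) (nat_lit 5) (nat_lit 446) (nat_lit 5) (nat_lit 588) (nat_lit 558) (nat_lit 414)))) (XT.nd (nat_lit 156) (nat_lit 1748) (nat_lit 0) (XT.nd (nat_lit 78) (nat_lit 0) (nat_lit 0) (XT.lf (nat_lit 0) (nat_lit 3807884975) (nat_lit 988) (nat_lit 7291611163)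 (nat_lit 76) (nat_lit 1145918477) (nat_lit 433) (nat_lit 5) (nat_lit 446) (nat_lit 5) (nat_lit 434) (nat_lit 5) (nat_lit 589) (nat_lit 558) (nat_lit 413)) (XT.lf (nat_lit 0) (nat_lit 5524551185) (nat_lit 988) (nat_lit 455107847) (nat_lit 76) (nat_lit 6391281321) (nat_lit 433) (nat_lit 5) (nat_lit 446) (nat_lit 5) (nat_lit 434) (nat_lit 5) (nat_lit 590) (nat_lit 558) (nat_lit 412))) (XT.nd (nat_lit 78) (nat_lit 836) (nat_lit 0) (XT.lf (nat_lit 0) (nat_lit 6592149752) (nat_lit 912) (nat_lit 713068058) (nat_lit 988) (nat_lit 5193166218) (nat_lit 421) (nat_lit 5) (nat_lit 433) (nat_lit 5) (nat_lit 434) (nat_lit 5) (nat_lit 591) (nat_lit 558) (nat_lit 411)) (XT.lf (nat_lit 0) (nat_lit 1130144550) (nat_lit 836) (nat_lit 8019061217) (nat_lit 912) (nat_lit 3478617396) (nat_lit 410) (nat_lit 5) (nat_lit 421) (nat_lit 5) (nat_lit 422) (nat_lit 5) (nat_lit 592) (nat_lit 558) (nat_lit 410))))) (XT.nd (nat_lit 312) (nat_lit 0) (nat_lit 76) (XT.nd (nat_lit 156) (nat_lit 0) (nat_lit 0) (XT.nd (nat_lit 78) (nat_lit 0) (nat_lit 0) (XT.lf (nat_lit 0) (nat_lit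 126228654) (nat_lit 0) (nat_lit 126228654) (nat_lit 1596) (nat_lit 4426750563) (nat_lit 542) (nat_lit 5) (nat_lit 542) (nat_lit 3) (nat_lit 563) (nat_lit 3) (nat_lit 559) (nat_lit 559) (nat_lit 442)) (XT.lf (nat_lit 0) (nat_lit 1362512326) (nat_lit 1596) (nat_lit 4480461858) (nat_lit 1672) (nat_lit 3591919960) (nat_lit 542) (nat_lit 5) (nat_lit 563) (nat_lit 3) (nat_lit 564) (nat_lit 5) (nat_lit 560) (nat_lit 559) (nat_lit 441))) (XT.nd (nat_lit 78) (nat_lit 0) (nat_lit 76) (XT.lf (nat_lit 76) (nat_lit 227477881) (nat_lit 0) (nat_lit 1991260727) (nat_lit 1672) (nat_lit 7294535410) (nat_lit 543) (nat_lit 5) (nat_lit 542) (nat_lit 5) (nat_lit 564) (nat_lit 5) (nat_lit 561) (nat_lit 559) (nat_lit 440)) (XT.lf (nat_lit 0) (nat_lit 3113678613) (nat_lit 1596) (nat_lit 4526884755) (nat_lit 1672) (nat_lit 1952227745) (nat_lit 543) (nat_lit 5) (nat_lit 564) (nat_lit 5) (nat_lit 565) (nat_lit 5) (nat_lit 562) (nat_lit 559) (nat_lit 439)))) (XT.nd (nat_lit 156) (nat_lit 0) (nat_lit 76) (XT.nd (nat_lit 78) (nat_lit 0) (nat_lit 76) (XT.lf (nat_lit 76)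 (nat_lit 306472150) (nat_lit 0) (nat_lit 3714383397) (nat_lit 1672) (nat_lit 5653157622) (nat_lit 544) (nat_lit 5) (nat_lit 543) (nat_lit 5) (nat_lit 565) (nat_lit 5) (nat_lit 563) (nat_lit 559) (nat_lit 438)) (XT.lf (nat_lit 0) (nat_lit 4958193628) (nat_lit 1596) (nat_lit 4472437818) (nat_lit 1672) (nat_lit 325989222) (nat_lit 544) (nat_lit 5) (nat_lit 565) (nat_lit 5) (nat_lit 566) (nat_lit 5) (nat_lit 564) (nat_lit 559) (nat_lit 437))) (XT.nd (nat_lit 78) (nat_lit 0) (nat_lit 0) (XT.lf (nat_lit 76) (nat_lit 490679837) (nat_lit 0) (nat_lit 5431337625) (nat_lit 1672) (nat_lit 3918709402) (nat_lit 545) (nat_lit 5) (nat_lit 544) (nat_lit 5) (nat_lit 566) (nat_lit 5) (nat_lit 565) (nat_lit 559) (nat_lit 436)) (XT.lf (nat_lit 76) (nat_lit 5602037654) (nat_lit 0) (nat_lit 1313364566) (nat_lit 1672) (nat_lit 3010908578) (nat_lit 545) (nat_lit 5) (nat_lit 544) (nat_lit 5) (nat_lit 566) (nat_lit 5) (nat_lit 566) (nat_lit 559) (nat_lit 435)))))) (XT.nd (nat_lit 546) (nat_lit 1444) (nat_lit 0) (XT.nd (nat_lit 234) (nat_lit 1596) (nat_lit 0) (XT.nd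 (nat_lit 78) (nat_lit 0) (nat_lit 0) (XT.lf (nat_lit 76) (nat_lit 781665364) (nat_lit 0) (nat_lit 7151518801) (nat_lit 1672) (nat_lit 2080332930) (nat_lit 546) (nat_lit 5) (nat_lit 545) (nat_lit 5) (nat_lit 567) (nat_lit 5) (nat_lit 567) (nat_lit 559) (nat_lit 434)) (XT.nd (nat_lit 78) (nat_lit 0) (nat_lit 76) (XT.lf (nat_lit 76) (nat_lit 6027745531) (nat_lit 0) (nat_lit 2962246960) (nat_lit 1672) (nat_lit 1112102864) (nat_lit 546) (nat_lit 5) (nat_lit 545) (nat_lit 5) (nat_lit 567) (nat_lit 5) (nat_lit 568) (nat_lit 559) (nat_lit 433)) (XT.lf (nat_lit 76) (nat_lit 1181315801) (nat_lit 0) (nat_lit 8884231946) (nat_lit 1672) (nat_lit 126946445) (nat_lit 547) (nat_lit 5) (nat_lit 546) (nat_lit 5) (nat_lit 568) (nat_lit 5) (nat_lit 569) (nat_lit 559) (nat_lit 432)))) (XT.nd (nat_lit 156) (nat_lit 0) (nat_lit 76) (XT.nd (nat_lit 78) (nat_lit 0) (nat_lit 0) (XT.lf (nat_lit 0) (nat_lit 895133619) (nat_lit 1672) (nat_lit 3724465017) (nat_lit 1748) (nat_lit 5664414858) (nat_lit 524) (nat_lit 5) (nat_lit 546) (nat_lit 5) (nat_lit 547) (nat_lit 5)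 (nat_lit 570) (nat_lit 559) (nat_lit 431)) (XT.lf (nat_lit 76) (nat_lit 1677241331) (nat_lit 0) (nat_lit 251561254) (nat_lit 1748) (nat_lit 8448688028) (nat_lit 525) (nat_lit 5) (nat_lit 524) (nat_lit 5) (nat_lit 547) (nat_lit 5) (nat_lit 571) (nat_lit 559) (nat_lit 430))) (XT.nd (nat_lit 78) (nat_lit 0) (nat_lit 0) (XT.lf (nat_lit 0) (nat_lit 3017869113) (nat_lit 1672) (nat_lit 3274543843) (nat_lit 1748) (nat_lit 4179730969) (nat_lit 525) (nat_lit 5) (nat_lit 547) (nat_lit 5) (nat_lit 548) (nat_lit 5) (nat_lit 572) (nat_lit 559) (nat_lit 429)) (XT.lf (nat_lit 76) (nat_lit 2275883133) (nat_lit 0) (nat_lit 1851895413) (nat_lit 1748) (nat_lit 6440931637) (nat_lit 526) (nat_lit 5) (nat_lit 525) (nat_lit 5) (nat_lit 548) (nat_lit 5) (nat_lit 573) (nat_lit 559) (nat_lit 428))))) (XT.nd (nat_lit 312) (nat_lit 1596) (nat_lit 0) (XT.nd (nat_lit 156) (nat_lit 0) (nat_lit 76) (XT.nd (nat_lit 78) (nat_lit 0) (nat_lit 0) (XT.lf (nat_lit 0) (nat_lit 5282305796) (nat_lit 1672) (nat_lit 2714865295) (nat_lit 1748) (nat_lit 2669589371) (nat_lit 526) (nat_lit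 5) (nat_lit 548) (nat_lit 5) (nat_lit 549) (nat_lit 5) (nat_lit 574) (nat_lit 559) (nat_lit 427)) (XT.lf (nat_lit 76) (nat_lit 2989567088) (nat_lit 0) (nat_lit 3485282457) (nat_lit 1748) (nat_lit 4291624749) (nat_lit 527) (nat_lit 5) (nat_lit 526) (nat_lit 5) (nat_lit 549) (nat_lit 5) (nat_lit 575) (nat_lit 559) (nat_lit 426))) (XT.nd (nat_lit 78) (nat_lit 0) (nat_lit 0) (XT.lf (nat_lit 0) (nat_lit 7700366072) (nat_lit 1672) (nat_lit 2042615595) (nat_lit 1748) (nat_lit 1125019345) (nat_lit 527) (nat_lit 5) (nat_lit 549) (nat_lit 5) (nat_lit 550) (nat_lit 5) (nat_lit 576) (nat_lit 559) (nat_lit 425)) (XT.lf (nat_lit 76) (nat_lit 3821324884) (nat_lit 0) (nat_lit 5160814654) (nat_lit 1748) (nat_lit 1988784822) (nat_lit 528) (nat_lit 5) (nat_lit 527) (nat_lit 5) (nat_lit 550) (nat_lit 5) (nat_lit 577) (nat_lit 559) (nat_lit 424)))) (XT.nd (nat_lit 156) (nat_lit 0) (nat_lit 0) (XT.nd (nat_lit 78) (nat_lit 1672) (nat_lit 0) (XT.lf (nat_lit 76) (nat_lit 9818238807) (nat_lit 0) (nat_lit 469110087) (nat_lit 1748) (nat_lit 788602277) (nat_lit 528)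 (nat_lit 5) (nat_lit 527) (nat_lit 5) (nat_lit 550) (nat_lit 5) (nat_lit 578) (nat_lit 559) (nat_lit 423)) (XT.lf (nat_lit 0) (nat_lit 473612561) (nat_lit 1748) (nat_lit 6410816540) (nat_lit 1824) (nat_lit 4297718994) (nat_lit 505) (nat_lit 5) (nat_lit 528) (nat_lit 5) (nat_lit 529) (nat_lit 5) (nat_lit 579) (nat_lit 559) (nat_lit 422))) (XT.nd (nat_lit 78) (nat_lit 0) (nat_lit 76) (XT.lf (nat_lit 0) (nat_lit 1746679586) (nat_lit 1748) (nat_lit 372903101) (nat_lit 1824) (nat_lit 9170859621) (nat_lit 505) (nat_lit 5) (nat_lit 528) (nat_lit 5) (nat_lit 529) (nat_lit 5) (nat_lit 580) (nat_lit 559) (nat_lit 421)) (XT.lf (nat_lit 0) (nat_lit 3086116743) (nat_lit 1748) (nat_lit 5567996046) (nat_lit 1824) (nat_lit 2745972370) (nat_lit 506) (nat_lit 5) (nat_lit 529) (nat_lit 5) (nat_lit 530) (nat_lit 5) (nat_lit 581) (nat_lit 559) (nat_lit 420))))))))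
noncomputable def xc74 : XT := (XT.nd (nat_lit 81042) (nat_lit 0) (nat_lit 912) (XT.nd (nat_lit 79872) (nat_lit 0) (nat_lit 6308) (XT.nd (nat_lit 546) (nat_lit 1824) (nat_lit 0) (XT.nd (nat_lit 234) (nat_lit 2964) (nat_lit 0) (XT.nd (nat_lit 78) (nat_lit 1672) (nat_lit 0) (XT.lf (nat_lit 76) (nat_lit 636435307) (nat_lit 0) (nat_lit 3821692381) (nat_lit 1824) (nat_lit 7053678389) (nat_lit 507) (nat_lit 5) (nat_lit 506) (nat_lit 5) (nat_lit 530) (nat_lit 5) (nat_lit 582) (nat_lit 559) (nat_lit 419)) (XT.nd (nat_lit 78) (nat_lit 1748) (nat_lit 0) (XT.lf (nat_lit 0) (nat_lit 5887707183) (nat_lit 1748) (nat_lit 4604474530) (nat_lit 76) (nat_lit 1132978028) (nat_lit 507) (nat_lit 5) (nat_lit 530) (nat_lit 5) (nat_lit 508) (nat_lit 5) (nat_lit 583) (nat_lit 559) (nat_lit 418)) (XT.lf (nat_lit 0) (nat_lit 1777634536) (nat_lit 1748) (nat_lit 5590709121) (nat_lit 1824) (nat_lit 4371988389) (nat_lit 484) (nat_lit 5) (nat_lit 507) (nat_lit 5) (nat_lit 508) (nat_lit 5) (nat_lit 584) (nat_lit 559) (nat_lit 417)))) (XT.nd (nat_lit 156) (nat_lit 1140) (nat_lit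 0) (XT.nd (nat_lit 78) (nat_lit 1824) (nat_lit 0) (XT.lf (nat_lit 0) (nat_lit 8337671101) (nat_lit 1748) (nat_lit 557638108) (nat_lit 1824) (nat_lit 2962165119) (nat_lit 484) (nat_lit 5) (nat_lit 507) (nat_lit 5) (nat_lit 508) (nat_lit 5) (nat_lit 585) (nat_lit 559) (nat_lit 416)) (XT.lf (nat_lit 0) (nat_lit 3050056238) (nat_lit 1824) (nat_lit 7438380909) (nat_lit 1900) (nat_lit 1487810690) (nat_lit 460) (nat_lit 5) (nat_lit 484) (nat_lit 5) (nat_lit 485) (nat_lit 5) (nat_lit 586) (nat_lit 559) (nat_lit 415))) (XT.nd (nat_lit 78) (nat_lit 1064) (nat_lit 0) (XT.lf (nat_lit 0) (nat_lit 29501010) (nat_lit 1900) (nat_lit 2314140739) (nat_lit 76) (nat_lit 9753480185) (nat_lit 459) (nat_lit 5) (nat_lit 484) (nat_lit 5) (nat_lit 460) (nat_lit 5) (nat_lit 587) (nat_lit 559) (nat_lit 414)) (XT.lf (nat_lit 0) (nat_lit 1591529501) (nat_lit 1140) (nat_lit 7771863206) (nat_lit 76) (nat_lit 2856139065) (nat_lit 445) (nat_lit 5) (nat_lit 460) (nat_lit 5) (nat_lit 446) (nat_lit 5) (nat_lit 588) (nat_lit 559) (nat_lit 413))))) (XT.nd (nat_lit 79014) (nat_lit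 0) (nat_lit 9196) (XT.nd (nat_lit 156) (nat_lit 912) (nat_lit 0) (XT.nd (nat_lit 78) (nat_lit 912) (nat_lit 0) (XT.lf (nat_lit 0) (nat_lit 3202629206) (nat_lit 1140) (nat_lit 995863686) (nat_lit 76) (nat_lit 8145541080) (nat_lit 445) (nat_lit 5) (nat_lit 460) (nat_lit 5) (nat_lit 446) (nat_lit 5) (nat_lit 589) (nat_lit 559) (nat_lit 412)) (XT.lf (nat_lit 0) (nat_lit 4878939150) (nat_lit 988) (nat_lit 6495612049) (nat_lit 76) (nat_lit 1095816014) (nat_lit 433) (nat_lit 5) (nat_lit 446) (nat_lit 5) (nat_lit 434) (nat_lit 5) (nat_lit 590) (nat_lit 559) (nat_lit 411))) (XT.nd (nat_lit 78780) (nat_lit 0) (nat_lit 9196) (XT.lf (nat_lit 0) (nat_lit 465255966) (nat_lit 912) (nat_lit 6148195694) (nat_lit 988) (nat_lit 5985282679) (nat_lit 421) (nat_lit 5) (nat_lit 433) (nat_lit 5) (nat_lit 434) (nat_lit 5) (nat_lit 591) (nat_lit 559) (nat_lit 410)) (XT.lf (nat_lit 0) (nat_lit 540521041) (nat_lit 0) (nat_lit 540521041) (nat_lit 1596) (nat_lit 3675224804) (nat_lit 542) (nat_lit 5) (nat_lit 542) (nat_lit 3) (nat_lit 563) (nat_lit 3) (nat_lit 560) (nat_lit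 560) (nat_lit 440)))) (XT.nd (nat_lit 156) (nat_lit 0) (nat_lit 76) (XT.nd (nat_lit 78) (nat_lit 0) (nat_lit 0) (XT.lf (nat_lit 0) (nat_lit 2999296215) (nat_lit 1596) (nat_lit 3725038887) (nat_lit 1672) (nat_lit 2866959527) (nat_lit 542) (nat_lit 5) (nat_lit 563) (nat_lit 3) (nat_lit 564) (nat_lit 5) (nat_lit 561) (nat_lit 560) (nat_lit 439)) (XT.lf (nat_lit 76) (nat_lit 1071500225) (nat_lit 0) (nat_lit 2775037728) (nat_lit 1672) (nat_lit 5825228420) (nat_lit 543) (nat_lit 5) (nat_lit 542) (nat_lit 5) (nat_lit 564) (nat_lit 5) (nat_lit 562) (nat_lit 560) (nat_lit 438))) (XT.nd (nat_lit 78) (nat_lit 0) (nat_lit 0) (XT.lf (nat_lit 0) (nat_lit 4723593699) (nat_lit 1596) (nat_lit 3758524274) (nat_lit 1672) (nat_lit 1271473549) (nat_lit 543) (nat_lit 5) (nat_lit 564) (nat_lit 5) (nat_lit 565) (nat_lit 5) (nat_lit 563) (nat_lit 560) (nat_lit 437)) (XT.lf (nat_lit 76) (nat_lit 1165849123) (nat_lit 0) (nat_lit 4458258985) (nat_lit 1672) (nat_lit 4212828044) (nat_lit 544) (nat_lit 5) (nat_lit 543) (nat_lit 5) (nat_lit 565) (nat_lit 5) (nat_lit 564)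 (nat_lit 560) (nat_lit 436)))))) (XT.nd (nat_lit 546) (nat_lit 1444) (nat_lit 0) (XT.nd (nat_lit 234) (nat_lit 1520) (nat_lit 0) (XT.nd (nat_lit 78) (nat_lit 0) (nat_lit 76) (XT.lf (nat_lit 76) (nat_lit 6228615004) (nat_lit 0) (nat_lit 319530868) (nat_lit 1672) (nat_lit 3373692842) (nat_lit 544) (nat_lit 5) (nat_lit 543) (nat_lit 5) (nat_lit 565) (nat_lit 5) (nat_lit 565) (nat_lit 560) (nat_lit 435)) (XT.nd (nat_lit 78) (nat_lit 0) (nat_lit 0) (XT.lf (nat_lit 76) (nat_lit 1365502368) (nat_lit 0) (nat_lit 6140094956) (nat_lit 1672) (nat_lit 2502544622) (nat_lit 545) (nat_lit 5) (nat_lit 544) (nat_lit 5) (nat_lit 566) (nat_lit 5) (nat_lit 566) (nat_lit 560) (nat_lit 434)) (XT.lf (nat_lit 76) (nat_lit 6562126381) (nat_lit 0) (nat_lit 1927995170) (nat_lit 1672) (nat_lit 1605892467) (nat_lit 545) (nat_lit 5) (nat_lit 544) (nat_lit 5) (nat_lit 566) (nat_lit 5) (nat_lit 567) (nat_lit 560) (nat_lit 433)))) (XT.nd (nat_lit 156) (nat_lit 0) (nat_lit 76) (XT.nd (nat_lit 78) (nat_lit 1672) (nat_lit 0) (XT.lf (nat_lit 76) (nat_lit 1672195667) (nat_lit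 0) (nat_lit 7829833811) (nat_lit 1672) (nat_lit 683461415) (nat_lit 546) (nat_lit 5) (nat_lit 545) (nat_lit 5) (nat_lit 567) (nat_lit 5) (nat_lit 568) (nat_lit 560) (nat_lit 432)) (XT.lf (nat_lit 0) (nat_lit 272308954) (nat_lit 1672) (nat_lit 3272144466) (nat_lit 1748) (nat_lit 6731906303) (nat_lit 523) (nat_lit 5) (nat_lit 545) (nat_lit 5) (nat_lit 546) (nat_lit 5) (nat_lit 569) (nat_lit 560) (nat_lit 431))) (XT.nd (nat_lit 78) (nat_lit 0) (nat_lit 0) (XT.lf (nat_lit 0) (nat_lit 1239108528) (nat_lit 1672) (nat_lit 8289265206) (nat_lit 1748) (nat_lit 840561689) (nat_lit 524) (nat_lit 5) (nat_lit 546) (nat_lit 5) (nat_lit 547) (nat_lit 5) (nat_lit 570) (nat_lit 560) (nat_lit 430)) (XT.lf (nat_lit 0) (nat_lit 2253130094) (nat_lit 1672) (nat_lit 2915330741) (nat_lit 1748) (nat_lit 5294345217) (nat_lit 524) (nat_lit 5) (nat_lit 546) (nat_lit 5) (nat_lit 547) (nat_lit 5) (nat_lit 571) (nat_lit 560) (nat_lit 429))))) (XT.nd (nat_lit 312) (nat_lit 1520) (nat_lit 0) (XT.nd (nat_lit 156) (nat_lit 0) (nat_lit 76) (XT.nd (nat_lit 78) (nat_lit 0) (nat_lit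 76) (XT.lf (nat_lit 76) (nat_lit 2588596421) (nat_lit 0) (nat_lit 698298996) (nat_lit 1748) (nat_lit 7271670520) (nat_lit 525) (nat_lit 5) (nat_lit 524) (nat_lit 5) (nat_lit 547) (nat_lit 5) (nat_lit 572) (nat_lit 560) (nat_lit 428)) (XT.lf (nat_lit 0) (nat_lit 4369058779) (nat_lit 1672) (nat_lit 2450669421) (nat_lit 1748) (nat_lit 3835959455) (nat_lit 525) (nat_lit 5) (nat_lit 547) (nat_lit 5) (nat_lit 548) (nat_lit 5) (nat_lit 573) (nat_lit 560) (nat_lit 427))) (XT.nd (nat_lit 78) (nat_lit 0) (nat_lit 76) (XT.lf (nat_lit 76) (nat_lit 3204915006) (nat_lit 0) (nat_lit 2276677317) (nat_lit 1748) (nat_lit 5272986013) (nat_lit 526) (nat_lit 5) (nat_lit 525) (nat_lit 5) (nat_lit 548) (nat_lit 5) (nat_lit 574) (nat_lit 560) (nat_lit 426)) (XT.lf (nat_lit 0) (nat_lit 6631815358) (nat_lit 1672) (nat_lit 1875498139) (nat_lit 1748) (nat_lit 2347825605) (nat_lit 526) (nat_lit 5) (nat_lit 548) (nat_lit 5) (nat_lit 549) (nat_lit 5) (nat_lit 575) (nat_lit 560) (nat_lit 425)))) (XT.nd (nat_lit 156) (nat_lit 1672) (nat_lit 0) (XT.nd (nat_lit 78) (nat_lit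 0) (nat_lit 76) (XT.lf (nat_lit 76) (nat_lit 3937143520) (nat_lit 0) (nat_lit 3892441072) (nat_lit 1748) (nat_lit 3127636682) (nat_lit 527) (nat_lit 5) (nat_lit 526) (nat_lit 5) (nat_lit 549) (nat_lit 5) (nat_lit 576) (nat_lit 560) (nat_lit 424)) (XT.lf (nat_lit 0) (nat_lit 9053439167) (nat_lit 1672) (nat_lit 1186841863) (nat_lit 1748) (nat_lit 821022467) (nat_lit 527) (nat_lit 5) (nat_lit 549) (nat_lit 5) (nat_lit 550) (nat_lit 5) (nat_lit 577) (nat_lit 560) (nat_lit 423))) (XT.nd (nat_lit 78) (nat_lit 1748) (nat_lit 0) (XT.lf (nat_lit 76) (nat_lit 4788478569) (nat_lit 0) (nat_lit 5554641630) (nat_lit 1748) (nat_lit 823521164) (nat_lit 528) (nat_lit 5) (nat_lit 527) (nat_lit 5) (nat_lit 550) (nat_lit 5) (nat_lit 578) (nat_lit 560) (nat_lit 422)) (XT.lf (nat_lit 0) (nat_lit 372091902) (nat_lit 1748) (nat_lit 388815888) (nat_lit 1824) (nat_lit 10513276697) (nat_lit 504) (nat_lit 5) (nat_lit 527) (nat_lit 5) (nat_lit 528) (nat_lit 5) (nat_lit 579) (nat_lit 560) (nat_lit 421))))))) (XT.nd (nat_lit 79950) (nat_lit 0) (nat_lit 6840) (XT.nd (nat_lit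 546) (nat_lit 3876) (nat_lit 0) (XT.nd (nat_lit 234) (nat_lit 1596) (nat_lit 0) (XT.nd (nat_lit 78) (nat_lit 0) (nat_lit 0) (XT.lf (nat_lit 0) (nat_lit 1630147507) (nat_lit 1748) (nat_lit 5631280246) (nat_lit 1824) (nat_lit 4121351635) (nat_lit 505) (nat_lit 5) (nat_lit 528) (nat_lit 5) (nat_lit 529) (nat_lit 5) (nat_lit 580) (nat_lit 560) (nat_lit 420)) (XT.nd (nat_lit 78) (nat_lit 0) (nat_lit 76) (XT.lf (nat_lit 76) (nat_lit 516364604) (nat_lit 0) (nat_lit 2393172424) (nat_lit 1824) (nat_lit 8584086614) (nat_lit 506) (nat_lit 5) (nat_lit 505) (nat_lit 5) (nat_lit 529) (nat_lit 5) (nat_lit 581) (nat_lit 560) (nat_lit 419)) (XT.lf (nat_lit 0) (nat_lit 4254644674) (nat_lit 1748) (nat_lit 4771569058) (nat_lit 1824) (nat_lit 2579669337) (nat_lit 506) (nat_lit 5) (nat_lit 529) (nat_lit 5) (nat_lit 530) (nat_lit 5) (nat_lit 582) (nat_lit 560) (nat_lit 418)))) (XT.nd (nat_lit 156) (nat_lit 1672) (nat_lit 0) (XT.nd (nat_lit 78) (nat_lit 0) (nat_lit 76) (XT.lf (nat_lit 76) (nat_lit 1550978639) (nat_lit 0) (nat_lit 4087270306) (nat_lit 1824) (nat_lit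 6081907725) (nat_lit 507) (nat_lit 5) (nat_lit 506) (nat_lit 5) (nat_lit 530) (nat_lit 5) (nat_lit 583) (nat_lit 560) (nat_lit 417)) (XT.lf (nat_lit 0) (nat_lit 7073824714) (nat_lit 1748) (nat_lit 3789771665) (nat_lit 76) (nat_lit 972634236) (nat_lit 507) (nat_lit 5) (nat_lit 530) (nat_lit 5) (nat_lit 508) (nat_lit 5) (nat_lit 584) (nat_lit 560) (nat_lit 416))) (XT.nd (nat_lit 78) (nat_lit 0) (nat_lit 0) (XT.lf (nat_lit 0) (nat_lit 2714013843) (nat_lit 1748) (nat_lit 5854960536) (nat_lit 1824) (nat_lit 3385035252) (nat_lit 484) (nat_lit 5) (nat_lit 507) (nat_lit 5) (nat_lit 508) (nat_lit 5) (nat_lit 585) (nat_lit 560) (nat_lit 415)) (XT.lf (nat_lit 0) (nat_lit 9387587874) (nat_lit 1748) (nat_lit 718239137) (nat_lit 1824) (nat_lit 1968082045) (nat_lit 484) (nat_lit 5) (nat_lit 507) (nat_lit 5) (nat_lit 508) (nat_lit 5) (nat_lit 586) (nat_lit 560) (nat_lit 414))))) (XT.nd (nat_lit 312) (nat_lit 912) (nat_lit 0) (XT.nd (nat_lit 156) (nat_lit 1064) (nat_lit 0) (XT.nd (nat_lit 78) (nat_lit 76) (nat_lit 0) (XT.lf (nat_lit 0) (nat_lit 4009952839)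 (nat_lit 1824) (nat_lit 7705502316) (nat_lit 1900) (nat_lit 479911353) (nat_lit 460) (nat_lit 5) (nat_lit 484) (nat_lit 5) (nat_lit 485) (nat_lit 5) (nat_lit 587) (nat_lit 560) (nat_lit 413)) (XT.lf (nat_lit 0) (nat_lit 1034058199) (nat_lit 1900) (nat_lit 1465752363) (nat_lit 76) (nat_lit 9819115547) (nat_lit 459) (nat_lit 5) (nat_lit 484) (nat_lit 5) (nat_lit 460) (nat_lit 5) (nat_lit 588) (nat_lit 560) (nat_lit 412))) (XT.nd (nat_lit 78) (nat_lit 0) (nat_lit 0) (XT.lf (nat_lit 0) (nat_lit 2612754720) (nat_lit 1140) (nat_lit 7017998974) (nat_lit 76) (nat_lit 2813323056) (nat_lit 445) (nat_lit 5) (nat_lit 460) (nat_lit 5) (nat_lit 446) (nat_lit 5) (nat_lit 589) (nat_lit 560) (nat_lit 411)) (XT.lf (nat_lit 0) (nat_lit 4236676525) (nat_lit 1140) (nat_lit 124308905) (nat_lit 76) (nat_lit 8210472695) (nat_lit 445) (nat_lit 5) (nat_lit 460) (nat_lit 5) (nat_lit 446) (nat_lit 5) (nat_lit 590) (nat_lit 560) (nat_lit 410)))) (XT.nd (nat_lit 78936) (nat_lit 0) (nat_lit 8284) (XT.nd (nat_lit 78858) (nat_lit 0) (nat_lit 8284) (XT.lf (nat_lit 0) (nat_lit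 5932781366) (nat_lit 988) (nat_lit 5720265411) (nat_lit 76) (nat_lit 1047546989) (nat_lit 433) (nat_lit 5) (nat_lit 446) (nat_lit 5) (nat_lit 434) (nat_lit 5) (nat_lit 591) (nat_lit 560) (nat_lit 409)) (XT.lf (nat_lit 0) (nat_lit 947109829) (nat_lit 0) (nat_lit 947109829) (nat_lit 1596) (nat_lit 2941289114) (nat_lit 542) (nat_lit 5) (nat_lit 542) (nat_lit 3) (nat_lit 563) (nat_lit 3) (nat_lit 561) (nat_lit 561) (nat_lit 438))) (XT.nd (nat_lit 78) (nat_lit 0) (nat_lit 0) (XT.lf (nat_lit 0) (nat_lit 4606315628) (nat_lit 1596) (nat_lit 2987321087) (nat_lit 1672) (nat_lit 2158440555) (nat_lit 542) (nat_lit 5) (nat_lit 563) (nat_lit 3) (nat_lit 564) (nat_lit 5) (nat_lit 562) (nat_lit 561) (nat_lit 437)) (XT.lf (nat_lit 76) (nat_lit 1899805264) (nat_lit 0) (nat_lit 3545601714) (nat_lit 1672) (nat_lit 4389255386) (nat_lit 543) (nat_lit 5) (nat_lit 542) (nat_lit 5) (nat_lit 564) (nat_lit 5) (nat_lit 563) (nat_lit 561) (nat_lit 436)))))) (XT.nd (nat_lit 546) (nat_lit 0) (nat_lit 76) (XT.nd (nat_lit 234) (nat_lit 1520) (nat_lit 0) (XT.nd (nat_lit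 78) (nat_lit 0) (nat_lit 0) (XT.lf (nat_lit 0) (nat_lit 6305610281) (nat_lit 1596) (nat_lit 3008148646) (nat_lit 1672) (nat_lit 605054933) (nat_lit 543) (nat_lit 5) (nat_lit 564) (nat_lit 5) (nat_lit 565) (nat_lit 5) (nat_lit 564) (nat_lit 561) (nat_lit 435)) (XT.nd (nat_lit 78) (nat_lit 0) (nat_lit 0) (XT.lf (nat_lit 76) (nat_lit 2009280994) (nat_lit 0) (nat_lit 5191011171) (nat_lit 1672) (nat_lit 2804012007) (nat_lit 544) (nat_lit 5) (nat_lit 543) (nat_lit 5) (nat_lit 565) (nat_lit 5) (nat_lit 565) (nat_lit 561) (nat_lit 434)) (XT.lf (nat_lit 76) (nat_lit 7157221509) (nat_lit 0) (nat_lit 956889138) (nat_lit 1672) (nat_lit 1977370034) (nat_lit 544) (nat_lit 5) (nat_lit 543) (nat_lit 5) (nat_lit 565) (nat_lit 5) (nat_lit 566) (nat_lit 561) (nat_lit 433)))) (XT.nd (nat_lit 156) (nat_lit 1596) (nat_lit 0) (XT.nd (nat_lit 78) (nat_lit 0) (nat_lit 0) (XT.lf (nat_lit 76) (nat_lit 2224231997) (nat_lit 0) (nat_lit 6839723633) (nat_lit 1672) (nat_lit 1116091315) (nat_lit 545) (nat_lit 5) (nat_lit 544) (nat_lit 5) (nat_lit 566) (nat_lit 5) (nat_lit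 567) (nat_lit 561) (nat_lit 432)) (XT.lf (nat_lit 76) (nat_lit 7508486146) (nat_lit 0) (nat_lit 2532071521) (nat_lit 1672) (nat_lit 229672867) (nat_lit 545) (nat_lit 5) (nat_lit 544) (nat_lit 5) (nat_lit 566) (nat_lit 5) (nat_lit 568) (nat_lit 561) (nat_lit 431))) (XT.nd (nat_lit 78) (nat_lit 0) (nat_lit 0) (XT.lf (nat_lit 0) (nat_lit 676499348) (nat_lit 1672) (nat_lit 7819890351) (nat_lit 1748) (nat_lit 1865524243) (nat_lit 523) (nat_lit 5) (nat_lit 545) (nat_lit 5) (nat_lit 546) (nat_lit 5) (nat_lit 569) (nat_lit 561) (nat_lit 430)) (XT.lf (nat_lit 0) (nat_lit 1615487484) (nat_lit 1672) (nat_lit 2495288781) (nat_lit 1748) (nat_lit 6344270168) (nat_lit 523) (nat_lit 5) (nat_lit 545) (nat_lit 5) (nat_lit 546) (nat_lit 5) (nat_lit 570) (nat_lit 561) (nat_lit 429))))) (XT.nd (nat_lit 312) (nat_lit 0) (nat_lit 76) (XT.nd (nat_lit 156) (nat_lit 0) (nat_lit 0) (XT.nd (nat_lit 78) (nat_lit 0) (nat_lit 0) (XT.lf (nat_lit 0) (nat_lit 2577708153) (nat_lit 1672) (nat_lit 7588752886) (nat_lit 1748) (nat_lit 383492591) (nat_lit 524) (nat_lit 5) (nat_lit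 546) (nat_lit 5) (nat_lit 547) (nat_lit 5) (nat_lit 571) (nat_lit 561) (nat_lit 428)) (XT.lf (nat_lit 0) (nat_lit 3586249024) (nat_lit 1672) (nat_lit 2124325959) (nat_lit 1748) (nat_lit 4935643561) (nat_lit 524) (nat_lit 5) (nat_lit 546) (nat_lit 5) (nat_lit 547) (nat_lit 5) (nat_lit 572) (nat_lit 561) (nat_lit 427))) (XT.nd (nat_lit 78) (nat_lit 0) (nat_lit 76) (XT.lf (nat_lit 76) (nat_lit 3484092171) (nat_lit 0) (nat_lit 1136819491) (nat_lit 1748) (nat_lit 6123379142) (nat_lit 525) (nat_lit 5) (nat_lit 524) (nat_lit 5) (nat_lit 547) (nat_lit 5) (nat_lit 573) (nat_lit 561) (nat_lit 426)) (XT.lf (nat_lit 0) (nat_lit 5697147647) (nat_lit 1672) (nat_lit 1644852650) (nat_lit 1748) (nat_lit 3501907658) (nat_lit 525) (nat_lit 5) (nat_lit 547) (nat_lit 5) (nat_lit 548) (nat_lit 5) (nat_lit 574) (nat_lit 561) (nat_lit 425)))) (XT.nd (nat_lit 156) (nat_lit 0) (nat_lit 76) (XT.nd (nat_lit 78) (nat_lit 0) (nat_lit 76) (XT.lf (nat_lit 76) (nat_lit 4118219584) (nat_lit 0) (nat_lit 2694898287) (nat_lit 1748) (nat_lit 4132036414) (nat_lit 526) (nat_lit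 5) (nat_lit 525) (nat_lit 5) (nat_lit 548) (nat_lit 5) (nat_lit 575) (nat_lit 561) (nat_lit 424)) (XT.lf (nat_lit 0) (nat_lit 7960014378) (nat_lit 1672) (nat_lit 1054045720) (nat_lit 1748) (nat_lit 2034194312) (nat_lit 526) (nat_lit 5) (nat_lit 548) (nat_lit 5) (nat_lit 549) (nat_lit 5) (nat_lit 576) (nat_lit 561) (nat_lit 423))) (XT.nd (nat_lit 78) (nat_lit 0) (nat_lit 76) (XT.lf (nat_lit 76) (nat_lit 4869197704) (nat_lit 0) (nat_lit 4294639150) (nat_lit 1748) (nat_lit 1988900909) (nat_lit 527) (nat_lit 5) (nat_lit 526) (nat_lit 5) (nat_lit 549) (nat_lit 5) (nat_lit 577) (nat_lit 561) (nat_lit 422)) (XT.lf (nat_lit 0) (nat_lit 10387012538) (nat_lit 1672) (nat_lit 348769739) (nat_lit 1748) (nat_lit 523623938) (nat_lit 527) (nat_lit 5) (nat_lit 549) (nat_lit 5) (nat_lit 550) (nat_lit 5) (nat_lit 578) (nat_lit 561) (nat_lit 421))))))))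
noncomputable def xc75 : XT := (XT.nd (nat_lit 81276) (nat_lit 19684) (nat_lit 0) (XT.nd (nat_lit 80106) (nat_lit 0) (nat_lit 4484) (XT.nd (nat_lit 546) (nat_lit 4484) (nat_lit 0) (XT.nd (nat_lit 234) (nat_lit 0) (nat_lit 76) (XT.nd (nat_lit 78) (nat_lit 0) (nat_lit 0) (XT.lf (nat_lit 0) (nat_lit 314080652) (nat_lit 1748) (nat_lit 5628872079) (nat_lit 1824) (nat_lit 5424199008) (nat_lit 504) (nat_lit 5) (nat_lit 527) (nat_lit 5) (nat_lit 528) (nat_lit 5) (nat_lit 579) (nat_lit 561) (nat_lit 420)) (XT.nd (nat_lit 78) (nat_lit 0) (nat_lit 76) (XT.lf (nat_lit 76) (nat_lit 463804585) (nat_lit 0) (nat_lit 1039383227) (nat_lit 1824) (nat_lit 9973938249) (nat_lit 505) (nat_lit 5) (nat_lit 504) (nat_lit 5) (nat_lit 528) (nat_lit 5) (nat_lit 580) (nat_lit 561) (nat_lit 419)) (XT.lf (nat_lit 0) (nat_lit 2765271310) (nat_lit 1748) (nat_lit 4871402367) (nat_lit 1824) (nat_lit 3951643201) (nat_lit 505) (nat_lit 5) (nat_lit 528) (nat_lit 5) (nat_lit 529) (nat_lit 5) (nat_lit 581) (nat_lit 561) (nat_lit 418)))) (XT.nd (nat_lit 156) (nat_lit 0) (nat_lit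 76) (XT.nd (nat_lit 78) (nat_lit 0) (nat_lit 76) (XT.lf (nat_lit 76) (nat_lit 1393455226) (nat_lit 0) (nat_lit 2660802942) (nat_lit 1824) (nat_lit 7647440986) (nat_lit 506) (nat_lit 5) (nat_lit 505) (nat_lit 5) (nat_lit 529) (nat_lit 5) (nat_lit 582) (nat_lit 561) (nat_lit 417)) (XT.lf (nat_lit 0) (nat_lit 5403564553) (nat_lit 1748) (nat_lit 3994464003) (nat_lit 1824) (nat_lit 2418630582) (nat_lit 506) (nat_lit 5) (nat_lit 529) (nat_lit 5) (nat_lit 530) (nat_lit 5) (nat_lit 583) (nat_lit 561) (nat_lit 416))) (XT.nd (nat_lit 78) (nat_lit 0) (nat_lit 76) (XT.lf (nat_lit 76) (nat_lit 2448794278) (nat_lit 0) (nat_lit 4350815095) (nat_lit 1824) (nat_lit 5133914745) (nat_lit 507) (nat_lit 5) (nat_lit 506) (nat_lit 5) (nat_lit 530) (nat_lit 5) (nat_lit 584) (nat_lit 561) (nat_lit 415)) (XT.lf (nat_lit 0) (nat_lit 8242178743) (nat_lit 1748) (nat_lit 2993986594) (nat_lit 76) (nat_lit 816189812) (nat_lit 507) (nat_lit 5) (nat_lit 530) (nat_lit 5) (nat_lit 508) (nat_lit 5) (nat_lit 585) (nat_lit 561) (nat_lit 414))))) (XT.nd (nat_lit 312) (nat_lit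 1064) (nat_lit 0) (XT.nd (nat_lit 156) (nat_lit 1900) (nat_lit 0) (XT.nd (nat_lit 78) (nat_lit 0) (nat_lit 0) (XT.lf (nat_lit 0) (nat_lit 3634140542) (nat_lit 1748) (nat_lit 6118577656) (nat_lit 1824) (nat_lit 2420063039) (nat_lit 484) (nat_lit 5) (nat_lit 507) (nat_lit 5) (nat_lit 508) (nat_lit 5) (nat_lit 586) (nat_lit 561) (nat_lit 413)) (XT.lf (nat_lit 0) (nat_lit 10424208672) (nat_lit 1748) (nat_lit 876248929) (nat_lit 1824) (nat_lit 995019256) (nat_lit 484) (nat_lit 5) (nat_lit 507) (nat_lit 5) (nat_lit 508) (nat_lit 5) (nat_lit 587) (nat_lit 561) (nat_lit 412))) (XT.nd (nat_lit 78) (nat_lit 0) (nat_lit 0) (XT.lf (nat_lit 0) (nat_lit 501191963) (nat_lit 1900) (nat_lit 7468815103) (nat_lit 76) (nat_lit 4449586940) (nat_lit 459) (nat_lit 5) (nat_lit 484) (nat_lit 5) (nat_lit 460) (nat_lit 5) (nat_lit 588) (nat_lit 561) (nat_lit 411)) (XT.lf (nat_lit 0) (nat_lit 2019721263) (nat_lit 1900) (nat_lit 635137392) (nat_lit 76) (nat_lit 9891089706) (nat_lit 459) (nat_lit 5) (nat_lit 484) (nat_lit 5) (nat_lit 460) (nat_lit 5) (nat_lit 589) (nat_lit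 561) (nat_lit 410)))) (XT.nd (nat_lit 79092) (nat_lit 0) (nat_lit 7372) (XT.nd (nat_lit 79014) (nat_lit 0) (nat_lit 7372) (XT.lf (nat_lit 0) (nat_lit 3615985044) (nat_lit 1140) (nat_lit 6284366743) (nat_lit 76) (nat_lit 2773531471) (nat_lit 445) (nat_lit 5) (nat_lit 460) (nat_lit 5) (nat_lit 446) (nat_lit 5) (nat_lit 590) (nat_lit 561) (nat_lit 409)) (XT.lf (nat_lit 0) (nat_lit 1346461837) (nat_lit 0) (nat_lit 1346461837) (nat_lit 1596) (nat_lit 2224028596) (nat_lit 542) (nat_lit 5) (nat_lit 542) (nat_lit 3) (nat_lit 563) (nat_lit 3) (nat_lit 562) (nat_lit 562) (nat_lit 436))) (XT.nd (nat_lit 78) (nat_lit 0) (nat_lit 0) (XT.lf (nat_lit 0) (nat_lit 6185402233) (nat_lit 1596) (nat_lit 2266388368) (nat_lit 1672) (nat_lit 1465490409) (nat_lit 542) (nat_lit 5) (nat_lit 563) (nat_lit 3) (nat_lit 564) (nat_lit 5) (nat_lit 563) (nat_lit 562) (nat_lit 435)) (XT.lf (nat_lit 76) (nat_lit 2713344463) (nat_lit 0) (nat_lit 4303810204) (nat_lit 1672) (nat_lit 2984847488) (nat_lit 543) (nat_lit 5) (nat_lit 542) (nat_lit 5) (nat_lit 564) (nat_lit 5) (nat_lit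 564) (nat_lit 562) (nat_lit 434)))))) (XT.nd (nat_lit 546) (nat_lit 1368) (nat_lit 0) (XT.nd (nat_lit 234) (nat_lit 1520) (nat_lit 0) (XT.nd (nat_lit 78) (nat_lit 0) (nat_lit 76) (XT.lf (nat_lit 76) (nat_lit 7813356327) (nat_lit 0) (nat_lit 48462343) (nat_lit 1672) (nat_lit 2226674774) (nat_lit 543) (nat_lit 5) (nat_lit 542) (nat_lit 5) (nat_lit 564) (nat_lit 5) (nat_lit 565) (nat_lit 562) (nat_lit 433)) (XT.nd (nat_lit 78) (nat_lit 0) (nat_lit 0) (XT.lf (nat_lit 76) (nat_lit 2837735442) (nat_lit 0) (nat_lit 5913427132) (nat_lit 1672) (nat_lit 1424997478) (nat_lit 544) (nat_lit 5) (nat_lit 543) (nat_lit 5) (nat_lit 565) (nat_lit 5) (nat_lit 566) (nat_lit 562) (nat_lit 432)) (XT.lf (nat_lit 76) (nat_lit 8073178516) (nat_lit 0) (nat_lit 1582493331) (nat_lit 1672) (nat_lit 609961779) (nat_lit 544) (nat_lit 5) (nat_lit 543) (nat_lit 5) (nat_lit 565) (nat_lit 5) (nat_lit 567) (nat_lit 562) (nat_lit 431)))) (XT.nd (nat_lit 156) (nat_lit 0) (nat_lit 76) (XT.nd (nat_lit 78) (nat_lit 0) (nat_lit 0) (XT.lf (nat_lit 0) (nat_lit 239131910) (nat_lit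 1672) (nat_lit 7290209384) (nat_lit 1748) (nat_lit 2827114573) (nat_lit 522) (nat_lit 5) (nat_lit 544) (nat_lit 5) (nat_lit 545) (nat_lit 5) (nat_lit 568) (nat_lit 562) (nat_lit 430)) (XT.lf (nat_lit 0) (nat_lit 1104702747) (nat_lit 1672) (nat_lit 2014153823) (nat_lit 1748) (nat_lit 7330005227) (nat_lit 522) (nat_lit 5) (nat_lit 544) (nat_lit 5) (nat_lit 545) (nat_lit 5) (nat_lit 569) (nat_lit 562) (nat_lit 429))) (XT.nd (nat_lit 78) (nat_lit 0) (nat_lit 0) (XT.lf (nat_lit 0) (nat_lit 2001531640) (nat_lit 1672) (nat_lit 7150505243) (nat_lit 1748) (nat_lit 1390801139) (nat_lit 523) (nat_lit 5) (nat_lit 545) (nat_lit 5) (nat_lit 546) (nat_lit 5) (nat_lit 570) (nat_lit 562) (nat_lit 428)) (XT.lf (nat_lit 0) (nat_lit 2933583808) (nat_lit 1672) (nat_lit 1735603464) (nat_lit 1748) (nat_lit 5969161856) (nat_lit 523) (nat_lit 5) (nat_lit 545) (nat_lit 5) (nat_lit 546) (nat_lit 5) (nat_lit 571) (nat_lit 562) (nat_lit 427))))) (XT.nd (nat_lit 312) (nat_lit 1444) (nat_lit 0) (XT.nd (nat_lit 156) (nat_lit 0) (nat_lit 76) (XT.nd (nat_lit 78) (nat_lit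 0) (nat_lit 76) (XT.lf (nat_lit 76) (nat_lit 3827314502) (nat_lit 0) (nat_lit 65171270) (nat_lit 1748) (nat_lit 6843121576) (nat_lit 524) (nat_lit 5) (nat_lit 523) (nat_lit 5) (nat_lit 546) (nat_lit 5) (nat_lit 572) (nat_lit 562) (nat_lit 426)) (XT.lf (nat_lit 0) (nat_lit 4896013535) (nat_lit 1672) (nat_lit 1350480879) (nat_lit 1748) (nat_lit 4587808411) (nat_lit 524) (nat_lit 5) (nat_lit 546) (nat_lit 5) (nat_lit 547) (nat_lit 5) (nat_lit 573) (nat_lit 562) (nat_lit 425))) (XT.nd (nat_lit 78) (nat_lit 0) (nat_lit 76) (XT.lf (nat_lit 76) (nat_lit 4364735012) (nat_lit 0) (nat_lit 1567624426) (nat_lit 1748) (nat_lit 5002358847) (nat_lit 525) (nat_lit 5) (nat_lit 524) (nat_lit 5) (nat_lit 547) (nat_lit 5) (nat_lit 574) (nat_lit 562) (nat_lit 424)) (XT.lf (nat_lit 0) (nat_lit 7003620100) (nat_lit 1672) (nat_lit 856113640) (nat_lit 1748) (nat_lit 3177125563) (nat_lit 525) (nat_lit 5) (nat_lit 547) (nat_lit 5) (nat_lit 548) (nat_lit 5) (nat_lit 575) (nat_lit 562) (nat_lit 423)))) (XT.nd (nat_lit 156) (nat_lit 1596) (nat_lit 0) (XT.nd (nat_lit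 78) (nat_lit 0) (nat_lit 76) (XT.lf (nat_lit 76) (nat_lit 5016814538) (nat_lit 0) (nat_lit 3107011770) (nat_lit 1748) (nat_lit 3016667416) (nat_lit 526) (nat_lit 5) (nat_lit 525) (nat_lit 5) (nat_lit 548) (nat_lit 5) (nat_lit 576) (nat_lit 562) (nat_lit 422)) (XT.lf (nat_lit 0) (nat_lit 9268352221) (nat_lit 1672) (nat_lit 249518808) (nat_lit 1748) (nat_lit 1728292457) (nat_lit 526) (nat_lit 5) (nat_lit 548) (nat_lit 5) (nat_lit 549) (nat_lit 5) (nat_lit 577) (nat_lit 562) (nat_lit 421))) (XT.nd (nat_lit 78) (nat_lit 1672) (nat_lit 0) (XT.lf (nat_lit 76) (nat_lit 5786757854) (nat_lit 0) (nat_lit 4692286312) (nat_lit 1748) (nat_lit 874037917) (nat_lit 527) (nat_lit 5) (nat_lit 526) (nat_lit 5) (nat_lit 549) (nat_lit 5) (nat_lit 578) (nat_lit 562) (nat_lit 420)) (XT.lf (nat_lit 0) (nat_lit 240115696) (nat_lit 1748) (nat_lit 10985007097) (nat_lit 1824) (nat_lit 237152323) (nat_lit 504) (nat_lit 5) (nat_lit 527) (nat_lit 5) (nat_lit 528) (nat_lit 5) (nat_lit 579) (nat_lit 562) (nat_lit 419))))))) (XT.nd (nat_lit 79950) (nat_lit 0) (nat_lit 25460)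 (XT.nd (nat_lit 546) (nat_lit 24168) (nat_lit 0) (XT.nd (nat_lit 234) (nat_lit 0) (nat_lit 76) (XT.nd (nat_lit 78) (nat_lit 0) (nat_lit 0) (XT.lf (nat_lit 0) (nat_lit 1419031623) (nat_lit 1748) (nat_lit 4903886863) (nat_lit 1824) (nat_lit 5249535219) (nat_lit 504) (nat_lit 5) (nat_lit 527) (nat_lit 5) (nat_lit 528) (nat_lit 5) (nat_lit 580) (nat_lit 562) (nat_lit 418)) (XT.nd (nat_lit 78) (nat_lit 0) (nat_lit 76) (XT.lf (nat_lit 76) (nat_lit 1305133053) (nat_lit 0) (nat_lit 1310647572) (nat_lit 1824) (nat_lit 9069171021) (nat_lit 505) (nat_lit 5) (nat_lit 504) (nat_lit 5) (nat_lit 528) (nat_lit 5) (nat_lit 581) (nat_lit 562) (nat_lit 417)) (XT.lf (nat_lit 0) (nat_lit 3880285360) (nat_lit 1748) (nat_lit 4130207303) (nat_lit 1824) (nat_lit 3788331326) (nat_lit 505) (nat_lit 5) (nat_lit 528) (nat_lit 5) (nat_lit 529) (nat_lit 5) (nat_lit 582) (nat_lit 562) (nat_lit 416)))) (XT.nd (nat_lit 156) (nat_lit 0) (nat_lit 76) (XT.nd (nat_lit 78) (nat_lit 0) (nat_lit 76) (XT.lf (nat_lit 76) (nat_lit 2254430184) (nat_lit 0) (nat_lit 2925252247) (nat_lit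 1824) (nat_lit 6735100146) (nat_lit 506) (nat_lit 5) (nat_lit 505) (nat_lit 5) (nat_lit 529) (nat_lit 5) (nat_lit 583) (nat_lit 562) (nat_lit 415)) (XT.lf (nat_lit 0) (nat_lit 6534153131) (nat_lit 1748) (nat_lit 3235698500) (nat_lit 1824) (nat_lit 2262627817) (nat_lit 506) (nat_lit 5) (nat_lit 529) (nat_lit 5) (nat_lit 530) (nat_lit 5) (nat_lit 584) (nat_lit 562) (nat_lit 414))) (XT.nd (nat_lit 78) (nat_lit 0) (nat_lit 76) (XT.lf (nat_lit 76) (nat_lit 3330907481) (nat_lit 0) (nat_lit 4612571288) (nat_lit 1824) (nat_lit 4208496986) (nat_lit 507) (nat_lit 5) (nat_lit 506) (nat_lit 5) (nat_lit 530) (nat_lit 5) (nat_lit 585) (nat_lit 562) (nat_lit 413)) (XT.lf (nat_lit 0) (nat_lit 9394024947) (nat_lit 1748) (nat_lit 2216130355) (nat_lit 76) (nat_lit 663446798) (nat_lit 507) (nat_lit 5) (nat_lit 530) (nat_lit 5) (nat_lit 508) (nat_lit 5) (nat_lit 586) (nat_lit 562) (nat_lit 412))))) (XT.nd (nat_lit 4212) (nat_lit 19684) (nat_lit 0) (XT.nd (nat_lit 156) (nat_lit 2964) (nat_lit 0) (XT.nd (nat_lit 78) (nat_lit 0) (nat_lit 0) (XT.lf (nat_lit 0) (nat_lit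 4539047903) (nat_lit 1748) (nat_lit 6381777650) (nat_lit 1824) (nat_lit 1475891329) (nat_lit 484) (nat_lit 5) (nat_lit 507) (nat_lit 5) (nat_lit 508) (nat_lit 5) (nat_lit 587) (nat_lit 562) (nat_lit 411)) (XT.lf (nat_lit 0) (nat_lit 11448599267) (nat_lit 1748) (nat_lit 1031841006) (nat_lit 1824) (nat_lit 41808886) (nat_lit 484) (nat_lit 5) (nat_lit 507) (nat_lit 5) (nat_lit 508) (nat_lit 5) (nat_lit 588) (nat_lit 562) (nat_lit 410))) (XT.nd (nat_lit 78) (nat_lit 1064) (nat_lit 0) (XT.lf (nat_lit 0) (nat_lit 1457276489) (nat_lit 1900) (nat_lit 6775122760) (nat_lit 76) (nat_lit 4416609902) (nat_lit 459) (nat_lit 5) (nat_lit 484) (nat_lit 5) (nat_lit 460) (nat_lit 5) (nat_lit 589) (nat_lit 562) (nat_lit 409)) (XT.lf (nat_lit 0) (nat_lit 181072545) (nat_lit 1064) (nat_lit 2807729262) (nat_lit 1140) (nat_lit 9789437365) (nat_lit 445) (nat_lit 5) (nat_lit 459) (nat_lit 5) (nat_lit 460) (nat_lit 5) (nat_lit 590) (nat_lit 562) (nat_lit 408)))) (XT.nd (nat_lit 156) (nat_lit 0) (nat_lit 0) (XT.nd (nat_lit 78) (nat_lit 456) (nat_lit 0) (XT.lf (nat_lit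 0) (nat_lit 1207842763) (nat_lit 456) (nat_lit 5982975223) (nat_lit 76) (nat_lit 15435357070) (nat_lit 192) (nat_lit 5) (nat_lit 198) (nat_lit 5) (nat_lit 193) (nat_lit 5) (nat_lit 641) (nat_lit 562) (nat_lit 357)) (XT.lf (nat_lit 0) (nat_lit 6247403640) (nat_lit 532) (nat_lit 15087501152) (nat_lit 76) (nat_lit 1565098897) (nat_lit 186) (nat_lit 5) (nat_lit 193) (nat_lit 5) (nat_lit 187) (nat_lit 5) (nat_lit 642) (nat_lit 562) (nat_lit 356))) (XT.nd (nat_lit 74958) (nat_lit 0) (nat_lit 27056) (XT.lf (nat_lit 0) (nat_lit 11469792548) (nat_lit 532) (nat_lit 1270393430) (nat_lit 76) (nat_lit 10437482393) (nat_lit 186) (nat_lit 5) (nat_lit 193) (nat_lit 5) (nat_lit 187) (nat_lit 5) (nat_lit 643) (nat_lit 562) (nat_lit 355)) (XT.lf (nat_lit 0) (nat_lit 1739029108) (nat_lit 0) (nat_lit 1739029108) (nat_lit 1596) (nat_lit 1522559245) (nat_lit 542) (nat_lit 5) (nat_lit 542) (nat_lit 3) (nat_lit 563) (nat_lit 3) (nat_lit 563) (nat_lit 563) (nat_lit 434)))))) (XT.nd (nat_lit 546) (nat_lit 0) (nat_lit 152) (XT.nd (nat_lit 234) (nat_lit 1596) (nat_lit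 0) (XT.nd (nat_lit 78) (nat_lit 0) (nat_lit 0) (XT.lf (nat_lit 0) (nat_lit 7738330091) (nat_lit 1596) (nat_lit 1561351717) (nat_lit 1672) (nat_lit 787265656) (nat_lit 542) (nat_lit 5) (nat_lit 563) (nat_lit 3) (nat_lit 564) (nat_lit 5) (nat_lit 564) (nat_lit 563) (nat_lit 433)) (XT.nd (nat_lit 78) (nat_lit 0) (nat_lit 0) (XT.lf (nat_lit 76) (nat_lit 3513039163) (nat_lit 0) (nat_lit 5050494305) (nat_lit 1672) (nat_lit 1610295105) (nat_lit 543) (nat_lit 5) (nat_lit 542) (nat_lit 5) (nat_lit 564) (nat_lit 5) (nat_lit 565) (nat_lit 563) (nat_lit 432)) (XT.lf (nat_lit 76) (nat_lit 8700435032) (nat_lit 0) (nat_lit 697086390) (nat_lit 1672) (nat_lit 865081473) (nat_lit 543) (nat_lit 5) (nat_lit 542) (nat_lit 5) (nat_lit 564) (nat_lit 5) (nat_lit 566) (nat_lit 563) (nat_lit 431)))) (XT.nd (nat_lit 156) (nat_lit 0) (nat_lit 76) (XT.nd (nat_lit 78) (nat_lit 1672) (nat_lit 0) (XT.lf (nat_lit 76) (nat_lit 3652149540) (nat_lit 0) (nat_lit 6626270586) (nat_lit 1672) (nat_lit 74129138) (nat_lit 544) (nat_lit 5) (nat_lit 543) (nat_lit 5) (nat_lit 565) (nat_lit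 5) (nat_lit 567) (nat_lit 563) (nat_lit 430)) (XT.lf (nat_lit 0) (nat_lit 720584647) (nat_lit 1672) (nat_lit 1471639628) (nat_lit 1748) (nat_lit 8252025259) (nat_lit 521) (nat_lit 5) (nat_lit 543) (nat_lit 5) (nat_lit 544) (nat_lit 5) (nat_lit 568) (nat_lit 563) (nat_lit 429))) (XT.nd (nat_lit 78) (nat_lit 0) (nat_lit 0) (XT.lf (nat_lit 0) (nat_lit 1553617123) (nat_lit 1672) (nat_lit 6650420983) (nat_lit 1748) (nat_lit 2333268674) (nat_lit 522) (nat_lit 5) (nat_lit 544) (nat_lit 5) (nat_lit 545) (nat_lit 5) (nat_lit 569) (nat_lit 563) (nat_lit 428)) (XT.lf (nat_lit 0) (nat_lit 2410818934) (nat_lit 1672) (nat_lit 1284248086) (nat_lit 1748) (nat_lit 6937009066) (nat_lit 522) (nat_lit 5) (nat_lit 544) (nat_lit 5) (nat_lit 545) (nat_lit 5) (nat_lit 570) (nat_lit 563) (nat_lit 427))))) (XT.nd (nat_lit 312) (nat_lit 0) (nat_lit 76) (XT.nd (nat_lit 156) (nat_lit 0) (nat_lit 0) (XT.nd (nat_lit 78) (nat_lit 0) (nat_lit 0) (XT.lf (nat_lit 0) (nat_lit 3302137346) (nat_lit 1672) (nat_lit 6499798589) (nat_lit 1748) (nat_lit 926466460) (nat_lit 523) (nat_lit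 5) (nat_lit 545) (nat_lit 5) (nat_lit 546) (nat_lit 5) (nat_lit 571) (nat_lit 563) (nat_lit 426)) (XT.lf (nat_lit 0) (nat_lit 4228113399) (nat_lit 1672) (nat_lit 992161848) (nat_lit 1748) (nat_lit 5606044406) (nat_lit 523) (nat_lit 5) (nat_lit 545) (nat_lit 5) (nat_lit 546) (nat_lit 5) (nat_lit 572) (nat_lit 563) (nat_lit 425))) (XT.nd (nat_lit 78) (nat_lit 0) (nat_lit 76) (XT.lf (nat_lit 76) (nat_lit 4676895044) (nat_lit 0) (nat_lit 510084900) (nat_lit 1748) (nat_lit 5738928917) (nat_lit 524) (nat_lit 5) (nat_lit 523) (nat_lit 5) (nat_lit 546) (nat_lit 5) (nat_lit 573) (nat_lit 563) (nat_lit 424)) (XT.lf (nat_lit 0) (nat_lit 6183898752) (nat_lit 1672) (nat_lit 592858047) (nat_lit 1748) (nat_lit 4250356562) (nat_lit 524) (nat_lit 5) (nat_lit 546) (nat_lit 5) (nat_lit 547) (nat_lit 5) (nat_lit 574) (nat_lit 563) (nat_lit 423)))) (XT.nd (nat_lit 156) (nat_lit 0) (nat_lit 76) (XT.nd (nat_lit 78) (nat_lit 0) (nat_lit 76) (XT.lf (nat_lit 76) (nat_lit 5231500105) (nat_lit 0) (nat_lit 1991199661) (nat_lit 1748) (nat_lit 3907204297) (nat_lit 525)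 (nat_lit 5) (nat_lit 524) (nat_lit 5) (nat_lit 547) (nat_lit 5) (nat_lit 575) (nat_lit 563) (nat_lit 422)) (XT.lf (nat_lit 0) (nat_lit 8289914629) (nat_lit 1672) (nat_lit 83504980) (nat_lit 1748) (nat_lit 2861179178) (nat_lit 525) (nat_lit 5) (nat_lit 547) (nat_lit 5) (nat_lit 548) (nat_lit 5) (nat_lit 576) (nat_lit 563) (nat_lit 421))) (XT.nd (nat_lit 78) (nat_lit 0) (nat_lit 76) (XT.lf (nat_lit 76) (nat_lit 5901686163) (nat_lit 0) (nat_lit 3513457578) (nat_lit 1748) (nat_lit 1925511215) (nat_lit 526) (nat_lit 5) (nat_lit 525) (nat_lit 5) (nat_lit 548) (nat_lit 5) (nat_lit 577) (nat_lit 563) (nat_lit 420)) (XT.lf (nat_lit 76) (nat_lit 546202831) (nat_lit 0) (nat_lit 10015577890) (nat_lit 1748) (nat_lit 887074392) (nat_lit 527) (nat_lit 5) (nat_lit 526) (nat_lit 5) (nat_lit 549) (nat_lit 5) (nat_lit 578) (nat_lit 563) (nat_lit 419))))))))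
noncomputable def xc76 : XT := (XT.nd (nat_lit 81042) (nat_lit 0) (nat_lit 0) (XT.nd (nat_lit 5070) (nat_lit 380) (nat_lit 0) (XT.nd (nat_lit 546) (nat_lit 24092) (nat_lit 0) (XT.nd (nat_lit 234) (nat_lit 0) (nat_lit 76) (XT.nd (nat_lit 78) (nat_lit 0) (nat_lit 0) (XT.lf (nat_lit 0) (nat_lit 215423353) (nat_lit 1748) (nat_lit 4868911658) (nat_lit 1824) (nat_lit 6473951807) (nat_lit 503) (nat_lit 5) (nat_lit 526) (nat_lit 5) (nat_lit 527) (nat_lit 5) (nat_lit 579) (nat_lit 563) (nat_lit 418)) (XT.nd (nat_lit 78) (nat_lit 0) (nat_lit 76) (XT.lf (nat_lit 76) (nat_lit 1286104781) (nat_lit 0) (nat_lit 36174921) (nat_lit 1824) (nat_lit 10347627329) (nat_lit 504) (nat_lit 5) (nat_lit 503) (nat_lit 5) (nat_lit 527) (nat_lit 5) (nat_lit 580) (nat_lit 563) (nat_lit 417)) (XT.lf (nat_lit 0) (nat_lit 2503418943) (nat_lit 1748) (nat_lit 4196925522) (nat_lit 1824) (nat_lit 5082373128) (nat_lit 504) (nat_lit 5) (nat_lit 527) (nat_lit 5) (nat_lit 528) (nat_lit 5) (nat_lit 581) (nat_lit 563) (nat_lit 416)))) (XT.nd (nat_lit 156) (nat_lit 0) (nat_lit 76)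 (XT.nd (nat_lit 78) (nat_lit 0) (nat_lit 76) (XT.lf (nat_lit 76) (nat_lit 2130978483) (nat_lit 0) (nat_lit 1577610890) (nat_lit 1824) (nat_lit 8189187667) (nat_lit 505) (nat_lit 5) (nat_lit 504) (nat_lit 5) (nat_lit 528) (nat_lit 5) (nat_lit 582) (nat_lit 563) (nat_lit 415)) (XT.lf (nat_lit 0) (nat_lit 4976449914) (nat_lit 1748) (nat_lit 3406753096) (nat_lit 1824) (nat_lit 3631163755) (nat_lit 505) (nat_lit 5) (nat_lit 528) (nat_lit 5) (nat_lit 529) (nat_lit 5) (nat_lit 583) (nat_lit 563) (nat_lit 414))) (XT.nd (nat_lit 78) (nat_lit 0) (nat_lit 76) (XT.lf (nat_lit 76) (nat_lit 3100274125) (nat_lit 0) (nat_lit 3186788094) (nat_lit 1824) (nat_lit 5845878986) (nat_lit 506) (nat_lit 5) (nat_lit 505) (nat_lit 5) (nat_lit 529) (nat_lit 5) (nat_lit 584) (nat_lit 563) (nat_lit 413)) (XT.lf (nat_lit 0) (nat_lit 7647647889) (nat_lit 1748) (nat_lit 2494323673) (nat_lit 1824) (nat_lit 2111441142) (nat_lit 506) (nat_lit 5) (nat_lit 529) (nat_lit 5) (nat_lit 530) (nat_lit 5) (nat_lit 585) (nat_lit 563) (nat_lit 412))))) (XT.nd (nat_lit 4056) (nat_lit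 22572) (nat_lit 0) (XT.nd (nat_lit 156) (nat_lit 1748) (nat_lit 0) (XT.nd (nat_lit 78) (nat_lit 0) (nat_lit 76) (XT.lf (nat_lit 76) (nat_lit 4198311211) (nat_lit 0) (nat_lit 4872777242) (nat_lit 1824) (nat_lit 3304493094) (nat_lit 507) (nat_lit 5) (nat_lit 506) (nat_lit 5) (nat_lit 530) (nat_lit 5) (nat_lit 586) (nat_lit 563) (nat_lit 411)) (XT.lf (nat_lit 0) (nat_lit 10530581560) (nat_lit 1748) (nat_lit 1455247300) (nat_lit 76) (nat_lit 514213995) (nat_lit 507) (nat_lit 5) (nat_lit 530) (nat_lit 5) (nat_lit 508) (nat_lit 5) (nat_lit 587) (nat_lit 563) (nat_lit 410))) (XT.nd (nat_lit 78) (nat_lit 76) (nat_lit 0) (XT.lf (nat_lit 0) (nat_lit 5429737117) (nat_lit 1748) (nat_lit 6644773103) (nat_lit 1824) (nat_lit 551379004) (nat_lit 484) (nat_lit 5) (nat_lit 507) (nat_lit 5) (nat_lit 508) (nat_lit 5) (nat_lit 588) (nat_lit 563) (nat_lit 409)) (XT.lf (nat_lit 0) (nat_lit 880970974) (nat_lit 1824) (nat_lit 298300857) (nat_lit 76) (nat_lit 11574912280) (nat_lit 483) (nat_lit 5) (nat_lit 507) (nat_lit 5) (nat_lit 484) (nat_lit 5) (nat_lit 589)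 (nat_lit 563) (nat_lit 408)))) (XT.nd (nat_lit 312) (nat_lit 532) (nat_lit 0) (XT.nd (nat_lit 234) (nat_lit 836) (nat_lit 0) (XT.lf (nat_lit 0) (nat_lit 4541686187) (nat_lit 532) (nat_lit 14269799129) (nat_lit 76) (nat_lit 3178991497) (nat_lit 204) (nat_lit 5) (nat_lit 211) (nat_lit 5) (nat_lit 205) (nat_lit 5) (nat_lit 638) (nat_lit 563) (nat_lit 359)) (XT.lf (nat_lit 0) (nat_lit 3635428802) (nat_lit 380) (nat_lit 15820068501) (nat_lit 456) (nat_lit 3338669453) (nat_lit 193) (nat_lit 5) (nat_lit 198) (nat_lit 5) (nat_lit 199) (nat_lit 5) (nat_lit 641) (nat_lit 563) (nat_lit 356))) (XT.nd (nat_lit 78) (nat_lit 456) (nat_lit 0) (XT.lf (nat_lit 0) (nat_lit 1680657809) (nat_lit 456) (nat_lit 5438024110) (nat_lit 76) (nat_lit 15951027529) (nat_lit 192) (nat_lit 5) (nat_lit 198) (nat_lit 5) (nat_lit 193) (nat_lit 5) (nat_lit 642) (nat_lit 563) (nat_lit 355)) (XT.lf (nat_lit 0) (nat_lit 6817902392) (nat_lit 532) (nat_lit 14721517412) (nat_lit 76) (nat_lit 1809657313) (nat_lit 186) (nat_lit 5) (nat_lit 193) (nat_lit 5) (nat_lit 187) (nat_lit 5)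 (nat_lit 643) (nat_lit 563) (nat_lit 354)))))) (XT.nd (nat_lit 75348) (nat_lit 0) (nat_lit 25840) (XT.nd (nat_lit 75036) (nat_lit 0) (nat_lit 25764) (XT.nd (nat_lit 78) (nat_lit 380) (nat_lit 0) (XT.lf (nat_lit 0) (nat_lit 12136002790) (nat_lit 532) (nat_lit 641160354) (nat_lit 76) (nat_lit 10855306980) (nat_lit 186) (nat_lit 5) (nat_lit 193) (nat_lit 5) (nat_lit 187) (nat_lit 5) (nat_lit 644) (nat_lit 563) (nat_lit 353)) (XT.nd (nat_lit 74880) (nat_lit 0) (nat_lit 27436) (XT.lf (nat_lit 0) (nat_lit 13894561118) (nat_lit 380) (nat_lit 3750463511) (nat_lit 456) (nat_lit 6274815371) (nat_lit 181) (nat_lit 5) (nat_lit 186) (nat_lit 5) (nat_lit 187) (nat_lit 5) (nat_lit 645) (nat_lit 563) (nat_lit 352)) (XT.lf (nat_lit 0) (nat_lit 2125249554) (nat_lit 0) (nat_lit 2125249554) (nat_lit 1596) (nat_lit 836026651) (nat_lit 542) (nat_lit 5) (nat_lit 542) (nat_lit 3) (nat_lit 563) (nat_lit 3) (nat_lit 564) (nat_lit 564) (nat_lit 432)))) (XT.nd (nat_lit 156) (nat_lit 1672) (nat_lit 0) (XT.nd (nat_lit 78) (nat_lit 0) (nat_lit 0) (XT.lf (nat_lit 0) (nat_lit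 9266818158) (nat_lit 1596) (nat_lit 871351898) (nat_lit 1672) (nat_lit 122950838) (nat_lit 542) (nat_lit 5) (nat_lit 563) (nat_lit 3) (nat_lit 564) (nat_lit 5) (nat_lit 565) (nat_lit 564) (nat_lit 431)) (XT.lf (nat_lit 76) (nat_lit 4299781886) (nat_lit 0) (nat_lit 5786459877) (nat_lit 1672) (nat_lit 263945325) (nat_lit 543) (nat_lit 5) (nat_lit 542) (nat_lit 5) (nat_lit 564) (nat_lit 5) (nat_lit 566) (nat_lit 564) (nat_lit 430))) (XT.nd (nat_lit 78) (nat_lit 0) (nat_lit 76) (XT.lf (nat_lit 0) (nat_lit 462989193) (nat_lit 1672) (nat_lit 867437598) (nat_lit 1748) (nat_lit 9110780912) (nat_lit 520) (nat_lit 5) (nat_lit 542) (nat_lit 5) (nat_lit 543) (nat_lit 5) (nat_lit 567) (nat_lit 564) (nat_lit 429)) (XT.lf (nat_lit 0) (nat_lit 1233797497) (nat_lit 1672) (nat_lit 6088205912) (nat_lit 1748) (nat_lit 3211354154) (nat_lit 521) (nat_lit 5) (nat_lit 543) (nat_lit 5) (nat_lit 544) (nat_lit 5) (nat_lit 568) (nat_lit 564) (nat_lit 428))))) (XT.nd (nat_lit 312) (nat_lit 0) (nat_lit 152) (XT.nd (nat_lit 156) (nat_lit 0) (nat_lit 76) (XT.nd (nat_lit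 78) (nat_lit 0) (nat_lit 76) (XT.lf (nat_lit 0) (nat_lit 2017758651) (nat_lit 1672) (nat_lit 769983317) (nat_lit 1748) (nat_lit 7839654807) (nat_lit 521) (nat_lit 5) (nat_lit 543) (nat_lit 5) (nat_lit 544) (nat_lit 5) (nat_lit 569) (nat_lit 564) (nat_lit 427)) (XT.lf (nat_lit 0) (nat_lit 2843534694) (nat_lit 1672) (nat_lit 6028342331) (nat_lit 1748) (nat_lit 1850918101) (nat_lit 522) (nat_lit 5) (nat_lit 544) (nat_lit 5) (nat_lit 545) (nat_lit 5) (nat_lit 570) (nat_lit 564) (nat_lit 426))) (XT.nd (nat_lit 78) (nat_lit 0) (nat_lit 76) (XT.lf (nat_lit 0) (nat_lit 3693197301) (nat_lit 1672) (nat_lit 569651605) (nat_lit 1748) (nat_lit 6557106163) (nat_lit 522) (nat_lit 5) (nat_lit 544) (nat_lit 5) (nat_lit 545) (nat_lit 5) (nat_lit 571) (nat_lit 564) (nat_lit 425)) (XT.lf (nat_lit 0) (nat_lit 4579805499) (nat_lit 1672) (nat_lit 5866898792) (nat_lit 1748) (nat_lit 471955900) (nat_lit 523) (nat_lit 5) (nat_lit 545) (nat_lit 5) (nat_lit 546) (nat_lit 5) (nat_lit 572) (nat_lit 564) (nat_lit 424)))) (XT.nd (nat_lit 156) (nat_lit 0) (nat_lit 76) (XT.nd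 (nat_lit 78) (nat_lit 0) (nat_lit 0) (XT.lf (nat_lit 0) (nat_lit 5500543712) (nat_lit 1672) (nat_lit 264068056) (nat_lit 1748) (nat_lit 5254400696) (nat_lit 523) (nat_lit 5) (nat_lit 545) (nat_lit 5) (nat_lit 546) (nat_lit 5) (nat_lit 573) (nat_lit 564) (nat_lit 423)) (XT.lf (nat_lit 76) (nat_lit 5513449336) (nat_lit 0) (nat_lit 946670878) (nat_lit 1748) (nat_lit 4660844086) (nat_lit 524) (nat_lit 5) (nat_lit 523) (nat_lit 5) (nat_lit 546) (nat_lit 5) (nat_lit 574) (nat_lit 564) (nat_lit 422))) (XT.nd (nat_lit 78) (nat_lit 0) (nat_lit 0) (XT.lf (nat_lit 76) (nat_lit 151435104) (nat_lit 0) (nat_lit 7300881998) (nat_lit 1748) (nat_lit 3772370460) (nat_lit 525) (nat_lit 5) (nat_lit 524) (nat_lit 5) (nat_lit 547) (nat_lit 5) (nat_lit 575) (nat_lit 564) (nat_lit 421)) (XT.lf (nat_lit 76) (nat_lit 6085332715) (nat_lit 0) (nat_lit 2408015913) (nat_lit 1748) (nat_lit 2836557794) (nat_lit 525) (nat_lit 5) (nat_lit 524) (nat_lit 5) (nat_lit 547) (nat_lit 5) (nat_lit 576) (nat_lit 564) (nat_lit 420))))))) (XT.nd (nat_lit 4446) (nat_lit 3800) (nat_lit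 0) (XT.nd (nat_lit 546) (nat_lit 20672) (nat_lit 0) (XT.nd (nat_lit 234) (nat_lit 0) (nat_lit 0) (XT.nd (nat_lit 78) (nat_lit 1672) (nat_lit 0) (XT.lf (nat_lit 76) (nat_lit 682845276) (nat_lit 0) (nat_lit 8879014054) (nat_lit 1748) (nat_lit 1875238089) (nat_lit 526) (nat_lit 5) (nat_lit 525) (nat_lit 5) (nat_lit 548) (nat_lit 5) (nat_lit 577) (nat_lit 564) (nat_lit 419)) (XT.nd (nat_lit 78) (nat_lit 1672) (nat_lit 0) (XT.lf (nat_lit 76) (nat_lit 6773790758) (nat_lit 0) (nat_lit 3914662496) (nat_lit 1748) (nat_lit 857245633) (nat_lit 526) (nat_lit 5) (nat_lit 525) (nat_lit 5) (nat_lit 548) (nat_lit 5) (nat_lit 578) (nat_lit 564) (nat_lit 418)) (XT.lf (nat_lit 0) (nat_lit 180825062) (nat_lit 1748) (nat_lit 10327624068) (nat_lit 1824) (nat_lit 1147958741) (nat_lit 503) (nat_lit 5) (nat_lit 526) (nat_lit 5) (nat_lit 527) (nat_lit 5) (nat_lit 579) (nat_lit 564) (nat_lit 417)))) (XT.nd (nat_lit 156) (nat_lit 0) (nat_lit 76) (XT.nd (nat_lit 78) (nat_lit 0) (nat_lit 0) (XT.lf (nat_lit 0) (nat_lit 1272451545) (nat_lit 1748) (nat_lit 4194518720) (nat_lit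 1824) (nat_lit 6301362842) (nat_lit 503) (nat_lit 5) (nat_lit 526) (nat_lit 5) (nat_lit 527) (nat_lit 5) (nat_lit 580) (nat_lit 564) (nat_lit 416)) (XT.lf (nat_lit 76) (nat_lit 2078520606) (nat_lit 0) (nat_lit 307260737) (nat_lit 1824) (nat_lit 9496718931) (nat_lit 504) (nat_lit 5) (nat_lit 503) (nat_lit 5) (nat_lit 527) (nat_lit 5) (nat_lit 581) (nat_lit 564) (nat_lit 415))) (XT.nd (nat_lit 78) (nat_lit 0) (nat_lit 0) (XT.lf (nat_lit 0) (nat_lit 3568487983) (nat_lit 1748) (nat_lit 3507085602) (nat_lit 1824) (nat_lit 4922435819) (nat_lit 504) (nat_lit 5) (nat_lit 527) (nat_lit 5) (nat_lit 528) (nat_lit 5) (nat_lit 582) (nat_lit 564) (nat_lit 414)) (XT.lf (nat_lit 76) (nat_lit 2942285835) (nat_lit 0) (nat_lit 1840564843) (nat_lit 1824) (nat_lit 7332818810) (nat_lit 505) (nat_lit 5) (nat_lit 504) (nat_lit 5) (nat_lit 528) (nat_lit 5) (nat_lit 583) (nat_lit 564) (nat_lit 413))))) (XT.nd (nat_lit 312) (nat_lit 20824) (nat_lit 0) (XT.nd (nat_lit 156) (nat_lit 0) (nat_lit 76) (XT.nd (nat_lit 78) (nat_lit 0) (nat_lit 0) (XT.lf (nat_lit 0) (nat_lit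 6054985878) (nat_lit 1748) (nat_lit 2700130033) (nat_lit 1824) (nat_lit 3479897952) (nat_lit 505) (nat_lit 5) (nat_lit 528) (nat_lit 5) (nat_lit 529) (nat_lit 5) (nat_lit 584) (nat_lit 564) (nat_lit 412)) (XT.lf (nat_lit 76) (nat_lit 3931940639) (nat_lit 0) (nat_lit 3445670724) (nat_lit 1824) (nat_lit 4978633587) (nat_lit 506) (nat_lit 5) (nat_lit 505) (nat_lit 5) (nat_lit 529) (nat_lit 5) (nat_lit 585) (nat_lit 564) (nat_lit 411))) (XT.nd (nat_lit 78) (nat_lit 0) (nat_lit 0) (XT.lf (nat_lit 0) (nat_lit 8745248765) (nat_lit 1748) (nat_lit 1769422761) (nat_lit 1824) (nat_lit 1964858708) (nat_lit 506) (nat_lit 5) (nat_lit 529) (nat_lit 5) (nat_lit 530) (nat_lit 5) (nat_lit 586) (nat_lit 564) (nat_lit 410)) (XT.lf (nat_lit 76) (nat_lit 5051967535) (nat_lit 0) (nat_lit 5131665436) (nat_lit 1824) (nat_lit 2420781119) (nat_lit 507) (nat_lit 5) (nat_lit 506) (nat_lit 5) (nat_lit 530) (nat_lit 5) (nat_lit 587) (nat_lit 564) (nat_lit 409)))) (XT.nd (nat_lit 3432) (nat_lit 19152) (nat_lit 0) (XT.nd (nat_lit 78) (nat_lit 1824) (nat_lit 0) (XT.lf (nat_lit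 0) (nat_lit 11653031056) (nat_lit 1748) (nat_lit 710413702) (nat_lit 76) (nat_lit 368306676) (nat_lit 507) (nat_lit 5) (nat_lit 530) (nat_lit 5) (nat_lit 508) (nat_lit 5) (nat_lit 588) (nat_lit 564) (nat_lit 408)) (XT.lf (nat_lit 0) (nat_lit 349927067) (nat_lit 1824) (nat_lit 6555497012) (nat_lit 76) (nat_lit 5954903440) (nat_lit 483) (nat_lit 5) (nat_lit 507) (nat_lit 5) (nat_lit 484) (nat_lit 5) (nat_lit 589) (nat_lit 564) (nat_lit 407))) (XT.nd (nat_lit 78) (nat_lit 0) (nat_lit 0) (XT.lf (nat_lit 0) (nat_lit 3823674976) (nat_lit 456) (nat_lit 12280592237) (nat_lit 532) (nat_lit 4533473854) (nat_lit 231) (nat_lit 5) (nat_lit 237) (nat_lit 5) (nat_lit 238) (nat_lit 5) (nat_lit 632) (nat_lit 564) (nat_lit 364)) (XT.lf (nat_lit 0) (nat_lit 16353636449) (nat_lit 456) (nat_lit 4163886120) (nat_lit 532) (nat_lit 364603338) (nat_lit 231) (nat_lit 5) (nat_lit 237) (nat_lit 5) (nat_lit 238) (nat_lit 5) (nat_lit 633) (nat_lit 564) (nat_lit 363)))))) (XT.nd (nat_lit 546) (nat_lit 1748) (nat_lit 0) (XT.nd (nat_lit 234) (nat_lit 988) (nat_lit 0) (XT.nd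 (nat_lit 78) (nat_lit 456) (nat_lit 0) (XT.lf (nat_lit 0) (nat_lit 3910024227) (nat_lit 608) (nat_lit 13082439965) (nat_lit 76) (nat_lit 4136962346) (nat_lit 223) (nat_lit 5) (nat_lit 231) (nat_lit 5) (nat_lit 224) (nat_lit 5) (nat_lit 634) (nat_lit 564) (nat_lit 362)) (XT.nd (nat_lit 78) (nat_lit 456) (nat_lit 0) (XT.lf (nat_lit 0) (nat_lit 8317206404) (nat_lit 608) (nat_lit 484662460) (nat_lit 76) (nat_lit 12578717480) (nat_lit 223) (nat_lit 5) (nat_lit 231) (nat_lit 5) (nat_lit 224) (nat_lit 5) (nat_lit 635) (nat_lit 564) (nat_lit 361)) (XT.lf (nat_lit 0) (nat_lit 12520690726) (nat_lit 456) (nat_lit 367030532) (nat_lit 532) (nat_lit 8747544549) (nat_lit 217) (nat_lit 5) (nat_lit 223) (nat_lit 5) (nat_lit 224) (nat_lit 5) (nat_lit 636) (nat_lit 564) (nat_lit 360)))) (XT.nd (nat_lit 156) (nat_lit 456) (nat_lit 0) (XT.nd (nat_lit 78) (nat_lit 76) (nat_lit 0) (XT.lf (nat_lit 0) (nat_lit 3886582444) (nat_lit 456) (nat_lit 13738993440) (nat_lit 532) (nat_lit 4267944624) (nat_lit 211) (nat_lit 5) (nat_lit 217) (nat_lit 5) (nat_lit 218) (nat_lit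 5) (nat_lit 637) (nat_lit 564) (nat_lit 359)) (XT.lf (nat_lit 0) (nat_lit 355263277) (nat_lit 532) (nat_lit 4897857906) (nat_lit 76) (nat_lit 16902620892) (nat_lit 210) (nat_lit 5) (nat_lit 217) (nat_lit 5) (nat_lit 211) (nat_lit 5) (nat_lit 638) (nat_lit 564) (nat_lit 358))) (XT.nd (nat_lit 78) (nat_lit 0) (nat_lit 0) (XT.lf (nat_lit 0) (nat_lit 5086060182) (nat_lit 532) (nat_lit 13895515375) (nat_lit 76) (nat_lit 3439623064) (nat_lit 204) (nat_lit 5) (nat_lit 211) (nat_lit 5) (nat_lit 205) (nat_lit 5) (nat_lit 639) (nat_lit 564) (nat_lit 357)) (XT.lf (nat_lit 0) (nat_lit 9973477036) (nat_lit 532) (nat_lit 450764131) (nat_lit 76) (nat_lit 12266483271) (nat_lit 204) (nat_lit 5) (nat_lit 211) (nat_lit 5) (nat_lit 205) (nat_lit 5) (nat_lit 640) (nat_lit 564) (nat_lit 356))))) (XT.nd (nat_lit 312) (nat_lit 380) (nat_lit 0) (XT.nd (nat_lit 156) (nat_lit 532) (nat_lit 0) (XT.nd (nat_lit 78) (nat_lit 380) (nat_lit 0) (XT.lf (nat_lit 0) (nat_lit 13430657422) (nat_lit 456) (nat_lit 1609430894) (nat_lit 532) (nat_lit 7923923748) (nat_lit 198) (nat_lit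 5) (nat_lit 204) (nat_lit 5) (nat_lit 205) (nat_lit 5) (nat_lit 641) (nat_lit 564) (nat_lit 355)) (XT.lf (nat_lit 0) (nat_lit 4353855261) (nat_lit 380) (nat_lit 15927703504) (nat_lit 456) (nat_lit 2959736349) (nat_lit 193) (nat_lit 5) (nat_lit 198) (nat_lit 5) (nat_lit 199) (nat_lit 5) (nat_lit 642) (nat_lit 564) (nat_lit 354))) (XT.nd (nat_lit 78) (nat_lit 456) (nat_lit 0) (XT.lf (nat_lit 0) (nat_lit 2145507212) (nat_lit 456) (nat_lit 4907981614) (nat_lit 76) (nat_lit 16468974758) (nat_lit 192) (nat_lit 5) (nat_lit 198) (nat_lit 5) (nat_lit 193) (nat_lit 5) (nat_lit 643) (nat_lit 564) (nat_lit 353)) (XT.lf (nat_lit 0) (nat_lit 7382509843) (nat_lit 532) (nat_lit 14374142912) (nat_lit 76) (nat_lit 2050825890) (nat_lit 186) (nat_lit 5) (nat_lit 193) (nat_lit 5) (nat_lit 187) (nat_lit 5) (nat_lit 644) (nat_lit 564) (nat_lit 352)))) (XT.nd (nat_lit 74958) (nat_lit 0) (nat_lit 25688) (XT.nd (nat_lit 78) (nat_lit 380) (nat_lit 0) (XT.lf (nat_lit 0) (nat_lit 12798575201) (nat_lit 532) (nat_lit 24763122) (nat_lit 76) (nat_lit 11273369424) (nat_lit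 186) (nat_lit 5) (nat_lit 193) (nat_lit 5) (nat_lit 187) (nat_lit 5) (nat_lit 645) (nat_lit 564) (nat_lit 351)) (XT.lf (nat_lit 0) (nat_lit 14797533171) (nat_lit 380) (nat_lit 3616070347) (nat_lit 456) (nat_lit 5976305271) (nat_lit 181) (nat_lit 5) (nat_lit 186) (nat_lit 5) (nat_lit 187) (nat_lit 5) (nat_lit 646) (nat_lit 564) (nat_lit 350))) (XT.nd (nat_lit 78) (nat_lit 1748) (nat_lit 0) (XT.lf (nat_lit 0) (nat_lit 2505547571) (nat_lit 0) (nat_lit 2505547571) (nat_lit 1596) (nat_lit 163604760) (nat_lit 542) (nat_lit 5) (nat_lit 542) (nat_lit 3) (nat_lit 563) (nat_lit 3) (nat_lit 565) (nat_lit 565) (nat_lit 430)) (XT.lf (nat_lit 0) (nat_lit 331819590) (nat_lit 1748) (nat_lit 201216505) (nat_lit 1748) (nat_lit 9906698935) (nat_lit 519) (nat_lit 3) (nat_lit 542) (nat_lit 3) (nat_lit 542) (nat_lit 5) (nat_lit 566) (nat_lit 565) (nat_lit 429))))))))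
noncomputable def xc77 : XT := (XT.nd (nat_lit 5538) (nat_lit 2736) (nat_lit 0) (XT.nd (nat_lit 1170) (nat_lit 21660) (nat_lit 0) (XT.nd (nat_lit 546) (nat_lit 1368) (nat_lit 0) (XT.nd (nat_lit 234) (nat_lit 0) (nat_lit 76) (XT.nd (nat_lit 78) (nat_lit 0) (nat_lit 0) (XT.lf (nat_lit 0) (nat_lit 1041953441) (nat_lit 1672) (nat_lit 5463543161) (nat_lit 1748) (nat_lit 4025492099) (nat_lit 520) (nat_lit 5) (nat_lit 542) (nat_lit 5) (nat_lit 543) (nat_lit 5) (nat_lit 567) (nat_lit 565) (nat_lit 428)) (XT.nd (nat_lit 78) (nat_lit 0) (nat_lit 76) (XT.lf (nat_lit 0) (nat_lit 1754255593) (nat_lit 1672) (nat_lit 192509720) (nat_lit 1748) (nat_lit 8677543910) (nat_lit 520) (nat_lit 5) (nat_lit 542) (nat_lit 5) (nat_lit 543) (nat_lit 5) (nat_lit 568) (nat_lit 565) (nat_lit 427)) (XT.lf (nat_lit 0) (nat_lit 2516083557) (nat_lit 1672) (nat_lit 5493216008) (nat_lit 1748) (nat_lit 2709492063) (nat_lit 521) (nat_lit 5) (nat_lit 543) (nat_lit 5) (nat_lit 544) (nat_lit 5) (nat_lit 569) (nat_lit 565) (nat_lit 426)))) (XT.nd (nat_lit 156) (nat_lit 0) (nat_lit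 76) (XT.nd (nat_lit 78) (nat_lit 0) (nat_lit 76) (XT.lf (nat_lit 0) (nat_lit 3291064912) (nat_lit 1672) (nat_lit 82682961) (nat_lit 1748) (nat_lit 7441458517) (nat_lit 521) (nat_lit 5) (nat_lit 543) (nat_lit 5) (nat_lit 544) (nat_lit 5) (nat_lit 570) (nat_lit 565) (nat_lit 425)) (XT.lf (nat_lit 0) (nat_lit 4110368121) (nat_lit 1672) (nat_lit 5423143057) (nat_lit 1748) (nat_lit 1379462851) (nat_lit 522) (nat_lit 5) (nat_lit 544) (nat_lit 5) (nat_lit 545) (nat_lit 5) (nat_lit 571) (nat_lit 565) (nat_lit 424))) (XT.nd (nat_lit 78) (nat_lit 0) (nat_lit 76) (XT.lf (nat_lit 76) (nat_lit 132224928) (nat_lit 0) (nat_lit 4821932785) (nat_lit 1748) (nat_lit 6058378308) (nat_lit 523) (nat_lit 5) (nat_lit 522) (nat_lit 5) (nat_lit 545) (nat_lit 5) (nat_lit 572) (nat_lit 565) (nat_lit 423)) (XT.lf (nat_lit 0) (nat_lit 5835978124) (nat_lit 1672) (nat_lit 5250965171) (nat_lit 1748) (nat_lit 26723844) (nat_lit 523) (nat_lit 5) (nat_lit 545) (nat_lit 5) (nat_lit 546) (nat_lit 5) (nat_lit 573) (nat_lit 565) (nat_lit 422))))) (XT.nd (nat_lit 312) (nat_lit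 1596) (nat_lit 0) (XT.nd (nat_lit 156) (nat_lit 0) (nat_lit 76) (XT.nd (nat_lit 78) (nat_lit 0) (nat_lit 0) (XT.lf (nat_lit 76) (nat_lit 455518511) (nat_lit 0) (nat_lit 6299735285) (nat_lit 1748) (nat_lit 4461171674) (nat_lit 524) (nat_lit 5) (nat_lit 523) (nat_lit 5) (nat_lit 546) (nat_lit 5) (nat_lit 574) (nat_lit 565) (nat_lit 421)) (XT.lf (nat_lit 76) (nat_lit 6337882481) (nat_lit 0) (nat_lit 1375431554) (nat_lit 1748) (nat_lit 3607517898) (nat_lit 524) (nat_lit 5) (nat_lit 523) (nat_lit 5) (nat_lit 546) (nat_lit 5) (nat_lit 575) (nat_lit 565) (nat_lit 420))) (XT.nd (nat_lit 78) (nat_lit 0) (nat_lit 0) (XT.lf (nat_lit 76) (nat_lit 888976166) (nat_lit 0) (nat_lit 7816499892) (nat_lit 1748) (nat_lit 2721552587) (nat_lit 525) (nat_lit 5) (nat_lit 524) (nat_lit 5) (nat_lit 547) (nat_lit 5) (nat_lit 576) (nat_lit 565) (nat_lit 419)) (XT.lf (nat_lit 76) (nat_lit 6927149527) (nat_lit 0) (nat_lit 2818529421) (nat_lit 1748) (nat_lit 1789107301) (nat_lit 525) (nat_lit 5) (nat_lit 524) (nat_lit 5) (nat_lit 547) (nat_lit 5) (nat_lit 577) (nat_lit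 565) (nat_lit 418)))) (XT.nd (nat_lit 156) (nat_lit 0) (nat_lit 76) (XT.nd (nat_lit 78) (nat_lit 1748) (nat_lit 0) (XT.lf (nat_lit 76) (nat_lit 1435787350) (nat_lit 0) (nat_lit 9381041165) (nat_lit 1748) (nat_lit 827668531) (nat_lit 526) (nat_lit 5) (nat_lit 525) (nat_lit 5) (nat_lit 548) (nat_lit 5) (nat_lit 578) (nat_lit 565) (nat_lit 417)) (XT.lf (nat_lit 0) (nat_lit 186923688) (nat_lit 1748) (nat_lit 4122862829) (nat_lit 1824) (nat_lit 7445877909) (nat_lit 502) (nat_lit 5) (nat_lit 525) (nat_lit 5) (nat_lit 526) (nat_lit 5) (nat_lit 579) (nat_lit 565) (nat_lit 416))) (XT.nd (nat_lit 78) (nat_lit 0) (nat_lit 0) (XT.lf (nat_lit 0) (nat_lit 1216519724) (nat_lit 1748) (nat_lit 9777538147) (nat_lit 1824) (nat_lit 874772816) (nat_lit 503) (nat_lit 5) (nat_lit 526) (nat_lit 5) (nat_lit 527) (nat_lit 5) (nat_lit 580) (nat_lit 565) (nat_lit 415)) (XT.lf (nat_lit 0) (nat_lit 2309741910) (nat_lit 1748) (nat_lit 3536606739) (nat_lit 1824) (nat_lit 6137051766) (nat_lit 503) (nat_lit 5) (nat_lit 526) (nat_lit 5) (nat_lit 527) (nat_lit 5) (nat_lit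 581) (nat_lit 565) (nat_lit 414)))))) (XT.nd (nat_lit 3744) (nat_lit 21736) (nat_lit 0) (XT.nd (nat_lit 234) (nat_lit 0) (nat_lit 152) (XT.nd (nat_lit 78) (nat_lit 0) (nat_lit 76) (XT.lf (nat_lit 76) (nat_lit 2857013095) (nat_lit 0) (nat_lit 573269770) (nat_lit 1824) (nat_lit 8669870396) (nat_lit 504) (nat_lit 5) (nat_lit 503) (nat_lit 5) (nat_lit 527) (nat_lit 5) (nat_lit 582) (nat_lit 565) (nat_lit 413)) (XT.nd (nat_lit 78) (nat_lit 0) (nat_lit 0) (XT.lf (nat_lit 0) (nat_lit 4615444691) (nat_lit 1748) (nat_lit 2833495644) (nat_lit 1824) (nat_lit 4769457420) (nat_lit 504) (nat_lit 5) (nat_lit 527) (nat_lit 5) (nat_lit 528) (nat_lit 5) (nat_lit 583) (nat_lit 565) (nat_lit 412)) (XT.lf (nat_lit 76) (nat_lit 3739970251) (nat_lit 0) (nat_lit 2099792264) (nat_lit 1824) (nat_lit 6498936346) (nat_lit 505) (nat_lit 5) (nat_lit 504) (nat_lit 5) (nat_lit 528) (nat_lit 5) (nat_lit 584) (nat_lit 565) (nat_lit 411)))) (XT.nd (nat_lit 156) (nat_lit 0) (nat_lit 76) (XT.nd (nat_lit 78) (nat_lit 0) (nat_lit 0) (XT.lf (nat_lit 0) (nat_lit 7117076527) (nat_lit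 1748) (nat_lit 2009459311) (nat_lit 1824) (nat_lit 3334300718) (nat_lit 505) (nat_lit 5) (nat_lit 528) (nat_lit 5) (nat_lit 529) (nat_lit 5) (nat_lit 585) (nat_lit 565) (nat_lit 410)) (XT.lf (nat_lit 76) (nat_lit 4750353608) (nat_lit 0) (nat_lit 3702153216) (nat_lit 1824) (nat_lit 4132259528) (nat_lit 506) (nat_lit 5) (nat_lit 505) (nat_lit 5) (nat_lit 529) (nat_lit 5) (nat_lit 586) (nat_lit 565) (nat_lit 409))) (XT.nd (nat_lit 78) (nat_lit 0) (nat_lit 0) (XT.lf (nat_lit 0) (nat_lit 9828119830) (nat_lit 1748) (nat_lit 1060109769) (nat_lit 1824) (nat_lit 1822676397) (nat_lit 506) (nat_lit 5) (nat_lit 529) (nat_lit 5) (nat_lit 530) (nat_lit 5) (nat_lit 587) (nat_lit 565) (nat_lit 408)) (XT.lf (nat_lit 76) (nat_lit 5892808981) (nat_lit 0) (nat_lit 5389462767) (nat_lit 1824) (nat_lit 1556276868) (nat_lit 507) (nat_lit 5) (nat_lit 506) (nat_lit 5) (nat_lit 530) (nat_lit 5) (nat_lit 588) (nat_lit 565) (nat_lit 407))))) (XT.nd (nat_lit 312) (nat_lit 1064) (nat_lit 0) (XT.nd (nat_lit 156) (nat_lit 456) (nat_lit 0) (XT.nd (nat_lit 78) (nat_lit 532)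 (nat_lit 0) (XT.lf (nat_lit 0) (nat_lit 4296452322) (nat_lit 608) (nat_lit 11526859884) (nat_lit 76) (nat_lit 4491252537) (nat_lit 244) (nat_lit 5) (nat_lit 252) (nat_lit 5) (nat_lit 245) (nat_lit 5) (nat_lit 630) (nat_lit 565) (nat_lit 365)) (XT.lf (nat_lit 0) (nat_lit 507758768) (nat_lit 532) (nat_lit 7833348170) (nat_lit 608) (nat_lit 12212297076) (nat_lit 237) (nat_lit 5) (nat_lit 244) (nat_lit 5) (nat_lit 245) (nat_lit 5) (nat_lit 631) (nat_lit 565) (nat_lit 364))) (XT.nd (nat_lit 78) (nat_lit 456) (nat_lit 0) (XT.lf (nat_lit 0) (nat_lit 12540269885) (nat_lit 608) (nat_lit 7867405282) (nat_lit 76) (nat_lit 387872862) (nat_lit 237) (nat_lit 5) (nat_lit 245) (nat_lit 5) (nat_lit 238) (nat_lit 5) (nat_lit 632) (nat_lit 565) (nat_lit 363)) (XT.lf (nat_lit 0) (nat_lit 4553731290) (nat_lit 456) (nat_lit 12344948006) (nat_lit 532) (nat_lit 4142350619) (nat_lit 231) (nat_lit 5) (nat_lit 237) (nat_lit 5) (nat_lit 238) (nat_lit 5) (nat_lit 633) (nat_lit 565) (nat_lit 362)))) (XT.nd (nat_lit 156) (nat_lit 456) (nat_lit 0) (XT.nd (nat_lit 78) (nat_lit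 532) (nat_lit 0) (XT.lf (nat_lit 0) (nat_lit 99132965) (nat_lit 532) (nat_lit 3969663608) (nat_lit 76) (nat_lit 17221678444) (nat_lit 230) (nat_lit 5) (nat_lit 237) (nat_lit 5) (nat_lit 231) (nat_lit 5) (nat_lit 634) (nat_lit 565) (nat_lit 361)) (XT.lf (nat_lit 0) (nat_lit 4450587071) (nat_lit 608) (nat_lit 12693300863) (nat_lit 76) (nat_lit 4398861569) (nat_lit 223) (nat_lit 5) (nat_lit 231) (nat_lit 5) (nat_lit 224) (nat_lit 5) (nat_lit 635) (nat_lit 565) (nat_lit 360))) (XT.nd (nat_lit 78) (nat_lit 0) (nat_lit 0) (XT.lf (nat_lit 0) (nat_lit 145580964) (nat_lit 456) (nat_lit 8792211207) (nat_lit 532) (nat_lit 12861303109) (nat_lit 217) (nat_lit 5) (nat_lit 223) (nat_lit 5) (nat_lit 224) (nat_lit 5) (nat_lit 636) (nat_lit 565) (nat_lit 359)) (XT.lf (nat_lit 0) (nat_lit 13404934346) (nat_lit 456) (nat_lit 189064847) (nat_lit 532) (nat_lit 8464983854) (nat_lit 217) (nat_lit 5) (nat_lit 223) (nat_lit 5) (nat_lit 224) (nat_lit 5) (nat_lit 637) (nat_lit 565) (nat_lit 358))))))) (XT.nd (nat_lit 75972) (nat_lit 0) (nat_lit 24396) (XT.nd (nat_lit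 546) (nat_lit 836) (nat_lit 0) (XT.nd (nat_lit 234) (nat_lit 912) (nat_lit 0) (XT.nd (nat_lit 78) (nat_lit 532) (nat_lit 0) (XT.lf (nat_lit 0) (nat_lit 4601707693) (nat_lit 456) (nat_lit 13821426563) (nat_lit 532) (nat_lit 3899338465) (nat_lit 211) (nat_lit 5) (nat_lit 217) (nat_lit 5) (nat_lit 218) (nat_lit 5) (nat_lit 638) (nat_lit 565) (nat_lit 357)) (XT.nd (nat_lit 78) (nat_lit 456) (nat_lit 0) (XT.lf (nat_lit 0) (nat_lit 801595226) (nat_lit 532) (nat_lit 4365065696) (nat_lit 76) (nat_lit 17423394870) (nat_lit 210) (nat_lit 5) (nat_lit 217) (nat_lit 5) (nat_lit 211) (nat_lit 5) (nat_lit 639) (nat_lit 565) (nat_lit 356)) (XT.lf (nat_lit 0) (nat_lit 5623710136) (nat_lit 532) (nat_lit 13539362115) (nat_lit 76) (nat_lit 3697815504) (nat_lit 204) (nat_lit 5) (nat_lit 211) (nat_lit 5) (nat_lit 205) (nat_lit 5) (nat_lit 640) (nat_lit 565) (nat_lit 355)))) (XT.nd (nat_lit 156) (nat_lit 456) (nat_lit 0) (XT.nd (nat_lit 78) (nat_lit 0) (nat_lit 0) (XT.lf (nat_lit 0) (nat_lit 164002456) (nat_lit 456) (nat_lit 10437390060) (nat_lit 532) (nat_lit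 12534561546) (nat_lit 198) (nat_lit 5) (nat_lit 204) (nat_lit 5) (nat_lit 205) (nat_lit 5) (nat_lit 641) (nat_lit 565) (nat_lit 354)) (XT.lf (nat_lit 0) (nat_lit 14316811842) (nat_lit 456) (nat_lit 1447088833) (nat_lit 532) (nat_lit 7650915785) (nat_lit 198) (nat_lit 5) (nat_lit 204) (nat_lit 5) (nat_lit 205) (nat_lit 5) (nat_lit 642) (nat_lit 565) (nat_lit 353))) (XT.nd (nat_lit 78) (nat_lit 76) (nat_lit 0) (XT.lf (nat_lit 0) (nat_lit 5061576236) (nat_lit 380) (nat_lit 16045597860) (nat_lit 456) (nat_lit 2590531910) (nat_lit 193) (nat_lit 5) (nat_lit 198) (nat_lit 5) (nat_lit 199) (nat_lit 5) (nat_lit 643) (nat_lit 565) (nat_lit 352)) (XT.lf (nat_lit 0) (nat_lit 2602908174) (nat_lit 456) (nat_lit 4392143767) (nat_lit 76) (nat_lit 16989556367) (nat_lit 192) (nat_lit 5) (nat_lit 198) (nat_lit 5) (nat_lit 193) (nat_lit 5) (nat_lit 644) (nat_lit 565) (nat_lit 351))))) (XT.nd (nat_lit 75114) (nat_lit 0) (nat_lit 25688) (XT.nd (nat_lit 156) (nat_lit 0) (nat_lit 0) (XT.nd (nat_lit 78) (nat_lit 380) (nat_lit 0) (XT.lf (nat_lit 0) (nat_lit 7941779996)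 (nat_lit 532) (nat_lit 14044742987) (nat_lit 76) (nat_lit 2288858393) (nat_lit 186) (nat_lit 5) (nat_lit 193) (nat_lit 5) (nat_lit 187) (nat_lit 5) (nat_lit 645) (nat_lit 565) (nat_lit 350)) (XT.lf (nat_lit 0) (nat_lit 587230288) (nat_lit 380) (nat_lit 12874678082) (nat_lit 456) (nat_lit 11108572139) (nat_lit 181) (nat_lit 5) (nat_lit 186) (nat_lit 5) (nat_lit 187) (nat_lit 5) (nat_lit 646) (nat_lit 565) (nat_lit 349))) (XT.nd (nat_lit 74880) (nat_lit 0) (nat_lit 25688) (XT.lf (nat_lit 0) (nat_lit 15694292015) (nat_lit 380) (nat_lit 3487120670) (nat_lit 456) (nat_lit 5688289655) (nat_lit 181) (nat_lit 5) (nat_lit 186) (nat_lit 5) (nat_lit 187) (nat_lit 5) (nat_lit 647) (nat_lit 565) (nat_lit 348)) (XT.lf (nat_lit 0) (nat_lit 489006687) (nat_lit 1748) (nat_lit 2388046454) (nat_lit 1748) (nat_lit 2388046454) (nat_lit 519) (nat_lit 3) (nat_lit 542) (nat_lit 3) (nat_lit 542) (nat_lit 5) (nat_lit 566) (nat_lit 566) (nat_lit 428)))) (XT.nd (nat_lit 156) (nat_lit 0) (nat_lit 76) (XT.nd (nat_lit 78) (nat_lit 0) (nat_lit 76) (XT.lf (nat_lit 76) (nat_lit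 454455605) (nat_lit 0) (nat_lit 1168705754) (nat_lit 1748) (nat_lit 8999591761) (nat_lit 520) (nat_lit 5) (nat_lit 519) (nat_lit 3) (nat_lit 542) (nat_lit 5) (nat_lit 567) (nat_lit 566) (nat_lit 427)) (XT.lf (nat_lit 0) (nat_lit 2319661741) (nat_lit 1672) (nat_lit 4894111446) (nat_lit 1748) (nat_lit 3502617019) (nat_lit 520) (nat_lit 5) (nat_lit 542) (nat_lit 5) (nat_lit 543) (nat_lit 5) (nat_lit 568) (nat_lit 566) (nat_lit 426))) (XT.nd (nat_lit 78) (nat_lit 0) (nat_lit 76) (XT.lf (nat_lit 76) (nat_lit 475267995) (nat_lit 0) (nat_lit 2549383201) (nat_lit 1748) (nat_lit 7787358702) (nat_lit 521) (nat_lit 5) (nat_lit 520) (nat_lit 5) (nat_lit 543) (nat_lit 5) (nat_lit 569) (nat_lit 566) (nat_lit 425)) (XT.lf (nat_lit 0) (nat_lit 3775180804) (nat_lit 1672) (nat_lit 4914158737) (nat_lit 1748) (nat_lit 2219574662) (nat_lit 521) (nat_lit 5) (nat_lit 543) (nat_lit 5) (nat_lit 544) (nat_lit 5) (nat_lit 570) (nat_lit 566) (nat_lit 424)))))) (XT.nd (nat_lit 546) (nat_lit 1444) (nat_lit 0) (XT.nd (nat_lit 234) (nat_lit 0) (nat_lit 76) (XT.nd (nat_lit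 78) (nat_lit 0) (nat_lit 76) (XT.lf (nat_lit 76) (nat_lit 598931801) (nat_lit 0) (nat_lit 3946917165) (nat_lit 1748) (nat_lit 6461806076) (nat_lit 522) (nat_lit 5) (nat_lit 521) (nat_lit 5) (nat_lit 544) (nat_lit 5) (nat_lit 571) (nat_lit 566) (nat_lit 423)) (XT.nd (nat_lit 78) (nat_lit 0) (nat_lit 0) (XT.lf (nat_lit 0) (nat_lit 5355553890) (nat_lit 1672) (nat_lit 4834022181) (nat_lit 1748) (nat_lit 918323145) (nat_lit 522) (nat_lit 5) (nat_lit 544) (nat_lit 5) (nat_lit 545) (nat_lit 5) (nat_lit 572) (nat_lit 566) (nat_lit 422)) (XT.lf (nat_lit 76) (nat_lit 827863797) (nat_lit 0) (nat_lit 5370051357) (nat_lit 1748) (nat_lit 5011904842) (nat_lit 523) (nat_lit 5) (nat_lit 522) (nat_lit 5) (nat_lit 545) (nat_lit 5) (nat_lit 573) (nat_lit 566) (nat_lit 421)))) (XT.nd (nat_lit 156) (nat_lit 0) (nat_lit 76) (XT.nd (nat_lit 78) (nat_lit 0) (nat_lit 76) (XT.lf (nat_lit 76) (nat_lit 6659545172) (nat_lit 0) (nat_lit 415202877) (nat_lit 1748) (nat_lit 4238679603) (nat_lit 523) (nat_lit 5) (nat_lit 522) (nat_lit 5) (nat_lit 545) (nat_lit 5) (nat_lit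 574) (nat_lit 566) (nat_lit 420)) (XT.lf (nat_lit 76) (nat_lit 1164789821) (nat_lit 0) (nat_lit 6827521420) (nat_lit 1748) (nat_lit 3426333275) (nat_lit 524) (nat_lit 5) (nat_lit 523) (nat_lit 5) (nat_lit 546) (nat_lit 5) (nat_lit 575) (nat_lit 566) (nat_lit 419))) (XT.nd (nat_lit 78) (nat_lit 0) (nat_lit 76) (XT.lf (nat_lit 76) (nat_lit 7151072424) (nat_lit 0) (nat_lit 1796853352) (nat_lit 1748) (nat_lit 2577646852) (nat_lit 524) (nat_lit 5) (nat_lit 523) (nat_lit 5) (nat_lit 546) (nat_lit 5) (nat_lit 576) (nat_lit 566) (nat_lit 418)) (XT.lf (nat_lit 76) (nat_lit 1612746040) (nat_lit 0) (nat_lit 8328078115) (nat_lit 1748) (nat_lit 1693452610) (nat_lit 525) (nat_lit 5) (nat_lit 524) (nat_lit 5) (nat_lit 547) (nat_lit 5) (nat_lit 577) (nat_lit 566) (nat_lit 417))))) (XT.nd (nat_lit 312) (nat_lit 0) (nat_lit 76) (XT.nd (nat_lit 156) (nat_lit 0) (nat_lit 0) (XT.nd (nat_lit 78) (nat_lit 1672) (nat_lit 0) (XT.lf (nat_lit 76) (nat_lit 7757839920) (nat_lit 0) (nat_lit 3223182584) (nat_lit 1748) (nat_lit 763584517) (nat_lit 525) (nat_lit 5) (nat_lit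 524) (nat_lit 5) (nat_lit 547) (nat_lit 5) (nat_lit 578) (nat_lit 566) (nat_lit 416)) (XT.lf (nat_lit 0) (nat_lit 196111441) (nat_lit 1748) (nat_lit 9683082701) (nat_lit 1824) (nat_lit 1977653469) (nat_lit 502) (nat_lit 5) (nat_lit 525) (nat_lit 5) (nat_lit 526) (nat_lit 5) (nat_lit 579) (nat_lit 566) (nat_lit 415))) (XT.nd (nat_lit 78) (nat_lit 0) (nat_lit 76) (XT.lf (nat_lit 0) (nat_lit 1199741791) (nat_lit 1748) (nat_lit 3495202496) (nat_lit 1824) (nat_lit 7275589308) (nat_lit 502) (nat_lit 5) (nat_lit 525) (nat_lit 5) (nat_lit 526) (nat_lit 5) (nat_lit 580) (nat_lit 566) (nat_lit 414)) (XT.lf (nat_lit 0) (nat_lit 2232851427) (nat_lit 1748) (nat_lit 9245831699) (nat_lit 1824) (nat_lit 607622848) (nat_lit 503) (nat_lit 5) (nat_lit 526) (nat_lit 5) (nat_lit 527) (nat_lit 5) (nat_lit 581) (nat_lit 566) (nat_lit 413)))) (XT.nd (nat_lit 156) (nat_lit 0) (nat_lit 76) (XT.nd (nat_lit 78) (nat_lit 0) (nat_lit 0) (XT.lf (nat_lit 0) (nat_lit 3328487051) (nat_lit 1748) (nat_lit 2894341608) (nat_lit 1824) (nat_lit 5980728659) (nat_lit 503) (nat_lit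 5) (nat_lit 526) (nat_lit 5) (nat_lit 527) (nat_lit 5) (nat_lit 582) (nat_lit 566) (nat_lit 412)) (XT.lf (nat_lit 76) (nat_lit 3622459851) (nat_lit 0) (nat_lit 834508155) (nat_lit 1824) (nat_lit 7865967809) (nat_lit 504) (nat_lit 5) (nat_lit 503) (nat_lit 5) (nat_lit 527) (nat_lit 5) (nat_lit 583) (nat_lit 566) (nat_lit 411))) (XT.nd (nat_lit 78) (nat_lit 0) (nat_lit 0) (XT.lf (nat_lit 0) (nat_lit 5645457302) (nat_lit 1748) (nat_lit 2175313893) (nat_lit 1824) (nat_lit 4623182674) (nat_lit 504) (nat_lit 5) (nat_lit 527) (nat_lit 5) (nat_lit 528) (nat_lit 5) (nat_lit 584) (nat_lit 566) (nat_lit 410)) (XT.lf (nat_lit 76) (nat_lit 4524918348) (nat_lit 0) (nat_lit 2355567544) (nat_lit 1824) (nat_lit 5686451751) (nat_lit 505) (nat_lit 5) (nat_lit 504) (nat_lit 5) (nat_lit 528) (nat_lit 5) (nat_lit 585) (nat_lit 566) (nat_lit 409))))))))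
noncomputable def xc78 : XT := (XT.nd (nat_lit 80184) (nat_lit 0) (nat_lit 2736) (XT.nd (nat_lit 4212) (nat_lit 2280) (nat_lit 0) (XT.nd (nat_lit 3588) (nat_lit 2508) (nat_lit 0) (XT.nd (nat_lit 3276) (nat_lit 1140) (nat_lit 0) (XT.nd (nat_lit 78) (nat_lit 18696) (nat_lit 0) (XT.lf (nat_lit 0) (nat_lit 8163869164) (nat_lit 1748) (nat_lit 1333891748) (nat_lit 1824) (nat_lit 3194147831) (nat_lit 505) (nat_lit 5) (nat_lit 528) (nat_lit 5) (nat_lit 529) (nat_lit 5) (nat_lit 586) (nat_lit 566) (nat_lit 408)) (XT.nd (nat_lit 3120) (nat_lit 18696) (nat_lit 0) (XT.lf (nat_lit 76) (nat_lit 5556408504) (nat_lit 0) (nat_lit 3956481822) (nat_lit 1824) (nat_lit 3305690252) (nat_lit 506) (nat_lit 5) (nat_lit 505) (nat_lit 5) (nat_lit 529) (nat_lit 5) (nat_lit 587) (nat_lit 566) (nat_lit 407)) (XT.lf (nat_lit 0) (nat_lit 1902647427) (nat_lit 532) (nat_lit 7459489545) (nat_lit 608) (nat_lit 10408635619) (nat_lit 259) (nat_lit 5) (nat_lit 266) (nat_lit 5) (nat_lit 267) (nat_lit 5) (nat_lit 627) (nat_lit 566) (nat_lit 367)))) (XT.nd (nat_lit 156) (nat_lit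 608) (nat_lit 0) (XT.nd (nat_lit 78) (nat_lit 532) (nat_lit 0) (XT.lf (nat_lit 0) (nat_lit 13211645455) (nat_lit 608) (nat_lit 6241922530) (nat_lit 76) (nat_lit 547530541) (nat_lit 259) (nat_lit 5) (nat_lit 267) (nat_lit 5) (nat_lit 260) (nat_lit 5) (nat_lit 628) (nat_lit 566) (nat_lit 366)) (XT.lf (nat_lit 0) (nat_lit 5632902903) (nat_lit 532) (nat_lit 11584898761) (nat_lit 608) (nat_lit 3016636443) (nat_lit 252) (nat_lit 5) (nat_lit 259) (nat_lit 5) (nat_lit 260) (nat_lit 5) (nat_lit 629) (nat_lit 566) (nat_lit 365))) (XT.nd (nat_lit 78) (nat_lit 532) (nat_lit 0) (XT.lf (nat_lit 0) (nat_lit 856606025) (nat_lit 608) (nat_lit 2655853837) (nat_lit 76) (nat_lit 16959159362) (nat_lit 251) (nat_lit 5) (nat_lit 259) (nat_lit 5) (nat_lit 252) (nat_lit 5) (nat_lit 630) (nat_lit 566) (nat_lit 364)) (XT.lf (nat_lit 0) (nat_lit 4854485038) (nat_lit 608) (nat_lit 11116425985) (nat_lit 76) (nat_lit 4740483114) (nat_lit 244) (nat_lit 5) (nat_lit 252) (nat_lit 5) (nat_lit 245) (nat_lit 5) (nat_lit 631) (nat_lit 566) (nat_lit 363))))) (XT.nd (nat_lit 312)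 (nat_lit 1444) (nat_lit 0) (XT.nd (nat_lit 156) (nat_lit 532) (nat_lit 0) (XT.nd (nat_lit 78) (nat_lit 0) (nat_lit 0) (XT.lf (nat_lit 0) (nat_lit 1154668125) (nat_lit 532) (nat_lit 7820241917) (nat_lit 608) (nat_lit 11980202995) (nat_lit 237) (nat_lit 5) (nat_lit 244) (nat_lit 5) (nat_lit 245) (nat_lit 5) (nat_lit 632) (nat_lit 566) (nat_lit 362)) (XT.lf (nat_lit 0) (nat_lit 13249980425) (nat_lit 608) (nat_lit 7392389703) (nat_lit 76) (nat_lit 559891701) (nat_lit 237) (nat_lit 5) (nat_lit 245) (nat_lit 5) (nat_lit 238) (nat_lit 5) (nat_lit 633) (nat_lit 566) (nat_lit 361))) (XT.nd (nat_lit 78) (nat_lit 76) (nat_lit 0) (XT.lf (nat_lit 0) (nat_lit 5273009313) (nat_lit 456) (nat_lit 12417629284) (nat_lit 532) (nat_lit 3762113519) (nat_lit 231) (nat_lit 5) (nat_lit 237) (nat_lit 5) (nat_lit 238) (nat_lit 5) (nat_lit 634) (nat_lit 566) (nat_lit 360)) (XT.lf (nat_lit 0) (nat_lit 549165312) (nat_lit 532) (nat_lit 3427198894) (nat_lit 76) (nat_lit 17730941359) (nat_lit 230) (nat_lit 5) (nat_lit 237) (nat_lit 5) (nat_lit 231) (nat_lit 5) (nat_lit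 635) (nat_lit 566) (nat_lit 359)))) (XT.nd (nat_lit 156) (nat_lit 456) (nat_lit 0) (XT.nd (nat_lit 78) (nat_lit 456) (nat_lit 0) (XT.lf (nat_lit 0) (nat_lit 4984007079) (nat_lit 608) (nat_lit 12321649867) (nat_lit 76) (nat_lit 4659041777) (nat_lit 223) (nat_lit 5) (nat_lit 231) (nat_lit 5) (nat_lit 224) (nat_lit 5) (nat_lit 636) (nat_lit 566) (nat_lit 358)) (XT.lf (nat_lit 0) (nat_lit 769894353) (nat_lit 456) (nat_lit 8786382592) (nat_lit 532) (nat_lit 12669988401) (nat_lit 217) (nat_lit 5) (nat_lit 223) (nat_lit 5) (nat_lit 224) (nat_lit 5) (nat_lit 637) (nat_lit 566) (nat_lit 357))) (XT.nd (nat_lit 78) (nat_lit 456) (nat_lit 0) (XT.lf (nat_lit 0) (nat_lit 14282250454) (nat_lit 456) (nat_lit 14735518) (nat_lit 532) (nat_lit 8194537678) (nat_lit 217) (nat_lit 5) (nat_lit 223) (nat_lit 5) (nat_lit 224) (nat_lit 5) (nat_lit 638) (nat_lit 566) (nat_lit 356)) (XT.lf (nat_lit 0) (nat_lit 5306384677) (nat_lit 456) (nat_lit 13912977406) (nat_lit 532) (nat_lit 3540988199) (nat_lit 211) (nat_lit 5) (nat_lit 217) (nat_lit 5) (nat_lit 218) (nat_lit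 5) (nat_lit 639) (nat_lit 566) (nat_lit 355)))))) (XT.nd (nat_lit 546) (nat_lit 380) (nat_lit 0) (XT.nd (nat_lit 234) (nat_lit 912) (nat_lit 0) (XT.nd (nat_lit 78) (nat_lit 912) (nat_lit 0) (XT.lf (nat_lit 0) (nat_lit 1239798108) (nat_lit 532) (nat_lit 3846110409) (nat_lit 76) (nat_lit 17947489026) (nat_lit 210) (nat_lit 5) (nat_lit 217) (nat_lit 5) (nat_lit 211) (nat_lit 5) (nat_lit 640) (nat_lit 566) (nat_lit 354)) (XT.nd (nat_lit 78) (nat_lit 456) (nat_lit 0) (XT.lf (nat_lit 0) (nat_lit 6155185444) (nat_lit 532) (nat_lit 13200707250) (nat_lit 76) (nat_lit 3953817160) (nat_lit 204) (nat_lit 5) (nat_lit 211) (nat_lit 5) (nat_lit 205) (nat_lit 5) (nat_lit 641) (nat_lit 566) (nat_lit 353)) (XT.lf (nat_lit 0) (nat_lit 772715125) (nat_lit 456) (nat_lit 10455421509) (nat_lit 532) (nat_lit 12362226857) (nat_lit 198) (nat_lit 5) (nat_lit 204) (nat_lit 5) (nat_lit 205) (nat_lit 5) (nat_lit 642) (nat_lit 566) (nat_lit 352)))) (XT.nd (nat_lit 156) (nat_lit 532) (nat_lit 0) (XT.nd (nat_lit 78) (nat_lit 380) (nat_lit 0) (XT.lf (nat_lit 0) (nat_lit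 15196709471) (nat_lit 456) (nat_lit 1289053794) (nat_lit 532) (nat_lit 7389202807) (nat_lit 198) (nat_lit 5) (nat_lit 204) (nat_lit 5) (nat_lit 205) (nat_lit 5) (nat_lit 643) (nat_lit 566) (nat_lit 351)) (XT.lf (nat_lit 0) (nat_lit 5759351274) (nat_lit 380) (nat_lit 16173641964) (nat_lit 456) (nat_lit 2230578644) (nat_lit 193) (nat_lit 5) (nat_lit 198) (nat_lit 5) (nat_lit 199) (nat_lit 5) (nat_lit 644) (nat_lit 566) (nat_lit 350))) (XT.nd (nat_lit 78) (nat_lit 456) (nat_lit 0) (XT.lf (nat_lit 0) (nat_lit 3053361972) (nat_lit 456) (nat_lit 3889831434) (nat_lit 76) (nat_lit 17513124997) (nat_lit 192) (nat_lit 5) (nat_lit 198) (nat_lit 5) (nat_lit 193) (nat_lit 5) (nat_lit 645) (nat_lit 566) (nat_lit 349)) (XT.lf (nat_lit 0) (nat_lit 8496251848) (nat_lit 532) (nat_lit 13732709374) (nat_lit 76) (nat_lit 2524001175) (nat_lit 186) (nat_lit 5) (nat_lit 193) (nat_lit 5) (nat_lit 187) (nat_lit 5) (nat_lit 646) (nat_lit 566) (nat_lit 348))))) (XT.nd (nat_lit 75114) (nat_lit 0) (nat_lit 25764) (XT.nd (nat_lit 74958) (nat_lit 0) (nat_lit 25688) (XT.nd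 (nat_lit 78) (nat_lit 0) (nat_lit 0) (XT.lf (nat_lit 0) (nat_lit 1188002522) (nat_lit 380) (nat_lit 12934847052) (nat_lit 456) (nat_lit 10931192874) (nat_lit 181) (nat_lit 5) (nat_lit 186) (nat_lit 5) (nat_lit 187) (nat_lit 5) (nat_lit 647) (nat_lit 566) (nat_lit 347)) (XT.lf (nat_lit 0) (nat_lit 16585655922) (nat_lit 380) (nat_lit 3363407602) (nat_lit 456) (nat_lit 5410339069) (nat_lit 181) (nat_lit 5) (nat_lit 186) (nat_lit 5) (nat_lit 187) (nat_lit 5) (nat_lit 648) (nat_lit 566) (nat_lit 346))) (XT.nd (nat_lit 78) (nat_lit 0) (nat_lit 0) (XT.lf (nat_lit 0) (nat_lit 1127097973) (nat_lit 1748) (nat_lit 2115348474) (nat_lit 1748) (nat_lit 2115348474) (nat_lit 519) (nat_lit 3) (nat_lit 542) (nat_lit 3) (nat_lit 542) (nat_lit 5) (nat_lit 567) (nat_lit 567) (nat_lit 426)) (XT.lf (nat_lit 76) (nat_lit 1100245971) (nat_lit 0) (nat_lit 1791495154) (nat_lit 1748) (nat_lit 7918665427) (nat_lit 520) (nat_lit 5) (nat_lit 519) (nat_lit 3) (nat_lit 542) (nat_lit 5) (nat_lit 568) (nat_lit 567) (nat_lit 425)))) (XT.nd (nat_lit 156) (nat_lit 0) (nat_lit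 76) (XT.nd (nat_lit 78) (nat_lit 0) (nat_lit 0) (XT.lf (nat_lit 0) (nat_lit 3574118443) (nat_lit 1672) (nat_lit 4339645944) (nat_lit 1748) (nat_lit 2992714608) (nat_lit 520) (nat_lit 5) (nat_lit 542) (nat_lit 5) (nat_lit 543) (nat_lit 5) (nat_lit 569) (nat_lit 567) (nat_lit 424)) (XT.lf (nat_lit 76) (nat_lit 1132829324) (nat_lit 0) (nat_lit 3140898454) (nat_lit 1748) (nat_lit 6730674427) (nat_lit 521) (nat_lit 5) (nat_lit 520) (nat_lit 5) (nat_lit 543) (nat_lit 5) (nat_lit 570) (nat_lit 567) (nat_lit 423))) (XT.nd (nat_lit 78) (nat_lit 0) (nat_lit 0) (XT.lf (nat_lit 0) (nat_lit 5012521767) (nat_lit 1672) (nat_lit 4350271987) (nat_lit 1748) (nat_lit 1740987262) (nat_lit 521) (nat_lit 5) (nat_lit 543) (nat_lit 5) (nat_lit 544) (nat_lit 5) (nat_lit 571) (nat_lit 567) (nat_lit 422)) (XT.lf (nat_lit 76) (nat_lit 1268723981) (nat_lit 0) (nat_lit 4511369149) (nat_lit 1748) (nat_lit 5424775209) (nat_lit 522) (nat_lit 5) (nat_lit 521) (nat_lit 5) (nat_lit 544) (nat_lit 5) (nat_lit 572) (nat_lit 567) (nat_lit 421))))))) (XT.nd (nat_lit 4056) (nat_lit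 21584) (nat_lit 0) (XT.nd (nat_lit 546) (nat_lit 0) (nat_lit 76) (XT.nd (nat_lit 234) (nat_lit 1596) (nat_lit 0) (XT.nd (nat_lit 78) (nat_lit 0) (nat_lit 0) (XT.lf (nat_lit 0) (nat_lit 6580483505) (nat_lit 1672) (nat_lit 4260206914) (nat_lit 1748) (nat_lit 466938587) (nat_lit 522) (nat_lit 5) (nat_lit 544) (nat_lit 5) (nat_lit 545) (nat_lit 5) (nat_lit 573) (nat_lit 567) (nat_lit 420)) (XT.nd (nat_lit 78) (nat_lit 0) (nat_lit 0) (XT.lf (nat_lit 76) (nat_lit 1510505627) (nat_lit 0) (nat_lit 5911593019) (nat_lit 1748) (nat_lit 3989842830) (nat_lit 523) (nat_lit 5) (nat_lit 522) (nat_lit 5) (nat_lit 545) (nat_lit 5) (nat_lit 574) (nat_lit 567) (nat_lit 419)) (XT.lf (nat_lit 76) (nat_lit 7445760148) (nat_lit 0) (nat_lit 849135007) (nat_lit 1748) (nat_lit 3223158971) (nat_lit 523) (nat_lit 5) (nat_lit 522) (nat_lit 5) (nat_lit 545) (nat_lit 5) (nat_lit 575) (nat_lit 567) (nat_lit 418)))) (XT.nd (nat_lit 156) (nat_lit 1672) (nat_lit 0) (XT.nd (nat_lit 78) (nat_lit 0) (nat_lit 0) (XT.lf (nat_lit 76) (nat_lit 1861058454) (nat_lit 0) (nat_lit 7350261228)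 (nat_lit 1748) (nat_lit 2414446799) (nat_lit 524) (nat_lit 5) (nat_lit 523) (nat_lit 5) (nat_lit 546) (nat_lit 5) (nat_lit 576) (nat_lit 567) (nat_lit 417)) (XT.lf (nat_lit 76) (nat_lit 7953871164) (nat_lit 0) (nat_lit 2211407458) (nat_lit 1748) (nat_lit 1569971219) (nat_lit 524) (nat_lit 5) (nat_lit 523) (nat_lit 5) (nat_lit 546) (nat_lit 5) (nat_lit 577) (nat_lit 567) (nat_lit 416))) (XT.nd (nat_lit 78) (nat_lit 1748) (nat_lit 0) (XT.lf (nat_lit 76) (nat_lit 2323576846) (nat_lit 0) (nat_lit 8836093182) (nat_lit 1748) (nat_lit 686826632) (nat_lit 525) (nat_lit 5) (nat_lit 524) (nat_lit 5) (nat_lit 547) (nat_lit 5) (nat_lit 578) (nat_lit 567) (nat_lit 415)) (XT.lf (nat_lit 0) (nat_lit 238073092) (nat_lit 1748) (nat_lit 3382733884) (nat_lit 1824) (nat_lit 8338596505) (nat_lit 501) (nat_lit 5) (nat_lit 524) (nat_lit 5) (nat_lit 525) (nat_lit 5) (nat_lit 579) (nat_lit 567) (nat_lit 414))))) (XT.nd (nat_lit 312) (nat_lit 0) (nat_lit 76) (XT.nd (nat_lit 156) (nat_lit 0) (nat_lit 76) (XT.nd (nat_lit 78) (nat_lit 0) (nat_lit 0) (XT.lf (nat_lit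 0) (nat_lit 1189327424) (nat_lit 1748) (nat_lit 9180550639) (nat_lit 1824) (nat_lit 1704259324) (nat_lit 502) (nat_lit 5) (nat_lit 525) (nat_lit 5) (nat_lit 526) (nat_lit 5) (nat_lit 580) (nat_lit 567) (nat_lit 413)) (XT.lf (nat_lit 0) (nat_lit 2193632464) (nat_lit 1748) (nat_lit 2882563687) (nat_lit 1824) (nat_lit 7114290100) (nat_lit 502) (nat_lit 5) (nat_lit 525) (nat_lit 5) (nat_lit 526) (nat_lit 5) (nat_lit 581) (nat_lit 567) (nat_lit 412))) (XT.nd (nat_lit 78) (nat_lit 0) (nat_lit 0) (XT.lf (nat_lit 0) (nat_lit 3230989145) (nat_lit 1748) (nat_lit 8731731406) (nat_lit 1824) (nat_lit 346183009) (nat_lit 503) (nat_lit 5) (nat_lit 526) (nat_lit 5) (nat_lit 527) (nat_lit 5) (nat_lit 582) (nat_lit 567) (nat_lit 411)) (XT.lf (nat_lit 0) (nat_lit 4329841781) (nat_lit 1748) (nat_lit 2266917727) (nat_lit 1824) (nat_lit 5832115492) (nat_lit 503) (nat_lit 5) (nat_lit 526) (nat_lit 5) (nat_lit 527) (nat_lit 5) (nat_lit 583) (nat_lit 567) (nat_lit 410)))) (XT.nd (nat_lit 156) (nat_lit 0) (nat_lit 76) (XT.nd (nat_lit 78) (nat_lit 0) (nat_lit 76)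 (XT.lf (nat_lit 76) (nat_lit 4375711138) (nat_lit 0) (nat_lit 1091272319) (nat_lit 1824) (nat_lit 7083936921) (nat_lit 504) (nat_lit 5) (nat_lit 503) (nat_lit 5) (nat_lit 527) (nat_lit 5) (nat_lit 584) (nat_lit 567) (nat_lit 409)) (XT.lf (nat_lit 0) (nat_lit 6659657988) (nat_lit 1748) (nat_lit 1531727069) (nat_lit 1824) (nat_lit 4483366537) (nat_lit 504) (nat_lit 5) (nat_lit 527) (nat_lit 5) (nat_lit 528) (nat_lit 5) (nat_lit 585) (nat_lit 567) (nat_lit 408))) (XT.nd (nat_lit 78) (nat_lit 0) (nat_lit 76) (XT.lf (nat_lit 76) (nat_lit 5297989467) (nat_lit 0) (nat_lit 2608157014) (nat_lit 1824) (nat_lit 4894314464) (nat_lit 505) (nat_lit 5) (nat_lit 504) (nat_lit 5) (nat_lit 528) (nat_lit 5) (nat_lit 586) (nat_lit 567) (nat_lit 407)) (XT.lf (nat_lit 0) (nat_lit 9196476716) (nat_lit 1748) (nat_lit 672606540) (nat_lit 1824) (nat_lit 3059223693) (nat_lit 505) (nat_lit 5) (nat_lit 528) (nat_lit 5) (nat_lit 529) (nat_lit 5) (nat_lit 587) (nat_lit 567) (nat_lit 406)))))) (XT.nd (nat_lit 546) (nat_lit 2584) (nat_lit 0) (XT.nd (nat_lit 234) (nat_lit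 1140) (nat_lit 0) (XT.nd (nat_lit 78) (nat_lit 684) (nat_lit 0) (XT.lf (nat_lit 0) (nat_lit 7119276897) (nat_lit 608) (nat_lit 11410326878) (nat_lit 684) (nat_lit 942033425) (nat_lit 275) (nat_lit 5) (nat_lit 283) (nat_lit 5) (nat_lit 284) (nat_lit 5) (nat_lit 625) (nat_lit 567) (nat_lit 368)) (XT.nd (nat_lit 78) (nat_lit 608) (nat_lit 0) (XT.lf (nat_lit 0) (nat_lit 2575578601) (nat_lit 684) (nat_lit 959857188) (nat_lit 76) (nat_lit 16161600830) (nat_lit 274) (nat_lit 5) (nat_lit 283) (nat_lit 5) (nat_lit 275) (nat_lit 5) (nat_lit 626) (nat_lit 567) (nat_lit 367)) (XT.lf (nat_lit 0) (nat_lit 6244363165) (nat_lit 684) (nat_lit 9167591579) (nat_lit 76) (nat_lit 4512996345) (nat_lit 266) (nat_lit 5) (nat_lit 275) (nat_lit 5) (nat_lit 267) (nat_lit 5) (nat_lit 627) (nat_lit 567) (nat_lit 366)))) (XT.nd (nat_lit 156) (nat_lit 608) (nat_lit 0) (XT.nd (nat_lit 78) (nat_lit 0) (nat_lit 0) (XT.lf (nat_lit 0) (nat_lit 2566687854) (nat_lit 532) (nat_lit 7460148295) (nat_lit 608) (nat_lit 10129781724) (nat_lit 259) (nat_lit 5) (nat_lit 266) (nat_lit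 5) (nat_lit 267) (nat_lit 5) (nat_lit 628) (nat_lit 567) (nat_lit 365)) (XT.lf (nat_lit 0) (nat_lit 13944918365) (nat_lit 608) (nat_lit 5744610699) (nat_lit 76) (nat_lit 702190004) (nat_lit 259) (nat_lit 5) (nat_lit 267) (nat_lit 5) (nat_lit 260) (nat_lit 5) (nat_lit 629) (nat_lit 567) (nat_lit 364))) (XT.nd (nat_lit 78) (nat_lit 76) (nat_lit 0) (XT.lf (nat_lit 0) (nat_lit 6363618147) (nat_lit 532) (nat_lit 11662395524) (nat_lit 608) (nat_lit 2603815854) (nat_lit 252) (nat_lit 5) (nat_lit 259) (nat_lit 5) (nat_lit 260) (nat_lit 5) (nat_lit 630) (nat_lit 567) (nat_lit 363)) (XT.lf (nat_lit 0) (nat_lit 1331530132) (nat_lit 608) (nat_lit 2096929243) (nat_lit 76) (nat_lit 17443416956) (nat_lit 251) (nat_lit 5) (nat_lit 259) (nat_lit 5) (nat_lit 252) (nat_lit 5) (nat_lit 631) (nat_lit 567) (nat_lit 362))))) (XT.nd (nat_lit 312) (nat_lit 1064) (nat_lit 0) (XT.nd (nat_lit 156) (nat_lit 456) (nat_lit 0) (XT.nd (nat_lit 78) (nat_lit 532) (nat_lit 0) (XT.lf (nat_lit 0) (nat_lit 5405346047) (nat_lit 608) (nat_lit 10722673098) (nat_lit 76) (nat_lit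 4988508392) (nat_lit 244) (nat_lit 5) (nat_lit 252) (nat_lit 5) (nat_lit 245) (nat_lit 5) (nat_lit 632) (nat_lit 567) (nat_lit 361)) (XT.lf (nat_lit 0) (nat_lit 1789789727) (nat_lit 532) (nat_lit 7813466041) (nat_lit 608) (nat_lit 11761963896) (nat_lit 237) (nat_lit 5) (nat_lit 244) (nat_lit 5) (nat_lit 245) (nat_lit 5) (nat_lit 633) (nat_lit 567) (nat_lit 360))) (XT.nd (nat_lit 78) (nat_lit 456) (nat_lit 0) (XT.lf (nat_lit 0) (nat_lit 13956065329) (nat_lit 608) (nat_lit 6932429265) (nat_lit 76) (nat_lit 728972448) (nat_lit 237) (nat_lit 5) (nat_lit 245) (nat_lit 5) (nat_lit 238) (nat_lit 5) (nat_lit 634) (nat_lit 567) (nat_lit 359)) (XT.lf (nat_lit 0) (nat_lit 5982278992) (nat_lit 456) (nat_lit 12498529273) (nat_lit 532) (nat_lit 3392253796) (nat_lit 231) (nat_lit 5) (nat_lit 237) (nat_lit 5) (nat_lit 238) (nat_lit 5) (nat_lit 635) (nat_lit 567) (nat_lit 358)))) (XT.nd (nat_lit 156) (nat_lit 456) (nat_lit 0) (XT.nd (nat_lit 78) (nat_lit 532) (nat_lit 0) (XT.lf (nat_lit 0) (nat_lit 990799991) (nat_lit 532) (nat_lit 2898032390) (nat_lit 76)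 (nat_lit 18243989008) (nat_lit 230) (nat_lit 5) (nat_lit 237) (nat_lit 5) (nat_lit 231) (nat_lit 5) (nat_lit 636) (nat_lit 567) (nat_lit 357)) (XT.lf (nat_lit 0) (nat_lit 5510838572) (nat_lit 608) (nat_lit 11966855439) (nat_lit 76) (nat_lit 4917738737) (nat_lit 223) (nat_lit 5) (nat_lit 231) (nat_lit 5) (nat_lit 224) (nat_lit 5) (nat_lit 637) (nat_lit 567) (nat_lit 356))) (XT.nd (nat_lit 78) (nat_lit 0) (nat_lit 0) (XT.lf (nat_lit 0) (nat_lit 1382564222) (nat_lit 456) (nat_lit 8787491983) (nat_lit 532) (nat_lit 12492264784) (nat_lit 217) (nat_lit 5) (nat_lit 223) (nat_lit 5) (nat_lit 224) (nat_lit 5) (nat_lit 638) (nat_lit 567) (nat_lit 355)) (XT.lf (nat_lit 0) (nat_lit 14998306007) (nat_lit 532) (nat_lit 7780608223) (nat_lit 76) (nat_lit 154116023) (nat_lit 217) (nat_lit 5) (nat_lit 224) (nat_lit 5) (nat_lit 218) (nat_lit 5) (nat_lit 639) (nat_lit 567) (nat_lit 354))))))))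
noncomputable def xc79 : XT := (XT.nd (nat_lit 79950) (nat_lit 0) (nat_lit 0) (XT.nd (nat_lit 75972) (nat_lit 0) (nat_lit 8360) (XT.nd (nat_lit 546) (nat_lit 836) (nat_lit 0) (XT.nd (nat_lit 234) (nat_lit 912) (nat_lit 0) (XT.nd (nat_lit 78) (nat_lit 532) (nat_lit 0) (XT.lf (nat_lit 0) (nat_lit 6001365533) (nat_lit 456) (nat_lit 14013538292) (nat_lit 532) (nat_lit 3192414426) (nat_lit 211) (nat_lit 5) (nat_lit 217) (nat_lit 5) (nat_lit 218) (nat_lit 5) (nat_lit 640) (nat_lit 567) (nat_lit 353)) (XT.nd (nat_lit 78) (nat_lit 456) (nat_lit 0) (XT.lf (nat_lit 0) (nat_lit 1670371633) (nat_lit 532) (nat_lit 3340317698) (nat_lit 76) (nat_lit 18475245284) (nat_lit 210) (nat_lit 5) (nat_lit 217) (nat_lit 5) (nat_lit 211) (nat_lit 5) (nat_lit 641) (nat_lit 567) (nat_lit 352)) (XT.lf (nat_lit 0) (nat_lit 6681019934) (nat_lit 532) (nat_lit 12878944668) (nat_lit 76) (nat_lit 4207869806) (nat_lit 204) (nat_lit 5) (nat_lit 211) (nat_lit 5) (nat_lit 205) (nat_lit 5) (nat_lit 642) (nat_lit 567) (nat_lit 351)))) (XT.nd (nat_lit 156) (nat_lit 456) (nat_lit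 0) (XT.nd (nat_lit 78) (nat_lit 0) (nat_lit 0) (XT.lf (nat_lit 0) (nat_lit 1370092360) (nat_lit 456) (nat_lit 10481219336) (nat_lit 532) (nat_lit 12202872087) (nat_lit 198) (nat_lit 5) (nat_lit 204) (nat_lit 5) (nat_lit 205) (nat_lit 5) (nat_lit 643) (nat_lit 567) (nat_lit 350)) (XT.lf (nat_lit 0) (nat_lit 16071156339) (nat_lit 456) (nat_lit 1135118592) (nat_lit 532) (nat_lit 7138360091) (nat_lit 198) (nat_lit 5) (nat_lit 204) (nat_lit 5) (nat_lit 205) (nat_lit 5) (nat_lit 644) (nat_lit 567) (nat_lit 349))) (XT.nd (nat_lit 78) (nat_lit 76) (nat_lit 0) (XT.lf (nat_lit 0) (nat_lit 6447917300) (nat_lit 380) (nat_lit 16311736244) (nat_lit 456) (nat_lit 1879415607) (nat_lit 193) (nat_lit 5) (nat_lit 198) (nat_lit 5) (nat_lit 199) (nat_lit 5) (nat_lit 645) (nat_lit 567) (nat_lit 348)) (XT.lf (nat_lit 0) (nat_lit 3497354657) (nat_lit 456) (nat_lit 3400389299) (nat_lit 76) (nat_lit 18040028695) (nat_lit 192) (nat_lit 5) (nat_lit 198) (nat_lit 5) (nat_lit 193) (nat_lit 5) (nat_lit 646) (nat_lit 567) (nat_lit 347))))) (XT.nd (nat_lit 75114) (nat_lit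 0) (nat_lit 25688) (XT.nd (nat_lit 156) (nat_lit 0) (nat_lit 0) (XT.nd (nat_lit 78) (nat_lit 380) (nat_lit 0) (XT.lf (nat_lit 0) (nat_lit 9046450099) (nat_lit 532) (nat_lit 13437459223) (nat_lit 76) (nat_lit 2756493514) (nat_lit 186) (nat_lit 5) (nat_lit 193) (nat_lit 5) (nat_lit 187) (nat_lit 5) (nat_lit 647) (nat_lit 567) (nat_lit 346)) (XT.lf (nat_lit 0) (nat_lit 1777917540) (nat_lit 380) (nat_lit 13003881757) (nat_lit 456) (nat_lit 10765781066) (nat_lit 181) (nat_lit 5) (nat_lit 186) (nat_lit 5) (nat_lit 187) (nat_lit 5) (nat_lit 648) (nat_lit 567) (nat_lit 345))) (XT.nd (nat_lit 74880) (nat_lit 0) (nat_lit 25688) (XT.lf (nat_lit 0) (nat_lit 17472422930) (nat_lit 380) (nat_lit 3244732384) (nat_lit 456) (nat_lit 5142040295) (nat_lit 181) (nat_lit 5) (nat_lit 186) (nat_lit 5) (nat_lit 187) (nat_lit 5) (nat_lit 649) (nat_lit 567) (nat_lit 344)) (XT.lf (nat_lit 0) (nat_lit 1753552997) (nat_lit 1748) (nat_lit 1849640345) (nat_lit 1748) (nat_lit 1849640345) (nat_lit 519) (nat_lit 3) (nat_lit 542) (nat_lit 3) (nat_lit 542) (nat_lit 5) (nat_lit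 568) (nat_lit 568) (nat_lit 424)))) (XT.nd (nat_lit 156) (nat_lit 0) (nat_lit 76) (XT.nd (nat_lit 78) (nat_lit 0) (nat_lit 76) (XT.lf (nat_lit 76) (nat_lit 1734228258) (nat_lit 0) (nat_lit 2403464316) (nat_lit 1748) (nat_lit 6865083557) (nat_lit 520) (nat_lit 5) (nat_lit 519) (nat_lit 3) (nat_lit 542) (nat_lit 5) (nat_lit 569) (nat_lit 568) (nat_lit 423)) (XT.lf (nat_lit 0) (nat_lit 4806753703) (nat_lit 1672) (nat_lit 3799422590) (nat_lit 1748) (nat_lit 2495134499) (nat_lit 520) (nat_lit 5) (nat_lit 542) (nat_lit 5) (nat_lit 543) (nat_lit 5) (nat_lit 570) (nat_lit 568) (nat_lit 422))) (XT.nd (nat_lit 78) (nat_lit 0) (nat_lit 76) (XT.lf (nat_lit 76) (nat_lit 1778377076) (nat_lit 0) (nat_lit 3723254667) (nat_lit 1748) (nat_lit 5699936657) (nat_lit 521) (nat_lit 5) (nat_lit 520) (nat_lit 5) (nat_lit 543) (nat_lit 5) (nat_lit 571) (nat_lit 568) (nat_lit 421)) (XT.lf (nat_lit 0) (nat_lit 6229493989) (nat_lit 1672) (nat_lit 3800820366) (nat_lit 1748) (nat_lit 1273136021) (nat_lit 521) (nat_lit 5) (nat_lit 543) (nat_lit 5) (nat_lit 544) (nat_lit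 5) (nat_lit 572) (nat_lit 568) (nat_lit 420)))))) (XT.nd (nat_lit 546) (nat_lit 15960) (nat_lit 0) (XT.nd (nat_lit 234) (nat_lit 1520) (nat_lit 0) (XT.nd (nat_lit 78) (nat_lit 0) (nat_lit 76) (XT.lf (nat_lit 76) (nat_lit 1926368303) (nat_lit 0) (nat_lit 5068257086) (nat_lit 1748) (nat_lit 4412291294) (nat_lit 522) (nat_lit 5) (nat_lit 521) (nat_lit 5) (nat_lit 544) (nat_lit 5) (nat_lit 573) (nat_lit 568) (nat_lit 419)) (XT.nd (nat_lit 78) (nat_lit 0) (nat_lit 0) (XT.lf (nat_lit 0) (nat_lit 7786505456) (nat_lit 1672) (nat_lit 3700951507) (nat_lit 1748) (nat_lit 24767343) (nat_lit 522) (nat_lit 5) (nat_lit 544) (nat_lit 5) (nat_lit 545) (nat_lit 5) (nat_lit 574) (nat_lit 568) (nat_lit 418)) (XT.lf (nat_lit 76) (nat_lit 2180935420) (nat_lit 0) (nat_lit 6447107304) (nat_lit 1748) (nat_lit 2990919859) (nat_lit 523) (nat_lit 5) (nat_lit 522) (nat_lit 5) (nat_lit 545) (nat_lit 5) (nat_lit 575) (nat_lit 568) (nat_lit 417)))) (XT.nd (nat_lit 156) (nat_lit 1596) (nat_lit 0) (XT.nd (nat_lit 78) (nat_lit 0) (nat_lit 76) (XT.lf (nat_lit 76) (nat_lit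 8222341704) (nat_lit 0) (nat_lit 1275218124) (nat_lit 1748) (nat_lit 2230053692) (nat_lit 523) (nat_lit 5) (nat_lit 522) (nat_lit 5) (nat_lit 545) (nat_lit 5) (nat_lit 576) (nat_lit 568) (nat_lit 416)) (XT.lf (nat_lit 76) (nat_lit 2545120105) (nat_lit 0) (nat_lit 7868459627) (nat_lit 1748) (nat_lit 1424276352) (nat_lit 524) (nat_lit 5) (nat_lit 523) (nat_lit 5) (nat_lit 546) (nat_lit 5) (nat_lit 577) (nat_lit 568) (nat_lit 415))) (XT.nd (nat_lit 78) (nat_lit 1672) (nat_lit 0) (XT.lf (nat_lit 76) (nat_lit 8747105922) (nat_lit 0) (nat_lit 2619550484) (nat_lit 1748) (nat_lit 583273209) (nat_lit 524) (nat_lit 5) (nat_lit 523) (nat_lit 5) (nat_lit 546) (nat_lit 5) (nat_lit 578) (nat_lit 568) (nat_lit 414)) (XT.lf (nat_lit 0) (nat_lit 295599808) (nat_lit 1748) (nat_lit 9043426055) (nat_lit 1824) (nat_lit 2724690900) (nat_lit 501) (nat_lit 5) (nat_lit 524) (nat_lit 5) (nat_lit 525) (nat_lit 5) (nat_lit 579) (nat_lit 568) (nat_lit 413))))) (XT.nd (nat_lit 312) (nat_lit 15960) (nat_lit 0) (XT.nd (nat_lit 156) (nat_lit 0) (nat_lit 76) (XT.nd (nat_lit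 78) (nat_lit 0) (nat_lit 76) (XT.lf (nat_lit 0) (nat_lit 1210457066) (nat_lit 1748) (nat_lit 2798032057) (nat_lit 1824) (nat_lit 8170689880) (nat_lit 501) (nat_lit 5) (nat_lit 524) (nat_lit 5) (nat_lit 525) (nat_lit 5) (nat_lit 580) (nat_lit 568) (nat_lit 412)) (XT.lf (nat_lit 0) (nat_lit 2163992244) (nat_lit 1748) (nat_lit 8695001987) (nat_lit 1824) (nat_lit 1437549417) (nat_lit 502) (nat_lit 5) (nat_lit 525) (nat_lit 5) (nat_lit 526) (nat_lit 5) (nat_lit 581) (nat_lit 568) (nat_lit 411))) (XT.nd (nat_lit 78) (nat_lit 0) (nat_lit 76) (XT.lf (nat_lit 0) (nat_lit 3169738713) (nat_lit 1748) (nat_lit 2284176074) (nat_lit 1824) (nat_lit 6961678752) (nat_lit 502) (nat_lit 5) (nat_lit 525) (nat_lit 5) (nat_lit 526) (nat_lit 5) (nat_lit 582) (nat_lit 568) (nat_lit 410)) (XT.lf (nat_lit 0) (nat_lit 4212064799) (nat_lit 1748) (nat_lit 8234492785) (nat_lit 1824) (nat_lit 90138296) (nat_lit 503) (nat_lit 5) (nat_lit 526) (nat_lit 5) (nat_lit 527) (nat_lit 5) (nat_lit 583) (nat_lit 568) (nat_lit 409)))) (XT.nd (nat_lit 156) (nat_lit 16112) (nat_lit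 0) (XT.nd (nat_lit 78) (nat_lit 0) (nat_lit 0) (XT.lf (nat_lit 0) (nat_lit 5314924765) (nat_lit 1748) (nat_lit 1653556819) (nat_lit 1824) (nat_lit 5690945671) (nat_lit 503) (nat_lit 5) (nat_lit 526) (nat_lit 5) (nat_lit 527) (nat_lit 5) (nat_lit 584) (nat_lit 568) (nat_lit 408)) (XT.lf (nat_lit 76) (nat_lit 5117591076) (nat_lit 0) (nat_lit 1343849399) (nat_lit 1824) (nat_lit 6322741529) (nat_lit 504) (nat_lit 5) (nat_lit 503) (nat_lit 5) (nat_lit 527) (nat_lit 5) (nat_lit 585) (nat_lit 568) (nat_lit 407))) (XT.nd (nat_lit 2886) (nat_lit 16188) (nat_lit 0) (XT.lf (nat_lit 0) (nat_lit 7659144439) (nat_lit 1748) (nat_lit 901949171) (nat_lit 1824) (nat_lit 4349773785) (nat_lit 504) (nat_lit 5) (nat_lit 527) (nat_lit 5) (nat_lit 528) (nat_lit 5) (nat_lit 586) (nat_lit 568) (nat_lit 406)) (XT.lf (nat_lit 0) (nat_lit 8570356202) (nat_lit 684) (nat_lit 6850254771) (nat_lit 76) (nat_lit 3760771765) (nat_lit 291) (nat_lit 5) (nat_lit 300) (nat_lit 5) (nat_lit 292) (nat_lit 5) (nat_lit 623) (nat_lit 568) (nat_lit 369))))))) (XT.nd (nat_lit 1170) (nat_lit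 3192) (nat_lit 0) (XT.nd (nat_lit 546) (nat_lit 2736) (nat_lit 0) (XT.nd (nat_lit 234) (nat_lit 1216) (nat_lit 0) (XT.nd (nat_lit 78) (nat_lit 608) (nat_lit 0) (XT.lf (nat_lit 0) (nat_lit 4377062852) (nat_lit 608) (nat_lit 7665085609) (nat_lit 684) (nat_lit 7359388428) (nat_lit 283) (nat_lit 5) (nat_lit 291) (nat_lit 5) (nat_lit 292) (nat_lit 5) (nat_lit 624) (nat_lit 568) (nat_lit 368)) (XT.nd (nat_lit 78) (nat_lit 608) (nat_lit 0) (XT.lf (nat_lit 0) (nat_lit 15624904612) (nat_lit 684) (nat_lit 3713353701) (nat_lit 76) (nat_lit 287005544) (nat_lit 283) (nat_lit 5) (nat_lit 292) (nat_lit 5) (nat_lit 284) (nat_lit 5) (nat_lit 625) (nat_lit 568) (nat_lit 367)) (XT.lf (nat_lit 0) (nat_lit 7868517946) (nat_lit 608) (nat_lit 11506432562) (nat_lit 684) (nat_lit 476602453) (nat_lit 275) (nat_lit 5) (nat_lit 283) (nat_lit 5) (nat_lit 284) (nat_lit 5) (nat_lit 626) (nat_lit 568) (nat_lit 366)))) (XT.nd (nat_lit 156) (nat_lit 532) (nat_lit 0) (XT.nd (nat_lit 78) (nat_lit 608) (nat_lit 0) (XT.lf (nat_lit 0) (nat_lit 3095639517) (nat_lit 684) (nat_lit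 377850134) (nat_lit 76) (nat_lit 16608095672) (nat_lit 274) (nat_lit 5) (nat_lit 283) (nat_lit 5) (nat_lit 275) (nat_lit 5) (nat_lit 627) (nat_lit 568) (nat_lit 365)) (XT.lf (nat_lit 0) (nat_lit 6833360342) (nat_lit 684) (nat_lit 8745279155) (nat_lit 76) (nat_lit 4735507787) (nat_lit 266) (nat_lit 5) (nat_lit 275) (nat_lit 5) (nat_lit 267) (nat_lit 5) (nat_lit 628) (nat_lit 568) (nat_lit 364))) (XT.nd (nat_lit 78) (nat_lit 0) (nat_lit 0) (XT.lf (nat_lit 0) (nat_lit 3219701233) (nat_lit 532) (nat_lit 7466587861) (nat_lit 608) (nat_lit 9864262588) (nat_lit 259) (nat_lit 5) (nat_lit 266) (nat_lit 5) (nat_lit 267) (nat_lit 5) (nat_lit 629) (nat_lit 568) (nat_lit 363)) (XT.lf (nat_lit 0) (nat_lit 14674643337) (nat_lit 608) (nat_lit 5261511486) (nat_lit 76) (nat_lit 854362267) (nat_lit 259) (nat_lit 5) (nat_lit 267) (nat_lit 5) (nat_lit 260) (nat_lit 5) (nat_lit 630) (nat_lit 568) (nat_lit 362))))) (XT.nd (nat_lit 312) (nat_lit 1064) (nat_lit 0) (XT.nd (nat_lit 156) (nat_lit 1064) (nat_lit 0) (XT.nd (nat_lit 78) (nat_lit 76) (nat_lit 0) (XT.lf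 (nat_lit 0) (nat_lit 7084947783) (nat_lit 532) (nat_lit 11747430043) (nat_lit 608) (nat_lit 2201111974) (nat_lit 252) (nat_lit 5) (nat_lit 259) (nat_lit 5) (nat_lit 260) (nat_lit 5) (nat_lit 631) (nat_lit 568) (nat_lit 361)) (XT.lf (nat_lit 0) (nat_lit 1798176101) (nat_lit 608) (nat_lit 1550592481) (nat_lit 76) (nat_lit 17931726285) (nat_lit 251) (nat_lit 5) (nat_lit 259) (nat_lit 5) (nat_lit 252) (nat_lit 5) (nat_lit 632) (nat_lit 568) (nat_lit 360))) (XT.nd (nat_lit 78) (nat_lit 532) (nat_lit 0) (XT.lf (nat_lit 0) (nat_lit 5949603783) (nat_lit 608) (nat_lit 10344968345) (nat_lit 76) (nat_lit 5235544627) (nat_lit 244) (nat_lit 5) (nat_lit 252) (nat_lit 5) (nat_lit 245) (nat_lit 5) (nat_lit 633) (nat_lit 568) (nat_lit 359)) (XT.lf (nat_lit 0) (nat_lit 2413847959) (nat_lit 532) (nat_lit 7812891152) (nat_lit 608) (nat_lit 11557138623) (nat_lit 237) (nat_lit 5) (nat_lit 244) (nat_lit 5) (nat_lit 245) (nat_lit 5) (nat_lit 634) (nat_lit 568) (nat_lit 358)))) (XT.nd (nat_lit 156) (nat_lit 608) (nat_lit 0) (XT.nd (nat_lit 78) (nat_lit 456) (nat_lit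 0) (XT.lf (nat_lit 0) (nat_lit 14659144053) (nat_lit 608) (nat_lit 6486871553) (nat_lit 76) (nat_lit 895304023) (nat_lit 237) (nat_lit 5) (nat_lit 245) (nat_lit 5) (nat_lit 238) (nat_lit 5) (nat_lit 635) (nat_lit 568) (nat_lit 357)) (XT.lf (nat_lit 0) (nat_lit 6682287407) (nat_lit 456) (nat_lit 12587549651) (nat_lit 532) (nat_lit 3032280733) (nat_lit 231) (nat_lit 5) (nat_lit 237) (nat_lit 5) (nat_lit 238) (nat_lit 5) (nat_lit 636) (nat_lit 568) (nat_lit 356))) (XT.nd (nat_lit 78) (nat_lit 532) (nat_lit 0) (XT.lf (nat_lit 0) (nat_lit 1424544645) (nat_lit 532) (nat_lit 2381492382) (nat_lit 76) (nat_lit 18761145625) (nat_lit 230) (nat_lit 5) (nat_lit 237) (nat_lit 5) (nat_lit 231) (nat_lit 5) (nat_lit 637) (nat_lit 568) (nat_lit 355)) (XT.lf (nat_lit 0) (nat_lit 6031619888) (nat_lit 608) (nat_lit 11628311516) (nat_lit 76) (nat_lit 5175182443) (nat_lit 223) (nat_lit 5) (nat_lit 231) (nat_lit 5) (nat_lit 224) (nat_lit 5) (nat_lit 638) (nat_lit 568) (nat_lit 354)))))) (XT.nd (nat_lit 546) (nat_lit 1292) (nat_lit 0) (XT.nd (nat_lit 234) (nat_lit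 988) (nat_lit 0) (XT.nd (nat_lit 78) (nat_lit 456) (nat_lit 0) (XT.lf (nat_lit 0) (nat_lit 1984294689) (nat_lit 456) (nat_lit 8795404201) (nat_lit 532) (nat_lit 12327727740) (nat_lit 217) (nat_lit 5) (nat_lit 223) (nat_lit 5) (nat_lit 224) (nat_lit 5) (nat_lit 639) (nat_lit 568) (nat_lit 353)) (XT.nd (nat_lit 78) (nat_lit 456) (nat_lit 0) (XT.lf (nat_lit 0) (nat_lit 15697616514) (nat_lit 532) (nat_lit 7366484851) (nat_lit 76) (nat_lit 319586972) (nat_lit 217) (nat_lit 5) (nat_lit 224) (nat_lit 5) (nat_lit 218) (nat_lit 5) (nat_lit 640) (nat_lit 568) (nat_lit 352)) (XT.lf (nat_lit 0) (nat_lit 6687380120) (nat_lit 456) (nat_lit 14123010652) (nat_lit 532) (nat_lit 2853154741) (nat_lit 211) (nat_lit 5) (nat_lit 217) (nat_lit 5) (nat_lit 218) (nat_lit 5) (nat_lit 641) (nat_lit 568) (nat_lit 351)))) (XT.nd (nat_lit 156) (nat_lit 456) (nat_lit 0) (XT.nd (nat_lit 78) (nat_lit 456) (nat_lit 0) (XT.lf (nat_lit 0) (nat_lit 2093799792) (nat_lit 532) (nat_lit 2847036663) (nat_lit 76) (nat_lit 19007001706) (nat_lit 210) (nat_lit 5) (nat_lit 217) (nat_lit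 5) (nat_lit 211) (nat_lit 5) (nat_lit 642) (nat_lit 568) (nat_lit 350)) (XT.lf (nat_lit 0) (nat_lit 7201732587) (nat_lit 532) (nat_lit 12573493259) (nat_lit 76) (nat_lit 4460208963) (nat_lit 204) (nat_lit 5) (nat_lit 211) (nat_lit 5) (nat_lit 205) (nat_lit 5) (nat_lit 643) (nat_lit 568) (nat_lit 349))) (XT.nd (nat_lit 78) (nat_lit 0) (nat_lit 0) (XT.lf (nat_lit 0) (nat_lit 1956820363) (nat_lit 456) (nat_lit 10514651293) (nat_lit 532) (nat_lit 12056118967) (nat_lit 198) (nat_lit 5) (nat_lit 204) (nat_lit 5) (nat_lit 205) (nat_lit 5) (nat_lit 644) (nat_lit 568) (nat_lit 348)) (XT.lf (nat_lit 0) (nat_lit 16940938443) (nat_lit 456) (nat_lit 985083287) (nat_lit 532) (nat_lit 6897979684) (nat_lit 198) (nat_lit 5) (nat_lit 204) (nat_lit 5) (nat_lit 205) (nat_lit 5) (nat_lit 645) (nat_lit 568) (nat_lit 347))))) (XT.nd (nat_lit 312) (nat_lit 0) (nat_lit 0) (XT.nd (nat_lit 156) (nat_lit 836) (nat_lit 0) (XT.nd (nat_lit 78) (nat_lit 76) (nat_lit 0) (XT.lf (nat_lit 0) (nat_lit 7127989642) (nat_lit 380) (nat_lit 16459790885) (nat_lit 456) (nat_lit 1536597719)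 (nat_lit 193) (nat_lit 5) (nat_lit 198) (nat_lit 5) (nat_lit 199) (nat_lit 5) (nat_lit 646) (nat_lit 568) (nat_lit 346)) (XT.lf (nat_lit 0) (nat_lit 3935357735) (nat_lit 456) (nat_lit 2923184895) (nat_lit 76) (nat_lit 18570611274) (nat_lit 192) (nat_lit 5) (nat_lit 198) (nat_lit 5) (nat_lit 193) (nat_lit 5) (nat_lit 647) (nat_lit 568) (nat_lit 345))) (XT.nd (nat_lit 78) (nat_lit 380) (nat_lit 0) (XT.lf (nat_lit 0) (nat_lit 9592885843) (nat_lit 532) (nat_lit 13158434150) (nat_lit 76) (nat_lit 2986567941) (nat_lit 186) (nat_lit 5) (nat_lit 193) (nat_lit 5) (nat_lit 187) (nat_lit 5) (nat_lit 648) (nat_lit 568) (nat_lit 344)) (XT.lf (nat_lit 0) (nat_lit 2357646370) (nat_lit 380) (nat_lit 13081661971) (nat_lit 456) (nat_lit 10611973594) (nat_lit 181) (nat_lit 5) (nat_lit 186) (nat_lit 5) (nat_lit 187) (nat_lit 5) (nat_lit 649) (nat_lit 568) (nat_lit 343)))) (XT.nd (nat_lit 74958) (nat_lit 0) (nat_lit 25688) (XT.nd (nat_lit 74880) (nat_lit 0) (nat_lit 25688) (XT.lf (nat_lit 0) (nat_lit 18355371859) (nat_lit 380) (nat_lit 3130904070) (nat_lit 456)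 (nat_lit 4882995716) (nat_lit 181) (nat_lit 5) (nat_lit 186) (nat_lit 5) (nat_lit 187) (nat_lit 5) (nat_lit 650) (nat_lit 568) (nat_lit 342)) (XT.lf (nat_lit 0) (nat_lit 2369086441) (nat_lit 1748) (nat_lit 1590578654) (nat_lit 1748) (nat_lit 1590578654) (nat_lit 519) (nat_lit 3) (nat_lit 542) (nat_lit 3) (nat_lit 542) (nat_lit 5) (nat_lit 569) (nat_lit 569) (nat_lit 422))) (XT.nd (nat_lit 78) (nat_lit 0) (nat_lit 76) (XT.lf (nat_lit 76) (nat_lit 2357126364) (nat_lit 0) (nat_lit 3005300672) (nat_lit 1748) (nat_lit 5837491745) (nat_lit 520) (nat_lit 5) (nat_lit 519) (nat_lit 3) (nat_lit 542) (nat_lit 5) (nat_lit 570) (nat_lit 569) (nat_lit 421)) (XT.lf (nat_lit 0) (nat_lit 6018952686) (nat_lit 1672) (nat_lit 3272742575) (nat_lit 1748) (nat_lit 2009248646) (nat_lit 520) (nat_lit 5) (nat_lit 542) (nat_lit 5) (nat_lit 543) (nat_lit 5) (nat_lit 571) (nat_lit 569) (nat_lit 420))))))))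
noncomputable def xc80 : XT := (XT.nd (nat_lit 5070) (nat_lit 4256) (nat_lit 0) (XT.nd (nat_lit 3900) (nat_lit 19988) (nat_lit 0) (XT.nd (nat_lit 546) (nat_lit 1520) (nat_lit 0) (XT.nd (nat_lit 234) (nat_lit 0) (nat_lit 76) (XT.nd (nat_lit 78) (nat_lit 0) (nat_lit 76) (XT.lf (nat_lit 76) (nat_lit 2412648161) (nat_lit 0) (nat_lit 4297083700) (nat_lit 1748) (nat_lit 4693836142) (nat_lit 521) (nat_lit 5) (nat_lit 520) (nat_lit 5) (nat_lit 543) (nat_lit 5) (nat_lit 572) (nat_lit 569) (nat_lit 419)) (XT.nd (nat_lit 78) (nat_lit 0) (nat_lit 0) (XT.lf (nat_lit 0) (nat_lit 7427441988) (nat_lit 1672) (nat_lit 3265094117) (nat_lit 1748) (nat_lit 815447082) (nat_lit 521) (nat_lit 5) (nat_lit 543) (nat_lit 5) (nat_lit 544) (nat_lit 5) (nat_lit 573) (nat_lit 569) (nat_lit 418)) (XT.lf (nat_lit 76) (nat_lit 2572613703) (nat_lit 0) (nat_lit 5618161783) (nat_lit 1748) (nat_lit 3423086697) (nat_lit 522) (nat_lit 5) (nat_lit 521) (nat_lit 5) (nat_lit 544) (nat_lit 5) (nat_lit 574) (nat_lit 569) (nat_lit 417)))) (XT.nd (nat_lit 156) (nat_lit 0) (nat_lit 76)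 (XT.nd (nat_lit 78) (nat_lit 0) (nat_lit 76) (XT.lf (nat_lit 76) (nat_lit 8563469775) (nat_lit 0) (nat_lit 414146244) (nat_lit 1748) (nat_lit 2744078809) (nat_lit 522) (nat_lit 5) (nat_lit 521) (nat_lit 5) (nat_lit 544) (nat_lit 5) (nat_lit 575) (nat_lit 569) (nat_lit 416)) (XT.lf (nat_lit 76) (nat_lit 2839913297) (nat_lit 0) (nat_lit 6977128290) (nat_lit 1748) (nat_lit 2013906434) (nat_lit 523) (nat_lit 5) (nat_lit 522) (nat_lit 5) (nat_lit 545) (nat_lit 5) (nat_lit 576) (nat_lit 569) (nat_lit 415))) (XT.nd (nat_lit 78) (nat_lit 0) (nat_lit 76) (XT.lf (nat_lit 76) (nat_lit 8990081841) (nat_lit 0) (nat_lit 1693937035) (nat_lit 1748) (nat_lit 1258152979) (nat_lit 523) (nat_lit 5) (nat_lit 522) (nat_lit 5) (nat_lit 545) (nat_lit 5) (nat_lit 577) (nat_lit 569) (nat_lit 414)) (XT.lf (nat_lit 76) (nat_lit 3217745384) (nat_lit 0) (nat_lit 8382608111) (nat_lit 1748) (nat_lit 454627140) (nat_lit 524) (nat_lit 5) (nat_lit 523) (nat_lit 5) (nat_lit 546) (nat_lit 5) (nat_lit 578) (nat_lit 569) (nat_lit 413))))) (XT.nd (nat_lit 234) (nat_lit 0) (nat_lit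 152) (XT.nd (nat_lit 78) (nat_lit 0) (nat_lit 76) (XT.lf (nat_lit 0) (nat_lit 378593487) (nat_lit 1748) (nat_lit 2640591064) (nat_lit 1824) (nat_lit 9150446224) (nat_lit 500) (nat_lit 5) (nat_lit 523) (nat_lit 5) (nat_lit 524) (nat_lit 5) (nat_lit 579) (nat_lit 569) (nat_lit 412)) (XT.nd (nat_lit 78) (nat_lit 0) (nat_lit 0) (XT.lf (nat_lit 0) (nat_lit 1250161325) (nat_lit 1748) (nat_lit 8584729375) (nat_lit 1824) (nat_lit 2451068487) (nat_lit 501) (nat_lit 5) (nat_lit 524) (nat_lit 5) (nat_lit 525) (nat_lit 5) (nat_lit 580) (nat_lit 569) (nat_lit 411)) (XT.lf (nat_lit 0) (nat_lit 2164714757) (nat_lit 1748) (nat_lit 2226967992) (nat_lit 1824) (nat_lit 8012421097) (nat_lit 501) (nat_lit 5) (nat_lit 524) (nat_lit 5) (nat_lit 525) (nat_lit 5) (nat_lit 581) (nat_lit 569) (nat_lit 410)))) (XT.nd (nat_lit 156) (nat_lit 0) (nat_lit 0) (XT.nd (nat_lit 78) (nat_lit 0) (nat_lit 0) (XT.lf (nat_lit 0) (nat_lit 3121226599) (nat_lit 1748) (nat_lit 8225726647) (nat_lit 1824) (nat_lit 1177185553) (nat_lit 502) (nat_lit 5) (nat_lit 525) (nat_lit 5) (nat_lit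 526) (nat_lit 5) (nat_lit 582) (nat_lit 569) (nat_lit 409)) (XT.lf (nat_lit 0) (nat_lit 4129167321) (nat_lit 1748) (nat_lit 1699295497) (nat_lit 1824) (nat_lit 6817466393) (nat_lit 502) (nat_lit 5) (nat_lit 525) (nat_lit 5) (nat_lit 526) (nat_lit 5) (nat_lit 583) (nat_lit 569) (nat_lit 408))) (XT.nd (nat_lit 78) (nat_lit 0) (nat_lit 76) (XT.lf (nat_lit 76) (nat_lit 5015279780) (nat_lit 0) (nat_lit 162953087) (nat_lit 1824) (nat_lit 7591503962) (nat_lit 503) (nat_lit 5) (nat_lit 502) (nat_lit 5) (nat_lit 526) (nat_lit 5) (nat_lit 584) (nat_lit 569) (nat_lit 407)) (XT.lf (nat_lit 0) (nat_lit 6284820097) (nat_lit 1748) (nat_lit 1053506788) (nat_lit 1824) (nat_lit 5556963613) (nat_lit 503) (nat_lit 5) (nat_lit 526) (nat_lit 5) (nat_lit 527) (nat_lit 5) (nat_lit 585) (nat_lit 569) (nat_lit 406)))))) (XT.nd (nat_lit 546) (nat_lit 2204) (nat_lit 0) (XT.nd (nat_lit 234) (nat_lit 1900) (nat_lit 0) (XT.nd (nat_lit 78) (nat_lit 608) (nat_lit 0) (XT.lf (nat_lit 0) (nat_lit 2537164635) (nat_lit 760) (nat_lit 9350420574) (nat_lit 76) (nat_lit 7227993071)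 (nat_lit 299) (nat_lit 5) (nat_lit 309) (nat_lit 5) (nat_lit 300) (nat_lit 5) (nat_lit 622) (nat_lit 569) (nat_lit 369)) (XT.nd (nat_lit 78) (nat_lit 0) (nat_lit 0) (XT.lf (nat_lit 0) (nat_lit 1748715683) (nat_lit 608) (nat_lit 4054632856) (nat_lit 684) (nat_lit 13530817678) (nat_lit 291) (nat_lit 5) (nat_lit 299) (nat_lit 5) (nat_lit 300) (nat_lit 5) (nat_lit 623) (nat_lit 569) (nat_lit 368)) (XT.lf (nat_lit 0) (nat_lit 9217289033) (nat_lit 684) (nat_lit 6393096425) (nat_lit 76) (nat_lit 3945092092) (nat_lit 291) (nat_lit 5) (nat_lit 300) (nat_lit 5) (nat_lit 292) (nat_lit 5) (nat_lit 624) (nat_lit 569) (nat_lit 367)))) (XT.nd (nat_lit 156) (nat_lit 1292) (nat_lit 0) (XT.nd (nat_lit 78) (nat_lit 0) (nat_lit 0) (XT.lf (nat_lit 0) (nat_lit 5054858581) (nat_lit 608) (nat_lit 7698166847) (nat_lit 684) (nat_lit 7027119629) (nat_lit 283) (nat_lit 5) (nat_lit 291) (nat_lit 5) (nat_lit 292) (nat_lit 5) (nat_lit 625) (nat_lit 569) (nat_lit 366)) (XT.lf (nat_lit 0) (nat_lit 16398985594) (nat_lit 684) (nat_lit 3200467353) (nat_lit 76) (nat_lit 409063067)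 (nat_lit 283) (nat_lit 5) (nat_lit 292) (nat_lit 5) (nat_lit 284) (nat_lit 5) (nat_lit 626) (nat_lit 569) (nat_lit 365))) (XT.nd (nat_lit 78) (nat_lit 684) (nat_lit 0) (XT.lf (nat_lit 0) (nat_lit 8609178876) (nat_lit 608) (nat_lit 11609589997) (nat_lit 684) (nat_lit 20667719) (nat_lit 275) (nat_lit 5) (nat_lit 283) (nat_lit 5) (nat_lit 284) (nat_lit 5) (nat_lit 627) (nat_lit 569) (nat_lit 364)) (XT.lf (nat_lit 0) (nat_lit 195009148) (nat_lit 608) (nat_lit 3414164290) (nat_lit 684) (nat_lit 16864990946) (nat_lit 266) (nat_lit 5) (nat_lit 274) (nat_lit 5) (nat_lit 275) (nat_lit 5) (nat_lit 628) (nat_lit 569) (nat_lit 363))))) (XT.nd (nat_lit 312) (nat_lit 1140) (nat_lit 0) (XT.nd (nat_lit 156) (nat_lit 532) (nat_lit 0) (XT.nd (nat_lit 78) (nat_lit 532) (nat_lit 0) (XT.lf (nat_lit 0) (nat_lit 7416115509) (nat_lit 684) (nat_lit 8338039164) (nat_lit 76) (nat_lit 4957333971) (nat_lit 266) (nat_lit 5) (nat_lit 275) (nat_lit 5) (nat_lit 267) (nat_lit 5) (nat_lit 629) (nat_lit 569) (nat_lit 362)) (XT.lf (nat_lit 0) (nat_lit 3862410927) (nat_lit 532)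 (nat_lit 7478699895) (nat_lit 608) (nat_lit 9611610536) (nat_lit 259) (nat_lit 5) (nat_lit 266) (nat_lit 5) (nat_lit 267) (nat_lit 5) (nat_lit 630) (nat_lit 569) (nat_lit 361))) (XT.nd (nat_lit 78) (nat_lit 532) (nat_lit 0) (XT.lf (nat_lit 0) (nat_lit 15401456663) (nat_lit 608) (nat_lit 4791971025) (nat_lit 76) (nat_lit 1004214278) (nat_lit 259) (nat_lit 5) (nat_lit 267) (nat_lit 5) (nat_lit 260) (nat_lit 5) (nat_lit 631) (nat_lit 569) (nat_lit 360)) (XT.lf (nat_lit 0) (nat_lit 7797636044) (nat_lit 532) (nat_lit 11839920559) (nat_lit 608) (nat_lit 1808013685) (nat_lit 252) (nat_lit 5) (nat_lit 259) (nat_lit 5) (nat_lit 260) (nat_lit 5) (nat_lit 632) (nat_lit 569) (nat_lit 359)))) (XT.nd (nat_lit 156) (nat_lit 532) (nat_lit 0) (XT.nd (nat_lit 78) (nat_lit 532) (nat_lit 0) (XT.lf (nat_lit 0) (nat_lit 2257068656) (nat_lit 608) (nat_lit 1016172432) (nat_lit 76) (nat_lit 18424387138) (nat_lit 251) (nat_lit 5) (nat_lit 259) (nat_lit 5) (nat_lit 252) (nat_lit 5) (nat_lit 633) (nat_lit 569) (nat_lit 358)) (XT.lf (nat_lit 0) (nat_lit 6487810406)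 (nat_lit 608) (nat_lit 9982703721) (nat_lit 76) (nat_lit 5481803065) (nat_lit 244) (nat_lit 5) (nat_lit 252) (nat_lit 5) (nat_lit 245) (nat_lit 5) (nat_lit 634) (nat_lit 569) (nat_lit 357))) (XT.nd (nat_lit 78) (nat_lit 0) (nat_lit 0) (XT.lf (nat_lit 0) (nat_lit 3027544408) (nat_lit 532) (nat_lit 7818395218) (nat_lit 608) (nat_lit 11365305088) (nat_lit 237) (nat_lit 5) (nat_lit 244) (nat_lit 5) (nat_lit 245) (nat_lit 5) (nat_lit 635) (nat_lit 569) (nat_lit 356)) (XT.lf (nat_lit 0) (nat_lit 15359821567) (nat_lit 608) (nat_lit 6055088130) (nat_lit 76) (nat_lit 1059069510) (nat_lit 237) (nat_lit 5) (nat_lit 245) (nat_lit 5) (nat_lit 238) (nat_lit 5) (nat_lit 636) (nat_lit 569) (nat_lit 355))))))) (XT.nd (nat_lit 76050) (nat_lit 0) (nat_lit 10336) (XT.nd (nat_lit 546) (nat_lit 2204) (nat_lit 0) (XT.nd (nat_lit 234) (nat_lit 988) (nat_lit 0) (XT.nd (nat_lit 78) (nat_lit 608) (nat_lit 0) (XT.lf (nat_lit 0) (nat_lit 7373759794) (nat_lit 456) (nat_lit 12684600328) (nat_lit 532) (nat_lit 2681720907) (nat_lit 231) (nat_lit 5) (nat_lit 237) (nat_lit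 5) (nat_lit 238) (nat_lit 5) (nat_lit 637) (nat_lit 569) (nat_lit 354)) (XT.nd (nat_lit 78) (nat_lit 532) (nat_lit 0) (XT.lf (nat_lit 0) (nat_lit 1850890839) (nat_lit 532) (nat_lit 1876930134) (nat_lit 76) (nat_lit 19282732280) (nat_lit 230) (nat_lit 5) (nat_lit 237) (nat_lit 5) (nat_lit 231) (nat_lit 5) (nat_lit 638) (nat_lit 569) (nat_lit 353)) (XT.lf (nat_lit 0) (nat_lit 6546874108) (nat_lit 608) (nat_lit 11305436540) (nat_lit 76) (nat_lit 5431597407) (nat_lit 223) (nat_lit 5) (nat_lit 231) (nat_lit 5) (nat_lit 224) (nat_lit 5) (nat_lit 639) (nat_lit 569) (nat_lit 352)))) (XT.nd (nat_lit 156) (nat_lit 532) (nat_lit 0) (XT.nd (nat_lit 78) (nat_lit 0) (nat_lit 0) (XT.lf (nat_lit 0) (nat_lit 2575767572) (nat_lit 456) (nat_lit 8809992004) (nat_lit 532) (nat_lit 12175990927) (nat_lit 217) (nat_lit 5) (nat_lit 223) (nat_lit 5) (nat_lit 224) (nat_lit 5) (nat_lit 640) (nat_lit 569) (nat_lit 351)) (XT.lf (nat_lit 0) (nat_lit 16395406202) (nat_lit 532) (nat_lit 6966202537) (nat_lit 76) (nat_lit 482061591) (nat_lit 217) (nat_lit 5) (nat_lit 224)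 (nat_lit 5) (nat_lit 218) (nat_lit 5) (nat_lit 641) (nat_lit 569) (nat_lit 350))) (XT.nd (nat_lit 78) (nat_lit 76) (nat_lit 0) (XT.lf (nat_lit 0) (nat_lit 7365137023) (nat_lit 456) (nat_lit 14241304768) (nat_lit 532) (nat_lit 2522763036) (nat_lit 211) (nat_lit 5) (nat_lit 217) (nat_lit 5) (nat_lit 218) (nat_lit 5) (nat_lit 642) (nat_lit 569) (nat_lit 349)) (XT.lf (nat_lit 0) (nat_lit 2510551534) (nat_lit 532) (nat_lit 2365638884) (nat_lit 76) (nat_lit 19543092832) (nat_lit 210) (nat_lit 5) (nat_lit 217) (nat_lit 5) (nat_lit 211) (nat_lit 5) (nat_lit 643) (nat_lit 569) (nat_lit 348))))) (XT.nd (nat_lit 312) (nat_lit 912) (nat_lit 0) (XT.nd (nat_lit 156) (nat_lit 380) (nat_lit 0) (XT.nd (nat_lit 78) (nat_lit 456) (nat_lit 0) (XT.lf (nat_lit 0) (nat_lit 7717828230) (nat_lit 532) (nat_lit 12283795974) (nat_lit 76) (nat_lit 4711064200) (nat_lit 204) (nat_lit 5) (nat_lit 211) (nat_lit 5) (nat_lit 205) (nat_lit 5) (nat_lit 644) (nat_lit 569) (nat_lit 347)) (XT.lf (nat_lit 0) (nat_lit 2533563610) (nat_lit 456) (nat_lit 10555593657) (nat_lit 532)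 (nat_lit 11921606436) (nat_lit 198) (nat_lit 5) (nat_lit 204) (nat_lit 5) (nat_lit 205) (nat_lit 5) (nat_lit 645) (nat_lit 569) (nat_lit 346))) (XT.nd (nat_lit 78) (nat_lit 380) (nat_lit 0) (XT.lf (nat_lit 0) (nat_lit 17806822741) (nat_lit 456) (nat_lit 838754892) (nat_lit 532) (nat_lit 6667669757) (nat_lit 198) (nat_lit 5) (nat_lit 204) (nat_lit 5) (nat_lit 205) (nat_lit 5) (nat_lit 646) (nat_lit 569) (nat_lit 345)) (XT.lf (nat_lit 0) (nat_lit 7800263002) (nat_lit 380) (nat_lit 16617725568) (nat_lit 456) (nat_lit 1201695110) (nat_lit 193) (nat_lit 5) (nat_lit 198) (nat_lit 5) (nat_lit 199) (nat_lit 5) (nat_lit 647) (nat_lit 569) (nat_lit 344)))) (XT.nd (nat_lit 156) (nat_lit 380) (nat_lit 0) (XT.nd (nat_lit 78) (nat_lit 456) (nat_lit 0) (XT.lf (nat_lit 0) (nat_lit 4367828811) (nat_lit 456) (nat_lit 2457607656) (nat_lit 76) (nat_lit 19105212662) (nat_lit 192) (nat_lit 5) (nat_lit 198) (nat_lit 5) (nat_lit 193) (nat_lit 5) (nat_lit 648) (nat_lit 569) (nat_lit 343)) (XT.lf (nat_lit 0) (nat_lit 10136057229) (nat_lit 532) (nat_lit 12895099317)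 (nat_lit 76) (nat_lit 3214450546) (nat_lit 186) (nat_lit 5) (nat_lit 193) (nat_lit 5) (nat_lit 187) (nat_lit 5) (nat_lit 649) (nat_lit 569) (nat_lit 342))) (XT.nd (nat_lit 74958) (nat_lit 0) (nat_lit 25688) (XT.lf (nat_lit 0) (nat_lit 2927838975) (nat_lit 380) (nat_lit 13168076620) (nat_lit 456) (nat_lit 10469423472) (nat_lit 181) (nat_lit 5) (nat_lit 186) (nat_lit 5) (nat_lit 187) (nat_lit 5) (nat_lit 650) (nat_lit 569) (nat_lit 341)) (XT.lf (nat_lit 0) (nat_lit 2974390492) (nat_lit 1748) (nat_lit 1337831887) (nat_lit 1748) (nat_lit 1337831887) (nat_lit 519) (nat_lit 3) (nat_lit 542) (nat_lit 3) (nat_lit 542) (nat_lit 5) (nat_lit 570) (nat_lit 570) (nat_lit 420)))))) (XT.nd (nat_lit 546) (nat_lit 15352) (nat_lit 0) (XT.nd (nat_lit 234) (nat_lit 0) (nat_lit 152) (XT.nd (nat_lit 78) (nat_lit 0) (nat_lit 76) (XT.lf (nat_lit 76) (nat_lit 2969641383) (nat_lit 0) (nat_lit 3597670304) (nat_lit 1748) (nat_lit 4834582331) (nat_lit 520) (nat_lit 5) (nat_lit 519) (nat_lit 3) (nat_lit 542) (nat_lit 5) (nat_lit 571) (nat_lit 570) (nat_lit 419)) (XT.nd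 (nat_lit 78) (nat_lit 0) (nat_lit 0) (XT.lf (nat_lit 0) (nat_lit 7212057526) (nat_lit 1672) (nat_lit 2758931310) (nat_lit 1748) (nat_lit 1534450397) (nat_lit 520) (nat_lit 5) (nat_lit 542) (nat_lit 5) (nat_lit 543) (nat_lit 5) (nat_lit 572) (nat_lit 570) (nat_lit 418)) (XT.lf (nat_lit 76) (nat_lit 3036356279) (nat_lit 0) (nat_lit 4862998404) (nat_lit 1748) (nat_lit 3711108436) (nat_lit 521) (nat_lit 5) (nat_lit 520) (nat_lit 5) (nat_lit 543) (nat_lit 5) (nat_lit 573) (nat_lit 570) (nat_lit 417)))) (XT.nd (nat_lit 156) (nat_lit 0) (nat_lit 0) (XT.nd (nat_lit 78) (nat_lit 0) (nat_lit 0) (XT.lf (nat_lit 0) (nat_lit 8607669142) (nat_lit 1672) (nat_lit 2742408055) (nat_lit 1748) (nat_lit 367365732) (nat_lit 521) (nat_lit 5) (nat_lit 543) (nat_lit 5) (nat_lit 544) (nat_lit 5) (nat_lit 574) (nat_lit 570) (nat_lit 416)) (XT.lf (nat_lit 76) (nat_lit 3208185580) (nat_lit 0) (nat_lit 6161647237) (nat_lit 1748) (nat_lit 2455936721) (nat_lit 522) (nat_lit 5) (nat_lit 521) (nat_lit 5) (nat_lit 544) (nat_lit 5) (nat_lit 575) (nat_lit 570) (nat_lit 415)))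 (XT.nd (nat_lit 78) (nat_lit 0) (nat_lit 76) (XT.lf (nat_lit 76) (nat_lit 9307405447) (nat_lit 0) (nat_lit 845098010) (nat_lit 1748) (nat_lit 1783654788) (nat_lit 522) (nat_lit 5) (nat_lit 521) (nat_lit 5) (nat_lit 544) (nat_lit 5) (nat_lit 576) (nat_lit 570) (nat_lit 414)) (XT.lf (nat_lit 76) (nat_lit 3488175586) (nat_lit 0) (nat_lit 7502175315) (nat_lit 1748) (nat_lit 1057614184) (nat_lit 523) (nat_lit 5) (nat_lit 522) (nat_lit 5) (nat_lit 545) (nat_lit 5) (nat_lit 577) (nat_lit 570) (nat_lit 413))))) (XT.nd (nat_lit 312) (nat_lit 13908) (nat_lit 0) (XT.nd (nat_lit 156) (nat_lit 0) (nat_lit 0) (XT.nd (nat_lit 78) (nat_lit 1672) (nat_lit 0) (XT.lf (nat_lit 76) (nat_lit 9749750167) (nat_lit 0) (nat_lit 2105761324) (nat_lit 1748) (nat_lit 306286256) (nat_lit 523) (nat_lit 5) (nat_lit 522) (nat_lit 5) (nat_lit 545) (nat_lit 5) (nat_lit 578) (nat_lit 570) (nat_lit 412)) (XT.lf (nat_lit 0) (nat_lit 489155645) (nat_lit 1748) (nat_lit 8400747253) (nat_lit 1824) (nat_lit 3387242774) (nat_lit 500) (nat_lit 5) (nat_lit 523) (nat_lit 5) (nat_lit 524)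 (nat_lit 5) (nat_lit 579) (nat_lit 570) (nat_lit 411))) (XT.nd (nat_lit 78) (nat_lit 0) (nat_lit 76) (XT.lf (nat_lit 0) (nat_lit 1314394340) (nat_lit 1748) (nat_lit 2095146092) (nat_lit 1824) (nat_lit 8984860614) (nat_lit 500) (nat_lit 5) (nat_lit 523) (nat_lit 5) (nat_lit 524) (nat_lit 5) (nat_lit 580) (nat_lit 570) (nat_lit 410)) (XT.lf (nat_lit 0) (nat_lit 2186976855) (nat_lit 1748) (nat_lit 8141693858) (nat_lit 1824) (nat_lit 2184714779) (nat_lit 501) (nat_lit 5) (nat_lit 524) (nat_lit 5) (nat_lit 525) (nat_lit 5) (nat_lit 581) (nat_lit 570) (nat_lit 409)))) (XT.nd (nat_lit 156) (nat_lit 13984) (nat_lit 0) (XT.nd (nat_lit 78) (nat_lit 0) (nat_lit 76) (XT.lf (nat_lit 0) (nat_lit 3101942684) (nat_lit 1748) (nat_lit 1668830779) (nat_lit 1824) (nat_lit 7863478266) (nat_lit 501) (nat_lit 5) (nat_lit 524) (nat_lit 5) (nat_lit 525) (nat_lit 5) (nat_lit 582) (nat_lit 570) (nat_lit 408)) (XT.lf (nat_lit 0) (nat_lit 4062115673) (nat_lit 1748) (nat_lit 7772041085) (nat_lit 1824) (nat_lit 922841094) (nat_lit 502) (nat_lit 5) (nat_lit 525) (nat_lit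 5) (nat_lit 526) (nat_lit 5) (nat_lit 583) (nat_lit 570) (nat_lit 407))) (XT.nd (nat_lit 2808) (nat_lit 14060) (nat_lit 0) (XT.lf (nat_lit 0) (nat_lit 5072990414) (nat_lit 1748) (nat_lit 1127202882) (nat_lit 1824) (nat_lit 6681376338) (nat_lit 502) (nat_lit 5) (nat_lit 525) (nat_lit 5) (nat_lit 526) (nat_lit 5) (nat_lit 584) (nat_lit 570) (nat_lit 406)) (XT.lf (nat_lit 0) (nat_lit 12509880194) (nat_lit 760) (nat_lit 3670193884) (nat_lit 76) (nat_lit 2658500772) (nat_lit 317) (nat_lit 5) (nat_lit 327) (nat_lit 5) (nat_lit 318) (nat_lit 5) (nat_lit 620) (nat_lit 570) (nat_lit 370))))))))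
noncomputable def xc81 : XT := (XT.nd (nat_lit 2340) (nat_lit 380) (nat_lit 0) (XT.nd (nat_lit 1170) (nat_lit 4408) (nat_lit 0) (XT.nd (nat_lit 546) (nat_lit 2964) (nat_lit 0) (XT.nd (nat_lit 234) (nat_lit 1216) (nat_lit 0) (XT.nd (nat_lit 78) (nat_lit 760) (nat_lit 0) (XT.lf (nat_lit 0) (nat_lit 7290058243) (nat_lit 608) (nat_lit 8464646686) (nat_lit 684) (nat_lit 3297317701) (nat_lit 309) (nat_lit 5) (nat_lit 317) (nat_lit 5) (nat_lit 318) (nat_lit 5) (nat_lit 621) (nat_lit 570) (nat_lit 369)) (XT.nd (nat_lit 78) (nat_lit 760) (nat_lit 0) (XT.lf (nat_lit 0) (nat_lit 18511790003) (nat_lit 608) (nat_lit 571023008) (nat_lit 684) (nat_lit 186558923) (nat_lit 309) (nat_lit 5) (nat_lit 317) (nat_lit 5) (nat_lit 318) (nat_lit 5) (nat_lit 622) (nat_lit 570) (nat_lit 368)) (XT.lf (nat_lit 0) (nat_lit 3058915276) (nat_lit 760) (nat_lit 8959743373) (nat_lit 76) (nat_lit 7469788721) (nat_lit 299) (nat_lit 5) (nat_lit 309) (nat_lit 5) (nat_lit 300) (nat_lit 5) (nat_lit 623) (nat_lit 570) (nat_lit 367)))) (XT.nd (nat_lit 156) (nat_lit 608) (nat_lit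 0) (XT.nd (nat_lit 78) (nat_lit 0) (nat_lit 0) (XT.lf (nat_lit 0) (nat_lit 2357575046) (nat_lit 608) (nat_lit 4027338417) (nat_lit 684) (nat_lit 13326604229) (nat_lit 291) (nat_lit 5) (nat_lit 299) (nat_lit 5) (nat_lit 300) (nat_lit 5) (nat_lit 624) (nat_lit 570) (nat_lit 366)) (XT.lf (nat_lit 0) (nat_lit 9858695279) (nat_lit 684) (nat_lit 5949867003) (nat_lit 76) (nat_lit 4128862149) (nat_lit 291) (nat_lit 5) (nat_lit 300) (nat_lit 5) (nat_lit 292) (nat_lit 5) (nat_lit 625) (nat_lit 570) (nat_lit 365))) (XT.nd (nat_lit 78) (nat_lit 0) (nat_lit 0) (XT.lf (nat_lit 0) (nat_lit 5723289924) (nat_lit 608) (nat_lit 7736578017) (nat_lit 684) (nat_lit 6706823336) (nat_lit 283) (nat_lit 5) (nat_lit 291) (nat_lit 5) (nat_lit 292) (nat_lit 5) (nat_lit 626) (nat_lit 570) (nat_lit 364)) (XT.lf (nat_lit 0) (nat_lit 17170624371) (nat_lit 684) (nat_lit 2700123160) (nat_lit 76) (nat_lit 529044995) (nat_lit 283) (nat_lit 5) (nat_lit 292) (nat_lit 5) (nat_lit 284) (nat_lit 5) (nat_lit 627) (nat_lit 570) (nat_lit 363))))) (XT.nd (nat_lit 312) (nat_lit 1140)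 (nat_lit 0) (XT.nd (nat_lit 156) (nat_lit 532) (nat_lit 0) (XT.nd (nat_lit 78) (nat_lit 608) (nat_lit 0) (XT.lf (nat_lit 0) (nat_lit 420719919) (nat_lit 684) (nat_lit 11296197856) (nat_lit 76) (nat_lit 8918459969) (nat_lit 274) (nat_lit 5) (nat_lit 283) (nat_lit 5) (nat_lit 275) (nat_lit 5) (nat_lit 628) (nat_lit 570) (nat_lit 362)) (XT.lf (nat_lit 0) (nat_lit 761710314) (nat_lit 608) (nat_lit 3356167838) (nat_lit 684) (nat_lit 16757019656) (nat_lit 266) (nat_lit 5) (nat_lit 274) (nat_lit 5) (nat_lit 275) (nat_lit 5) (nat_lit 629) (nat_lit 570) (nat_lit 361))) (XT.nd (nat_lit 78) (nat_lit 532) (nat_lit 0) (XT.lf (nat_lit 0) (nat_lit 7993203640) (nat_lit 684) (nat_lit 7945259795) (nat_lit 76) (nat_lit 5178660608) (nat_lit 266) (nat_lit 5) (nat_lit 275) (nat_lit 5) (nat_lit 267) (nat_lit 5) (nat_lit 630) (nat_lit 570) (nat_lit 360)) (XT.lf (nat_lit 0) (nat_lit 4495518113) (nat_lit 532) (nat_lit 7496382579) (nat_lit 608) (nat_lit 9371377057) (nat_lit 259) (nat_lit 5) (nat_lit 266) (nat_lit 5) (nat_lit 267) (nat_lit 5) (nat_lit 631) (nat_lit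 570) (nat_lit 359)))) (XT.nd (nat_lit 156) (nat_lit 608) (nat_lit 0) (XT.nd (nat_lit 78) (nat_lit 532) (nat_lit 0) (XT.lf (nat_lit 0) (nat_lit 16125979893) (nat_lit 608) (nat_lit 4335358801) (nat_lit 76) (nat_lit 1151907912) (nat_lit 259) (nat_lit 5) (nat_lit 267) (nat_lit 5) (nat_lit 260) (nat_lit 5) (nat_lit 632) (nat_lit 570) (nat_lit 358)) (XT.lf (nat_lit 0) (nat_lit 8502405859) (nat_lit 532) (nat_lit 11939792707) (nat_lit 608) (nat_lit 1424027354) (nat_lit 252) (nat_lit 5) (nat_lit 259) (nat_lit 5) (nat_lit 260) (nat_lit 5) (nat_lit 633) (nat_lit 570) (nat_lit 357))) (XT.nd (nat_lit 78) (nat_lit 532) (nat_lit 0) (XT.lf (nat_lit 0) (nat_lit 2708716213) (nat_lit 608) (nat_lit 493020392) (nat_lit 76) (nat_lit 18921696801) (nat_lit 251) (nat_lit 5) (nat_lit 259) (nat_lit 5) (nat_lit 252) (nat_lit 5) (nat_lit 634) (nat_lit 570) (nat_lit 356)) (XT.lf (nat_lit 0) (nat_lit 7020502550) (nat_lit 608) (nat_lit 9635295137) (nat_lit 76) (nat_lit 5727490209) (nat_lit 244) (nat_lit 5) (nat_lit 252) (nat_lit 5) (nat_lit 245) (nat_lit 5) (nat_lit 635)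 (nat_lit 570) (nat_lit 355)))))) (XT.nd (nat_lit 546) (nat_lit 2356) (nat_lit 0) (XT.nd (nat_lit 234) (nat_lit 1064) (nat_lit 0) (XT.nd (nat_lit 78) (nat_lit 456) (nat_lit 0) (XT.lf (nat_lit 0) (nat_lit 3631558859) (nat_lit 532) (nat_lit 7829863317) (nat_lit 608) (nat_lit 11186059567) (nat_lit 237) (nat_lit 5) (nat_lit 244) (nat_lit 5) (nat_lit 245) (nat_lit 5) (nat_lit 636) (nat_lit 570) (nat_lit 354)) (XT.nd (nat_lit 78) (nat_lit 456) (nat_lit 0) (XT.lf (nat_lit 0) (nat_lit 16058689119) (nat_lit 608) (nat_lit 5636473576) (nat_lit 76) (nat_lit 1220446409) (nat_lit 237) (nat_lit 5) (nat_lit 245) (nat_lit 5) (nat_lit 238) (nat_lit 5) (nat_lit 637) (nat_lit 570) (nat_lit 353)) (XT.lf (nat_lit 0) (nat_lit 8057400540) (nat_lit 456) (nat_lit 12789599221) (nat_lit 532) (nat_lit 2340117494) (nat_lit 231) (nat_lit 5) (nat_lit 237) (nat_lit 5) (nat_lit 238) (nat_lit 5) (nat_lit 638) (nat_lit 570) (nat_lit 352)))) (XT.nd (nat_lit 156) (nat_lit 456) (nat_lit 0) (XT.nd (nat_lit 78) (nat_lit 532) (nat_lit 0) (XT.lf (nat_lit 0) (nat_lit 2270314750) (nat_lit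 532) (nat_lit 1383718934) (nat_lit 76) (nat_lit 19809067186) (nat_lit 230) (nat_lit 5) (nat_lit 237) (nat_lit 5) (nat_lit 231) (nat_lit 5) (nat_lit 639) (nat_lit 570) (nat_lit 351)) (XT.lf (nat_lit 0) (nat_lit 7057109766) (nat_lit 608) (nat_lit 10997672523) (nat_lit 76) (nat_lit 5687202937) (nat_lit 223) (nat_lit 5) (nat_lit 231) (nat_lit 5) (nat_lit 224) (nat_lit 5) (nat_lit 640) (nat_lit 570) (nat_lit 350))) (XT.nd (nat_lit 78) (nat_lit 0) (nat_lit 0) (XT.lf (nat_lit 0) (nat_lit 3157643350) (nat_lit 456) (nat_lit 8831135825) (nat_lit 532) (nat_lit 12036685517) (nat_lit 217) (nat_lit 5) (nat_lit 223) (nat_lit 5) (nat_lit 224) (nat_lit 5) (nat_lit 641) (nat_lit 570) (nat_lit 349)) (XT.lf (nat_lit 0) (nat_lit 17092246811) (nat_lit 532) (nat_lit 6579179018) (nat_lit 76) (nat_lit 641724814) (nat_lit 217) (nat_lit 5) (nat_lit 224) (nat_lit 5) (nat_lit 218) (nat_lit 5) (nat_lit 642) (nat_lit 570) (nat_lit 348))))) (XT.nd (nat_lit 312) (nat_lit 912) (nat_lit 0) (XT.nd (nat_lit 156) (nat_lit 912) (nat_lit 0) (XT.nd (nat_lit 78) (nat_lit 76) (nat_lit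 0) (XT.lf (nat_lit 0) (nat_lit 8035324520) (nat_lit 456) (nat_lit 14368339537) (nat_lit 532) (nat_lit 2200808838) (nat_lit 211) (nat_lit 5) (nat_lit 217) (nat_lit 5) (nat_lit 218) (nat_lit 5) (nat_lit 643) (nat_lit 570) (nat_lit 347)) (XT.lf (nat_lit 0) (nat_lit 2921081428) (nat_lit 532) (nat_lit 1895517490) (nat_lit 76) (nat_lit 20083850010) (nat_lit 210) (nat_lit 5) (nat_lit 217) (nat_lit 5) (nat_lit 211) (nat_lit 5) (nat_lit 644) (nat_lit 570) (nat_lit 346))) (XT.nd (nat_lit 78) (nat_lit 456) (nat_lit 0) (XT.lf (nat_lit 0) (nat_lit 8229798203) (nat_lit 532) (nat_lit 12009318924) (nat_lit 76) (nat_lit 4960659434) (nat_lit 204) (nat_lit 5) (nat_lit 211) (nat_lit 5) (nat_lit 205) (nat_lit 5) (nat_lit 645) (nat_lit 570) (nat_lit 345)) (XT.lf (nat_lit 0) (nat_lit 3100965793) (nat_lit 456) (nat_lit 10603930960) (nat_lit 532) (nat_lit 11798990016) (nat_lit 198) (nat_lit 5) (nat_lit 204) (nat_lit 5) (nat_lit 205) (nat_lit 5) (nat_lit 646) (nat_lit 570) (nat_lit 344)))) (XT.nd (nat_lit 156) (nat_lit 532) (nat_lit 0) (XT.nd (nat_lit 78) (nat_lit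 380) (nat_lit 0) (XT.lf (nat_lit 0) (nat_lit 18669558128) (nat_lit 456) (nat_lit 695947078) (nat_lit 532) (nat_lit 6447053987) (nat_lit 198) (nat_lit 5) (nat_lit 204) (nat_lit 5) (nat_lit 205) (nat_lit 5) (nat_lit 647) (nat_lit 570) (nat_lit 343)) (XT.lf (nat_lit 0) (nat_lit 8465412406) (nat_lit 380) (nat_lit 16785469224) (nat_lit 456) (nat_lit 874292485) (nat_lit 193) (nat_lit 5) (nat_lit 198) (nat_lit 5) (nat_lit 199) (nat_lit 5) (nat_lit 648) (nat_lit 570) (nat_lit 342))) (XT.nd (nat_lit 78) (nat_lit 456) (nat_lit 0) (XT.lf (nat_lit 0) (nat_lit 4795212225) (nat_lit 456) (nat_lit 2003068021) (nat_lit 76) (nat_lit 19644169244) (nat_lit 192) (nat_lit 5) (nat_lit 198) (nat_lit 5) (nat_lit 193) (nat_lit 5) (nat_lit 649) (nat_lit 570) (nat_lit 341)) (XT.lf (nat_lit 0) (nat_lit 10676450106) (nat_lit 532) (nat_lit 12646942561) (nat_lit 76) (nat_lit 3440361285) (nat_lit 186) (nat_lit 5) (nat_lit 193) (nat_lit 5) (nat_lit 187) (nat_lit 5) (nat_lit 650) (nat_lit 570) (nat_lit 340))))))) (XT.nd (nat_lit 78624) (nat_lit 0) (nat_lit 5928) (XT.nd (nat_lit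 75426) (nat_lit 0) (nat_lit 24168) (XT.nd (nat_lit 75114) (nat_lit 0) (nat_lit 25764) (XT.nd (nat_lit 74958) (nat_lit 0) (nat_lit 25688) (XT.lf (nat_lit 0) (nat_lit 3489125163) (nat_lit 380) (nat_lit 13263023514) (nat_lit 456) (nat_lit 10337799260) (nat_lit 181) (nat_lit 5) (nat_lit 186) (nat_lit 5) (nat_lit 187) (nat_lit 5) (nat_lit 651) (nat_lit 570) (nat_lit 339)) (XT.nd (nat_lit 78) (nat_lit 0) (nat_lit 0) (XT.lf (nat_lit 0) (nat_lit 3570135820) (nat_lit 1748) (nat_lit 1091079932) (nat_lit 1748) (nat_lit 1091079932) (nat_lit 519) (nat_lit 3) (nat_lit 542) (nat_lit 3) (nat_lit 542) (nat_lit 5) (nat_lit 571) (nat_lit 571) (nat_lit 418)) (XT.lf (nat_lit 76) (nat_lit 3572452600) (nat_lit 0) (nat_lit 4181218884) (nat_lit 1748) (nat_lit 3855092462) (nat_lit 520) (nat_lit 5) (nat_lit 519) (nat_lit 3) (nat_lit 542) (nat_lit 5) (nat_lit 572) (nat_lit 571) (nat_lit 417)))) (XT.nd (nat_lit 156) (nat_lit 0) (nat_lit 0) (XT.nd (nat_lit 78) (nat_lit 0) (nat_lit 0) (XT.lf (nat_lit 0) (nat_lit 8387369214) (nat_lit 1672) (nat_lit 2257337430) (nat_lit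 1748) (nat_lit 1070153609) (nat_lit 520) (nat_lit 5) (nat_lit 542) (nat_lit 5) (nat_lit 543) (nat_lit 5) (nat_lit 573) (nat_lit 571) (nat_lit 416)) (XT.lf (nat_lit 76) (nat_lit 3650192934) (nat_lit 0) (nat_lit 5421593465) (nat_lit 1748) (nat_lit 2750532037) (nat_lit 521) (nat_lit 5) (nat_lit 520) (nat_lit 5) (nat_lit 543) (nat_lit 5) (nat_lit 574) (nat_lit 571) (nat_lit 415))) (XT.nd (nat_lit 78) (nat_lit 0) (nat_lit 76) (XT.lf (nat_lit 76) (nat_lit 9699314339) (nat_lit 0) (nat_lit 72596519) (nat_lit 1748) (nat_lit 2159975386) (nat_lit 521) (nat_lit 5) (nat_lit 520) (nat_lit 5) (nat_lit 543) (nat_lit 5) (nat_lit 575) (nat_lit 571) (nat_lit 414)) (XT.lf (nat_lit 76) (nat_lit 3833786817) (nat_lit 0) (nat_lit 6699261399) (nat_lit 1748) (nat_lit 1509657810) (nat_lit 522) (nat_lit 5) (nat_lit 521) (nat_lit 5) (nat_lit 544) (nat_lit 5) (nat_lit 576) (nat_lit 571) (nat_lit 413))))) (XT.nd (nat_lit 312) (nat_lit 0) (nat_lit 76) (XT.nd (nat_lit 156) (nat_lit 1672) (nat_lit 0) (XT.nd (nat_lit 78) (nat_lit 0) (nat_lit 76) (XT.lf (nat_lit 76) (nat_lit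 10043982503) (nat_lit 0) (nat_lit 1268256066) (nat_lit 1748) (nat_lit 843447839) (nat_lit 522) (nat_lit 5) (nat_lit 521) (nat_lit 5) (nat_lit 544) (nat_lit 5) (nat_lit 577) (nat_lit 571) (nat_lit 412)) (XT.lf (nat_lit 76) (nat_lit 4126435851) (nat_lit 0) (nat_lit 8022753673) (nat_lit 1748) (nat_lit 120894131) (nat_lit 523) (nat_lit 5) (nat_lit 522) (nat_lit 5) (nat_lit 545) (nat_lit 5) (nat_lit 578) (nat_lit 571) (nat_lit 411))) (XT.nd (nat_lit 78) (nat_lit 0) (nat_lit 76) (XT.lf (nat_lit 0) (nat_lit 618459542) (nat_lit 1748) (nat_lit 1888536281) (nat_lit 1824) (nat_lit 9879485197) (nat_lit 499) (nat_lit 5) (nat_lit 522) (nat_lit 5) (nat_lit 523) (nat_lit 5) (nat_lit 579) (nat_lit 571) (nat_lit 410)) (XT.lf (nat_lit 0) (nat_lit 1408967173) (nat_lit 1748) (nat_lit 7982235930) (nat_lit 1824) (nat_lit 3113228282) (nat_lit 500) (nat_lit 5) (nat_lit 523) (nat_lit 5) (nat_lit 524) (nat_lit 5) (nat_lit 580) (nat_lit 571) (nat_lit 409)))) (XT.nd (nat_lit 156) (nat_lit 0) (nat_lit 76) (XT.nd (nat_lit 78) (nat_lit 0) (nat_lit 76) (XT.lf (nat_lit 0)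 (nat_lit 2232866947) (nat_lit 1748) (nat_lit 1562023261) (nat_lit 1824) (nat_lit 8829499642) (nat_lit 500) (nat_lit 5) (nat_lit 523) (nat_lit 5) (nat_lit 524) (nat_lit 5) (nat_lit 581) (nat_lit 571) (nat_lit 408)) (XT.lf (nat_lit 0) (nat_lit 3107121914) (nat_lit 1748) (nat_lit 7713668350) (nat_lit 1824) (nat_lit 1925280395) (nat_lit 501) (nat_lit 5) (nat_lit 524) (nat_lit 5) (nat_lit 525) (nat_lit 5) (nat_lit 582) (nat_lit 571) (nat_lit 407))) (XT.nd (nat_lit 78) (nat_lit 0) (nat_lit 76) (XT.lf (nat_lit 0) (nat_lit 4023202636) (nat_lit 1748) (nat_lit 1122933487) (nat_lit 1824) (nat_lit 7723562852) (nat_lit 501) (nat_lit 5) (nat_lit 524) (nat_lit 5) (nat_lit 525) (nat_lit 5) (nat_lit 583) (nat_lit 571) (nat_lit 406)) (XT.lf (nat_lit 0) (nat_lit 4987710679) (nat_lit 1748) (nat_lit 7333287274) (nat_lit 1824) (nat_lit 674200481) (nat_lit 502) (nat_lit 5) (nat_lit 525) (nat_lit 5) (nat_lit 526) (nat_lit 5) (nat_lit 584) (nat_lit 571) (nat_lit 405)))))) (XT.nd (nat_lit 546) (nat_lit 3040) (nat_lit 0) (XT.nd (nat_lit 234) (nat_lit 1368) (nat_lit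 0) (XT.nd (nat_lit 78) (nat_lit 684) (nat_lit 0) (XT.lf (nat_lit 0) (nat_lit 2060483563) (nat_lit 684) (nat_lit 2009699549) (nat_lit 760) (nat_lit 14500171709) (nat_lit 326) (nat_lit 5) (nat_lit 335) (nat_lit 5) (nat_lit 336) (nat_lit 5) (nat_lit 618) (nat_lit 571) (nat_lit 371)) (XT.nd (nat_lit 78) (nat_lit 684) (nat_lit 0) (XT.lf (nat_lit 0) (nat_lit 7020276204) (nat_lit 760) (nat_lit 5926848469) (nat_lit 76) (nat_lit 5831763658) (nat_lit 326) (nat_lit 5) (nat_lit 336) (nat_lit 5) (nat_lit 327) (nat_lit 5) (nat_lit 619) (nat_lit 571) (nat_lit 370)) (XT.lf (nat_lit 0) (nat_lit 4911633638) (nat_lit 684) (nat_lit 5156674156) (nat_lit 760) (nat_lit 8922506297) (nat_lit 317) (nat_lit 5) (nat_lit 326) (nat_lit 5) (nat_lit 327) (nat_lit 5) (nat_lit 620) (nat_lit 571) (nat_lit 369)))) (XT.nd (nat_lit 156) (nat_lit 760) (nat_lit 0) (XT.nd (nat_lit 78) (nat_lit 608) (nat_lit 0) (XT.lf (nat_lit 0) (nat_lit 13229253977) (nat_lit 760) (nat_lit 3184710581) (nat_lit 76) (nat_lit 2791975035) (nat_lit 317) (nat_lit 5) (nat_lit 327) (nat_lit 5) (nat_lit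 318) (nat_lit 5) (nat_lit 621) (nat_lit 571) (nat_lit 368)) (XT.lf (nat_lit 0) (nat_lit 7991069699) (nat_lit 608) (nat_lit 8542310767) (nat_lit 684) (nat_lit 2890388211) (nat_lit 309) (nat_lit 5) (nat_lit 317) (nat_lit 5) (nat_lit 318) (nat_lit 5) (nat_lit 622) (nat_lit 571) (nat_lit 367))) (XT.nd (nat_lit 78) (nat_lit 684) (nat_lit 0) (XT.lf (nat_lit 0) (nat_lit 269729107) (nat_lit 684) (nat_lit 221072128) (nat_lit 76) (nat_lit 19154810486) (nat_lit 308) (nat_lit 5) (nat_lit 317) (nat_lit 5) (nat_lit 309) (nat_lit 5) (nat_lit 623) (nat_lit 571) (nat_lit 366)) (XT.lf (nat_lit 0) (nat_lit 3572811141) (nat_lit 760) (nat_lit 8583684865) (nat_lit 76) (nat_lit 7712644500) (nat_lit 299) (nat_lit 5) (nat_lit 309) (nat_lit 5) (nat_lit 300) (nat_lit 5) (nat_lit 624) (nat_lit 571) (nat_lit 365))))) (XT.nd (nat_lit 312) (nat_lit 1824) (nat_lit 0) (XT.nd (nat_lit 156) (nat_lit 608) (nat_lit 0) (XT.nd (nat_lit 78) (nat_lit 0) (nat_lit 0) (XT.lf (nat_lit 0) (nat_lit 2956326940) (nat_lit 608) (nat_lit 4003706892) (nat_lit 684) (nat_lit 13136744731) (nat_lit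 291) (nat_lit 5) (nat_lit 299) (nat_lit 5) (nat_lit 300) (nat_lit 5) (nat_lit 625) (nat_lit 571) (nat_lit 364)) (XT.lf (nat_lit 0) (nat_lit 10495181434) (nat_lit 684) (nat_lit 5519949165) (nat_lit 76) (nat_lit 4312235447) (nat_lit 291) (nat_lit 5) (nat_lit 300) (nat_lit 5) (nat_lit 292) (nat_lit 5) (nat_lit 626) (nat_lit 571) (nat_lit 363))) (XT.nd (nat_lit 78) (nat_lit 0) (nat_lit 0) (XT.lf (nat_lit 0) (nat_lit 6383059616) (nat_lit 608) (nat_lit 7780244442) (nat_lit 684) (nat_lit 6398016046) (nat_lit 283) (nat_lit 5) (nat_lit 291) (nat_lit 5) (nat_lit 292) (nat_lit 5) (nat_lit 627) (nat_lit 571) (nat_lit 362)) (XT.lf (nat_lit 0) (nat_lit 17940468100) (nat_lit 684) (nat_lit 2211686620) (nat_lit 76) (nat_lit 647085204) (nat_lit 283) (nat_lit 5) (nat_lit 292) (nat_lit 5) (nat_lit 284) (nat_lit 5) (nat_lit 628) (nat_lit 571) (nat_lit 361)))) (XT.nd (nat_lit 156) (nat_lit 532) (nat_lit 0) (XT.nd (nat_lit 78) (nat_lit 608) (nat_lit 0) (XT.lf (nat_lit 0) (nat_lit 853513894) (nat_lit 684) (nat_lit 10977592649) (nat_lit 76) (nat_lit 9208472107)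 (nat_lit 274) (nat_lit 5) (nat_lit 283) (nat_lit 5) (nat_lit 275) (nat_lit 5) (nat_lit 629) (nat_lit 571) (nat_lit 360)) (XT.lf (nat_lit 0) (nat_lit 1317891257) (nat_lit 608) (nat_lit 3301915052) (nat_lit 684) (nat_lit 16664179360) (nat_lit 266) (nat_lit 5) (nat_lit 274) (nat_lit 5) (nat_lit 275) (nat_lit 5) (nat_lit 630) (nat_lit 571) (nat_lit 359))) (XT.nd (nat_lit 78) (nat_lit 532) (nat_lit 0) (XT.lf (nat_lit 0) (nat_lit 8565184035) (nat_lit 684) (nat_lit 7566352465) (nat_lit 76) (nat_lit 5399669381) (nat_lit 266) (nat_lit 5) (nat_lit 275) (nat_lit 5) (nat_lit 267) (nat_lit 5) (nat_lit 631) (nat_lit 571) (nat_lit 358)) (XT.lf (nat_lit 0) (nat_lit 5119702761) (nat_lit 532) (nat_lit 7519540418) (nat_lit 608) (nat_lit 9143132078) (nat_lit 259) (nat_lit 5) (nat_lit 266) (nat_lit 5) (nat_lit 267) (nat_lit 5) (nat_lit 632) (nat_lit 571) (nat_lit 357))))))))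
noncomputable def xc82 : XT := (XT.nd (nat_lit 77298) (nat_lit 0) (nat_lit 1900) (XT.nd (nat_lit 1170) (nat_lit 912) (nat_lit 0) (XT.nd (nat_lit 546) (nat_lit 2508) (nat_lit 0) (XT.nd (nat_lit 234) (nat_lit 988) (nat_lit 0) (XT.nd (nat_lit 78) (nat_lit 1140) (nat_lit 0) (XT.lf (nat_lit 0) (nat_lit 16848820615) (nat_lit 608) (nat_lit 3891066703) (nat_lit 76) (nat_lit 1297600193) (nat_lit 259) (nat_lit 5) (nat_lit 267) (nat_lit 5) (nat_lit 260) (nat_lit 5) (nat_lit 633) (nat_lit 571) (nat_lit 356)) (XT.nd (nat_lit 78) (nat_lit 608) (nat_lit 0) (XT.lf (nat_lit 0) (nat_lit 9199959834) (nat_lit 532) (nat_lit 12046979311) (nat_lit 608) (nat_lit 1048676100) (nat_lit 252) (nat_lit 5) (nat_lit 259) (nat_lit 5) (nat_lit 260) (nat_lit 5) (nat_lit 634) (nat_lit 571) (nat_lit 355)) (XT.lf (nat_lit 0) (nat_lit 19749896) (nat_lit 532) (nat_lit 3133989923) (nat_lit 608) (nat_lit 19404328679) (nat_lit 244) (nat_lit 5) (nat_lit 251) (nat_lit 5) (nat_lit 252) (nat_lit 5) (nat_lit 635) (nat_lit 571) (nat_lit 354)))) (XT.nd (nat_lit 156) (nat_lit 456) (nat_lit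 0) (XT.nd (nat_lit 78) (nat_lit 532) (nat_lit 0) (XT.lf (nat_lit 0) (nat_lit 7548202043) (nat_lit 608) (nat_lit 9302181491) (nat_lit 76) (nat_lit 5972808065) (nat_lit 244) (nat_lit 5) (nat_lit 252) (nat_lit 5) (nat_lit 245) (nat_lit 5) (nat_lit 636) (nat_lit 571) (nat_lit 353)) (XT.lf (nat_lit 0) (nat_lit 4226550246) (nat_lit 532) (nat_lit 7847187414) (nat_lit 608) (nat_lit 11019016031) (nat_lit 237) (nat_lit 5) (nat_lit 244) (nat_lit 5) (nat_lit 245) (nat_lit 5) (nat_lit 637) (nat_lit 571) (nat_lit 352))) (XT.nd (nat_lit 78) (nat_lit 456) (nat_lit 0) (XT.lf (nat_lit 0) (nat_lit 16756324955) (nat_lit 608) (nat_lit 5230444575) (nat_lit 76) (nat_lit 1379606882) (nat_lit 237) (nat_lit 5) (nat_lit 245) (nat_lit 5) (nat_lit 238) (nat_lit 5) (nat_lit 638) (nat_lit 571) (nat_lit 351)) (XT.lf (nat_lit 0) (nat_lit 8733894140) (nat_lit 456) (nat_lit 12902472026) (nat_lit 532) (nat_lit 2007029579) (nat_lit 231) (nat_lit 5) (nat_lit 237) (nat_lit 5) (nat_lit 238) (nat_lit 5) (nat_lit 639) (nat_lit 571) (nat_lit 350))))) (XT.nd (nat_lit 312) (nat_lit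 1444) (nat_lit 0) (XT.nd (nat_lit 156) (nat_lit 456) (nat_lit 0) (XT.nd (nat_lit 78) (nat_lit 532) (nat_lit 0) (XT.lf (nat_lit 0) (nat_lit 2683277845) (nat_lit 532) (nat_lit 901253171) (nat_lit 76) (nat_lit 20340466003) (nat_lit 230) (nat_lit 5) (nat_lit 237) (nat_lit 5) (nat_lit 231) (nat_lit 5) (nat_lit 640) (nat_lit 571) (nat_lit 349)) (XT.lf (nat_lit 0) (nat_lit 7562821527) (nat_lit 608) (nat_lit 10704484155) (nat_lit 76) (nat_lit 5942213414) (nat_lit 223) (nat_lit 5) (nat_lit 231) (nat_lit 5) (nat_lit 224) (nat_lit 5) (nat_lit 641) (nat_lit 571) (nat_lit 348))) (XT.nd (nat_lit 78) (nat_lit 0) (nat_lit 0) (XT.lf (nat_lit 0) (nat_lit 3730562103) (nat_lit 456) (nat_lit 8858723537) (nat_lit 532) (nat_lit 11909459569) (nat_lit 217) (nat_lit 5) (nat_lit 223) (nat_lit 5) (nat_lit 224) (nat_lit 5) (nat_lit 642) (nat_lit 571) (nat_lit 347)) (XT.lf (nat_lit 0) (nat_lit 17788698135) (nat_lit 532) (nat_lit 6204853747) (nat_lit 76) (nat_lit 798755765) (nat_lit 217) (nat_lit 5) (nat_lit 224) (nat_lit 5) (nat_lit 218) (nat_lit 5) (nat_lit 643) (nat_lit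 571) (nat_lit 346)))) (XT.nd (nat_lit 156) (nat_lit 912) (nat_lit 0) (XT.nd (nat_lit 78) (nat_lit 76) (nat_lit 0) (XT.lf (nat_lit 0) (nat_lit 8698611514) (nat_lit 456) (nat_lit 14504042231) (nat_lit 532) (nat_lit 1886876670) (nat_lit 211) (nat_lit 5) (nat_lit 217) (nat_lit 5) (nat_lit 218) (nat_lit 5) (nat_lit 644) (nat_lit 571) (nat_lit 345)) (XT.lf (nat_lit 0) (nat_lit 3325830300) (nat_lit 532) (nat_lit 1436086267) (nat_lit 76) (nat_lit 20629601713) (nat_lit 210) (nat_lit 5) (nat_lit 217) (nat_lit 5) (nat_lit 211) (nat_lit 5) (nat_lit 645) (nat_lit 571) (nat_lit 344))) (XT.nd (nat_lit 78) (nat_lit 456) (nat_lit 0) (XT.lf (nat_lit 0) (nat_lit 8738121011) (nat_lit 532) (nat_lit 11749550506) (nat_lit 76) (nat_lit 5209213213) (nat_lit 204) (nat_lit 5) (nat_lit 211) (nat_lit 5) (nat_lit 205) (nat_lit 5) (nat_lit 646) (nat_lit 571) (nat_lit 343)) (XT.lf (nat_lit 0) (nat_lit 3659650729) (nat_lit 456) (nat_lit 10659555744) (nat_lit 532) (nat_lit 11687941222) (nat_lit 198) (nat_lit 5) (nat_lit 204) (nat_lit 5) (nat_lit 205) (nat_lit 5) (nat_lit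 647) (nat_lit 571) (nat_lit 342)))))) (XT.nd (nat_lit 75504) (nat_lit 0) (nat_lit 23712) (XT.nd (nat_lit 234) (nat_lit 456) (nat_lit 0) (XT.nd (nat_lit 78) (nat_lit 456) (nat_lit 0) (XT.lf (nat_lit 0) (nat_lit 19529876369) (nat_lit 456) (nat_lit 556479907) (nat_lit 532) (nat_lit 6235770955) (nat_lit 198) (nat_lit 5) (nat_lit 204) (nat_lit 5) (nat_lit 205) (nat_lit 5) (nat_lit 648) (nat_lit 571) (nat_lit 341)) (XT.nd (nat_lit 78) (nat_lit 76) (nat_lit 0) (XT.lf (nat_lit 0) (nat_lit 9124094110) (nat_lit 380) (nat_lit 16962959793) (nat_lit 456) (nat_lit 553988516) (nat_lit 193) (nat_lit 5) (nat_lit 198) (nat_lit 5) (nat_lit 199) (nat_lit 5) (nat_lit 649) (nat_lit 571) (nat_lit 340)) (XT.lf (nat_lit 0) (nat_lit 5217939651) (nat_lit 456) (nat_lit 1558996559) (nat_lit 76) (nat_lit 20187814191) (nat_lit 192) (nat_lit 5) (nat_lit 198) (nat_lit 5) (nat_lit 193) (nat_lit 5) (nat_lit 650) (nat_lit 571) (nat_lit 339)))) (XT.nd (nat_lit 75114) (nat_lit 0) (nat_lit 25308) (XT.nd (nat_lit 75036) (nat_lit 0) (nat_lit 25308) (XT.lf (nat_lit 0) (nat_lit 11214538634)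 (nat_lit 532) (nat_lit 12413473547) (nat_lit 76) (nat_lit 3664514270) (nat_lit 186) (nat_lit 5) (nat_lit 193) (nat_lit 5) (nat_lit 187) (nat_lit 5) (nat_lit 651) (nat_lit 571) (nat_lit 338)) (XT.lf (nat_lit 0) (nat_lit 4156972522) (nat_lit 1748) (nat_lit 850013609) (nat_lit 1748) (nat_lit 850013609) (nat_lit 519) (nat_lit 3) (nat_lit 542) (nat_lit 3) (nat_lit 542) (nat_lit 5) (nat_lit 572) (nat_lit 572) (nat_lit 416))) (XT.nd (nat_lit 78) (nat_lit 0) (nat_lit 76) (XT.lf (nat_lit 76) (nat_lit 4166218442) (nat_lit 0) (nat_lit 4756572572) (nat_lit 1748) (nat_lit 2897802236) (nat_lit 520) (nat_lit 5) (nat_lit 519) (nat_lit 3) (nat_lit 542) (nat_lit 5) (nat_lit 573) (nat_lit 572) (nat_lit 415)) (XT.lf (nat_lit 0) (nat_lit 9546149410) (nat_lit 1672) (nat_lit 1767331827) (nat_lit 1748) (nat_lit 615791788) (nat_lit 520) (nat_lit 5) (nat_lit 542) (nat_lit 5) (nat_lit 543) (nat_lit 5) (nat_lit 574) (nat_lit 572) (nat_lit 414))))) (XT.nd (nat_lit 312) (nat_lit 0) (nat_lit 76) (XT.nd (nat_lit 156) (nat_lit 1672) (nat_lit 0) (XT.nd (nat_lit 78) (nat_lit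 0) (nat_lit 0) (XT.lf (nat_lit 76) (nat_lit 4254828405) (nat_lit 0) (nat_lit 5973446222) (nat_lit 1748) (nat_lit 1810926600) (nat_lit 521) (nat_lit 5) (nat_lit 520) (nat_lit 5) (nat_lit 543) (nat_lit 5) (nat_lit 575) (nat_lit 572) (nat_lit 413)) (XT.lf (nat_lit 76) (nat_lit 10414508089) (nat_lit 0) (nat_lit 508774811) (nat_lit 1748) (nat_lit 1228061092) (nat_lit 521) (nat_lit 5) (nat_lit 520) (nat_lit 5) (nat_lit 543) (nat_lit 5) (nat_lit 576) (nat_lit 572) (nat_lit 412))) (XT.nd (nat_lit 78) (nat_lit 1748) (nat_lit 0) (XT.lf (nat_lit 76) (nat_lit 4450098776) (nat_lit 0) (nat_lit 7231536916) (nat_lit 1748) (nat_lit 583105825) (nat_lit 522) (nat_lit 5) (nat_lit 521) (nat_lit 5) (nat_lit 544) (nat_lit 5) (nat_lit 577) (nat_lit 572) (nat_lit 411)) (XT.lf (nat_lit 0) (nat_lit 76649997) (nat_lit 1748) (nat_lit 1606937503) (nat_lit 1824) (nat_lit 10696752914) (nat_lit 498) (nat_lit 5) (nat_lit 521) (nat_lit 5) (nat_lit 522) (nat_lit 5) (nat_lit 578) (nat_lit 572) (nat_lit 410)))) (XT.nd (nat_lit 156) (nat_lit 0) (nat_lit 76) (XT.nd (nat_lit 78)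 (nat_lit 0) (nat_lit 0) (XT.lf (nat_lit 0) (nat_lit 786907386) (nat_lit 1748) (nat_lit 7747167329) (nat_lit 1824) (nat_lit 3963197951) (nat_lit 499) (nat_lit 5) (nat_lit 522) (nat_lit 5) (nat_lit 523) (nat_lit 5) (nat_lit 579) (nat_lit 572) (nat_lit 409)) (XT.lf (nat_lit 0) (nat_lit 1521615146) (nat_lit 1748) (nat_lit 1378706214) (nat_lit 1824) (nat_lit 9716018030) (nat_lit 499) (nat_lit 5) (nat_lit 522) (nat_lit 5) (nat_lit 523) (nat_lit 5) (nat_lit 580) (nat_lit 572) (nat_lit 408))) (XT.nd (nat_lit 78) (nat_lit 0) (nat_lit 0) (XT.lf (nat_lit 0) (nat_lit 2311837419) (nat_lit 1748) (nat_lit 7578129911) (nat_lit 1824) (nat_lit 2847004432) (nat_lit 500) (nat_lit 5) (nat_lit 523) (nat_lit 5) (nat_lit 524) (nat_lit 5) (nat_lit 581) (nat_lit 572) (nat_lit 407)) (XT.lf (nat_lit 0) (nat_lit 3135064386) (nat_lit 1748) (nat_lit 1040566925) (nat_lit 1824) (nat_lit 8684042168) (nat_lit 500) (nat_lit 5) (nat_lit 523) (nat_lit 5) (nat_lit 524) (nat_lit 5) (nat_lit 582) (nat_lit 572) (nat_lit 406))))))) (XT.nd (nat_lit 3744) (nat_lit 4788) (nat_lit 0)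 (XT.nd (nat_lit 3120) (nat_lit 3268) (nat_lit 0) (XT.nd (nat_lit 2808) (nat_lit 1368) (nat_lit 0) (XT.nd (nat_lit 2652) (nat_lit 12616) (nat_lit 0) (XT.lf (nat_lit 0) (nat_lit 4011637978) (nat_lit 1748) (nat_lit 7300026122) (nat_lit 1824) (nat_lit 1672428179) (nat_lit 501) (nat_lit 5) (nat_lit 524) (nat_lit 5) (nat_lit 525) (nat_lit 5) (nat_lit 583) (nat_lit 572) (nat_lit 405)) (XT.nd (nat_lit 78) (nat_lit 836) (nat_lit 0) (XT.lf (nat_lit 0) (nat_lit 17483182528) (nat_lit 760) (nat_lit 46993198) (nat_lit 76) (nat_lit 985004531) (nat_lit 346) (nat_lit 5) (nat_lit 356) (nat_lit 5) (nat_lit 347) (nat_lit 5) (nat_lit 617) (nat_lit 572) (nat_lit 371)) (XT.lf (nat_lit 0) (nat_lit 1769992242) (nat_lit 836) (nat_lit 8073526445) (nat_lit 76) (nat_lit 8878315901) (nat_lit 335) (nat_lit 5) (nat_lit 346) (nat_lit 5) (nat_lit 336) (nat_lit 5) (nat_lit 618) (nat_lit 572) (nat_lit 370)))) (XT.nd (nat_lit 156) (nat_lit 684) (nat_lit 0) (XT.nd (nat_lit 78) (nat_lit 0) (nat_lit 0) (XT.lf (nat_lit 0) (nat_lit 2646312005) (nat_lit 684) (nat_lit 1979194049)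 (nat_lit 760) (nat_lit 14306753784) (nat_lit 326) (nat_lit 5) (nat_lit 335) (nat_lit 5) (nat_lit 336) (nat_lit 5) (nat_lit 619) (nat_lit 572) (nat_lit 369)) (XT.lf (nat_lit 0) (nat_lit 7625758500) (nat_lit 760) (nat_lit 5502579730) (nat_lit 76) (nat_lit 6016803102) (nat_lit 326) (nat_lit 5) (nat_lit 336) (nat_lit 5) (nat_lit 327) (nat_lit 5) (nat_lit 620) (nat_lit 572) (nat_lit 368))) (XT.nd (nat_lit 78) (nat_lit 0) (nat_lit 0) (XT.lf (nat_lit 0) (nat_lit 5549100929) (nat_lit 684) (nat_lit 5180031709) (nat_lit 760) (nat_lit 8632285786) (nat_lit 317) (nat_lit 5) (nat_lit 326) (nat_lit 5) (nat_lit 327) (nat_lit 5) (nat_lit 621) (nat_lit 572) (nat_lit 367)) (XT.lf (nat_lit 0) (nat_lit 13944796552) (nat_lit 760) (nat_lit 2711219882) (nat_lit 76) (nat_lit 2925000472) (nat_lit 317) (nat_lit 5) (nat_lit 327) (nat_lit 5) (nat_lit 318) (nat_lit 5) (nat_lit 622) (nat_lit 572) (nat_lit 366))))) (XT.nd (nat_lit 312) (nat_lit 1292) (nat_lit 0) (XT.nd (nat_lit 156) (nat_lit 608) (nat_lit 0) (XT.nd (nat_lit 78) (nat_lit 760) (nat_lit 0) (XT.lf (nat_lit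 0) (nat_lit 8684541893) (nat_lit 608) (nat_lit 8625086191) (nat_lit 684) (nat_lit 2493682477) (nat_lit 309) (nat_lit 5) (nat_lit 317) (nat_lit 5) (nat_lit 318) (nat_lit 5) (nat_lit 623) (nat_lit 572) (nat_lit 365)) (XT.lf (nat_lit 0) (nat_lit 307592806) (nat_lit 684) (nat_lit 409285305) (nat_lit 760) (nat_lit 19312789716) (nat_lit 299) (nat_lit 5) (nat_lit 308) (nat_lit 5) (nat_lit 309) (nat_lit 5) (nat_lit 624) (nat_lit 572) (nat_lit 364))) (XT.nd (nat_lit 78) (nat_lit 608) (nat_lit 0) (XT.lf (nat_lit 0) (nat_lit 4079405349) (nat_lit 760) (nat_lit 8221666352) (nat_lit 76) (nat_lit 7956728228) (nat_lit 299) (nat_lit 5) (nat_lit 309) (nat_lit 5) (nat_lit 300) (nat_lit 5) (nat_lit 625) (nat_lit 572) (nat_lit 363)) (XT.lf (nat_lit 0) (nat_lit 3545634557) (nat_lit 608) (nat_lit 3983648107) (nat_lit 684) (nat_lit 12960810285) (nat_lit 291) (nat_lit 5) (nat_lit 299) (nat_lit 5) (nat_lit 300) (nat_lit 5) (nat_lit 626) (nat_lit 572) (nat_lit 362)))) (XT.nd (nat_lit 156) (nat_lit 684) (nat_lit 0) (XT.nd (nat_lit 78) (nat_lit 608) (nat_lit 0) (XT.lf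 (nat_lit 0) (nat_lit 11127338282) (nat_lit 684) (nat_lit 5102748016) (nat_lit 76) (nat_lit 4495362178) (nat_lit 291) (nat_lit 5) (nat_lit 300) (nat_lit 5) (nat_lit 292) (nat_lit 5) (nat_lit 627) (nat_lit 572) (nat_lit 361)) (XT.lf (nat_lit 0) (nat_lit 7034849887) (nat_lit 608) (nat_lit 7829096990) (nat_lit 684) (nat_lit 6100232655) (nat_lit 283) (nat_lit 5) (nat_lit 291) (nat_lit 5) (nat_lit 292) (nat_lit 5) (nat_lit 628) (nat_lit 572) (nat_lit 360))) (XT.nd (nat_lit 78) (nat_lit 684) (nat_lit 0) (XT.lf (nat_lit 0) (nat_lit 18709149859) (nat_lit 684) (nat_lit 1734544916) (nat_lit 76) (nat_lit 763313442) (nat_lit 283) (nat_lit 5) (nat_lit 292) (nat_lit 5) (nat_lit 284) (nat_lit 5) (nat_lit 629) (nat_lit 572) (nat_lit 359)) (XT.lf (nat_lit 0) (nat_lit 1278484573) (nat_lit 684) (nat_lit 10673760069) (nat_lit 76) (nat_lit 9499949257) (nat_lit 274) (nat_lit 5) (nat_lit 283) (nat_lit 5) (nat_lit 275) (nat_lit 5) (nat_lit 630) (nat_lit 572) (nat_lit 358)))))) (XT.nd (nat_lit 546) (nat_lit 2508) (nat_lit 0) (XT.nd (nat_lit 234) (nat_lit 1140) (nat_lit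 0) (XT.nd (nat_lit 78) (nat_lit 532) (nat_lit 0) (XT.lf (nat_lit 0) (nat_lit 1864190196) (nat_lit 608) (nat_lit 3251290395) (nat_lit 684) (nat_lit 16586101270) (nat_lit 266) (nat_lit 5) (nat_lit 274) (nat_lit 5) (nat_lit 275) (nat_lit 5) (nat_lit 631) (nat_lit 572) (nat_lit 357)) (XT.nd (nat_lit 78) (nat_lit 532) (nat_lit 0) (XT.lf (nat_lit 0) (nat_lit 9132601058) (nat_lit 684) (nat_lit 7200750904) (nat_lit 76) (nat_lit 5620538164) (nat_lit 266) (nat_lit 5) (nat_lit 275) (nat_lit 5) (nat_lit 267) (nat_lit 5) (nat_lit 632) (nat_lit 572) (nat_lit 356)) (XT.lf (nat_lit 0) (nat_lit 5735624580) (nat_lit 532) (nat_lit 7548084039) (nat_lit 608) (nat_lit 8926463270) (nat_lit 259) (nat_lit 5) (nat_lit 266) (nat_lit 5) (nat_lit 267) (nat_lit 5) (nat_lit 633) (nat_lit 572) (nat_lit 355)))) (XT.nd (nat_lit 156) (nat_lit 608) (nat_lit 0) (XT.nd (nat_lit 78) (nat_lit 532) (nat_lit 0) (XT.lf (nat_lit 0) (nat_lit 17570573194) (nat_lit 608) (nat_lit 3458508112) (nat_lit 76) (nat_lit 1441443510) (nat_lit 259) (nat_lit 5) (nat_lit 267) (nat_lit 5) (nat_lit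 260) (nat_lit 5) (nat_lit 634) (nat_lit 572) (nat_lit 354)) (XT.lf (nat_lit 0) (nat_lit 9890981193) (nat_lit 532) (nat_lit 12161420195) (nat_lit 608) (nat_lit 681499102) (nat_lit 252) (nat_lit 5) (nat_lit 259) (nat_lit 5) (nat_lit 260) (nat_lit 5) (nat_lit 635) (nat_lit 572) (nat_lit 353))) (XT.nd (nat_lit 78) (nat_lit 0) (nat_lit 0) (XT.lf (nat_lit 0) (nat_lit 528904715) (nat_lit 532) (nat_lit 3066761984) (nat_lit 608) (nat_lit 19405970180) (nat_lit 244) (nat_lit 5) (nat_lit 251) (nat_lit 5) (nat_lit 252) (nat_lit 5) (nat_lit 636) (nat_lit 572) (nat_lit 352)) (XT.lf (nat_lit 0) (nat_lit 8071416605) (nat_lit 608) (nat_lit 8982823786) (nat_lit 76) (nat_lit 6217954397) (nat_lit 244) (nat_lit 5) (nat_lit 252) (nat_lit 5) (nat_lit 245) (nat_lit 5) (nat_lit 637) (nat_lit 572) (nat_lit 351))))) (XT.nd (nat_lit 312) (nat_lit 1444) (nat_lit 0) (XT.nd (nat_lit 156) (nat_lit 532) (nat_lit 0) (XT.nd (nat_lit 78) (nat_lit 0) (nat_lit 0) (XT.lf (nat_lit 0) (nat_lit 4813157577) (nat_lit 532) (nat_lit 7870266140) (nat_lit 608) (nat_lit 10863805495) (nat_lit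 237) (nat_lit 5) (nat_lit 244) (nat_lit 5) (nat_lit 245) (nat_lit 5) (nat_lit 638) (nat_lit 572) (nat_lit 350)) (XT.lf (nat_lit 0) (nat_lit 17453295027) (nat_lit 608) (nat_lit 4836439017) (nat_lit 76) (nat_lit 1536717999) (nat_lit 237) (nat_lit 5) (nat_lit 245) (nat_lit 5) (nat_lit 238) (nat_lit 5) (nat_lit 639) (nat_lit 572) (nat_lit 349))) (XT.nd (nat_lit 78) (nat_lit 76) (nat_lit 0) (XT.lf (nat_lit 0) (nat_lit 9403906114) (nat_lit 456) (nat_lit 13023152014) (nat_lit 532) (nat_lit 1682031507) (nat_lit 231) (nat_lit 5) (nat_lit 237) (nat_lit 5) (nat_lit 238) (nat_lit 5) (nat_lit 640) (nat_lit 572) (nat_lit 348)) (XT.lf (nat_lit 0) (nat_lit 3090227523) (nat_lit 532) (nat_lit 428947457) (nat_lit 76) (nat_lit 20877242138) (nat_lit 230) (nat_lit 5) (nat_lit 237) (nat_lit 5) (nat_lit 231) (nat_lit 5) (nat_lit 641) (nat_lit 572) (nat_lit 347)))) (XT.nd (nat_lit 156) (nat_lit 456) (nat_lit 0) (XT.nd (nat_lit 78) (nat_lit 456) (nat_lit 0) (XT.lf (nat_lit 0) (nat_lit 8064490842) (nat_lit 608) (nat_lit 10425357941) (nat_lit 76) (nat_lit 6196838554)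 (nat_lit 223) (nat_lit 5) (nat_lit 231) (nat_lit 5) (nat_lit 224) (nat_lit 5) (nat_lit 642) (nat_lit 572) (nat_lit 346)) (XT.lf (nat_lit 0) (nat_lit 4295144400) (nat_lit 456) (nat_lit 8892650214) (nat_lit 532) (nat_lit 11793977424) (nat_lit 217) (nat_lit 5) (nat_lit 223) (nat_lit 5) (nat_lit 224) (nat_lit 5) (nat_lit 643) (nat_lit 572) (nat_lit 345))) (XT.nd (nat_lit 78) (nat_lit 456) (nat_lit 0) (XT.lf (nat_lit 0) (nat_lit 18485308687) (nat_lit 532) (nat_lit 5842687028) (nat_lit 76) (nat_lit 953328010) (nat_lit 217) (nat_lit 5) (nat_lit 224) (nat_lit 5) (nat_lit 218) (nat_lit 5) (nat_lit 644) (nat_lit 572) (nat_lit 344)) (XT.lf (nat_lit 0) (nat_lit 9355648435) (nat_lit 456) (nat_lit 14648348280) (nat_lit 532) (nat_lit 1580565429) (nat_lit 211) (nat_lit 5) (nat_lit 217) (nat_lit 5) (nat_lit 218) (nat_lit 5) (nat_lit 645) (nat_lit 572) (nat_lit 343))))))))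
noncomputable def xc83 : XT := (XT.nd (nat_lit 79794) (nat_lit 0) (nat_lit 456) (XT.nd (nat_lit 76128) (nat_lit 0) (nat_lit 7980) (XT.nd (nat_lit 75504) (nat_lit 0) (nat_lit 23712) (XT.nd (nat_lit 234) (nat_lit 912) (nat_lit 0) (XT.nd (nat_lit 78) (nat_lit 912) (nat_lit 0) (XT.lf (nat_lit 0) (nat_lit 3725225840) (nat_lit 532) (nat_lit 986778800) (nat_lit 76) (nat_lit 21180673854) (nat_lit 210) (nat_lit 5) (nat_lit 217) (nat_lit 5) (nat_lit 211) (nat_lit 5) (nat_lit 646) (nat_lit 572) (nat_lit 342)) (XT.nd (nat_lit 78) (nat_lit 456) (nat_lit 0) (XT.lf (nat_lit 0) (nat_lit 9243262943) (nat_lit 532) (nat_lit 11504000574) (nat_lit 76) (nat_lit 5456938990) (nat_lit 204) (nat_lit 5) (nat_lit 211) (nat_lit 5) (nat_lit 205) (nat_lit 5) (nat_lit 647) (nat_lit 572) (nat_lit 341)) (XT.lf (nat_lit 0) (nat_lit 4210223232) (nat_lit 456) (nat_lit 10722368317) (nat_lit 532) (nat_lit 11588146996) (nat_lit 198) (nat_lit 5) (nat_lit 204) (nat_lit 5) (nat_lit 205) (nat_lit 5) (nat_lit 648) (nat_lit 572) (nat_lit 340)))) (XT.nd (nat_lit 156) (nat_lit 532) (nat_lit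 0) (XT.nd (nat_lit 78) (nat_lit 380) (nat_lit 0) (XT.lf (nat_lit 0) (nat_lit 20388493003) (nat_lit 456) (nat_lit 420179562) (nat_lit 532) (nat_lit 6033473579) (nat_lit 198) (nat_lit 5) (nat_lit 204) (nat_lit 5) (nat_lit 205) (nat_lit 5) (nat_lit 649) (nat_lit 572) (nat_lit 339)) (XT.lf (nat_lit 0) (nat_lit 9776946481) (nat_lit 380) (nat_lit 17150144003) (nat_lit 456) (nat_lit 240395257) (nat_lit 193) (nat_lit 5) (nat_lit 198) (nat_lit 5) (nat_lit 199) (nat_lit 5) (nat_lit 650) (nat_lit 572) (nat_lit 338))) (XT.nd (nat_lit 78) (nat_lit 456) (nat_lit 0) (XT.lf (nat_lit 0) (nat_lit 5636430682) (nat_lit 456) (nat_lit 1124843135) (nat_lit 76) (nat_lit 20736477781) (nat_lit 192) (nat_lit 5) (nat_lit 198) (nat_lit 5) (nat_lit 193) (nat_lit 5) (nat_lit 651) (nat_lit 572) (nat_lit 337)) (XT.lf (nat_lit 0) (nat_lit 11750785892) (nat_lit 532) (nat_lit 12194222963) (nat_lit 76) (nat_lit 3887118050) (nat_lit 186) (nat_lit 5) (nat_lit 193) (nat_lit 5) (nat_lit 187) (nat_lit 5) (nat_lit 652) (nat_lit 572) (nat_lit 336))))) (XT.nd (nat_lit 312) (nat_lit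 1596) (nat_lit 0) (XT.nd (nat_lit 156) (nat_lit 0) (nat_lit 76) (XT.nd (nat_lit 78) (nat_lit 0) (nat_lit 0) (XT.lf (nat_lit 0) (nat_lit 4735531029) (nat_lit 1748) (nat_lit 614334219) (nat_lit 1748) (nat_lit 614334219) (nat_lit 519) (nat_lit 3) (nat_lit 542) (nat_lit 3) (nat_lit 542) (nat_lit 5) (nat_lit 573) (nat_lit 573) (nat_lit 414)) (XT.lf (nat_lit 76) (nat_lit 4751577404) (nat_lit 0) (nat_lit 5324338885) (nat_lit 1748) (nat_lit 1961532910) (nat_lit 520) (nat_lit 5) (nat_lit 519) (nat_lit 3) (nat_lit 542) (nat_lit 5) (nat_lit 574) (nat_lit 573) (nat_lit 413))) (XT.nd (nat_lit 78) (nat_lit 0) (nat_lit 0) (XT.lf (nat_lit 0) (nat_lit 10689622198) (nat_lit 1672) (nat_lit 1288306730) (nat_lit 1748) (nat_lit 170817261) (nat_lit 520) (nat_lit 5) (nat_lit 542) (nat_lit 5) (nat_lit 543) (nat_lit 5) (nat_lit 575) (nat_lit 573) (nat_lit 412)) (XT.lf (nat_lit 76) (nat_lit 4850912682) (nat_lit 0) (nat_lit 6519117461) (nat_lit 1748) (nat_lit 891151209) (nat_lit 521) (nat_lit 5) (nat_lit 520) (nat_lit 5) (nat_lit 543) (nat_lit 5) (nat_lit 576) (nat_lit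 573) (nat_lit 411)))) (XT.nd (nat_lit 156) (nat_lit 0) (nat_lit 0) (XT.nd (nat_lit 78) (nat_lit 1672) (nat_lit 0) (XT.lf (nat_lit 76) (nat_lit 11123766593) (nat_lit 0) (nat_lit 936795714) (nat_lit 1748) (nat_lit 315373369) (nat_lit 521) (nat_lit 5) (nat_lit 520) (nat_lit 5) (nat_lit 543) (nat_lit 5) (nat_lit 577) (nat_lit 573) (nat_lit 410)) (XT.lf (nat_lit 0) (nat_lit 320565472) (nat_lit 1748) (nat_lit 7436275211) (nat_lit 1824) (nat_lit 4735065607) (nat_lit 498) (nat_lit 5) (nat_lit 521) (nat_lit 5) (nat_lit 522) (nat_lit 5) (nat_lit 578) (nat_lit 573) (nat_lit 409))) (XT.nd (nat_lit 78) (nat_lit 0) (nat_lit 76) (XT.lf (nat_lit 0) (nat_lit 967921160) (nat_lit 1748) (nat_lit 1118685314) (nat_lit 1824) (nat_lit 10523490463) (nat_lit 498) (nat_lit 5) (nat_lit 521) (nat_lit 5) (nat_lit 522) (nat_lit 5) (nat_lit 579) (nat_lit 573) (nat_lit 408)) (XT.lf (nat_lit 0) (nat_lit 1675965547) (nat_lit 1748) (nat_lit 7365247153) (nat_lit 1824) (nat_lit 3688484585) (nat_lit 499) (nat_lit 5) (nat_lit 522) (nat_lit 5) (nat_lit 523) (nat_lit 5) (nat_lit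 580) (nat_lit 573) (nat_lit 407)))))) (XT.nd (nat_lit 3042) (nat_lit 3344) (nat_lit 0) (XT.nd (nat_lit 2730) (nat_lit 1520) (nat_lit 0) (XT.nd (nat_lit 78) (nat_lit 10944) (nat_lit 0) (XT.lf (nat_lit 0) (nat_lit 2408243541) (nat_lit 1748) (nat_lit 879943552) (nat_lit 1824) (nat_lit 9563301798) (nat_lit 499) (nat_lit 5) (nat_lit 522) (nat_lit 5) (nat_lit 523) (nat_lit 5) (nat_lit 581) (nat_lit 573) (nat_lit 406)) (XT.nd (nat_lit 2574) (nat_lit 11020) (nat_lit 0) (XT.lf (nat_lit 0) (nat_lit 3198799755) (nat_lit 1748) (nat_lit 7187832899) (nat_lit 1824) (nat_lit 2588211710) (nat_lit 500) (nat_lit 5) (nat_lit 523) (nat_lit 5) (nat_lit 524) (nat_lit 5) (nat_lit 582) (nat_lit 573) (nat_lit 405)) (XT.lf (nat_lit 0) (nat_lit 5895224479) (nat_lit 760) (nat_lit 3926866421) (nat_lit 836) (nat_lit 8436613240) (nat_lit 355) (nat_lit 5) (nat_lit 365) (nat_lit 5) (nat_lit 366) (nat_lit 5) (nat_lit 615) (nat_lit 573) (nat_lit 372)))) (XT.nd (nat_lit 156) (nat_lit 836) (nat_lit 0) (XT.nd (nat_lit 78) (nat_lit 684) (nat_lit 0) (XT.lf (nat_lit 0) (nat_lit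 12536764721) (nat_lit 836) (nat_lit 2056911575) (nat_lit 76) (nat_lit 3867880388) (nat_lit 355) (nat_lit 5) (nat_lit 366) (nat_lit 5) (nat_lit 356) (nat_lit 5) (nat_lit 616) (nat_lit 573) (nat_lit 371)) (XT.lf (nat_lit 0) (nat_lit 8534871347) (nat_lit 684) (nat_lit 6846084791) (nat_lit 760) (nat_lit 3286005985) (nat_lit 346) (nat_lit 5) (nat_lit 355) (nat_lit 5) (nat_lit 356) (nat_lit 5) (nat_lit 617) (nat_lit 573) (nat_lit 370))) (XT.nd (nat_lit 78) (nat_lit 76) (nat_lit 0) (XT.lf (nat_lit 0) (nat_lit 482631087) (nat_lit 760) (nat_lit 17817164673) (nat_lit 836) (nat_lit 576324942) (nat_lit 336) (nat_lit 5) (nat_lit 346) (nat_lit 5) (nat_lit 347) (nat_lit 5) (nat_lit 618) (nat_lit 573) (nat_lit 369)) (XT.lf (nat_lit 0) (nat_lit 2266552138) (nat_lit 836) (nat_lit 7708059723) (nat_lit 76) (nat_lit 9112412987) (nat_lit 335) (nat_lit 5) (nat_lit 346) (nat_lit 5) (nat_lit 336) (nat_lit 5) (nat_lit 619) (nat_lit 573) (nat_lit 368))))) (XT.nd (nat_lit 312) (nat_lit 1976) (nat_lit 0) (XT.nd (nat_lit 156) (nat_lit 684) (nat_lit 0) (XT.nd (nat_lit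 78) (nat_lit 0) (nat_lit 0) (XT.lf (nat_lit 0) (nat_lit 3222708804) (nat_lit 684) (nat_lit 1950823787) (nat_lit 760) (nat_lit 14128239340) (nat_lit 326) (nat_lit 5) (nat_lit 335) (nat_lit 5) (nat_lit 336) (nat_lit 5) (nat_lit 620) (nat_lit 573) (nat_lit 367)) (XT.lf (nat_lit 0) (nat_lit 8225290943) (nat_lit 760) (nat_lit 5090903423) (nat_lit 76) (nat_lit 6202887118) (nat_lit 326) (nat_lit 5) (nat_lit 336) (nat_lit 5) (nat_lit 327) (nat_lit 5) (nat_lit 621) (nat_lit 573) (nat_lit 366))) (XT.nd (nat_lit 78) (nat_lit 0) (nat_lit 0) (XT.lf (nat_lit 0) (nat_lit 6178378428) (nat_lit 684) (nat_lit 5206954209) (nat_lit 760) (nat_lit 8354459918) (nat_lit 317) (nat_lit 5) (nat_lit 326) (nat_lit 5) (nat_lit 327) (nat_lit 5) (nat_lit 622) (nat_lit 573) (nat_lit 365)) (XT.lf (nat_lit 0) (nat_lit 14657138750) (nat_lit 760) (nat_lit 2249118914) (nat_lit 76) (nat_lit 3057689193) (nat_lit 317) (nat_lit 5) (nat_lit 327) (nat_lit 5) (nat_lit 318) (nat_lit 5) (nat_lit 623) (nat_lit 573) (nat_lit 364)))) (XT.nd (nat_lit 156) (nat_lit 608) (nat_lit 0) (XT.nd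 (nat_lit 78) (nat_lit 760) (nat_lit 0) (XT.lf (nat_lit 0) (nat_lit 9371161219) (nat_lit 608) (nat_lit 8712937019) (nat_lit 684) (nat_lit 2106691942) (nat_lit 309) (nat_lit 5) (nat_lit 317) (nat_lit 5) (nat_lit 318) (nat_lit 5) (nat_lit 624) (nat_lit 573) (nat_lit 363)) (XT.lf (nat_lit 0) (nat_lit 829010971) (nat_lit 684) (nat_lit 328231165) (nat_lit 760) (nat_lit 19264478294) (nat_lit 299) (nat_lit 5) (nat_lit 308) (nat_lit 5) (nat_lit 309) (nat_lit 5) (nat_lit 625) (nat_lit 573) (nat_lit 362))) (XT.nd (nat_lit 78) (nat_lit 608) (nat_lit 0) (XT.lf (nat_lit 0) (nat_lit 4579234502) (nat_lit 760) (nat_lit 7873131387) (nat_lit 76) (nat_lit 8202205390) (nat_lit 299) (nat_lit 5) (nat_lit 309) (nat_lit 5) (nat_lit 300) (nat_lit 5) (nat_lit 626) (nat_lit 573) (nat_lit 361)) (XT.lf (nat_lit 0) (nat_lit 4126140748) (nat_lit 608) (nat_lit 3967076429) (nat_lit 684) (nat_lit 12798391214) (nat_lit 291) (nat_lit 5) (nat_lit 299) (nat_lit 5) (nat_lit 300) (nat_lit 5) (nat_lit 627) (nat_lit 573) (nat_lit 360))))))) (XT.nd (nat_lit 1170) (nat_lit 2356) (nat_lit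 0) (XT.nd (nat_lit 546) (nat_lit 2736) (nat_lit 0) (XT.nd (nat_lit 234) (nat_lit 1824) (nat_lit 0) (XT.nd (nat_lit 78) (nat_lit 608) (nat_lit 0) (XT.lf (nat_lit 0) (nat_lit 11755741660) (nat_lit 684) (nat_lit 4697690200) (nat_lit 76) (nat_lit 4678389396) (nat_lit 291) (nat_lit 5) (nat_lit 300) (nat_lit 5) (nat_lit 292) (nat_lit 5) (nat_lit 628) (nat_lit 573) (nat_lit 359)) (XT.nd (nat_lit 78) (nat_lit 0) (nat_lit 0) (XT.lf (nat_lit 0) (nat_lit 7679323393) (nat_lit 608) (nat_lit 7883071913) (nat_lit 684) (nat_lit 5813025744) (nat_lit 283) (nat_lit 5) (nat_lit 291) (nat_lit 5) (nat_lit 292) (nat_lit 5) (nat_lit 629) (nat_lit 573) (nat_lit 358)) (XT.lf (nat_lit 0) (nat_lit 19477289409) (nat_lit 684) (nat_lit 1268106022) (nat_lit 76) (nat_lit 877855503) (nat_lit 283) (nat_lit 5) (nat_lit 292) (nat_lit 5) (nat_lit 284) (nat_lit 5) (nat_lit 630) (nat_lit 573) (nat_lit 357)))) (XT.nd (nat_lit 156) (nat_lit 532) (nat_lit 0) (XT.nd (nat_lit 78) (nat_lit 608) (nat_lit 0) (XT.lf (nat_lit 0) (nat_lit 1696115395) (nat_lit 684) (nat_lit 10384174492) (nat_lit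 76) (nat_lit 9793089061) (nat_lit 274) (nat_lit 5) (nat_lit 283) (nat_lit 5) (nat_lit 275) (nat_lit 5) (nat_lit 631) (nat_lit 573) (nat_lit 356)) (XT.lf (nat_lit 0) (nat_lit 2401225168) (nat_lit 608) (nat_lit 3204183409) (nat_lit 684) (nat_lit 16522435294) (nat_lit 266) (nat_lit 5) (nat_lit 274) (nat_lit 5) (nat_lit 275) (nat_lit 5) (nat_lit 632) (nat_lit 573) (nat_lit 355))) (XT.nd (nat_lit 78) (nat_lit 532) (nat_lit 0) (XT.lf (nat_lit 0) (nat_lit 9695984858) (nat_lit 684) (nat_lit 6847910280) (nat_lit 76) (nat_lit 5841441233) (nat_lit 266) (nat_lit 5) (nat_lit 275) (nat_lit 5) (nat_lit 267) (nat_lit 5) (nat_lit 633) (nat_lit 573) (nat_lit 354)) (XT.lf (nat_lit 0) (nat_lit 6343923927) (nat_lit 532) (nat_lit 7581930008) (nat_lit 608) (nat_lit 8720975379) (nat_lit 259) (nat_lit 5) (nat_lit 266) (nat_lit 5) (nat_lit 267) (nat_lit 5) (nat_lit 634) (nat_lit 573) (nat_lit 353))))) (XT.nd (nat_lit 312) (nat_lit 1596) (nat_lit 0) (XT.nd (nat_lit 156) (nat_lit 608) (nat_lit 0) (XT.nd (nat_lit 78) (nat_lit 532) (nat_lit 0) (XT.lf (nat_lit 0) (nat_lit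 18291819496) (nat_lit 608) (nat_lit 3037117024) (nat_lit 76) (nat_lit 1583585829) (nat_lit 259) (nat_lit 5) (nat_lit 267) (nat_lit 5) (nat_lit 260) (nat_lit 5) (nat_lit 635) (nat_lit 573) (nat_lit 352)) (XT.lf (nat_lit 0) (nat_lit 10576134691) (nat_lit 532) (nat_lit 12283061996) (nat_lit 608) (nat_lit 322050923) (nat_lit 252) (nat_lit 5) (nat_lit 259) (nat_lit 5) (nat_lit 260) (nat_lit 5) (nat_lit 636) (nat_lit 573) (nat_lit 351))) (XT.nd (nat_lit 78) (nat_lit 0) (nat_lit 0) (XT.lf (nat_lit 0) (nat_lit 1028486866) (nat_lit 532) (nat_lit 3003233963) (nat_lit 608) (nat_lit 19422650645) (nat_lit 244) (nat_lit 5) (nat_lit 251) (nat_lit 5) (nat_lit 252) (nat_lit 5) (nat_lit 637) (nat_lit 573) (nat_lit 350)) (XT.lf (nat_lit 0) (nat_lit 8590640517) (nat_lit 608) (nat_lit 8676704277) (nat_lit 76) (nat_lit 6463122952) (nat_lit 244) (nat_lit 5) (nat_lit 252) (nat_lit 5) (nat_lit 245) (nat_lit 5) (nat_lit 638) (nat_lit 573) (nat_lit 349)))) (XT.nd (nat_lit 156) (nat_lit 1064) (nat_lit 0) (XT.nd (nat_lit 78) (nat_lit 0) (nat_lit 0) (XT.lf (nat_lit 0)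 (nat_lit 5392000819) (nat_lit 532) (nat_lit 7899004583) (nat_lit 608) (nat_lit 10720075398) (nat_lit 237) (nat_lit 5) (nat_lit 244) (nat_lit 5) (nat_lit 245) (nat_lit 5) (nat_lit 639) (nat_lit 573) (nat_lit 348)) (XT.lf (nat_lit 0) (nat_lit 18150153673) (nat_lit 608) (nat_lit 4453915154) (nat_lit 76) (nat_lit 1691941958) (nat_lit 237) (nat_lit 5) (nat_lit 245) (nat_lit 5) (nat_lit 238) (nat_lit 5) (nat_lit 640) (nat_lit 573) (nat_lit 347))) (XT.nd (nat_lit 78) (nat_lit 608) (nat_lit 0) (XT.lf (nat_lit 0) (nat_lit 10068083901) (nat_lit 456) (nat_lit 13151579824) (nat_lit 532) (nat_lit 1364712254) (nat_lit 231) (nat_lit 5) (nat_lit 237) (nat_lit 5) (nat_lit 238) (nat_lit 5) (nat_lit 641) (nat_lit 573) (nat_lit 346)) (XT.lf (nat_lit 0) (nat_lit 34212938) (nat_lit 532) (nat_lit 3457606936) (nat_lit 608) (nat_lit 21385716220) (nat_lit 223) (nat_lit 5) (nat_lit 230) (nat_lit 5) (nat_lit 231) (nat_lit 5) (nat_lit 642) (nat_lit 573) (nat_lit 345)))))) (XT.nd (nat_lit 546) (nat_lit 456) (nat_lit 0) (XT.nd (nat_lit 234) (nat_lit 1444) (nat_lit 0)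 (XT.nd (nat_lit 78) (nat_lit 456) (nat_lit 0) (XT.lf (nat_lit 0) (nat_lit 8562586585) (nat_lit 608) (nat_lit 10159801378) (nat_lit 76) (nat_lit 6451283660) (nat_lit 223) (nat_lit 5) (nat_lit 231) (nat_lit 5) (nat_lit 224) (nat_lit 5) (nat_lit 643) (nat_lit 573) (nat_lit 344)) (XT.nd (nat_lit 78) (nat_lit 0) (nat_lit 0) (XT.lf (nat_lit 0) (nat_lit 4851992169) (nat_lit 456) (nat_lit 8932817911) (nat_lit 532) (nat_lit 11689919126) (nat_lit 217) (nat_lit 5) (nat_lit 223) (nat_lit 5) (nat_lit 224) (nat_lit 5) (nat_lit 644) (nat_lit 573) (nat_lit 343)) (XT.lf (nat_lit 0) (nat_lit 19182616350) (nat_lit 532) (nat_lit 5492159189) (nat_lit 76) (nat_lit 1105609806) (nat_lit 217) (nat_lit 5) (nat_lit 224) (nat_lit 5) (nat_lit 218) (nat_lit 5) (nat_lit 645) (nat_lit 573) (nat_lit 342)))) (XT.nd (nat_lit 156) (nat_lit 912) (nat_lit 0) (XT.nd (nat_lit 78) (nat_lit 76) (nat_lit 0) (XT.lf (nat_lit 0) (nat_lit 10007068103) (nat_lit 456) (nat_lit 14801201064) (nat_lit 532) (nat_lit 1281487796) (nat_lit 211) (nat_lit 5) (nat_lit 217) (nat_lit 5) (nat_lit 218)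 (nat_lit 5) (nat_lit 646) (nat_lit 573) (nat_lit 341)) (XT.lf (nat_lit 0) (nat_lit 4119683197) (nat_lit 532) (nat_lit 547047639) (nat_lit 76) (nat_lit 21737390086) (nat_lit 210) (nat_lit 5) (nat_lit 217) (nat_lit 5) (nat_lit 211) (nat_lit 5) (nat_lit 647) (nat_lit 573) (nat_lit 340))) (XT.nd (nat_lit 78) (nat_lit 456) (nat_lit 0) (XT.lf (nat_lit 0) (nat_lit 9745678675) (nat_lit 532) (nat_lit 11272199634) (nat_lit 76) (nat_lit 5704045391) (nat_lit 204) (nat_lit 5) (nat_lit 211) (nat_lit 5) (nat_lit 205) (nat_lit 5) (nat_lit 648) (nat_lit 573) (nat_lit 339)) (XT.lf (nat_lit 0) (nat_lit 4753269958) (nat_lit 456) (nat_lit 10792276523) (nat_lit 532) (nat_lit 11499309156) (nat_lit 198) (nat_lit 5) (nat_lit 204) (nat_lit 5) (nat_lit 205) (nat_lit 5) (nat_lit 649) (nat_lit 573) (nat_lit 338))))) (XT.nd (nat_lit 75348) (nat_lit 0) (nat_lit 23180) (XT.nd (nat_lit 156) (nat_lit 0) (nat_lit 0) (XT.nd (nat_lit 78) (nat_lit 456) (nat_lit 0) (XT.lf (nat_lit 0) (nat_lit 21246108217) (nat_lit 456) (nat_lit 286878094) (nat_lit 532) (nat_lit 5839828561) (nat_lit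 198) (nat_lit 5) (nat_lit 204) (nat_lit 5) (nat_lit 205) (nat_lit 5) (nat_lit 650) (nat_lit 573) (nat_lit 337)) (XT.lf (nat_lit 0) (nat_lit 65985503) (nat_lit 456) (nat_lit 17280548853) (nat_lit 76) (nat_lit 10358162539) (nat_lit 192) (nat_lit 5) (nat_lit 198) (nat_lit 5) (nat_lit 193) (nat_lit 5) (nat_lit 651) (nat_lit 573) (nat_lit 336))) (XT.nd (nat_lit 75114) (nat_lit 0) (nat_lit 24852) (XT.lf (nat_lit 0) (nat_lit 6051093397) (nat_lit 456) (nat_lit 700076105) (nat_lit 76) (nat_lit 21290487716) (nat_lit 192) (nat_lit 5) (nat_lit 198) (nat_lit 5) (nat_lit 193) (nat_lit 5) (nat_lit 652) (nat_lit 573) (nat_lit 335)) (XT.lf (nat_lit 0) (nat_lit 5306422979) (nat_lit 1748) (nat_lit 383753099) (nat_lit 1748) (nat_lit 383753099) (nat_lit 519) (nat_lit 3) (nat_lit 542) (nat_lit 3) (nat_lit 542) (nat_lit 5) (nat_lit 574) (nat_lit 574) (nat_lit 412)))) (XT.nd (nat_lit 156) (nat_lit 1672) (nat_lit 0) (XT.nd (nat_lit 78) (nat_lit 0) (nat_lit 0) (XT.lf (nat_lit 76) (nat_lit 5329148931) (nat_lit 0) (nat_lit 5885107537) (nat_lit 1748) (nat_lit 1045145180)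 (nat_lit 520) (nat_lit 5) (nat_lit 519) (nat_lit 3) (nat_lit 542) (nat_lit 5) (nat_lit 575) (nat_lit 574) (nat_lit 411)) (XT.lf (nat_lit 76) (nat_lit 11551895857) (nat_lit 0) (nat_lit 268825306) (nat_lit 1748) (nat_lit 552594898) (nat_lit 520) (nat_lit 5) (nat_lit 519) (nat_lit 3) (nat_lit 542) (nat_lit 5) (nat_lit 576) (nat_lit 574) (nat_lit 410))) (XT.nd (nat_lit 78) (nat_lit 0) (nat_lit 0) (XT.lf (nat_lit 0) (nat_lit 9767476) (nat_lit 1748) (nat_lit 7049319149) (nat_lit 1824) (nat_lit 5429243348) (nat_lit 497) (nat_lit 5) (nat_lit 520) (nat_lit 5) (nat_lit 521) (nat_lit 5) (nat_lit 577) (nat_lit 574) (nat_lit 409)) (XT.lf (nat_lit 0) (nat_lit 571577622) (nat_lit 1748) (nat_lit 781738379) (nat_lit 1824) (nat_lit 11252343846) (nat_lit 497) (nat_lit 5) (nat_lit 520) (nat_lit 5) (nat_lit 521) (nat_lit 5) (nat_lit 578) (nat_lit 574) (nat_lit 408))))))))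
noncomputable def xc84 : XT := (XT.nd (nat_lit 4836) (nat_lit 3420) (nat_lit 0) (XT.nd (nat_lit 3666) (nat_lit 5472) (nat_lit 0) (XT.nd (nat_lit 3042) (nat_lit 3496) (nat_lit 0) (XT.nd (nat_lit 2730) (nat_lit 10868) (nat_lit 0) (XT.nd (nat_lit 78) (nat_lit 0) (nat_lit 0) (XT.lf (nat_lit 0) (nat_lit 1199269098) (nat_lit 1748) (nat_lit 7074813520) (nat_lit 1824) (nat_lit 4450161518) (nat_lit 498) (nat_lit 5) (nat_lit 521) (nat_lit 5) (nat_lit 522) (nat_lit 5) (nat_lit 579) (nat_lit 574) (nat_lit 407)) (XT.nd (nat_lit 78) (nat_lit 0) (nat_lit 76) (XT.lf (nat_lit 0) (nat_lit 1842468129) (nat_lit 1748) (nat_lit 640875496) (nat_lit 1824) (nat_lit 10361798114) (nat_lit 498) (nat_lit 5) (nat_lit 521) (nat_lit 5) (nat_lit 522) (nat_lit 5) (nat_lit 580) (nat_lit 574) (nat_lit 406)) (XT.lf (nat_lit 0) (nat_lit 2548892791) (nat_lit 1748) (nat_lit 6996535638) (nat_lit 1824) (nat_lit 3422022323) (nat_lit 499) (nat_lit 5) (nat_lit 522) (nat_lit 5) (nat_lit 523) (nat_lit 5) (nat_lit 581) (nat_lit 574) (nat_lit 405)))) (XT.nd (nat_lit 156) (nat_lit 760)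 (nat_lit 0) (XT.nd (nat_lit 78) (nat_lit 0) (nat_lit 0) (XT.lf (nat_lit 0) (nat_lit 4048421556) (nat_lit 760) (nat_lit 1214460364) (nat_lit 836) (nat_lit 12946834703) (nat_lit 365) (nat_lit 5) (nat_lit 375) (nat_lit 5) (nat_lit 376) (nat_lit 5) (nat_lit 614) (nat_lit 574) (nat_lit 372)) (XT.lf (nat_lit 0) (nat_lit 7827476534) (nat_lit 836) (nat_lit 3956787658) (nat_lit 76) (nat_lit 6626264321) (nat_lit 365) (nat_lit 5) (nat_lit 376) (nat_lit 5) (nat_lit 366) (nat_lit 5) (nat_lit 615) (nat_lit 574) (nat_lit 371))) (XT.nd (nat_lit 78) (nat_lit 0) (nat_lit 0) (XT.lf (nat_lit 0) (nat_lit 6522674929) (nat_lit 760) (nat_lit 3964931902) (nat_lit 836) (nat_lit 8126865257) (nat_lit 355) (nat_lit 5) (nat_lit 365) (nat_lit 5) (nat_lit 366) (nat_lit 5) (nat_lit 616) (nat_lit 574) (nat_lit 370)) (XT.lf (nat_lit 0) (nat_lit 13247634215) (nat_lit 836) (nat_lit 1589530861) (nat_lit 76) (nat_lit 3984395890) (nat_lit 355) (nat_lit 5) (nat_lit 366) (nat_lit 5) (nat_lit 356) (nat_lit 5) (nat_lit 617) (nat_lit 574) (nat_lit 369))))) (XT.nd (nat_lit 312) (nat_lit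 1292) (nat_lit 0) (XT.nd (nat_lit 156) (nat_lit 760) (nat_lit 0) (XT.nd (nat_lit 78) (nat_lit 760) (nat_lit 0) (XT.lf (nat_lit 0) (nat_lit 9210742200) (nat_lit 684) (nat_lit 6932224941) (nat_lit 760) (nat_lit 2888222691) (nat_lit 346) (nat_lit 5) (nat_lit 355) (nat_lit 5) (nat_lit 356) (nat_lit 5) (nat_lit 618) (nat_lit 574) (nat_lit 368)) (XT.lf (nat_lit 0) (nat_lit 1002857676) (nat_lit 760) (nat_lit 18112054463) (nat_lit 836) (nat_lit 129725337) (nat_lit 336) (nat_lit 5) (nat_lit 346) (nat_lit 5) (nat_lit 347) (nat_lit 5) (nat_lit 619) (nat_lit 574) (nat_lit 367))) (XT.nd (nat_lit 78) (nat_lit 684) (nat_lit 0) (XT.lf (nat_lit 0) (nat_lit 2755135825) (nat_lit 836) (nat_lit 7355745281) (nat_lit 76) (nat_lit 9348996857) (nat_lit 335) (nat_lit 5) (nat_lit 346) (nat_lit 5) (nat_lit 336) (nat_lit 5) (nat_lit 620) (nat_lit 574) (nat_lit 366)) (XT.lf (nat_lit 0) (nat_lit 3790306539) (nat_lit 684) (nat_lit 1924524861) (nat_lit 760) (nat_lit 13964197515) (nat_lit 326) (nat_lit 5) (nat_lit 335) (nat_lit 5) (nat_lit 336) (nat_lit 5) (nat_lit 621)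 (nat_lit 574) (nat_lit 365)))) (XT.nd (nat_lit 156) (nat_lit 608) (nat_lit 0) (XT.nd (nat_lit 78) (nat_lit 684) (nat_lit 0) (XT.lf (nat_lit 0) (nat_lit 8819455810) (nat_lit 760) (nat_lit 4691252921) (nat_lit 76) (nat_lit 6390139741) (nat_lit 326) (nat_lit 5) (nat_lit 336) (nat_lit 5) (nat_lit 327) (nat_lit 5) (nat_lit 622) (nat_lit 574) (nat_lit 364)) (XT.lf (nat_lit 0) (nat_lit 6800115432) (nat_lit 684) (nat_lit 5237392665) (nat_lit 760) (nat_lit 8088569892) (nat_lit 317) (nat_lit 5) (nat_lit 326) (nat_lit 5) (nat_lit 327) (nat_lit 5) (nat_lit 623) (nat_lit 574) (nat_lit 363))) (XT.nd (nat_lit 78) (nat_lit 608) (nat_lit 0) (XT.lf (nat_lit 0) (nat_lit 15366896546) (nat_lit 760) (nat_lit 1797825470) (nat_lit 76) (nat_lit 3190150851) (nat_lit 317) (nat_lit 5) (nat_lit 327) (nat_lit 5) (nat_lit 318) (nat_lit 5) (nat_lit 624) (nat_lit 574) (nat_lit 362)) (XT.lf (nat_lit 0) (nat_lit 10051595293) (nat_lit 608) (nat_lit 8805831961) (nat_lit 684) (nat_lit 1728925565) (nat_lit 309) (nat_lit 5) (nat_lit 317) (nat_lit 5) (nat_lit 318) (nat_lit 5) (nat_lit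 625) (nat_lit 574) (nat_lit 361)))))) (XT.nd (nat_lit 546) (nat_lit 2812) (nat_lit 0) (XT.nd (nat_lit 234) (nat_lit 1292) (nat_lit 0) (XT.nd (nat_lit 78) (nat_lit 608) (nat_lit 0) (XT.lf (nat_lit 0) (nat_lit 1340849081) (nat_lit 684) (nat_lit 249021235) (nat_lit 760) (nat_lit 19232075419) (nat_lit 299) (nat_lit 5) (nat_lit 308) (nat_lit 5) (nat_lit 309) (nat_lit 5) (nat_lit 626) (nat_lit 574) (nat_lit 360)) (XT.nd (nat_lit 78) (nat_lit 608) (nat_lit 0) (XT.lf (nat_lit 0) (nat_lit 5072819429) (nat_lit 760) (nat_lit 7537544907) (nat_lit 76) (nat_lit 8449239307) (nat_lit 299) (nat_lit 5) (nat_lit 309) (nat_lit 5) (nat_lit 300) (nat_lit 5) (nat_lit 627) (nat_lit 574) (nat_lit 359)) (XT.lf (nat_lit 0) (nat_lit 4698468927) (nat_lit 608) (nat_lit 3953910615) (nat_lit 684) (nat_lit 12649096374) (nat_lit 291) (nat_lit 5) (nat_lit 299) (nat_lit 5) (nat_lit 300) (nat_lit 5) (nat_lit 628) (nat_lit 574) (nat_lit 358)))) (XT.nd (nat_lit 156) (nat_lit 684) (nat_lit 0) (XT.nd (nat_lit 78) (nat_lit 608) (nat_lit 0) (XT.lf (nat_lit 0) (nat_lit 12380953198)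 (nat_lit 684) (nat_lit 4304223035) (nat_lit 76) (nat_lit 4861461196) (nat_lit 291) (nat_lit 5) (nat_lit 300) (nat_lit 5) (nat_lit 292) (nat_lit 5) (nat_lit 629) (nat_lit 574) (nat_lit 357)) (XT.lf (nat_lit 0) (nat_lit 8317124113) (nat_lit 608) (nat_lit 7942110689) (nat_lit 684) (nat_lit 5535964879) (nat_lit 283) (nat_lit 5) (nat_lit 291) (nat_lit 5) (nat_lit 292) (nat_lit 5) (nat_lit 630) (nat_lit 574) (nat_lit 356))) (XT.nd (nat_lit 78) (nat_lit 684) (nat_lit 0) (XT.lf (nat_lit 0) (nat_lit 20245493937) (nat_lit 684) (nat_lit 811797830) (nat_lit 76) (nat_lit 990833405) (nat_lit 283) (nat_lit 5) (nat_lit 292) (nat_lit 5) (nat_lit 284) (nat_lit 5) (nat_lit 631) (nat_lit 574) (nat_lit 355)) (XT.lf (nat_lit 0) (nat_lit 2106874623) (nat_lit 684) (nat_lit 10108331667) (nat_lit 76) (nat_lit 10088086577) (nat_lit 274) (nat_lit 5) (nat_lit 283) (nat_lit 5) (nat_lit 275) (nat_lit 5) (nat_lit 632) (nat_lit 574) (nat_lit 354))))) (XT.nd (nat_lit 312) (nat_lit 1672) (nat_lit 0) (XT.nd (nat_lit 156) (nat_lit 532) (nat_lit 0) (XT.nd (nat_lit 78) (nat_lit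 0) (nat_lit 0) (XT.lf (nat_lit 0) (nat_lit 2929594892) (nat_lit 608) (nat_lit 3160488536) (nat_lit 684) (nat_lit 16472849396) (nat_lit 266) (nat_lit 5) (nat_lit 274) (nat_lit 5) (nat_lit 275) (nat_lit 5) (nat_lit 633) (nat_lit 574) (nat_lit 353)) (XT.lf (nat_lit 0) (nat_lit 10255852055) (nat_lit 684) (nat_lit 6507306353) (nat_lit 76) (nat_lit 6062549475) (nat_lit 266) (nat_lit 5) (nat_lit 275) (nat_lit 5) (nat_lit 267) (nat_lit 5) (nat_lit 634) (nat_lit 574) (nat_lit 352))) (XT.nd (nat_lit 78) (nat_lit 0) (nat_lit 0) (XT.lf (nat_lit 0) (nat_lit 6945222682) (nat_lit 532) (nat_lit 7621000641) (nat_lit 608) (nat_lit 8526289585) (nat_lit 259) (nat_lit 5) (nat_lit 266) (nat_lit 5) (nat_lit 267) (nat_lit 5) (nat_lit 635) (nat_lit 574) (nat_lit 351)) (XT.lf (nat_lit 0) (nat_lit 19013129588) (nat_lit 608) (nat_lit 2626347205) (nat_lit 76) (nat_lit 1724170896) (nat_lit 259) (nat_lit 5) (nat_lit 267) (nat_lit 5) (nat_lit 260) (nat_lit 5) (nat_lit 636) (nat_lit 574) (nat_lit 350)))) (XT.nd (nat_lit 156) (nat_lit 532) (nat_lit 0) (XT.nd (nat_lit 78)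 (nat_lit 532) (nat_lit 0) (XT.lf (nat_lit 0) (nat_lit 29704385) (nat_lit 608) (nat_lit 12381954271) (nat_lit 76) (nat_lit 11226163773) (nat_lit 251) (nat_lit 5) (nat_lit 259) (nat_lit 5) (nat_lit 252) (nat_lit 5) (nat_lit 637) (nat_lit 574) (nat_lit 349)) (XT.lf (nat_lit 0) (nat_lit 1519072037) (nat_lit 532) (nat_lit 2943283974) (nat_lit 608) (nat_lit 19454088145) (nat_lit 244) (nat_lit 5) (nat_lit 251) (nat_lit 5) (nat_lit 252) (nat_lit 5) (nat_lit 638) (nat_lit 574) (nat_lit 348))) (XT.nd (nat_lit 78) (nat_lit 532) (nat_lit 0) (XT.lf (nat_lit 0) (nat_lit 9106355269) (nat_lit 608) (nat_lit 8383325651) (nat_lit 76) (nat_lit 6708503699) (nat_lit 244) (nat_lit 5) (nat_lit 252) (nat_lit 5) (nat_lit 245) (nat_lit 5) (nat_lit 639) (nat_lit 574) (nat_lit 347)) (XT.lf (nat_lit 0) (nat_lit 5963681753) (nat_lit 532) (nat_lit 7933314086) (nat_lit 608) (nat_lit 10587489011) (nat_lit 237) (nat_lit 5) (nat_lit 244) (nat_lit 5) (nat_lit 245) (nat_lit 5) (nat_lit 640) (nat_lit 574) (nat_lit 346))))))) (XT.nd (nat_lit 76206) (nat_lit 0) (nat_lit 10184)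 (XT.nd (nat_lit 546) (nat_lit 1444) (nat_lit 0) (XT.nd (nat_lit 234) (nat_lit 912) (nat_lit 0) (XT.nd (nat_lit 78) (nat_lit 1064) (nat_lit 0) (XT.lf (nat_lit 0) (nat_lit 18847444276) (nat_lit 608) (nat_lit 4082350778) (nat_lit 76) (nat_lit 1845436313) (nat_lit 237) (nat_lit 5) (nat_lit 245) (nat_lit 5) (nat_lit 238) (nat_lit 5) (nat_lit 641) (nat_lit 574) (nat_lit 345)) (XT.nd (nat_lit 78) (nat_lit 608) (nat_lit 0) (XT.lf (nat_lit 0) (nat_lit 10727057714) (nat_lit 456) (nat_lit 13287703280) (nat_lit 532) (nat_lit 1054674815) (nat_lit 231) (nat_lit 5) (nat_lit 237) (nat_lit 5) (nat_lit 238) (nat_lit 5) (nat_lit 642) (nat_lit 574) (nat_lit 344)) (XT.lf (nat_lit 0) (nat_lit 493907040) (nat_lit 532) (nat_lit 3397109348) (nat_lit 608) (nat_lit 21477470144) (nat_lit 223) (nat_lit 5) (nat_lit 230) (nat_lit 5) (nat_lit 231) (nat_lit 5) (nat_lit 643) (nat_lit 574) (nat_lit 343)))) (XT.nd (nat_lit 156) (nat_lit 456) (nat_lit 0) (XT.nd (nat_lit 78) (nat_lit 456) (nat_lit 0) (XT.lf (nat_lit 0) (nat_lit 9057565658) (nat_lit 608) (nat_lit 9907342156)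 (nat_lit 76) (nat_lit 6705749870) (nat_lit 223) (nat_lit 5) (nat_lit 231) (nat_lit 5) (nat_lit 224) (nat_lit 5) (nat_lit 644) (nat_lit 574) (nat_lit 342)) (XT.lf (nat_lit 0) (nat_lit 5401689531) (nat_lit 456) (nat_lit 8979135451) (nat_lit 532) (nat_lit 11596979862) (nat_lit 217) (nat_lit 5) (nat_lit 223) (nat_lit 5) (nat_lit 224) (nat_lit 5) (nat_lit 645) (nat_lit 574) (nat_lit 341))) (XT.nd (nat_lit 78) (nat_lit 456) (nat_lit 0) (XT.lf (nat_lit 0) (nat_lit 19881149001) (nat_lit 532) (nat_lit 5152769791) (nat_lit 76) (nat_lit 1255764327) (nat_lit 217) (nat_lit 5) (nat_lit 224) (nat_lit 5) (nat_lit 218) (nat_lit 5) (nat_lit 646) (nat_lit 574) (nat_lit 340)) (XT.lf (nat_lit 0) (nat_lit 10653486570) (nat_lit 456) (nat_lit 14962551707) (nat_lit 532) (nat_lit 989269666) (nat_lit 211) (nat_lit 5) (nat_lit 217) (nat_lit 5) (nat_lit 218) (nat_lit 5) (nat_lit 647) (nat_lit 574) (nat_lit 339))))) (XT.nd (nat_lit 312) (nat_lit 456) (nat_lit 0) (XT.nd (nat_lit 156) (nat_lit 456) (nat_lit 0) (XT.nd (nat_lit 78) (nat_lit 456) (nat_lit 0) (XT.lf (nat_lit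 0) (nat_lit 4509605541) (nat_lit 532) (nat_lit 116363508) (nat_lit 76) (nat_lit 22300072101) (nat_lit 210) (nat_lit 5) (nat_lit 217) (nat_lit 5) (nat_lit 211) (nat_lit 5) (nat_lit 648) (nat_lit 574) (nat_lit 338)) (XT.lf (nat_lit 0) (nat_lit 10245811850) (nat_lit 532) (nat_lit 11053698075) (nat_lit 76) (nat_lit 5950736469) (nat_lit 204) (nat_lit 5) (nat_lit 211) (nat_lit 5) (nat_lit 205) (nat_lit 5) (nat_lit 649) (nat_lit 574) (nat_lit 337))) (XT.nd (nat_lit 78) (nat_lit 0) (nat_lit 0) (XT.lf (nat_lit 0) (nat_lit 5289360215) (nat_lit 456) (nat_lit 10869195526) (nat_lit 532) (nat_lit 11421143879) (nat_lit 198) (nat_lit 5) (nat_lit 204) (nat_lit 5) (nat_lit 205) (nat_lit 5) (nat_lit 650) (nat_lit 574) (nat_lit 336)) (XT.lf (nat_lit 0) (nat_lit 22103407692) (nat_lit 456) (nat_lit 156413178) (nat_lit 532) (nat_lit 5654515858) (nat_lit 198) (nat_lit 5) (nat_lit 204) (nat_lit 5) (nat_lit 205) (nat_lit 5) (nat_lit 651) (nat_lit 574) (nat_lit 335)))) (XT.nd (nat_lit 75192) (nat_lit 0) (nat_lit 24852) (XT.nd (nat_lit 78) (nat_lit 0) (nat_lit 0) (XT.lf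 (nat_lit 0) (nat_lit 363319038) (nat_lit 456) (nat_lit 17187665817) (nat_lit 76) (nat_lit 10701875181) (nat_lit 192) (nat_lit 5) (nat_lit 198) (nat_lit 5) (nat_lit 193) (nat_lit 5) (nat_lit 652) (nat_lit 574) (nat_lit 334)) (XT.lf (nat_lit 0) (nat_lit 6462324897) (nat_lit 456) (nat_lit 284181535) (nat_lit 76) (nat_lit 21850169423) (nat_lit 192) (nat_lit 5) (nat_lit 198) (nat_lit 5) (nat_lit 193) (nat_lit 5) (nat_lit 653) (nat_lit 574) (nat_lit 333))) (XT.nd (nat_lit 78) (nat_lit 0) (nat_lit 0) (XT.lf (nat_lit 0) (nat_lit 5870242067) (nat_lit 1748) (nat_lit 157991211) (nat_lit 1748) (nat_lit 157991211) (nat_lit 519) (nat_lit 3) (nat_lit 542) (nat_lit 3) (nat_lit 542) (nat_lit 5) (nat_lit 575) (nat_lit 575) (nat_lit 410)) (XT.lf (nat_lit 76) (nat_lit 5899534272) (nat_lit 0) (nat_lit 6439451242) (nat_lit 1748) (nat_lit 147537522) (nat_lit 520) (nat_lit 5) (nat_lit 519) (nat_lit 3) (nat_lit 542) (nat_lit 5) (nat_lit 576) (nat_lit 575) (nat_lit 409)))))) (XT.nd (nat_lit 3042) (nat_lit 2964) (nat_lit 0) (XT.nd (nat_lit 234) (nat_lit 9956) (nat_lit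 0) (XT.nd (nat_lit 78) (nat_lit 0) (nat_lit 76) (XT.lf (nat_lit 0) (nat_lit 332435856) (nat_lit 1748) (nat_lit 367615092) (nat_lit 1824) (nat_lit 11902975297) (nat_lit 496) (nat_lit 5) (nat_lit 519) (nat_lit 3) (nat_lit 520) (nat_lit 5) (nat_lit 577) (nat_lit 575) (nat_lit 408)) (XT.nd (nat_lit 78) (nat_lit 0) (nat_lit 0) (XT.lf (nat_lit 0) (nat_lit 881570235) (nat_lit 1748) (nat_lit 6706594237) (nat_lit 1824) (nat_lit 5132445519) (nat_lit 497) (nat_lit 5) (nat_lit 520) (nat_lit 5) (nat_lit 521) (nat_lit 5) (nat_lit 578) (nat_lit 575) (nat_lit 407)) (XT.lf (nat_lit 0) (nat_lit 1437526243) (nat_lit 1748) (nat_lit 323146387) (nat_lit 1824) (nat_lit 11079956707) (nat_lit 497) (nat_lit 5) (nat_lit 520) (nat_lit 5) (nat_lit 521) (nat_lit 5) (nat_lit 579) (nat_lit 575) (nat_lit 406)))) (XT.nd (nat_lit 2652) (nat_lit 760) (nat_lit 0) (XT.nd (nat_lit 2574) (nat_lit 9348) (nat_lit 0) (XT.lf (nat_lit 0) (nat_lit 2061674623) (nat_lit 1748) (nat_lit 6725933785) (nat_lit 1824) (nat_lit 4174299887) (nat_lit 498) (nat_lit 5) (nat_lit 521) (nat_lit 5) (nat_lit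 522) (nat_lit 5) (nat_lit 580) (nat_lit 575) (nat_lit 405)) (XT.lf (nat_lit 0) (nat_lit 945499909) (nat_lit 912) (nat_lit 15860791266) (nat_lit 76) (nat_lit 1356783571) (nat_lit 375) (nat_lit 5) (nat_lit 387) (nat_lit 5) (nat_lit 376) (nat_lit 5) (nat_lit 613) (nat_lit 575) (nat_lit 372))) (XT.nd (nat_lit 78) (nat_lit 760) (nat_lit 0) (XT.lf (nat_lit 0) (nat_lit 3353574368) (nat_lit 912) (nat_lit 5747083408) (nat_lit 76) (nat_lit 9261415889) (nat_lit 375) (nat_lit 5) (nat_lit 387) (nat_lit 5) (nat_lit 376) (nat_lit 5) (nat_lit 614) (nat_lit 575) (nat_lit 371)) (XT.lf (nat_lit 0) (nat_lit 4623099459) (nat_lit 760) (nat_lit 1210623288) (nat_lit 836) (nat_lit 12730851892) (nat_lit 365) (nat_lit 5) (nat_lit 375) (nat_lit 5) (nat_lit 376) (nat_lit 5) (nat_lit 615) (nat_lit 575) (nat_lit 370))))) (XT.nd (nat_lit 312) (nat_lit 1520) (nat_lit 0) (XT.nd (nat_lit 156) (nat_lit 684) (nat_lit 0) (XT.nd (nat_lit 78) (nat_lit 760) (nat_lit 0) (XT.lf (nat_lit 0) (nat_lit 8440659205) (nat_lit 836) (nat_lit 3542920300) (nat_lit 76) (nat_lit 6786002746) (nat_lit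 365) (nat_lit 5) (nat_lit 376) (nat_lit 5) (nat_lit 366) (nat_lit 5) (nat_lit 616) (nat_lit 575) (nat_lit 369)) (XT.lf (nat_lit 0) (nat_lit 7142888097) (nat_lit 760) (nat_lit 4005330265) (nat_lit 836) (nat_lit 7829502285) (nat_lit 355) (nat_lit 5) (nat_lit 365) (nat_lit 5) (nat_lit 366) (nat_lit 5) (nat_lit 617) (nat_lit 575) (nat_lit 368))) (XT.nd (nat_lit 78) (nat_lit 684) (nat_lit 0) (XT.lf (nat_lit 0) (nat_lit 13954853527) (nat_lit 836) (nat_lit 1132548942) (nat_lit 76) (nat_lit 4101721152) (nat_lit 355) (nat_lit 5) (nat_lit 366) (nat_lit 5) (nat_lit 356) (nat_lit 5) (nat_lit 618) (nat_lit 575) (nat_lit 367)) (XT.lf (nat_lit 0) (nat_lit 9880513971) (nat_lit 684) (nat_lit 7022059804) (nat_lit 760) (nat_lit 2500482133) (nat_lit 346) (nat_lit 5) (nat_lit 355) (nat_lit 5) (nat_lit 356) (nat_lit 5) (nat_lit 619) (nat_lit 575) (nat_lit 366)))) (XT.nd (nat_lit 156) (nat_lit 684) (nat_lit 0) (XT.nd (nat_lit 78) (nat_lit 0) (nat_lit 0) (XT.lf (nat_lit 0) (nat_lit 303976970) (nat_lit 836) (nat_lit 18109211547) (nat_lit 76) (nat_lit 1207645772)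 (nat_lit 335) (nat_lit 5) (nat_lit 346) (nat_lit 5) (nat_lit 336) (nat_lit 5) (nat_lit 620) (nat_lit 575) (nat_lit 365)) (XT.lf (nat_lit 0) (nat_lit 3236279146) (nat_lit 836) (nat_lit 7016051617) (nat_lit 76) (nat_lit 9588202486) (nat_lit 335) (nat_lit 5) (nat_lit 346) (nat_lit 5) (nat_lit 336) (nat_lit 5) (nat_lit 621) (nat_lit 575) (nat_lit 364))) (XT.nd (nat_lit 78) (nat_lit 0) (nat_lit 0) (XT.lf (nat_lit 0) (nat_lit 4349718552) (nat_lit 684) (nat_lit 1900236234) (nat_lit 760) (nat_lit 13814217133) (nat_lit 326) (nat_lit 5) (nat_lit 335) (nat_lit 5) (nat_lit 336) (nat_lit 5) (nat_lit 622) (nat_lit 575) (nat_lit 363)) (XT.lf (nat_lit 0) (nat_lit 9408819790) (nat_lit 760) (nat_lit 4303082044) (nat_lit 76) (nat_lit 6578683482) (nat_lit 326) (nat_lit 5) (nat_lit 336) (nat_lit 5) (nat_lit 327) (nat_lit 5) (nat_lit 623) (nat_lit 575) (nat_lit 362))))))))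
noncomputable def xc85 : XT := (XT.nd (nat_lit 77454) (nat_lit 0) (nat_lit 5624) (XT.nd (nat_lit 1170) (nat_lit 4484) (nat_lit 0) (XT.nd (nat_lit 546) (nat_lit 3040) (nat_lit 0) (XT.nd (nat_lit 234) (nat_lit 1368) (nat_lit 0) (XT.nd (nat_lit 78) (nat_lit 608) (nat_lit 0) (XT.lf (nat_lit 0) (nat_lit 7414942650) (nat_lit 684) (nat_lit 5271301775) (nat_lit 760) (nat_lit 7834175177) (nat_lit 317) (nat_lit 5) (nat_lit 326) (nat_lit 5) (nat_lit 327) (nat_lit 5) (nat_lit 624) (nat_lit 575) (nat_lit 361)) (XT.nd (nat_lit 78) (nat_lit 608) (nat_lit 0) (XT.lf (nat_lit 0) (nat_lit 16074671828) (nat_lit 760) (nat_lit 1356777152) (nat_lit 76) (nat_lit 3322492770) (nat_lit 317) (nat_lit 5) (nat_lit 327) (nat_lit 5) (nat_lit 318) (nat_lit 5) (nat_lit 625) (nat_lit 575) (nat_lit 360)) (XT.lf (nat_lit 0) (nat_lit 10726493837) (nat_lit 608) (nat_lit 8903744257) (nat_lit 684) (nat_lit 1359909097) (nat_lit 309) (nat_lit 5) (nat_lit 317) (nat_lit 5) (nat_lit 318) (nat_lit 5) (nat_lit 626) (nat_lit 575) (nat_lit 359)))) (XT.nd (nat_lit 156) (nat_lit 608) (nat_lit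 0) (XT.nd (nat_lit 78) (nat_lit 0) (nat_lit 0) (XT.lf (nat_lit 0) (nat_lit 1843692485) (nat_lit 684) (nat_lit 171557836) (nat_lit 760) (nat_lit 19215243993) (nat_lit 299) (nat_lit 5) (nat_lit 308) (nat_lit 5) (nat_lit 309) (nat_lit 5) (nat_lit 627) (nat_lit 575) (nat_lit 358)) (XT.lf (nat_lit 0) (nat_lit 5560665895) (nat_lit 760) (nat_lit 7214392395) (nat_lit 76) (nat_lit 8697991307) (nat_lit 299) (nat_lit 5) (nat_lit 309) (nat_lit 5) (nat_lit 300) (nat_lit 5) (nat_lit 628) (nat_lit 575) (nat_lit 357))) (XT.nd (nat_lit 78) (nat_lit 0) (nat_lit 0) (XT.lf (nat_lit 0) (nat_lit 5263223930) (nat_lit 608) (nat_lit 3944073657) (nat_lit 684) (nat_lit 12512552481) (nat_lit 291) (nat_lit 5) (nat_lit 299) (nat_lit 5) (nat_lit 300) (nat_lit 5) (nat_lit 629) (nat_lit 575) (nat_lit 356)) (XT.lf (nat_lit 0) (nat_lit 13003521037) (nat_lit 684) (nat_lit 3921813677) (nat_lit 76) (nat_lit 5044718883) (nat_lit 291) (nat_lit 5) (nat_lit 300) (nat_lit 5) (nat_lit 292) (nat_lit 5) (nat_lit 630) (nat_lit 575) (nat_lit 355))))) (XT.nd (nat_lit 312) (nat_lit 1140)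 (nat_lit 0) (XT.nd (nat_lit 156) (nat_lit 1292) (nat_lit 0) (XT.nd (nat_lit 78) (nat_lit 0) (nat_lit 0) (XT.lf (nat_lit 0) (nat_lit 8948878218) (nat_lit 608) (nat_lit 8006159880) (nat_lit 684) (nat_lit 5268635945) (nat_lit 283) (nat_lit 5) (nat_lit 291) (nat_lit 5) (nat_lit 292) (nat_lit 5) (nat_lit 631) (nat_lit 575) (nat_lit 354)) (XT.lf (nat_lit 0) (nat_lit 21014358775) (nat_lit 684) (nat_lit 365067320) (nat_lit 76) (nat_lit 1102365559) (nat_lit 283) (nat_lit 5) (nat_lit 292) (nat_lit 5) (nat_lit 284) (nat_lit 5) (nat_lit 632) (nat_lit 575) (nat_lit 353))) (XT.nd (nat_lit 78) (nat_lit 608) (nat_lit 0) (XT.lf (nat_lit 0) (nat_lit 2511215998) (nat_lit 684) (nat_lit 9845747902) (nat_lit 76) (nat_lit 10385134482) (nat_lit 274) (nat_lit 5) (nat_lit 283) (nat_lit 5) (nat_lit 275) (nat_lit 5) (nat_lit 633) (nat_lit 575) (nat_lit 352)) (XT.lf (nat_lit 0) (nat_lit 3449879620) (nat_lit 608) (nat_lit 3120104939) (nat_lit 684) (nat_lit 16437028987) (nat_lit 266) (nat_lit 5) (nat_lit 274) (nat_lit 5) (nat_lit 275) (nat_lit 5) (nat_lit 634) (nat_lit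 575) (nat_lit 351)))) (XT.nd (nat_lit 156) (nat_lit 608) (nat_lit 0) (XT.nd (nat_lit 78) (nat_lit 532) (nat_lit 0) (XT.lf (nat_lit 0) (nat_lit 10812706408) (nat_lit 684) (nat_lit 6178434668) (nat_lit 76) (nat_lit 6284030585) (nat_lit 266) (nat_lit 5) (nat_lit 275) (nat_lit 5) (nat_lit 267) (nat_lit 5) (nat_lit 635) (nat_lit 575) (nat_lit 350)) (XT.lf (nat_lit 0) (nat_lit 7540125094) (nat_lit 532) (nat_lit 7665223839) (nat_lit 608) (nat_lit 8342042883) (nat_lit 259) (nat_lit 5) (nat_lit 266) (nat_lit 5) (nat_lit 267) (nat_lit 5) (nat_lit 636) (nat_lit 575) (nat_lit 349))) (XT.nd (nat_lit 78) (nat_lit 608) (nat_lit 0) (XT.lf (nat_lit 0) (nat_lit 19735062404) (nat_lit 608) (nat_lit 2225671381) (nat_lit 76) (nat_lit 1863338426) (nat_lit 259) (nat_lit 5) (nat_lit 267) (nat_lit 5) (nat_lit 260) (nat_lit 5) (nat_lit 637) (nat_lit 575) (nat_lit 348)) (XT.lf (nat_lit 0) (nat_lit 370444662) (nat_lit 608) (nat_lit 12174837379) (nat_lit 76) (nat_lit 11558479470) (nat_lit 251) (nat_lit 5) (nat_lit 259) (nat_lit 5) (nat_lit 252) (nat_lit 5) (nat_lit 638)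 (nat_lit 575) (nat_lit 347)))))) (XT.nd (nat_lit 546) (nat_lit 2356) (nat_lit 0) (XT.nd (nat_lit 234) (nat_lit 1064) (nat_lit 0) (XT.nd (nat_lit 78) (nat_lit 532) (nat_lit 0) (XT.lf (nat_lit 0) (nat_lit 2001217640) (nat_lit 532) (nat_lit 2886795301) (nat_lit 608) (nat_lit 19500017743) (nat_lit 244) (nat_lit 5) (nat_lit 251) (nat_lit 5) (nat_lit 252) (nat_lit 5) (nat_lit 639) (nat_lit 575) (nat_lit 346)) (XT.nd (nat_lit 78) (nat_lit 532) (nat_lit 0) (XT.lf (nat_lit 0) (nat_lit 9619030184) (nat_lit 608) (nat_lit 8102210242) (nat_lit 76) (nat_lit 6954283047) (nat_lit 244) (nat_lit 5) (nat_lit 252) (nat_lit 5) (nat_lit 245) (nat_lit 5) (nat_lit 640) (nat_lit 575) (nat_lit 345)) (XT.lf (nat_lit 0) (nat_lit 6528784797) (nat_lit 532) (nat_lit 7973112059) (nat_lit 608) (nat_lit 10465724859) (nat_lit 237) (nat_lit 5) (nat_lit 244) (nat_lit 5) (nat_lit 245) (nat_lit 5) (nat_lit 641) (nat_lit 575) (nat_lit 344)))) (XT.nd (nat_lit 156) (nat_lit 608) (nat_lit 0) (XT.nd (nat_lit 78) (nat_lit 456) (nat_lit 0) (XT.lf (nat_lit 0) (nat_lit 19545699900) (nat_lit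 608) (nat_lit 3721242432) (nat_lit 76) (nat_lit 1997354186) (nat_lit 237) (nat_lit 5) (nat_lit 245) (nat_lit 5) (nat_lit 238) (nat_lit 5) (nat_lit 642) (nat_lit 575) (nat_lit 343)) (XT.lf (nat_lit 0) (nat_lit 11381441366) (nat_lit 456) (nat_lit 13431477203) (nat_lit 532) (nat_lit 751535628) (nat_lit 231) (nat_lit 5) (nat_lit 237) (nat_lit 5) (nat_lit 238) (nat_lit 5) (nat_lit 643) (nat_lit 575) (nat_lit 342))) (XT.nd (nat_lit 78) (nat_lit 0) (nat_lit 0) (XT.lf (nat_lit 0) (nat_lit 944971113) (nat_lit 532) (nat_lit 3340436264) (nat_lit 608) (nat_lit 21584104899) (nat_lit 223) (nat_lit 5) (nat_lit 230) (nat_lit 5) (nat_lit 231) (nat_lit 5) (nat_lit 644) (nat_lit 575) (nat_lit 341)) (XT.lf (nat_lit 0) (nat_lit 9549873585) (nat_lit 608) (nat_lit 9667527398) (nat_lit 76) (nat_lit 6960434396) (nat_lit 223) (nat_lit 5) (nat_lit 231) (nat_lit 5) (nat_lit 224) (nat_lit 5) (nat_lit 645) (nat_lit 575) (nat_lit 340))))) (XT.nd (nat_lit 312) (nat_lit 912) (nat_lit 0) (XT.nd (nat_lit 156) (nat_lit 988) (nat_lit 0) (XT.nd (nat_lit 78) (nat_lit 0) (nat_lit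 0) (XT.lf (nat_lit 0) (nat_lit 5944803596) (nat_lit 456) (nat_lit 9031518219) (nat_lit 532) (nat_lit 11514869433) (nat_lit 217) (nat_lit 5) (nat_lit 223) (nat_lit 5) (nat_lit 224) (nat_lit 5) (nat_lit 646) (nat_lit 575) (nat_lit 339)) (XT.lf (nat_lit 0) (nat_lit 20581425118) (nat_lit 532) (nat_lit 4824036853) (nat_lit 76) (nat_lit 1403949899) (nat_lit 217) (nat_lit 5) (nat_lit 224) (nat_lit 5) (nat_lit 218) (nat_lit 5) (nat_lit 647) (nat_lit 575) (nat_lit 338))) (XT.nd (nat_lit 78) (nat_lit 532) (nat_lit 0) (XT.lf (nat_lit 0) (nat_lit 11295503922) (nat_lit 456) (nat_lit 15132358895) (nat_lit 532) (nat_lit 703549593) (nat_lit 211) (nat_lit 5) (nat_lit 217) (nat_lit 5) (nat_lit 218) (nat_lit 5) (nat_lit 648) (nat_lit 575) (nat_lit 337)) (XT.lf (nat_lit 0) (nat_lit 309849192) (nat_lit 456) (nat_lit 4587547174) (nat_lit 532) (nat_lit 22561202469) (nat_lit 204) (nat_lit 5) (nat_lit 210) (nat_lit 5) (nat_lit 211) (nat_lit 5) (nat_lit 649) (nat_lit 575) (nat_lit 336)))) (XT.nd (nat_lit 156) (nat_lit 456) (nat_lit 0) (XT.nd (nat_lit 78) (nat_lit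 456) (nat_lit 0) (XT.lf (nat_lit 0) (nat_lit 10744095639) (nat_lit 532) (nat_lit 10848065432) (nat_lit 76) (nat_lit 6197211954) (nat_lit 204) (nat_lit 5) (nat_lit 211) (nat_lit 5) (nat_lit 205) (nat_lit 5) (nat_lit 650) (nat_lit 575) (nat_lit 335)) (XT.lf (nat_lit 0) (nat_lit 5819046743) (nat_lit 456) (nat_lit 10953047594) (nat_lit 532) (nat_lit 11353381193) (nat_lit 198) (nat_lit 5) (nat_lit 204) (nat_lit 5) (nat_lit 205) (nat_lit 5) (nat_lit 651) (nat_lit 575) (nat_lit 334))) (XT.nd (nat_lit 78) (nat_lit 456) (nat_lit 0) (XT.lf (nat_lit 0) (nat_lit 22961063419) (nat_lit 456) (nat_lit 28627871) (nat_lit 532) (nat_lit 5477228171) (nat_lit 198) (nat_lit 5) (nat_lit 204) (nat_lit 5) (nat_lit 205) (nat_lit 5) (nat_lit 652) (nat_lit 575) (nat_lit 333)) (XT.lf (nat_lit 0) (nat_lit 655104665) (nat_lit 456) (nat_lit 17109952377) (nat_lit 76) (nat_lit 11047159697) (nat_lit 192) (nat_lit 5) (nat_lit 198) (nat_lit 5) (nat_lit 193) (nat_lit 5) (nat_lit 653) (nat_lit 575) (nat_lit 332))))))) (XT.nd (nat_lit 3510) (nat_lit 6080) (nat_lit 0) (XT.nd (nat_lit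 2886) (nat_lit 3116) (nat_lit 0) (XT.nd (nat_lit 234) (nat_lit 8284) (nat_lit 0) (XT.nd (nat_lit 78) (nat_lit 0) (nat_lit 0) (XT.lf (nat_lit 0) (nat_lit 62805344) (nat_lit 0) (nat_lit 62805344) (nat_lit 1748) (nat_lit 6175478667) (nat_lit 496) (nat_lit 5) (nat_lit 496) (nat_lit 3) (nat_lit 519) (nat_lit 3) (nat_lit 576) (nat_lit 576) (nat_lit 408)) (XT.nd (nat_lit 78) (nat_lit 0) (nat_lit 0) (XT.lf (nat_lit 0) (nat_lit 722750430) (nat_lit 1748) (nat_lit 6260326032) (nat_lit 1824) (nat_lit 5735716843) (nat_lit 496) (nat_lit 5) (nat_lit 519) (nat_lit 3) (nat_lit 520) (nat_lit 5) (nat_lit 577) (nat_lit 576) (nat_lit 407)) (XT.lf (nat_lit 76) (nat_lit 74465546) (nat_lit 0) (nat_lit 1119283901) (nat_lit 1824) (nat_lit 11644190659) (nat_lit 497) (nat_lit 5) (nat_lit 496) (nat_lit 5) (nat_lit 520) (nat_lit 5) (nat_lit 578) (nat_lit 576) (nat_lit 406)))) (XT.nd (nat_lit 2496) (nat_lit 8360) (nat_lit 0) (XT.nd (nat_lit 78) (nat_lit 0) (nat_lit 0) (XT.lf (nat_lit 0) (nat_lit 1736963471) (nat_lit 1748) (nat_lit 6375797926) (nat_lit 1824) (nat_lit 4845453237)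 (nat_lit 497) (nat_lit 5) (nat_lit 520) (nat_lit 5) (nat_lit 521) (nat_lit 5) (nat_lit 579) (nat_lit 576) (nat_lit 405)) (XT.lf (nat_lit 76) (nat_lit 127879808) (nat_lit 0) (nat_lit 2160562369) (nat_lit 1824) (nat_lit 10792505145) (nat_lit 498) (nat_lit 5) (nat_lit 497) (nat_lit 5) (nat_lit 521) (nat_lit 5) (nat_lit 580) (nat_lit 576) (nat_lit 404))) (XT.nd (nat_lit 78) (nat_lit 836) (nat_lit 0) (XT.lf (nat_lit 0) (nat_lit 8607722564) (nat_lit 836) (nat_lit 3990623876) (nat_lit 912) (nat_lit 5324620756) (nat_lit 398) (nat_lit 5) (nat_lit 409) (nat_lit 5) (nat_lit 410) (nat_lit 5) (nat_lit 611) (nat_lit 576) (nat_lit 373)) (XT.lf (nat_lit 0) (nat_lit 637239641) (nat_lit 836) (nat_lit 14306009784) (nat_lit 912) (nat_lit 3175133344) (nat_lit 387) (nat_lit 5) (nat_lit 398) (nat_lit 5) (nat_lit 399) (nat_lit 5) (nat_lit 612) (nat_lit 576) (nat_lit 372))))) (XT.nd (nat_lit 312) (nat_lit 1444) (nat_lit 0) (XT.nd (nat_lit 156) (nat_lit 760) (nat_lit 0) (XT.nd (nat_lit 78) (nat_lit 912) (nat_lit 0) (XT.lf (nat_lit 0) (nat_lit 10881994803) (nat_lit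 836) (nat_lit 6535678275) (nat_lit 912) (nat_lit 898381462) (nat_lit 387) (nat_lit 5) (nat_lit 398) (nat_lit 5) (nat_lit 399) (nat_lit 5) (nat_lit 613) (nat_lit 576) (nat_lit 371)) (XT.lf (nat_lit 0) (nat_lit 1426787607) (nat_lit 912) (nat_lit 15690772708) (nat_lit 76) (nat_lit 1399503720) (nat_lit 375) (nat_lit 5) (nat_lit 387) (nat_lit 5) (nat_lit 376) (nat_lit 5) (nat_lit 614) (nat_lit 576) (nat_lit 370))) (XT.nd (nat_lit 78) (nat_lit 760) (nat_lit 0) (XT.lf (nat_lit 0) (nat_lit 3873957325) (nat_lit 912) (nat_lit 5384344309) (nat_lit 76) (nat_lit 9461923106) (nat_lit 375) (nat_lit 5) (nat_lit 387) (nat_lit 5) (nat_lit 376) (nat_lit 5) (nat_lit 615) (nat_lit 576) (nat_lit 369)) (XT.lf (nat_lit 0) (nat_lit 5190099580) (nat_lit 760) (nat_lit 1207801649) (nat_lit 836) (nat_lit 12528991129) (nat_lit 365) (nat_lit 5) (nat_lit 375) (nat_lit 5) (nat_lit 376) (nat_lit 5) (nat_lit 616) (nat_lit 576) (nat_lit 368)))) (XT.nd (nat_lit 156) (nat_lit 684) (nat_lit 0) (XT.nd (nat_lit 78) (nat_lit 760) (nat_lit 0) (XT.lf (nat_lit 0) (nat_lit 9048373908)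 (nat_lit 836) (nat_lit 3139919506) (nat_lit 76) (nat_lit 6947879221) (nat_lit 365) (nat_lit 5) (nat_lit 376) (nat_lit 5) (nat_lit 366) (nat_lit 5) (nat_lit 617) (nat_lit 576) (nat_lit 367)) (XT.lf (nat_lit 0) (nat_lit 7756487564) (nat_lit 760) (nat_lit 4048047139) (nat_lit 836) (nat_lit 7544050542) (nat_lit 355) (nat_lit 5) (nat_lit 365) (nat_lit 5) (nat_lit 366) (nat_lit 5) (nat_lit 618) (nat_lit 576) (nat_lit 366))) (XT.nd (nat_lit 78) (nat_lit 684) (nat_lit 0) (XT.lf (nat_lit 0) (nat_lit 14659043473) (nat_lit 836) (nat_lit 685407019) (nat_lit 76) (nat_lit 4219931416) (nat_lit 355) (nat_lit 5) (nat_lit 366) (nat_lit 5) (nat_lit 356) (nat_lit 5) (nat_lit 619) (nat_lit 576) (nat_lit 365)) (XT.lf (nat_lit 0) (nat_lit 10544826410) (nat_lit 684) (nat_lit 7115586702) (nat_lit 760) (nat_lit 2122286267) (nat_lit 346) (nat_lit 5) (nat_lit 355) (nat_lit 5) (nat_lit 356) (nat_lit 5) (nat_lit 620) (nat_lit 576) (nat_lit 364)))))) (XT.nd (nat_lit 546) (nat_lit 3268) (nat_lit 0) (XT.nd (nat_lit 234) (nat_lit 1292) (nat_lit 0) (XT.nd (nat_lit 78) (nat_lit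 684) (nat_lit 0) (XT.lf (nat_lit 0) (nat_lit 727743376) (nat_lit 836) (nat_lit 17994132474) (nat_lit 76) (nat_lit 1283000346) (nat_lit 335) (nat_lit 5) (nat_lit 346) (nat_lit 5) (nat_lit 336) (nat_lit 5) (nat_lit 621) (nat_lit 576) (nat_lit 363)) (XT.nd (nat_lit 78) (nat_lit 684) (nat_lit 0) (XT.lf (nat_lit 0) (nat_lit 3710501657) (nat_lit 836) (nat_lit 6688467450) (nat_lit 76) (nat_lit 9830164241) (nat_lit 335) (nat_lit 5) (nat_lit 346) (nat_lit 5) (nat_lit 336) (nat_lit 5) (nat_lit 622) (nat_lit 576) (nat_lit 362)) (XT.lf (nat_lit 0) (nat_lit 4901539799) (nat_lit 684) (nat_lit 1877899623) (nat_lit 760) (nat_lit 13677906000) (nat_lit 326) (nat_lit 5) (nat_lit 335) (nat_lit 5) (nat_lit 336) (nat_lit 5) (nat_lit 623) (nat_lit 576) (nat_lit 361)))) (XT.nd (nat_lit 156) (nat_lit 608) (nat_lit 0) (XT.nd (nat_lit 78) (nat_lit 684) (nat_lit 0) (XT.lf (nat_lit 0) (nat_lit 9993934732) (nat_lit 760) (nat_lit 3925864240) (nat_lit 76) (nat_lit 6768639453) (nat_lit 326) (nat_lit 5) (nat_lit 336) (nat_lit 5) (nat_lit 327) (nat_lit 5) (nat_lit 624) (nat_lit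 576) (nat_lit 360)) (XT.lf (nat_lit 0) (nat_lit 8023473057) (nat_lit 684) (nat_lit 5308639822) (nat_lit 760) (nat_lit 7590852805) (nat_lit 317) (nat_lit 5) (nat_lit 326) (nat_lit 5) (nat_lit 327) (nat_lit 5) (nat_lit 625) (nat_lit 576) (nat_lit 359))) (XT.nd (nat_lit 78) (nat_lit 608) (nat_lit 0) (XT.lf (nat_lit 0) (nat_lit 16781053145) (nat_lit 760) (nat_lit 925430546) (nat_lit 76) (nat_lit 3454820079) (nat_lit 317) (nat_lit 5) (nat_lit 327) (nat_lit 5) (nat_lit 318) (nat_lit 5) (nat_lit 626) (nat_lit 576) (nat_lit 358)) (XT.lf (nat_lit 0) (nat_lit 11396489532) (nat_lit 608) (nat_lit 9006651570) (nat_lit 684) (nat_lit 999184385) (nat_lit 309) (nat_lit 5) (nat_lit 317) (nat_lit 5) (nat_lit 318) (nat_lit 5) (nat_lit 627) (nat_lit 576) (nat_lit 357))))) (XT.nd (nat_lit 312) (nat_lit 1900) (nat_lit 0) (XT.nd (nat_lit 156) (nat_lit 608) (nat_lit 0) (XT.nd (nat_lit 78) (nat_lit 0) (nat_lit 0) (XT.lf (nat_lit 0) (nat_lit 2338108071) (nat_lit 684) (nat_lit 95746563) (nat_lit 760) (nat_lit 19213665621) (nat_lit 299) (nat_lit 5) (nat_lit 308) (nat_lit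 5) (nat_lit 309) (nat_lit 5) (nat_lit 628) (nat_lit 576) (nat_lit 356)) (XT.lf (nat_lit 0) (nat_lit 6043265293) (nat_lit 760) (nat_lit 6903179080) (nat_lit 76) (nat_lit 8948620889) (nat_lit 299) (nat_lit 5) (nat_lit 309) (nat_lit 5) (nat_lit 300) (nat_lit 5) (nat_lit 629) (nat_lit 576) (nat_lit 355))) (XT.nd (nat_lit 78) (nat_lit 0) (nat_lit 0) (XT.lf (nat_lit 0) (nat_lit 5820992853) (nat_lit 608) (nat_lit 3937492644) (nat_lit 684) (nat_lit 12388403471) (nat_lit 291) (nat_lit 5) (nat_lit 299) (nat_lit 5) (nat_lit 300) (nat_lit 5) (nat_lit 630) (nat_lit 576) (nat_lit 354)) (XT.lf (nat_lit 0) (nat_lit 13623980515) (nat_lit 684) (nat_lit 3549948317) (nat_lit 76) (nat_lit 5228301133) (nat_lit 291) (nat_lit 5) (nat_lit 300) (nat_lit 5) (nat_lit 292) (nat_lit 5) (nat_lit 631) (nat_lit 576) (nat_lit 353)))) (XT.nd (nat_lit 156) (nat_lit 684) (nat_lit 0) (XT.nd (nat_lit 78) (nat_lit 608) (nat_lit 0) (XT.lf (nat_lit 0) (nat_lit 9575194904) (nat_lit 608) (nat_lit 8075170983) (nat_lit 684) (nat_lit 5010640506) (nat_lit 283) (nat_lit 5) (nat_lit 291)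 (nat_lit 5) (nat_lit 292) (nat_lit 5) (nat_lit 632) (nat_lit 576) (nat_lit 352)) (XT.lf (nat_lit 0) (nat_lit 73585332) (nat_lit 608) (nat_lit 21711360527) (nat_lit 684) (nat_lit 1139459365) (nat_lit 275) (nat_lit 5) (nat_lit 283) (nat_lit 5) (nat_lit 284) (nat_lit 5) (nat_lit 633) (nat_lit 576) (nat_lit 351))) (XT.nd (nat_lit 78) (nat_lit 608) (nat_lit 0) (XT.lf (nat_lit 0) (nat_lit 2909579382) (nat_lit 684) (nat_lit 9595959285) (nat_lit 76) (nat_lit 10684423267) (nat_lit 274) (nat_lit 5) (nat_lit 283) (nat_lit 5) (nat_lit 275) (nat_lit 5) (nat_lit 634) (nat_lit 576) (nat_lit 350)) (XT.lf (nat_lit 0) (nat_lit 3962641947) (nat_lit 608) (nat_lit 3082936326) (nat_lit 684) (nat_lit 16414676336) (nat_lit 266) (nat_lit 5) (nat_lit 274) (nat_lit 5) (nat_lit 275) (nat_lit 5) (nat_lit 635) (nat_lit 576) (nat_lit 349))))))))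
noncomputable def xc86 : XT := (XT.nd (nat_lit 79950) (nat_lit 0) (nat_lit 1444) (XT.nd (nat_lit 1170) (nat_lit 456) (nat_lit 0) (XT.nd (nat_lit 546) (nat_lit 2508) (nat_lit 0) (XT.nd (nat_lit 234) (nat_lit 1672) (nat_lit 0) (XT.nd (nat_lit 78) (nat_lit 532) (nat_lit 0) (XT.lf (nat_lit 0) (nat_lit 11367039460) (nat_lit 684) (nat_lit 5860809770) (nat_lit 76) (nat_lit 6506049259) (nat_lit 266) (nat_lit 5) (nat_lit 275) (nat_lit 5) (nat_lit 267) (nat_lit 5) (nat_lit 636) (nat_lit 576) (nat_lit 348)) (XT.nd (nat_lit 78) (nat_lit 0) (nat_lit 0) (XT.lf (nat_lit 0) (nat_lit 8129218598) (nat_lit 532) (nat_lit 7714532915) (nat_lit 608) (nat_lit 8167887496) (nat_lit 259) (nat_lit 5) (nat_lit 266) (nat_lit 5) (nat_lit 267) (nat_lit 5) (nat_lit 637) (nat_lit 576) (nat_lit 347)) (XT.lf (nat_lit 0) (nat_lit 20458166406) (nat_lit 608) (nat_lit 1834580457) (nat_lit 76) (nat_lit 2001224295) (nat_lit 259) (nat_lit 5) (nat_lit 267) (nat_lit 5) (nat_lit 260) (nat_lit 5) (nat_lit 638) (nat_lit 576) (nat_lit 346)))) (XT.nd (nat_lit 156) (nat_lit 532) (nat_lit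 0) (XT.nd (nat_lit 78) (nat_lit 532) (nat_lit 0) (XT.lf (nat_lit 0) (nat_lit 704791454) (nat_lit 608) (nat_lit 11981236879) (nat_lit 76) (nat_lit 11893255769) (nat_lit 251) (nat_lit 5) (nat_lit 259) (nat_lit 5) (nat_lit 252) (nat_lit 5) (nat_lit 639) (nat_lit 576) (nat_lit 345)) (XT.lf (nat_lit 0) (nat_lit 2475463601) (nat_lit 532) (nat_lit 2833656205) (nat_lit 608) (nat_lit 19560190950) (nat_lit 244) (nat_lit 5) (nat_lit 251) (nat_lit 5) (nat_lit 252) (nat_lit 5) (nat_lit 640) (nat_lit 576) (nat_lit 344))) (XT.nd (nat_lit 78) (nat_lit 532) (nat_lit 0) (XT.lf (nat_lit 0) (nat_lit 10129123023) (nat_lit 608) (nat_lit 7832899274) (nat_lit 76) (nat_lit 7200644058) (nat_lit 244) (nat_lit 5) (nat_lit 252) (nat_lit 5) (nat_lit 245) (nat_lit 5) (nat_lit 641) (nat_lit 576) (nat_lit 343)) (XT.lf (nat_lit 0) (nat_lit 7087877803) (nat_lit 532) (nat_lit 8018321793) (nat_lit 608) (nat_lit 10354476176) (nat_lit 237) (nat_lit 5) (nat_lit 244) (nat_lit 5) (nat_lit 245) (nat_lit 5) (nat_lit 642) (nat_lit 576) (nat_lit 342))))) (XT.nd (nat_lit 312) (nat_lit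 1444) (nat_lit 0) (XT.nd (nat_lit 156) (nat_lit 608) (nat_lit 0) (XT.nd (nat_lit 78) (nat_lit 456) (nat_lit 0) (XT.lf (nat_lit 0) (nat_lit 20245443903) (nat_lit 608) (nat_lit 3370104649) (nat_lit 76) (nat_lit 2147844471) (nat_lit 237) (nat_lit 5) (nat_lit 245) (nat_lit 5) (nat_lit 238) (nat_lit 5) (nat_lit 643) (nat_lit 576) (nat_lit 341)) (XT.lf (nat_lit 0) (nat_lit 12031833071) (nat_lit 456) (nat_lit 13582863241) (nat_lit 532) (nat_lit 454924008) (nat_lit 231) (nat_lit 5) (nat_lit 237) (nat_lit 5) (nat_lit 238) (nat_lit 5) (nat_lit 644) (nat_lit 576) (nat_lit 340))) (XT.nd (nat_lit 78) (nat_lit 0) (nat_lit 0) (XT.lf (nat_lit 0) (nat_lit 1387924679) (nat_lit 532) (nat_lit 3287468682) (nat_lit 608) (nat_lit 21705411519) (nat_lit 223) (nat_lit 5) (nat_lit 230) (nat_lit 5) (nat_lit 231) (nat_lit 5) (nat_lit 645) (nat_lit 576) (nat_lit 339)) (XT.lf (nat_lit 0) (nat_lit 10039945080) (nat_lit 608) (nat_lit 9439922928) (nat_lit 76) (nat_lit 7215530750) (nat_lit 223) (nat_lit 5) (nat_lit 231) (nat_lit 5) (nat_lit 224) (nat_lit 5) (nat_lit 646)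 (nat_lit 576) (nat_lit 338)))) (XT.nd (nat_lit 156) (nat_lit 988) (nat_lit 0) (XT.nd (nat_lit 78) (nat_lit 0) (nat_lit 0) (XT.lf (nat_lit 0) (nat_lit 6481885246) (nat_lit 456) (nat_lit 9089887970) (nat_lit 532) (nat_lit 11443311742) (nat_lit 217) (nat_lit 5) (nat_lit 223) (nat_lit 5) (nat_lit 224) (nat_lit 5) (nat_lit 647) (nat_lit 576) (nat_lit 337)) (XT.lf (nat_lit 0) (nat_lit 21283954367) (nat_lit 532) (nat_lit 4505496124) (nat_lit 76) (nat_lit 1550320213) (nat_lit 217) (nat_lit 5) (nat_lit 224) (nat_lit 5) (nat_lit 218) (nat_lit 5) (nat_lit 648) (nat_lit 576) (nat_lit 336))) (XT.nd (nat_lit 78) (nat_lit 532) (nat_lit 0) (XT.lf (nat_lit 0) (nat_lit 11933705063) (nat_lit 456) (nat_lit 15310588689) (nat_lit 532) (nat_lit 423978269) (nat_lit 211) (nat_lit 5) (nat_lit 217) (nat_lit 5) (nat_lit 218) (nat_lit 5) (nat_lit 649) (nat_lit 576) (nat_lit 335)) (XT.lf (nat_lit 0) (nat_lit 729461506) (nat_lit 456) (nat_lit 4552675919) (nat_lit 532) (nat_lit 22719886793) (nat_lit 204) (nat_lit 5) (nat_lit 210) (nat_lit 5) (nat_lit 211) (nat_lit 5) (nat_lit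 650) (nat_lit 576) (nat_lit 334)))))) (XT.nd (nat_lit 78156) (nat_lit 0) (nat_lit 11932) (XT.nd (nat_lit 75504) (nat_lit 0) (nat_lit 16036) (XT.nd (nat_lit 78) (nat_lit 456) (nat_lit 0) (XT.lf (nat_lit 0) (nat_lit 11240953284) (nat_lit 532) (nat_lit 10654889673) (nat_lit 76) (nat_lit 6443667493) (nat_lit 204) (nat_lit 5) (nat_lit 211) (nat_lit 5) (nat_lit 205) (nat_lit 5) (nat_lit 651) (nat_lit 576) (nat_lit 333)) (XT.nd (nat_lit 78) (nat_lit 0) (nat_lit 0) (XT.lf (nat_lit 0) (nat_lit 6342866475) (nat_lit 456) (nat_lit 11043761909) (nat_lit 532) (nat_lit 11295764500) (nat_lit 198) (nat_lit 5) (nat_lit 204) (nat_lit 5) (nat_lit 205) (nat_lit 5) (nat_lit 652) (nat_lit 576) (nat_lit 332)) (XT.lf (nat_lit 0) (nat_lit 23723732264) (nat_lit 532) (nat_lit 5211668238) (nat_lit 76) (nat_lit 95362293) (nat_lit 198) (nat_lit 5) (nat_lit 205) (nat_lit 5) (nat_lit 199) (nat_lit 5) (nat_lit 653) (nat_lit 576) (nat_lit 331)))) (XT.nd (nat_lit 2496) (nat_lit 6612) (nat_lit 0) (XT.nd (nat_lit 78) (nat_lit 0) (nat_lit 0) (XT.lf (nat_lit 0) (nat_lit 1574638179)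 (nat_lit 1748) (nat_lit 5945869502) (nat_lit 1824) (nat_lit 5435860516) (nat_lit 496) (nat_lit 5) (nat_lit 519) (nat_lit 3) (nat_lit 520) (nat_lit 5) (nat_lit 578) (nat_lit 577) (nat_lit 405)) (XT.lf (nat_lit 76) (nat_lit 512725389) (nat_lit 0) (nat_lit 1528747343) (nat_lit 1824) (nat_lit 11036697918) (nat_lit 497) (nat_lit 5) (nat_lit 496) (nat_lit 5) (nat_lit 520) (nat_lit 5) (nat_lit 579) (nat_lit 577) (nat_lit 404))) (XT.nd (nat_lit 78) (nat_lit 0) (nat_lit 0) (XT.lf (nat_lit 0) (nat_lit 7122571752) (nat_lit 836) (nat_lit 1685566797) (nat_lit 912) (nat_lit 9074229821) (nat_lit 409) (nat_lit 5) (nat_lit 420) (nat_lit 5) (nat_lit 421) (nat_lit 5) (nat_lit 610) (nat_lit 577) (nat_lit 373)) (XT.lf (nat_lit 0) (nat_lit 11005795960) (nat_lit 912) (nat_lit 910730521) (nat_lit 76) (nat_lit 6159450958) (nat_lit 409) (nat_lit 5) (nat_lit 421) (nat_lit 5) (nat_lit 410) (nat_lit 5) (nat_lit 611) (nat_lit 577) (nat_lit 372))))) (XT.nd (nat_lit 312) (nat_lit 1520) (nat_lit 0) (XT.nd (nat_lit 156) (nat_lit 912) (nat_lit 0) (XT.nd (nat_lit 78) (nat_lit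 836) (nat_lit 0) (XT.lf (nat_lit 0) (nat_lit 9239344036) (nat_lit 836) (nat_lit 4073151294) (nat_lit 912) (nat_lit 4959661922) (nat_lit 398) (nat_lit 5) (nat_lit 409) (nat_lit 5) (nat_lit 410) (nat_lit 5) (nat_lit 612) (nat_lit 577) (nat_lit 371)) (XT.lf (nat_lit 0) (nat_lit 1115654463) (nat_lit 836) (nat_lit 14582585678) (nat_lit 912) (nat_lit 2773362624) (nat_lit 387) (nat_lit 5) (nat_lit 398) (nat_lit 5) (nat_lit 399) (nat_lit 5) (nat_lit 613) (nat_lit 577) (nat_lit 370))) (XT.nd (nat_lit 78) (nat_lit 912) (nat_lit 0) (XT.lf (nat_lit 0) (nat_lit 11556173943) (nat_lit 836) (nat_lit 6657034682) (nat_lit 912) (nat_lit 460198711) (nat_lit 387) (nat_lit 5) (nat_lit 398) (nat_lit 5) (nat_lit 399) (nat_lit 5) (nat_lit 614) (nat_lit 577) (nat_lit 369)) (XT.lf (nat_lit 0) (nat_lit 1899746369) (nat_lit 912) (nat_lit 15536273684) (nat_lit 76) (nat_lit 1442473108) (nat_lit 375) (nat_lit 5) (nat_lit 387) (nat_lit 5) (nat_lit 376) (nat_lit 5) (nat_lit 615) (nat_lit 577) (nat_lit 368)))) (XT.nd (nat_lit 156) (nat_lit 760) (nat_lit 0) (XT.nd (nat_lit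 78) (nat_lit 760) (nat_lit 0) (XT.lf (nat_lit 0) (nat_lit 4387145305) (nat_lit 912) (nat_lit 5032899353) (nat_lit 76) (nat_lit 9665847170) (nat_lit 375) (nat_lit 5) (nat_lit 387) (nat_lit 5) (nat_lit 376) (nat_lit 5) (nat_lit 616) (nat_lit 577) (nat_lit 367)) (XT.lf (nat_lit 0) (nat_lit 5750012808) (nat_lit 760) (nat_lit 1205973344) (nat_lit 836) (nat_lit 12340818739) (nat_lit 365) (nat_lit 5) (nat_lit 375) (nat_lit 5) (nat_lit 376) (nat_lit 5) (nat_lit 617) (nat_lit 577) (nat_lit 366))) (XT.nd (nat_lit 78) (nat_lit 760) (nat_lit 0) (XT.lf (nat_lit 0) (nat_lit 9651199824) (nat_lit 836) (nat_lit 2747259227) (nat_lit 76) (nat_lit 7111977540) (nat_lit 365) (nat_lit 5) (nat_lit 376) (nat_lit 5) (nat_lit 366) (nat_lit 5) (nat_lit 618) (nat_lit 577) (nat_lit 365)) (XT.lf (nat_lit 0) (nat_lit 8364079546) (nat_lit 760) (nat_lit 4093070240) (nat_lit 836) (nat_lit 7270054786) (nat_lit 355) (nat_lit 5) (nat_lit 365) (nat_lit 5) (nat_lit 366) (nat_lit 5) (nat_lit 619) (nat_lit 577) (nat_lit 364))))))) (XT.nd (nat_lit 1170) (nat_lit 4408) (nat_lit 0)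 (XT.nd (nat_lit 546) (nat_lit 3192) (nat_lit 0) (XT.nd (nat_lit 234) (nat_lit 1368) (nat_lit 0) (XT.nd (nat_lit 78) (nat_lit 1520) (nat_lit 0) (XT.lf (nat_lit 0) (nat_lit 15360810344) (nat_lit 836) (nat_lit 247564888) (nat_lit 76) (nat_lit 4339101133) (nat_lit 355) (nat_lit 5) (nat_lit 366) (nat_lit 5) (nat_lit 356) (nat_lit 5) (nat_lit 620) (nat_lit 577) (nat_lit 363)) (XT.nd (nat_lit 78) (nat_lit 836) (nat_lit 0) (XT.lf (nat_lit 0) (nat_lit 11204302485) (nat_lit 684) (nat_lit 7212805877) (nat_lit 760) (nat_lit 1753154225) (nat_lit 346) (nat_lit 5) (nat_lit 355) (nat_lit 5) (nat_lit 356) (nat_lit 5) (nat_lit 621) (nat_lit 577) (nat_lit 362)) (XT.lf (nat_lit 0) (nat_lit 1143765821) (nat_lit 836) (nat_lit 17895284536) (nat_lit 76) (nat_lit 1357873789) (nat_lit 335) (nat_lit 5) (nat_lit 346) (nat_lit 5) (nat_lit 336) (nat_lit 5) (nat_lit 622) (nat_lit 577) (nat_lit 361)))) (XT.nd (nat_lit 156) (nat_lit 684) (nat_lit 0) (XT.nd (nat_lit 78) (nat_lit 684) (nat_lit 0) (XT.lf (nat_lit 0) (nat_lit 4178307354) (nat_lit 836) (nat_lit 6372500928) (nat_lit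 76) (nat_lit 10075015992) (nat_lit 335) (nat_lit 5) (nat_lit 346) (nat_lit 5) (nat_lit 336) (nat_lit 5) (nat_lit 623) (nat_lit 577) (nat_lit 360)) (XT.lf (nat_lit 0) (nat_lit 5446347677) (nat_lit 684) (nat_lit 1857459409) (nat_lit 760) (nat_lit 13554890229) (nat_lit 326) (nat_lit 5) (nat_lit 335) (nat_lit 5) (nat_lit 336) (nat_lit 5) (nat_lit 624) (nat_lit 577) (nat_lit 359))) (XT.nd (nat_lit 78) (nat_lit 684) (nat_lit 0) (XT.lf (nat_lit 0) (nat_lit 10575338366) (nat_lit 760) (nat_lit 3559091784) (nat_lit 76) (nat_lit 6960127487) (nat_lit 326) (nat_lit 5) (nat_lit 336) (nat_lit 5) (nat_lit 327) (nat_lit 5) (nat_lit 625) (nat_lit 577) (nat_lit 358)) (XT.lf (nat_lit 0) (nat_lit 8626302721) (nat_lit 684) (nat_lit 5349368570) (nat_lit 760) (nat_lit 7358196701) (nat_lit 317) (nat_lit 5) (nat_lit 326) (nat_lit 5) (nat_lit 327) (nat_lit 5) (nat_lit 626) (nat_lit 577) (nat_lit 357))))) (XT.nd (nat_lit 312) (nat_lit 1824) (nat_lit 0) (XT.nd (nat_lit 156) (nat_lit 760) (nat_lit 0) (XT.nd (nat_lit 78) (nat_lit 608) (nat_lit 0) (XT.lf (nat_lit 0) (nat_lit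 17486616423) (nat_lit 760) (nat_lit 503260429) (nat_lit 76) (nat_lit 3587235832) (nat_lit 317) (nat_lit 5) (nat_lit 327) (nat_lit 5) (nat_lit 318) (nat_lit 5) (nat_lit 627) (nat_lit 577) (nat_lit 356)) (XT.lf (nat_lit 0) (nat_lit 12062198849) (nat_lit 608) (nat_lit 9114535877) (nat_lit 684) (nat_lit 646308697) (nat_lit 309) (nat_lit 5) (nat_lit 317) (nat_lit 5) (nat_lit 318) (nat_lit 5) (nat_lit 628) (nat_lit 577) (nat_lit 355))) (XT.nd (nat_lit 78) (nat_lit 0) (nat_lit 0) (XT.lf (nat_lit 0) (nat_lit 2824645066) (nat_lit 684) (nat_lit 21496145) (nat_lit 760) (nat_lit 19227039999) (nat_lit 299) (nat_lit 5) (nat_lit 308) (nat_lit 5) (nat_lit 309) (nat_lit 5) (nat_lit 629) (nat_lit 577) (nat_lit 354)) (XT.lf (nat_lit 0) (nat_lit 6521095305) (nat_lit 760) (nat_lit 6603429164) (nat_lit 76) (nat_lit 9201285882) (nat_lit 299) (nat_lit 5) (nat_lit 309) (nat_lit 5) (nat_lit 300) (nat_lit 5) (nat_lit 630) (nat_lit 577) (nat_lit 353)))) (XT.nd (nat_lit 156) (nat_lit 1216) (nat_lit 0) (XT.nd (nat_lit 78) (nat_lit 0) (nat_lit 0) (XT.lf (nat_lit 0) (nat_lit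 6372345856) (nat_lit 608) (nat_lit 3934098624) (nat_lit 684) (nat_lit 12276309893) (nat_lit 291) (nat_lit 5) (nat_lit 299) (nat_lit 5) (nat_lit 300) (nat_lit 5) (nat_lit 631) (nat_lit 577) (nat_lit 352)) (XT.lf (nat_lit 0) (nat_lit 14242854836) (nat_lit 684) (nat_lit 3188131412) (nat_lit 76) (nat_lit 5412344157) (nat_lit 291) (nat_lit 5) (nat_lit 300) (nat_lit 5) (nat_lit 292) (nat_lit 5) (nat_lit 632) (nat_lit 577) (nat_lit 351))) (XT.nd (nat_lit 78) (nat_lit 608) (nat_lit 0) (XT.lf (nat_lit 0) (nat_lit 10196667201) (nat_lit 608) (nat_lit 8149100301) (nat_lit 684) (nat_lit 4761595186) (nat_lit 283) (nat_lit 5) (nat_lit 291) (nat_lit 5) (nat_lit 292) (nat_lit 5) (nat_lit 633) (nat_lit 577) (nat_lit 350)) (XT.lf (nat_lit 0) (nat_lit 508450525) (nat_lit 608) (nat_lit 22051246254) (nat_lit 684) (nat_lit 816399877) (nat_lit 275) (nat_lit 5) (nat_lit 283) (nat_lit 5) (nat_lit 284) (nat_lit 5) (nat_lit 634) (nat_lit 577) (nat_lit 349)))))) (XT.nd (nat_lit 546) (nat_lit 2052) (nat_lit 0) (XT.nd (nat_lit 234) (nat_lit 1672) (nat_lit 0) (XT.nd (nat_lit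 78) (nat_lit 608) (nat_lit 0) (XT.lf (nat_lit 0) (nat_lit 3302391370) (nat_lit 684) (nat_lit 9358520941) (nat_lit 76) (nat_lit 10986141427) (nat_lit 274) (nat_lit 5) (nat_lit 283) (nat_lit 5) (nat_lit 275) (nat_lit 5) (nat_lit 635) (nat_lit 577) (nat_lit 348)) (XT.nd (nat_lit 78) (nat_lit 0) (nat_lit 0) (XT.lf (nat_lit 0) (nat_lit 4468427596) (nat_lit 608) (nat_lit 3048890792) (nat_lit 684) (nat_lit 16405510010) (nat_lit 266) (nat_lit 5) (nat_lit 274) (nat_lit 5) (nat_lit 275) (nat_lit 5) (nat_lit 636) (nat_lit 577) (nat_lit 347)) (XT.lf (nat_lit 0) (nat_lit 11919331157) (nat_lit 684) (nat_lit 5553964458) (nat_lit 76) (nat_lit 6728767383) (nat_lit 266) (nat_lit 5) (nat_lit 275) (nat_lit 5) (nat_lit 267) (nat_lit 5) (nat_lit 637) (nat_lit 577) (nat_lit 346)))) (XT.nd (nat_lit 156) (nat_lit 1140) (nat_lit 0) (XT.nd (nat_lit 78) (nat_lit 0) (nat_lit 0) (XT.lf (nat_lit 0) (nat_lit 8713074598) (nat_lit 532) (nat_lit 7768866441) (nat_lit 608) (nat_lit 8003490301) (nat_lit 259) (nat_lit 5) (nat_lit 266) (nat_lit 5) (nat_lit 267) (nat_lit 5) (nat_lit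 638) (nat_lit 577) (nat_lit 345)) (XT.lf (nat_lit 0) (nat_lit 21182980208) (nat_lit 608) (nat_lit 1452582763) (nat_lit 76) (nat_lit 2137960719) (nat_lit 259) (nat_lit 5) (nat_lit 267) (nat_lit 5) (nat_lit 260) (nat_lit 5) (nat_lit 639) (nat_lit 577) (nat_lit 344))) (XT.nd (nat_lit 78) (nat_lit 532) (nat_lit 0) (XT.lf (nat_lit 0) (nat_lit 1033129784) (nat_lit 608) (nat_lit 11800737387) (nat_lit 76) (nat_lit 12230704419) (nat_lit 251) (nat_lit 5) (nat_lit 259) (nat_lit 5) (nat_lit 252) (nat_lit 5) (nat_lit 640) (nat_lit 577) (nat_lit 343)) (XT.lf (nat_lit 0) (nat_lit 2942333127) (nat_lit 532) (nat_lit 2783759739) (nat_lit 608) (nat_lit 19634375211) (nat_lit 244) (nat_lit 5) (nat_lit 251) (nat_lit 5) (nat_lit 252) (nat_lit 5) (nat_lit 641) (nat_lit 577) (nat_lit 342))))) (XT.nd (nat_lit 312) (nat_lit 1064) (nat_lit 0) (XT.nd (nat_lit 156) (nat_lit 456) (nat_lit 0) (XT.nd (nat_lit 78) (nat_lit 532) (nat_lit 0) (XT.lf (nat_lit 0) (nat_lit 10637080566) (nat_lit 608) (nat_lit 7574952133) (nat_lit 76) (nat_lit 7447766656) (nat_lit 244) (nat_lit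 5) (nat_lit 252) (nat_lit 5) (nat_lit 245) (nat_lit 5) (nat_lit 642) (nat_lit 577) (nat_lit 341)) (XT.lf (nat_lit 0) (nat_lit 7641512819) (nat_lit 532) (nat_lit 8068872285) (nat_lit 608) (nat_lit 10253450379) (nat_lit 237) (nat_lit 5) (nat_lit 244) (nat_lit 5) (nat_lit 245) (nat_lit 5) (nat_lit 643) (nat_lit 577) (nat_lit 340))) (XT.nd (nat_lit 78) (nat_lit 456) (nat_lit 0) (XT.lf (nat_lit 0) (nat_lit 20947190541) (nat_lit 608) (nat_lit 3028469226) (nat_lit 76) (nat_lit 2297052035) (nat_lit 237) (nat_lit 5) (nat_lit 245) (nat_lit 5) (nat_lit 238) (nat_lit 5) (nat_lit 644) (nat_lit 577) (nat_lit 339)) (XT.lf (nat_lit 0) (nat_lit 12678816212) (nat_lit 456) (nat_lit 13741829709) (nat_lit 532) (nat_lit 164481607) (nat_lit 231) (nat_lit 5) (nat_lit 237) (nat_lit 5) (nat_lit 238) (nat_lit 5) (nat_lit 645) (nat_lit 577) (nat_lit 338)))) (XT.nd (nat_lit 156) (nat_lit 456) (nat_lit 0) (XT.nd (nat_lit 78) (nat_lit 0) (nat_lit 0) (XT.lf (nat_lit 0) (nat_lit 1823270777) (nat_lit 532) (nat_lit 3238092808) (nat_lit 608) (nat_lit 21841196529) (nat_lit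 223) (nat_lit 5) (nat_lit 230) (nat_lit 5) (nat_lit 231) (nat_lit 5) (nat_lit 646) (nat_lit 577) (nat_lit 337)) (XT.lf (nat_lit 0) (nat_lit 10528204596) (nat_lit 608) (nat_lit 9224112564) (nat_lit 76) (nat_lit 7471228972) (nat_lit 223) (nat_lit 5) (nat_lit 231) (nat_lit 5) (nat_lit 224) (nat_lit 5) (nat_lit 647) (nat_lit 577) (nat_lit 336))) (XT.nd (nat_lit 78) (nat_lit 0) (nat_lit 0) (XT.lf (nat_lit 0) (nat_lit 7013469872) (nat_lit 456) (nat_lit 9154172646) (nat_lit 532) (nat_lit 11382044297) (nat_lit 217) (nat_lit 5) (nat_lit 223) (nat_lit 5) (nat_lit 224) (nat_lit 5) (nat_lit 648) (nat_lit 577) (nat_lit 335)) (XT.lf (nat_lit 0) (nat_lit 21989238171) (nat_lit 532) (nat_lit 4196700369) (nat_lit 76) (nat_lit 1695024537) (nat_lit 217) (nat_lit 5) (nat_lit 224) (nat_lit 5) (nat_lit 218) (nat_lit 5) (nat_lit 649) (nat_lit 577) (nat_lit 334))))))))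
noncomputable def xc87 : XT := (XT.nd (nat_lit 79950) (nat_lit 0) (nat_lit 0) (XT.nd (nat_lit 78780) (nat_lit 0) (nat_lit 7068) (XT.nd (nat_lit 78156) (nat_lit 0) (nat_lit 12692) (XT.nd (nat_lit 234) (nat_lit 456) (nat_lit 0) (XT.nd (nat_lit 78) (nat_lit 532) (nat_lit 0) (XT.lf (nat_lit 0) (nat_lit 12568660461) (nat_lit 456) (nat_lit 15497214357) (nat_lit 532) (nat_lit 150218007) (nat_lit 211) (nat_lit 5) (nat_lit 217) (nat_lit 5) (nat_lit 218) (nat_lit 5) (nat_lit 650) (nat_lit 577) (nat_lit 333)) (XT.nd (nat_lit 78) (nat_lit 0) (nat_lit 0) (XT.lf (nat_lit 0) (nat_lit 1141412644) (nat_lit 456) (nat_lit 4522024133) (nat_lit 532) (nat_lit 22893104477) (nat_lit 204) (nat_lit 5) (nat_lit 210) (nat_lit 5) (nat_lit 211) (nat_lit 5) (nat_lit 651) (nat_lit 577) (nat_lit 332)) (XT.lf (nat_lit 0) (nat_lit 11736798620) (nat_lit 532) (nat_lit 10473776522) (nat_lit 76) (nat_lit 6690294879) (nat_lit 204) (nat_lit 5) (nat_lit 211) (nat_lit 5) (nat_lit 205) (nat_lit 5) (nat_lit 652) (nat_lit 577) (nat_lit 331)))) (XT.nd (nat_lit 77766) (nat_lit 0) (nat_lit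 16872) (XT.nd (nat_lit 78) (nat_lit 0) (nat_lit 0) (XT.lf (nat_lit 0) (nat_lit 6861341256) (nat_lit 456) (nat_lit 11141274366) (nat_lit 532) (nat_lit 11248050112) (nat_lit 198) (nat_lit 5) (nat_lit 204) (nat_lit 5) (nat_lit 205) (nat_lit 5) (nat_lit 653) (nat_lit 577) (nat_lit 330)) (XT.lf (nat_lit 0) (nat_lit 24461986932) (nat_lit 532) (nat_lit 4927478558) (nat_lit 76) (nat_lit 216627241) (nat_lit 198) (nat_lit 5) (nat_lit 205) (nat_lit 5) (nat_lit 199) (nat_lit 5) (nat_lit 654) (nat_lit 577) (nat_lit 329))) (XT.nd (nat_lit 78) (nat_lit 0) (nat_lit 0) (XT.lf (nat_lit 0) (nat_lit 5251233364) (nat_lit 988) (nat_lit 12100329826) (nat_lit 76) (nat_lit 492621905) (nat_lit 420) (nat_lit 5) (nat_lit 433) (nat_lit 5) (nat_lit 421) (nat_lit 5) (nat_lit 609) (nat_lit 578) (nat_lit 373)) (XT.lf (nat_lit 0) (nat_lit 7304865714) (nat_lit 988) (nat_lit 2340843159) (nat_lit 76) (nat_lit 8390307542) (nat_lit 420) (nat_lit 5) (nat_lit 433) (nat_lit 5) (nat_lit 421) (nat_lit 5) (nat_lit 610) (nat_lit 578) (nat_lit 372))))) (XT.nd (nat_lit 312) (nat_lit 1672)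 (nat_lit 0) (XT.nd (nat_lit 156) (nat_lit 1672) (nat_lit 0) (XT.nd (nat_lit 78) (nat_lit 0) (nat_lit 0) (XT.lf (nat_lit 0) (nat_lit 7709154153) (nat_lit 836) (nat_lit 1734444434) (nat_lit 912) (nat_lit 8787205557) (nat_lit 409) (nat_lit 5) (nat_lit 420) (nat_lit 5) (nat_lit 421) (nat_lit 5) (nat_lit 611) (nat_lit 578) (nat_lit 371)) (XT.lf (nat_lit 0) (nat_lit 11676106778) (nat_lit 912) (nat_lit 484395103) (nat_lit 76) (nat_lit 6267966063) (nat_lit 409) (nat_lit 5) (nat_lit 421) (nat_lit 5) (nat_lit 410) (nat_lit 5) (nat_lit 612) (nat_lit 578) (nat_lit 370))) (XT.nd (nat_lit 78) (nat_lit 836) (nat_lit 0) (XT.lf (nat_lit 0) (nat_lit 9865756274) (nat_lit 836) (nat_lit 4157223835) (nat_lit 912) (nat_lit 4605710938) (nat_lit 398) (nat_lit 5) (nat_lit 409) (nat_lit 5) (nat_lit 410) (nat_lit 5) (nat_lit 613) (nat_lit 578) (nat_lit 369)) (XT.lf (nat_lit 0) (nat_lit 1585555046) (nat_lit 836) (nat_lit 14865063707) (nat_lit 912) (nat_lit 2381623621) (nat_lit 387) (nat_lit 5) (nat_lit 398) (nat_lit 5) (nat_lit 399) (nat_lit 5) (nat_lit 614) (nat_lit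 578) (nat_lit 368)))) (XT.nd (nat_lit 156) (nat_lit 760) (nat_lit 0) (XT.nd (nat_lit 78) (nat_lit 912) (nat_lit 0) (XT.lf (nat_lit 0) (nat_lit 12226108691) (nat_lit 836) (nat_lit 6781181567) (nat_lit 912) (nat_lit 30965181) (nat_lit 387) (nat_lit 5) (nat_lit 398) (nat_lit 5) (nat_lit 399) (nat_lit 5) (nat_lit 615) (nat_lit 578) (nat_lit 367)) (XT.lf (nat_lit 0) (nat_lit 2364906819) (nat_lit 912) (nat_lit 15396869901) (nat_lit 76) (nat_lit 1485720218) (nat_lit 375) (nat_lit 5) (nat_lit 387) (nat_lit 5) (nat_lit 376) (nat_lit 5) (nat_lit 616) (nat_lit 578) (nat_lit 366))) (XT.nd (nat_lit 78) (nat_lit 760) (nat_lit 0) (XT.lf (nat_lit 0) (nat_lit 4893677939) (nat_lit 912) (nat_lit 4692254148) (nat_lit 76) (nat_lit 9873279455) (nat_lit 375) (nat_lit 5) (nat_lit 387) (nat_lit 5) (nat_lit 376) (nat_lit 5) (nat_lit 617) (nat_lit 578) (nat_lit 365)) (XT.lf (nat_lit 0) (nat_lit 6303412947) (nat_lit 760) (nat_lit 1205117476) (nat_lit 836) (nat_lit 12165920185) (nat_lit 365) (nat_lit 5) (nat_lit 375) (nat_lit 5) (nat_lit 376) (nat_lit 5) (nat_lit 618)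 (nat_lit 578) (nat_lit 364)))))) (XT.nd (nat_lit 546) (nat_lit 2660) (nat_lit 0) (XT.nd (nat_lit 234) (nat_lit 1520) (nat_lit 0) (XT.nd (nat_lit 78) (nat_lit 1444) (nat_lit 0) (XT.lf (nat_lit 0) (nat_lit 10249700981) (nat_lit 836) (nat_lit 2364431757) (nat_lit 76) (nat_lit 7278381579) (nat_lit 365) (nat_lit 5) (nat_lit 376) (nat_lit 5) (nat_lit 366) (nat_lit 5) (nat_lit 619) (nat_lit 578) (nat_lit 363)) (XT.nd (nat_lit 78) (nat_lit 684) (nat_lit 0) (XT.lf (nat_lit 0) (nat_lit 8966253708) (nat_lit 760) (nat_lit 4140389313) (nat_lit 836) (nat_lit 7007077597) (nat_lit 355) (nat_lit 5) (nat_lit 365) (nat_lit 5) (nat_lit 366) (nat_lit 5) (nat_lit 620) (nat_lit 578) (nat_lit 362)) (XT.lf (nat_lit 0) (nat_lit 183911875) (nat_lit 684) (nat_lit 15878028862) (nat_lit 760) (nat_lit 4276586243) (nat_lit 346) (nat_lit 5) (nat_lit 355) (nat_lit 5) (nat_lit 356) (nat_lit 5) (nat_lit 621) (nat_lit 578) (nat_lit 361)))) (XT.nd (nat_lit 156) (nat_lit 684) (nat_lit 0) (XT.nd (nat_lit 78) (nat_lit 836) (nat_lit 0) (XT.lf (nat_lit 0) (nat_lit 11859549190) (nat_lit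 684) (nat_lit 7313720434) (nat_lit 760) (nat_lit 1392621609) (nat_lit 346) (nat_lit 5) (nat_lit 355) (nat_lit 5) (nat_lit 356) (nat_lit 5) (nat_lit 622) (nat_lit 578) (nat_lit 360)) (XT.lf (nat_lit 0) (nat_lit 1552519239) (nat_lit 836) (nat_lit 17812272706) (nat_lit 76) (nat_lit 1432333683) (nat_lit 335) (nat_lit 5) (nat_lit 346) (nat_lit 5) (nat_lit 336) (nat_lit 5) (nat_lit 623) (nat_lit 578) (nat_lit 359))) (XT.nd (nat_lit 78) (nat_lit 684) (nat_lit 0) (XT.lf (nat_lit 0) (nat_lit 4640185366) (nat_lit 836) (nat_lit 6067678868) (nat_lit 76) (nat_lit 10322891232) (nat_lit 335) (nat_lit 5) (nat_lit 346) (nat_lit 5) (nat_lit 336) (nat_lit 5) (nat_lit 624) (nat_lit 578) (nat_lit 358)) (XT.lf (nat_lit 0) (nat_lit 5984702814) (nat_lit 684) (nat_lit 1838862531) (nat_lit 760) (nat_lit 13444813591) (nat_lit 326) (nat_lit 5) (nat_lit 335) (nat_lit 5) (nat_lit 336) (nat_lit 5) (nat_lit 625) (nat_lit 578) (nat_lit 357))))) (XT.nd (nat_lit 312) (nat_lit 1368) (nat_lit 0) (XT.nd (nat_lit 156) (nat_lit 608) (nat_lit 0) (XT.nd (nat_lit 78) (nat_lit 684)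 (nat_lit 0) (XT.lf (nat_lit 0) (nat_lit 11153554993) (nat_lit 760) (nat_lit 3202275023) (nat_lit 76) (nat_lit 7153266259) (nat_lit 326) (nat_lit 5) (nat_lit 336) (nat_lit 5) (nat_lit 327) (nat_lit 5) (nat_lit 626) (nat_lit 578) (nat_lit 356)) (XT.lf (nat_lit 0) (nat_lit 9224011592) (nat_lit 684) (nat_lit 5393453165) (nat_lit 760) (nat_lit 7135817036) (nat_lit 317) (nat_lit 5) (nat_lit 326) (nat_lit 5) (nat_lit 327) (nat_lit 5) (nat_lit 627) (nat_lit 578) (nat_lit 355))) (XT.nd (nat_lit 78) (nat_lit 608) (nat_lit 0) (XT.lf (nat_lit 0) (nat_lit 18191925660) (nat_lit 760) (nat_lit 89759002) (nat_lit 76) (nat_lit 3719841132) (nat_lit 317) (nat_lit 5) (nat_lit 327) (nat_lit 5) (nat_lit 318) (nat_lit 5) (nat_lit 628) (nat_lit 578) (nat_lit 354)) (XT.lf (nat_lit 0) (nat_lit 12724222839) (nat_lit 608) (nat_lit 9227383376) (nat_lit 684) (nat_lit 300854079) (nat_lit 309) (nat_lit 5) (nat_lit 317) (nat_lit 5) (nat_lit 318) (nat_lit 5) (nat_lit 629) (nat_lit 578) (nat_lit 353)))) (XT.nd (nat_lit 156) (nat_lit 608) (nat_lit 0) (XT.nd (nat_lit 78) (nat_lit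 0) (nat_lit 0) (XT.lf (nat_lit 0) (nat_lit 3252887075) (nat_lit 760) (nat_lit 19204135590) (nat_lit 76) (nat_lit 50609118) (nat_lit 299) (nat_lit 5) (nat_lit 309) (nat_lit 5) (nat_lit 300) (nat_lit 5) (nat_lit 630) (nat_lit 578) (nat_lit 352)) (XT.lf (nat_lit 0) (nat_lit 6994620542) (nat_lit 760) (nat_lit 6314685081) (nat_lit 76) (nat_lit 9456142603) (nat_lit 299) (nat_lit 5) (nat_lit 309) (nat_lit 5) (nat_lit 300) (nat_lit 5) (nat_lit 631) (nat_lit 578) (nat_lit 351))) (XT.nd (nat_lit 78) (nat_lit 0) (nat_lit 0) (XT.lf (nat_lit 0) (nat_lit 6917836935) (nat_lit 608) (nat_lit 3933826470) (nat_lit 684) (nat_lit 12175948309) (nat_lit 291) (nat_lit 5) (nat_lit 299) (nat_lit 5) (nat_lit 300) (nat_lit 5) (nat_lit 632) (nat_lit 578) (nat_lit 350)) (XT.lf (nat_lit 0) (nat_lit 14860655715) (nat_lit 684) (nat_lit 2835884937) (nat_lit 76) (nat_lit 5596981853) (nat_lit 291) (nat_lit 5) (nat_lit 300) (nat_lit 5) (nat_lit 292) (nat_lit 5) (nat_lit 633) (nat_lit 578) (nat_lit 349))))))) (XT.nd (nat_lit 1170) (nat_lit 1900) (nat_lit 0) (XT.nd (nat_lit 546)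 (nat_lit 2736) (nat_lit 0) (XT.nd (nat_lit 234) (nat_lit 1140) (nat_lit 0) (XT.nd (nat_lit 78) (nat_lit 684) (nat_lit 0) (XT.lf (nat_lit 0) (nat_lit 10813872747) (nat_lit 608) (nat_lit 8227908815) (nat_lit 684) (nat_lit 4521131079) (nat_lit 283) (nat_lit 5) (nat_lit 291) (nat_lit 5) (nat_lit 292) (nat_lit 5) (nat_lit 634) (nat_lit 578) (nat_lit 348)) (XT.nd (nat_lit 78) (nat_lit 76) (nat_lit 0) (XT.lf (nat_lit 0) (nat_lit 935183824) (nat_lit 608) (nat_lit 22401593090) (nat_lit 684) (nat_lit 500308924) (nat_lit 275) (nat_lit 5) (nat_lit 283) (nat_lit 5) (nat_lit 284) (nat_lit 5) (nat_lit 635) (nat_lit 578) (nat_lit 347)) (XT.lf (nat_lit 0) (nat_lit 3690065879) (nat_lit 684) (nat_lit 9133006306) (nat_lit 76) (nat_lit 11290475651) (nat_lit 274) (nat_lit 5) (nat_lit 283) (nat_lit 5) (nat_lit 275) (nat_lit 5) (nat_lit 636) (nat_lit 578) (nat_lit 346)))) (XT.nd (nat_lit 156) (nat_lit 532) (nat_lit 0) (XT.nd (nat_lit 78) (nat_lit 0) (nat_lit 0) (XT.lf (nat_lit 0) (nat_lit 4967766169) (nat_lit 608) (nat_lit 3017880662) (nat_lit 684) (nat_lit 16409264335)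 (nat_lit 266) (nat_lit 5) (nat_lit 274) (nat_lit 5) (nat_lit 275) (nat_lit 5) (nat_lit 637) (nat_lit 578) (nat_lit 345)) (XT.lf (nat_lit 0) (nat_lit 12470050447) (nat_lit 684) (nat_lit 5257449066) (nat_lit 76) (nat_lit 6952344209) (nat_lit 266) (nat_lit 5) (nat_lit 275) (nat_lit 5) (nat_lit 267) (nat_lit 5) (nat_lit 638) (nat_lit 578) (nat_lit 344))) (XT.nd (nat_lit 78) (nat_lit 0) (nat_lit 0) (XT.lf (nat_lit 0) (nat_lit 9292249228) (nat_lit 532) (nat_lit 7828168094) (nat_lit 608) (nat_lit 7848532286) (nat_lit 259) (nat_lit 5) (nat_lit 266) (nat_lit 5) (nat_lit 267) (nat_lit 5) (nat_lit 639) (nat_lit 578) (nat_lit 343)) (XT.lf (nat_lit 0) (nat_lit 21910033194) (nat_lit 608) (nat_lit 1079203330) (nat_lit 76) (nat_lit 2273676429) (nat_lit 259) (nat_lit 5) (nat_lit 267) (nat_lit 5) (nat_lit 260) (nat_lit 5) (nat_lit 640) (nat_lit 578) (nat_lit 342))))) (XT.nd (nat_lit 312) (nat_lit 1064) (nat_lit 0) (XT.nd (nat_lit 156) (nat_lit 532) (nat_lit 0) (XT.nd (nat_lit 78) (nat_lit 532) (nat_lit 0) (XT.lf (nat_lit 0) (nat_lit 1355832462) (nat_lit 608)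 (nat_lit 11632941841) (nat_lit 76) (nat_lit 12571035092) (nat_lit 251) (nat_lit 5) (nat_lit 259) (nat_lit 5) (nat_lit 252) (nat_lit 5) (nat_lit 641) (nat_lit 578) (nat_lit 341)) (XT.lf (nat_lit 0) (nat_lit 3402333436) (nat_lit 532) (nat_lit 2737003570) (nat_lit 608) (nat_lit 19722353413) (nat_lit 244) (nat_lit 5) (nat_lit 251) (nat_lit 5) (nat_lit 252) (nat_lit 5) (nat_lit 642) (nat_lit 578) (nat_lit 340))) (XT.nd (nat_lit 78) (nat_lit 532) (nat_lit 0) (XT.lf (nat_lit 0) (nat_lit 11143339173) (nat_lit 608) (nat_lit 7327945673) (nat_lit 76) (nat_lit 7695827831) (nat_lit 244) (nat_lit 5) (nat_lit 252) (nat_lit 5) (nat_lit 245) (nat_lit 5) (nat_lit 643) (nat_lit 578) (nat_lit 339)) (XT.lf (nat_lit 0) (nat_lit 8190226833) (nat_lit 532) (nat_lit 8124698074) (nat_lit 608) (nat_lit 10162368559) (nat_lit 237) (nat_lit 5) (nat_lit 244) (nat_lit 5) (nat_lit 245) (nat_lit 5) (nat_lit 644) (nat_lit 578) (nat_lit 338)))) (XT.nd (nat_lit 156) (nat_lit 532) (nat_lit 0) (XT.nd (nat_lit 78) (nat_lit 532) (nat_lit 0) (XT.lf (nat_lit 0) (nat_lit 21651445540)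 (nat_lit 608) (nat_lit 2695884520) (nat_lit 76) (nat_lit 2445117906) (nat_lit 237) (nat_lit 5) (nat_lit 245) (nat_lit 5) (nat_lit 238) (nat_lit 5) (nat_lit 645) (nat_lit 578) (nat_lit 337)) (XT.lf (nat_lit 0) (nat_lit 118562471) (nat_lit 532) (nat_lit 13788993339) (nat_lit 76) (nat_lit 13203601999) (nat_lit 230) (nat_lit 5) (nat_lit 237) (nat_lit 5) (nat_lit 231) (nat_lit 5) (nat_lit 646) (nat_lit 578) (nat_lit 336))) (XT.nd (nat_lit 78) (nat_lit 0) (nat_lit 0) (XT.lf (nat_lit 0) (nat_lit 2251496674) (nat_lit 532) (nat_lit 3192199871) (nat_lit 608) (nat_lit 21991281493) (nat_lit 223) (nat_lit 5) (nat_lit 230) (nat_lit 5) (nat_lit 231) (nat_lit 5) (nat_lit 647) (nat_lit 578) (nat_lit 335)) (XT.lf (nat_lit 0) (nat_lit 11015066856) (nat_lit 608) (nat_lit 9019697447) (nat_lit 76) (nat_lit 7727715842) (nat_lit 223) (nat_lit 5) (nat_lit 231) (nat_lit 5) (nat_lit 224) (nat_lit 5) (nat_lit 648) (nat_lit 578) (nat_lit 334)))))) (XT.nd (nat_lit 78000) (nat_lit 0) (nat_lit 14364) (XT.nd (nat_lit 234) (nat_lit 912) (nat_lit 0) (XT.nd (nat_lit 78) (nat_lit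 532) (nat_lit 0) (XT.lf (nat_lit 0) (nat_lit 7540078103) (nat_lit 456) (nat_lit 9224306191) (nat_lit 532) (nat_lit 11330817748) (nat_lit 217) (nat_lit 5) (nat_lit 223) (nat_lit 5) (nat_lit 224) (nat_lit 5) (nat_lit 649) (nat_lit 578) (nat_lit 333)) (XT.nd (nat_lit 78) (nat_lit 532) (nat_lit 0) (XT.lf (nat_lit 0) (nat_lit 22697770259) (nat_lit 532) (nat_lit 3897218693) (nat_lit 76) (nat_lit 1838207920) (nat_lit 217) (nat_lit 5) (nat_lit 224) (nat_lit 5) (nat_lit 218) (nat_lit 5) (nat_lit 650) (nat_lit 578) (nat_lit 332)) (XT.lf (nat_lit 0) (nat_lit 116509394) (nat_lit 532) (nat_lit 15574924979) (nat_lit 76) (nat_lit 13083635649) (nat_lit 210) (nat_lit 5) (nat_lit 217) (nat_lit 5) (nat_lit 211) (nat_lit 5) (nat_lit 651) (nat_lit 578) (nat_lit 331)))) (XT.nd (nat_lit 156) (nat_lit 456) (nat_lit 0) (XT.nd (nat_lit 78) (nat_lit 0) (nat_lit 0) (XT.lf (nat_lit 0) (nat_lit 1546172759) (nat_lit 456) (nat_lit 4495485278) (nat_lit 532) (nat_lit 23080705079) (nat_lit 204) (nat_lit 5) (nat_lit 210) (nat_lit 5) (nat_lit 211) (nat_lit 5) (nat_lit 652)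 (nat_lit 578) (nat_lit 330)) (XT.lf (nat_lit 0) (nat_lit 12232036583) (nat_lit 532) (nat_lit 10304348799) (nat_lit 76) (nat_lit 6937282280) (nat_lit 204) (nat_lit 5) (nat_lit 211) (nat_lit 5) (nat_lit 205) (nat_lit 5) (nat_lit 653) (nat_lit 578) (nat_lit 329))) (XT.nd (nat_lit 77532) (nat_lit 0) (nat_lit 18696) (XT.lf (nat_lit 0) (nat_lit 7374978550) (nat_lit 456) (nat_lit 11245527399) (nat_lit 532) (nat_lit 11210006810) (nat_lit 198) (nat_lit 5) (nat_lit 204) (nat_lit 5) (nat_lit 205) (nat_lit 5) (nat_lit 654) (nat_lit 578) (nat_lit 328)) (XT.lf (nat_lit 0) (nat_lit 131704477) (nat_lit 1140) (nat_lit 5186793899) (nat_lit 76) (nat_lit 12301935135) (nat_lit 444) (nat_lit 5) (nat_lit 459) (nat_lit 5) (nat_lit 445) (nat_lit 5) (nat_lit 607) (nat_lit 579) (nat_lit 374))))) (XT.nd (nat_lit 312) (nat_lit 2508) (nat_lit 0) (XT.nd (nat_lit 156) (nat_lit 912) (nat_lit 0) (XT.nd (nat_lit 78) (nat_lit 0) (nat_lit 0) (XT.lf (nat_lit 0) (nat_lit 1933235893) (nat_lit 988) (nat_lit 13344059164) (nat_lit 76) (nat_lit 2530967345) (nat_lit 432) (nat_lit 5)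 (nat_lit 445) (nat_lit 5) (nat_lit 433) (nat_lit 5) (nat_lit 608) (nat_lit 579) (nat_lit 373)) (XT.lf (nat_lit 0) (nat_lit 3834945921) (nat_lit 988) (nat_lit 3661775698) (nat_lit 76) (nat_lit 10501843637) (nat_lit 432) (nat_lit 5) (nat_lit 445) (nat_lit 5) (nat_lit 433) (nat_lit 5) (nat_lit 609) (nat_lit 579) (nat_lit 372))) (XT.nd (nat_lit 78) (nat_lit 0) (nat_lit 0) (XT.lf (nat_lit 0) (nat_lit 5812671706) (nat_lit 988) (nat_lit 11904030314) (nat_lit 76) (nat_lit 475212855) (nat_lit 420) (nat_lit 5) (nat_lit 433) (nat_lit 5) (nat_lit 421) (nat_lit 5) (nat_lit 610) (nat_lit 579) (nat_lit 371)) (XT.lf (nat_lit 0) (nat_lit 7898427415) (nat_lit 988) (nat_lit 1957948152) (nat_lit 76) (nat_lit 8531386744) (nat_lit 420) (nat_lit 5) (nat_lit 433) (nat_lit 5) (nat_lit 421) (nat_lit 5) (nat_lit 611) (nat_lit 579) (nat_lit 370)))) (XT.nd (nat_lit 156) (nat_lit 1672) (nat_lit 0) (XT.nd (nat_lit 78) (nat_lit 0) (nat_lit 0) (XT.lf (nat_lit 0) (nat_lit 8290222055) (nat_lit 836) (nat_lit 1783710698) (nat_lit 912) (nat_lit 8512633578) (nat_lit 409) (nat_lit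 5) (nat_lit 420) (nat_lit 5) (nat_lit 421) (nat_lit 5) (nat_lit 612) (nat_lit 579) (nat_lit 369)) (XT.lf (nat_lit 0) (nat_lit 12342342196) (nat_lit 912) (nat_lit 66795396) (nat_lit 76) (nat_lit 6379221276) (nat_lit 409) (nat_lit 5) (nat_lit 421) (nat_lit 5) (nat_lit 410) (nat_lit 5) (nat_lit 613) (nat_lit 579) (nat_lit 368))) (XT.nd (nat_lit 78) (nat_lit 836) (nat_lit 0) (XT.lf (nat_lit 0) (nat_lit 10487547906) (nat_lit 836) (nat_lit 4242876497) (nat_lit 912) (nat_lit 4262277076) (nat_lit 398) (nat_lit 5) (nat_lit 409) (nat_lit 5) (nat_lit 410) (nat_lit 5) (nat_lit 614) (nat_lit 579) (nat_lit 367)) (XT.lf (nat_lit 0) (nat_lit 2047473273) (nat_lit 836) (nat_lit 15153547522) (nat_lit 912) (nat_lit 1999415403) (nat_lit 387) (nat_lit 5) (nat_lit 398) (nat_lit 5) (nat_lit 399) (nat_lit 5) (nat_lit 615) (nat_lit 579) (nat_lit 366))))))))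
noncomputable def xc88 : XT := (XT.nd (nat_lit 2340) (nat_lit 2508) (nat_lit 0) (XT.nd (nat_lit 1170) (nat_lit 5396) (nat_lit 0) (XT.nd (nat_lit 546) (nat_lit 2888) (nat_lit 0) (XT.nd (nat_lit 234) (nat_lit 2204) (nat_lit 0) (XT.nd (nat_lit 78) (nat_lit 836) (nat_lit 0) (XT.lf (nat_lit 0) (nat_lit 384715293) (nat_lit 912) (nat_lit 6520863695) (nat_lit 76) (nat_lit 12505105622) (nat_lit 386) (nat_lit 5) (nat_lit 398) (nat_lit 5) (nat_lit 387) (nat_lit 5) (nat_lit 616) (nat_lit 579) (nat_lit 365)) (XT.nd (nat_lit 78) (nat_lit 0) (nat_lit 0) (XT.lf (nat_lit 0) (nat_lit 2822783120) (nat_lit 912) (nat_lit 15272157110) (nat_lit 76) (nat_lit 1529273193) (nat_lit 375) (nat_lit 5) (nat_lit 387) (nat_lit 5) (nat_lit 376) (nat_lit 5) (nat_lit 617) (nat_lit 579) (nat_lit 364)) (XT.lf (nat_lit 0) (nat_lit 5394079110) (nat_lit 912) (nat_lit 4361932379) (nat_lit 76) (nat_lit 10084312269) (nat_lit 375) (nat_lit 5) (nat_lit 387) (nat_lit 5) (nat_lit 376) (nat_lit 5) (nat_lit 618) (nat_lit 579) (nat_lit 363)))) (XT.nd (nat_lit 156) (nat_lit 1444) (nat_lit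 0) (XT.nd (nat_lit 78) (nat_lit 0) (nat_lit 0) (XT.lf (nat_lit 0) (nat_lit 6850857486) (nat_lit 760) (nat_lit 1205214314) (nat_lit 836) (nat_lit 12003899364) (nat_lit 365) (nat_lit 5) (nat_lit 375) (nat_lit 5) (nat_lit 376) (nat_lit 5) (nat_lit 619) (nat_lit 579) (nat_lit 362)) (XT.lf (nat_lit 0) (nat_lit 10844426989) (nat_lit 836) (nat_lit 1990946984) (nat_lit 76) (nat_lit 7447175363) (nat_lit 365) (nat_lit 5) (nat_lit 376) (nat_lit 5) (nat_lit 366) (nat_lit 5) (nat_lit 620) (nat_lit 579) (nat_lit 361))) (XT.nd (nat_lit 78) (nat_lit 684) (nat_lit 0) (XT.lf (nat_lit 0) (nat_lit 9563583945) (nat_lit 760) (nat_lit 4189996088) (nat_lit 836) (nat_lit 6754698691) (nat_lit 355) (nat_lit 5) (nat_lit 365) (nat_lit 5) (nat_lit 366) (nat_lit 5) (nat_lit 621) (nat_lit 579) (nat_lit 360)) (XT.lf (nat_lit 0) (nat_lit 610296638) (nat_lit 684) (nat_lit 16153097714) (nat_lit 760) (nat_lit 3974279046) (nat_lit 346) (nat_lit 5) (nat_lit 355) (nat_lit 5) (nat_lit 356) (nat_lit 5) (nat_lit 622) (nat_lit 579) (nat_lit 359))))) (XT.nd (nat_lit 312) (nat_lit 1368)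 (nat_lit 0) (XT.nd (nat_lit 156) (nat_lit 684) (nat_lit 0) (XT.nd (nat_lit 78) (nat_lit 836) (nat_lit 0) (XT.lf (nat_lit 0) (nat_lit 12511158335) (nat_lit 684) (nat_lit 7418336288) (nat_lit 760) (nat_lit 1040239803) (nat_lit 346) (nat_lit 5) (nat_lit 355) (nat_lit 5) (nat_lit 356) (nat_lit 5) (nat_lit 623) (nat_lit 579) (nat_lit 358)) (XT.lf (nat_lit 0) (nat_lit 1954463608) (nat_lit 836) (nat_lit 17744722005) (nat_lit 76) (nat_lit 1506445965) (nat_lit 335) (nat_lit 5) (nat_lit 346) (nat_lit 5) (nat_lit 336) (nat_lit 5) (nat_lit 624) (nat_lit 579) (nat_lit 357))) (XT.nd (nat_lit 78) (nat_lit 684) (nat_lit 0) (XT.lf (nat_lit 0) (nat_lit 5096610626) (nat_lit 836) (nat_lit 5773546018) (nat_lit 76) (nat_lit 10573923182) (nat_lit 335) (nat_lit 5) (nat_lit 346) (nat_lit 5) (nat_lit 336) (nat_lit 5) (nat_lit 625) (nat_lit 579) (nat_lit 356)) (XT.lf (nat_lit 0) (nat_lit 6517149834) (nat_lit 684) (nat_lit 1822058403) (nat_lit 760) (nat_lit 13347336888) (nat_lit 326) (nat_lit 5) (nat_lit 335) (nat_lit 5) (nat_lit 336) (nat_lit 5) (nat_lit 626) (nat_lit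 579) (nat_lit 355)))) (XT.nd (nat_lit 156) (nat_lit 684) (nat_lit 0) (XT.nd (nat_lit 78) (nat_lit 684) (nat_lit 0) (XT.lf (nat_lit 0) (nat_lit 11729096163) (nat_lit 760) (nat_lit 2854941634) (nat_lit 76) (nat_lit 7348173397) (nat_lit 326) (nat_lit 5) (nat_lit 336) (nat_lit 5) (nat_lit 327) (nat_lit 5) (nat_lit 627) (nat_lit 579) (nat_lit 354)) (XT.lf (nat_lit 0) (nat_lit 9817164273) (nat_lit 684) (nat_lit 5440862043) (nat_lit 760) (nat_lit 6923339607) (nat_lit 317) (nat_lit 5) (nat_lit 326) (nat_lit 5) (nat_lit 327) (nat_lit 5) (nat_lit 628) (nat_lit 579) (nat_lit 353))) (XT.nd (nat_lit 78) (nat_lit 76) (nat_lit 0) (XT.lf (nat_lit 0) (nat_lit 319758535) (nat_lit 608) (nat_lit 18579851146) (nat_lit 684) (nat_lit 3535052797) (nat_lit 309) (nat_lit 5) (nat_lit 317) (nat_lit 5) (nat_lit 318) (nat_lit 5) (nat_lit 629) (nat_lit 579) (nat_lit 352)) (XT.lf (nat_lit 0) (nat_lit 37100224) (nat_lit 684) (nat_lit 9307835203) (nat_lit 76) (nat_lit 13345798722) (nat_lit 308) (nat_lit 5) (nat_lit 317) (nat_lit 5) (nat_lit 309) (nat_lit 5) (nat_lit 630)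 (nat_lit 579) (nat_lit 351)))))) (XT.nd (nat_lit 546) (nat_lit 2812) (nat_lit 0) (XT.nd (nat_lit 234) (nat_lit 1292) (nat_lit 0) (XT.nd (nat_lit 78) (nat_lit 608) (nat_lit 0) (XT.lf (nat_lit 0) (nat_lit 3654320632) (nat_lit 760) (nat_lit 19175656864) (nat_lit 76) (nat_lit 121063461) (nat_lit 299) (nat_lit 5) (nat_lit 309) (nat_lit 5) (nat_lit 300) (nat_lit 5) (nat_lit 631) (nat_lit 579) (nat_lit 350)) (XT.nd (nat_lit 78) (nat_lit 608) (nat_lit 0) (XT.lf (nat_lit 0) (nat_lit 7464293164) (nat_lit 760) (nat_lit 6036506785) (nat_lit 76) (nat_lit 9713346004) (nat_lit 299) (nat_lit 5) (nat_lit 309) (nat_lit 5) (nat_lit 300) (nat_lit 5) (nat_lit 632) (nat_lit 579) (nat_lit 349)) (XT.lf (nat_lit 0) (nat_lit 7458004671) (nat_lit 608) (nat_lit 3936614757) (nat_lit 684) (nat_lit 12087010737) (nat_lit 291) (nat_lit 5) (nat_lit 299) (nat_lit 5) (nat_lit 300) (nat_lit 5) (nat_lit 633) (nat_lit 579) (nat_lit 348)))) (XT.nd (nat_lit 156) (nat_lit 684) (nat_lit 0) (XT.nd (nat_lit 78) (nat_lit 608) (nat_lit 0) (XT.lf (nat_lit 0) (nat_lit 15477883998) (nat_lit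 684) (nat_lit 2492747672) (nat_lit 76) (nat_lit 5782345955) (nat_lit 291) (nat_lit 5) (nat_lit 300) (nat_lit 5) (nat_lit 292) (nat_lit 5) (nat_lit 634) (nat_lit 579) (nat_lit 347)) (XT.lf (nat_lit 0) (nat_lit 11427374540) (nat_lit 608) (nat_lit 8311562058) (nat_lit 684) (nat_lit 4288893175) (nat_lit 283) (nat_lit 5) (nat_lit 291) (nat_lit 5) (nat_lit 292) (nat_lit 5) (nat_lit 635) (nat_lit 579) (nat_lit 346))) (XT.nd (nat_lit 78) (nat_lit 76) (nat_lit 0) (XT.lf (nat_lit 0) (nat_lit 1354276090) (nat_lit 608) (nat_lit 22762468003) (nat_lit 684) (nat_lit 190804385) (nat_lit 275) (nat_lit 5) (nat_lit 283) (nat_lit 5) (nat_lit 284) (nat_lit 5) (nat_lit 636) (nat_lit 579) (nat_lit 345)) (XT.lf (nat_lit 0) (nat_lit 4073004723) (nat_lit 684) (nat_lit 8919006442) (nat_lit 76) (nat_lit 11597610996) (nat_lit 274) (nat_lit 5) (nat_lit 283) (nat_lit 5) (nat_lit 275) (nat_lit 5) (nat_lit 637) (nat_lit 579) (nat_lit 344))))) (XT.nd (nat_lit 312) (nat_lit 1672) (nat_lit 0) (XT.nd (nat_lit 156) (nat_lit 532) (nat_lit 0) (XT.nd (nat_lit 78) (nat_lit 0) (nat_lit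 0) (XT.lf (nat_lit 0) (nat_lit 5461171877) (nat_lit 608) (nat_lit 2989822332) (nat_lit 684) (nat_lit 16425688881) (nat_lit 266) (nat_lit 5) (nat_lit 274) (nat_lit 5) (nat_lit 275) (nat_lit 5) (nat_lit 638) (nat_lit 579) (nat_lit 343)) (XT.lf (nat_lit 0) (nat_lit 13019655866) (nat_lit 684) (nat_lit 4970830764) (nat_lit 76) (nat_lit 7176936536) (nat_lit 266) (nat_lit 5) (nat_lit 275) (nat_lit 5) (nat_lit 267) (nat_lit 5) (nat_lit 639) (nat_lit 579) (nat_lit 342))) (XT.nd (nat_lit 78) (nat_lit 0) (nat_lit 0) (XT.lf (nat_lit 0) (nat_lit 9867284079) (nat_lit 532) (nat_lit 7892386516) (nat_lit 608) (nat_lit 7702708024) (nat_lit 259) (nat_lit 5) (nat_lit 266) (nat_lit 5) (nat_lit 267) (nat_lit 5) (nat_lit 640) (nat_lit 579) (nat_lit 341)) (XT.lf (nat_lit 0) (nat_lit 22639846104) (nat_lit 608) (nat_lit 713983198) (nat_lit 76) (nat_lit 2408496840) (nat_lit 259) (nat_lit 5) (nat_lit 267) (nat_lit 5) (nat_lit 260) (nat_lit 5) (nat_lit 641) (nat_lit 579) (nat_lit 340)))) (XT.nd (nat_lit 156) (nat_lit 532) (nat_lit 0) (XT.nd (nat_lit 78) (nat_lit 532)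 (nat_lit 0) (XT.lf (nat_lit 0) (nat_lit 1673260609) (nat_lit 608) (nat_lit 11477470830) (nat_lit 76) (nat_lit 12914455588) (nat_lit 251) (nat_lit 5) (nat_lit 259) (nat_lit 5) (nat_lit 252) (nat_lit 5) (nat_lit 642) (nat_lit 579) (nat_lit 339)) (XT.lf (nat_lit 0) (nat_lit 3855956467) (nat_lit 532) (nat_lit 2693289812) (nat_lit 608) (nat_lit 19823923413) (nat_lit 244) (nat_lit 5) (nat_lit 251) (nat_lit 5) (nat_lit 252) (nat_lit 5) (nat_lit 643) (nat_lit 579) (nat_lit 338))) (XT.nd (nat_lit 78) (nat_lit 532) (nat_lit 0) (XT.lf (nat_lit 0) (nat_lit 11648325329) (nat_lit 608) (nat_lit 7091473537) (nat_lit 76) (nat_lit 7945001828) (nat_lit 244) (nat_lit 5) (nat_lit 252) (nat_lit 5) (nat_lit 245) (nat_lit 5) (nat_lit 644) (nat_lit 579) (nat_lit 337)) (XT.lf (nat_lit 0) (nat_lit 8734542477) (nat_lit 532) (nat_lit 8185739079) (nat_lit 608) (nat_lit 10080965000) (nat_lit 237) (nat_lit 5) (nat_lit 244) (nat_lit 5) (nat_lit 245) (nat_lit 5) (nat_lit 645) (nat_lit 579) (nat_lit 336))))))) (XT.nd (nat_lit 78624) (nat_lit 0) (nat_lit 9272) (XT.nd (nat_lit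 546) (nat_lit 456) (nat_lit 0) (XT.nd (nat_lit 234) (nat_lit 988) (nat_lit 0) (XT.nd (nat_lit 78) (nat_lit 1064) (nat_lit 0) (XT.lf (nat_lit 0) (nat_lit 22358706657) (nat_lit 608) (nat_lit 2371914772) (nat_lit 76) (nat_lit 2592179464) (nat_lit 237) (nat_lit 5) (nat_lit 245) (nat_lit 5) (nat_lit 238) (nat_lit 5) (nat_lit 646) (nat_lit 579) (nat_lit 335)) (XT.nd (nat_lit 78) (nat_lit 532) (nat_lit 0) (XT.lf (nat_lit 0) (nat_lit 394033837) (nat_lit 532) (nat_lit 13685731566) (nat_lit 76) (nat_lit 13568142614) (nat_lit 230) (nat_lit 5) (nat_lit 237) (nat_lit 5) (nat_lit 231) (nat_lit 5) (nat_lit 647) (nat_lit 579) (nat_lit 334)) (XT.lf (nat_lit 0) (nat_lit 2673074552) (nat_lit 532) (nat_lit 3149685935) (nat_lit 608) (nat_lit 22155502581) (nat_lit 223) (nat_lit 5) (nat_lit 230) (nat_lit 5) (nat_lit 231) (nat_lit 5) (nat_lit 648) (nat_lit 579) (nat_lit 333)))) (XT.nd (nat_lit 156) (nat_lit 532) (nat_lit 0) (XT.nd (nat_lit 78) (nat_lit 456) (nat_lit 0) (XT.lf (nat_lit 0) (nat_lit 11500937367) (nat_lit 608) (nat_lit 8826295387) (nat_lit 76) (nat_lit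 7985175090) (nat_lit 223) (nat_lit 5) (nat_lit 231) (nat_lit 5) (nat_lit 224) (nat_lit 5) (nat_lit 649) (nat_lit 579) (nat_lit 332)) (XT.lf (nat_lit 0) (nat_lit 8062216490) (nat_lit 456) (nat_lit 9300228390) (nat_lit 532) (nat_lit 11289395430) (nat_lit 217) (nat_lit 5) (nat_lit 223) (nat_lit 5) (nat_lit 224) (nat_lit 5) (nat_lit 650) (nat_lit 579) (nat_lit 331))) (XT.nd (nat_lit 78) (nat_lit 532) (nat_lit 0) (XT.lf (nat_lit 0) (nat_lit 23410037202) (nat_lit 532) (nat_lit 3606635882) (nat_lit 76) (nat_lit 1980011382) (nat_lit 217) (nat_lit 5) (nat_lit 224) (nat_lit 5) (nat_lit 218) (nat_lit 5) (nat_lit 651) (nat_lit 579) (nat_lit 330)) (XT.lf (nat_lit 0) (nat_lit 376165825) (nat_lit 532) (nat_lit 15516891364) (nat_lit 76) (nat_lit 13452357988) (nat_lit 210) (nat_lit 5) (nat_lit 217) (nat_lit 5) (nat_lit 211) (nat_lit 5) (nat_lit 652) (nat_lit 579) (nat_lit 329))))) (XT.nd (nat_lit 77766) (nat_lit 0) (nat_lit 16416) (XT.nd (nat_lit 77610) (nat_lit 0) (nat_lit 18240) (XT.nd (nat_lit 78) (nat_lit 0) (nat_lit 0) (XT.lf (nat_lit 0) (nat_lit 1944197196)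 (nat_lit 456) (nat_lit 4472958095) (nat_lit 532) (nat_lit 23282552277) (nat_lit 204) (nat_lit 5) (nat_lit 210) (nat_lit 5) (nat_lit 211) (nat_lit 5) (nat_lit 653) (nat_lit 579) (nat_lit 328)) (XT.lf (nat_lit 0) (nat_lit 12727063696) (nat_lit 532) (nat_lit 10146245796) (nat_lit 76) (nat_lit 7184814453) (nat_lit 204) (nat_lit 5) (nat_lit 211) (nat_lit 5) (nat_lit 205) (nat_lit 5) (nat_lit 654) (nat_lit 579) (nat_lit 327))) (XT.nd (nat_lit 78) (nat_lit 76) (nat_lit 0) (XT.lf (nat_lit 0) (nat_lit 3286734023) (nat_lit 1064) (nat_lit 13314497578) (nat_lit 1140) (nat_lit 1173419730) (nat_lit 445) (nat_lit 5) (nat_lit 459) (nat_lit 5) (nat_lit 460) (nat_lit 5) (nat_lit 607) (nat_lit 580) (nat_lit 373)) (XT.lf (nat_lit 0) (nat_lit 594746546) (nat_lit 1140) (nat_lit 4873812293) (nat_lit 76) (nat_lit 12495049020) (nat_lit 444) (nat_lit 5) (nat_lit 459) (nat_lit 5) (nat_lit 445) (nat_lit 5) (nat_lit 608) (nat_lit 580) (nat_lit 372)))) (XT.nd (nat_lit 156) (nat_lit 912) (nat_lit 0) (XT.nd (nat_lit 78) (nat_lit 0) (nat_lit 0) (XT.lf (nat_lit 0) (nat_lit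 2425708484) (nat_lit 988) (nat_lit 13187597108) (nat_lit 76) (nat_lit 2542020252) (nat_lit 432) (nat_lit 5) (nat_lit 445) (nat_lit 5) (nat_lit 433) (nat_lit 5) (nat_lit 609) (nat_lit 580) (nat_lit 371)) (XT.lf (nat_lit 0) (nat_lit 4356554519) (nat_lit 988) (nat_lit 3319968821) (nat_lit 76) (nat_lit 10673089882) (nat_lit 432) (nat_lit 5) (nat_lit 445) (nat_lit 5) (nat_lit 433) (nat_lit 5) (nat_lit 610) (nat_lit 580) (nat_lit 370))) (XT.nd (nat_lit 78) (nat_lit 0) (nat_lit 0) (XT.lf (nat_lit 0) (nat_lit 6367615714) (nat_lit 988) (nat_lit 11720824773) (nat_lit 76) (nat_lit 458514221) (nat_lit 420) (nat_lit 5) (nat_lit 433) (nat_lit 5) (nat_lit 421) (nat_lit 5) (nat_lit 611) (nat_lit 580) (nat_lit 369)) (XT.lf (nat_lit 0) (nat_lit 8486484762) (nat_lit 988) (nat_lit 1584081480) (nat_lit 76) (nat_lit 8676325370) (nat_lit 420) (nat_lit 5) (nat_lit 433) (nat_lit 5) (nat_lit 421) (nat_lit 5) (nat_lit 612) (nat_lit 580) (nat_lit 368)))))) (XT.nd (nat_lit 546) (nat_lit 3724) (nat_lit 0) (XT.nd (nat_lit 234) (nat_lit 1748) (nat_lit 0) (XT.nd (nat_lit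 78) (nat_lit 836) (nat_lit 0) (XT.lf (nat_lit 0) (nat_lit 8866334857) (nat_lit 836) (nat_lit 1833396229) (nat_lit 912) (nat_lit 8250056481) (nat_lit 409) (nat_lit 5) (nat_lit 420) (nat_lit 5) (nat_lit 421) (nat_lit 5) (nat_lit 613) (nat_lit 580) (nat_lit 367)) (XT.nd (nat_lit 78) (nat_lit 0) (nat_lit 0) (XT.lf (nat_lit 0) (nat_lit 347116703) (nat_lit 836) (nat_lit 12660236547) (nat_lit 912) (nat_lit 6148386281) (nat_lit 398) (nat_lit 5) (nat_lit 409) (nat_lit 5) (nat_lit 410) (nat_lit 5) (nat_lit 614) (nat_lit 580) (nat_lit 366)) (XT.lf (nat_lit 0) (nat_lit 11105292431) (nat_lit 836) (nat_lit 4330144816) (nat_lit 912) (nat_lit 3928887400) (nat_lit 398) (nat_lit 5) (nat_lit 409) (nat_lit 5) (nat_lit 410) (nat_lit 5) (nat_lit 615) (nat_lit 580) (nat_lit 365)))) (XT.nd (nat_lit 156) (nat_lit 836) (nat_lit 0) (XT.nd (nat_lit 78) (nat_lit 76) (nat_lit 0) (XT.lf (nat_lit 0) (nat_lit 2501924398) (nat_lit 836) (nat_lit 15448143406) (nat_lit 912) (nat_lit 1626254258) (nat_lit 387) (nat_lit 5) (nat_lit 398) (nat_lit 5) (nat_lit 399) (nat_lit 5) (nat_lit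 616) (nat_lit 580) (nat_lit 364)) (XT.lf (nat_lit 0) (nat_lit 792145798) (nat_lit 912) (nat_lit 6240553441) (nat_lit 76) (nat_lit 12758182878) (nat_lit 386) (nat_lit 5) (nat_lit 398) (nat_lit 5) (nat_lit 387) (nat_lit 5) (nat_lit 617) (nat_lit 580) (nat_lit 363))) (XT.nd (nat_lit 78) (nat_lit 0) (nat_lit 0) (XT.lf (nat_lit 0) (nat_lit 3273873696) (nat_lit 912) (nat_lit 15161750398) (nat_lit 76) (nat_lit 1573159858) (nat_lit 375) (nat_lit 5) (nat_lit 387) (nat_lit 5) (nat_lit 376) (nat_lit 5) (nat_lit 618) (nat_lit 580) (nat_lit 362)) (XT.lf (nat_lit 0) (nat_lit 5888857667) (nat_lit 912) (nat_lit 4041475091) (nat_lit 76) (nat_lit 10299038909) (nat_lit 375) (nat_lit 5) (nat_lit 387) (nat_lit 5) (nat_lit 376) (nat_lit 5) (nat_lit 619) (nat_lit 580) (nat_lit 361))))) (XT.nd (nat_lit 312) (nat_lit 1520) (nat_lit 0) (XT.nd (nat_lit 156) (nat_lit 1444) (nat_lit 0) (XT.nd (nat_lit 78) (nat_lit 0) (nat_lit 0) (XT.lf (nat_lit 0) (nat_lit 7392888362) (nat_lit 760) (nat_lit 1206245251) (nat_lit 836) (nat_lit 11854377943) (nat_lit 365) (nat_lit 5) (nat_lit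 375) (nat_lit 5) (nat_lit 376) (nat_lit 5) (nat_lit 620) (nat_lit 580) (nat_lit 360)) (XT.lf (nat_lit 0) (nat_lit 11435913749) (nat_lit 836) (nat_lit 1626331660) (nat_lit 76) (nat_lit 7618443123) (nat_lit 365) (nat_lit 5) (nat_lit 376) (nat_lit 5) (nat_lit 366) (nat_lit 5) (nat_lit 621) (nat_lit 580) (nat_lit 359))) (XT.nd (nat_lit 78) (nat_lit 684) (nat_lit 0) (XT.lf (nat_lit 0) (nat_lit 10156629136) (nat_lit 760) (nat_lit 4241884235) (nat_lit 836) (nat_lit 6512514254) (nat_lit 355) (nat_lit 5) (nat_lit 365) (nat_lit 5) (nat_lit 366) (nat_lit 5) (nat_lit 622) (nat_lit 580) (nat_lit 358)) (XT.lf (nat_lit 0) (nat_lit 1028794886) (nat_lit 684) (nat_lit 16435317948) (nat_lit 760) (nat_lit 3680985962) (nat_lit 346) (nat_lit 5) (nat_lit 355) (nat_lit 5) (nat_lit 356) (nat_lit 5) (nat_lit 623) (nat_lit 580) (nat_lit 357)))) (XT.nd (nat_lit 156) (nat_lit 684) (nat_lit 0) (XT.nd (nat_lit 78) (nat_lit 836) (nat_lit 0) (XT.lf (nat_lit 0) (nat_lit 13159707302) (nat_lit 684) (nat_lit 7526662112) (nat_lit 760) (nat_lit 695575321) (nat_lit 346) (nat_lit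 5) (nat_lit 355) (nat_lit 5) (nat_lit 356) (nat_lit 5) (nat_lit 624) (nat_lit 580) (nat_lit 356)) (XT.lf (nat_lit 0) (nat_lit 2350044599) (nat_lit 836) (nat_lit 17692276811) (nat_lit 76) (nat_lit 1580275007) (nat_lit 335) (nat_lit 5) (nat_lit 346) (nat_lit 5) (nat_lit 336) (nat_lit 5) (nat_lit 625) (nat_lit 580) (nat_lit 355))) (XT.nd (nat_lit 78) (nat_lit 684) (nat_lit 0) (XT.lf (nat_lit 0) (nat_lit 5548044524) (nat_lit 836) (nat_lit 5489664356) (nat_lit 76) (nat_lit 10828244903) (nat_lit 335) (nat_lit 5) (nat_lit 346) (nat_lit 5) (nat_lit 336) (nat_lit 5) (nat_lit 626) (nat_lit 580) (nat_lit 354)) (XT.lf (nat_lit 0) (nat_lit 7044218093) (nat_lit 684) (nat_lit 1806998823) (nat_lit 760) (nat_lit 13262137360) (nat_lit 326) (nat_lit 5) (nat_lit 335) (nat_lit 5) (nat_lit 336) (nat_lit 5) (nat_lit 627) (nat_lit 580) (nat_lit 353))))))))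
noncomputable def xc89 : XT := (XT.nd (nat_lit 79716) (nat_lit 0) (nat_lit 5320) (XT.nd (nat_lit 1170) (nat_lit 4180) (nat_lit 0) (XT.nd (nat_lit 546) (nat_lit 2432) (nat_lit 0) (XT.nd (nat_lit 234) (nat_lit 1368) (nat_lit 0) (XT.nd (nat_lit 78) (nat_lit 1292) (nat_lit 0) (XT.lf (nat_lit 0) (nat_lit 12302461313) (nat_lit 760) (nat_lit 2516635921) (nat_lit 76) (nat_lit 7544965597) (nat_lit 326) (nat_lit 5) (nat_lit 336) (nat_lit 5) (nat_lit 327) (nat_lit 5) (nat_lit 628) (nat_lit 580) (nat_lit 352)) (XT.nd (nat_lit 78) (nat_lit 608) (nat_lit 0) (XT.lf (nat_lit 0) (nat_lit 10406310759) (nat_lit 684) (nat_lit 5491566841) (nat_lit 760) (nat_lit 6720405236) (nat_lit 317) (nat_lit 5) (nat_lit 326) (nat_lit 5) (nat_lit 327) (nat_lit 5) (nat_lit 629) (nat_lit 580) (nat_lit 351)) (XT.lf (nat_lit 0) (nat_lit 722664110) (nat_lit 608) (nat_lit 18886010273) (nat_lit 684) (nat_lit 3268043629) (nat_lit 309) (nat_lit 5) (nat_lit 317) (nat_lit 5) (nat_lit 318) (nat_lit 5) (nat_lit 630) (nat_lit 580) (nat_lit 350)))) (XT.nd (nat_lit 156) (nat_lit 608) (nat_lit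 0) (XT.nd (nat_lit 78) (nat_lit 684) (nat_lit 0) (XT.lf (nat_lit 0) (nat_lit 364588399) (nat_lit 684) (nat_lit 9100898298) (nat_lit 76) (nat_lit 13672511578) (nat_lit 308) (nat_lit 5) (nat_lit 317) (nat_lit 5) (nat_lit 309) (nat_lit 5) (nat_lit 631) (nat_lit 580) (nat_lit 349)) (XT.lf (nat_lit 0) (nat_lit 4050720977) (nat_lit 760) (nat_lit 19162628828) (nat_lit 76) (nat_lit 190230366) (nat_lit 299) (nat_lit 5) (nat_lit 309) (nat_lit 5) (nat_lit 300) (nat_lit 5) (nat_lit 632) (nat_lit 580) (nat_lit 348))) (XT.nd (nat_lit 78) (nat_lit 608) (nat_lit 0) (XT.lf (nat_lit 0) (nat_lit 7930553471) (nat_lit 760) (nat_lit 5768471064) (nat_lit 76) (nat_lit 9973049822) (nat_lit 299) (nat_lit 5) (nat_lit 309) (nat_lit 5) (nat_lit 300) (nat_lit 5) (nat_lit 633) (nat_lit 580) (nat_lit 347)) (XT.lf (nat_lit 0) (nat_lit 7993372951) (nat_lit 608) (nat_lit 3942405644) (nat_lit 684) (nat_lit 12009204107) (nat_lit 291) (nat_lit 5) (nat_lit 299) (nat_lit 5) (nat_lit 300) (nat_lit 5) (nat_lit 634) (nat_lit 580) (nat_lit 346))))) (XT.nd (nat_lit 312) (nat_lit 1140)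 (nat_lit 0) (XT.nd (nat_lit 156) (nat_lit 684) (nat_lit 0) (XT.nd (nat_lit 78) (nat_lit 608) (nat_lit 0) (XT.lf (nat_lit 0) (nat_lit 16095030268) (nat_lit 684) (nat_lit 2158274518) (nat_lit 76) (nat_lit 5968566177) (nat_lit 291) (nat_lit 5) (nat_lit 300) (nat_lit 5) (nat_lit 292) (nat_lit 5) (nat_lit 635) (nat_lit 580) (nat_lit 345)) (XT.lf (nat_lit 0) (nat_lit 12037721664) (nat_lit 608) (nat_lit 8400030004) (nat_lit 684) (nat_lit 4064539814) (nat_lit 283) (nat_lit 5) (nat_lit 291) (nat_lit 5) (nat_lit 292) (nat_lit 5) (nat_lit 636) (nat_lit 580) (nat_lit 344))) (XT.nd (nat_lit 78) (nat_lit 0) (nat_lit 0) (XT.lf (nat_lit 0) (nat_lit 111008014) (nat_lit 684) (nat_lit 23022191888) (nat_lit 76) (nat_lit 1654449688) (nat_lit 274) (nat_lit 5) (nat_lit 283) (nat_lit 5) (nat_lit 275) (nat_lit 5) (nat_lit 637) (nat_lit 580) (nat_lit 343)) (XT.lf (nat_lit 0) (nat_lit 4451598157) (nat_lit 684) (nat_lit 8716129371) (nat_lit 76) (nat_lit 11907731066) (nat_lit 274) (nat_lit 5) (nat_lit 283) (nat_lit 5) (nat_lit 275) (nat_lit 5) (nat_lit 638) (nat_lit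 580) (nat_lit 342)))) (XT.nd (nat_lit 156) (nat_lit 532) (nat_lit 0) (XT.nd (nat_lit 78) (nat_lit 0) (nat_lit 0) (XT.lf (nat_lit 0) (nat_lit 5949144243) (nat_lit 608) (nat_lit 2964636135) (nat_lit 684) (nat_lit 16454547967) (nat_lit 266) (nat_lit 5) (nat_lit 274) (nat_lit 5) (nat_lit 275) (nat_lit 5) (nat_lit 639) (nat_lit 580) (nat_lit 341)) (XT.lf (nat_lit 0) (nat_lit 13568596089) (nat_lit 684) (nat_lit 4693692897) (nat_lit 76) (nat_lit 7402698876) (nat_lit 266) (nat_lit 5) (nat_lit 275) (nat_lit 5) (nat_lit 267) (nat_lit 5) (nat_lit 640) (nat_lit 580) (nat_lit 340))) (XT.nd (nat_lit 78) (nat_lit 0) (nat_lit 0) (XT.lf (nat_lit 0) (nat_lit 10438706911) (nat_lit 532) (nat_lit 7961475173) (nat_lit 608) (nat_lit 7565725173) (nat_lit 259) (nat_lit 5) (nat_lit 266) (nat_lit 5) (nat_lit 267) (nat_lit 5) (nat_lit 641) (nat_lit 580) (nat_lit 339)) (XT.lf (nat_lit 0) (nat_lit 23372931614) (nat_lit 608) (nat_lit 356478743) (nat_lit 76) (nat_lit 2542544210) (nat_lit 259) (nat_lit 5) (nat_lit 267) (nat_lit 5) (nat_lit 260) (nat_lit 5) (nat_lit 642)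 (nat_lit 580) (nat_lit 338)))))) (XT.nd (nat_lit 546) (nat_lit 1444) (nat_lit 0) (XT.nd (nat_lit 234) (nat_lit 1596) (nat_lit 0) (XT.nd (nat_lit 78) (nat_lit 532) (nat_lit 0) (XT.lf (nat_lit 0) (nat_lit 1985764169) (nat_lit 608) (nat_lit 11333961954) (nat_lit 76) (nat_lit 13261172028) (nat_lit 251) (nat_lit 5) (nat_lit 259) (nat_lit 5) (nat_lit 252) (nat_lit 5) (nat_lit 643) (nat_lit 580) (nat_lit 337)) (XT.nd (nat_lit 78) (nat_lit 0) (nat_lit 0) (XT.lf (nat_lit 0) (nat_lit 4303679558) (nat_lit 532) (nat_lit 2652524861) (nat_lit 608) (nat_lit 19938897586) (nat_lit 244) (nat_lit 5) (nat_lit 251) (nat_lit 5) (nat_lit 252) (nat_lit 5) (nat_lit 644) (nat_lit 580) (nat_lit 336)) (XT.lf (nat_lit 0) (nat_lit 12152456169) (nat_lit 608) (nat_lit 6865145521) (nat_lit 76) (nat_lit 8195460342) (nat_lit 244) (nat_lit 5) (nat_lit 252) (nat_lit 5) (nat_lit 245) (nat_lit 5) (nat_lit 645) (nat_lit 580) (nat_lit 335)))) (XT.nd (nat_lit 156) (nat_lit 1064) (nat_lit 0) (XT.nd (nat_lit 78) (nat_lit 0) (nat_lit 0) (XT.lf (nat_lit 0) (nat_lit 9274968725) (nat_lit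 532) (nat_lit 8251940445) (nat_lit 608) (nat_lit 10008986713) (nat_lit 237) (nat_lit 5) (nat_lit 244) (nat_lit 5) (nat_lit 245) (nat_lit 5) (nat_lit 646) (nat_lit 580) (nat_lit 334)) (XT.lf (nat_lit 0) (nat_lit 23069464226) (nat_lit 608) (nat_lit 2056139459) (nat_lit 76) (nat_lit 2738370611) (nat_lit 237) (nat_lit 5) (nat_lit 245) (nat_lit 5) (nat_lit 238) (nat_lit 5) (nat_lit 647) (nat_lit 580) (nat_lit 333))) (XT.nd (nat_lit 78) (nat_lit 532) (nat_lit 0) (XT.lf (nat_lit 0) (nat_lit 664409819) (nat_lit 532) (nat_lit 13595123207) (nat_lit 76) (nat_lit 13936072724) (nat_lit 230) (nat_lit 5) (nat_lit 237) (nat_lit 5) (nat_lit 231) (nat_lit 5) (nat_lit 648) (nat_lit 580) (nat_lit 332)) (XT.lf (nat_lit 0) (nat_lit 3088462172) (nat_lit 532) (nat_lit 3110451728) (nat_lit 608) (nat_lit 22333710150) (nat_lit 223) (nat_lit 5) (nat_lit 230) (nat_lit 5) (nat_lit 231) (nat_lit 5) (nat_lit 649) (nat_lit 580) (nat_lit 331))))) (XT.nd (nat_lit 312) (nat_lit 456) (nat_lit 0) (XT.nd (nat_lit 156) (nat_lit 532) (nat_lit 0) (XT.nd (nat_lit 78) (nat_lit 456)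 (nat_lit 0) (XT.lf (nat_lit 0) (nat_lit 11986212914) (nat_lit 608) (nat_lit 8643540240) (nat_lit 76) (nat_lit 8243787599) (nat_lit 223) (nat_lit 5) (nat_lit 231) (nat_lit 5) (nat_lit 224) (nat_lit 5) (nat_lit 650) (nat_lit 580) (nat_lit 330)) (XT.lf (nat_lit 0) (nat_lit 8580378184) (nat_lit 456) (nat_lit 9381884702) (nat_lit 532) (nat_lit 11257552935) (nat_lit 217) (nat_lit 5) (nat_lit 223) (nat_lit 5) (nat_lit 224) (nat_lit 5) (nat_lit 651) (nat_lit 580) (nat_lit 329))) (XT.nd (nat_lit 78) (nat_lit 532) (nat_lit 0) (XT.lf (nat_lit 0) (nat_lit 24126518933) (nat_lit 532) (nat_lit 3324551775) (nat_lit 76) (nat_lit 2120572109) (nat_lit 217) (nat_lit 5) (nat_lit 224) (nat_lit 5) (nat_lit 218) (nat_lit 5) (nat_lit 652) (nat_lit 580) (nat_lit 328)) (XT.lf (nat_lit 0) (nat_lit 631023093) (nat_lit 532) (nat_lit 15472046460) (nat_lit 76) (nat_lit 13824297907) (nat_lit 210) (nat_lit 5) (nat_lit 217) (nat_lit 5) (nat_lit 211) (nat_lit 5) (nat_lit 653) (nat_lit 580) (nat_lit 327)))) (XT.nd (nat_lit 77532) (nat_lit 0) (nat_lit 18316) (XT.nd (nat_lit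 77454) (nat_lit 0) (nat_lit 19380) (XT.lf (nat_lit 0) (nat_lit 2335927143) (nat_lit 456) (nat_lit 4454346430) (nat_lit 532) (nat_lit 23498523483) (nat_lit 204) (nat_lit 5) (nat_lit 210) (nat_lit 5) (nat_lit 211) (nat_lit 5) (nat_lit 654) (nat_lit 580) (nat_lit 326)) (XT.lf (nat_lit 0) (nat_lit 2207522708) (nat_lit 1824) (nat_lit 11458556177) (nat_lit 1900) (nat_lit 4077186283) (nat_lit 459) (nat_lit 5) (nat_lit 483) (nat_lit 5) (nat_lit 484) (nat_lit 5) (nat_lit 606) (nat_lit 581) (nat_lit 373))) (XT.nd (nat_lit 78) (nat_lit 1064) (nat_lit 0) (XT.lf (nat_lit 0) (nat_lit 11937709191) (nat_lit 1824) (nat_lit 3544044674) (nat_lit 1900) (nat_lit 2449057323) (nat_lit 459) (nat_lit 5) (nat_lit 483) (nat_lit 5) (nat_lit 484) (nat_lit 5) (nat_lit 607) (nat_lit 581) (nat_lit 372)) (XT.lf (nat_lit 0) (nat_lit 3754991000) (nat_lit 1064) (nat_lit 13626650349) (nat_lit 1140) (nat_lit 739509144) (nat_lit 445) (nat_lit 5) (nat_lit 459) (nat_lit 5) (nat_lit 460) (nat_lit 5) (nat_lit 608) (nat_lit 581) (nat_lit 371))))))) (XT.nd (nat_lit 1170) (nat_lit 6156)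 (nat_lit 0) (XT.nd (nat_lit 546) (nat_lit 3268) (nat_lit 0) (XT.nd (nat_lit 234) (nat_lit 2584) (nat_lit 0) (XT.nd (nat_lit 78) (nat_lit 912) (nat_lit 0) (XT.lf (nat_lit 0) (nat_lit 1049171253) (nat_lit 1140) (nat_lit 4570752704) (nat_lit 76) (nat_lit 12694080319) (nat_lit 444) (nat_lit 5) (nat_lit 459) (nat_lit 5) (nat_lit 445) (nat_lit 5) (nat_lit 609) (nat_lit 581) (nat_lit 370)) (XT.nd (nat_lit 78) (nat_lit 0) (nat_lit 0) (XT.lf (nat_lit 0) (nat_lit 2910408613) (nat_lit 988) (nat_lit 13044444746) (nat_lit 76) (nat_lit 2554830630) (nat_lit 432) (nat_lit 5) (nat_lit 445) (nat_lit 5) (nat_lit 433) (nat_lit 5) (nat_lit 610) (nat_lit 581) (nat_lit 369)) (XT.lf (nat_lit 0) (nat_lit 4871318904) (nat_lit 988) (nat_lit 2987442409) (nat_lit 76) (nat_lit 10849267339) (nat_lit 432) (nat_lit 5) (nat_lit 445) (nat_lit 5) (nat_lit 433) (nat_lit 5) (nat_lit 611) (nat_lit 581) (nat_lit 368)))) (XT.nd (nat_lit 156) (nat_lit 1672) (nat_lit 0) (XT.nd (nat_lit 78) (nat_lit 0) (nat_lit 0) (XT.lf (nat_lit 0) (nat_lit 6916623714) (nat_lit 988) (nat_lit 11550314175)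 (nat_lit 76) (nat_lit 442499105) (nat_lit 420) (nat_lit 5) (nat_lit 433) (nat_lit 5) (nat_lit 421) (nat_lit 5) (nat_lit 612) (nat_lit 581) (nat_lit 367)) (XT.lf (nat_lit 0) (nat_lit 9069602383) (nat_lit 988) (nat_lit 1218775763) (nat_lit 76) (nat_lit 8825160308) (nat_lit 420) (nat_lit 5) (nat_lit 433) (nat_lit 5) (nat_lit 421) (nat_lit 5) (nat_lit 613) (nat_lit 581) (nat_lit 366))) (XT.nd (nat_lit 78) (nat_lit 836) (nat_lit 0) (XT.lf (nat_lit 0) (nat_lit 9438037141) (nat_lit 836) (nat_lit 1883531395) (nat_lit 912) (nat_lit 7999035151) (nat_lit 409) (nat_lit 5) (nat_lit 420) (nat_lit 5) (nat_lit 421) (nat_lit 5) (nat_lit 614) (nat_lit 581) (nat_lit 365)) (XT.lf (nat_lit 0) (nat_lit 754052730) (nat_lit 836) (nat_lit 12915804796) (nat_lit 912) (nat_lit 5860927323) (nat_lit 398) (nat_lit 5) (nat_lit 409) (nat_lit 5) (nat_lit 410) (nat_lit 5) (nat_lit 615) (nat_lit 581) (nat_lit 364))))) (XT.nd (nat_lit 312) (nat_lit 1520) (nat_lit 0) (XT.nd (nat_lit 156) (nat_lit 912) (nat_lit 0) (XT.nd (nat_lit 78) (nat_lit 836) (nat_lit 0) (XT.lf (nat_lit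 0) (nat_lit 11719548958) (nat_lit 836) (nat_lit 4419064887) (nat_lit 912) (nat_lit 3605086046) (nat_lit 398) (nat_lit 5) (nat_lit 409) (nat_lit 5) (nat_lit 410) (nat_lit 5) (nat_lit 616) (nat_lit 581) (nat_lit 363)) (XT.lf (nat_lit 0) (nat_lit 2949407772) (nat_lit 836) (nat_lit 15748960304) (nat_lit 912) (nat_lit 1261672987) (nat_lit 387) (nat_lit 5) (nat_lit 398) (nat_lit 5) (nat_lit 399) (nat_lit 5) (nat_lit 617) (nat_lit 581) (nat_lit 362))) (XT.nd (nat_lit 78) (nat_lit 836) (nat_lit 0) (XT.lf (nat_lit 0) (nat_lit 1192202670) (nat_lit 912) (nat_lit 5970586031) (nat_lit 76) (nat_lit 13016206151) (nat_lit 386) (nat_lit 5) (nat_lit 398) (nat_lit 5) (nat_lit 387) (nat_lit 5) (nat_lit 618) (nat_lit 581) (nat_lit 361)) (XT.lf (nat_lit 0) (nat_lit 3718661930) (nat_lit 912) (nat_lit 15065283507) (nat_lit 76) (nat_lit 1617407755) (nat_lit 375) (nat_lit 5) (nat_lit 387) (nat_lit 5) (nat_lit 376) (nat_lit 5) (nat_lit 619) (nat_lit 581) (nat_lit 360)))) (XT.nd (nat_lit 156) (nat_lit 760) (nat_lit 0) (XT.nd (nat_lit 78) (nat_lit 760) (nat_lit 0) (XT.lf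 (nat_lit 0) (nat_lit 6378508114) (nat_lit 912) (nat_lit 3730439987) (nat_lit 76) (nat_lit 10517553706) (nat_lit 375) (nat_lit 5) (nat_lit 387) (nat_lit 5) (nat_lit 376) (nat_lit 5) (nat_lit 620) (nat_lit 581) (nat_lit 359)) (XT.lf (nat_lit 0) (nat_lit 7930032678) (nat_lit 760) (nat_lit 1208192774) (nat_lit 836) (nat_lit 11716994713) (nat_lit 365) (nat_lit 5) (nat_lit 375) (nat_lit 5) (nat_lit 376) (nat_lit 5) (nat_lit 621) (nat_lit 581) (nat_lit 358))) (XT.nd (nat_lit 78) (nat_lit 760) (nat_lit 0) (XT.lf (nat_lit 0) (nat_lit 12024684139) (nat_lit 836) (nat_lit 1270128704) (nat_lit 76) (nat_lit 7792269360) (nat_lit 365) (nat_lit 5) (nat_lit 376) (nat_lit 5) (nat_lit 366) (nat_lit 5) (nat_lit 622) (nat_lit 581) (nat_lit 357)) (XT.lf (nat_lit 0) (nat_lit 10745933876) (nat_lit 760) (nat_lit 4296049318) (nat_lit 836) (nat_lit 6280136310) (nat_lit 355) (nat_lit 5) (nat_lit 365) (nat_lit 5) (nat_lit 366) (nat_lit 5) (nat_lit 623) (nat_lit 581) (nat_lit 356)))))) (XT.nd (nat_lit 546) (nat_lit 3268) (nat_lit 0) (XT.nd (nat_lit 234) (nat_lit 1368)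 (nat_lit 0) (XT.nd (nat_lit 78) (nat_lit 836) (nat_lit 0) (XT.lf (nat_lit 0) (nat_lit 1439886273) (nat_lit 684) (nat_lit 16724768520) (nat_lit 760) (nat_lit 3396302467) (nat_lit 346) (nat_lit 5) (nat_lit 355) (nat_lit 5) (nat_lit 356) (nat_lit 5) (nat_lit 624) (nat_lit 581) (nat_lit 355)) (XT.nd (nat_lit 78) (nat_lit 836) (nat_lit 0) (XT.lf (nat_lit 0) (nat_lit 13805759771) (nat_lit 684) (nat_lit 7638709289) (nat_lit 760) (nat_lit 358209166) (nat_lit 346) (nat_lit 5) (nat_lit 355) (nat_lit 5) (nat_lit 356) (nat_lit 5) (nat_lit 625) (nat_lit 581) (nat_lit 354)) (XT.lf (nat_lit 0) (nat_lit 2739694202) (nat_lit 836) (nat_lit 17654600207) (nat_lit 76) (nat_lit 1653883701) (nat_lit 335) (nat_lit 5) (nat_lit 346) (nat_lit 5) (nat_lit 336) (nat_lit 5) (nat_lit 626) (nat_lit 581) (nat_lit 353)))) (XT.nd (nat_lit 156) (nat_lit 684) (nat_lit 0) (XT.nd (nat_lit 78) (nat_lit 684) (nat_lit 0) (XT.lf (nat_lit 0) (nat_lit 5994935524) (nat_lit 836) (nat_lit 5215612408) (nat_lit 76) (nat_lit 11085989403) (nat_lit 335) (nat_lit 5) (nat_lit 346) (nat_lit 5)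 (nat_lit 336) (nat_lit 5) (nat_lit 627) (nat_lit 581) (nat_lit 352)) (XT.lf (nat_lit 0) (nat_lit 7566422393) (nat_lit 684) (nat_lit 1793637888) (nat_lit 760) (nat_lit 13188908111) (nat_lit 326) (nat_lit 5) (nat_lit 335) (nat_lit 5) (nat_lit 336) (nat_lit 5) (nat_lit 628) (nat_lit 581) (nat_lit 351))) (XT.nd (nat_lit 78) (nat_lit 684) (nat_lit 0) (XT.lf (nat_lit 0) (nat_lit 12874138401) (nat_lit 760) (nat_lit 2186918134) (nat_lit 76) (nat_lit 7743758730) (nat_lit 326) (nat_lit 5) (nat_lit 336) (nat_lit 5) (nat_lit 327) (nat_lit 5) (nat_lit 629) (nat_lit 581) (nat_lit 350)) (XT.lf (nat_lit 0) (nat_lit 10991987147) (nat_lit 684) (nat_lit 5545542313) (nat_lit 760) (nat_lit 6526669200) (nat_lit 317) (nat_lit 5) (nat_lit 326) (nat_lit 5) (nat_lit 327) (nat_lit 5) (nat_lit 630) (nat_lit 581) (nat_lit 349))))) (XT.nd (nat_lit 312) (nat_lit 1900) (nat_lit 0) (XT.nd (nat_lit 156) (nat_lit 684) (nat_lit 0) (XT.nd (nat_lit 78) (nat_lit 76) (nat_lit 0) (XT.lf (nat_lit 0) (nat_lit 1118230815) (nat_lit 608) (nat_lit 19200833616) (nat_lit 684) (nat_lit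 3008807977) (nat_lit 309) (nat_lit 5) (nat_lit 317) (nat_lit 5) (nat_lit 318) (nat_lit 5) (nat_lit 631) (nat_lit 581) (nat_lit 348)) (XT.lf (nat_lit 0) (nat_lit 685938385) (nat_lit 684) (nat_lit 8905086959) (nat_lit 76) (nat_lit 14003436705) (nat_lit 308) (nat_lit 5) (nat_lit 317) (nat_lit 5) (nat_lit 309) (nat_lit 5) (nat_lit 632) (nat_lit 581) (nat_lit 347))) (XT.nd (nat_lit 78) (nat_lit 0) (nat_lit 0) (XT.lf (nat_lit 0) (nat_lit 4442494654) (nat_lit 760) (nat_lit 19164738408) (nat_lit 76) (nat_lit 258188795) (nat_lit 299) (nat_lit 5) (nat_lit 309) (nat_lit 5) (nat_lit 300) (nat_lit 5) (nat_lit 633) (nat_lit 581) (nat_lit 346)) (XT.lf (nat_lit 0) (nat_lit 8393830479) (nat_lit 760) (nat_lit 5510170881) (nat_lit 76) (nat_lit 10235406722) (nat_lit 299) (nat_lit 5) (nat_lit 309) (nat_lit 5) (nat_lit 300) (nat_lit 5) (nat_lit 634) (nat_lit 581) (nat_lit 345)))) (XT.nd (nat_lit 156) (nat_lit 1292) (nat_lit 0) (XT.nd (nat_lit 78) (nat_lit 0) (nat_lit 0) (XT.lf (nat_lit 0) (nat_lit 8524451662) (nat_lit 608) (nat_lit 3951144752) (nat_lit 684) (nat_lit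 11942249737) (nat_lit 291) (nat_lit 5) (nat_lit 299) (nat_lit 5) (nat_lit 300) (nat_lit 5) (nat_lit 635) (nat_lit 581) (nat_lit 344)) (XT.lf (nat_lit 0) (nat_lit 16712575424) (nat_lit 684) (nat_lit 1832035829) (nat_lit 76) (nat_lit 6155770356) (nat_lit 291) (nat_lit 5) (nat_lit 300) (nat_lit 5) (nat_lit 292) (nat_lit 5) (nat_lit 636) (nat_lit 581) (nat_lit 343))) (XT.nd (nat_lit 78) (nat_lit 684) (nat_lit 0) (XT.lf (nat_lit 0) (nat_lit 12645449986) (nat_lit 608) (nat_lit 8493286952) (nat_lit 684) (nat_lit 3847742160) (nat_lit 283) (nat_lit 5) (nat_lit 291) (nat_lit 5) (nat_lit 292) (nat_lit 5) (nat_lit 637) (nat_lit 581) (nat_lit 342)) (XT.lf (nat_lit 0) (nat_lit 404535370) (nat_lit 684) (nat_lit 23108854158) (nat_lit 76) (nat_lit 1764173829) (nat_lit 274) (nat_lit 5) (nat_lit 283) (nat_lit 5) (nat_lit 275) (nat_lit 5) (nat_lit 638) (nat_lit 581) (nat_lit 341))))))))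
noncomputable def xc90 : XT := (XT.nd (nat_lit 79638) (nat_lit 0) (nat_lit 2052) (XT.nd (nat_lit 1170) (nat_lit 532) (nat_lit 0) (XT.nd (nat_lit 546) (nat_lit 2052) (nat_lit 0) (XT.nd (nat_lit 234) (nat_lit 1672) (nat_lit 0) (XT.nd (nat_lit 78) (nat_lit 608) (nat_lit 0) (XT.lf (nat_lit 0) (nat_lit 4826225409) (nat_lit 684) (nat_lit 8523999441) (nat_lit 76) (nat_lit 12221018185) (nat_lit 274) (nat_lit 5) (nat_lit 283) (nat_lit 5) (nat_lit 275) (nat_lit 5) (nat_lit 639) (nat_lit 581) (nat_lit 340)) (XT.nd (nat_lit 78) (nat_lit 0) (nat_lit 0) (XT.lf (nat_lit 0) (nat_lit 6432168774) (nat_lit 608) (nat_lit 2942246194) (nat_lit 684) (nat_lit 16495620191) (nat_lit 266) (nat_lit 5) (nat_lit 274) (nat_lit 5) (nat_lit 275) (nat_lit 5) (nat_lit 640) (nat_lit 581) (nat_lit 339)) (XT.lf (nat_lit 0) (nat_lit 14117310481) (nat_lit 684) (nat_lit 4425634343) (nat_lit 76) (nat_lit 7629783619) (nat_lit 266) (nat_lit 5) (nat_lit 275) (nat_lit 5) (nat_lit 267) (nat_lit 5) (nat_lit 641) (nat_lit 581) (nat_lit 338)))) (XT.nd (nat_lit 156) (nat_lit 1140) (nat_lit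 0) (XT.nd (nat_lit 78) (nat_lit 0) (nat_lit 0) (XT.lf (nat_lit 0) (nat_lit 11007032327) (nat_lit 532) (nat_lit 8035392227) (nat_lit 608) (nat_lit 7437303987) (nat_lit 259) (nat_lit 5) (nat_lit 266) (nat_lit 5) (nat_lit 267) (nat_lit 5) (nat_lit 642) (nat_lit 581) (nat_lit 337)) (XT.lf (nat_lit 0) (nat_lit 24109794887) (nat_lit 608) (nat_lit 6261028) (nat_lit 76) (nat_lit 2675937802) (nat_lit 259) (nat_lit 5) (nat_lit 267) (nat_lit 5) (nat_lit 260) (nat_lit 5) (nat_lit 643) (nat_lit 581) (nat_lit 336))) (XT.nd (nat_lit 78) (nat_lit 532) (nat_lit 0) (XT.lf (nat_lit 0) (nat_lit 2293682402) (nat_lit 608) (nat_lit 11202069209) (nat_lit 76) (nat_lit 13611389057) (nat_lit 251) (nat_lit 5) (nat_lit 259) (nat_lit 5) (nat_lit 252) (nat_lit 5) (nat_lit 644) (nat_lit 581) (nat_lit 335)) (XT.lf (nat_lit 0) (nat_lit 4745966108) (nat_lit 532) (nat_lit 2614619239) (nat_lit 608) (nat_lit 20067102398) (nat_lit 244) (nat_lit 5) (nat_lit 251) (nat_lit 5) (nat_lit 252) (nat_lit 5) (nat_lit 645) (nat_lit 581) (nat_lit 334))))) (XT.nd (nat_lit 312) (nat_lit 988)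 (nat_lit 0) (XT.nd (nat_lit 156) (nat_lit 532) (nat_lit 0) (XT.nd (nat_lit 78) (nat_lit 532) (nat_lit 0) (XT.lf (nat_lit 0) (nat_lit 12656139985) (nat_lit 608) (nat_lit 6648586949) (nat_lit 76) (nat_lit 8447372700) (nat_lit 244) (nat_lit 5) (nat_lit 252) (nat_lit 5) (nat_lit 245) (nat_lit 5) (nat_lit 646) (nat_lit 581) (nat_lit 333)) (XT.lf (nat_lit 0) (nat_lit 9812001546) (nat_lit 532) (nat_lit 8323252404) (nat_lit 608) (nat_lit 9946192988) (nat_lit 237) (nat_lit 5) (nat_lit 244) (nat_lit 5) (nat_lit 245) (nat_lit 5) (nat_lit 647) (nat_lit 581) (nat_lit 332))) (XT.nd (nat_lit 78) (nat_lit 532) (nat_lit 0) (XT.lf (nat_lit 0) (nat_lit 23784201681) (nat_lit 608) (nat_lit 1748152667) (nat_lit 76) (nat_lit 2883821950) (nat_lit 237) (nat_lit 5) (nat_lit 245) (nat_lit 5) (nat_lit 238) (nat_lit 5) (nat_lit 648) (nat_lit 581) (nat_lit 331)) (XT.lf (nat_lit 0) (nat_lit 930000309) (nat_lit 532) (nat_lit 13516849786) (nat_lit 76) (nat_lit 14307611612) (nat_lit 230) (nat_lit 5) (nat_lit 237) (nat_lit 5) (nat_lit 231) (nat_lit 5) (nat_lit 649) (nat_lit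 581) (nat_lit 330)))) (XT.nd (nat_lit 156) (nat_lit 456) (nat_lit 0) (XT.nd (nat_lit 78) (nat_lit 0) (nat_lit 0) (XT.lf (nat_lit 0) (nat_lit 3498103512) (nat_lit 532) (nat_lit 3074402473) (nat_lit 608) (nat_lit 22525768357) (nat_lit 223) (nat_lit 5) (nat_lit 230) (nat_lit 5) (nat_lit 231) (nat_lit 5) (nat_lit 650) (nat_lit 581) (nat_lit 329)) (XT.lf (nat_lit 0) (nat_lit 12471282039) (nat_lit 608) (nat_lit 8471081311) (nat_lit 76) (nat_lit 8503731601) (nat_lit 223) (nat_lit 5) (nat_lit 231) (nat_lit 5) (nat_lit 224) (nat_lit 5) (nat_lit 651) (nat_lit 581) (nat_lit 328))) (XT.nd (nat_lit 78) (nat_lit 0) (nat_lit 0) (XT.lf (nat_lit 0) (nat_lit 9095043575) (nat_lit 456) (nat_lit 9469226111) (nat_lit 532) (nat_lit 11235077692) (nat_lit 217) (nat_lit 5) (nat_lit 223) (nat_lit 5) (nat_lit 224) (nat_lit 5) (nat_lit 652) (nat_lit 581) (nat_lit 327)) (XT.lf (nat_lit 0) (nat_lit 24847689245) (nat_lit 532) (nat_lit 3050580656) (nat_lit 76) (nat_lit 2260023631) (nat_lit 217) (nat_lit 5) (nat_lit 224) (nat_lit 5) (nat_lit 218) (nat_lit 5) (nat_lit 653)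 (nat_lit 581) (nat_lit 326)))))) (XT.nd (nat_lit 77844) (nat_lit 0) (nat_lit 13452) (XT.nd (nat_lit 77532) (nat_lit 0) (nat_lit 17784) (XT.nd (nat_lit 77376) (nat_lit 0) (nat_lit 20672) (XT.lf (nat_lit 0) (nat_lit 881373228) (nat_lit 532) (nat_lit 15440096836) (nat_lit 76) (nat_lit 14199681173) (nat_lit 210) (nat_lit 5) (nat_lit 217) (nat_lit 5) (nat_lit 211) (nat_lit 5) (nat_lit 654) (nat_lit 581) (nat_lit 325)) (XT.nd (nat_lit 78) (nat_lit 0) (nat_lit 0) (XT.lf (nat_lit 76) (nat_lit 1239335458) (nat_lit 0) (nat_lit 9721558050) (nat_lit 1900) (nat_lit 6753451304) (nat_lit 483) (nat_lit 5) (nat_lit 482) (nat_lit 5) (nat_lit 507) (nat_lit 5) (nat_lit 605) (nat_lit 582) (nat_lit 373)) (XT.lf (nat_lit 76) (nat_lit 10894058407) (nat_lit 0) (nat_lit 1736024297) (nat_lit 1900) (nat_lit 5270348270) (nat_lit 483) (nat_lit 5) (nat_lit 482) (nat_lit 5) (nat_lit 507) (nat_lit 5) (nat_lit 606) (nat_lit 582) (nat_lit 372)))) (XT.nd (nat_lit 156) (nat_lit 1140) (nat_lit 0) (XT.nd (nat_lit 78) (nat_lit 0) (nat_lit 0) (XT.lf (nat_lit 0) (nat_lit 2639589056)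 (nat_lit 1824) (nat_lit 11745961174) (nat_lit 1900) (nat_lit 3703631084) (nat_lit 459) (nat_lit 5) (nat_lit 483) (nat_lit 5) (nat_lit 484) (nat_lit 5) (nat_lit 607) (nat_lit 582) (nat_lit 371)) (XT.lf (nat_lit 0) (nat_lit 12556773075) (nat_lit 1824) (nat_lit 3672017599) (nat_lit 1900) (nat_lit 2051863054) (nat_lit 459) (nat_lit 5) (nat_lit 483) (nat_lit 5) (nat_lit 484) (nat_lit 5) (nat_lit 608) (nat_lit 582) (nat_lit 370))) (XT.nd (nat_lit 78) (nat_lit 76) (nat_lit 0) (XT.lf (nat_lit 0) (nat_lit 4216982685) (nat_lit 1064) (nat_lit 13943265266) (nat_lit 1140) (nat_lit 314680931) (nat_lit 445) (nat_lit 5) (nat_lit 459) (nat_lit 5) (nat_lit 460) (nat_lit 5) (nat_lit 609) (nat_lit 582) (nat_lit 369)) (XT.lf (nat_lit 0) (nat_lit 1495500484) (nat_lit 1140) (nat_lit 4277185217) (nat_lit 76) (nat_lit 12899067575) (nat_lit 444) (nat_lit 5) (nat_lit 459) (nat_lit 5) (nat_lit 445) (nat_lit 5) (nat_lit 610) (nat_lit 582) (nat_lit 368))))) (XT.nd (nat_lit 312) (nat_lit 2508) (nat_lit 0) (XT.nd (nat_lit 156) (nat_lit 912) (nat_lit 0) (XT.nd (nat_lit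 78) (nat_lit 0) (nat_lit 0) (XT.lf (nat_lit 0) (nat_lit 3387865113) (nat_lit 988) (nat_lit 12914229926) (nat_lit 76) (nat_lit 2569373967) (nat_lit 432) (nat_lit 5) (nat_lit 445) (nat_lit 5) (nat_lit 433) (nat_lit 5) (nat_lit 611) (nat_lit 582) (nat_lit 367)) (XT.lf (nat_lit 0) (nat_lit 5379773054) (nat_lit 988) (nat_lit 2663756242) (nat_lit 76) (nat_lit 11030416142) (nat_lit 432) (nat_lit 5) (nat_lit 445) (nat_lit 5) (nat_lit 433) (nat_lit 5) (nat_lit 612) (nat_lit 582) (nat_lit 366))) (XT.nd (nat_lit 78) (nat_lit 0) (nat_lit 0) (XT.lf (nat_lit 0) (nat_lit 7460238469) (nat_lit 988) (nat_lit 11392117178) (nat_lit 76) (nat_lit 427141666) (nat_lit 420) (nat_lit 5) (nat_lit 433) (nat_lit 5) (nat_lit 421) (nat_lit 5) (nat_lit 613) (nat_lit 582) (nat_lit 365)) (XT.lf (nat_lit 0) (nat_lit 9648330001) (nat_lit 988) (nat_lit 861579435) (nat_lit 76) (nat_lit 8977930749) (nat_lit 420) (nat_lit 5) (nat_lit 433) (nat_lit 5) (nat_lit 421) (nat_lit 5) (nat_lit 614) (nat_lit 582) (nat_lit 364)))) (XT.nd (nat_lit 156) (nat_lit 836) (nat_lit 0) (XT.nd (nat_lit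 78) (nat_lit 836) (nat_lit 0) (XT.lf (nat_lit 0) (nat_lit 10005859387) (nat_lit 836) (nat_lit 1934146315) (nat_lit 912) (nat_lit 7759148053) (nat_lit 409) (nat_lit 5) (nat_lit 420) (nat_lit 5) (nat_lit 421) (nat_lit 5) (nat_lit 615) (nat_lit 582) (nat_lit 363)) (XT.lf (nat_lit 0) (nat_lit 1153595234) (nat_lit 836) (nat_lit 13176392633) (nat_lit 912) (nat_lit 5583656554) (nat_lit 398) (nat_lit 5) (nat_lit 409) (nat_lit 5) (nat_lit 410) (nat_lit 5) (nat_lit 616) (nat_lit 582) (nat_lit 362))) (XT.nd (nat_lit 78) (nat_lit 836) (nat_lit 0) (XT.lf (nat_lit 0) (nat_lit 12330862927) (nat_lit 836) (nat_lit 4509673382) (nat_lit 912) (nat_lit 3290433537) (nat_lit 398) (nat_lit 5) (nat_lit 409) (nat_lit 5) (nat_lit 410) (nat_lit 5) (nat_lit 617) (nat_lit 582) (nat_lit 361)) (XT.lf (nat_lit 0) (nat_lit 3390407544) (nat_lit 836) (nat_lit 16056109859) (nat_lit 912) (nat_lit 905220214) (nat_lit 387) (nat_lit 5) (nat_lit 398) (nat_lit 5) (nat_lit 399) (nat_lit 5) (nat_lit 618) (nat_lit 582) (nat_lit 360))))))) (XT.nd (nat_lit 1170) (nat_lit 5396) (nat_lit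 0) (XT.nd (nat_lit 546) (nat_lit 2888) (nat_lit 0) (XT.nd (nat_lit 234) (nat_lit 2204) (nat_lit 0) (XT.nd (nat_lit 78) (nat_lit 836) (nat_lit 0) (XT.lf (nat_lit 0) (nat_lit 1585341183) (nat_lit 912) (nat_lit 5710549003) (nat_lit 76) (nat_lit 13279278847) (nat_lit 386) (nat_lit 5) (nat_lit 398) (nat_lit 5) (nat_lit 387) (nat_lit 5) (nat_lit 619) (nat_lit 582) (nat_lit 359)) (XT.nd (nat_lit 78) (nat_lit 0) (nat_lit 0) (XT.lf (nat_lit 0) (nat_lit 4157616829) (nat_lit 912) (nat_lit 14982408191) (nat_lit 76) (nat_lit 1662044165) (nat_lit 375) (nat_lit 5) (nat_lit 387) (nat_lit 5) (nat_lit 376) (nat_lit 5) (nat_lit 620) (nat_lit 582) (nat_lit 358)) (XT.lf (nat_lit 0) (nat_lit 6863511277) (nat_lit 912) (nat_lit 3428400761) (nat_lit 76) (nat_lit 10739952089) (nat_lit 375) (nat_lit 5) (nat_lit 387) (nat_lit 5) (nat_lit 376) (nat_lit 5) (nat_lit 621) (nat_lit 582) (nat_lit 357)))) (XT.nd (nat_lit 156) (nat_lit 1444) (nat_lit 0) (XT.nd (nat_lit 78) (nat_lit 0) (nat_lit 0) (XT.lf (nat_lit 0) (nat_lit 8462803410) (nat_lit 760) (nat_lit 1211040422) (nat_lit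 836) (nat_lit 11591404976) (nat_lit 365) (nat_lit 5) (nat_lit 375) (nat_lit 5) (nat_lit 376) (nat_lit 5) (nat_lit 622) (nat_lit 582) (nat_lit 356)) (XT.lf (nat_lit 0) (nat_lit 12611248674) (nat_lit 836) (nat_lit 921896533) (nat_lit 76) (nat_lit 7968738906) (nat_lit 365) (nat_lit 5) (nat_lit 376) (nat_lit 5) (nat_lit 366) (nat_lit 5) (nat_lit 623) (nat_lit 582) (nat_lit 355))) (XT.nd (nat_lit 78) (nat_lit 684) (nat_lit 0) (XT.lf (nat_lit 0) (nat_lit 11332029175) (nat_lit 760) (nat_lit 4352488757) (nat_lit 836) (nat_lit 6057192102) (nat_lit 355) (nat_lit 5) (nat_lit 365) (nat_lit 5) (nat_lit 366) (nat_lit 5) (nat_lit 624) (nat_lit 582) (nat_lit 354)) (XT.lf (nat_lit 0) (nat_lit 1844035296) (nat_lit 684) (nat_lit 17021532455) (nat_lit 760) (nat_lit 3119838652) (nat_lit 346) (nat_lit 5) (nat_lit 355) (nat_lit 5) (nat_lit 356) (nat_lit 5) (nat_lit 625) (nat_lit 582) (nat_lit 353))))) (XT.nd (nat_lit 312) (nat_lit 1368) (nat_lit 0) (XT.nd (nat_lit 156) (nat_lit 684) (nat_lit 0) (XT.nd (nat_lit 78) (nat_lit 836) (nat_lit 0) (XT.lf (nat_lit 0) (nat_lit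 14449866434) (nat_lit 684) (nat_lit 7754491871) (nat_lit 760) (nat_lit 27736227) (nat_lit 346) (nat_lit 5) (nat_lit 355) (nat_lit 5) (nat_lit 356) (nat_lit 5) (nat_lit 626) (nat_lit 582) (nat_lit 352)) (XT.lf (nat_lit 0) (nat_lit 3123831331) (nat_lit 836) (nat_lit 17631373354) (nat_lit 76) (nat_lit 1727333534) (nat_lit 335) (nat_lit 5) (nat_lit 346) (nat_lit 5) (nat_lit 336) (nat_lit 5) (nat_lit 627) (nat_lit 582) (nat_lit 351))) (XT.nd (nat_lit 78) (nat_lit 684) (nat_lit 0) (XT.lf (nat_lit 0) (nat_lit 6437719768) (nat_lit 836) (nat_lit 4950984600) (nat_lit 76) (nat_lit 11347289739) (nat_lit 335) (nat_lit 5) (nat_lit 346) (nat_lit 5) (nat_lit 336) (nat_lit 5) (nat_lit 628) (nat_lit 582) (nat_lit 350)) (XT.lf (nat_lit 0) (nat_lit 8084263660) (nat_lit 684) (nat_lit 1781931915) (nat_lit 760) (nat_lit 13127357556) (nat_lit 326) (nat_lit 5) (nat_lit 335) (nat_lit 5) (nat_lit 336) (nat_lit 5) (nat_lit 629) (nat_lit 582) (nat_lit 349)))) (XT.nd (nat_lit 156) (nat_lit 684) (nat_lit 0) (XT.nd (nat_lit 78) (nat_lit 684) (nat_lit 0) (XT.lf (nat_lit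 0) (nat_lit 13444604504) (nat_lit 760) (nat_lit 1865363815) (nat_lit 76) (nat_lit 7944667951) (nat_lit 326) (nat_lit 5) (nat_lit 336) (nat_lit 5) (nat_lit 327) (nat_lit 5) (nat_lit 630) (nat_lit 582) (nat_lit 348)) (XT.lf (nat_lit 0) (nat_lit 11574716330) (nat_lit 684) (nat_lit 5602766245) (nat_lit 760) (nat_lit 6341800681) (nat_lit 317) (nat_lit 5) (nat_lit 326) (nat_lit 5) (nat_lit 327) (nat_lit 5) (nat_lit 631) (nat_lit 582) (nat_lit 347))) (XT.nd (nat_lit 78) (nat_lit 76) (nat_lit 0) (XT.lf (nat_lit 0) (nat_lit 1506909754) (nat_lit 608) (nat_lit 19524395788) (nat_lit 684) (nat_lit 2756992091) (nat_lit 309) (nat_lit 5) (nat_lit 317) (nat_lit 5) (nat_lit 318) (nat_lit 5) (nat_lit 632) (nat_lit 582) (nat_lit 346)) (XT.lf (nat_lit 0) (nat_lit 1001520108) (nat_lit 684) (nat_lit 8720030966) (nat_lit 76) (nat_lit 14338748515) (nat_lit 308) (nat_lit 5) (nat_lit 317) (nat_lit 5) (nat_lit 309) (nat_lit 5) (nat_lit 633) (nat_lit 582) (nat_lit 345)))))) (XT.nd (nat_lit 546) (nat_lit 2812) (nat_lit 0) (XT.nd (nat_lit 234) (nat_lit 1292) (nat_lit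 0) (XT.nd (nat_lit 78) (nat_lit 608) (nat_lit 0) (XT.lf (nat_lit 0) (nat_lit 4830036645) (nat_lit 760) (nat_lit 19181690426) (nat_lit 76) (nat_lit 325015222) (nat_lit 299) (nat_lit 5) (nat_lit 309) (nat_lit 5) (nat_lit 300) (nat_lit 5) (nat_lit 634) (nat_lit 582) (nat_lit 344)) (XT.nd (nat_lit 78) (nat_lit 608) (nat_lit 0) (XT.lf (nat_lit 0) (nat_lit 8854542479) (nat_lit 760) (nat_lit 5261214740) (nat_lit 76) (nat_lit 10500568435) (nat_lit 299) (nat_lit 5) (nat_lit 309) (nat_lit 5) (nat_lit 300) (nat_lit 5) (nat_lit 635) (nat_lit 582) (nat_lit 343)) (XT.lf (nat_lit 0) (nat_lit 9051737362) (nat_lit 608) (nat_lit 3962781060) (nat_lit 684) (nat_lit 11885882841) (nat_lit 291) (nat_lit 5) (nat_lit 299) (nat_lit 5) (nat_lit 300) (nat_lit 5) (nat_lit 636) (nat_lit 582) (nat_lit 342)))) (XT.nd (nat_lit 156) (nat_lit 684) (nat_lit 0) (XT.nd (nat_lit 78) (nat_lit 608) (nat_lit 0) (XT.lf (nat_lit 0) (nat_lit 17330991244) (nat_lit 684) (nat_lit 1513616781) (nat_lit 76) (nat_lit 6344084586) (nat_lit 291) (nat_lit 5) (nat_lit 300) (nat_lit 5) (nat_lit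 292) (nat_lit 5) (nat_lit 637) (nat_lit 582) (nat_lit 341)) (XT.lf (nat_lit 0) (nat_lit 13251082831) (nat_lit 608) (nat_lit 8591311426) (nat_lit 684) (nat_lit 3638183690) (nat_lit 283) (nat_lit 5) (nat_lit 291) (nat_lit 5) (nat_lit 292) (nat_lit 5) (nat_lit 638) (nat_lit 582) (nat_lit 340))) (XT.nd (nat_lit 78) (nat_lit 0) (nat_lit 0) (XT.lf (nat_lit 0) (nat_lit 692621459) (nat_lit 684) (nat_lit 23211764067) (nat_lit 76) (nat_lit 1873116617) (nat_lit 274) (nat_lit 5) (nat_lit 283) (nat_lit 5) (nat_lit 275) (nat_lit 5) (nat_lit 639) (nat_lit 582) (nat_lit 339)) (XT.lf (nat_lit 0) (nat_lit 5197255194) (nat_lit 684) (nat_lit 8342256710) (nat_lit 76) (nat_lit 12537653560) (nat_lit 274) (nat_lit 5) (nat_lit 283) (nat_lit 5) (nat_lit 275) (nat_lit 5) (nat_lit 640) (nat_lit 582) (nat_lit 338))))) (XT.nd (nat_lit 312) (nat_lit 1140) (nat_lit 0) (XT.nd (nat_lit 156) (nat_lit 1064) (nat_lit 0) (XT.nd (nat_lit 78) (nat_lit 0) (nat_lit 0) (XT.lf (nat_lit 0) (nat_lit 6910717614) (nat_lit 608) (nat_lit 2922580291) (nat_lit 684) (nat_lit 16548697979) (nat_lit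 266) (nat_lit 5) (nat_lit 274) (nat_lit 5) (nat_lit 275) (nat_lit 5) (nat_lit 641) (nat_lit 582) (nat_lit 337)) (XT.lf (nat_lit 0) (nat_lit 14666229615) (nat_lit 684) (nat_lit 4166268894) (nat_lit 76) (nat_lit 7858341197) (nat_lit 266) (nat_lit 5) (nat_lit 275) (nat_lit 5) (nat_lit 267) (nat_lit 5) (nat_lit 642) (nat_lit 582) (nat_lit 336))) (XT.nd (nat_lit 78) (nat_lit 532) (nat_lit 0) (XT.lf (nat_lit 0) (nat_lit 11572762438) (nat_lit 532) (nat_lit 8114100407) (nat_lit 608) (nat_lit 7317176854) (nat_lit 259) (nat_lit 5) (nat_lit 266) (nat_lit 5) (nat_lit 267) (nat_lit 5) (nat_lit 643) (nat_lit 582) (nat_lit 335)) (XT.lf (nat_lit 0) (nat_lit 341564489) (nat_lit 532) (nat_lit 24511587288) (nat_lit 608) (nat_lit 2469447206) (nat_lit 252) (nat_lit 5) (nat_lit 259) (nat_lit 5) (nat_lit 260) (nat_lit 5) (nat_lit 644) (nat_lit 582) (nat_lit 334)))) (XT.nd (nat_lit 156) (nat_lit 532) (nat_lit 0) (XT.nd (nat_lit 78) (nat_lit 532) (nat_lit 0) (XT.lf (nat_lit 0) (nat_lit 2597344352) (nat_lit 608) (nat_lit 11081462396) (nat_lit 76) (nat_lit 13965310022)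 (nat_lit 251) (nat_lit 5) (nat_lit 259) (nat_lit 5) (nat_lit 252) (nat_lit 5) (nat_lit 645) (nat_lit 582) (nat_lit 333)) (XT.lf (nat_lit 0) (nat_lit 5183266205) (nat_lit 532) (nat_lit 2579487441) (nat_lit 608) (nat_lit 20208377990) (nat_lit 244) (nat_lit 5) (nat_lit 251) (nat_lit 5) (nat_lit 252) (nat_lit 5) (nat_lit 646) (nat_lit 582) (nat_lit 332))) (XT.nd (nat_lit 78) (nat_lit 532) (nat_lit 0) (XT.lf (nat_lit 0) (nat_lit 13159776714) (nat_lit 608) (nat_lit 6441438077) (nat_lit 76) (nat_lit 8700906035) (nat_lit 244) (nat_lit 5) (nat_lit 252) (nat_lit 5) (nat_lit 245) (nat_lit 5) (nat_lit 647) (nat_lit 582) (nat_lit 331)) (XT.lf (nat_lit 0) (nat_lit 10346124551) (nat_lit 532) (nat_lit 8399630130) (nat_lit 608) (nat_lit 9892354968) (nat_lit 237) (nat_lit 5) (nat_lit 244) (nat_lit 5) (nat_lit 245) (nat_lit 5) (nat_lit 648) (nat_lit 582) (nat_lit 330))))))))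
noncomputable def xc91 : XT := (XT.nd (nat_lit 79482) (nat_lit 0) (nat_lit 532) (XT.nd (nat_lit 78312) (nat_lit 0) (nat_lit 10336) (XT.nd (nat_lit 77688) (nat_lit 0) (nat_lit 17784) (XT.nd (nat_lit 234) (nat_lit 988) (nat_lit 0) (XT.nd (nat_lit 78) (nat_lit 1064) (nat_lit 0) (XT.lf (nat_lit 0) (nat_lit 24503396066) (nat_lit 608) (nat_lit 1447562489) (nat_lit 76) (nat_lit 3028660949) (nat_lit 237) (nat_lit 5) (nat_lit 245) (nat_lit 5) (nat_lit 238) (nat_lit 5) (nat_lit 649) (nat_lit 582) (nat_lit 329)) (XT.nd (nat_lit 78) (nat_lit 532) (nat_lit 0) (XT.lf (nat_lit 0) (nat_lit 1191105403) (nat_lit 532) (nat_lit 13450608653) (nat_lit 76) (nat_lit 14682977063) (nat_lit 230) (nat_lit 5) (nat_lit 237) (nat_lit 5) (nat_lit 231) (nat_lit 5) (nat_lit 650) (nat_lit 582) (nat_lit 328)) (XT.lf (nat_lit 0) (nat_lit 3902429381) (nat_lit 532) (nat_lit 3041447721) (nat_lit 608) (nat_lit 22731554777) (nat_lit 223) (nat_lit 5) (nat_lit 230) (nat_lit 5) (nat_lit 231) (nat_lit 5) (nat_lit 651) (nat_lit 582) (nat_lit 327)))) (XT.nd (nat_lit 156) (nat_lit 532)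 (nat_lit 0) (XT.nd (nat_lit 78) (nat_lit 456) (nat_lit 0) (XT.lf (nat_lit 0) (nat_lit 12956525506) (nat_lit 608) (nat_lit 8308582778) (nat_lit 76) (nat_lit 8765182867) (nat_lit 223) (nat_lit 5) (nat_lit 231) (nat_lit 5) (nat_lit 224) (nat_lit 5) (nat_lit 652) (nat_lit 582) (nat_lit 326)) (XT.lf (nat_lit 0) (nat_lit 9606680920) (nat_lit 456) (nat_lit 9562208974) (nat_lit 532) (nat_lit 11221768575) (nat_lit 217) (nat_lit 5) (nat_lit 223) (nat_lit 5) (nat_lit 224) (nat_lit 5) (nat_lit 653) (nat_lit 582) (nat_lit 325))) (XT.nd (nat_lit 78) (nat_lit 532) (nat_lit 0) (XT.lf (nat_lit 0) (nat_lit 25574016284) (nat_lit 532) (nat_lit 2784350675) (nat_lit 76) (nat_lit 2398495999) (nat_lit 217) (nat_lit 5) (nat_lit 224) (nat_lit 5) (nat_lit 218) (nat_lit 5) (nat_lit 654) (nat_lit 582) (nat_lit 324)) (XT.lf (nat_lit 0) (nat_lit 1127499032) (nat_lit 532) (nat_lit 15420764830) (nat_lit 76) (nat_lit 14578731801) (nat_lit 210) (nat_lit 5) (nat_lit 217) (nat_lit 5) (nat_lit 211) (nat_lit 5) (nat_lit 655) (nat_lit 582) (nat_lit 323))))) (XT.nd (nat_lit 312)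 (nat_lit 2812) (nat_lit 0) (XT.nd (nat_lit 156) (nat_lit 0) (nat_lit 76) (XT.nd (nat_lit 78) (nat_lit 0) (nat_lit 0) (XT.lf (nat_lit 76) (nat_lit 382003166) (nat_lit 0) (nat_lit 8102664953) (nat_lit 1900) (nat_lit 9203209734) (nat_lit 482) (nat_lit 5) (nat_lit 481) (nat_lit 5) (nat_lit 506) (nat_lit 5) (nat_lit 604) (nat_lit 583) (nat_lit 373)) (XT.lf (nat_lit 76) (nat_lit 9962639098) (nat_lit 0) (nat_lit 47620899) (nat_lit 1900) (nat_lit 7862272460) (nat_lit 482) (nat_lit 5) (nat_lit 481) (nat_lit 5) (nat_lit 506) (nat_lit 5) (nat_lit 605) (nat_lit 583) (nat_lit 372))) (XT.nd (nat_lit 78) (nat_lit 0) (nat_lit 0) (XT.lf (nat_lit 76) (nat_lit 1637583956) (nat_lit 0) (nat_lit 9986617145) (nat_lit 1900) (nat_lit 6435522651) (nat_lit 483) (nat_lit 5) (nat_lit 482) (nat_lit 5) (nat_lit 507) (nat_lit 5) (nat_lit 606) (nat_lit 583) (nat_lit 371)) (XT.lf (nat_lit 76) (nat_lit 11478078584) (nat_lit 0) (nat_lit 1839987856) (nat_lit 1900) (nat_lit 4931639864) (nat_lit 483) (nat_lit 5) (nat_lit 482) (nat_lit 5) (nat_lit 507) (nat_lit 5) (nat_lit 607)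 (nat_lit 583) (nat_lit 370)))) (XT.nd (nat_lit 156) (nat_lit 1140) (nat_lit 0) (XT.nd (nat_lit 78) (nat_lit 0) (nat_lit 0) (XT.lf (nat_lit 0) (nat_lit 3065233485) (nat_lit 1824) (nat_lit 12036852978) (nat_lit 1900) (nat_lit 3340276828) (nat_lit 459) (nat_lit 5) (nat_lit 483) (nat_lit 5) (nat_lit 484) (nat_lit 5) (nat_lit 608) (nat_lit 583) (nat_lit 369)) (XT.lf (nat_lit 0) (nat_lit 13173450348) (nat_lit 1824) (nat_lit 3800333030) (nat_lit 1900) (nat_lit 1664050434) (nat_lit 459) (nat_lit 5) (nat_lit 483) (nat_lit 5) (nat_lit 484) (nat_lit 5) (nat_lit 609) (nat_lit 583) (nat_lit 368))) (XT.nd (nat_lit 78) (nat_lit 0) (nat_lit 0) (XT.lf (nat_lit 0) (nat_lit 100240781) (nat_lit 1140) (nat_lit 14163587278) (nat_lit 76) (nat_lit 4572277271) (nat_lit 444) (nat_lit 5) (nat_lit 459) (nat_lit 5) (nat_lit 445) (nat_lit 5) (nat_lit 610) (nat_lit 583) (nat_lit 367)) (XT.lf (nat_lit 0) (nat_lit 1934239604) (nat_lit 1140) (nat_lit 3992695721) (nat_lit 76) (nat_lit 13110053204) (nat_lit 444) (nat_lit 5) (nat_lit 459) (nat_lit 5) (nat_lit 445) (nat_lit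 5) (nat_lit 611) (nat_lit 583) (nat_lit 366)))))) (XT.nd (nat_lit 546) (nat_lit 3952) (nat_lit 0) (XT.nd (nat_lit 234) (nat_lit 1672) (nat_lit 0) (XT.nd (nat_lit 78) (nat_lit 912) (nat_lit 0) (XT.lf (nat_lit 0) (nat_lit 3858590820) (nat_lit 988) (nat_lit 12796597844) (nat_lit 76) (nat_lit 2585627580) (nat_lit 432) (nat_lit 5) (nat_lit 445) (nat_lit 5) (nat_lit 433) (nat_lit 5) (nat_lit 612) (nat_lit 583) (nat_lit 365)) (XT.nd (nat_lit 78) (nat_lit 912) (nat_lit 0) (XT.lf (nat_lit 0) (nat_lit 5882435578) (nat_lit 988) (nat_lit 2348485602) (nat_lit 76) (nat_lit 11216579498) (nat_lit 432) (nat_lit 5) (nat_lit 445) (nat_lit 5) (nat_lit 433) (nat_lit 5) (nat_lit 613) (nat_lit 583) (nat_lit 364)) (XT.lf (nat_lit 0) (nat_lit 7998987914) (nat_lit 988) (nat_lit 11245869479) (nat_lit 76) (nat_lit 412417083) (nat_lit 420) (nat_lit 5) (nat_lit 433) (nat_lit 5) (nat_lit 421) (nat_lit 5) (nat_lit 614) (nat_lit 583) (nat_lit 363)))) (XT.nd (nat_lit 156) (nat_lit 836) (nat_lit 0) (XT.nd (nat_lit 78) (nat_lit 836) (nat_lit 0) (XT.lf (nat_lit 0) (nat_lit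 10223203146) (nat_lit 988) (nat_lit 512056079) (nat_lit 76) (nat_lit 9134678171) (nat_lit 420) (nat_lit 5) (nat_lit 433) (nat_lit 5) (nat_lit 421) (nat_lit 5) (nat_lit 615) (nat_lit 583) (nat_lit 362)) (XT.lf (nat_lit 0) (nat_lit 10570318657) (nat_lit 836) (nat_lit 1985270891) (nat_lit 912) (nat_lit 7529990567) (nat_lit 409) (nat_lit 5) (nat_lit 420) (nat_lit 5) (nat_lit 421) (nat_lit 5) (nat_lit 616) (nat_lit 583) (nat_lit 361))) (XT.nd (nat_lit 78) (nat_lit 0) (nat_lit 0) (XT.lf (nat_lit 0) (nat_lit 1546199482) (nat_lit 836) (nat_lit 13442104011) (nat_lit 912) (nat_lit 5316158871) (nat_lit 398) (nat_lit 5) (nat_lit 409) (nat_lit 5) (nat_lit 410) (nat_lit 5) (nat_lit 617) (nat_lit 583) (nat_lit 360)) (XT.lf (nat_lit 0) (nat_lit 12939766797) (nat_lit 836) (nat_lit 4602007561) (nat_lit 912) (nat_lit 2984506115) (nat_lit 398) (nat_lit 5) (nat_lit 409) (nat_lit 5) (nat_lit 410) (nat_lit 5) (nat_lit 618) (nat_lit 583) (nat_lit 359))))) (XT.nd (nat_lit 312) (nat_lit 2204) (nat_lit 0) (XT.nd (nat_lit 156) (nat_lit 836) (nat_lit 0) (XT.nd (nat_lit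 78) (nat_lit 76) (nat_lit 0) (XT.lf (nat_lit 0) (nat_lit 3825393335) (nat_lit 836) (nat_lit 16369706440) (nat_lit 912) (nat_lit 556459728) (nat_lit 387) (nat_lit 5) (nat_lit 398) (nat_lit 5) (nat_lit 399) (nat_lit 5) (nat_lit 619) (nat_lit 583) (nat_lit 358)) (XT.lf (nat_lit 0) (nat_lit 1972002312) (nat_lit 912) (nat_lit 5460045692) (nat_lit 76) (nat_lit 13547506266) (nat_lit 386) (nat_lit 5) (nat_lit 398) (nat_lit 5) (nat_lit 387) (nat_lit 5) (nat_lit 620) (nat_lit 583) (nat_lit 357))) (XT.nd (nat_lit 78) (nat_lit 0) (nat_lit 0) (XT.lf (nat_lit 0) (nat_lit 4591193675) (nat_lit 912) (nat_lit 14912793585) (nat_lit 76) (nat_lit 1707096135) (nat_lit 375) (nat_lit 5) (nat_lit 387) (nat_lit 5) (nat_lit 376) (nat_lit 5) (nat_lit 621) (nat_lit 583) (nat_lit 356)) (XT.lf (nat_lit 0) (nat_lit 7344334944) (nat_lit 912) (nat_lit 3134946452) (nat_lit 76) (nat_lit 10966330627) (nat_lit 375) (nat_lit 5) (nat_lit 387) (nat_lit 5) (nat_lit 376) (nat_lit 5) (nat_lit 622) (nat_lit 583) (nat_lit 355)))) (XT.nd (nat_lit 156) (nat_lit 1444) (nat_lit 0) (XT.nd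 (nat_lit 78) (nat_lit 0) (nat_lit 0) (XT.lf (nat_lit 0) (nat_lit 8991700076) (nat_lit 760) (nat_lit 1214772757) (nat_lit 836) (nat_lit 11477279951) (nat_lit 365) (nat_lit 5) (nat_lit 375) (nat_lit 5) (nat_lit 376) (nat_lit 5) (nat_lit 623) (nat_lit 583) (nat_lit 354)) (XT.lf (nat_lit 0) (nat_lit 13196106147) (nat_lit 836) (nat_lit 581208411) (nat_lit 76) (nat_lit 8147936981) (nat_lit 365) (nat_lit 5) (nat_lit 376) (nat_lit 5) (nat_lit 366) (nat_lit 5) (nat_lit 624) (nat_lit 583) (nat_lit 353))) (XT.nd (nat_lit 78) (nat_lit 684) (nat_lit 0) (XT.lf (nat_lit 0) (nat_lit 11915433140) (nat_lit 760) (nat_lit 4411201789) (nat_lit 836) (nat_lit 5843323513) (nat_lit 355) (nat_lit 5) (nat_lit 365) (nat_lit 5) (nat_lit 366) (nat_lit 5) (nat_lit 625) (nat_lit 583) (nat_lit 352)) (XT.lf (nat_lit 0) (nat_lit 2241691951) (nat_lit 684) (nat_lit 17325696825) (nat_lit 760) (nat_lit 2851218640) (nat_lit 346) (nat_lit 5) (nat_lit 355) (nat_lit 5) (nat_lit 356) (nat_lit 5) (nat_lit 626) (nat_lit 583) (nat_lit 351))))))) (XT.nd (nat_lit 1170) (nat_lit 4332) (nat_lit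 0) (XT.nd (nat_lit 546) (nat_lit 2660) (nat_lit 0) (XT.nd (nat_lit 234) (nat_lit 1976) (nat_lit 0) (XT.nd (nat_lit 78) (nat_lit 760) (nat_lit 0) (XT.lf (nat_lit 0) (nat_lit 292350128) (nat_lit 760) (nat_lit 7579714581) (nat_lit 76) (nat_lit 14798253721) (nat_lit 345) (nat_lit 5) (nat_lit 355) (nat_lit 5) (nat_lit 346) (nat_lit 5) (nat_lit 627) (nat_lit 583) (nat_lit 350)) (XT.nd (nat_lit 78) (nat_lit 0) (nat_lit 0) (XT.lf (nat_lit 0) (nat_lit 3502862402) (nat_lit 836) (nat_lit 17622294883) (nat_lit 76) (nat_lit 1800684663) (nat_lit 335) (nat_lit 5) (nat_lit 346) (nat_lit 5) (nat_lit 336) (nat_lit 5) (nat_lit 628) (nat_lit 583) (nat_lit 349)) (XT.lf (nat_lit 0) (nat_lit 6876821658) (nat_lit 836) (nat_lit 4695390627) (nat_lit 76) (nat_lit 11612279120) (nat_lit 335) (nat_lit 5) (nat_lit 346) (nat_lit 5) (nat_lit 336) (nat_lit 5) (nat_lit 629) (nat_lit 583) (nat_lit 348)))) (XT.nd (nat_lit 156) (nat_lit 1292) (nat_lit 0) (XT.nd (nat_lit 78) (nat_lit 0) (nat_lit 0) (XT.lf (nat_lit 0) (nat_lit 8598229613) (nat_lit 684) (nat_lit 1771839363) (nat_lit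 760) (nat_lit 13077208901) (nat_lit 326) (nat_lit 5) (nat_lit 335) (nat_lit 5) (nat_lit 336) (nat_lit 5) (nat_lit 630) (nat_lit 583) (nat_lit 347)) (XT.lf (nat_lit 0) (nat_lit 14014326404) (nat_lit 760) (nat_lit 1551563171) (nat_lit 76) (nat_lit 8147807798) (nat_lit 326) (nat_lit 5) (nat_lit 336) (nat_lit 5) (nat_lit 327) (nat_lit 5) (nat_lit 631) (nat_lit 583) (nat_lit 346))) (XT.nd (nat_lit 78) (nat_lit 608) (nat_lit 0) (XT.lf (nat_lit 0) (nat_lit 12155008657) (nat_lit 684) (nat_lit 5663219384) (nat_lit 760) (nat_lit 6165482232) (nat_lit 317) (nat_lit 5) (nat_lit 326) (nat_lit 5) (nat_lit 327) (nat_lit 5) (nat_lit 632) (nat_lit 583) (nat_lit 345)) (XT.lf (nat_lit 0) (nat_lit 1889137841) (nat_lit 608) (nat_lit 19856776725) (nat_lit 684) (nat_lit 2512254918) (nat_lit 309) (nat_lit 5) (nat_lit 317) (nat_lit 5) (nat_lit 318) (nat_lit 5) (nat_lit 633) (nat_lit 583) (nat_lit 344))))) (XT.nd (nat_lit 312) (nat_lit 1292) (nat_lit 0) (XT.nd (nat_lit 156) (nat_lit 608) (nat_lit 0) (XT.nd (nat_lit 78) (nat_lit 684) (nat_lit 0) (XT.lf (nat_lit 0)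 (nat_lit 1311691758) (nat_lit 684) (nat_lit 8545375710) (nat_lit 76) (nat_lit 14678621405) (nat_lit 308) (nat_lit 5) (nat_lit 317) (nat_lit 5) (nat_lit 309) (nat_lit 5) (nat_lit 634) (nat_lit 583) (nat_lit 343)) (XT.lf (nat_lit 0) (nat_lit 5213730897) (nat_lit 760) (nat_lit 19213207020) (nat_lit 76) (nat_lit 390783741) (nat_lit 299) (nat_lit 5) (nat_lit 309) (nat_lit 5) (nat_lit 300) (nat_lit 5) (nat_lit 635) (nat_lit 583) (nat_lit 342))) (XT.nd (nat_lit 78) (nat_lit 608) (nat_lit 0) (XT.lf (nat_lit 0) (nat_lit 9313097563) (nat_lit 760) (nat_lit 5021226080) (nat_lit 76) (nat_lit 10768685897) (nat_lit 299) (nat_lit 5) (nat_lit 309) (nat_lit 5) (nat_lit 300) (nat_lit 5) (nat_lit 636) (nat_lit 583) (nat_lit 341)) (XT.lf (nat_lit 0) (nat_lit 9575713927) (nat_lit 608) (nat_lit 3977266797) (nat_lit 684) (nat_lit 11839852044) (nat_lit 291) (nat_lit 5) (nat_lit 299) (nat_lit 5) (nat_lit 300) (nat_lit 5) (nat_lit 637) (nat_lit 583) (nat_lit 340)))) (XT.nd (nat_lit 156) (nat_lit 684) (nat_lit 0) (XT.nd (nat_lit 78) (nat_lit 608) (nat_lit 0) (XT.lf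 (nat_lit 0) (nat_lit 17950740935) (nat_lit 684) (nat_lit 1202616756) (nat_lit 76) (nat_lit 6533633352) (nat_lit 291) (nat_lit 5) (nat_lit 300) (nat_lit 5) (nat_lit 292) (nat_lit 5) (nat_lit 638) (nat_lit 583) (nat_lit 339)) (XT.lf (nat_lit 0) (nat_lit 13855131635) (nat_lit 608) (nat_lit 8694086073) (nat_lit 684) (nat_lit 3435559712) (nat_lit 283) (nat_lit 5) (nat_lit 291) (nat_lit 5) (nat_lit 292) (nat_lit 5) (nat_lit 639) (nat_lit 583) (nat_lit 338))) (XT.nd (nat_lit 78) (nat_lit 0) (nat_lit 0) (XT.lf (nat_lit 0) (nat_lit 975596709) (nat_lit 684) (nat_lit 23330682956) (nat_lit 76) (nat_lit 1981377980) (nat_lit 274) (nat_lit 5) (nat_lit 283) (nat_lit 5) (nat_lit 275) (nat_lit 5) (nat_lit 640) (nat_lit 583) (nat_lit 337)) (XT.lf (nat_lit 0) (nat_lit 5565046200) (nat_lit 684) (nat_lit 8170556362) (nat_lit 76) (nat_lit 12857817445) (nat_lit 274) (nat_lit 5) (nat_lit 283) (nat_lit 5) (nat_lit 275) (nat_lit 5) (nat_lit 641) (nat_lit 583) (nat_lit 336)))))) (XT.nd (nat_lit 546) (nat_lit 2052) (nat_lit 0) (XT.nd (nat_lit 234) (nat_lit 1140) (nat_lit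 0) (XT.nd (nat_lit 78) (nat_lit 532) (nat_lit 0) (XT.lf (nat_lit 0) (nat_lit 7385250176) (nat_lit 608) (nat_lit 2905569741) (nat_lit 684) (nat_lit 16613587147) (nat_lit 266) (nat_lit 5) (nat_lit 274) (nat_lit 5) (nat_lit 275) (nat_lit 5) (nat_lit 642) (nat_lit 583) (nat_lit 335)) (XT.nd (nat_lit 78) (nat_lit 532) (nat_lit 0) (XT.lf (nat_lit 0) (nat_lit 15215775780) (nat_lit 684) (nat_lit 3915224668) (nat_lit 76) (nat_lit 8088520232) (nat_lit 266) (nat_lit 5) (nat_lit 275) (nat_lit 5) (nat_lit 267) (nat_lit 5) (nat_lit 643) (nat_lit 583) (nat_lit 334)) (XT.lf (nat_lit 0) (nat_lit 12136387491) (nat_lit 532) (nat_lit 8197566898) (nat_lit 608) (nat_lit 7205087854) (nat_lit 259) (nat_lit 5) (nat_lit 266) (nat_lit 5) (nat_lit 267) (nat_lit 5) (nat_lit 644) (nat_lit 583) (nat_lit 333)))) (XT.nd (nat_lit 156) (nat_lit 532) (nat_lit 0) (XT.nd (nat_lit 78) (nat_lit 76) (nat_lit 0) (XT.lf (nat_lit 0) (nat_lit 682916740) (nat_lit 532) (nat_lit 24918358249) (nat_lit 608) (nat_lit 2262743824) (nat_lit 252) (nat_lit 5) (nat_lit 259) (nat_lit 5) (nat_lit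 260) (nat_lit 5) (nat_lit 645) (nat_lit 583) (nat_lit 332)) (XT.lf (nat_lit 0) (nat_lit 2897069307) (nat_lit 608) (nat_lit 10971826556) (nat_lit 76) (nat_lit 14323137160) (nat_lit 251) (nat_lit 5) (nat_lit 259) (nat_lit 5) (nat_lit 252) (nat_lit 5) (nat_lit 646) (nat_lit 583) (nat_lit 331))) (XT.nd (nat_lit 78) (nat_lit 0) (nat_lit 0) (XT.lf (nat_lit 0) (nat_lit 5616017241) (nat_lit 532) (nat_lit 2547047795) (nat_lit 608) (nat_lit 20362577792) (nat_lit 244) (nat_lit 5) (nat_lit 251) (nat_lit 5) (nat_lit 252) (nat_lit 5) (nat_lit 647) (nat_lit 583) (nat_lit 330)) (XT.lf (nat_lit 0) (nat_lit 13663758417) (nat_lit 608) (nat_lit 6243353527) (nat_lit 76) (nat_lit 8956225464) (nat_lit 244) (nat_lit 5) (nat_lit 252) (nat_lit 5) (nat_lit 245) (nat_lit 5) (nat_lit 648) (nat_lit 583) (nat_lit 329))))) (XT.nd (nat_lit 312) (nat_lit 456) (nat_lit 0) (XT.nd (nat_lit 156) (nat_lit 1064) (nat_lit 0) (XT.nd (nat_lit 78) (nat_lit 0) (nat_lit 0) (XT.lf (nat_lit 0) (nat_lit 10877809609) (nat_lit 532) (nat_lit 8481033610) (nat_lit 608) (nat_lit 9847255239)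 (nat_lit 237) (nat_lit 5) (nat_lit 244) (nat_lit 5) (nat_lit 245) (nat_lit 5) (nat_lit 649) (nat_lit 583) (nat_lit 328)) (XT.lf (nat_lit 0) (nat_lit 25227518535) (nat_lit 608) (nat_lit 1153990449) (nat_lit 76) (nat_lit 3173012100) (nat_lit 237) (nat_lit 5) (nat_lit 245) (nat_lit 5) (nat_lit 238) (nat_lit 5) (nat_lit 650) (nat_lit 583) (nat_lit 327))) (XT.nd (nat_lit 78) (nat_lit 532) (nat_lit 0) (XT.lf (nat_lit 0) (nat_lit 1448015831) (nat_lit 532) (nat_lit 13396112437) (nat_lit 76) (nat_lit 15062385566) (nat_lit 230) (nat_lit 5) (nat_lit 237) (nat_lit 5) (nat_lit 231) (nat_lit 5) (nat_lit 651) (nat_lit 583) (nat_lit 326)) (XT.lf (nat_lit 0) (nat_lit 4301858013) (nat_lit 532) (nat_lit 3011501203) (nat_lit 608) (nat_lit 22950960049) (nat_lit 223) (nat_lit 5) (nat_lit 230) (nat_lit 5) (nat_lit 231) (nat_lit 5) (nat_lit 652) (nat_lit 583) (nat_lit 325)))) (XT.nd (nat_lit 156) (nat_lit 0) (nat_lit 0) (XT.nd (nat_lit 78) (nat_lit 456) (nat_lit 0) (XT.lf (nat_lit 0) (nat_lit 13442316749) (nat_lit 608) (nat_lit 8155723138) (nat_lit 76) (nat_lit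 9028314893) (nat_lit 223) (nat_lit 5) (nat_lit 231) (nat_lit 5) (nat_lit 224) (nat_lit 5) (nat_lit 653) (nat_lit 583) (nat_lit 324)) (XT.lf (nat_lit 0) (nat_lit 10115746944) (nat_lit 456) (nat_lit 9660794889) (nat_lit 532) (nat_lit 11217435520) (nat_lit 217) (nat_lit 5) (nat_lit 223) (nat_lit 5) (nat_lit 224) (nat_lit 5) (nat_lit 654) (nat_lit 583) (nat_lit 323))) (XT.nd (nat_lit 77142) (nat_lit 0) (nat_lit 19988) (XT.lf (nat_lit 0) (nat_lit 26305963020) (nat_lit 532) (nat_lit 2525503284) (nat_lit 76) (nat_lit 2536115954) (nat_lit 217) (nat_lit 5) (nat_lit 224) (nat_lit 5) (nat_lit 218) (nat_lit 5) (nat_lit 655) (nat_lit 583) (nat_lit 322)) (XT.lf (nat_lit 0) (nat_lit 6238847665) (nat_lit 1824) (nat_lit 359823395) (nat_lit 1900) (nat_lit 11065134528) (nat_lit 480) (nat_lit 5) (nat_lit 504) (nat_lit 5) (nat_lit 505) (nat_lit 5) (nat_lit 603) (nat_lit 584) (nat_lit 373))))))))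
noncomputable def xc92 : XT := (XT.nd (nat_lit 2340) (nat_lit 7600) (nat_lit 0) (XT.nd (nat_lit 1170) (nat_lit 6156) (nat_lit 0) (XT.nd (nat_lit 546) (nat_lit 4636) (nat_lit 0) (XT.nd (nat_lit 234) (nat_lit 1672) (nat_lit 0) (XT.nd (nat_lit 78) (nat_lit 0) (nat_lit 0) (XT.lf (nat_lit 0) (nat_lit 7631190539) (nat_lit 1824) (nat_lit 8713690919) (nat_lit 1900) (nat_lit 1502024595) (nat_lit 481) (nat_lit 5) (nat_lit 505) (nat_lit 5) (nat_lit 506) (nat_lit 5) (nat_lit 604) (nat_lit 584) (nat_lit 372)) (XT.nd (nat_lit 78) (nat_lit 0) (nat_lit 0) (XT.lf (nat_lit 76) (nat_lit 748797539) (nat_lit 0) (nat_lit 8347768118) (nat_lit 1900) (nat_lit 8936199507) (nat_lit 482) (nat_lit 5) (nat_lit 481) (nat_lit 5) (nat_lit 506) (nat_lit 5) (nat_lit 605) (nat_lit 584) (nat_lit 371)) (XT.lf (nat_lit 76) (nat_lit 10514003949) (nat_lit 0) (nat_lit 129994755) (nat_lit 1900) (nat_lit 7577288084) (nat_lit 482) (nat_lit 5) (nat_lit 481) (nat_lit 5) (nat_lit 506) (nat_lit 5) (nat_lit 606) (nat_lit 584) (nat_lit 370)))) (XT.nd (nat_lit 156) (nat_lit 1748) (nat_lit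 0) (XT.nd (nat_lit 78) (nat_lit 0) (nat_lit 0) (XT.lf (nat_lit 76) (nat_lit 2029295448) (nat_lit 0) (nat_lit 10254234854) (nat_lit 1900) (nat_lit 6128825877) (nat_lit 483) (nat_lit 5) (nat_lit 482) (nat_lit 5) (nat_lit 507) (nat_lit 5) (nat_lit 607) (nat_lit 584) (nat_lit 369)) (XT.lf (nat_lit 76) (nat_lit 12059561540) (nat_lit 0) (nat_lit 1943341894) (nat_lit 1900) (nat_lit 4603402830) (nat_lit 483) (nat_lit 5) (nat_lit 482) (nat_lit 5) (nat_lit 507) (nat_lit 5) (nat_lit 608) (nat_lit 584) (nat_lit 368))) (XT.nd (nat_lit 78) (nat_lit 0) (nat_lit 0) (XT.lf (nat_lit 0) (nat_lit 3484912480) (nat_lit 1824) (nat_lit 12331389134) (nat_lit 1900) (nat_lit 2986641305) (nat_lit 459) (nat_lit 5) (nat_lit 483) (nat_lit 5) (nat_lit 484) (nat_lit 5) (nat_lit 609) (nat_lit 584) (nat_lit 367)) (XT.lf (nat_lit 0) (nat_lit 13788266733) (nat_lit 1824) (nat_lit 3929083904) (nat_lit 1900) (nat_lit 1285134326) (nat_lit 459) (nat_lit 5) (nat_lit 483) (nat_lit 5) (nat_lit 484) (nat_lit 5) (nat_lit 610) (nat_lit 584) (nat_lit 366))))) (XT.nd (nat_lit 312) (nat_lit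 2584) (nat_lit 0) (XT.nd (nat_lit 156) (nat_lit 912) (nat_lit 0) (XT.nd (nat_lit 78) (nat_lit 0) (nat_lit 0) (XT.lf (nat_lit 0) (nat_lit 503058449) (nat_lit 1140) (nat_lit 14084081377) (nat_lit 76) (nat_lit 4617648578) (nat_lit 444) (nat_lit 5) (nat_lit 459) (nat_lit 5) (nat_lit 445) (nat_lit 5) (nat_lit 611) (nat_lit 584) (nat_lit 365)) (XT.lf (nat_lit 0) (nat_lit 2365878174) (nat_lit 1140) (nat_lit 3716885276) (nat_lit 76) (nat_lit 13327083446) (nat_lit 444) (nat_lit 5) (nat_lit 459) (nat_lit 5) (nat_lit 445) (nat_lit 5) (nat_lit 612) (nat_lit 584) (nat_lit 364))) (XT.nd (nat_lit 78) (nat_lit 0) (nat_lit 0) (XT.lf (nat_lit 0) (nat_lit 4323083286) (nat_lit 988) (nat_lit 12691210423) (nat_lit 76) (nat_lit 2603570556) (nat_lit 432) (nat_lit 5) (nat_lit 445) (nat_lit 5) (nat_lit 433) (nat_lit 5) (nat_lit 613) (nat_lit 584) (nat_lit 363)) (XT.lf (nat_lit 0) (nat_lit 6379810417) (nat_lit 988) (nat_lit 2041220630) (nat_lit 76) (nat_lit 11407803660) (nat_lit 432) (nat_lit 5) (nat_lit 445) (nat_lit 5) (nat_lit 433) (nat_lit 5) (nat_lit 614) (nat_lit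 584) (nat_lit 362)))) (XT.nd (nat_lit 156) (nat_lit 1672) (nat_lit 0) (XT.nd (nat_lit 78) (nat_lit 0) (nat_lit 0) (XT.lf (nat_lit 0) (nat_lit 8533385854) (nat_lit 988) (nat_lit 11111223198) (nat_lit 76) (nat_lit 398301509) (nat_lit 420) (nat_lit 5) (nat_lit 433) (nat_lit 5) (nat_lit 421) (nat_lit 5) (nat_lit 615) (nat_lit 584) (nat_lit 361)) (XT.lf (nat_lit 0) (nat_lit 10794743857) (nat_lit 988) (nat_lit 169783798) (nat_lit 76) (nat_lit 9295446327) (nat_lit 420) (nat_lit 5) (nat_lit 433) (nat_lit 5) (nat_lit 421) (nat_lit 5) (nat_lit 616) (nat_lit 584) (nat_lit 360))) (XT.nd (nat_lit 78) (nat_lit 836) (nat_lit 0) (XT.lf (nat_lit 0) (nat_lit 11131919266) (nat_lit 836) (nat_lit 2036934834) (nat_lit 912) (nat_lit 7311174339) (nat_lit 409) (nat_lit 5) (nat_lit 420) (nat_lit 5) (nat_lit 421) (nat_lit 5) (nat_lit 617) (nat_lit 584) (nat_lit 359)) (XT.lf (nat_lit 0) (nat_lit 1932306423) (nat_lit 836) (nat_lit 13713044829) (nat_lit 912) (nat_lit 5058034898) (nat_lit 398) (nat_lit 5) (nat_lit 409) (nat_lit 5) (nat_lit 410) (nat_lit 5) (nat_lit 618)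 (nat_lit 584) (nat_lit 358)))))) (XT.nd (nat_lit 546) (nat_lit 3648) (nat_lit 0) (XT.nd (nat_lit 234) (nat_lit 1596) (nat_lit 0) (XT.nd (nat_lit 78) (nat_lit 912) (nat_lit 0) (XT.lf (nat_lit 0) (nat_lit 13546780713) (nat_lit 836) (nat_lit 4696105298) (nat_lit 912) (nat_lit 2686895110) (nat_lit 398) (nat_lit 5) (nat_lit 409) (nat_lit 5) (nat_lit 410) (nat_lit 5) (nat_lit 619) (nat_lit 584) (nat_lit 357)) (XT.nd (nat_lit 78) (nat_lit 76) (nat_lit 0) (XT.lf (nat_lit 0) (nat_lit 4254820886) (nat_lit 836) (nat_lit 16689867181) (nat_lit 912) (nat_lit 214969842) (nat_lit 387) (nat_lit 5) (nat_lit 398) (nat_lit 5) (nat_lit 399) (nat_lit 5) (nat_lit 620) (nat_lit 584) (nat_lit 356)) (XT.lf (nat_lit 0) (nat_lit 2352613356) (nat_lit 912) (nat_lit 5218694615) (nat_lit 76) (nat_lit 13820995648) (nat_lit 386) (nat_lit 5) (nat_lit 398) (nat_lit 5) (nat_lit 387) (nat_lit 5) (nat_lit 621) (nat_lit 584) (nat_lit 355)))) (XT.nd (nat_lit 156) (nat_lit 760) (nat_lit 0) (XT.nd (nat_lit 78) (nat_lit 0) (nat_lit 0) (XT.lf (nat_lit 0) (nat_lit 5019834648) (nat_lit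 912) (nat_lit 14856125610) (nat_lit 76) (nat_lit 1752590505) (nat_lit 375) (nat_lit 5) (nat_lit 387) (nat_lit 5) (nat_lit 376) (nat_lit 5) (nat_lit 622) (nat_lit 584) (nat_lit 354)) (XT.lf (nat_lit 0) (nat_lit 7821434485) (nat_lit 912) (nat_lit 2849680825) (nat_lit 76) (nat_lit 11196787090) (nat_lit 375) (nat_lit 5) (nat_lit 387) (nat_lit 5) (nat_lit 376) (nat_lit 5) (nat_lit 623) (nat_lit 584) (nat_lit 353))) (XT.nd (nat_lit 78) (nat_lit 0) (nat_lit 0) (XT.lf (nat_lit 0) (nat_lit 9517209393) (nat_lit 760) (nat_lit 1219375331) (nat_lit 836) (nat_lit 11374306206) (nat_lit 365) (nat_lit 5) (nat_lit 375) (nat_lit 5) (nat_lit 376) (nat_lit 5) (nat_lit 624) (nat_lit 584) (nat_lit 352)) (XT.lf (nat_lit 0) (nat_lit 13779744244) (nat_lit 836) (nat_lit 247651829) (nat_lit 76) (nat_lit 8329949255) (nat_lit 365) (nat_lit 5) (nat_lit 376) (nat_lit 5) (nat_lit 366) (nat_lit 5) (nat_lit 625) (nat_lit 584) (nat_lit 351))))) (XT.nd (nat_lit 312) (nat_lit 1368) (nat_lit 0) (XT.nd (nat_lit 156) (nat_lit 836) (nat_lit 0) (XT.nd (nat_lit 78) (nat_lit 684) (nat_lit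 0) (XT.lf (nat_lit 0) (nat_lit 12496651627) (nat_lit 760) (nat_lit 4472189432) (nat_lit 836) (nat_lit 5638186493) (nat_lit 355) (nat_lit 5) (nat_lit 365) (nat_lit 5) (nat_lit 366) (nat_lit 5) (nat_lit 626) (nat_lit 584) (nat_lit 350)) (XT.lf (nat_lit 0) (nat_lit 2633292369) (nat_lit 684) (nat_lit 17637352747) (nat_lit 760) (nat_lit 2590080012) (nat_lit 346) (nat_lit 5) (nat_lit 355) (nat_lit 5) (nat_lit 356) (nat_lit 5) (nat_lit 627) (nat_lit 584) (nat_lit 349))) (XT.nd (nat_lit 78) (nat_lit 760) (nat_lit 0) (XT.lf (nat_lit 0) (nat_lit 606030695) (nat_lit 760) (nat_lit 7387235059) (nat_lit 76) (nat_lit 15124286741) (nat_lit 345) (nat_lit 5) (nat_lit 355) (nat_lit 5) (nat_lit 346) (nat_lit 5) (nat_lit 628) (nat_lit 584) (nat_lit 348)) (XT.lf (nat_lit 0) (nat_lit 3877181899) (nat_lit 836) (nat_lit 17627080325) (nat_lit 76) (nat_lit 1873995990) (nat_lit 335) (nat_lit 5) (nat_lit 346) (nat_lit 5) (nat_lit 336) (nat_lit 5) (nat_lit 629) (nat_lit 584) (nat_lit 347)))) (XT.nd (nat_lit 156) (nat_lit 684) (nat_lit 0) (XT.nd (nat_lit 78) (nat_lit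 684) (nat_lit 0) (XT.lf (nat_lit 0) (nat_lit 7312654414) (nat_lit 836) (nat_lit 4448454856) (nat_lit 76) (nat_lit 11881091011) (nat_lit 335) (nat_lit 5) (nat_lit 346) (nat_lit 5) (nat_lit 336) (nat_lit 5) (nat_lit 630) (nat_lit 584) (nat_lit 346)) (XT.lf (nat_lit 0) (nat_lit 9108795398) (nat_lit 684) (nat_lit 1763320757) (nat_lit 760) (nat_lit 13038199632) (nat_lit 326) (nat_lit 5) (nat_lit 335) (nat_lit 5) (nat_lit 336) (nat_lit 5) (nat_lit 631) (nat_lit 584) (nat_lit 345))) (XT.nd (nat_lit 78) (nat_lit 684) (nat_lit 0) (XT.lf (nat_lit 0) (nat_lit 14583761155) (nat_lit 760) (nat_lit 1245120461) (nat_lit 76) (nat_lit 8353292297) (nat_lit 326) (nat_lit 5) (nat_lit 336) (nat_lit 5) (nat_lit 327) (nat_lit 5) (nat_lit 632) (nat_lit 584) (nat_lit 344)) (XT.lf (nat_lit 0) (nat_lit 12733362579) (nat_lit 684) (nat_lit 5726885361) (nat_lit 760) (nat_lit 5997409271) (nat_lit 317) (nat_lit 5) (nat_lit 326) (nat_lit 5) (nat_lit 327) (nat_lit 5) (nat_lit 633) (nat_lit 584) (nat_lit 343))))))) (XT.nd (nat_lit 1170) (nat_lit 2052) (nat_lit 0) (XT.nd (nat_lit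 546) (nat_lit 2964) (nat_lit 0) (XT.nd (nat_lit 234) (nat_lit 1216) (nat_lit 0) (XT.nd (nat_lit 78) (nat_lit 760) (nat_lit 0) (XT.lf (nat_lit 0) (nat_lit 2265338411) (nat_lit 608) (nat_lit 20198061645) (nat_lit 684) (nat_lit 2274267592) (nat_lit 309) (nat_lit 5) (nat_lit 317) (nat_lit 5) (nat_lit 318) (nat_lit 5) (nat_lit 634) (nat_lit 584) (nat_lit 342)) (XT.nd (nat_lit 78) (nat_lit 684) (nat_lit 0) (XT.lf (nat_lit 0) (nat_lit 1616800304) (nat_lit 684) (nat_lit 8380781615) (nat_lit 76) (nat_lit 15023229896) (nat_lit 308) (nat_lit 5) (nat_lit 317) (nat_lit 5) (nat_lit 309) (nat_lit 5) (nat_lit 635) (nat_lit 584) (nat_lit 341)) (XT.lf (nat_lit 0) (nat_lit 5593950843) (nat_lit 760) (nat_lit 19259027087) (nat_lit 76) (nat_lit 455566173) (nat_lit 299) (nat_lit 5) (nat_lit 309) (nat_lit 5) (nat_lit 300) (nat_lit 5) (nat_lit 636) (nat_lit 584) (nat_lit 340)))) (XT.nd (nat_lit 156) (nat_lit 608) (nat_lit 0) (XT.nd (nat_lit 78) (nat_lit 608) (nat_lit 0) (XT.lf (nat_lit 0) (nat_lit 9769894149) (nat_lit 760) (nat_lit 4789842686) (nat_lit 76) (nat_lit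 11039909377) (nat_lit 299) (nat_lit 5) (nat_lit 309) (nat_lit 5) (nat_lit 300) (nat_lit 5) (nat_lit 637) (nat_lit 584) (nat_lit 339)) (XT.lf (nat_lit 0) (nat_lit 10096853174) (nat_lit 608) (nat_lit 3994557343) (nat_lit 684) (nat_lit 11803918929) (nat_lit 291) (nat_lit 5) (nat_lit 299) (nat_lit 5) (nat_lit 300) (nat_lit 5) (nat_lit 638) (nat_lit 584) (nat_lit 338))) (XT.nd (nat_lit 78) (nat_lit 608) (nat_lit 0) (XT.lf (nat_lit 0) (nat_lit 18572279653) (nat_lit 684) (nat_lit 898648752) (nat_lit 76) (nat_lit 6724539653) (nat_lit 291) (nat_lit 5) (nat_lit 300) (nat_lit 5) (nat_lit 292) (nat_lit 5) (nat_lit 639) (nat_lit 584) (nat_lit 337)) (XT.lf (nat_lit 0) (nat_lit 14458096579) (nat_lit 608) (nat_lit 8801597571) (nat_lit 684) (nat_lit 3239576893) (nat_lit 283) (nat_lit 5) (nat_lit 291) (nat_lit 5) (nat_lit 292) (nat_lit 5) (nat_lit 640) (nat_lit 584) (nat_lit 336))))) (XT.nd (nat_lit 312) (nat_lit 1672) (nat_lit 0) (XT.nd (nat_lit 156) (nat_lit 608) (nat_lit 0) (XT.nd (nat_lit 78) (nat_lit 0) (nat_lit 0) (XT.lf (nat_lit 0) (nat_lit 1253781096)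 (nat_lit 684) (nat_lit 23465389280) (nat_lit 76) (nat_lit 2089055357) (nat_lit 274) (nat_lit 5) (nat_lit 283) (nat_lit 5) (nat_lit 275) (nat_lit 5) (nat_lit 641) (nat_lit 584) (nat_lit 335)) (XT.lf (nat_lit 0) (nat_lit 5929947568) (nat_lit 684) (nat_lit 8008568140) (nat_lit 76) (nat_lit 13181689302) (nat_lit 274) (nat_lit 5) (nat_lit 283) (nat_lit 5) (nat_lit 275) (nat_lit 5) (nat_lit 642) (nat_lit 584) (nat_lit 334))) (XT.nd (nat_lit 78) (nat_lit 0) (nat_lit 0) (XT.lf (nat_lit 0) (nat_lit 7856213743) (nat_lit 608) (nat_lit 2891149267) (nat_lit 684) (nat_lit 16690106496) (nat_lit 266) (nat_lit 5) (nat_lit 274) (nat_lit 5) (nat_lit 275) (nat_lit 5) (nat_lit 643) (nat_lit 584) (nat_lit 333)) (XT.lf (nat_lit 0) (nat_lit 15766363473) (nat_lit 684) (nat_lit 3672143536) (nat_lit 76) (nat_lit 8320467696) (nat_lit 266) (nat_lit 5) (nat_lit 275) (nat_lit 5) (nat_lit 267) (nat_lit 5) (nat_lit 644) (nat_lit 584) (nat_lit 332)))) (XT.nd (nat_lit 156) (nat_lit 608) (nat_lit 0) (XT.nd (nat_lit 78) (nat_lit 532) (nat_lit 0) (XT.lf (nat_lit 0) (nat_lit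 12698386486) (nat_lit 532) (nat_lit 8285763222) (nat_lit 608) (nat_lit 7100792324) (nat_lit 259) (nat_lit 5) (nat_lit 266) (nat_lit 5) (nat_lit 267) (nat_lit 5) (nat_lit 645) (nat_lit 584) (nat_lit 331)) (XT.lf (nat_lit 0) (nat_lit 1018106179) (nat_lit 532) (nat_lit 25336505514) (nat_lit 608) (nat_lit 2061850752) (nat_lit 252) (nat_lit 5) (nat_lit 259) (nat_lit 5) (nat_lit 260) (nat_lit 5) (nat_lit 646) (nat_lit 584) (nat_lit 330))) (XT.nd (nat_lit 78) (nat_lit 532) (nat_lit 0) (XT.lf (nat_lit 0) (nat_lit 3193167236) (nat_lit 608) (nat_lit 10872861426) (nat_lit 76) (nat_lit 14685071777) (nat_lit 251) (nat_lit 5) (nat_lit 259) (nat_lit 5) (nat_lit 252) (nat_lit 5) (nat_lit 647) (nat_lit 584) (nat_lit 329)) (XT.lf (nat_lit 0) (nat_lit 6044644499) (nat_lit 532) (nat_lit 2517222319) (nat_lit 608) (nat_lit 20529568142) (nat_lit 244) (nat_lit 5) (nat_lit 251) (nat_lit 5) (nat_lit 252) (nat_lit 5) (nat_lit 648) (nat_lit 584) (nat_lit 328)))))) (XT.nd (nat_lit 77454) (nat_lit 0) (nat_lit 19912) (XT.nd (nat_lit 234) (nat_lit 1520) (nat_lit 0) (XT.nd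 (nat_lit 78) (nat_lit 532) (nat_lit 0) (XT.lf (nat_lit 0) (nat_lit 14168469733) (nat_lit 608) (nat_lit 6054001727) (nat_lit 76) (nat_lit 9213494253) (nat_lit 244) (nat_lit 5) (nat_lit 252) (nat_lit 5) (nat_lit 245) (nat_lit 5) (nat_lit 649) (nat_lit 584) (nat_lit 327)) (XT.nd (nat_lit 78) (nat_lit 0) (nat_lit 0) (XT.lf (nat_lit 0) (nat_lit 11407517442) (nat_lit 532) (nat_lit 8567427522) (nat_lit 608) (nat_lit 9810687438) (nat_lit 237) (nat_lit 5) (nat_lit 244) (nat_lit 5) (nat_lit 245) (nat_lit 5) (nat_lit 650) (nat_lit 584) (nat_lit 326)) (XT.lf (nat_lit 0) (nat_lit 25957034830) (nat_lit 608) (nat_lit 867070940) (nat_lit 76) (nat_lit 3316997074) (nat_lit 237) (nat_lit 5) (nat_lit 245) (nat_lit 5) (nat_lit 238) (nat_lit 5) (nat_lit 651) (nat_lit 584) (nat_lit 325)))) (XT.nd (nat_lit 156) (nat_lit 456) (nat_lit 0) (XT.nd (nat_lit 78) (nat_lit 532) (nat_lit 0) (XT.lf (nat_lit 0) (nat_lit 1701013364) (nat_lit 532) (nat_lit 13353088521) (nat_lit 76) (nat_lit 15446052502) (nat_lit 230) (nat_lit 5) (nat_lit 237) (nat_lit 5) (nat_lit 231) (nat_lit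 5) (nat_lit 652) (nat_lit 584) (nat_lit 324)) (XT.lf (nat_lit 0) (nat_lit 4696795639) (nat_lit 532) (nat_lit 2984480678) (nat_lit 608) (nat_lit 23183887532) (nat_lit 223) (nat_lit 5) (nat_lit 230) (nat_lit 5) (nat_lit 231) (nat_lit 5) (nat_lit 653) (nat_lit 584) (nat_lit 323))) (XT.nd (nat_lit 78) (nat_lit 456) (nat_lit 0) (XT.lf (nat_lit 0) (nat_lit 13929022304) (nat_lit 608) (nat_lit 8012194680) (nat_lit 76) (nat_lit 9293299076) (nat_lit 223) (nat_lit 5) (nat_lit 231) (nat_lit 5) (nat_lit 224) (nat_lit 5) (nat_lit 654) (nat_lit 584) (nat_lit 322)) (XT.lf (nat_lit 0) (nat_lit 10622687416) (nat_lit 456) (nat_lit 9764950555) (nat_lit 532) (nat_lit 11221899161) (nat_lit 217) (nat_lit 5) (nat_lit 223) (nat_lit 5) (nat_lit 224) (nat_lit 5) (nat_lit 655) (nat_lit 584) (nat_lit 321))))) (XT.nd (nat_lit 312) (nat_lit 0) (nat_lit 152) (XT.nd (nat_lit 156) (nat_lit 0) (nat_lit 76) (XT.nd (nat_lit 78) (nat_lit 0) (nat_lit 0) (XT.lf (nat_lit 0) (nat_lit 3053892458) (nat_lit 1824) (nat_lit 10121896845) (nat_lit 1900) (nat_lit 4286946990) (nat_lit 479)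 (nat_lit 5) (nat_lit 503) (nat_lit 5) (nat_lit 504) (nat_lit 5) (nat_lit 601) (nat_lit 585) (nat_lit 374)) (XT.lf (nat_lit 0) (nat_lit 4221989257) (nat_lit 1824) (nat_lit 987459793) (nat_lit 1900) (nat_lit 12432680774) (nat_lit 479) (nat_lit 5) (nat_lit 503) (nat_lit 5) (nat_lit 504) (nat_lit 5) (nat_lit 602) (nat_lit 585) (nat_lit 373))) (XT.nd (nat_lit 78) (nat_lit 0) (nat_lit 0) (XT.lf (nat_lit 0) (nat_lit 5481644337) (nat_lit 1824) (nat_lit 9407533586) (nat_lit 1900) (nat_lit 2934569729) (nat_lit 480) (nat_lit 5) (nat_lit 504) (nat_lit 5) (nat_lit 505) (nat_lit 5) (nat_lit 603) (nat_lit 585) (nat_lit 372)) (XT.lf (nat_lit 0) (nat_lit 6801877116) (nat_lit 1824) (nat_lit 26556591) (nat_lit 1900) (nat_lit 11179856782) (nat_lit 480) (nat_lit 5) (nat_lit 504) (nat_lit 5) (nat_lit 505) (nat_lit 5) (nat_lit 604) (nat_lit 585) (nat_lit 371)))) (XT.nd (nat_lit 156) (nat_lit 0) (nat_lit 0) (XT.nd (nat_lit 78) (nat_lit 0) (nat_lit 0) (XT.lf (nat_lit 0) (nat_lit 8215061711) (nat_lit 1824) (nat_lit 8540470682) (nat_lit 1900) (nat_lit 1439661186)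 (nat_lit 481) (nat_lit 5) (nat_lit 505) (nat_lit 5) (nat_lit 506) (nat_lit 5) (nat_lit 605) (nat_lit 585) (nat_lit 370)) (XT.lf (nat_lit 76) (nat_lit 1108981401) (nat_lit 0) (nat_lit 8594548419) (nat_lit 1900) (nat_lit 8681364845) (nat_lit 482) (nat_lit 5) (nat_lit 481) (nat_lit 5) (nat_lit 506) (nat_lit 5) (nat_lit 606) (nat_lit 585) (nat_lit 369))) (XT.nd (nat_lit 78) (nat_lit 0) (nat_lit 76) (XT.lf (nat_lit 76) (nat_lit 11062723157) (nat_lit 0) (nat_lit 210854393) (nat_lit 1900) (nat_lit 7303776344) (nat_lit 482) (nat_lit 5) (nat_lit 481) (nat_lit 5) (nat_lit 506) (nat_lit 5) (nat_lit 607) (nat_lit 585) (nat_lit 368)) (XT.lf (nat_lit 76) (nat_lit 2414902322) (nat_lit 0) (nat_lit 10524568846) (nat_lit 1900) (nat_lit 5832902560) (nat_lit 483) (nat_lit 5) (nat_lit 482) (nat_lit 5) (nat_lit 507) (nat_lit 5) (nat_lit 608) (nat_lit 585) (nat_lit 367))))))))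
noncomputable def xc93 : XT := (XT.nd (nat_lit 2340) (nat_lit 5776) (nat_lit 0) (XT.nd (nat_lit 1170) (nat_lit 5776) (nat_lit 0) (XT.nd (nat_lit 546) (nat_lit 4332) (nat_lit 0) (XT.nd (nat_lit 234) (nat_lit 2052) (nat_lit 0) (XT.nd (nat_lit 78) (nat_lit 1748) (nat_lit 0) (XT.lf (nat_lit 76) (nat_lit 12639008619) (nat_lit 0) (nat_lit 2046178628) (nat_lit 1900) (nat_lit 4285176932) (nat_lit 483) (nat_lit 5) (nat_lit 482) (nat_lit 5) (nat_lit 507) (nat_lit 5) (nat_lit 609) (nat_lit 585) (nat_lit 366)) (XT.nd (nat_lit 78) (nat_lit 0) (nat_lit 0) (XT.lf (nat_lit 0) (nat_lit 3899068942) (nat_lit 1824) (nat_lit 12629726929) (nat_lit 1900) (nat_lit 2642259311) (nat_lit 459) (nat_lit 5) (nat_lit 483) (nat_lit 5) (nat_lit 484) (nat_lit 5) (nat_lit 610) (nat_lit 585) (nat_lit 365)) (XT.lf (nat_lit 0) (nat_lit 14401736198) (nat_lit 1824) (nat_lit 4058361672) (nat_lit 1900) (nat_lit 914646012) (nat_lit 459) (nat_lit 5) (nat_lit 483) (nat_lit 5) (nat_lit 484) (nat_lit 5) (nat_lit 611) (nat_lit 585) (nat_lit 364)))) (XT.nd (nat_lit 156) (nat_lit 912) (nat_lit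 0) (XT.nd (nat_lit 78) (nat_lit 0) (nat_lit 0) (XT.lf (nat_lit 0) (nat_lit 898368420) (nat_lit 1140) (nat_lit 14017072456) (nat_lit 76) (nat_lit 4665716431) (nat_lit 444) (nat_lit 5) (nat_lit 459) (nat_lit 5) (nat_lit 445) (nat_lit 5) (nat_lit 612) (nat_lit 585) (nat_lit 363)) (XT.lf (nat_lit 0) (nat_lit 2790890641) (nat_lit 1140) (nat_lit 3449369502) (nat_lit 76) (nat_lit 13550208331) (nat_lit 444) (nat_lit 5) (nat_lit 459) (nat_lit 5) (nat_lit 445) (nat_lit 5) (nat_lit 613) (nat_lit 585) (nat_lit 362))) (XT.nd (nat_lit 78) (nat_lit 0) (nat_lit 0) (XT.lf (nat_lit 0) (nat_lit 4781825469) (nat_lit 988) (nat_lit 12597745726) (nat_lit 76) (nat_lit 2623183705) (nat_lit 432) (nat_lit 5) (nat_lit 445) (nat_lit 5) (nat_lit 433) (nat_lit 5) (nat_lit 614) (nat_lit 585) (nat_lit 361)) (XT.lf (nat_lit 0) (nat_lit 6872387525) (nat_lit 988) (nat_lit 1741565723) (nat_lit 76) (nat_lit 11604137908) (nat_lit 432) (nat_lit 5) (nat_lit 445) (nat_lit 5) (nat_lit 433) (nat_lit 5) (nat_lit 615) (nat_lit 585) (nat_lit 360))))) (XT.nd (nat_lit 312) (nat_lit 1748)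 (nat_lit 0) (XT.nd (nat_lit 156) (nat_lit 836) (nat_lit 0) (XT.nd (nat_lit 78) (nat_lit 836) (nat_lit 0) (XT.lf (nat_lit 0) (nat_lit 9063932638) (nat_lit 988) (nat_lit 10987846287) (nat_lit 76) (nat_lit 384772042) (nat_lit 420) (nat_lit 5) (nat_lit 433) (nat_lit 5) (nat_lit 421) (nat_lit 5) (nat_lit 616) (nat_lit 585) (nat_lit 359)) (XT.lf (nat_lit 0) (nat_lit 167846742) (nat_lit 836) (nat_lit 11196704378) (nat_lit 912) (nat_lit 9293524267) (nat_lit 409) (nat_lit 5) (nat_lit 420) (nat_lit 5) (nat_lit 421) (nat_lit 5) (nat_lit 617) (nat_lit 585) (nat_lit 358))) (XT.nd (nat_lit 78) (nat_lit 836) (nat_lit 0) (XT.lf (nat_lit 0) (nat_lit 11691153418) (nat_lit 836) (nat_lit 2089167691) (nat_lit 912) (nat_lit 7102326661) (nat_lit 409) (nat_lit 5) (nat_lit 420) (nat_lit 5) (nat_lit 421) (nat_lit 5) (nat_lit 618) (nat_lit 585) (nat_lit 357)) (XT.lf (nat_lit 0) (nat_lit 2312343317) (nat_lit 836) (nat_lit 13989322966) (nat_lit 912) (nat_lit 4808900374) (nat_lit 398) (nat_lit 5) (nat_lit 409) (nat_lit 5) (nat_lit 410) (nat_lit 5) (nat_lit 619) (nat_lit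 585) (nat_lit 356)))) (XT.nd (nat_lit 156) (nat_lit 836) (nat_lit 0) (XT.nd (nat_lit 78) (nat_lit 912) (nat_lit 0) (XT.lf (nat_lit 0) (nat_lit 14152413156) (nat_lit 836) (nat_lit 4792005090) (nat_lit 912) (nat_lit 2397206323) (nat_lit 398) (nat_lit 5) (nat_lit 409) (nat_lit 5) (nat_lit 410) (nat_lit 5) (nat_lit 620) (nat_lit 585) (nat_lit 355)) (XT.lf (nat_lit 0) (nat_lit 118087885) (nat_lit 912) (nat_lit 16897831700) (nat_lit 76) (nat_lit 4560252369) (nat_lit 386) (nat_lit 5) (nat_lit 398) (nat_lit 5) (nat_lit 387) (nat_lit 5) (nat_lit 621) (nat_lit 585) (nat_lit 354))) (XT.nd (nat_lit 78) (nat_lit 836) (nat_lit 0) (XT.lf (nat_lit 0) (nat_lit 2727588535) (nat_lit 912) (nat_lit 4986128877) (nat_lit 76) (nat_lit 14099856215) (nat_lit 386) (nat_lit 5) (nat_lit 398) (nat_lit 5) (nat_lit 387) (nat_lit 5) (nat_lit 622) (nat_lit 585) (nat_lit 353)) (XT.lf (nat_lit 0) (nat_lit 5443969422) (nat_lit 912) (nat_lit 14812106401) (nat_lit 76) (nat_lit 1798553933) (nat_lit 375) (nat_lit 5) (nat_lit 387) (nat_lit 5) (nat_lit 376) (nat_lit 5) (nat_lit 623)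 (nat_lit 585) (nat_lit 352)))))) (XT.nd (nat_lit 546) (nat_lit 2736) (nat_lit 0) (XT.nd (nat_lit 234) (nat_lit 1520) (nat_lit 0) (XT.nd (nat_lit 78) (nat_lit 1520) (nat_lit 0) (XT.lf (nat_lit 0) (nat_lit 8295253450) (nat_lit 912) (nat_lit 2572221774) (nat_lit 76) (nat_lit 11431420497) (nat_lit 375) (nat_lit 5) (nat_lit 387) (nat_lit 5) (nat_lit 376) (nat_lit 5) (nat_lit 624) (nat_lit 585) (nat_lit 351)) (XT.nd (nat_lit 78) (nat_lit 760) (nat_lit 0) (XT.lf (nat_lit 0) (nat_lit 10039805902) (nat_lit 760) (nat_lit 1224834655) (nat_lit 836) (nat_lit 11282185118) (nat_lit 365) (nat_lit 5) (nat_lit 375) (nat_lit 5) (nat_lit 376) (nat_lit 5) (nat_lit 625) (nat_lit 585) (nat_lit 350)) (XT.lf (nat_lit 0) (nat_lit 80224250) (nat_lit 760) (nat_lit 14282936761) (nat_lit 836) (nat_lit 8435158522) (nat_lit 355) (nat_lit 5) (nat_lit 365) (nat_lit 5) (nat_lit 366) (nat_lit 5) (nat_lit 626) (nat_lit 585) (nat_lit 349)))) (XT.nd (nat_lit 156) (nat_lit 836) (nat_lit 0) (XT.nd (nat_lit 78) (nat_lit 684) (nat_lit 0) (XT.lf (nat_lit 0) (nat_lit 13076178878) (nat_lit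 760) (nat_lit 4535454450) (nat_lit 836) (nat_lit 5441450520) (nat_lit 355) (nat_lit 5) (nat_lit 365) (nat_lit 5) (nat_lit 366) (nat_lit 5) (nat_lit 627) (nat_lit 585) (nat_lit 348)) (XT.lf (nat_lit 0) (nat_lit 3019259427) (nat_lit 684) (nat_lit 17956595366) (nat_lit 760) (nat_lit 2336073268) (nat_lit 346) (nat_lit 5) (nat_lit 355) (nat_lit 5) (nat_lit 356) (nat_lit 5) (nat_lit 628) (nat_lit 585) (nat_lit 347))) (XT.nd (nat_lit 78) (nat_lit 760) (nat_lit 0) (XT.lf (nat_lit 0) (nat_lit 914031321) (nat_lit 760) (nat_lit 7204266752) (nat_lit 76) (nat_lit 15455672845) (nat_lit 345) (nat_lit 5) (nat_lit 355) (nat_lit 5) (nat_lit 346) (nat_lit 5) (nat_lit 629) (nat_lit 585) (nat_lit 346)) (XT.lf (nat_lit 0) (nat_lit 4247172913) (nat_lit 836) (nat_lit 17645461555) (nat_lit 76) (nat_lit 1947325231) (nat_lit 335) (nat_lit 5) (nat_lit 346) (nat_lit 5) (nat_lit 336) (nat_lit 5) (nat_lit 630) (nat_lit 585) (nat_lit 345))))) (XT.nd (nat_lit 312) (nat_lit 1368) (nat_lit 0) (XT.nd (nat_lit 156) (nat_lit 684) (nat_lit 0) (XT.nd (nat_lit 78) (nat_lit 684)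 (nat_lit 0) (XT.lf (nat_lit 0) (nat_lit 7745620616) (nat_lit 836) (nat_lit 4209815741) (nat_lit 76) (nat_lit 12153859224) (nat_lit 335) (nat_lit 5) (nat_lit 346) (nat_lit 5) (nat_lit 336) (nat_lit 5) (nat_lit 631) (nat_lit 585) (nat_lit 344)) (XT.lf (nat_lit 0) (nat_lit 9616424201) (nat_lit 684) (nat_lit 1756338621) (nat_lit 760) (nat_lit 13010081034) (nat_lit 326) (nat_lit 5) (nat_lit 335) (nat_lit 5) (nat_lit 336) (nat_lit 5) (nat_lit 632) (nat_lit 585) (nat_lit 343))) (XT.nd (nat_lit 78) (nat_lit 684) (nat_lit 0) (XT.lf (nat_lit 0) (nat_lit 15153356622) (nat_lit 760) (nat_lit 945653424) (nat_lit 76) (nat_lit 8561235059) (nat_lit 326) (nat_lit 5) (nat_lit 336) (nat_lit 5) (nat_lit 327) (nat_lit 5) (nat_lit 633) (nat_lit 585) (nat_lit 342)) (XT.lf (nat_lit 0) (nat_lit 13310265269) (nat_lit 684) (nat_lit 5793750625) (nat_lit 760) (nat_lit 5837289593) (nat_lit 317) (nat_lit 5) (nat_lit 326) (nat_lit 5) (nat_lit 327) (nat_lit 5) (nat_lit 634) (nat_lit 585) (nat_lit 341)))) (XT.nd (nat_lit 156) (nat_lit 684) (nat_lit 0) (XT.nd (nat_lit 78)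 (nat_lit 76) (nat_lit 0) (XT.lf (nat_lit 0) (nat_lit 2635921815) (nat_lit 608) (nat_lit 20548341012) (nat_lit 684) (nat_lit 2042712936) (nat_lit 309) (nat_lit 5) (nat_lit 317) (nat_lit 5) (nat_lit 318) (nat_lit 5) (nat_lit 635) (nat_lit 585) (nat_lit 340)) (XT.lf (nat_lit 0) (nat_lit 1917181975) (nat_lit 684) (nat_lit 8225923573) (nat_lit 76) (nat_lit 15372748764) (nat_lit 308) (nat_lit 5) (nat_lit 317) (nat_lit 5) (nat_lit 309) (nat_lit 5) (nat_lit 636) (nat_lit 585) (nat_lit 339))) (XT.nd (nat_lit 78) (nat_lit 0) (nat_lit 0) (XT.lf (nat_lit 0) (nat_lit 5971059894) (nat_lit 760) (nat_lit 19318905751) (nat_lit 76) (nat_lit 519432166) (nat_lit 299) (nat_lit 5) (nat_lit 309) (nat_lit 5) (nat_lit 300) (nat_lit 5) (nat_lit 637) (nat_lit 585) (nat_lit 338)) (XT.lf (nat_lit 0) (nat_lit 10225321478) (nat_lit 760) (nat_lit 4566716130) (nat_lit 76) (nat_lit 11314388613) (nat_lit 299) (nat_lit 5) (nat_lit 309) (nat_lit 5) (nat_lit 300) (nat_lit 5) (nat_lit 638) (nat_lit 585) (nat_lit 337))))))) (XT.nd (nat_lit 1170) (nat_lit 532) (nat_lit 0) (XT.nd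 (nat_lit 546) (nat_lit 2736) (nat_lit 0) (XT.nd (nat_lit 234) (nat_lit 1292) (nat_lit 0) (XT.nd (nat_lit 78) (nat_lit 608) (nat_lit 0) (XT.lf (nat_lit 0) (nat_lit 10615615466) (nat_lit 608) (nat_lit 4014611130) (nat_lit 684) (nat_lit 11777857596) (nat_lit 291) (nat_lit 5) (nat_lit 299) (nat_lit 5) (nat_lit 300) (nat_lit 5) (nat_lit 639) (nat_lit 585) (nat_lit 336)) (XT.nd (nat_lit 78) (nat_lit 608) (nat_lit 0) (XT.lf (nat_lit 0) (nat_lit 19196055023) (nat_lit 684) (nat_lit 601338817) (nat_lit 76) (nat_lit 6916925135) (nat_lit 291) (nat_lit 5) (nat_lit 300) (nat_lit 5) (nat_lit 292) (nat_lit 5) (nat_lit 640) (nat_lit 585) (nat_lit 335)) (XT.lf (nat_lit 0) (nat_lit 15060467191) (nat_lit 608) (nat_lit 8913836535) (nat_lit 684) (nat_lit 3049952808) (nat_lit 283) (nat_lit 5) (nat_lit 291) (nat_lit 5) (nat_lit 292) (nat_lit 5) (nat_lit 641) (nat_lit 585) (nat_lit 334)))) (XT.nd (nat_lit 156) (nat_lit 608) (nat_lit 0) (XT.nd (nat_lit 78) (nat_lit 0) (nat_lit 0) (XT.lf (nat_lit 0) (nat_lit 1527484604) (nat_lit 684) (nat_lit 23615678096) (nat_lit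 76) (nat_lit 2196243825) (nat_lit 274) (nat_lit 5) (nat_lit 283) (nat_lit 5) (nat_lit 275) (nat_lit 5) (nat_lit 642) (nat_lit 585) (nat_lit 333)) (XT.lf (nat_lit 0) (nat_lit 6292299349) (nat_lit 684) (nat_lit 7855975808) (nat_lit 76) (nat_lit 13509447951) (nat_lit 274) (nat_lit 5) (nat_lit 283) (nat_lit 5) (nat_lit 275) (nat_lit 5) (nat_lit 643) (nat_lit 585) (nat_lit 332))) (XT.nd (nat_lit 78) (nat_lit 0) (nat_lit 0) (XT.lf (nat_lit 0) (nat_lit 8324044057) (nat_lit 608) (nat_lit 2879256885) (nat_lit 684) (nat_lit 16778087409) (nat_lit 266) (nat_lit 5) (nat_lit 274) (nat_lit 5) (nat_lit 275) (nat_lit 5) (nat_lit 644) (nat_lit 585) (nat_lit 331)) (XT.lf (nat_lit 0) (nat_lit 16318399870) (nat_lit 684) (nat_lit 3436680578) (nat_lit 76) (nat_lit 8554329047) (nat_lit 266) (nat_lit 5) (nat_lit 275) (nat_lit 5) (nat_lit 267) (nat_lit 5) (nat_lit 645) (nat_lit 585) (nat_lit 330))))) (XT.nd (nat_lit 312) (nat_lit 1064) (nat_lit 0) (XT.nd (nat_lit 156) (nat_lit 608) (nat_lit 0) (XT.nd (nat_lit 78) (nat_lit 532) (nat_lit 0) (XT.lf (nat_lit 0) (nat_lit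 13259227770) (nat_lit 532) (nat_lit 8378665132) (nat_lit 608) (nat_lit 7004056453) (nat_lit 259) (nat_lit 5) (nat_lit 266) (nat_lit 5) (nat_lit 267) (nat_lit 5) (nat_lit 646) (nat_lit 585) (nat_lit 329)) (XT.lf (nat_lit 0) (nat_lit 1347513963) (nat_lit 532) (nat_lit 25766130760) (nat_lit 608) (nat_lit 1866498043) (nat_lit 252) (nat_lit 5) (nat_lit 259) (nat_lit 5) (nat_lit 260) (nat_lit 5) (nat_lit 647) (nat_lit 585) (nat_lit 328))) (XT.nd (nat_lit 78) (nat_lit 532) (nat_lit 0) (XT.lf (nat_lit 0) (nat_lit 3485939216) (nat_lit 608) (nat_lit 10784280919) (nat_lit 76) (nat_lit 15051314422) (nat_lit 251) (nat_lit 5) (nat_lit 259) (nat_lit 5) (nat_lit 252) (nat_lit 5) (nat_lit 648) (nat_lit 585) (nat_lit 327)) (XT.lf (nat_lit 0) (nat_lit 6469561719) (nat_lit 532) (nat_lit 2489936593) (nat_lit 608) (nat_lit 20709227935) (nat_lit 244) (nat_lit 5) (nat_lit 251) (nat_lit 5) (nat_lit 252) (nat_lit 5) (nat_lit 649) (nat_lit 585) (nat_lit 326)))) (XT.nd (nat_lit 156) (nat_lit 532) (nat_lit 0) (XT.nd (nat_lit 78) (nat_lit 532) (nat_lit 0) (XT.lf (nat_lit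 0) (nat_lit 14674288328) (nat_lit 608) (nat_lit 5873064394) (nat_lit 76) (nat_lit 9472873980) (nat_lit 244) (nat_lit 5) (nat_lit 252) (nat_lit 5) (nat_lit 245) (nat_lit 5) (nat_lit 650) (nat_lit 585) (nat_lit 325)) (XT.lf (nat_lit 0) (nat_lit 11935698203) (nat_lit 532) (nat_lit 8658781108) (nat_lit 608) (nat_lit 9782455871) (nat_lit 237) (nat_lit 5) (nat_lit 244) (nat_lit 5) (nat_lit 245) (nat_lit 5) (nat_lit 651) (nat_lit 585) (nat_lit 324))) (XT.nd (nat_lit 78) (nat_lit 532) (nat_lit 0) (XT.lf (nat_lit 0) (nat_lit 26692405751) (nat_lit 608) (nat_lit 586450693) (nat_lit 76) (nat_lit 3460734874) (nat_lit 237) (nat_lit 5) (nat_lit 245) (nat_lit 5) (nat_lit 238) (nat_lit 5) (nat_lit 652) (nat_lit 585) (nat_lit 323)) (XT.lf (nat_lit 0) (nat_lit 1950371209) (nat_lit 532) (nat_lit 13321278546) (nat_lit 76) (nat_lit 15834192337) (nat_lit 230) (nat_lit 5) (nat_lit 237) (nat_lit 5) (nat_lit 231) (nat_lit 5) (nat_lit 653) (nat_lit 585) (nat_lit 322)))))) (XT.nd (nat_lit 77376) (nat_lit 0) (nat_lit 17936) (XT.nd (nat_lit 77064) (nat_lit 0) (nat_lit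 19380) (XT.nd (nat_lit 78) (nat_lit 0) (nat_lit 0) (XT.lf (nat_lit 0) (nat_lit 5087637037) (nat_lit 532) (nat_lit 2960307787) (nat_lit 608) (nat_lit 23430252982) (nat_lit 223) (nat_lit 5) (nat_lit 230) (nat_lit 5) (nat_lit 231) (nat_lit 5) (nat_lit 654) (nat_lit 585) (nat_lit 321)) (XT.nd (nat_lit 76908) (nat_lit 0) (nat_lit 19380) (XT.lf (nat_lit 0) (nat_lit 14417002232) (nat_lit 608) (nat_lit 7877702971) (nat_lit 76) (nat_lit 9560304893) (nat_lit 223) (nat_lit 5) (nat_lit 231) (nat_lit 5) (nat_lit 224) (nat_lit 5) (nat_lit 655) (nat_lit 585) (nat_lit 320)) (XT.lf (nat_lit 0) (nat_lit 1394937236) (nat_lit 1824) (nat_lit 10572391843) (nat_lit 1900) (nat_lit 5477500578) (nat_lit 478) (nat_lit 5) (nat_lit 502) (nat_lit 5) (nat_lit 503) (nat_lit 5) (nat_lit 600) (nat_lit 586) (nat_lit 374)))) (XT.nd (nat_lit 156) (nat_lit 0) (nat_lit 76) (XT.nd (nat_lit 78) (nat_lit 0) (nat_lit 76) (XT.lf (nat_lit 0) (nat_lit 2430859967) (nat_lit 1824) (nat_lit 1505969586) (nat_lit 1900) (nat_lit 13686061345) (nat_lit 478) (nat_lit 5) (nat_lit 502) (nat_lit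 5) (nat_lit 503) (nat_lit 5) (nat_lit 601) (nat_lit 586) (nat_lit 373)) (XT.lf (nat_lit 0) (nat_lit 3560511298) (nat_lit 1824) (nat_lit 9991186165) (nat_lit 1900) (nat_lit 4251356051) (nat_lit 479) (nat_lit 5) (nat_lit 503) (nat_lit 5) (nat_lit 504) (nat_lit 5) (nat_lit 602) (nat_lit 586) (nat_lit 372))) (XT.nd (nat_lit 78) (nat_lit 0) (nat_lit 76) (XT.lf (nat_lit 0) (nat_lit 4743233936) (nat_lit 1824) (nat_lit 680592698) (nat_lit 1900) (nat_lit 12562383528) (nat_lit 479) (nat_lit 5) (nat_lit 503) (nat_lit 5) (nat_lit 504) (nat_lit 5) (nat_lit 603) (nat_lit 586) (nat_lit 371)) (XT.lf (nat_lit 0) (nat_lit 6020936535) (nat_lit 1824) (nat_lit 9261896736) (nat_lit 1900) (nat_lit 2888770499) (nat_lit 480) (nat_lit 5) (nat_lit 504) (nat_lit 5) (nat_lit 505) (nat_lit 5) (nat_lit 604) (nat_lit 586) (nat_lit 370))))) (XT.nd (nat_lit 312) (nat_lit 1596) (nat_lit 0) (XT.nd (nat_lit 156) (nat_lit 0) (nat_lit 76) (XT.nd (nat_lit 78) (nat_lit 0) (nat_lit 76) (XT.lf (nat_lit 76) (nat_lit 304143845) (nat_lit 0) (nat_lit 7056980135) (nat_lit 1900) (nat_lit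 10998842987) (nat_lit 481) (nat_lit 5) (nat_lit 480) (nat_lit 5) (nat_lit 505) (nat_lit 5) (nat_lit 605) (nat_lit 586) (nat_lit 369)) (XT.lf (nat_lit 0) (nat_lit 8793864446) (nat_lit 1824) (nat_lit 8377279657) (nat_lit 1900) (nat_lit 1379638665) (nat_lit 481) (nat_lit 5) (nat_lit 505) (nat_lit 5) (nat_lit 506) (nat_lit 5) (nat_lit 606) (nat_lit 586) (nat_lit 368))) (XT.nd (nat_lit 78) (nat_lit 0) (nat_lit 0) (XT.lf (nat_lit 76) (nat_lit 1462964096) (nat_lit 0) (nat_lit 8843164627) (nat_lit 1900) (nat_lit 8438269101) (nat_lit 482) (nat_lit 5) (nat_lit 481) (nat_lit 5) (nat_lit 506) (nat_lit 5) (nat_lit 607) (nat_lit 586) (nat_lit 367)) (XT.lf (nat_lit 76) (nat_lit 11609274744) (nat_lit 0) (nat_lit 290292304) (nat_lit 1900) (nat_lit 7041299870) (nat_lit 482) (nat_lit 5) (nat_lit 481) (nat_lit 5) (nat_lit 506) (nat_lit 5) (nat_lit 608) (nat_lit 586) (nat_lit 366)))) (XT.nd (nat_lit 156) (nat_lit 1748) (nat_lit 0) (XT.nd (nat_lit 78) (nat_lit 0) (nat_lit 0) (XT.lf (nat_lit 76) (nat_lit 2794823749) (nat_lit 0) (nat_lit 10797775808) (nat_lit 1900)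 (nat_lit 5547311636) (nat_lit 483) (nat_lit 5) (nat_lit 482) (nat_lit 5) (nat_lit 507) (nat_lit 5) (nat_lit 609) (nat_lit 586) (nat_lit 365)) (XT.lf (nat_lit 76) (nat_lit 13216909753) (nat_lit 0) (nat_lit 2148588068) (nat_lit 1900) (nat_lit 3976518730) (nat_lit 483) (nat_lit 5) (nat_lit 482) (nat_lit 5) (nat_lit 507) (nat_lit 5) (nat_lit 610) (nat_lit 586) (nat_lit 364))) (XT.nd (nat_lit 78) (nat_lit 0) (nat_lit 0) (XT.lf (nat_lit 0) (nat_lit 4308132802) (nat_lit 1824) (nat_lit 12932023517) (nat_lit 1900) (nat_lit 2306681947) (nat_lit 459) (nat_lit 5) (nat_lit 483) (nat_lit 5) (nat_lit 484) (nat_lit 5) (nat_lit 611) (nat_lit 586) (nat_lit 363)) (XT.lf (nat_lit 0) (nat_lit 15014361589) (nat_lit 1824) (nat_lit 4188256405) (nat_lit 1900) (nat_lit 552132511) (nat_lit 459) (nat_lit 5) (nat_lit 483) (nat_lit 5) (nat_lit 484) (nat_lit 5) (nat_lit 612) (nat_lit 586) (nat_lit 362))))))))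
noncomputable def xc94 : XT := (XT.nd (nat_lit 2340) (nat_lit 4560) (nat_lit 0) (XT.nd (nat_lit 1170) (nat_lit 5472) (nat_lit 0) (XT.nd (nat_lit 546) (nat_lit 4104) (nat_lit 0) (XT.nd (nat_lit 234) (nat_lit 1748) (nat_lit 0) (XT.nd (nat_lit 78) (nat_lit 912) (nat_lit 0) (XT.lf (nat_lit 0) (nat_lit 1286624909) (nat_lit 1140) (nat_lit 13962263435) (nat_lit 76) (nat_lit 4716465285) (nat_lit 444) (nat_lit 5) (nat_lit 459) (nat_lit 5) (nat_lit 445) (nat_lit 5) (nat_lit 613) (nat_lit 586) (nat_lit 361)) (XT.nd (nat_lit 78) (nat_lit 912) (nat_lit 0) (XT.lf (nat_lit 0) (nat_lit 3209737003) (nat_lit 1140) (nat_lit 3189778000) (nat_lit 76) (nat_lit 13779481641) (nat_lit 444) (nat_lit 5) (nat_lit 459) (nat_lit 5) (nat_lit 445) (nat_lit 5) (nat_lit 614) (nat_lit 586) (nat_lit 360)) (XT.lf (nat_lit 0) (nat_lit 5235286389) (nat_lit 988) (nat_lit 12515897386) (nat_lit 76) (nat_lit 2644449511) (nat_lit 432) (nat_lit 5) (nat_lit 445) (nat_lit 5) (nat_lit 433) (nat_lit 5) (nat_lit 615) (nat_lit 586) (nat_lit 359)))) (XT.nd (nat_lit 156) (nat_lit 836) (nat_lit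 0) (XT.nd (nat_lit 78) (nat_lit 912) (nat_lit 0) (XT.lf (nat_lit 0) (nat_lit 7360643521) (nat_lit 988) (nat_lit 1449138945) (nat_lit 76) (nat_lit 11805634521) (nat_lit 432) (nat_lit 5) (nat_lit 445) (nat_lit 5) (nat_lit 433) (nat_lit 5) (nat_lit 616) (nat_lit 586) (nat_lit 358)) (XT.lf (nat_lit 0) (nat_lit 9591115815) (nat_lit 988) (nat_lit 10875421960) (nat_lit 76) (nat_lit 371806683) (nat_lit 420) (nat_lit 5) (nat_lit 433) (nat_lit 5) (nat_lit 421) (nat_lit 5) (nat_lit 617) (nat_lit 586) (nat_lit 357))) (XT.nd (nat_lit 78) (nat_lit 0) (nat_lit 0) (XT.lf (nat_lit 0) (nat_lit 501199527) (nat_lit 836) (nat_lit 11431907251) (nat_lit 912) (nat_lit 9131285768) (nat_lit 409) (nat_lit 5) (nat_lit 420) (nat_lit 5) (nat_lit 421) (nat_lit 5) (nat_lit 618) (nat_lit 586) (nat_lit 356)) (XT.lf (nat_lit 0) (nat_lit 12248501829) (nat_lit 836) (nat_lit 2141998874) (nat_lit 912) (nat_lit 6903089877) (nat_lit 409) (nat_lit 5) (nat_lit 420) (nat_lit 5) (nat_lit 421) (nat_lit 5) (nat_lit 619) (nat_lit 586) (nat_lit 355))))) (XT.nd (nat_lit 312) (nat_lit 2356)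 (nat_lit 0) (XT.nd (nat_lit 156) (nat_lit 912) (nat_lit 0) (XT.nd (nat_lit 78) (nat_lit 0) (nat_lit 0) (XT.lf (nat_lit 0) (nat_lit 2686724329) (nat_lit 836) (nat_lit 14271048334) (nat_lit 912) (nat_lit 4568385549) (nat_lit 398) (nat_lit 5) (nat_lit 409) (nat_lit 5) (nat_lit 410) (nat_lit 5) (nat_lit 620) (nat_lit 586) (nat_lit 354)) (XT.lf (nat_lit 0) (nat_lit 14757161562) (nat_lit 836) (nat_lit 4889746083) (nat_lit 912) (nat_lit 2115059437) (nat_lit 398) (nat_lit 5) (nat_lit 409) (nat_lit 5) (nat_lit 410) (nat_lit 5) (nat_lit 621) (nat_lit 586) (nat_lit 353))) (XT.nd (nat_lit 78) (nat_lit 0) (nat_lit 0) (XT.lf (nat_lit 0) (nat_lit 441942694) (nat_lit 912) (nat_lit 16905455364) (nat_lit 76) (nat_lit 4653850215) (nat_lit 386) (nat_lit 5) (nat_lit 398) (nat_lit 5) (nat_lit 387) (nat_lit 5) (nat_lit 622) (nat_lit 586) (nat_lit 352)) (XT.lf (nat_lit 0) (nat_lit 3097329571) (nat_lit 912) (nat_lit 4761995601) (nat_lit 76) (nat_lit 14384199220) (nat_lit 386) (nat_lit 5) (nat_lit 398) (nat_lit 5) (nat_lit 387) (nat_lit 5) (nat_lit 623) (nat_lit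 586) (nat_lit 351)))) (XT.nd (nat_lit 156) (nat_lit 1520) (nat_lit 0) (XT.nd (nat_lit 78) (nat_lit 0) (nat_lit 0) (XT.lf (nat_lit 0) (nat_lit 5864015747) (nat_lit 912) (nat_lit 14780453756) (nat_lit 76) (nat_lit 1845012919) (nat_lit 375) (nat_lit 5) (nat_lit 387) (nat_lit 5) (nat_lit 376) (nat_lit 5) (nat_lit 624) (nat_lit 586) (nat_lit 350)) (XT.lf (nat_lit 0) (nat_lit 8766224143) (nat_lit 912) (nat_lit 2302200746) (nat_lit 76) (nat_lit 11670331168) (nat_lit 375) (nat_lit 5) (nat_lit 387) (nat_lit 5) (nat_lit 376) (nat_lit 5) (nat_lit 625) (nat_lit 586) (nat_lit 349))) (XT.nd (nat_lit 78) (nat_lit 760) (nat_lit 0) (XT.lf (nat_lit 0) (nat_lit 10559952579) (nat_lit 760) (nat_lit 1231138171) (nat_lit 836) (nat_lit 11200632346) (nat_lit 365) (nat_lit 5) (nat_lit 375) (nat_lit 5) (nat_lit 376) (nat_lit 5) (nat_lit 626) (nat_lit 586) (nat_lit 348)) (XT.lf (nat_lit 0) (nat_lit 404960321) (nat_lit 760) (nat_lit 14542930035) (nat_lit 836) (nat_lit 8300430611) (nat_lit 355) (nat_lit 5) (nat_lit 365) (nat_lit 5) (nat_lit 366) (nat_lit 5) (nat_lit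 627) (nat_lit 586) (nat_lit 347)))))) (XT.nd (nat_lit 546) (nat_lit 3268) (nat_lit 0) (XT.nd (nat_lit 234) (nat_lit 1444) (nat_lit 0) (XT.nd (nat_lit 78) (nat_lit 760) (nat_lit 0) (XT.lf (nat_lit 0) (nat_lit 13654498128) (nat_lit 760) (nat_lit 4601001322) (nat_lit 836) (nat_lit 5252798079) (nat_lit 355) (nat_lit 5) (nat_lit 365) (nat_lit 5) (nat_lit 366) (nat_lit 5) (nat_lit 628) (nat_lit 586) (nat_lit 346)) (XT.nd (nat_lit 78) (nat_lit 76) (nat_lit 0) (XT.lf (nat_lit 0) (nat_lit 3400003333) (nat_lit 684) (nat_lit 18283523856) (nat_lit 760) (nat_lit 2088861301) (nat_lit 346) (nat_lit 5) (nat_lit 355) (nat_lit 5) (nat_lit 356) (nat_lit 5) (nat_lit 629) (nat_lit 586) (nat_lit 345)) (XT.lf (nat_lit 0) (nat_lit 1216702578) (nat_lit 760) (nat_lit 7030481067) (nat_lit 76) (nat_lit 15792564436) (nat_lit 345) (nat_lit 5) (nat_lit 355) (nat_lit 5) (nat_lit 346) (nat_lit 5) (nat_lit 630) (nat_lit 586) (nat_lit 344)))) (XT.nd (nat_lit 156) (nat_lit 684) (nat_lit 0) (XT.nd (nat_lit 78) (nat_lit 0) (nat_lit 0) (XT.lf (nat_lit 0) (nat_lit 4613207659)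 (nat_lit 836) (nat_lit 17677186264) (nat_lit 76) (nat_lit 2020728984) (nat_lit 335) (nat_lit 5) (nat_lit 346) (nat_lit 5) (nat_lit 336) (nat_lit 5) (nat_lit 631) (nat_lit 586) (nat_lit 343)) (XT.lf (nat_lit 0) (nat_lit 8176112722) (nat_lit 836) (nat_lit 3979125269) (nat_lit 76) (nat_lit 12430718025) (nat_lit 335) (nat_lit 5) (nat_lit 346) (nat_lit 5) (nat_lit 336) (nat_lit 5) (nat_lit 632) (nat_lit 586) (nat_lit 342))) (XT.nd (nat_lit 78) (nat_lit 0) (nat_lit 0) (XT.lf (nat_lit 0) (nat_lit 10121567847) (nat_lit 684) (nat_lit 1750857405) (nat_lit 760) (nat_lit 12992617728) (nat_lit 326) (nat_lit 5) (nat_lit 335) (nat_lit 5) (nat_lit 336) (nat_lit 5) (nat_lit 633) (nat_lit 586) (nat_lit 341)) (XT.lf (nat_lit 0) (nat_lit 15723552018) (nat_lit 760) (nat_lit 652792706) (nat_lit 76) (nat_lit 8771749375) (nat_lit 326) (nat_lit 5) (nat_lit 336) (nat_lit 5) (nat_lit 327) (nat_lit 5) (nat_lit 634) (nat_lit 586) (nat_lit 340))))) (XT.nd (nat_lit 312) (nat_lit 1216) (nat_lit 0) (XT.nd (nat_lit 156) (nat_lit 760) (nat_lit 0) (XT.nd (nat_lit 78) (nat_lit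 608) (nat_lit 0) (XT.lf (nat_lit 0) (nat_lit 13886193217) (nat_lit 684) (nat_lit 5863804373) (nat_lit 760) (nat_lit 5684842897) (nat_lit 317) (nat_lit 5) (nat_lit 326) (nat_lit 5) (nat_lit 327) (nat_lit 5) (nat_lit 635) (nat_lit 586) (nat_lit 339)) (XT.lf (nat_lit 0) (nat_lit 3001285999) (nat_lit 608) (nat_lit 20907710498) (nat_lit 684) (nat_lit 1817284987) (nat_lit 309) (nat_lit 5) (nat_lit 317) (nat_lit 5) (nat_lit 318) (nat_lit 5) (nat_lit 636) (nat_lit 586) (nat_lit 338))) (XT.nd (nat_lit 78) (nat_lit 684) (nat_lit 0) (XT.lf (nat_lit 0) (nat_lit 2213162740) (nat_lit 684) (nat_lit 8080490417) (nat_lit 76) (nat_lit 15727353172) (nat_lit 308) (nat_lit 5) (nat_lit 317) (nat_lit 5) (nat_lit 309) (nat_lit 5) (nat_lit 637) (nat_lit 586) (nat_lit 337)) (XT.lf (nat_lit 0) (nat_lit 6345411921) (nat_lit 760) (nat_lit 19392613857) (nat_lit 76) (nat_lit 582449288) (nat_lit 299) (nat_lit 5) (nat_lit 309) (nat_lit 5) (nat_lit 300) (nat_lit 5) (nat_lit 638) (nat_lit 586) (nat_lit 336)))) (XT.nd (nat_lit 156) (nat_lit 608) (nat_lit 0) (XT.nd (nat_lit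 78) (nat_lit 608) (nat_lit 0) (XT.lf (nat_lit 0) (nat_lit 10679760093) (nat_lit 760) (nat_lit 4351511228) (nat_lit 76) (nat_lit 11592272933) (nat_lit 299) (nat_lit 5) (nat_lit 309) (nat_lit 5) (nat_lit 300) (nat_lit 5) (nat_lit 639) (nat_lit 586) (nat_lit 335)) (XT.lf (nat_lit 0) (nat_lit 11132450295) (nat_lit 608) (nat_lit 4037389549) (nat_lit 684) (nat_lit 11761454242) (nat_lit 291) (nat_lit 5) (nat_lit 299) (nat_lit 5) (nat_lit 300) (nat_lit 5) (nat_lit 640) (nat_lit 586) (nat_lit 334))) (XT.nd (nat_lit 78) (nat_lit 608) (nat_lit 0) (XT.lf (nat_lit 0) (nat_lit 19822507628) (nat_lit 684) (nat_lit 310325503) (nat_lit 76) (nat_lit 7110910206) (nat_lit 291) (nat_lit 5) (nat_lit 300) (nat_lit 5) (nat_lit 292) (nat_lit 5) (nat_lit 641) (nat_lit 586) (nat_lit 333)) (XT.lf (nat_lit 0) (nat_lit 15662722940) (nat_lit 608) (nat_lit 9030797438) (nat_lit 684) (nat_lit 2866415511) (nat_lit 283) (nat_lit 5) (nat_lit 291) (nat_lit 5) (nat_lit 292) (nat_lit 5) (nat_lit 642) (nat_lit 586) (nat_lit 332))))))) (XT.nd (nat_lit 77922) (nat_lit 0) (nat_lit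 16796) (XT.nd (nat_lit 546) (nat_lit 2128) (nat_lit 0) (XT.nd (nat_lit 234) (nat_lit 1140) (nat_lit 0) (XT.nd (nat_lit 78) (nat_lit 608) (nat_lit 0) (XT.lf (nat_lit 0) (nat_lit 1797007658) (nat_lit 684) (nat_lit 23781360584) (nat_lit 76) (nat_lit 2303036214) (nat_lit 274) (nat_lit 5) (nat_lit 283) (nat_lit 5) (nat_lit 275) (nat_lit 5) (nat_lit 643) (nat_lit 586) (nat_lit 331)) (XT.nd (nat_lit 78) (nat_lit 608) (nat_lit 0) (XT.lf (nat_lit 0) (nat_lit 6652432946) (nat_lit 684) (nat_lit 7712476624) (nat_lit 76) (nat_lit 13841271726) (nat_lit 274) (nat_lit 5) (nat_lit 283) (nat_lit 5) (nat_lit 275) (nat_lit 5) (nat_lit 644) (nat_lit 586) (nat_lit 330)) (XT.lf (nat_lit 0) (nat_lit 8789165884) (nat_lit 608) (nat_lit 2869833789) (nat_lit 684) (nat_lit 16877373478) (nat_lit 266) (nat_lit 5) (nat_lit 274) (nat_lit 5) (nat_lit 275) (nat_lit 5) (nat_lit 645) (nat_lit 586) (nat_lit 329)))) (XT.nd (nat_lit 156) (nat_lit 608) (nat_lit 0) (XT.nd (nat_lit 78) (nat_lit 532) (nat_lit 0) (XT.lf (nat_lit 0) (nat_lit 16872285291) (nat_lit 684) (nat_lit 3208503550)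 (nat_lit 76) (nat_lit 8790248383) (nat_lit 266) (nat_lit 5) (nat_lit 275) (nat_lit 5) (nat_lit 267) (nat_lit 5) (nat_lit 646) (nat_lit 586) (nat_lit 328)) (XT.lf (nat_lit 0) (nat_lit 13819369605) (nat_lit 532) (nat_lit 8476252511) (nat_lit 608) (nat_lit 6914656884) (nat_lit 259) (nat_lit 5) (nat_lit 266) (nat_lit 5) (nat_lit 267) (nat_lit 5) (nat_lit 647) (nat_lit 586) (nat_lit 327))) (XT.nd (nat_lit 78) (nat_lit 76) (nat_lit 0) (XT.lf (nat_lit 0) (nat_lit 1671509282) (nat_lit 532) (nat_lit 26207342587) (nat_lit 608) (nat_lit 1676425347) (nat_lit 252) (nat_lit 5) (nat_lit 259) (nat_lit 5) (nat_lit 260) (nat_lit 5) (nat_lit 648) (nat_lit 586) (nat_lit 326)) (XT.lf (nat_lit 0) (nat_lit 3775677833) (nat_lit 608) (nat_lit 10705812619) (nat_lit 76) (nat_lit 15422065056) (nat_lit 251) (nat_lit 5) (nat_lit 259) (nat_lit 5) (nat_lit 252) (nat_lit 5) (nat_lit 649) (nat_lit 586) (nat_lit 325))))) (XT.nd (nat_lit 312) (nat_lit 1064) (nat_lit 0) (XT.nd (nat_lit 156) (nat_lit 532) (nat_lit 0) (XT.nd (nat_lit 78) (nat_lit 0) (nat_lit 0) (XT.lf (nat_lit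 0) (nat_lit 6891171648) (nat_lit 532) (nat_lit 2465119627) (nat_lit 608) (nat_lit 20901448278) (nat_lit 244) (nat_lit 5) (nat_lit 251) (nat_lit 5) (nat_lit 252) (nat_lit 5) (nat_lit 650) (nat_lit 586) (nat_lit 324)) (XT.lf (nat_lit 0) (nat_lit 15181585321) (nat_lit 608) (nat_lit 5700236016) (nat_lit 76) (nat_lit 9734524694) (nat_lit 244) (nat_lit 5) (nat_lit 252) (nat_lit 5) (nat_lit 245) (nat_lit 5) (nat_lit 651) (nat_lit 586) (nat_lit 323))) (XT.nd (nat_lit 78) (nat_lit 0) (nat_lit 0) (XT.lf (nat_lit 0) (nat_lit 12462792032) (nat_lit 532) (nat_lit 8755068068) (nat_lit 608) (nat_lit 9762375158) (nat_lit 237) (nat_lit 5) (nat_lit 244) (nat_lit 5) (nat_lit 245) (nat_lit 5) (nat_lit 652) (nat_lit 586) (nat_lit 322)) (XT.lf (nat_lit 0) (nat_lit 27434087606) (nat_lit 608) (nat_lit 311788255) (nat_lit 76) (nat_lit 3604341977) (nat_lit 237) (nat_lit 5) (nat_lit 245) (nat_lit 5) (nat_lit 238) (nat_lit 5) (nat_lit 653) (nat_lit 586) (nat_lit 321)))) (XT.nd (nat_lit 76908) (nat_lit 0) (nat_lit 19304) (XT.nd (nat_lit 78) (nat_lit 532) (nat_lit 0)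 (XT.lf (nat_lit 0) (nat_lit 2196354391) (nat_lit 532) (nat_lit 13300437925) (nat_lit 76) (nat_lit 16227018808) (nat_lit 230) (nat_lit 5) (nat_lit 237) (nat_lit 5) (nat_lit 231) (nat_lit 5) (nat_lit 654) (nat_lit 586) (nat_lit 320)) (XT.lf (nat_lit 0) (nat_lit 5474766060) (nat_lit 532) (nat_lit 2938907921) (nat_lit 608) (nat_lit 23689984242) (nat_lit 223) (nat_lit 5) (nat_lit 230) (nat_lit 5) (nat_lit 231) (nat_lit 5) (nat_lit 655) (nat_lit 586) (nat_lit 319))) (XT.nd (nat_lit 78) (nat_lit 1824) (nat_lit 0) (XT.lf (nat_lit 76) (nat_lit 6514035228) (nat_lit 0) (nat_lit 10873157472) (nat_lit 1824) (nat_lit 42127872) (nat_lit 502) (nat_lit 5) (nat_lit 501) (nat_lit 5) (nat_lit 525) (nat_lit 5) (nat_lit 599) (nat_lit 587) (nat_lit 374)) (XT.lf (nat_lit 0) (nat_lit 864791094) (nat_lit 1824) (nat_lit 1915367949) (nat_lit 1900) (nat_lit 14825921550) (nat_lit 477) (nat_lit 5) (nat_lit 501) (nat_lit 5) (nat_lit 502) (nat_lit 5) (nat_lit 600) (nat_lit 587) (nat_lit 373)))))) (XT.nd (nat_lit 546) (nat_lit 2584) (nat_lit 0) (XT.nd (nat_lit 234) (nat_lit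 0) (nat_lit 76) (XT.nd (nat_lit 78) (nat_lit 0) (nat_lit 0) (XT.lf (nat_lit 0) (nat_lit 1867075487) (nat_lit 1824) (nat_lit 10464684164) (nat_lit 1900) (nat_lit 5453055125) (nat_lit 478) (nat_lit 5) (nat_lit 502) (nat_lit 5) (nat_lit 503) (nat_lit 5) (nat_lit 601) (nat_lit 587) (nat_lit 372)) (XT.nd (nat_lit 78) (nat_lit 0) (nat_lit 76) (XT.lf (nat_lit 0) (nat_lit 2915006095) (nat_lit 1824) (nat_lit 1223191413) (nat_lit 1900) (nat_lit 13828414469) (nat_lit 478) (nat_lit 5) (nat_lit 502) (nat_lit 5) (nat_lit 503) (nat_lit 5) (nat_lit 602) (nat_lit 587) (nat_lit 371)) (XT.lf (nat_lit 0) (nat_lit 4059961615) (nat_lit 1824) (nat_lit 9870797839) (nat_lit 1900) (nat_lit 4219764680) (nat_lit 479) (nat_lit 5) (nat_lit 503) (nat_lit 5) (nat_lit 504) (nat_lit 5) (nat_lit 603) (nat_lit 587) (nat_lit 370)))) (XT.nd (nat_lit 156) (nat_lit 0) (nat_lit 76) (XT.nd (nat_lit 78) (nat_lit 0) (nat_lit 76) (XT.lf (nat_lit 0) (nat_lit 5257941841) (nat_lit 1824) (nat_lit 380271170) (nat_lit 1900) (nat_lit 12699299344) (nat_lit 479) (nat_lit 5) (nat_lit 503) (nat_lit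 5) (nat_lit 504) (nat_lit 5) (nat_lit 604) (nat_lit 587) (nat_lit 369)) (XT.lf (nat_lit 0) (nat_lit 6554330382) (nat_lit 1824) (nat_lit 9126308526) (nat_lit 1900) (nat_lit 2846112783) (nat_lit 480) (nat_lit 5) (nat_lit 504) (nat_lit 5) (nat_lit 505) (nat_lit 5) (nat_lit 605) (nat_lit 587) (nat_lit 368))) (XT.nd (nat_lit 78) (nat_lit 0) (nat_lit 76) (XT.lf (nat_lit 76) (nat_lit 628942168) (nat_lit 0) (nat_lit 7286351169) (nat_lit 1900) (nat_lit 10803709862) (nat_lit 481) (nat_lit 5) (nat_lit 480) (nat_lit 5) (nat_lit 505) (nat_lit 5) (nat_lit 606) (nat_lit 587) (nat_lit 367)) (XT.lf (nat_lit 0) (nat_lit 9368147637) (nat_lit 1824) (nat_lit 8223794456) (nat_lit 1900) (nat_lit 1321864517) (nat_lit 481) (nat_lit 5) (nat_lit 505) (nat_lit 5) (nat_lit 506) (nat_lit 5) (nat_lit 607) (nat_lit 587) (nat_lit 366))))) (XT.nd (nat_lit 312) (nat_lit 2812) (nat_lit 0) (XT.nd (nat_lit 156) (nat_lit 0) (nat_lit 76) (XT.nd (nat_lit 78) (nat_lit 0) (nat_lit 0) (XT.lf (nat_lit 76) (nat_lit 1811142127) (nat_lit 0) (nat_lit 9093773824) (nat_lit 1900) (nat_lit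 8206493305) (nat_lit 482) (nat_lit 5) (nat_lit 481) (nat_lit 5) (nat_lit 506) (nat_lit 5) (nat_lit 608) (nat_lit 587) (nat_lit 365)) (XT.lf (nat_lit 76) (nat_lit 12154125680) (nat_lit 0) (nat_lit 368398056) (nat_lit 1900) (nat_lit 6789438438) (nat_lit 482) (nat_lit 5) (nat_lit 481) (nat_lit 5) (nat_lit 506) (nat_lit 5) (nat_lit 609) (nat_lit 587) (nat_lit 364))) (XT.nd (nat_lit 78) (nat_lit 0) (nat_lit 0) (XT.lf (nat_lit 76) (nat_lit 3169466264) (nat_lit 0) (nat_lit 11074011586) (nat_lit 1900) (nat_lit 5271628712) (nat_lit 483) (nat_lit 5) (nat_lit 482) (nat_lit 5) (nat_lit 507) (nat_lit 5) (nat_lit 610) (nat_lit 587) (nat_lit 363)) (XT.lf (nat_lit 76) (nat_lit 13793744066) (nat_lit 0) (nat_lit 2250658126) (nat_lit 1900) (nat_lit 3677000911) (nat_lit 483) (nat_lit 5) (nat_lit 482) (nat_lit 5) (nat_lit 507) (nat_lit 5) (nat_lit 611) (nat_lit 587) (nat_lit 362)))) (XT.nd (nat_lit 156) (nat_lit 1140) (nat_lit 0) (XT.nd (nat_lit 78) (nat_lit 0) (nat_lit 0) (XT.lf (nat_lit 0) (nat_lit 4712521603) (nat_lit 1824) (nat_lit 13238436046) (nat_lit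 1900) (nat_lit 1979475958) (nat_lit 459) (nat_lit 5) (nat_lit 483) (nat_lit 5) (nat_lit 484) (nat_lit 5) (nat_lit 612) (nat_lit 587) (nat_lit 361)) (XT.lf (nat_lit 0) (nat_lit 15626635237) (nat_lit 1824) (nat_lit 4318856885) (nat_lit 1900) (nat_lit 197155918) (nat_lit 459) (nat_lit 5) (nat_lit 483) (nat_lit 5) (nat_lit 484) (nat_lit 5) (nat_lit 613) (nat_lit 587) (nat_lit 360))) (XT.nd (nat_lit 78) (nat_lit 0) (nat_lit 0) (XT.lf (nat_lit 0) (nat_lit 1668267750) (nat_lit 1140) (nat_lit 13919372535) (nat_lit 76) (nat_lit 4769881986) (nat_lit 444) (nat_lit 5) (nat_lit 459) (nat_lit 5) (nat_lit 445) (nat_lit 5) (nat_lit 614) (nat_lit 587) (nat_lit 359)) (XT.lf (nat_lit 0) (nat_lit 3622863452) (nat_lit 1140) (nat_lit 2937753787) (nat_lit 76) (nat_lit 14014960877) (nat_lit 444) (nat_lit 5) (nat_lit 459) (nat_lit 5) (nat_lit 445) (nat_lit 5) (nat_lit 615) (nat_lit 587) (nat_lit 358))))))))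
noncomputable def xc95 : XT := (XT.nd (nat_lit 2340) (nat_lit 3344) (nat_lit 0) (XT.nd (nat_lit 1170) (nat_lit 5472) (nat_lit 0) (XT.nd (nat_lit 546) (nat_lit 3952) (nat_lit 0) (XT.nd (nat_lit 234) (nat_lit 1672) (nat_lit 0) (XT.nd (nat_lit 78) (nat_lit 912) (nat_lit 0) (XT.lf (nat_lit 0) (nat_lit 5683921770) (nat_lit 988) (nat_lit 12445374066) (nat_lit 76) (nat_lit 2667352085) (nat_lit 432) (nat_lit 5) (nat_lit 445) (nat_lit 5) (nat_lit 433) (nat_lit 5) (nat_lit 616) (nat_lit 587) (nat_lit 357)) (XT.nd (nat_lit 78) (nat_lit 912) (nat_lit 0) (XT.lf (nat_lit 0) (nat_lit 7845042326) (nat_lit 988) (nat_lit 1163571461) (nat_lit 76) (nat_lit 12012348764) (nat_lit 432) (nat_lit 5) (nat_lit 445) (nat_lit 5) (nat_lit 433) (nat_lit 5) (nat_lit 617) (nat_lit 587) (nat_lit 356)) (XT.lf (nat_lit 0) (nat_lit 10115410762) (nat_lit 988) (nat_lit 10773648149) (nat_lit 76) (nat_lit 359384300) (nat_lit 420) (nat_lit 5) (nat_lit 433) (nat_lit 5) (nat_lit 421) (nat_lit 5) (nat_lit 618) (nat_lit 587) (nat_lit 355)))) (XT.nd (nat_lit 156) (nat_lit 836) (nat_lit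 0) (XT.nd (nat_lit 78) (nat_lit 0) (nat_lit 0) (XT.lf (nat_lit 0) (nat_lit 828405226) (nat_lit 836) (nat_lit 11671376601) (nat_lit 912) (nat_lit 8979319995) (nat_lit 409) (nat_lit 5) (nat_lit 420) (nat_lit 5) (nat_lit 421) (nat_lit 5) (nat_lit 619) (nat_lit 587) (nat_lit 354)) (XT.lf (nat_lit 0) (nat_lit 12804434325) (nat_lit 836) (nat_lit 2195457679) (nat_lit 912) (nat_lit 6713120803) (nat_lit 409) (nat_lit 5) (nat_lit 420) (nat_lit 5) (nat_lit 421) (nat_lit 5) (nat_lit 620) (nat_lit 587) (nat_lit 353))) (XT.nd (nat_lit 78) (nat_lit 0) (nat_lit 0) (XT.lf (nat_lit 0) (nat_lit 3055851112) (nat_lit 836) (nat_lit 14558332919) (nat_lit 912) (nat_lit 4336134621) (nat_lit 398) (nat_lit 5) (nat_lit 409) (nat_lit 5) (nat_lit 410) (nat_lit 5) (nat_lit 621) (nat_lit 587) (nat_lit 352)) (XT.lf (nat_lit 0) (nat_lit 15361512927) (nat_lit 836) (nat_lit 4989368081) (nat_lit 912) (nat_lit 1840087450) (nat_lit 398) (nat_lit 5) (nat_lit 409) (nat_lit 5) (nat_lit 410) (nat_lit 5) (nat_lit 622) (nat_lit 587) (nat_lit 351))))) (XT.nd (nat_lit 312) (nat_lit 2204)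 (nat_lit 0) (XT.nd (nat_lit 156) (nat_lit 836) (nat_lit 0) (XT.nd (nat_lit 78) (nat_lit 0) (nat_lit 0) (XT.lf (nat_lit 0) (nat_lit 759790631) (nat_lit 912) (nat_lit 16926058733) (nat_lit 76) (nat_lit 4749227102) (nat_lit 386) (nat_lit 5) (nat_lit 398) (nat_lit 5) (nat_lit 387) (nat_lit 5) (nat_lit 623) (nat_lit 587) (nat_lit 350)) (XT.lf (nat_lit 0) (nat_lit 3462226244) (nat_lit 912) (nat_lit 4545955378) (nat_lit 76) (nat_lit 14674137991) (nat_lit 386) (nat_lit 5) (nat_lit 398) (nat_lit 5) (nat_lit 387) (nat_lit 5) (nat_lit 624) (nat_lit 587) (nat_lit 349))) (XT.nd (nat_lit 78) (nat_lit 0) (nat_lit 0) (XT.lf (nat_lit 0) (nat_lit 6280380007) (nat_lit 912) (nat_lit 14760900613) (nat_lit 76) (nat_lit 1891993826) (nat_lit 375) (nat_lit 5) (nat_lit 387) (nat_lit 5) (nat_lit 376) (nat_lit 5) (nat_lit 625) (nat_lit 587) (nat_lit 348)) (XT.lf (nat_lit 0) (nat_lit 9234768180) (nat_lit 912) (nat_lit 2039262194) (nat_lit 76) (nat_lit 11913620780) (nat_lit 375) (nat_lit 5) (nat_lit 387) (nat_lit 5) (nat_lit 376) (nat_lit 5) (nat_lit 626) (nat_lit 587)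 (nat_lit 347)))) (XT.nd (nat_lit 156) (nat_lit 684) (nat_lit 0) (XT.nd (nat_lit 78) (nat_lit 760) (nat_lit 0) (XT.lf (nat_lit 0) (nat_lit 11078101418) (nat_lit 760) (nat_lit 1238274219) (nat_lit 836) (nat_lit 11129377332) (nat_lit 365) (nat_lit 5) (nat_lit 375) (nat_lit 5) (nat_lit 376) (nat_lit 5) (nat_lit 627) (nat_lit 587) (nat_lit 346)) (XT.lf (nat_lit 0) (nat_lit 723643520) (nat_lit 760) (nat_lit 14809119795) (nat_lit 836) (nat_lit 8174790741) (nat_lit 355) (nat_lit 5) (nat_lit 365) (nat_lit 5) (nat_lit 366) (nat_lit 5) (nat_lit 628) (nat_lit 587) (nat_lit 345))) (XT.nd (nat_lit 78) (nat_lit 684) (nat_lit 0) (XT.lf (nat_lit 0) (nat_lit 14232082201) (nat_lit 760) (nat_lit 4668836211) (nat_lit 836) (nat_lit 5071924156) (nat_lit 355) (nat_lit 5) (nat_lit 365) (nat_lit 5) (nat_lit 366) (nat_lit 5) (nat_lit 629) (nat_lit 587) (nat_lit 344)) (XT.lf (nat_lit 0) (nat_lit 3775922198) (nat_lit 684) (nat_lit 18618241413) (nat_lit 760) (nat_lit 1848118888) (nat_lit 346) (nat_lit 5) (nat_lit 355) (nat_lit 5) (nat_lit 356) (nat_lit 5) (nat_lit 630)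 (nat_lit 587) (nat_lit 343)))))) (XT.nd (nat_lit 546) (nat_lit 2660) (nat_lit 0) (XT.nd (nat_lit 234) (nat_lit 1976) (nat_lit 0) (XT.nd (nat_lit 78) (nat_lit 760) (nat_lit 0) (XT.lf (nat_lit 0) (nat_lit 1514384025) (nat_lit 760) (nat_lit 6865562989) (nat_lit 76) (nat_lit 16135115199) (nat_lit 345) (nat_lit 5) (nat_lit 355) (nat_lit 5) (nat_lit 346) (nat_lit 5) (nat_lit 631) (nat_lit 587) (nat_lit 342)) (XT.nd (nat_lit 78) (nat_lit 0) (nat_lit 0) (XT.lf (nat_lit 0) (nat_lit 4975647983) (nat_lit 836) (nat_lit 17722017454) (nat_lit 76) (nat_lit 2094262796) (nat_lit 335) (nat_lit 5) (nat_lit 346) (nat_lit 5) (nat_lit 336) (nat_lit 5) (nat_lit 632) (nat_lit 587) (nat_lit 341)) (XT.lf (nat_lit 0) (nat_lit 8604513575) (nat_lit 836) (nat_lit 3756048426) (nat_lit 76) (nat_lit 12711802221) (nat_lit 335) (nat_lit 5) (nat_lit 346) (nat_lit 5) (nat_lit 336) (nat_lit 5) (nat_lit 633) (nat_lit 587) (nat_lit 340)))) (XT.nd (nat_lit 156) (nat_lit 1292) (nat_lit 0) (XT.nd (nat_lit 78) (nat_lit 0) (nat_lit 0) (XT.lf (nat_lit 0) (nat_lit 10624667372) (nat_lit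 684) (nat_lit 1746843422) (nat_lit 760) (nat_lit 12985587223) (nat_lit 326) (nat_lit 5) (nat_lit 335) (nat_lit 5) (nat_lit 336) (nat_lit 5) (nat_lit 634) (nat_lit 587) (nat_lit 339)) (XT.lf (nat_lit 0) (nat_lit 16294778405) (nat_lit 760) (nat_lit 366181330) (nat_lit 76) (nat_lit 8984948314) (nat_lit 326) (nat_lit 5) (nat_lit 336) (nat_lit 5) (nat_lit 327) (nat_lit 5) (nat_lit 635) (nat_lit 587) (nat_lit 338))) (XT.nd (nat_lit 78) (nat_lit 608) (nat_lit 0) (XT.lf (nat_lit 0) (nat_lit 14461612816) (nat_lit 684) (nat_lit 5937038492) (nat_lit 760) (nat_lit 5539800340) (nat_lit 317) (nat_lit 5) (nat_lit 326) (nat_lit 5) (nat_lit 327) (nat_lit 5) (nat_lit 636) (nat_lit 587) (nat_lit 337)) (XT.lf (nat_lit 0) (nat_lit 3361817052) (nat_lit 608) (nat_lit 21276270961) (nat_lit 684) (nat_lit 1597688543) (nat_lit 309) (nat_lit 5) (nat_lit 317) (nat_lit 5) (nat_lit 318) (nat_lit 5) (nat_lit 637) (nat_lit 587) (nat_lit 336))))) (XT.nd (nat_lit 312) (nat_lit 1292) (nat_lit 0) (XT.nd (nat_lit 156) (nat_lit 608) (nat_lit 0) (XT.nd (nat_lit 78) (nat_lit 684)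 (nat_lit 0) (XT.lf (nat_lit 0) (nat_lit 2505058757) (nat_lit 684) (nat_lit 7944184397) (nat_lit 76) (nat_lit 16087218799) (nat_lit 308) (nat_lit 5) (nat_lit 317) (nat_lit 5) (nat_lit 309) (nat_lit 5) (nat_lit 638) (nat_lit 587) (nat_lit 335)) (XT.lf (nat_lit 0) (nat_lit 6717351714) (nat_lit 760) (nat_lit 19479937482) (nat_lit 76) (nat_lit 644683124) (nat_lit 299) (nat_lit 5) (nat_lit 309) (nat_lit 5) (nat_lit 300) (nat_lit 5) (nat_lit 639) (nat_lit 587) (nat_lit 334))) (XT.nd (nat_lit 78) (nat_lit 608) (nat_lit 0) (XT.lf (nat_lit 0) (nat_lit 11133582309) (nat_lit 760) (nat_lit 4143905519) (nat_lit 76) (nat_lit 11873711382) (nat_lit 299) (nat_lit 5) (nat_lit 309) (nat_lit 5) (nat_lit 300) (nat_lit 5) (nat_lit 640) (nat_lit 587) (nat_lit 333)) (XT.lf (nat_lit 0) (nat_lit 11647796840) (nat_lit 608) (nat_lit 4062856868) (nat_lit 684) (nat_lit 11754506753) (nat_lit 291) (nat_lit 5) (nat_lit 299) (nat_lit 5) (nat_lit 300) (nat_lit 5) (nat_lit 641) (nat_lit 587) (nat_lit 332)))) (XT.nd (nat_lit 156) (nat_lit 684) (nat_lit 0) (XT.nd (nat_lit 78)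 (nat_lit 608) (nat_lit 0) (XT.lf (nat_lit 0) (nat_lit 20452071491) (nat_lit 684) (nat_lit 25259339) (nat_lit 76) (nat_lit 7306614154) (nat_lit 291) (nat_lit 5) (nat_lit 300) (nat_lit 5) (nat_lit 292) (nat_lit 5) (nat_lit 642) (nat_lit 587) (nat_lit 331)) (XT.lf (nat_lit 0) (nat_lit 16265333805) (nat_lit 608) (nat_lit 9152478527) (nat_lit 684) (nat_lit 2688703112) (nat_lit 283) (nat_lit 5) (nat_lit 291) (nat_lit 5) (nat_lit 292) (nat_lit 5) (nat_lit 643) (nat_lit 587) (nat_lit 330))) (XT.nd (nat_lit 78) (nat_lit 0) (nat_lit 0) (XT.lf (nat_lit 0) (nat_lit 2062641547) (nat_lit 684) (nat_lit 23962263580) (nat_lit 76) (nat_lit 2409523229) (nat_lit 274) (nat_lit 5) (nat_lit 283) (nat_lit 5) (nat_lit 275) (nat_lit 5) (nat_lit 644) (nat_lit 587) (nat_lit 329)) (XT.lf (nat_lit 0) (nat_lit 7010671542) (nat_lit 684) (nat_lit 7577780847) (nat_lit 76) (nat_lit 14177338622) (nat_lit 274) (nat_lit 5) (nat_lit 283) (nat_lit 5) (nat_lit 275) (nat_lit 5) (nat_lit 645) (nat_lit 587) (nat_lit 328))))))) (XT.nd (nat_lit 77844) (nat_lit 0) (nat_lit 15352) (XT.nd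 (nat_lit 546) (nat_lit 1064) (nat_lit 0) (XT.nd (nat_lit 234) (nat_lit 1140) (nat_lit 0) (XT.nd (nat_lit 78) (nat_lit 532) (nat_lit 0) (XT.lf (nat_lit 0) (nat_lit 9251993555) (nat_lit 608) (nat_lit 2862824241) (nat_lit 684) (nat_lit 16987820141) (nat_lit 266) (nat_lit 5) (nat_lit 274) (nat_lit 5) (nat_lit 275) (nat_lit 5) (nat_lit 646) (nat_lit 587) (nat_lit 327)) (XT.nd (nat_lit 78) (nat_lit 532) (nat_lit 0) (XT.lf (nat_lit 0) (nat_lit 17428413643) (nat_lit 684) (nat_lit 2987292383) (nat_lit 76) (nat_lit 9028368570) (nat_lit 266) (nat_lit 5) (nat_lit 275) (nat_lit 5) (nat_lit 267) (nat_lit 5) (nat_lit 647) (nat_lit 587) (nat_lit 326)) (XT.lf (nat_lit 0) (nat_lit 14379260727) (nat_lit 532) (nat_lit 8578509276) (nat_lit 608) (nat_lit 6832380339) (nat_lit 259) (nat_lit 5) (nat_lit 266) (nat_lit 5) (nat_lit 267) (nat_lit 5) (nat_lit 648) (nat_lit 587) (nat_lit 325)))) (XT.nd (nat_lit 156) (nat_lit 532) (nat_lit 0) (XT.nd (nat_lit 78) (nat_lit 76) (nat_lit 0) (XT.lf (nat_lit 0) (nat_lit 1990449887) (nat_lit 532) (nat_lit 26660256463) (nat_lit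 608) (nat_lit 1491381519) (nat_lit 252) (nat_lit 5) (nat_lit 259) (nat_lit 5) (nat_lit 260) (nat_lit 5) (nat_lit 649) (nat_lit 587) (nat_lit 324)) (XT.lf (nat_lit 0) (nat_lit 4062667585) (nat_lit 608) (nat_lit 10637197309) (nat_lit 76) (nat_lit 15797523221) (nat_lit 251) (nat_lit 5) (nat_lit 259) (nat_lit 5) (nat_lit 252) (nat_lit 5) (nat_lit 650) (nat_lit 587) (nat_lit 323))) (XT.nd (nat_lit 78) (nat_lit 0) (nat_lit 0) (XT.lf (nat_lit 0) (nat_lit 7309866567) (nat_lit 532) (nat_lit 2442703740) (nat_lit 608) (nat_lit 21106132169) (nat_lit 244) (nat_lit 5) (nat_lit 251) (nat_lit 5) (nat_lit 252) (nat_lit 5) (nat_lit 651) (nat_lit 587) (nat_lit 322)) (XT.lf (nat_lit 0) (nat_lit 15690725704) (nat_lit 608) (nat_lit 5535223372) (nat_lit 76) (nat_lit 9998605072) (nat_lit 244) (nat_lit 5) (nat_lit 252) (nat_lit 5) (nat_lit 245) (nat_lit 5) (nat_lit 652) (nat_lit 587) (nat_lit 321))))) (XT.nd (nat_lit 76986) (nat_lit 0) (nat_lit 18772) (XT.nd (nat_lit 156) (nat_lit 532) (nat_lit 0) (XT.nd (nat_lit 78) (nat_lit 0) (nat_lit 0) (XT.lf (nat_lit 0) (nat_lit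 12989229597) (nat_lit 532) (nat_lit 8856266447) (nat_lit 608) (nat_lit 9750269883) (nat_lit 237) (nat_lit 5) (nat_lit 244) (nat_lit 5) (nat_lit 245) (nat_lit 5) (nat_lit 653) (nat_lit 587) (nat_lit 320)) (XT.lf (nat_lit 0) (nat_lit 28182532661) (nat_lit 608) (nat_lit 42753498) (nat_lit 76) (nat_lit 3747932474) (nat_lit 237) (nat_lit 5) (nat_lit 245) (nat_lit 5) (nat_lit 238) (nat_lit 5) (nat_lit 654) (nat_lit 587) (nat_lit 319))) (XT.nd (nat_lit 76752) (nat_lit 0) (nat_lit 20520) (XT.lf (nat_lit 0) (nat_lit 2439220115) (nat_lit 532) (nat_lit 13290335388) (nat_lit 76) (nat_lit 16624745097) (nat_lit 230) (nat_lit 5) (nat_lit 237) (nat_lit 5) (nat_lit 231) (nat_lit 5) (nat_lit 655) (nat_lit 587) (nat_lit 318)) (XT.lf (nat_lit 76) (nat_lit 6258079244) (nat_lit 0) (nat_lit 9885099496) (nat_lit 1824) (nat_lit 1272874784) (nat_lit 501) (nat_lit 5) (nat_lit 500) (nat_lit 5) (nat_lit 524) (nat_lit 5) (nat_lit 598) (nat_lit 588) (nat_lit 374)))) (XT.nd (nat_lit 156) (nat_lit 0) (nat_lit 0) (XT.nd (nat_lit 78) (nat_lit 1748) (nat_lit 0) (XT.lf (nat_lit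 76) (nat_lit 15372860713) (nat_lit 0) (nat_lit 1735629568) (nat_lit 1824) (nat_lit 483138714) (nat_lit 501) (nat_lit 5) (nat_lit 500) (nat_lit 5) (nat_lit 524) (nat_lit 5) (nat_lit 599) (nat_lit 588) (nat_lit 373)) (XT.lf (nat_lit 0) (nat_lit 400705718) (nat_lit 1824) (nat_lit 10828024311) (nat_lit 1900) (nat_lit 6540293598) (nat_lit 477) (nat_lit 5) (nat_lit 501) (nat_lit 5) (nat_lit 502) (nat_lit 5) (nat_lit 600) (nat_lit 588) (nat_lit 372))) (XT.nd (nat_lit 78) (nat_lit 0) (nat_lit 76) (XT.lf (nat_lit 0) (nat_lit 1316511018) (nat_lit 1824) (nat_lit 1654373595) (nat_lit 1900) (nat_lit 14978602950) (nat_lit 477) (nat_lit 5) (nat_lit 501) (nat_lit 5) (nat_lit 502) (nat_lit 5) (nat_lit 601) (nat_lit 588) (nat_lit 371)) (XT.lf (nat_lit 0) (nat_lit 2331406142) (nat_lit 1824) (nat_lit 10367215529) (nat_lit 1900) (nat_lit 5433323969) (nat_lit 478) (nat_lit 5) (nat_lit 502) (nat_lit 5) (nat_lit 503) (nat_lit 5) (nat_lit 602) (nat_lit 588) (nat_lit 370)))))) (XT.nd (nat_lit 546) (nat_lit 3496) (nat_lit 0) (XT.nd (nat_lit 234) (nat_lit 0) (nat_lit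 152) (XT.nd (nat_lit 78) (nat_lit 0) (nat_lit 76) (XT.lf (nat_lit 0) (nat_lit 3391923026) (nat_lit 1824) (nat_lit 946907870) (nat_lit 1900) (nat_lit 13978715839) (nat_lit 478) (nat_lit 5) (nat_lit 502) (nat_lit 5) (nat_lit 503) (nat_lit 5) (nat_lit 603) (nat_lit 588) (nat_lit 369)) (XT.nd (nat_lit 78) (nat_lit 0) (nat_lit 0) (XT.lf (nat_lit 0) (nat_lit 4552771854) (nat_lit 1824) (nat_lit 9760435970) (nat_lit 1900) (nat_lit 4192069920) (nat_lit 479) (nat_lit 5) (nat_lit 503) (nat_lit 5) (nat_lit 504) (nat_lit 5) (nat_lit 604) (nat_lit 588) (nat_lit 368)) (XT.lf (nat_lit 0) (nat_lit 5766640881) (nat_lit 1824) (nat_lit 86133627) (nat_lit 1900) (nat_lit 12843393121) (nat_lit 479) (nat_lit 5) (nat_lit 503) (nat_lit 5) (nat_lit 504) (nat_lit 5) (nat_lit 605) (nat_lit 588) (nat_lit 367)))) (XT.nd (nat_lit 156) (nat_lit 0) (nat_lit 76) (XT.nd (nat_lit 78) (nat_lit 0) (nat_lit 0) (XT.lf (nat_lit 0) (nat_lit 7082355779) (nat_lit 1824) (nat_lit 9000466622) (nat_lit 1900) (nat_lit 2806501853) (nat_lit 480) (nat_lit 5) (nat_lit 504) (nat_lit 5) (nat_lit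 505) (nat_lit 5) (nat_lit 606) (nat_lit 588) (nat_lit 366)) (XT.lf (nat_lit 76) (nat_lit 947860349) (nat_lit 0) (nat_lit 7516883489) (nat_lit 1900) (nat_lit 10620793302) (nat_lit 481) (nat_lit 5) (nat_lit 480) (nat_lit 5) (nat_lit 505) (nat_lit 5) (nat_lit 607) (nat_lit 588) (nat_lit 365))) (XT.nd (nat_lit 78) (nat_lit 0) (nat_lit 0) (XT.lf (nat_lit 0) (nat_lit 9938445905) (nat_lit 1824) (nat_lit 8079705568) (nat_lit 1900) (nat_lit 1266249787) (nat_lit 481) (nat_lit 5) (nat_lit 505) (nat_lit 5) (nat_lit 506) (nat_lit 5) (nat_lit 608) (nat_lit 588) (nat_lit 364)) (XT.lf (nat_lit 76) (nat_lit 2153899716) (nat_lit 0) (nat_lit 9346531561) (nat_lit 1900) (nat_lit 7985635496) (nat_lit 482) (nat_lit 5) (nat_lit 481) (nat_lit 5) (nat_lit 506) (nat_lit 5) (nat_lit 609) (nat_lit 588) (nat_lit 363))))) (XT.nd (nat_lit 312) (nat_lit 2052) (nat_lit 0) (XT.nd (nat_lit 156) (nat_lit 1672) (nat_lit 0) (XT.nd (nat_lit 78) (nat_lit 0) (nat_lit 76) (XT.lf (nat_lit 76) (nat_lit 12697732454) (nat_lit 0) (nat_lit 445258430) (nat_lit 1900) (nat_lit 6547788310)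 (nat_lit 482) (nat_lit 5) (nat_lit 481) (nat_lit 5) (nat_lit 506) (nat_lit 5) (nat_lit 610) (nat_lit 588) (nat_lit 362)) (XT.lf (nat_lit 76) (nat_lit 3539224333) (nat_lit 0) (nat_lit 11353431324) (nat_lit 1900) (nat_lit 5005445410) (nat_lit 483) (nat_lit 5) (nat_lit 482) (nat_lit 5) (nat_lit 507) (nat_lit 5) (nat_lit 611) (nat_lit 588) (nat_lit 361))) (XT.nd (nat_lit 78) (nat_lit 1748) (nat_lit 0) (XT.lf (nat_lit 76) (nat_lit 14369980461) (nat_lit 0) (nat_lit 2352474726) (nat_lit 1900) (nat_lit 3386211639) (nat_lit 483) (nat_lit 5) (nat_lit 482) (nat_lit 5) (nat_lit 507) (nat_lit 5) (nat_lit 612) (nat_lit 588) (nat_lit 360)) (XT.lf (nat_lit 0) (nat_lit 5112641071) (nat_lit 1824) (nat_lit 13549121778) (nat_lit 1900) (nat_lit 1660223081) (nat_lit 459) (nat_lit 5) (nat_lit 483) (nat_lit 5) (nat_lit 484) (nat_lit 5) (nat_lit 613) (nat_lit 588) (nat_lit 359)))) (XT.nd (nat_lit 156) (nat_lit 912) (nat_lit 0) (XT.nd (nat_lit 78) (nat_lit 1064) (nat_lit 0) (XT.lf (nat_lit 0) (nat_lit 148730681) (nat_lit 1900) (nat_lit 4300521958) (nat_lit 76) (nat_lit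 16089310803) (nat_lit 458) (nat_lit 5) (nat_lit 483) (nat_lit 5) (nat_lit 459) (nat_lit 5) (nat_lit 614) (nat_lit 588) (nat_lit 358)) (XT.lf (nat_lit 0) (nat_lit 2043723016) (nat_lit 1140) (nat_lit 13888132758) (nat_lit 76) (nat_lit 4825955707) (nat_lit 444) (nat_lit 5) (nat_lit 459) (nat_lit 5) (nat_lit 445) (nat_lit 5) (nat_lit 615) (nat_lit 588) (nat_lit 357))) (XT.nd (nat_lit 78) (nat_lit 912) (nat_lit 0) (XT.lf (nat_lit 0) (nat_lit 4030702987) (nat_lit 1140) (nat_lit 2692952757) (nat_lit 76) (nat_lit 14256707233) (nat_lit 444) (nat_lit 5) (nat_lit 459) (nat_lit 5) (nat_lit 445) (nat_lit 5) (nat_lit 616) (nat_lit 588) (nat_lit 356)) (XT.lf (nat_lit 0) (nat_lit 6128174651) (nat_lit 988) (nat_lit 12385898937) (nat_lit 76) (nat_lit 2691877119) (nat_lit 432) (nat_lit 5) (nat_lit 445) (nat_lit 5) (nat_lit 433) (nat_lit 5) (nat_lit 617) (nat_lit 588) (nat_lit 355))))))))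
noncomputable def xc96 : XT := (XT.nd (nat_lit 2262) (nat_lit 3268) (nat_lit 0) (XT.nd (nat_lit 1092) (nat_lit 5472) (nat_lit 0) (XT.nd (nat_lit 546) (nat_lit 3040) (nat_lit 0) (XT.nd (nat_lit 234) (nat_lit 1748) (nat_lit 0) (XT.nd (nat_lit 78) (nat_lit 1748) (nat_lit 0) (XT.lf (nat_lit 0) (nat_lit 8326035765) (nat_lit 988) (nat_lit 884506999) (nat_lit 76) (nat_lit 12224338869) (nat_lit 432) (nat_lit 5) (nat_lit 445) (nat_lit 5) (nat_lit 433) (nat_lit 5) (nat_lit 618) (nat_lit 588) (nat_lit 354)) (XT.nd (nat_lit 78) (nat_lit 836) (nat_lit 0) (XT.lf (nat_lit 0) (nat_lit 10637281290) (nat_lit 988) (nat_lit 10682236982) (nat_lit 76) (nat_lit 347484600) (nat_lit 420) (nat_lit 5) (nat_lit 433) (nat_lit 5) (nat_lit 421) (nat_lit 5) (nat_lit 619) (nat_lit 588) (nat_lit 353)) (XT.lf (nat_lit 0) (nat_lit 1149838486) (nat_lit 836) (nat_lit 11915214748) (nat_lit 912) (nat_lit 8837307502) (nat_lit 409) (nat_lit 5) (nat_lit 420) (nat_lit 5) (nat_lit 421) (nat_lit 5) (nat_lit 620) (nat_lit 588) (nat_lit 352)))) (XT.nd (nat_lit 156) (nat_lit 912) (nat_lit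 0) (XT.nd (nat_lit 78) (nat_lit 836) (nat_lit 0) (XT.lf (nat_lit 0) (nat_lit 13359410419) (nat_lit 836) (nat_lit 2249573318) (nat_lit 912) (nat_lit 6532090187) (nat_lit 409) (nat_lit 5) (nat_lit 420) (nat_lit 5) (nat_lit 421) (nat_lit 5) (nat_lit 621) (nat_lit 588) (nat_lit 351)) (XT.lf (nat_lit 0) (nat_lit 3420113364) (nat_lit 836) (nat_lit 14851290829) (nat_lit 912) (nat_lit 4111805180) (nat_lit 398) (nat_lit 5) (nat_lit 409) (nat_lit 5) (nat_lit 410) (nat_lit 5) (nat_lit 622) (nat_lit 588) (nat_lit 350))) (XT.nd (nat_lit 78) (nat_lit 912) (nat_lit 0) (XT.lf (nat_lit 0) (nat_lit 15965944391) (nat_lit 836) (nat_lit 5090911572) (nat_lit 912) (nat_lit 1571936128) (nat_lit 398) (nat_lit 5) (nat_lit 409) (nat_lit 5) (nat_lit 410) (nat_lit 5) (nat_lit 623) (nat_lit 588) (nat_lit 349)) (XT.lf (nat_lit 0) (nat_lit 1071996328) (nat_lit 912) (nat_lit 16959403303) (nat_lit 76) (nat_lit 4846422220) (nat_lit 386) (nat_lit 5) (nat_lit 398) (nat_lit 5) (nat_lit 387) (nat_lit 5) (nat_lit 624) (nat_lit 588) (nat_lit 348))))) (XT.nd (nat_lit 234) (nat_lit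 2204) (nat_lit 0) (XT.nd (nat_lit 78) (nat_lit 836) (nat_lit 0) (XT.lf (nat_lit 0) (nat_lit 3822656930) (nat_lit 912) (nat_lit 4337681736) (nat_lit 76) (nat_lit 14969787982) (nat_lit 386) (nat_lit 5) (nat_lit 398) (nat_lit 5) (nat_lit 387) (nat_lit 5) (nat_lit 625) (nat_lit 588) (nat_lit 347)) (XT.nd (nat_lit 78) (nat_lit 0) (nat_lit 0) (XT.lf (nat_lit 0) (nat_lit 6693457759) (nat_lit 912) (nat_lit 14753194539) (nat_lit 76) (nat_lit 1939522907) (nat_lit 375) (nat_lit 5) (nat_lit 387) (nat_lit 5) (nat_lit 376) (nat_lit 5) (nat_lit 626) (nat_lit 588) (nat_lit 346)) (XT.lf (nat_lit 0) (nat_lit 9701297026) (nat_lit 912) (nat_lit 1783063040) (nat_lit 76) (nat_lit 12161392416) (nat_lit 375) (nat_lit 5) (nat_lit 387) (nat_lit 5) (nat_lit 376) (nat_lit 5) (nat_lit 627) (nat_lit 588) (nat_lit 345)))) (XT.nd (nat_lit 156) (nat_lit 684) (nat_lit 0) (XT.nd (nat_lit 78) (nat_lit 760) (nat_lit 0) (XT.lf (nat_lit 0) (nat_lit 11594694000) (nat_lit 760) (nat_lit 1246232019) (nat_lit 836) (nat_lit 11068162820) (nat_lit 365) (nat_lit 5) (nat_lit 375) (nat_lit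 5) (nat_lit 376) (nat_lit 5) (nat_lit 628) (nat_lit 588) (nat_lit 344)) (XT.lf (nat_lit 0) (nat_lit 1036640029) (nat_lit 760) (nat_lit 15081591272) (nat_lit 836) (nat_lit 8057963140) (nat_lit 355) (nat_lit 5) (nat_lit 365) (nat_lit 5) (nat_lit 366) (nat_lit 5) (nat_lit 629) (nat_lit 588) (nat_lit 343))) (XT.nd (nat_lit 78) (nat_lit 684) (nat_lit 0) (XT.lf (nat_lit 0) (nat_lit 14809394078) (nat_lit 760) (nat_lit 4738966936) (nat_lit 836) (nat_lit 4898535760) (nat_lit 355) (nat_lit 5) (nat_lit 365) (nat_lit 5) (nat_lit 366) (nat_lit 5) (nat_lit 630) (nat_lit 588) (nat_lit 342)) (XT.lf (nat_lit 0) (nat_lit 4147402579) (nat_lit 684) (nat_lit 18960855262) (nat_lit 760) (nat_lit 1613532208) (nat_lit 346) (nat_lit 5) (nat_lit 355) (nat_lit 5) (nat_lit 356) (nat_lit 5) (nat_lit 631) (nat_lit 588) (nat_lit 341)))))) (XT.nd (nat_lit 546) (nat_lit 2660) (nat_lit 0) (XT.nd (nat_lit 234) (nat_lit 1976) (nat_lit 0) (XT.nd (nat_lit 78) (nat_lit 760) (nat_lit 0) (XT.lf (nat_lit 0) (nat_lit 1807404689) (nat_lit 760) (nat_lit 6709210561) (nat_lit 76) (nat_lit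 16483480204) (nat_lit 345) (nat_lit 5) (nat_lit 355) (nat_lit 5) (nat_lit 346) (nat_lit 5) (nat_lit 632) (nat_lit 588) (nat_lit 340)) (XT.nd (nat_lit 78) (nat_lit 0) (nat_lit 0) (XT.lf (nat_lit 0) (nat_lit 5334845843) (nat_lit 836) (nat_lit 17779732952) (nat_lit 76) (nat_lit 2167981223) (nat_lit 335) (nat_lit 5) (nat_lit 346) (nat_lit 5) (nat_lit 336) (nat_lit 5) (nat_lit 633) (nat_lit 588) (nat_lit 339)) (XT.lf (nat_lit 0) (nat_lit 9031196886) (nat_lit 836) (nat_lit 3540262678) (nat_lit 76) (nat_lit 12997247257) (nat_lit 335) (nat_lit 5) (nat_lit 346) (nat_lit 5) (nat_lit 336) (nat_lit 5) (nat_lit 634) (nat_lit 588) (nat_lit 338)))) (XT.nd (nat_lit 156) (nat_lit 1292) (nat_lit 0) (XT.nd (nat_lit 78) (nat_lit 0) (nat_lit 0) (XT.lf (nat_lit 0) (nat_lit 11126153577) (nat_lit 684) (nat_lit 1744264786) (nat_lit 760) (nat_lit 12988779494) (nat_lit 326) (nat_lit 5) (nat_lit 335) (nat_lit 5) (nat_lit 336) (nat_lit 5) (nat_lit 635) (nat_lit 588) (nat_lit 337)) (XT.lf (nat_lit 0) (nat_lit 16867459196) (nat_lit 760) (nat_lit 85474171) (nat_lit 76)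 (nat_lit 9200944812) (nat_lit 326) (nat_lit 5) (nat_lit 336) (nat_lit 5) (nat_lit 327) (nat_lit 5) (nat_lit 636) (nat_lit 588) (nat_lit 336))) (XT.nd (nat_lit 78) (nat_lit 608) (nat_lit 0) (XT.lf (nat_lit 0) (nat_lit 15036980919) (nat_lit 684) (nat_lit 6013447496) (nat_lit 760) (nat_lit 5401904099) (nat_lit 317) (nat_lit 5) (nat_lit 326) (nat_lit 5) (nat_lit 327) (nat_lit 5) (nat_lit 637) (nat_lit 588) (nat_lit 335)) (XT.lf (nat_lit 0) (nat_lit 3717889737) (nat_lit 608) (nat_lit 21654128419) (nat_lit 684) (nat_lit 1383638715) (nat_lit 309) (nat_lit 5) (nat_lit 317) (nat_lit 5) (nat_lit 318) (nat_lit 5) (nat_lit 638) (nat_lit 588) (nat_lit 334))))) (XT.nd (nat_lit 312) (nat_lit 1292) (nat_lit 0) (XT.nd (nat_lit 156) (nat_lit 608) (nat_lit 0) (XT.nd (nat_lit 78) (nat_lit 684) (nat_lit 0) (XT.lf (nat_lit 0) (nat_lit 2793176812) (nat_lit 684) (nat_lit 7816720691) (nat_lit 76) (nat_lit 16452521963) (nat_lit 308) (nat_lit 5) (nat_lit 317) (nat_lit 5) (nat_lit 309) (nat_lit 5) (nat_lit 639) (nat_lit 588) (nat_lit 333)) (XT.lf (nat_lit 0) (nat_lit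 7087215429) (nat_lit 760) (nat_lit 19580677474) (nat_lit 76) (nat_lit 706197366) (nat_lit 299) (nat_lit 5) (nat_lit 309) (nat_lit 5) (nat_lit 300) (nat_lit 5) (nat_lit 640) (nat_lit 588) (nat_lit 332))) (XT.nd (nat_lit 78) (nat_lit 608) (nat_lit 0) (XT.lf (nat_lit 0) (nat_lit 11587152661) (nat_lit 760) (nat_lit 3943588769) (nat_lit 76) (nat_lit 12158852845) (nat_lit 299) (nat_lit 5) (nat_lit 309) (nat_lit 5) (nat_lit 300) (nat_lit 5) (nat_lit 641) (nat_lit 588) (nat_lit 331)) (XT.lf (nat_lit 0) (nat_lit 12162084514) (nat_lit 608) (nat_lit 4090980142) (nat_lit 684) (nat_lit 11756824327) (nat_lit 291) (nat_lit 5) (nat_lit 299) (nat_lit 5) (nat_lit 300) (nat_lit 5) (nat_lit 642) (nat_lit 588) (nat_lit 330)))) (XT.nd (nat_lit 156) (nat_lit 684) (nat_lit 0) (XT.nd (nat_lit 78) (nat_lit 0) (nat_lit 0) (XT.lf (nat_lit 0) (nat_lit 257575828) (nat_lit 608) (nat_lit 20829271066) (nat_lit 684) (nat_lit 7248251789) (nat_lit 283) (nat_lit 5) (nat_lit 291) (nat_lit 5) (nat_lit 292) (nat_lit 5) (nat_lit 643) (nat_lit 588) (nat_lit 329)) (XT.lf (nat_lit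 0) (nat_lit 16868760826) (nat_lit 608) (nat_lit 9278881750) (nat_lit 684) (nat_lit 2516563382) (nat_lit 283) (nat_lit 5) (nat_lit 291) (nat_lit 5) (nat_lit 292) (nat_lit 5) (nat_lit 644) (nat_lit 588) (nat_lit 328))) (XT.nd (nat_lit 78) (nat_lit 0) (nat_lit 0) (XT.lf (nat_lit 0) (nat_lit 2324668826) (nat_lit 684) (nat_lit 24158229137) (nat_lit 76) (nat_lit 2515793558) (nat_lit 274) (nat_lit 5) (nat_lit 283) (nat_lit 5) (nat_lit 275) (nat_lit 5) (nat_lit 645) (nat_lit 588) (nat_lit 327)) (XT.lf (nat_lit 0) (nat_lit 7367330510) (nat_lit 684) (nat_lit 7451611253) (nat_lit 76) (nat_lit 14517826438) (nat_lit 274) (nat_lit 5) (nat_lit 283) (nat_lit 5) (nat_lit 275) (nat_lit 5) (nat_lit 646) (nat_lit 588) (nat_lit 326))))))) (XT.nd (nat_lit 77766) (nat_lit 0) (nat_lit 16188) (XT.nd (nat_lit 546) (nat_lit 988) (nat_lit 0) (XT.nd (nat_lit 234) (nat_lit 1140) (nat_lit 0) (XT.nd (nat_lit 78) (nat_lit 532) (nat_lit 0) (XT.lf (nat_lit 0) (nat_lit 9712931498) (nat_lit 608) (nat_lit 2858175475) (nat_lit 684) (nat_lit 17109294338) (nat_lit 266) (nat_lit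 5) (nat_lit 274) (nat_lit 5) (nat_lit 275) (nat_lit 5) (nat_lit 647) (nat_lit 588) (nat_lit 325)) (XT.nd (nat_lit 78) (nat_lit 532) (nat_lit 0) (XT.lf (nat_lit 0) (nat_lit 17987172847) (nat_lit 684) (nat_lit 2772738695) (nat_lit 76) (nat_lit 9268831385) (nat_lit 266) (nat_lit 5) (nat_lit 275) (nat_lit 5) (nat_lit 267) (nat_lit 5) (nat_lit 648) (nat_lit 588) (nat_lit 324)) (XT.lf (nat_lit 0) (nat_lit 14939340875) (nat_lit 532) (nat_lit 8685423286) (nat_lit 608) (nat_lit 6757023253) (nat_lit 259) (nat_lit 5) (nat_lit 266) (nat_lit 5) (nat_lit 267) (nat_lit 5) (nat_lit 649) (nat_lit 588) (nat_lit 323)))) (XT.nd (nat_lit 156) (nat_lit 532) (nat_lit 0) (XT.nd (nat_lit 78) (nat_lit 76) (nat_lit 0) (XT.lf (nat_lit 0) (nat_lit 2304682587) (nat_lit 532) (nat_lit 27124994679) (nat_lit 608) (nat_lit 1311124245) (nat_lit 252) (nat_lit 5) (nat_lit 259) (nat_lit 5) (nat_lit 260) (nat_lit 5) (nat_lit 650) (nat_lit 588) (nat_lit 322)) (XT.lf (nat_lit 0) (nat_lit 4347185253) (nat_lit 608) (nat_lit 10578188504) (nat_lit 76) (nat_lit 16177888203) (nat_lit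 251) (nat_lit 5) (nat_lit 259) (nat_lit 5) (nat_lit 252) (nat_lit 5) (nat_lit 651) (nat_lit 588) (nat_lit 321))) (XT.nd (nat_lit 78) (nat_lit 0) (nat_lit 0) (XT.lf (nat_lit 0) (nat_lit 7726028803) (nat_lit 532) (nat_lit 2422624444) (nat_lit 608) (nat_lit 21323194188) (nat_lit 244) (nat_lit 5) (nat_lit 251) (nat_lit 5) (nat_lit 252) (nat_lit 5) (nat_lit 652) (nat_lit 588) (nat_lit 320)) (XT.lf (nat_lit 0) (nat_lit 16202068742) (nat_lit 608) (nat_lit 5377745059) (nat_lit 76) (nat_lit 10265272564) (nat_lit 244) (nat_lit 5) (nat_lit 252) (nat_lit 5) (nat_lit 245) (nat_lit 5) (nat_lit 653) (nat_lit 588) (nat_lit 319))))) (XT.nd (nat_lit 76908) (nat_lit 0) (nat_lit 18696) (XT.nd (nat_lit 76752) (nat_lit 0) (nat_lit 20368) (XT.nd (nat_lit 78) (nat_lit 456) (nat_lit 0) (XT.lf (nat_lit 0) (nat_lit 13515432608) (nat_lit 532) (nat_lit 8962358537) (nat_lit 608) (nat_lit 9745974263) (nat_lit 237) (nat_lit 5) (nat_lit 244) (nat_lit 5) (nat_lit 245) (nat_lit 5) (nat_lit 654) (nat_lit 588) (nat_lit 318)) (XT.lf (nat_lit 0) (nat_lit 223909477) (nat_lit 456)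 (nat_lit 28715733856) (nat_lit 532) (nat_lit 3669162499) (nat_lit 231) (nat_lit 5) (nat_lit 237) (nat_lit 5) (nat_lit 238) (nat_lit 5) (nat_lit 655) (nat_lit 588) (nat_lit 317))) (XT.nd (nat_lit 78) (nat_lit 0) (nat_lit 0) (XT.lf (nat_lit 76) (nat_lit 6114007387) (nat_lit 0) (nat_lit 9011974647) (nat_lit 1824) (nat_lit 2279224352) (nat_lit 500) (nat_lit 5) (nat_lit 499) (nat_lit 5) (nat_lit 523) (nat_lit 5) (nat_lit 597) (nat_lit 589) (nat_lit 374)) (XT.lf (nat_lit 76) (nat_lit 15162321142) (nat_lit 0) (nat_lit 801576829) (nat_lit 1824) (nat_lit 1615610412) (nat_lit 500) (nat_lit 5) (nat_lit 499) (nat_lit 5) (nat_lit 523) (nat_lit 5) (nat_lit 598) (nat_lit 589) (nat_lit 373)))) (XT.nd (nat_lit 156) (nat_lit 1748) (nat_lit 0) (XT.nd (nat_lit 78) (nat_lit 0) (nat_lit 0) (XT.lf (nat_lit 76) (nat_lit 6668877947) (nat_lit 0) (nat_lit 10236388517) (nat_lit 1824) (nat_lit 850296428) (nat_lit 501) (nat_lit 5) (nat_lit 500) (nat_lit 5) (nat_lit 524) (nat_lit 5) (nat_lit 599) (nat_lit 589) (nat_lit 372)) (XT.lf (nat_lit 76) (nat_lit 15960354318) (nat_lit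 0) (nat_lit 1920917681) (nat_lit 1824) (nat_lit 53550654) (nat_lit 501) (nat_lit 5) (nat_lit 500) (nat_lit 5) (nat_lit 524) (nat_lit 5) (nat_lit 600) (nat_lit 589) (nat_lit 371))) (XT.nd (nat_lit 78) (nat_lit 0) (nat_lit 0) (XT.lf (nat_lit 0) (nat_lit 834625815) (nat_lit 1824) (nat_lit 10751151744) (nat_lit 1900) (nat_lit 6530082773) (nat_lit 477) (nat_lit 5) (nat_lit 501) (nat_lit 5) (nat_lit 502) (nat_lit 5) (nat_lit 601) (nat_lit 589) (nat_lit 370)) (XT.lf (nat_lit 0) (nat_lit 1760396122) (nat_lit 1824) (nat_lit 1399781603) (nat_lit 1900) (nat_lit 15139923345) (nat_lit 477) (nat_lit 5) (nat_lit 501) (nat_lit 5) (nat_lit 502) (nat_lit 5) (nat_lit 602) (nat_lit 589) (nat_lit 369)))))) (XT.nd (nat_lit 546) (nat_lit 2584) (nat_lit 0) (XT.nd (nat_lit 234) (nat_lit 0) (nat_lit 76) (XT.nd (nat_lit 78) (nat_lit 0) (nat_lit 0) (XT.lf (nat_lit 0) (nat_lit 2788442901) (nat_lit 1824) (nat_lit 10279709476) (nat_lit 1900) (nat_lit 5418199351) (nat_lit 478) (nat_lit 5) (nat_lit 502) (nat_lit 5) (nat_lit 503) (nat_lit 5) (nat_lit 603) (nat_lit 589) (nat_lit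 368)) (XT.nd (nat_lit 78) (nat_lit 0) (nat_lit 76) (XT.lf (nat_lit 0) (nat_lit 3862122894) (nat_lit 1824) (nat_lit 676777043) (nat_lit 1900) (nat_lit 14136926335) (nat_lit 478) (nat_lit 5) (nat_lit 502) (nat_lit 5) (nat_lit 503) (nat_lit 5) (nat_lit 604) (nat_lit 589) (nat_lit 367)) (XT.lf (nat_lit 0) (nat_lit 5039454941) (nat_lit 1824) (nat_lit 9659818252) (nat_lit 1900) (nat_lit 4168173858) (nat_lit 479) (nat_lit 5) (nat_lit 503) (nat_lit 5) (nat_lit 504) (nat_lit 5) (nat_lit 605) (nat_lit 589) (nat_lit 366)))) (XT.nd (nat_lit 156) (nat_lit 0) (nat_lit 76) (XT.nd (nat_lit 78) (nat_lit 0) (nat_lit 76) (XT.lf (nat_lit 76) (nat_lit 204856347) (nat_lit 0) (nat_lit 6066317659) (nat_lit 1900) (nat_lit 12791109739) (nat_lit 480) (nat_lit 5) (nat_lit 479) (nat_lit 5) (nat_lit 504) (nat_lit 5) (nat_lit 606) (nat_lit 589) (nat_lit 365)) (XT.lf (nat_lit 0) (nat_lit 7605528067) (nat_lit 1824) (nat_lit 8884082188) (nat_lit 1900) (nat_lit 2769847205) (nat_lit 480) (nat_lit 5) (nat_lit 504) (nat_lit 5) (nat_lit 505) (nat_lit 5) (nat_lit 607) (nat_lit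 589) (nat_lit 364))) (XT.nd (nat_lit 78) (nat_lit 0) (nat_lit 76) (XT.lf (nat_lit 76) (nat_lit 1261261363) (nat_lit 0) (nat_lit 7748733362) (nat_lit 1900) (nat_lit 10449711709) (nat_lit 481) (nat_lit 5) (nat_lit 480) (nat_lit 5) (nat_lit 505) (nat_lit 5) (nat_lit 608) (nat_lit 589) (nat_lit 363)) (XT.lf (nat_lit 0) (nat_lit 10505280294) (nat_lit 1824) (nat_lit 7944716849) (nat_lit 1900) (nat_lit 1212708943) (nat_lit 481) (nat_lit 5) (nat_lit 505) (nat_lit 5) (nat_lit 506) (nat_lit 5) (nat_lit 609) (nat_lit 589) (nat_lit 362))))) (XT.nd (nat_lit 312) (nat_lit 2812) (nat_lit 0) (XT.nd (nat_lit 156) (nat_lit 0) (nat_lit 76) (XT.nd (nat_lit 78) (nat_lit 0) (nat_lit 0) (XT.lf (nat_lit 76) (nat_lit 2491609338) (nat_lit 0) (nat_lit 9601592009) (nat_lit 1900) (nat_lit 7775310071) (nat_lit 482) (nat_lit 5) (nat_lit 481) (nat_lit 5) (nat_lit 506) (nat_lit 5) (nat_lit 610) (nat_lit 589) (nat_lit 361)) (XT.lf (nat_lit 76) (nat_lit 13240541640) (nat_lit 0) (nat_lit 520957536) (nat_lit 1900) (nat_lit 6315961591) (nat_lit 482) (nat_lit 5) (nat_lit 481)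 (nat_lit 5) (nat_lit 506) (nat_lit 5) (nat_lit 611) (nat_lit 589) (nat_lit 360))) (XT.nd (nat_lit 78) (nat_lit 0) (nat_lit 0) (XT.lf (nat_lit 76) (nat_lit 3904480892) (nat_lit 0) (nat_lit 11636189595) (nat_lit 1900) (nat_lit 4748368739) (nat_lit 483) (nat_lit 5) (nat_lit 482) (nat_lit 5) (nat_lit 507) (nat_lit 5) (nat_lit 612) (nat_lit 589) (nat_lit 359)) (XT.lf (nat_lit 76) (nat_lit 14946078179) (nat_lit 0) (nat_lit 2454121911) (nat_lit 1900) (nat_lit 3103753932) (nat_lit 483) (nat_lit 5) (nat_lit 482) (nat_lit 5) (nat_lit 507) (nat_lit 5) (nat_lit 613) (nat_lit 589) (nat_lit 358)))) (XT.nd (nat_lit 156) (nat_lit 1064) (nat_lit 0) (XT.nd (nat_lit 78) (nat_lit 76) (nat_lit 0) (XT.lf (nat_lit 0) (nat_lit 5508885660) (nat_lit 1824) (nat_lit 13864238212) (nat_lit 1900) (nat_lit 1348519435) (nat_lit 459) (nat_lit 5) (nat_lit 483) (nat_lit 5) (nat_lit 484) (nat_lit 5) (nat_lit 614) (nat_lit 589) (nat_lit 357)) (XT.lf (nat_lit 0) (nat_lit 485415664) (nat_lit 1900) (nat_lit 4093851281) (nat_lit 76) (nat_lit 16363374501) (nat_lit 458) (nat_lit 5)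 (nat_lit 483) (nat_lit 5) (nat_lit 459) (nat_lit 5) (nat_lit 615) (nat_lit 589) (nat_lit 356))) (XT.nd (nat_lit 78) (nat_lit 0) (nat_lit 0) (XT.lf (nat_lit 0) (nat_lit 2413403619) (nat_lit 1140) (nat_lit 13868291387) (nat_lit 76) (nat_lit 4884677898) (nat_lit 444) (nat_lit 5) (nat_lit 459) (nat_lit 5) (nat_lit 445) (nat_lit 5) (nat_lit 616) (nat_lit 589) (nat_lit 355)) (XT.lf (nat_lit 0) (nat_lit 4433676010) (nat_lit 1140) (nat_lit 2455043159) (nat_lit 76) (nat_lit 14504785570) (nat_lit 444) (nat_lit 5) (nat_lit 459) (nat_lit 5) (nat_lit 445) (nat_lit 5) (nat_lit 617) (nat_lit 589) (nat_lit 354))))))))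
noncomputable def xc97 : XT := (XT.nd (nat_lit 2340) (nat_lit 2812) (nat_lit 0) (XT.nd (nat_lit 1170) (nat_lit 5472) (nat_lit 0) (XT.nd (nat_lit 546) (nat_lit 3952) (nat_lit 0) (XT.nd (nat_lit 234) (nat_lit 1672) (nat_lit 0) (XT.nd (nat_lit 78) (nat_lit 912) (nat_lit 0) (XT.lf (nat_lit 0) (nat_lit 6568475980) (nat_lit 988) (nat_lit 12337209179) (nat_lit 76) (nat_lit 2718011847) (nat_lit 432) (nat_lit 5) (nat_lit 445) (nat_lit 5) (nat_lit 433) (nat_lit 5) (nat_lit 618) (nat_lit 589) (nat_lit 353)) (XT.nd (nat_lit 78) (nat_lit 912) (nat_lit 0) (XT.lf (nat_lit 0) (nat_lit 8804064164) (nat_lit 988) (nat_lit 611601318) (nat_lit 76) (nat_lit 12441666025) (nat_lit 432) (nat_lit 5) (nat_lit 445) (nat_lit 5) (nat_lit 433) (nat_lit 5) (nat_lit 619) (nat_lit 589) (nat_lit 352)) (XT.lf (nat_lit 0) (nat_lit 11157180234) (nat_lit 988) (nat_lit 10600914275) (nat_lit 76) (nat_lit 336088092) (nat_lit 420) (nat_lit 5) (nat_lit 433) (nat_lit 5) (nat_lit 421) (nat_lit 5) (nat_lit 620) (nat_lit 589) (nat_lit 351)))) (XT.nd (nat_lit 156) (nat_lit 836) (nat_lit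 0) (XT.nd (nat_lit 78) (nat_lit 0) (nat_lit 0) (XT.lf (nat_lit 0) (nat_lit 1465862127) (nat_lit 836) (nat_lit 12163525402) (nat_lit 912) (nat_lit 8704942836) (nat_lit 409) (nat_lit 5) (nat_lit 420) (nat_lit 5) (nat_lit 421) (nat_lit 5) (nat_lit 621) (nat_lit 589) (nat_lit 350)) (XT.lf (nat_lit 0) (nat_lit 13913879873) (nat_lit 836) (nat_lit 2304374940) (nat_lit 912) (nat_lit 6359682171) (nat_lit 409) (nat_lit 5) (nat_lit 420) (nat_lit 5) (nat_lit 421) (nat_lit 5) (nat_lit 622) (nat_lit 589) (nat_lit 349))) (XT.nd (nat_lit 78) (nat_lit 0) (nat_lit 0) (XT.lf (nat_lit 0) (nat_lit 3779889362) (nat_lit 836) (nat_lit 15150038341) (nat_lit 912) (nat_lit 3895067684) (nat_lit 398) (nat_lit 5) (nat_lit 409) (nat_lit 5) (nat_lit 410) (nat_lit 5) (nat_lit 623) (nat_lit 589) (nat_lit 348)) (XT.lf (nat_lit 0) (nat_lit 16570923799) (nat_lit 836) (nat_lit 5194417740) (nat_lit 912) (nat_lit 1310263478) (nat_lit 398) (nat_lit 5) (nat_lit 409) (nat_lit 5) (nat_lit 410) (nat_lit 5) (nat_lit 624) (nat_lit 589) (nat_lit 347))))) (XT.nd (nat_lit 312) (nat_lit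 2204) (nat_lit 0) (XT.nd (nat_lit 156) (nat_lit 836) (nat_lit 0) (XT.nd (nat_lit 78) (nat_lit 0) (nat_lit 0) (XT.lf (nat_lit 0) (nat_lit 1378912883) (nat_lit 912) (nat_lit 17005265145) (nat_lit 76) (nat_lit 4945475400) (nat_lit 386) (nat_lit 5) (nat_lit 398) (nat_lit 5) (nat_lit 387) (nat_lit 5) (nat_lit 625) (nat_lit 589) (nat_lit 346)) (XT.lf (nat_lit 0) (nat_lit 4178989117) (nat_lit 912) (nat_lit 4136860641) (nat_lit 76) (nat_lit 15271266817) (nat_lit 386) (nat_lit 5) (nat_lit 398) (nat_lit 5) (nat_lit 387) (nat_lit 5) (nat_lit 626) (nat_lit 589) (nat_lit 345))) (XT.nd (nat_lit 78) (nat_lit 0) (nat_lit 0) (XT.lf (nat_lit 0) (nat_lit 7103634249) (nat_lit 912) (nat_lit 14757097256) (nat_lit 76) (nat_lit 1987626326) (nat_lit 375) (nat_lit 5) (nat_lit 387) (nat_lit 5) (nat_lit 376) (nat_lit 5) (nat_lit 627) (nat_lit 589) (nat_lit 344)) (XT.lf (nat_lit 0) (nat_lit 10166212510) (nat_lit 912) (nat_lit 1533272169) (nat_lit 76) (nat_lit 12413750618) (nat_lit 375) (nat_lit 5) (nat_lit 387) (nat_lit 5) (nat_lit 376) (nat_lit 5) (nat_lit 628) (nat_lit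 589) (nat_lit 343)))) (XT.nd (nat_lit 156) (nat_lit 684) (nat_lit 0) (XT.nd (nat_lit 78) (nat_lit 760) (nat_lit 0) (XT.lf (nat_lit 0) (nat_lit 12110162037) (nat_lit 760) (nat_lit 1255001638) (nat_lit 836) (nat_lit 11016744398) (nat_lit 365) (nat_lit 5) (nat_lit 375) (nat_lit 5) (nat_lit 376) (nat_lit 5) (nat_lit 629) (nat_lit 589) (nat_lit 342)) (XT.lf (nat_lit 0) (nat_lit 1344304430) (nat_lit 760) (nat_lit 15360432903) (nat_lit 836) (nat_lit 7949684286) (nat_lit 355) (nat_lit 5) (nat_lit 365) (nat_lit 5) (nat_lit 366) (nat_lit 5) (nat_lit 630) (nat_lit 589) (nat_lit 341))) (XT.nd (nat_lit 78) (nat_lit 684) (nat_lit 0) (XT.lf (nat_lit 0) (nat_lit 15386887451) (nat_lit 760) (nat_lit 4811402946) (nat_lit 836) (nat_lit 4732351460) (nat_lit 355) (nat_lit 5) (nat_lit 365) (nat_lit 5) (nat_lit 366) (nat_lit 5) (nat_lit 631) (nat_lit 589) (nat_lit 340)) (XT.lf (nat_lit 0) (nat_lit 4514820004) (nat_lit 684) (nat_lit 19311476654) (nat_lit 760) (nat_lit 1384798375) (nat_lit 346) (nat_lit 5) (nat_lit 355) (nat_lit 5) (nat_lit 356) (nat_lit 5) (nat_lit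 632) (nat_lit 589) (nat_lit 339)))))) (XT.nd (nat_lit 546) (nat_lit 2660) (nat_lit 0) (XT.nd (nat_lit 234) (nat_lit 1976) (nat_lit 0) (XT.nd (nat_lit 78) (nat_lit 760) (nat_lit 0) (XT.lf (nat_lit 0) (nat_lit 2096083524) (nat_lit 760) (nat_lit 6561134404) (nat_lit 76) (nat_lit 16837815996) (nat_lit 345) (nat_lit 5) (nat_lit 355) (nat_lit 5) (nat_lit 346) (nat_lit 5) (nat_lit 633) (nat_lit 589) (nat_lit 338)) (XT.nd (nat_lit 78) (nat_lit 0) (nat_lit 0) (XT.lf (nat_lit 0) (nat_lit 5691143779) (nat_lit 836) (nat_lit 17850124947) (nat_lit 76) (nat_lit 2241937898) (nat_lit 335) (nat_lit 5) (nat_lit 346) (nat_lit 5) (nat_lit 336) (nat_lit 5) (nat_lit 634) (nat_lit 589) (nat_lit 337)) (XT.lf (nat_lit 0) (nat_lit 9456527705) (nat_lit 836) (nat_lit 3331457477) (nat_lit 76) (nat_lit 13287189310) (nat_lit 335) (nat_lit 5) (nat_lit 346) (nat_lit 5) (nat_lit 336) (nat_lit 5) (nat_lit 635) (nat_lit 589) (nat_lit 336)))) (XT.nd (nat_lit 156) (nat_lit 608) (nat_lit 0) (XT.nd (nat_lit 78) (nat_lit 684) (nat_lit 0) (XT.lf (nat_lit 0) (nat_lit 11626447561)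 (nat_lit 684) (nat_lit 1743091350) (nat_lit 760) (nat_lit 13001996575) (nat_lit 326) (nat_lit 5) (nat_lit 335) (nat_lit 5) (nat_lit 336) (nat_lit 5) (nat_lit 636) (nat_lit 589) (nat_lit 335)) (XT.lf (nat_lit 0) (nat_lit 192183060) (nat_lit 684) (nat_lit 17251075352) (nat_lit 760) (nat_lit 9228916481) (nat_lit 317) (nat_lit 5) (nat_lit 326) (nat_lit 5) (nat_lit 327) (nat_lit 5) (nat_lit 637) (nat_lit 589) (nat_lit 334))) (XT.nd (nat_lit 78) (nat_lit 608) (nat_lit 0) (XT.lf (nat_lit 0) (nat_lit 15612745381) (nat_lit 684) (nat_lit 6093028475) (nat_lit 760) (nat_lit 5270906956) (nat_lit 317) (nat_lit 5) (nat_lit 326) (nat_lit 5) (nat_lit 327) (nat_lit 5) (nat_lit 638) (nat_lit 589) (nat_lit 333)) (XT.lf (nat_lit 0) (nat_lit 4069868009) (nat_lit 608) (nat_lit 22041394031) (nat_lit 684) (nat_lit 1174860510) (nat_lit 309) (nat_lit 5) (nat_lit 317) (nat_lit 5) (nat_lit 318) (nat_lit 5) (nat_lit 639) (nat_lit 589) (nat_lit 332))))) (XT.nd (nat_lit 312) (nat_lit 1292) (nat_lit 0) (XT.nd (nat_lit 156) (nat_lit 608) (nat_lit 0) (XT.nd (nat_lit 78) (nat_lit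 684) (nat_lit 0) (XT.lf (nat_lit 0) (nat_lit 3077814742) (nat_lit 684) (nat_lit 7697826929) (nat_lit 76) (nat_lit 16823439749) (nat_lit 308) (nat_lit 5) (nat_lit 317) (nat_lit 5) (nat_lit 309) (nat_lit 5) (nat_lit 640) (nat_lit 589) (nat_lit 331)) (XT.lf (nat_lit 0) (nat_lit 7455331018) (nat_lit 760) (nat_lit 19694649003) (nat_lit 76) (nat_lit 767053896) (nat_lit 299) (nat_lit 5) (nat_lit 309) (nat_lit 5) (nat_lit 300) (nat_lit 5) (nat_lit 641) (nat_lit 589) (nat_lit 330))) (XT.nd (nat_lit 78) (nat_lit 608) (nat_lit 0) (XT.lf (nat_lit 0) (nat_lit 12040828343) (nat_lit 760) (nat_lit 3750262485) (nat_lit 76) (nat_lit 12447846159) (nat_lit 299) (nat_lit 5) (nat_lit 309) (nat_lit 5) (nat_lit 300) (nat_lit 5) (nat_lit 642) (nat_lit 589) (nat_lit 329)) (XT.lf (nat_lit 0) (nat_lit 12675733486) (nat_lit 608) (nat_lit 4121729134) (nat_lit 684) (nat_lit 11768227094) (nat_lit 291) (nat_lit 5) (nat_lit 299) (nat_lit 5) (nat_lit 300) (nat_lit 5) (nat_lit 643) (nat_lit 589) (nat_lit 328)))) (XT.nd (nat_lit 156) (nat_lit 684) (nat_lit 0) (XT.nd (nat_lit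 78) (nat_lit 0) (nat_lit 0) (XT.lf (nat_lit 0) (nat_lit 535394349) (nat_lit 608) (nat_lit 21190320853) (nat_lit 684) (nat_lit 7171732715) (nat_lit 283) (nat_lit 5) (nat_lit 291) (nat_lit 5) (nat_lit 292) (nat_lit 5) (nat_lit 644) (nat_lit 589) (nat_lit 327)) (XT.lf (nat_lit 0) (nat_lit 17473456635) (nat_lit 608) (nat_lit 9410012685) (nat_lit 684) (nat_lit 2349753366) (nat_lit 283) (nat_lit 5) (nat_lit 291) (nat_lit 5) (nat_lit 292) (nat_lit 5) (nat_lit 645) (nat_lit 589) (nat_lit 326))) (XT.nd (nat_lit 78) (nat_lit 0) (nat_lit 0) (XT.lf (nat_lit 0) (nat_lit 2583363709) (nat_lit 684) (nat_lit 24369114101) (nat_lit 76) (nat_lit 2621933982) (nat_lit 274) (nat_lit 5) (nat_lit 283) (nat_lit 5) (nat_lit 275) (nat_lit 5) (nat_lit 646) (nat_lit 589) (nat_lit 325)) (XT.lf (nat_lit 0) (nat_lit 7722717813) (nat_lit 684) (nat_lit 7333702676) (nat_lit 76) (nat_lit 14862912920) (nat_lit 274) (nat_lit 5) (nat_lit 283) (nat_lit 5) (nat_lit 275) (nat_lit 5) (nat_lit 647) (nat_lit 589) (nat_lit 324))))))) (XT.nd (nat_lit 77688) (nat_lit 0) (nat_lit 15732)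 (XT.nd (nat_lit 546) (nat_lit 532) (nat_lit 0) (XT.nd (nat_lit 234) (nat_lit 1140) (nat_lit 0) (XT.nd (nat_lit 78) (nat_lit 532) (nat_lit 0) (XT.lf (nat_lit 0) (nat_lit 10172374740) (nat_lit 608) (nat_lit 2855837590) (nat_lit 684) (nat_lit 17241674183) (nat_lit 266) (nat_lit 5) (nat_lit 274) (nat_lit 5) (nat_lit 275) (nat_lit 5) (nat_lit 648) (nat_lit 589) (nat_lit 323)) (XT.nd (nat_lit 78) (nat_lit 532) (nat_lit 0) (XT.lf (nat_lit 0) (nat_lit 18548945265) (nat_lit 684) (nat_lit 2564545318) (nat_lit 76) (nat_lit 9511777644) (nat_lit 266) (nat_lit 5) (nat_lit 275) (nat_lit 5) (nat_lit 267) (nat_lit 5) (nat_lit 649) (nat_lit 589) (nat_lit 322)) (XT.lf (nat_lit 0) (nat_lit 15500041316) (nat_lit 532) (nat_lit 8796986255) (nat_lit 608) (nat_lit 6688391426) (nat_lit 259) (nat_lit 5) (nat_lit 266) (nat_lit 5) (nat_lit 267) (nat_lit 5) (nat_lit 650) (nat_lit 589) (nat_lit 321)))) (XT.nd (nat_lit 156) (nat_lit 532) (nat_lit 0) (XT.nd (nat_lit 78) (nat_lit 76) (nat_lit 0) (XT.lf (nat_lit 0) (nat_lit 2614543734) (nat_lit 532) (nat_lit 27601686314)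 (nat_lit 608) (nat_lit 1135419679) (nat_lit 252) (nat_lit 5) (nat_lit 259) (nat_lit 5) (nat_lit 260) (nat_lit 5) (nat_lit 651) (nat_lit 589) (nat_lit 320)) (XT.lf (nat_lit 0) (nat_lit 4629500274) (nat_lit 608) (nat_lit 10528552013) (nat_lit 76) (nat_lit 16563359191) (nat_lit 251) (nat_lit 5) (nat_lit 259) (nat_lit 5) (nat_lit 252) (nat_lit 5) (nat_lit 652) (nat_lit 589) (nat_lit 319))) (XT.nd (nat_lit 78) (nat_lit 0) (nat_lit 0) (XT.lf (nat_lit 0) (nat_lit 8140031218) (nat_lit 532) (nat_lit 2404820328) (nat_lit 608) (nat_lit 21552560200) (nat_lit 244) (nat_lit 5) (nat_lit 251) (nat_lit 5) (nat_lit 252) (nat_lit 5) (nat_lit 653) (nat_lit 589) (nat_lit 318)) (XT.lf (nat_lit 0) (nat_lit 16715968367) (nat_lit 608) (nat_lit 5227531045) (nat_lit 76) (nat_lit 10534683542) (nat_lit 244) (nat_lit 5) (nat_lit 252) (nat_lit 5) (nat_lit 245) (nat_lit 5) (nat_lit 654) (nat_lit 589) (nat_lit 317))))) (XT.nd (nat_lit 76830) (nat_lit 0) (nat_lit 18164) (XT.nd (nat_lit 76674) (nat_lit 0) (nat_lit 19912) (XT.nd (nat_lit 76596) (nat_lit 0) (nat_lit 19836)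 (XT.lf (nat_lit 0) (nat_lit 14041814328) (nat_lit 532) (nat_lit 9073330776) (nat_lit 608) (nat_lit 9749331833) (nat_lit 237) (nat_lit 5) (nat_lit 244) (nat_lit 5) (nat_lit 245) (nat_lit 5) (nat_lit 655) (nat_lit 589) (nat_lit 316)) (XT.lf (nat_lit 76) (nat_lit 6081936875) (nat_lit 0) (nat_lit 8253285859) (nat_lit 1824) (nat_lit 3061551793) (nat_lit 499) (nat_lit 5) (nat_lit 498) (nat_lit 5) (nat_lit 522) (nat_lit 5) (nat_lit 596) (nat_lit 590) (nat_lit 374))) (XT.nd (nat_lit 78) (nat_lit 0) (nat_lit 0) (XT.lf (nat_lit 0) (nat_lit 15048381172) (nat_lit 1748) (nat_lit 2504945079) (nat_lit 1824) (nat_lit 16498963) (nat_lit 499) (nat_lit 5) (nat_lit 522) (nat_lit 5) (nat_lit 523) (nat_lit 5) (nat_lit 597) (nat_lit 590) (nat_lit 373)) (XT.lf (nat_lit 76) (nat_lit 6508301635) (nat_lit 0) (nat_lit 9358650258) (nat_lit 1824) (nat_lit 1877562399) (nat_lit 500) (nat_lit 5) (nat_lit 499) (nat_lit 5) (nat_lit 523) (nat_lit 5) (nat_lit 598) (nat_lit 590) (nat_lit 372)))) (XT.nd (nat_lit 156) (nat_lit 1748) (nat_lit 0) (XT.nd (nat_lit 78) (nat_lit 0)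 (nat_lit 76) (XT.lf (nat_lit 76) (nat_lit 15732248054) (nat_lit 0) (nat_lit 980781030) (nat_lit 1824) (nat_lit 1209445718) (nat_lit 500) (nat_lit 5) (nat_lit 499) (nat_lit 5) (nat_lit 523) (nat_lit 5) (nat_lit 599) (nat_lit 590) (nat_lit 371)) (XT.lf (nat_lit 76) (nat_lit 7076800987) (nat_lit 0) (nat_lit 10588739348) (nat_lit 1824) (nat_lit 436664284) (nat_lit 501) (nat_lit 5) (nat_lit 500) (nat_lit 5) (nat_lit 524) (nat_lit 5) (nat_lit 600) (nat_lit 590) (nat_lit 370))) (XT.nd (nat_lit 78) (nat_lit 0) (nat_lit 76) (XT.lf (nat_lit 0) (nat_lit 362751742) (nat_lit 1824) (nat_lit 1738878527) (nat_lit 1900) (nat_lit 16183537643) (nat_lit 476) (nat_lit 5) (nat_lit 500) (nat_lit 5) (nat_lit 501) (nat_lit 5) (nat_lit 601) (nat_lit 590) (nat_lit 369)) (XT.lf (nat_lit 0) (nat_lit 1260685865) (nat_lit 1824) (nat_lit 10684136090) (nat_lit 1900) (nat_lit 6525143581) (nat_lit 477) (nat_lit 5) (nat_lit 501) (nat_lit 5) (nat_lit 502) (nat_lit 5) (nat_lit 602) (nat_lit 590) (nat_lit 368)))))) (XT.nd (nat_lit 546) (nat_lit 2508) (nat_lit 0) (XT.nd (nat_lit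 234) (nat_lit 0) (nat_lit 152) (XT.nd (nat_lit 78) (nat_lit 0) (nat_lit 76) (XT.lf (nat_lit 0) (nat_lit 2196944764) (nat_lit 1824) (nat_lit 1151268716) (nat_lit 1900) (nat_lit 15309838628) (nat_lit 477) (nat_lit 5) (nat_lit 501) (nat_lit 5) (nat_lit 502) (nat_lit 5) (nat_lit 603) (nat_lit 590) (nat_lit 367)) (XT.nd (nat_lit 78) (nat_lit 0) (nat_lit 0) (XT.lf (nat_lit 0) (nat_lit 3238683727) (nat_lit 1824) (nat_lit 10201902701) (nat_lit 1900) (nat_lit 5407579200) (nat_lit 478) (nat_lit 5) (nat_lit 502) (nat_lit 5) (nat_lit 503) (nat_lit 5) (nat_lit 604) (nat_lit 590) (nat_lit 366)) (XT.lf (nat_lit 0) (nat_lit 4326102576) (nat_lit 1824) (nat_lit 412468501) (nat_lit 1900) (nat_lit 14303013745) (nat_lit 478) (nat_lit 5) (nat_lit 502) (nat_lit 5) (nat_lit 503) (nat_lit 5) (nat_lit 605) (nat_lit 590) (nat_lit 365)))) (XT.nd (nat_lit 156) (nat_lit 0) (nat_lit 76) (XT.nd (nat_lit 78) (nat_lit 0) (nat_lit 0) (XT.lf (nat_lit 0) (nat_lit 5520508985) (nat_lit 1824) (nat_lit 9568675480) (nat_lit 1900) (nat_lit 4147983452) (nat_lit 479) (nat_lit 5) (nat_lit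 503) (nat_lit 5) (nat_lit 504) (nat_lit 5) (nat_lit 606) (nat_lit 590) (nat_lit 364)) (XT.lf (nat_lit 76) (nat_lit 491421958) (nat_lit 0) (nat_lit 6279818271) (nat_lit 1900) (nat_lit 12664774007) (nat_lit 480) (nat_lit 5) (nat_lit 479) (nat_lit 5) (nat_lit 504) (nat_lit 5) (nat_lit 607) (nat_lit 590) (nat_lit 363))) (XT.nd (nat_lit 78) (nat_lit 0) (nat_lit 0) (XT.lf (nat_lit 0) (nat_lit 8124348713) (nat_lit 1824) (nat_lit 8776879397) (nat_lit 1900) (nat_lit 2736062407) (nat_lit 480) (nat_lit 5) (nat_lit 504) (nat_lit 5) (nat_lit 505) (nat_lit 5) (nat_lit 608) (nat_lit 590) (nat_lit 362)) (XT.lf (nat_lit 76) (nat_lit 1569496786) (nat_lit 0) (nat_lit 7982055015) (nat_lit 1900) (nat_lit 10290100157) (nat_lit 481) (nat_lit 5) (nat_lit 480) (nat_lit 5) (nat_lit 505) (nat_lit 5) (nat_lit 609) (nat_lit 590) (nat_lit 361))))) (XT.nd (nat_lit 312) (nat_lit 2812) (nat_lit 0) (XT.nd (nat_lit 156) (nat_lit 0) (nat_lit 0) (XT.nd (nat_lit 78) (nat_lit 0) (nat_lit 0) (XT.lf (nat_lit 0) (nat_lit 11069158939) (nat_lit 1824) (nat_lit 7818545028) (nat_lit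 1900) (nat_lit 1161159739) (nat_lit 481) (nat_lit 5) (nat_lit 505) (nat_lit 5) (nat_lit 506) (nat_lit 5) (nat_lit 610) (nat_lit 590) (nat_lit 360)) (XT.lf (nat_lit 76) (nat_lit 2824632248) (nat_lit 0) (nat_lit 9859108102) (nat_lit 1900) (nat_lit 7575147170) (nat_lit 482) (nat_lit 5) (nat_lit 481) (nat_lit 5) (nat_lit 506) (nat_lit 5) (nat_lit 611) (nat_lit 590) (nat_lit 359))) (XT.nd (nat_lit 78) (nat_lit 0) (nat_lit 76) (XT.lf (nat_lit 76) (nat_lit 13782990437) (nat_lit 0) (nat_lit 595576935) (nat_lit 1900) (nat_lit 6093585624) (nat_lit 482) (nat_lit 5) (nat_lit 481) (nat_lit 5) (nat_lit 506) (nat_lit 5) (nat_lit 612) (nat_lit 590) (nat_lit 358)) (XT.lf (nat_lit 76) (nat_lit 4265607872) (nat_lit 0) (nat_lit 11922440535) (nat_lit 1900) (nat_lit 4500020487) (nat_lit 483) (nat_lit 5) (nat_lit 482) (nat_lit 5) (nat_lit 507) (nat_lit 5) (nat_lit 613) (nat_lit 590) (nat_lit 357)))) (XT.nd (nat_lit 156) (nat_lit 1140) (nat_lit 0) (XT.nd (nat_lit 78) (nat_lit 1748) (nat_lit 0) (XT.lf (nat_lit 76) (nat_lit 15522487353) (nat_lit 0) (nat_lit 2555681945)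 (nat_lit 1900) (nat_lit 2829245063) (nat_lit 483) (nat_lit 5) (nat_lit 482) (nat_lit 5) (nat_lit 507) (nat_lit 5) (nat_lit 614) (nat_lit 590) (nat_lit 356)) (XT.lf (nat_lit 0) (nat_lit 5901639083) (nat_lit 1824) (nat_lit 14183943197) (nat_lit 1900) (nat_lit 1043974917) (nat_lit 459) (nat_lit 5) (nat_lit 483) (nat_lit 5) (nat_lit 484) (nat_lit 5) (nat_lit 615) (nat_lit 590) (nat_lit 355))) (XT.nd (nat_lit 78) (nat_lit 1064) (nat_lit 0) (XT.lf (nat_lit 0) (nat_lit 815875966) (nat_lit 1900) (nat_lit 3894412355) (nat_lit 76) (nat_lit 16644772597) (nat_lit 458) (nat_lit 5) (nat_lit 483) (nat_lit 5) (nat_lit 459) (nat_lit 5) (nat_lit 616) (nat_lit 590) (nat_lit 354)) (XT.lf (nat_lit 0) (nat_lit 2777709891) (nat_lit 1140) (nat_lit 13859609516) (nat_lit 76) (nat_lit 4946042234) (nat_lit 444) (nat_lit 5) (nat_lit 459) (nat_lit 5) (nat_lit 445) (nat_lit 5) (nat_lit 617) (nat_lit 590) (nat_lit 353))))))))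
noncomputable def xc98 : XT := (XT.nd (nat_lit 2340) (nat_lit 2280) (nat_lit 0) (XT.nd (nat_lit 1170) (nat_lit 6156) (nat_lit 0) (XT.nd (nat_lit 546) (nat_lit 3268) (nat_lit 0) (XT.nd (nat_lit 234) (nat_lit 2584) (nat_lit 0) (XT.nd (nat_lit 78) (nat_lit 912) (nat_lit 0) (XT.lf (nat_lit 0) (nat_lit 4832190902) (nat_lit 1140) (nat_lit 2223705102) (nat_lit 76) (nat_lit 14759264397) (nat_lit 444) (nat_lit 5) (nat_lit 459) (nat_lit 5) (nat_lit 445) (nat_lit 5) (nat_lit 618) (nat_lit 590) (nat_lit 352)) (XT.nd (nat_lit 78) (nat_lit 0) (nat_lit 0) (XT.lf (nat_lit 0) (nat_lit 7005245189) (nat_lit 988) (nat_lit 12299055499) (nat_lit 76) (nat_lit 2745745004) (nat_lit 432) (nat_lit 5) (nat_lit 445) (nat_lit 5) (nat_lit 433) (nat_lit 5) (nat_lit 619) (nat_lit 590) (nat_lit 351)) (XT.lf (nat_lit 0) (nat_lit 9279556907) (nat_lit 988) (nat_lit 344521713) (nat_lit 76) (nat_lit 12664394365) (nat_lit 432) (nat_lit 5) (nat_lit 445) (nat_lit 5) (nat_lit 433) (nat_lit 5) (nat_lit 620) (nat_lit 590) (nat_lit 350)))) (XT.nd (nat_lit 156) (nat_lit 836) (nat_lit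 0) (XT.nd (nat_lit 78) (nat_lit 836) (nat_lit 0) (XT.lf (nat_lit 0) (nat_lit 11675550020) (nat_lit 988) (nat_lit 10529419061) (nat_lit 76) (nat_lit 325176060) (nat_lit 420) (nat_lit 5) (nat_lit 433) (nat_lit 5) (nat_lit 421) (nat_lit 5) (nat_lit 621) (nat_lit 590) (nat_lit 349)) (XT.lf (nat_lit 0) (nat_lit 1776827649) (nat_lit 836) (nat_lit 12416413710) (nat_lit 912) (nat_lit 8581934026) (nat_lit 409) (nat_lit 5) (nat_lit 420) (nat_lit 5) (nat_lit 421) (nat_lit 5) (nat_lit 622) (nat_lit 590) (nat_lit 348))) (XT.nd (nat_lit 78) (nat_lit 836) (nat_lit 0) (XT.lf (nat_lit 0) (nat_lit 14468283235) (nat_lit 836) (nat_lit 2359891655) (nat_lit 912) (nat_lit 6195593789) (nat_lit 409) (nat_lit 5) (nat_lit 420) (nat_lit 5) (nat_lit 421) (nat_lit 5) (nat_lit 623) (nat_lit 590) (nat_lit 347)) (XT.lf (nat_lit 0) (nat_lit 4135546483) (nat_lit 836) (nat_lit 15454693947) (nat_lit 912) (nat_lit 3685604947) (nat_lit 398) (nat_lit 5) (nat_lit 409) (nat_lit 5) (nat_lit 410) (nat_lit 5) (nat_lit 624) (nat_lit 590) (nat_lit 346))))) (XT.nd (nat_lit 312) (nat_lit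 1520) (nat_lit 0) (XT.nd (nat_lit 156) (nat_lit 836) (nat_lit 0) (XT.nd (nat_lit 78) (nat_lit 912) (nat_lit 0) (XT.lf (nat_lit 0) (nat_lit 17176910249) (nat_lit 836) (nat_lit 5299928487) (nat_lit 912) (nat_lit 1054739247) (nat_lit 398) (nat_lit 5) (nat_lit 409) (nat_lit 5) (nat_lit 410) (nat_lit 5) (nat_lit 625) (nat_lit 590) (nat_lit 345)) (XT.lf (nat_lit 0) (nat_lit 1680882364) (nat_lit 912) (nat_lit 17063434439) (nat_lit 76) (nat_lit 5046427138) (nat_lit 386) (nat_lit 5) (nat_lit 398) (nat_lit 5) (nat_lit 387) (nat_lit 5) (nat_lit 626) (nat_lit 590) (nat_lit 344))) (XT.nd (nat_lit 78) (nat_lit 836) (nat_lit 0) (XT.lf (nat_lit 0) (nat_lit 4531579902) (nat_lit 912) (nat_lit 3943190002) (nat_lit 76) (nat_lit 15578694339) (nat_lit 386) (nat_lit 5) (nat_lit 398) (nat_lit 5) (nat_lit 387) (nat_lit 5) (nat_lit 627) (nat_lit 590) (nat_lit 343)) (XT.lf (nat_lit 0) (nat_lit 7511284918) (nat_lit 912) (nat_lit 14772384170) (nat_lit 76) (nat_lit 2036330180) (nat_lit 375) (nat_lit 5) (nat_lit 387) (nat_lit 5) (nat_lit 376) (nat_lit 5) (nat_lit 628)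 (nat_lit 590) (nat_lit 342)))) (XT.nd (nat_lit 156) (nat_lit 760) (nat_lit 0) (XT.nd (nat_lit 78) (nat_lit 760) (nat_lit 0) (XT.lf (nat_lit 0) (nat_lit 10629907333) (nat_lit 912) (nat_lit 1289569935) (nat_lit 76) (nat_lit 12670801442) (nat_lit 375) (nat_lit 5) (nat_lit 387) (nat_lit 5) (nat_lit 376) (nat_lit 5) (nat_lit 629) (nat_lit 590) (nat_lit 341)) (XT.lf (nat_lit 0) (nat_lit 12624927904) (nat_lit 760) (nat_lit 1264573969) (nat_lit 836) (nat_lit 10974890053) (nat_lit 365) (nat_lit 5) (nat_lit 375) (nat_lit 5) (nat_lit 376) (nat_lit 5) (nat_lit 630) (nat_lit 590) (nat_lit 340))) (XT.nd (nat_lit 78) (nat_lit 0) (nat_lit 0) (XT.lf (nat_lit 0) (nat_lit 1646980216) (nat_lit 760) (nat_lit 15645736337) (nat_lit 836) (nat_lit 7849702466) (nat_lit 355) (nat_lit 5) (nat_lit 365) (nat_lit 5) (nat_lit 366) (nat_lit 5) (nat_lit 631) (nat_lit 590) (nat_lit 339)) (XT.lf (nat_lit 0) (nat_lit 15965007257) (nat_lit 760) (nat_lit 4886155295) (nat_lit 836) (nat_lit 4573100934) (nat_lit 355) (nat_lit 5) (nat_lit 365) (nat_lit 5) (nat_lit 366) (nat_lit 5)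 (nat_lit 632) (nat_lit 590) (nat_lit 338)))))) (XT.nd (nat_lit 546) (nat_lit 3268) (nat_lit 0) (XT.nd (nat_lit 234) (nat_lit 1368) (nat_lit 0) (XT.nd (nat_lit 78) (nat_lit 836) (nat_lit 0) (XT.lf (nat_lit 0) (nat_lit 4878539485) (nat_lit 684) (nat_lit 19670220880) (nat_lit 760) (nat_lit 1161624988) (nat_lit 346) (nat_lit 5) (nat_lit 355) (nat_lit 5) (nat_lit 356) (nat_lit 5) (nat_lit 633) (nat_lit 590) (nat_lit 337)) (XT.nd (nat_lit 78) (nat_lit 760) (nat_lit 0) (XT.lf (nat_lit 0) (nat_lit 2380729859) (nat_lit 760) (nat_lit 6421057238) (nat_lit 76) (nat_lit 17198280685) (nat_lit 345) (nat_lit 5) (nat_lit 355) (nat_lit 5) (nat_lit 346) (nat_lit 5) (nat_lit 634) (nat_lit 590) (nat_lit 336)) (XT.lf (nat_lit 0) (nat_lit 6044875362) (nat_lit 836) (nat_lit 17932999549) (nat_lit 76) (nat_lit 2316185586) (nat_lit 335) (nat_lit 5) (nat_lit 346) (nat_lit 5) (nat_lit 336) (nat_lit 5) (nat_lit 635) (nat_lit 590) (nat_lit 335)))) (XT.nd (nat_lit 156) (nat_lit 684) (nat_lit 0) (XT.nd (nat_lit 78) (nat_lit 684) (nat_lit 0) (XT.lf (nat_lit 0) (nat_lit 9880862874)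 (nat_lit 836) (nat_lit 3129333787) (nat_lit 76) (nat_lit 13581765381) (nat_lit 335) (nat_lit 5) (nat_lit 346) (nat_lit 5) (nat_lit 336) (nat_lit 5) (nat_lit 636) (nat_lit 590) (nat_lit 334)) (XT.lf (nat_lit 0) (nat_lit 12125961241) (nat_lit 684) (nat_lit 1743294650) (nat_lit 760) (nat_lit 13025052164) (nat_lit 326) (nat_lit 5) (nat_lit 335) (nat_lit 5) (nat_lit 336) (nat_lit 5) (nat_lit 637) (nat_lit 590) (nat_lit 333))) (XT.nd (nat_lit 78) (nat_lit 0) (nat_lit 0) (XT.lf (nat_lit 0) (nat_lit 465658920) (nat_lit 684) (nat_lit 17556206691) (nat_lit 760) (nat_lit 9179146551) (nat_lit 317) (nat_lit 5) (nat_lit 326) (nat_lit 5) (nat_lit 327) (nat_lit 5) (nat_lit 638) (nat_lit 590) (nat_lit 332)) (XT.lf (nat_lit 0) (nat_lit 16189345582) (nat_lit 684) (nat_lit 6175781036) (nat_lit 760) (nat_lit 5146571899) (nat_lit 317) (nat_lit 5) (nat_lit 326) (nat_lit 5) (nat_lit 327) (nat_lit 5) (nat_lit 639) (nat_lit 590) (nat_lit 331))))) (XT.nd (nat_lit 312) (nat_lit 1900) (nat_lit 0) (XT.nd (nat_lit 156) (nat_lit 684) (nat_lit 0) (XT.nd (nat_lit 78) (nat_lit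 76) (nat_lit 0) (XT.lf (nat_lit 0) (nat_lit 4418105505) (nat_lit 608) (nat_lit 22438184084) (nat_lit 684) (nat_lit 971088420) (nat_lit 309) (nat_lit 5) (nat_lit 317) (nat_lit 5) (nat_lit 318) (nat_lit 5) (nat_lit 640) (nat_lit 590) (nat_lit 330)) (XT.lf (nat_lit 0) (nat_lit 3359261843) (nat_lit 684) (nat_lit 7587242738) (nat_lit 76) (nat_lit 17200150131) (nat_lit 308) (nat_lit 5) (nat_lit 317) (nat_lit 5) (nat_lit 309) (nat_lit 5) (nat_lit 641) (nat_lit 590) (nat_lit 329))) (XT.nd (nat_lit 78) (nat_lit 0) (nat_lit 0) (XT.lf (nat_lit 0) (nat_lit 7822018646) (nat_lit 760) (nat_lit 19821681140) (nat_lit 76) (nat_lit 827312874) (nat_lit 299) (nat_lit 5) (nat_lit 309) (nat_lit 5) (nat_lit 300) (nat_lit 5) (nat_lit 642) (nat_lit 590) (nat_lit 328)) (XT.lf (nat_lit 0) (nat_lit 12494959623) (nat_lit 760) (nat_lit 3563639458) (nat_lit 76) (nat_lit 12740840239) (nat_lit 299) (nat_lit 5) (nat_lit 309) (nat_lit 5) (nat_lit 300) (nat_lit 5) (nat_lit 643) (nat_lit 590) (nat_lit 327)))) (XT.nd (nat_lit 156) (nat_lit 684) (nat_lit 0) (XT.nd (nat_lit 78)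 (nat_lit 608) (nat_lit 0) (XT.lf (nat_lit 0) (nat_lit 13189155194) (nat_lit 608) (nat_lit 4155076239) (nat_lit 684) (nat_lit 11788545769) (nat_lit 291) (nat_lit 5) (nat_lit 299) (nat_lit 5) (nat_lit 300) (nat_lit 5) (nat_lit 644) (nat_lit 590) (nat_lit 326)) (XT.lf (nat_lit 0) (nat_lit 808181248) (nat_lit 608) (nat_lit 21560748152) (nat_lit 684) (nat_lit 7102283757) (nat_lit 283) (nat_lit 5) (nat_lit 291) (nat_lit 5) (nat_lit 292) (nat_lit 5) (nat_lit 645) (nat_lit 590) (nat_lit 325))) (XT.nd (nat_lit 78) (nat_lit 684) (nat_lit 0) (XT.lf (nat_lit 0) (nat_lit 18079865976) (nat_lit 608) (nat_lit 9545880470) (nat_lit 684) (nat_lit 2188039009) (nat_lit 283) (nat_lit 5) (nat_lit 291) (nat_lit 5) (nat_lit 292) (nat_lit 5) (nat_lit 646) (nat_lit 590) (nat_lit 324)) (XT.lf (nat_lit 0) (nat_lit 2838992447) (nat_lit 684) (nat_lit 24594789714) (nat_lit 76) (nat_lit 2728029478) (nat_lit 274) (nat_lit 5) (nat_lit 283) (nat_lit 5) (nat_lit 275) (nat_lit 5) (nat_lit 647) (nat_lit 590) (nat_lit 323))))))) (XT.nd (nat_lit 77610) (nat_lit 0) (nat_lit 16340)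 (XT.nd (nat_lit 546) (nat_lit 0) (nat_lit 0) (XT.nd (nat_lit 234) (nat_lit 1672) (nat_lit 0) (XT.nd (nat_lit 78) (nat_lit 608) (nat_lit 0) (XT.lf (nat_lit 0) (nat_lit 8077134389) (nat_lit 684) (nat_lit 7223801564) (nat_lit 76) (nat_lit 15212775901) (nat_lit 274) (nat_lit 5) (nat_lit 283) (nat_lit 5) (nat_lit 275) (nat_lit 5) (nat_lit 648) (nat_lit 590) (nat_lit 322)) (XT.nd (nat_lit 78) (nat_lit 0) (nat_lit 0) (XT.lf (nat_lit 0) (nat_lit 10630709407) (nat_lit 608) (nat_lit 2855763458) (nat_lit 684) (nat_lit 17384848649) (nat_lit 266) (nat_lit 5) (nat_lit 274) (nat_lit 5) (nat_lit 275) (nat_lit 5) (nat_lit 649) (nat_lit 590) (nat_lit 321)) (XT.lf (nat_lit 0) (nat_lit 19114108101) (nat_lit 684) (nat_lit 2362425852) (nat_lit 76) (nat_lit 9757347328) (nat_lit 266) (nat_lit 5) (nat_lit 275) (nat_lit 5) (nat_lit 267) (nat_lit 5) (nat_lit 650) (nat_lit 590) (nat_lit 320)))) (XT.nd (nat_lit 156) (nat_lit 608) (nat_lit 0) (XT.nd (nat_lit 78) (nat_lit 532) (nat_lit 0) (XT.lf (nat_lit 0) (nat_lit 16061785341) (nat_lit 532) (nat_lit 8913193668) (nat_lit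 608) (nat_lit 6626299689) (nat_lit 259) (nat_lit 5) (nat_lit 266) (nat_lit 5) (nat_lit 267) (nat_lit 5) (nat_lit 651) (nat_lit 590) (nat_lit 319)) (XT.lf (nat_lit 0) (nat_lit 2920359690) (nat_lit 532) (nat_lit 28090467196) (nat_lit 608) (nat_lit 964042094) (nat_lit 252) (nat_lit 5) (nat_lit 259) (nat_lit 5) (nat_lit 260) (nat_lit 5) (nat_lit 652) (nat_lit 590) (nat_lit 318))) (XT.nd (nat_lit 78) (nat_lit 532) (nat_lit 0) (XT.lf (nat_lit 0) (nat_lit 4909875089) (nat_lit 608) (nat_lit 10488065516) (nat_lit 76) (nat_lit 16954135432) (nat_lit 251) (nat_lit 5) (nat_lit 259) (nat_lit 5) (nat_lit 252) (nat_lit 5) (nat_lit 653) (nat_lit 590) (nat_lit 317)) (XT.lf (nat_lit 0) (nat_lit 8552237684) (nat_lit 532) (nat_lit 2389232955) (nat_lit 608) (nat_lit 21794167083) (nat_lit 244) (nat_lit 5) (nat_lit 251) (nat_lit 5) (nat_lit 252) (nat_lit 5) (nat_lit 654) (nat_lit 590) (nat_lit 316))))) (XT.nd (nat_lit 76752) (nat_lit 0) (nat_lit 19304) (XT.nd (nat_lit 76596) (nat_lit 0) (nat_lit 19304) (XT.nd (nat_lit 76518) (nat_lit 0) (nat_lit 19228) (XT.lf (nat_lit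 0) (nat_lit 17232773557) (nat_lit 608) (nat_lit 5084322231) (nat_lit 76) (nat_lit 10806993444) (nat_lit 244) (nat_lit 5) (nat_lit 252) (nat_lit 5) (nat_lit 245) (nat_lit 5) (nat_lit 655) (nat_lit 590) (nat_lit 315)) (XT.lf (nat_lit 76) (nat_lit 6162025693) (nat_lit 0) (nat_lit 7608579828) (nat_lit 1824) (nat_lit 3620148819) (nat_lit 498) (nat_lit 5) (nat_lit 497) (nat_lit 5) (nat_lit 521) (nat_lit 5) (nat_lit 595) (nat_lit 591) (nat_lit 374))) (XT.nd (nat_lit 78) (nat_lit 0) (nat_lit 0) (XT.lf (nat_lit 0) (nat_lit 14365944172) (nat_lit 1748) (nat_lit 2486250167) (nat_lit 1824) (nat_lit 710294086) (nat_lit 498) (nat_lit 5) (nat_lit 521) (nat_lit 5) (nat_lit 522) (nat_lit 5) (nat_lit 596) (nat_lit 591) (nat_lit 373)) (XT.lf (nat_lit 76) (nat_lit 6462073545) (nat_lit 0) (nat_lit 8597702229) (nat_lit 1824) (nat_lit 2676150053) (nat_lit 499) (nat_lit 5) (nat_lit 498) (nat_lit 5) (nat_lit 522) (nat_lit 5) (nat_lit 597) (nat_lit 591) (nat_lit 372)))) (XT.nd (nat_lit 156) (nat_lit 0) (nat_lit 76) (XT.nd (nat_lit 78) (nat_lit 0) (nat_lit 76) (XT.lf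 (nat_lit 76) (nat_lit 15619720014) (nat_lit 0) (nat_lit 158781383) (nat_lit 1824) (nat_lit 2134110584) (nat_lit 499) (nat_lit 5) (nat_lit 498) (nat_lit 5) (nat_lit 522) (nat_lit 5) (nat_lit 598) (nat_lit 591) (nat_lit 371)) (XT.lf (nat_lit 76) (nat_lit 6899919128) (nat_lit 0) (nat_lit 9705796464) (nat_lit 1824) (nat_lit 1485234331) (nat_lit 500) (nat_lit 5) (nat_lit 499) (nat_lit 5) (nat_lit 523) (nat_lit 5) (nat_lit 599) (nat_lit 591) (nat_lit 370))) (XT.nd (nat_lit 78) (nat_lit 0) (nat_lit 76) (XT.lf (nat_lit 76) (nat_lit 16303217977) (nat_lit 0) (nat_lit 1157233122) (nat_lit 1824) (nat_lit 812184322) (nat_lit 500) (nat_lit 5) (nat_lit 499) (nat_lit 5) (nat_lit 523) (nat_lit 5) (nat_lit 600) (nat_lit 591) (nat_lit 369)) (XT.lf (nat_lit 76) (nat_lit 7482221552) (nat_lit 0) (nat_lit 10942404811) (nat_lit 1824) (nat_lit 31481698) (nat_lit 501) (nat_lit 5) (nat_lit 500) (nat_lit 5) (nat_lit 524) (nat_lit 5) (nat_lit 601) (nat_lit 591) (nat_lit 368)))))) (XT.nd (nat_lit 546) (nat_lit 1292) (nat_lit 0) (XT.nd (nat_lit 234) (nat_lit 0) (nat_lit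 152) (XT.nd (nat_lit 78) (nat_lit 0) (nat_lit 76) (XT.lf (nat_lit 0) (nat_lit 770484512) (nat_lit 1824) (nat_lit 1509599452) (nat_lit 1900) (nat_lit 16362753582) (nat_lit 476) (nat_lit 5) (nat_lit 500) (nat_lit 5) (nat_lit 501) (nat_lit 5) (nat_lit 602) (nat_lit 591) (nat_lit 367)) (XT.nd (nat_lit 78) (nat_lit 0) (nat_lit 0) (XT.lf (nat_lit 0) (nat_lit 1679370875) (nat_lit 1824) (nat_lit 10626732028) (nat_lit 1900) (nat_lit 6525368821) (nat_lit 477) (nat_lit 5) (nat_lit 501) (nat_lit 5) (nat_lit 502) (nat_lit 5) (nat_lit 603) (nat_lit 591) (nat_lit 366)) (XT.lf (nat_lit 0) (nat_lit 2626639829) (nat_lit 1824) (nat_lit 908522734) (nat_lit 1900) (nat_lit 15488312233) (nat_lit 477) (nat_lit 5) (nat_lit 501) (nat_lit 5) (nat_lit 502) (nat_lit 5) (nat_lit 604) (nat_lit 591) (nat_lit 365)))) (XT.nd (nat_lit 156) (nat_lit 0) (nat_lit 76) (XT.nd (nat_lit 78) (nat_lit 0) (nat_lit 0) (XT.lf (nat_lit 0) (nat_lit 3682611543) (nat_lit 1824) (nat_lit 10133544595) (nat_lit 1900) (nat_lit 5401366944) (nat_lit 478) (nat_lit 5) (nat_lit 502) (nat_lit 5) (nat_lit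 503) (nat_lit 5) (nat_lit 605) (nat_lit 591) (nat_lit 364)) (XT.lf (nat_lit 0) (nat_lit 4784344374) (nat_lit 1824) (nat_lit 153662812) (nat_lit 1900) (nat_lit 14476952609) (nat_lit 478) (nat_lit 5) (nat_lit 502) (nat_lit 5) (nat_lit 503) (nat_lit 5) (nat_lit 606) (nat_lit 591) (nat_lit 363))) (XT.nd (nat_lit 78) (nat_lit 0) (nat_lit 0) (XT.lf (nat_lit 0) (nat_lit 5996417960) (nat_lit 1824) (nat_lit 9486751089) (nat_lit 1900) (nat_lit 4131410362) (nat_lit 479) (nat_lit 5) (nat_lit 503) (nat_lit 5) (nat_lit 504) (nat_lit 5) (nat_lit 607) (nat_lit 591) (nat_lit 362)) (XT.lf (nat_lit 76) (nat_lit 772750286) (nat_lit 0) (nat_lit 6494009656) (nat_lit 1900) (nat_lit 12550751219) (nat_lit 480) (nat_lit 5) (nat_lit 479) (nat_lit 5) (nat_lit 504) (nat_lit 5) (nat_lit 608) (nat_lit 591) (nat_lit 361))))) (XT.nd (nat_lit 312) (nat_lit 1596) (nat_lit 0) (XT.nd (nat_lit 156) (nat_lit 0) (nat_lit 76) (XT.nd (nat_lit 78) (nat_lit 0) (nat_lit 0) (XT.lf (nat_lit 0) (nat_lit 8639305973) (nat_lit 1824) (nat_lit 8678594959) (nat_lit 1900) (nat_lit 2705064949)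 (nat_lit 480) (nat_lit 5) (nat_lit 504) (nat_lit 5) (nat_lit 505) (nat_lit 5) (nat_lit 609) (nat_lit 591) (nat_lit 360)) (XT.lf (nat_lit 76) (nat_lit 1872907287) (nat_lit 0) (nat_lit 8217000792) (nat_lit 1900) (nat_lit 10141609786) (nat_lit 481) (nat_lit 5) (nat_lit 480) (nat_lit 5) (nat_lit 505) (nat_lit 5) (nat_lit 610) (nat_lit 591) (nat_lit 359))) (XT.nd (nat_lit 78) (nat_lit 0) (nat_lit 0) (XT.lf (nat_lit 0) (nat_lit 11630577720) (nat_lit 1824) (nat_lit 7700919237) (nat_lit 1900) (nat_lit 1111523089) (nat_lit 481) (nat_lit 5) (nat_lit 505) (nat_lit 5) (nat_lit 506) (nat_lit 5) (nat_lit 611) (nat_lit 591) (nat_lit 358)) (XT.lf (nat_lit 76) (nat_lit 3153318974) (nat_lit 0) (nat_lit 10119231683) (nat_lit 1900) (nat_lit 7384792075) (nat_lit 482) (nat_lit 5) (nat_lit 481) (nat_lit 5) (nat_lit 506) (nat_lit 5) (nat_lit 612) (nat_lit 591) (nat_lit 357)))) (XT.nd (nat_lit 156) (nat_lit 1672) (nat_lit 0) (XT.nd (nat_lit 78) (nat_lit 0) (nat_lit 76) (XT.lf (nat_lit 76) (nat_lit 14325507189) (nat_lit 0) (nat_lit 669195747) (nat_lit 1900) (nat_lit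 5880302397) (nat_lit 482) (nat_lit 5) (nat_lit 481) (nat_lit 5) (nat_lit 506) (nat_lit 5) (nat_lit 613) (nat_lit 591) (nat_lit 356)) (XT.lf (nat_lit 76) (nat_lit 4622966706) (nat_lit 0) (nat_lit 12212337969) (nat_lit 1900) (nat_lit 4260036634) (nat_lit 483) (nat_lit 5) (nat_lit 482) (nat_lit 5) (nat_lit 507) (nat_lit 5) (nat_lit 614) (nat_lit 591) (nat_lit 355))) (XT.nd (nat_lit 78) (nat_lit 1748) (nat_lit 0) (XT.lf (nat_lit 76) (nat_lit 16099649528) (nat_lit 0) (nat_lit 2657235411) (nat_lit 1900) (nat_lit 2562315981) (nat_lit 483) (nat_lit 5) (nat_lit 482) (nat_lit 5) (nat_lit 507) (nat_lit 5) (nat_lit 615) (nat_lit 591) (nat_lit 354)) (XT.lf (nat_lit 0) (nat_lit 6291274815) (nat_lit 1824) (nat_lit 14508395053) (nat_lit 1900) (nat_lit 746212637) (nat_lit 459) (nat_lit 5) (nat_lit 483) (nat_lit 5) (nat_lit 484) (nat_lit 5) (nat_lit 616) (nat_lit 591) (nat_lit 353))))))))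
noncomputable def xc99 : XT := (XT.nd (nat_lit 2340) (nat_lit 2964) (nat_lit 0) (XT.nd (nat_lit 1170) (nat_lit 6232) (nat_lit 0) (XT.nd (nat_lit 546) (nat_lit 3344) (nat_lit 0) (XT.nd (nat_lit 234) (nat_lit 2660) (nat_lit 0) (XT.nd (nat_lit 78) (nat_lit 1064) (nat_lit 0) (XT.lf (nat_lit 0) (nat_lit 1140490283) (nat_lit 1900) (nat_lit 3701908492) (nat_lit 76) (nat_lit 16933579820) (nat_lit 458) (nat_lit 5) (nat_lit 483) (nat_lit 5) (nat_lit 459) (nat_lit 5) (nat_lit 617) (nat_lit 591) (nat_lit 352)) (XT.nd (nat_lit 78) (nat_lit 0) (nat_lit 0) (XT.lf (nat_lit 0) (nat_lit 3137030139) (nat_lit 1140) (nat_lit 13861861588) (nat_lit 76) (nat_lit 5010044564) (nat_lit 444) (nat_lit 5) (nat_lit 459) (nat_lit 5) (nat_lit 445) (nat_lit 5) (nat_lit 618) (nat_lit 591) (nat_lit 351)) (XT.lf (nat_lit 0) (nat_lit 5226644574) (nat_lit 1140) (nat_lit 1998630069) (nat_lit 76) (nat_lit 15020215847) (nat_lit 444) (nat_lit 5) (nat_lit 459) (nat_lit 5) (nat_lit 445) (nat_lit 5) (nat_lit 619) (nat_lit 591) (nat_lit 350)))) (XT.nd (nat_lit 156) (nat_lit 1748) (nat_lit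 0) (XT.nd (nat_lit 78) (nat_lit 0) (nat_lit 0) (XT.lf (nat_lit 0) (nat_lit 7438890740) (nat_lit 988) (nat_lit 12271201677) (nat_lit 76) (nat_lit 2775066786) (nat_lit 432) (nat_lit 5) (nat_lit 445) (nat_lit 5) (nat_lit 433) (nat_lit 5) (nat_lit 620) (nat_lit 591) (nat_lit 349)) (XT.lf (nat_lit 0) (nat_lit 9752932993) (nat_lit 988) (nat_lit 82946528) (nat_lit 76) (nat_lit 12892590960) (nat_lit 432) (nat_lit 5) (nat_lit 445) (nat_lit 5) (nat_lit 433) (nat_lit 5) (nat_lit 621) (nat_lit 591) (nat_lit 348))) (XT.nd (nat_lit 78) (nat_lit 836) (nat_lit 0) (XT.lf (nat_lit 0) (nat_lit 12192823209) (nat_lit 988) (nat_lit 10467503116) (nat_lit 76) (nat_lit 314730528) (nat_lit 420) (nat_lit 5) (nat_lit 433) (nat_lit 5) (nat_lit 421) (nat_lit 5) (nat_lit 622) (nat_lit 591) (nat_lit 347)) (XT.lf (nat_lit 0) (nat_lit 2083075737) (nat_lit 836) (nat_lit 12673986313) (nat_lit 912) (nat_lit 8468002093) (nat_lit 409) (nat_lit 5) (nat_lit 420) (nat_lit 5) (nat_lit 421) (nat_lit 5) (nat_lit 623) (nat_lit 591) (nat_lit 346))))) (XT.nd (nat_lit 312) (nat_lit 1596)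 (nat_lit 0) (XT.nd (nat_lit 156) (nat_lit 912) (nat_lit 0) (XT.nd (nat_lit 78) (nat_lit 836) (nat_lit 0) (XT.lf (nat_lit 0) (nat_lit 15023052365) (nat_lit 836) (nat_lit 2416152555) (nat_lit 912) (nat_lit 6039534475) (nat_lit 409) (nat_lit 5) (nat_lit 420) (nat_lit 5) (nat_lit 421) (nat_lit 5) (nat_lit 624) (nat_lit 591) (nat_lit 345)) (XT.lf (nat_lit 0) (nat_lit 4487441701) (nat_lit 836) (nat_lit 15765378407) (nat_lit 912) (nat_lit 3483111654) (nat_lit 398) (nat_lit 5) (nat_lit 409) (nat_lit 5) (nat_lit 410) (nat_lit 5) (nat_lit 625) (nat_lit 591) (nat_lit 344))) (XT.nd (nat_lit 78) (nat_lit 912) (nat_lit 0) (XT.lf (nat_lit 0) (nat_lit 17784354619) (nat_lit 836) (nat_lit 5407486449) (nat_lit 912) (nat_lit 805044432) (nat_lit 398) (nat_lit 5) (nat_lit 409) (nat_lit 5) (nat_lit 410) (nat_lit 5) (nat_lit 626) (nat_lit 591) (nat_lit 343)) (XT.lf (nat_lit 0) (nat_lit 1978236289) (nat_lit 912) (nat_lit 17133715037) (nat_lit 76) (nat_lit 5149318609) (nat_lit 386) (nat_lit 5) (nat_lit 398) (nat_lit 5) (nat_lit 387) (nat_lit 5) (nat_lit 627) (nat_lit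 591) (nat_lit 342)))) (XT.nd (nat_lit 156) (nat_lit 760) (nat_lit 0) (XT.nd (nat_lit 78) (nat_lit 836) (nat_lit 0) (XT.lf (nat_lit 0) (nat_lit 4880776478) (nat_lit 912) (nat_lit 3756379203) (nat_lit 76) (nat_lit 15892192665) (nat_lit 386) (nat_lit 5) (nat_lit 398) (nat_lit 5) (nat_lit 387) (nat_lit 5) (nat_lit 628) (nat_lit 591) (nat_lit 341)) (XT.lf (nat_lit 0) (nat_lit 7916775884) (nat_lit 912) (nat_lit 14798843934) (nat_lit 76) (nat_lit 2085660520) (nat_lit 375) (nat_lit 5) (nat_lit 387) (nat_lit 5) (nat_lit 376) (nat_lit 5) (nat_lit 629) (nat_lit 591) (nat_lit 340))) (XT.nd (nat_lit 78) (nat_lit 760) (nat_lit 0) (XT.lf (nat_lit 0) (nat_lit 11092765546) (nat_lit 912) (nat_lit 1051647687) (nat_lit 76) (nat_lit 12932652506) (nat_lit 375) (nat_lit 5) (nat_lit 387) (nat_lit 5) (nat_lit 376) (nat_lit 5) (nat_lit 630) (nat_lit 591) (nat_lit 339)) (XT.lf (nat_lit 0) (nat_lit 13139405151) (nat_lit 760) (nat_lit 1274940706) (nat_lit 836) (nat_lit 10942379749) (nat_lit 365) (nat_lit 5) (nat_lit 375) (nat_lit 5) (nat_lit 376) (nat_lit 5) (nat_lit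 631) (nat_lit 591) (nat_lit 338)))))) (XT.nd (nat_lit 546) (nat_lit 3268) (nat_lit 0) (XT.nd (nat_lit 234) (nat_lit 1520) (nat_lit 0) (XT.nd (nat_lit 78) (nat_lit 684) (nat_lit 0) (XT.lf (nat_lit 0) (nat_lit 1945000268) (nat_lit 760) (nat_lit 15937596446) (nat_lit 836) (nat_lit 7757777344) (nat_lit 355) (nat_lit 5) (nat_lit 365) (nat_lit 5) (nat_lit 366) (nat_lit 5) (nat_lit 632) (nat_lit 591) (nat_lit 337)) (XT.nd (nat_lit 78) (nat_lit 684) (nat_lit 0) (XT.lf (nat_lit 0) (nat_lit 16544190193) (nat_lit 760) (nat_lit 4963236619) (nat_lit 836) (nat_lit 4420524549) (nat_lit 355) (nat_lit 5) (nat_lit 365) (nat_lit 5) (nat_lit 366) (nat_lit 5) (nat_lit 633) (nat_lit 591) (nat_lit 336)) (XT.lf (nat_lit 0) (nat_lit 5238916005) (nat_lit 684) (nat_lit 20037207279) (nat_lit 760) (nat_lit 943729696) (nat_lit 346) (nat_lit 5) (nat_lit 355) (nat_lit 5) (nat_lit 356) (nat_lit 5) (nat_lit 634) (nat_lit 591) (nat_lit 335)))) (XT.nd (nat_lit 156) (nat_lit 684) (nat_lit 0) (XT.nd (nat_lit 78) (nat_lit 760) (nat_lit 0) (XT.lf (nat_lit 0) (nat_lit 2661643826)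 (nat_lit 760) (nat_lit 6288713432) (nat_lit 76) (nat_lit 17565034043) (nat_lit 345) (nat_lit 5) (nat_lit 355) (nat_lit 5) (nat_lit 346) (nat_lit 5) (nat_lit 635) (nat_lit 591) (nat_lit 334)) (XT.lf (nat_lit 0) (nat_lit 6396365629) (nat_lit 836) (nat_lit 18028176364) (nat_lit 76) (nat_lit 2390776243) (nat_lit 335) (nat_lit 5) (nat_lit 346) (nat_lit 5) (nat_lit 336) (nat_lit 5) (nat_lit 636) (nat_lit 591) (nat_lit 333))) (XT.nd (nat_lit 78) (nat_lit 684) (nat_lit 0) (XT.lf (nat_lit 0) (nat_lit 10304551465) (nat_lit 836) (nat_lit 2933603623) (nat_lit 76) (nat_lit 13881113380) (nat_lit 335) (nat_lit 5) (nat_lit 346) (nat_lit 5) (nat_lit 336) (nat_lit 5) (nat_lit 637) (nat_lit 591) (nat_lit 332)) (XT.lf (nat_lit 0) (nat_lit 12625097852) (nat_lit 684) (nat_lit 1744847849) (nat_lit 760) (nat_lit 13057771257) (nat_lit 326) (nat_lit 5) (nat_lit 335) (nat_lit 5) (nat_lit 336) (nat_lit 5) (nat_lit 638) (nat_lit 591) (nat_lit 331))))) (XT.nd (nat_lit 312) (nat_lit 1900) (nat_lit 0) (XT.nd (nat_lit 156) (nat_lit 684) (nat_lit 0) (XT.nd (nat_lit 78) (nat_lit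 0) (nat_lit 0) (XT.lf (nat_lit 0) (nat_lit 734134151) (nat_lit 684) (nat_lit 17868989641) (nat_lit 760) (nat_lit 9137481251) (nat_lit 317) (nat_lit 5) (nat_lit 326) (nat_lit 5) (nat_lit 327) (nat_lit 5) (nat_lit 639) (nat_lit 591) (nat_lit 330)) (XT.lf (nat_lit 0) (nat_lit 16767212937) (nat_lit 684) (nat_lit 6261707261) (nat_lit 760) (nat_lit 5028671738) (nat_lit 317) (nat_lit 5) (nat_lit 326) (nat_lit 5) (nat_lit 327) (nat_lit 5) (nat_lit 640) (nat_lit 591) (nat_lit 329))) (XT.nd (nat_lit 78) (nat_lit 76) (nat_lit 0) (XT.lf (nat_lit 0) (nat_lit 4762946023) (nat_lit 608) (nat_lit 22844619980) (nat_lit 684) (nat_lit 772066033) (nat_lit 309) (nat_lit 5) (nat_lit 317) (nat_lit 5) (nat_lit 318) (nat_lit 5) (nat_lit 641) (nat_lit 591) (nat_lit 328)) (XT.lf (nat_lit 0) (nat_lit 3637799258) (nat_lit 684) (nat_lit 7484719302) (nat_lit 76) (nat_lit 17582832091) (nat_lit 308) (nat_lit 5) (nat_lit 317) (nat_lit 5) (nat_lit 309) (nat_lit 5) (nat_lit 642) (nat_lit 591) (nat_lit 327)))) (XT.nd (nat_lit 156) (nat_lit 1216) (nat_lit 0) (XT.nd (nat_lit 78)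 (nat_lit 0) (nat_lit 0) (XT.lf (nat_lit 0) (nat_lit 8187591091) (nat_lit 760) (nat_lit 19961616452) (nat_lit 76) (nat_lit 887032814) (nat_lit 299) (nat_lit 5) (nat_lit 309) (nat_lit 5) (nat_lit 300) (nat_lit 5) (nat_lit 643) (nat_lit 591) (nat_lit 326)) (XT.lf (nat_lit 0) (nat_lit 12949890259) (nat_lit 760) (nat_lit 3383443315) (nat_lit 76) (nat_lit 13037984184) (nat_lit 299) (nat_lit 5) (nat_lit 309) (nat_lit 5) (nat_lit 300) (nat_lit 5) (nat_lit 644) (nat_lit 591) (nat_lit 325))) (XT.nd (nat_lit 78) (nat_lit 608) (nat_lit 0) (XT.lf (nat_lit 0) (nat_lit 13702752829) (nat_lit 608) (nat_lit 4190996413) (nat_lit 684) (nat_lit 11817621312) (nat_lit 291) (nat_lit 5) (nat_lit 299) (nat_lit 5) (nat_lit 300) (nat_lit 5) (nat_lit 645) (nat_lit 591) (nat_lit 324)) (XT.lf (nat_lit 0) (nat_lit 1076247038) (nat_lit 608) (nat_lit 21940656773) (nat_lit 684) (nat_lit 7039712351) (nat_lit 283) (nat_lit 5) (nat_lit 291) (nat_lit 5) (nat_lit 292) (nat_lit 5) (nat_lit 646) (nat_lit 591) (nat_lit 323))))))) (XT.nd (nat_lit 77532) (nat_lit 0) (nat_lit 17632)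 (XT.nd (nat_lit 546) (nat_lit 608) (nat_lit 0) (XT.nd (nat_lit 234) (nat_lit 1672) (nat_lit 0) (XT.nd (nat_lit 78) (nat_lit 684) (nat_lit 0) (XT.lf (nat_lit 0) (nat_lit 18688426202) (nat_lit 608) (nat_lit 9686497744) (nat_lit 684) (nat_lit 2031194808) (nat_lit 283) (nat_lit 5) (nat_lit 291) (nat_lit 5) (nat_lit 292) (nat_lit 5) (nat_lit 647) (nat_lit 591) (nat_lit 322)) (XT.nd (nat_lit 78) (nat_lit 0) (nat_lit 0) (XT.lf (nat_lit 0) (nat_lit 3091813688) (nat_lit 684) (nat_lit 24835141228) (nat_lit 76) (nat_lit 2834163325) (nat_lit 274) (nat_lit 5) (nat_lit 283) (nat_lit 5) (nat_lit 275) (nat_lit 5) (nat_lit 648) (nat_lit 591) (nat_lit 321)) (XT.lf (nat_lit 0) (nat_lit 8430874519) (nat_lit 684) (nat_lit 7121665555) (nat_lit 76) (nat_lit 15567593436) (nat_lit 274) (nat_lit 5) (nat_lit 283) (nat_lit 5) (nat_lit 275) (nat_lit 5) (nat_lit 649) (nat_lit 591) (nat_lit 320)))) (XT.nd (nat_lit 156) (nat_lit 1064) (nat_lit 0) (XT.nd (nat_lit 78) (nat_lit 0) (nat_lit 0) (XT.lf (nat_lit 0) (nat_lit 11088313186) (nat_lit 608) (nat_lit 2857908636) (nat_lit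 684) (nat_lit 17538717271) (nat_lit 266) (nat_lit 5) (nat_lit 274) (nat_lit 5) (nat_lit 275) (nat_lit 5) (nat_lit 650) (nat_lit 591) (nat_lit 319)) (XT.lf (nat_lit 0) (nat_lit 19683033795) (nat_lit 684) (nat_lit 2166104231) (nat_lit 76) (nat_lit 10005679715) (nat_lit 266) (nat_lit 5) (nat_lit 275) (nat_lit 5) (nat_lit 267) (nat_lit 5) (nat_lit 651) (nat_lit 591) (nat_lit 318))) (XT.nd (nat_lit 78) (nat_lit 532) (nat_lit 0) (XT.lf (nat_lit 0) (nat_lit 16624988751) (nat_lit 532) (nat_lit 9034044708) (nat_lit 608) (nat_lit 6570571583) (nat_lit 259) (nat_lit 5) (nat_lit 266) (nat_lit 5) (nat_lit 267) (nat_lit 5) (nat_lit 652) (nat_lit 591) (nat_lit 317)) (XT.lf (nat_lit 0) (nat_lit 3222447278) (nat_lit 532) (nat_lit 28591479880) (nat_lit 608) (nat_lit 796773553) (nat_lit 252) (nat_lit 5) (nat_lit 259) (nat_lit 5) (nat_lit 260) (nat_lit 5) (nat_lit 653) (nat_lit 591) (nat_lit 316))))) (XT.nd (nat_lit 76674) (nat_lit 0) (nat_lit 19228) (XT.nd (nat_lit 76518) (nat_lit 0) (nat_lit 19152) (XT.nd (nat_lit 78) (nat_lit 532) (nat_lit 0) (XT.lf (nat_lit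 0) (nat_lit 5188565487) (nat_lit 608) (nat_lit 10456518160) (nat_lit 76) (nat_lit 17350416389) (nat_lit 251) (nat_lit 5) (nat_lit 259) (nat_lit 5) (nat_lit 252) (nat_lit 5) (nat_lit 654) (nat_lit 591) (nat_lit 315)) (XT.lf (nat_lit 0) (nat_lit 8963003547) (nat_lit 532) (nat_lit 2375806753) (nat_lit 608) (nat_lit 22047962458) (nat_lit 244) (nat_lit 5) (nat_lit 251) (nat_lit 5) (nat_lit 252) (nat_lit 5) (nat_lit 655) (nat_lit 591) (nat_lit 314))) (XT.nd (nat_lit 78) (nat_lit 0) (nat_lit 76) (XT.lf (nat_lit 76) (nat_lit 6354472933) (nat_lit 0) (nat_lit 7077446593) (nat_lit 1824) (nat_lit 3955223731) (nat_lit 497) (nat_lit 5) (nat_lit 496) (nat_lit 5) (nat_lit 520) (nat_lit 5) (nat_lit 594) (nat_lit 592) (nat_lit 374)) (XT.lf (nat_lit 0) (nat_lit 13911127728) (nat_lit 1748) (nat_lit 2355721546) (nat_lit 1824) (nat_lit 1290749697) (nat_lit 497) (nat_lit 5) (nat_lit 520) (nat_lit 5) (nat_lit 521) (nat_lit 5) (nat_lit 595) (nat_lit 592) (nat_lit 373)))) (XT.nd (nat_lit 156) (nat_lit 0) (nat_lit 76) (XT.nd (nat_lit 78) (nat_lit 0) (nat_lit 76) (XT.lf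 (nat_lit 76) (nat_lit 6530349524) (nat_lit 0) (nat_lit 7953087125) (nat_lit 1824) (nat_lit 3246357180) (nat_lit 498) (nat_lit 5) (nat_lit 497) (nat_lit 5) (nat_lit 521) (nat_lit 5) (nat_lit 596) (nat_lit 592) (nat_lit 372)) (XT.lf (nat_lit 0) (nat_lit 15080880943) (nat_lit 1748) (nat_lit 2285869596) (nat_lit 1824) (nat_lit 538408612) (nat_lit 498) (nat_lit 5) (nat_lit 521) (nat_lit 5) (nat_lit 522) (nat_lit 5) (nat_lit 597) (nat_lit 592) (nat_lit 371))) (XT.nd (nat_lit 78) (nat_lit 0) (nat_lit 0) (XT.lf (nat_lit 76) (nat_lit 6839775158) (nat_lit 0) (nat_lit 8942042522) (nat_lit 1824) (nat_lit 2300383574) (nat_lit 499) (nat_lit 5) (nat_lit 498) (nat_lit 5) (nat_lit 522) (nat_lit 5) (nat_lit 598) (nat_lit 592) (nat_lit 370)) (XT.lf (nat_lit 76) (nat_lit 16175702790) (nat_lit 0) (nat_lit 330963136) (nat_lit 1824) (nat_lit 1755920756) (nat_lit 499) (nat_lit 5) (nat_lit 498) (nat_lit 5) (nat_lit 522) (nat_lit 5) (nat_lit 599) (nat_lit 592) (nat_lit 369)))))) (XT.nd (nat_lit 546) (nat_lit 0) (nat_lit 152) (XT.nd (nat_lit 234) (nat_lit 0) (nat_lit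 0) (XT.nd (nat_lit 78) (nat_lit 1748) (nat_lit 0) (XT.lf (nat_lit 76) (nat_lit 7289216493) (nat_lit 0) (nat_lit 10053673640) (nat_lit 1824) (nat_lit 1101752439) (nat_lit 500) (nat_lit 5) (nat_lit 499) (nat_lit 5) (nat_lit 523) (nat_lit 5) (nat_lit 600) (nat_lit 592) (nat_lit 368)) (XT.nd (nat_lit 78) (nat_lit 1748) (nat_lit 0) (XT.lf (nat_lit 76) (nat_lit 16875653887) (nat_lit 0) (nat_lit 1331124105) (nat_lit 1824) (nat_lit 423343128) (nat_lit 500) (nat_lit 5) (nat_lit 499) (nat_lit 5) (nat_lit 523) (nat_lit 5) (nat_lit 601) (nat_lit 592) (nat_lit 367)) (XT.lf (nat_lit 0) (nat_lit 360935044) (nat_lit 1824) (nat_lit 10934276687) (nat_lit 1900) (nat_lit 7522146460) (nat_lit 476) (nat_lit 5) (nat_lit 500) (nat_lit 5) (nat_lit 501) (nat_lit 5) (nat_lit 602) (nat_lit 592) (nat_lit 366)))) (XT.nd (nat_lit 156) (nat_lit 0) (nat_lit 76) (XT.nd (nat_lit 78) (nat_lit 0) (nat_lit 76) (XT.lf (nat_lit 0) (nat_lit 1170820900) (nat_lit 1824) (nat_lit 1285988437) (nat_lit 1900) (nat_lit 16551163196) (nat_lit 476) (nat_lit 5) (nat_lit 500) (nat_lit 5) (nat_lit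 501) (nat_lit 5) (nat_lit 603) (nat_lit 592) (nat_lit 365)) (XT.lf (nat_lit 0) (nat_lit 2091150616) (nat_lit 1824) (nat_lit 10578706516) (nat_lit 1900) (nat_lit 6530657406) (nat_lit 477) (nat_lit 5) (nat_lit 501) (nat_lit 5) (nat_lit 502) (nat_lit 5) (nat_lit 604) (nat_lit 592) (nat_lit 364))) (XT.nd (nat_lit 78) (nat_lit 0) (nat_lit 76) (XT.lf (nat_lit 0) (nat_lit 3049949414) (nat_lit 1824) (nat_lit 671242058) (nat_lit 1900) (nat_lit 15675314956) (nat_lit 477) (nat_lit 5) (nat_lit 501) (nat_lit 5) (nat_lit 502) (nat_lit 5) (nat_lit 605) (nat_lit 592) (nat_lit 363)) (XT.lf (nat_lit 0) (nat_lit 4120694898) (nat_lit 1824) (nat_lit 10074396802) (nat_lit 1900) (nat_lit 5399471331) (nat_lit 478) (nat_lit 5) (nat_lit 502) (nat_lit 5) (nat_lit 503) (nat_lit 5) (nat_lit 606) (nat_lit 592) (nat_lit 362))))) (XT.nd (nat_lit 312) (nat_lit 0) (nat_lit 152) (XT.nd (nat_lit 156) (nat_lit 0) (nat_lit 76) (XT.nd (nat_lit 78) (nat_lit 0) (nat_lit 76) (XT.lf (nat_lit 76) (nat_lit 101277184) (nat_lit 0) (nat_lit 5136697051) (nat_lit 1900) (nat_lit 14558104435)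 (nat_lit 479) (nat_lit 5) (nat_lit 478) (nat_lit 5) (nat_lit 503) (nat_lit 5) (nat_lit 607) (nat_lit 592) (nat_lit 361)) (XT.lf (nat_lit 0) (nat_lit 6467652350) (nat_lit 1824) (nat_lit 9413800700) (nat_lit 1900) (nat_lit 4118370787) (nat_lit 479) (nat_lit 5) (nat_lit 503) (nat_lit 5) (nat_lit 504) (nat_lit 5) (nat_lit 608) (nat_lit 592) (nat_lit 360))) (XT.nd (nat_lit 78) (nat_lit 0) (nat_lit 76) (XT.lf (nat_lit 76) (nat_lit 1049162509) (nat_lit 0) (nat_lit 6709044617) (nat_lit 1900) (nat_lit 12448711391) (nat_lit 480) (nat_lit 5) (nat_lit 479) (nat_lit 5) (nat_lit 504) (nat_lit 5) (nat_lit 609) (nat_lit 592) (nat_lit 359)) (XT.lf (nat_lit 0) (nat_lit 9150875527) (nat_lit 1824) (nat_lit 8588977676) (nat_lit 1900) (nat_lit 2676776103) (nat_lit 480) (nat_lit 5) (nat_lit 504) (nat_lit 5) (nat_lit 505) (nat_lit 5) (nat_lit 610) (nat_lit 592) (nat_lit 358)))) (XT.nd (nat_lit 156) (nat_lit 0) (nat_lit 76) (XT.nd (nat_lit 78) (nat_lit 0) (nat_lit 76) (XT.lf (nat_lit 76) (nat_lit 2171823107) (nat_lit 0) (nat_lit 8453721312) (nat_lit 1900) (nat_lit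 10003907212) (nat_lit 481) (nat_lit 5) (nat_lit 480) (nat_lit 5) (nat_lit 505) (nat_lit 5) (nat_lit 611) (nat_lit 592) (nat_lit 357)) (XT.lf (nat_lit 0) (nat_lit 12190020879) (nat_lit 1824) (nat_lit 7591580555) (nat_lit 1900) (nat_lit 1063722942) (nat_lit 481) (nat_lit 5) (nat_lit 505) (nat_lit 5) (nat_lit 506) (nat_lit 5) (nat_lit 612) (nat_lit 592) (nat_lit 356))) (XT.nd (nat_lit 78) (nat_lit 0) (nat_lit 0) (XT.lf (nat_lit 76) (nat_lit 3478009808) (nat_lit 0) (nat_lit 10382113644) (nat_lit 1900) (nat_lit 7203904642) (nat_lit 482) (nat_lit 5) (nat_lit 481) (nat_lit 5) (nat_lit 506) (nat_lit 5) (nat_lit 613) (nat_lit 592) (nat_lit 355)) (XT.lf (nat_lit 76) (nat_lit 14868511895) (nat_lit 0) (nat_lit 741890768) (nat_lit 1900) (nat_lit 5675767980) (nat_lit 482) (nat_lit 5) (nat_lit 481) (nat_lit 5) (nat_lit 506) (nat_lit 5) (nat_lit 614) (nat_lit 592) (nat_lit 354))))))))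
noncomputable def xc100 : XT := (XT.nd (nat_lit 2340) (nat_lit 3648) (nat_lit 0) (XT.nd (nat_lit 1170) (nat_lit 6612) (nat_lit 0) (XT.nd (nat_lit 546) (nat_lit 3496) (nat_lit 0) (XT.nd (nat_lit 234) (nat_lit 2052) (nat_lit 0) (XT.nd (nat_lit 78) (nat_lit 1748) (nat_lit 0) (XT.lf (nat_lit 76) (nat_lit 4976908812) (nat_lit 0) (nat_lit 12506035539) (nat_lit 1900) (nat_lit 4028066794) (nat_lit 483) (nat_lit 5) (nat_lit 482) (nat_lit 5) (nat_lit 507) (nat_lit 5) (nat_lit 615) (nat_lit 592) (nat_lit 353)) (XT.nd (nat_lit 78) (nat_lit 1748) (nat_lit 0) (XT.lf (nat_lit 76) (nat_lit 16677998178) (nat_lit 0) (nat_lit 2758861306) (nat_lit 1900) (nat_lit 2302610759) (nat_lit 483) (nat_lit 5) (nat_lit 482) (nat_lit 5) (nat_lit 507) (nat_lit 5) (nat_lit 616) (nat_lit 592) (nat_lit 352)) (XT.lf (nat_lit 0) (nat_lit 6678156588) (nat_lit 1824) (nat_lit 14837752681) (nat_lit 1900) (nat_lit 454868361) (nat_lit 459) (nat_lit 5) (nat_lit 483) (nat_lit 5) (nat_lit 484) (nat_lit 5) (nat_lit 617) (nat_lit 592) (nat_lit 351)))) (XT.nd (nat_lit 156) (nat_lit 912)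 (nat_lit 0) (XT.nd (nat_lit 78) (nat_lit 1064) (nat_lit 0) (XT.lf (nat_lit 0) (nat_lit 1459625346) (nat_lit 1900) (nat_lit 3516054207) (nat_lit 76) (nat_lit 17229875186) (nat_lit 458) (nat_lit 5) (nat_lit 483) (nat_lit 5) (nat_lit 459) (nat_lit 5) (nat_lit 618) (nat_lit 592) (nat_lit 350)) (XT.lf (nat_lit 0) (nat_lit 3491741187) (nat_lit 1140) (nat_lit 13874834962) (nat_lit 76) (nat_lit 5076682869) (nat_lit 444) (nat_lit 5) (nat_lit 459) (nat_lit 5) (nat_lit 445) (nat_lit 5) (nat_lit 619) (nat_lit 592) (nat_lit 349))) (XT.nd (nat_lit 78) (nat_lit 912) (nat_lit 0) (XT.lf (nat_lit 0) (nat_lit 5617422999) (nat_lit 1140) (nat_lit 1779520456) (nat_lit 76) (nat_lit 15287715668) (nat_lit 444) (nat_lit 5) (nat_lit 459) (nat_lit 5) (nat_lit 445) (nat_lit 5) (nat_lit 620) (nat_lit 592) (nat_lit 348)) (XT.lf (nat_lit 0) (nat_lit 7869810661) (nat_lit 988) (nat_lit 12253424122) (nat_lit 76) (nat_lit 2805968816) (nat_lit 432) (nat_lit 5) (nat_lit 445) (nat_lit 5) (nat_lit 433) (nat_lit 5) (nat_lit 621) (nat_lit 592) (nat_lit 347))))) (XT.nd (nat_lit 312)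 (nat_lit 1748) (nat_lit 0) (XT.nd (nat_lit 156) (nat_lit 836) (nat_lit 0) (XT.nd (nat_lit 78) (nat_lit 0) (nat_lit 0) (XT.lf (nat_lit 0) (nat_lit 175740178) (nat_lit 912) (nat_lit 10050002405) (nat_lit 988) (nat_lit 12951726656) (nat_lit 420) (nat_lit 5) (nat_lit 432) (nat_lit 5) (nat_lit 433) (nat_lit 5) (nat_lit 622) (nat_lit 592) (nat_lit 346)) (XT.lf (nat_lit 0) (nat_lit 12709423030) (nat_lit 988) (nat_lit 10414930528) (nat_lit 76) (nat_lit 304734238) (nat_lit 420) (nat_lit 5) (nat_lit 433) (nat_lit 5) (nat_lit 421) (nat_lit 5) (nat_lit 623) (nat_lit 592) (nat_lit 345))) (XT.nd (nat_lit 78) (nat_lit 0) (nat_lit 0) (XT.lf (nat_lit 0) (nat_lit 2384936727) (nat_lit 836) (nat_lit 12936351399) (nat_lit 912) (nat_lit 8362880576) (nat_lit 409) (nat_lit 5) (nat_lit 420) (nat_lit 5) (nat_lit 421) (nat_lit 5) (nat_lit 624) (nat_lit 592) (nat_lit 344)) (XT.lf (nat_lit 0) (nat_lit 15578610937) (nat_lit 836) (nat_lit 2473186744) (nat_lit 912) (nat_lit 5891225597) (nat_lit 409) (nat_lit 5) (nat_lit 420) (nat_lit 5) (nat_lit 421) (nat_lit 5) (nat_lit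 625) (nat_lit 592) (nat_lit 343)))) (XT.nd (nat_lit 156) (nat_lit 912) (nat_lit 0) (XT.nd (nat_lit 78) (nat_lit 0) (nat_lit 0) (XT.lf (nat_lit 0) (nat_lit 4835922069) (nat_lit 836) (nat_lit 16082214791) (nat_lit 912) (nat_lit 3287293886) (nat_lit 398) (nat_lit 5) (nat_lit 409) (nat_lit 5) (nat_lit 410) (nat_lit 5) (nat_lit 626) (nat_lit 592) (nat_lit 342)) (XT.lf (nat_lit 0) (nat_lit 18393700079) (nat_lit 836) (nat_lit 5517135018) (nat_lit 912) (nat_lit 560870810) (nat_lit 398) (nat_lit 5) (nat_lit 409) (nat_lit 5) (nat_lit 410) (nat_lit 5) (nat_lit 627) (nat_lit 592) (nat_lit 341))) (XT.nd (nat_lit 78) (nat_lit 0) (nat_lit 0) (XT.lf (nat_lit 0) (nat_lit 2271296091) (nat_lit 912) (nat_lit 17215924044) (nat_lit 76) (nat_lit 5254191686) (nat_lit 386) (nat_lit 5) (nat_lit 398) (nat_lit 5) (nat_lit 387) (nat_lit 5) (nat_lit 628) (nat_lit 592) (nat_lit 340)) (XT.lf (nat_lit 0) (nat_lit 5226916593) (nat_lit 912) (nat_lit 3576148657) (nat_lit 76) (nat_lit 16211886229) (nat_lit 386) (nat_lit 5) (nat_lit 398) (nat_lit 5) (nat_lit 387) (nat_lit 5)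 (nat_lit 629) (nat_lit 592) (nat_lit 339)))))) (XT.nd (nat_lit 546) (nat_lit 3496) (nat_lit 0) (XT.nd (nat_lit 234) (nat_lit 1520) (nat_lit 0) (XT.nd (nat_lit 78) (nat_lit 760) (nat_lit 0) (XT.lf (nat_lit 0) (nat_lit 8320464408) (nat_lit 912) (nat_lit 14836278022) (nat_lit 76) (nat_lit 2135643373) (nat_lit 375) (nat_lit 5) (nat_lit 387) (nat_lit 5) (nat_lit 376) (nat_lit 5) (nat_lit 630) (nat_lit 592) (nat_lit 338)) (XT.nd (nat_lit 78) (nat_lit 760) (nat_lit 0) (XT.lf (nat_lit 0) (nat_lit 11555163020) (nat_lit 912) (nat_lit 819207317) (nat_lit 76) (nat_lit 13199413050) (nat_lit 375) (nat_lit 5) (nat_lit 387) (nat_lit 5) (nat_lit 376) (nat_lit 5) (nat_lit 631) (nat_lit 592) (nat_lit 337)) (XT.lf (nat_lit 0) (nat_lit 13653998990) (nat_lit 760) (nat_lit 1286094323) (nat_lit 836) (nat_lit 10919005020) (nat_lit 365) (nat_lit 5) (nat_lit 375) (nat_lit 5) (nat_lit 376) (nat_lit 5) (nat_lit 632) (nat_lit 592) (nat_lit 336)))) (XT.nd (nat_lit 156) (nat_lit 760) (nat_lit 0) (XT.nd (nat_lit 78) (nat_lit 0) (nat_lit 0) (XT.lf (nat_lit 0) (nat_lit 2238687324)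 (nat_lit 760) (nat_lit 16236111334) (nat_lit 836) (nat_lit 7673679555) (nat_lit 355) (nat_lit 5) (nat_lit 365) (nat_lit 5) (nat_lit 366) (nat_lit 5) (nat_lit 633) (nat_lit 592) (nat_lit 335)) (XT.lf (nat_lit 0) (nat_lit 17124865223) (nat_lit 760) (nat_lit 5042661115) (nat_lit 836) (nat_lit 4274372946) (nat_lit 355) (nat_lit 5) (nat_lit 365) (nat_lit 5) (nat_lit 366) (nat_lit 5) (nat_lit 634) (nat_lit 592) (nat_lit 334))) (XT.nd (nat_lit 78) (nat_lit 76) (nat_lit 0) (XT.lf (nat_lit 0) (nat_lit 5596294988) (nat_lit 684) (nat_lit 20412559249) (nat_lit 760) (nat_lit 730839784) (nat_lit 346) (nat_lit 5) (nat_lit 355) (nat_lit 5) (nat_lit 356) (nat_lit 5) (nat_lit 635) (nat_lit 592) (nat_lit 333)) (XT.lf (nat_lit 0) (nat_lit 2939116774) (nat_lit 760) (nat_lit 6163848572) (nat_lit 76) (nat_lit 17938237592) (nat_lit 345) (nat_lit 5) (nat_lit 355) (nat_lit 5) (nat_lit 346) (nat_lit 5) (nat_lit 636) (nat_lit 592) (nat_lit 332))))) (XT.nd (nat_lit 312) (nat_lit 1368) (nat_lit 0) (XT.nd (nat_lit 156) (nat_lit 1368) (nat_lit 0) (XT.nd (nat_lit 78) (nat_lit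 0) (nat_lit 0) (XT.lf (nat_lit 0) (nat_lit 6745931504) (nat_lit 836) (nat_lit 18135488088) (nat_lit 76) (nat_lit 2465761074) (nat_lit 335) (nat_lit 5) (nat_lit 346) (nat_lit 5) (nat_lit 336) (nat_lit 5) (nat_lit 637) (nat_lit 592) (nat_lit 331)) (XT.lf (nat_lit 0) (nat_lit 10727935202) (nat_lit 836) (nat_lit 2743989613) (nat_lit 76) (nat_lit 14185372221) (nat_lit 335) (nat_lit 5) (nat_lit 346) (nat_lit 5) (nat_lit 336) (nat_lit 5) (nat_lit 638) (nat_lit 592) (nat_lit 330))) (XT.nd (nat_lit 78) (nat_lit 684) (nat_lit 0) (XT.lf (nat_lit 0) (nat_lit 13124252430) (nat_lit 684) (nat_lit 1747725684) (nat_lit 760) (nat_lit 13099989782) (nat_lit 326) (nat_lit 5) (nat_lit 335) (nat_lit 5) (nat_lit 336) (nat_lit 5) (nat_lit 639) (nat_lit 592) (nat_lit 329)) (XT.lf (nat_lit 0) (nat_lit 997915308) (nat_lit 684) (nat_lit 18189517084) (nat_lit 760) (nat_lit 9103729308) (nat_lit 317) (nat_lit 5) (nat_lit 326) (nat_lit 5) (nat_lit 327) (nat_lit 5) (nat_lit 640) (nat_lit 592) (nat_lit 328)))) (XT.nd (nat_lit 156) (nat_lit 760) (nat_lit 0) (XT.nd (nat_lit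 78) (nat_lit 608) (nat_lit 0) (XT.lf (nat_lit 0) (nat_lit 17346771386) (nat_lit 684) (nat_lit 6350811652) (nat_lit 760) (nat_lit 4916988733) (nat_lit 317) (nat_lit 5) (nat_lit 326) (nat_lit 5) (nat_lit 327) (nat_lit 5) (nat_lit 641) (nat_lit 592) (nat_lit 327)) (XT.lf (nat_lit 0) (nat_lit 5104723982) (nat_lit 608) (nat_lit 23260828234) (nat_lit 684) (nat_lit 577545650) (nat_lit 309) (nat_lit 5) (nat_lit 317) (nat_lit 5) (nat_lit 318) (nat_lit 5) (nat_lit 642) (nat_lit 592) (nat_lit 326))) (XT.nd (nat_lit 78) (nat_lit 684) (nat_lit 0) (XT.lf (nat_lit 0) (nat_lit 3913700358) (nat_lit 684) (nat_lit 7390018944) (nat_lit 76) (nat_lit 17971665739) (nat_lit 308) (nat_lit 5) (nat_lit 317) (nat_lit 5) (nat_lit 309) (nat_lit 5) (nat_lit 643) (nat_lit 592) (nat_lit 325)) (XT.lf (nat_lit 0) (nat_lit 8552354132) (nat_lit 760) (nat_lit 20114310613) (nat_lit 76) (nat_lit 946270667) (nat_lit 299) (nat_lit 5) (nat_lit 309) (nat_lit 5) (nat_lit 300) (nat_lit 5) (nat_lit 644) (nat_lit 592) (nat_lit 324))))))) (XT.nd (nat_lit 77532) (nat_lit 0) (nat_lit 17100)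 (XT.nd (nat_lit 546) (nat_lit 1140) (nat_lit 0) (XT.nd (nat_lit 234) (nat_lit 1292) (nat_lit 0) (XT.nd (nat_lit 78) (nat_lit 1216) (nat_lit 0) (XT.lf (nat_lit 0) (nat_lit 13405957887) (nat_lit 760) (nat_lit 3209408094) (nat_lit 76) (nat_lit 13339427393) (nat_lit 299) (nat_lit 5) (nat_lit 309) (nat_lit 5) (nat_lit 300) (nat_lit 5) (nat_lit 645) (nat_lit 592) (nat_lit 323)) (XT.nd (nat_lit 78) (nat_lit 608) (nat_lit 0) (XT.lf (nat_lit 0) (nat_lit 14216921814) (nat_lit 608) (nat_lit 4229467100) (nat_lit 684) (nat_lit 11855304598) (nat_lit 291) (nat_lit 5) (nat_lit 299) (nat_lit 5) (nat_lit 300) (nat_lit 5) (nat_lit 646) (nat_lit 592) (nat_lit 322)) (XT.lf (nat_lit 0) (nat_lit 1339892476) (nat_lit 608) (nat_lit 22330155855) (nat_lit 684) (nat_lit 6983835047) (nat_lit 283) (nat_lit 5) (nat_lit 291) (nat_lit 5) (nat_lit 292) (nat_lit 5) (nat_lit 647) (nat_lit 592) (nat_lit 321)))) (XT.nd (nat_lit 156) (nat_lit 608) (nat_lit 0) (XT.nd (nat_lit 78) (nat_lit 684) (nat_lit 0) (XT.lf (nat_lit 0) (nat_lit 19299567763) (nat_lit 608) (nat_lit 9831880587)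 (nat_lit 684) (nat_lit 1879003458) (nat_lit 283) (nat_lit 5) (nat_lit 291) (nat_lit 5) (nat_lit 292) (nat_lit 5) (nat_lit 648) (nat_lit 592) (nat_lit 320)) (XT.lf (nat_lit 0) (nat_lit 3342078827) (nat_lit 684) (nat_lit 25090067543) (nat_lit 76) (nat_lit 2940417197) (nat_lit 274) (nat_lit 5) (nat_lit 283) (nat_lit 5) (nat_lit 275) (nat_lit 5) (nat_lit 649) (nat_lit 592) (nat_lit 319))) (XT.nd (nat_lit 78) (nat_lit 608) (nat_lit 0) (XT.lf (nat_lit 0) (nat_lit 8784226192) (nat_lit 684) (nat_lit 7027063073) (nat_lit 76) (nat_lit 15927543937) (nat_lit 274) (nat_lit 5) (nat_lit 283) (nat_lit 5) (nat_lit 275) (nat_lit 5) (nat_lit 650) (nat_lit 592) (nat_lit 318)) (XT.lf (nat_lit 0) (nat_lit 11545555797) (nat_lit 608) (nat_lit 2862231273) (nat_lit 684) (nat_lit 17703189855) (nat_lit 266) (nat_lit 5) (nat_lit 274) (nat_lit 5) (nat_lit 275) (nat_lit 5) (nat_lit 651) (nat_lit 592) (nat_lit 317))))) (XT.nd (nat_lit 76674) (nat_lit 0) (nat_lit 18620) (XT.nd (nat_lit 156) (nat_lit 608) (nat_lit 0) (XT.nd (nat_lit 78) (nat_lit 532) (nat_lit 0) (XT.lf (nat_lit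 0) (nat_lit 20256090408) (nat_lit 684) (nat_lit 1975314303) (nat_lit 76) (nat_lit 10256913494) (nat_lit 266) (nat_lit 5) (nat_lit 275) (nat_lit 5) (nat_lit 267) (nat_lit 5) (nat_lit 652) (nat_lit 592) (nat_lit 316)) (XT.lf (nat_lit 0) (nat_lit 17190060328) (nat_lit 532) (nat_lit 9159542179) (nat_lit 608) (nat_lit 6521039050) (nat_lit 259) (nat_lit 5) (nat_lit 266) (nat_lit 5) (nat_lit 267) (nat_lit 5) (nat_lit 653) (nat_lit 592) (nat_lit 315))) (XT.nd (nat_lit 78) (nat_lit 76) (nat_lit 0) (XT.lf (nat_lit 0) (nat_lit 3521114211) (nat_lit 532) (nat_lit 29104873627) (nat_lit 608) (nat_lit 633403581) (nat_lit 252) (nat_lit 5) (nat_lit 259) (nat_lit 5) (nat_lit 260) (nat_lit 5) (nat_lit 654) (nat_lit 592) (nat_lit 314)) (XT.lf (nat_lit 0) (nat_lit 5465820934) (nat_lit 608) (nat_lit 10433710167) (nat_lit 76) (nat_lit 17752401888) (nat_lit 251) (nat_lit 5) (nat_lit 259) (nat_lit 5) (nat_lit 252) (nat_lit 5) (nat_lit 655) (nat_lit 592) (nat_lit 313)))) (XT.nd (nat_lit 156) (nat_lit 0) (nat_lit 76) (XT.nd (nat_lit 78) (nat_lit 0) (nat_lit 0) (XT.lf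 (nat_lit 0) (nat_lit 13683761968) (nat_lit 1748) (nat_lit 2113141576) (nat_lit 1824) (nat_lit 1758251223) (nat_lit 496) (nat_lit 5) (nat_lit 519) (nat_lit 3) (nat_lit 520) (nat_lit 5) (nat_lit 594) (nat_lit 593) (nat_lit 373)) (XT.lf (nat_lit 76) (nat_lit 6713327381) (nat_lit 0) (nat_lit 7424391877) (nat_lit 1824) (nat_lit 3588396419) (nat_lit 497) (nat_lit 5) (nat_lit 496) (nat_lit 5) (nat_lit 520) (nat_lit 5) (nat_lit 595) (nat_lit 593) (nat_lit 372))) (XT.nd (nat_lit 78) (nat_lit 0) (nat_lit 0) (XT.lf (nat_lit 0) (nat_lit 14616632413) (nat_lit 1748) (nat_lit 2165709502) (nat_lit 1824) (nat_lit 1117836709) (nat_lit 497) (nat_lit 5) (nat_lit 520) (nat_lit 5) (nat_lit 521) (nat_lit 5) (nat_lit 596) (nat_lit 593) (nat_lit 371)) (XT.lf (nat_lit 76) (nat_lit 6896522946) (nat_lit 0) (nat_lit 8297015938) (nat_lit 1824) (nat_lit 2882415990) (nat_lit 498) (nat_lit 5) (nat_lit 497) (nat_lit 5) (nat_lit 521) (nat_lit 5) (nat_lit 597) (nat_lit 593) (nat_lit 370)))))) (XT.nd (nat_lit 546) (nat_lit 0) (nat_lit 76) (XT.nd (nat_lit 234) (nat_lit 1672)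 (nat_lit 0) (XT.nd (nat_lit 78) (nat_lit 0) (nat_lit 0) (XT.lf (nat_lit 0) (nat_lit 15793511526) (nat_lit 1748) (nat_lit 2091193318) (nat_lit 1824) (nat_lit 370311582) (nat_lit 498) (nat_lit 5) (nat_lit 521) (nat_lit 5) (nat_lit 522) (nat_lit 5) (nat_lit 598) (nat_lit 593) (nat_lit 369)) (XT.nd (nat_lit 78) (nat_lit 0) (nat_lit 0) (XT.lf (nat_lit 76) (nat_lit 7215382794) (nat_lit 0) (nat_lit 9286575652) (nat_lit 1824) (nat_lit 1933771599) (nat_lit 499) (nat_lit 5) (nat_lit 498) (nat_lit 5) (nat_lit 522) (nat_lit 5) (nat_lit 599) (nat_lit 593) (nat_lit 368)) (XT.lf (nat_lit 76) (nat_lit 16733346387) (nat_lit 0) (nat_lit 500025811) (nat_lit 1824) (nat_lit 1386510106) (nat_lit 499) (nat_lit 5) (nat_lit 498) (nat_lit 5) (nat_lit 522) (nat_lit 5) (nat_lit 600) (nat_lit 593) (nat_lit 367)))) (XT.nd (nat_lit 156) (nat_lit 1748) (nat_lit 0) (XT.nd (nat_lit 78) (nat_lit 0) (nat_lit 0) (XT.lf (nat_lit 76) (nat_lit 7676541559) (nat_lit 0) (nat_lit 10402537622) (nat_lit 1824) (nat_lit 726645448) (nat_lit 500) (nat_lit 5) (nat_lit 499) (nat_lit 5) (nat_lit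 523) (nat_lit 5) (nat_lit 601) (nat_lit 593) (nat_lit 366)) (XT.lf (nat_lit 76) (nat_lit 17449971608) (nat_lit 0) (nat_lit 1502639244) (nat_lit 1824) (nat_lit 42455049) (nat_lit 500) (nat_lit 5) (nat_lit 499) (nat_lit 5) (nat_lit 523) (nat_lit 5) (nat_lit 602) (nat_lit 593) (nat_lit 365))) (XT.nd (nat_lit 78) (nat_lit 0) (nat_lit 0) (XT.lf (nat_lit 0) (nat_lit 745532860) (nat_lit 1824) (nat_lit 10904135746) (nat_lit 1900) (nat_lit 7536466392) (nat_lit 476) (nat_lit 5) (nat_lit 500) (nat_lit 5) (nat_lit 501) (nat_lit 5) (nat_lit 603) (nat_lit 593) (nat_lit 364)) (XT.lf (nat_lit 0) (nat_lit 1564216843) (nat_lit 1824) (nat_lit 1067760681) (nat_lit 1900) (nat_lit 16748732541) (nat_lit 476) (nat_lit 5) (nat_lit 500) (nat_lit 5) (nat_lit 501) (nat_lit 5) (nat_lit 604) (nat_lit 593) (nat_lit 363))))) (XT.nd (nat_lit 312) (nat_lit 0) (nat_lit 152) (XT.nd (nat_lit 156) (nat_lit 0) (nat_lit 76) (XT.nd (nat_lit 78) (nat_lit 0) (nat_lit 0) (XT.lf (nat_lit 0) (nat_lit 2496480283) (nat_lit 1824) (nat_lit 10539838361) (nat_lit 1900) (nat_lit 6540914161)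 (nat_lit 477) (nat_lit 5) (nat_lit 501) (nat_lit 5) (nat_lit 502) (nat_lit 5) (nat_lit 605) (nat_lit 593) (nat_lit 362)) (XT.lf (nat_lit 0) (nat_lit 3467327475) (nat_lit 1824) (nat_lit 439135248) (nat_lit 1900) (nat_lit 15870824791) (nat_lit 477) (nat_lit 5) (nat_lit 501) (nat_lit 5) (nat_lit 502) (nat_lit 5) (nat_lit 606) (nat_lit 593) (nat_lit 361))) (XT.nd (nat_lit 78) (nat_lit 0) (nat_lit 0) (XT.lf (nat_lit 0) (nat_lit 4553388615) (nat_lit 1824) (nat_lit 10024232791) (nat_lit 1900) (nat_lit 5401806248) (nat_lit 478) (nat_lit 5) (nat_lit 502) (nat_lit 5) (nat_lit 503) (nat_lit 5) (nat_lit 607) (nat_lit 593) (nat_lit 360)) (XT.lf (nat_lit 76) (nat_lit 353299069) (nat_lit 0) (nat_lit 5334469381) (nat_lit 1900) (nat_lit 14497310472) (nat_lit 479) (nat_lit 5) (nat_lit 478) (nat_lit 5) (nat_lit 503) (nat_lit 5) (nat_lit 608) (nat_lit 593) (nat_lit 359)))) (XT.nd (nat_lit 156) (nat_lit 0) (nat_lit 76) (XT.nd (nat_lit 78) (nat_lit 0) (nat_lit 0) (XT.lf (nat_lit 0) (nat_lit 6934669786) (nat_lit 1824) (nat_lit 9349591698) (nat_lit 1900) (nat_lit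 4108785318) (nat_lit 479) (nat_lit 5) (nat_lit 503) (nat_lit 5) (nat_lit 504) (nat_lit 5) (nat_lit 609) (nat_lit 593) (nat_lit 358)) (XT.lf (nat_lit 76) (nat_lit 1320969689) (nat_lit 0) (nat_lit 6925073613) (nat_lit 1900) (nat_lit 12358340316) (nat_lit 480) (nat_lit 5) (nat_lit 479) (nat_lit 5) (nat_lit 504) (nat_lit 5) (nat_lit 610) (nat_lit 593) (nat_lit 357))) (XT.nd (nat_lit 78) (nat_lit 0) (nat_lit 0) (XT.lf (nat_lit 0) (nat_lit 9659521099) (nat_lit 1824) (nat_lit 8507788003) (nat_lit 1900) (nat_lit 2651120791) (nat_lit 480) (nat_lit 5) (nat_lit 504) (nat_lit 5) (nat_lit 505) (nat_lit 5) (nat_lit 611) (nat_lit 593) (nat_lit 356)) (XT.lf (nat_lit 76) (nat_lit 2466564524) (nat_lit 0) (nat_lit 8692365620) (nat_lit 1900) (nat_lit 9876673967) (nat_lit 481) (nat_lit 5) (nat_lit 480) (nat_lit 5) (nat_lit 505) (nat_lit 5) (nat_lit 612) (nat_lit 593) (nat_lit 355))))))))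
noncomputable def xc101 : XT := (XT.nd (nat_lit 2340) (nat_lit 4940) (nat_lit 0) (XT.nd (nat_lit 1170) (nat_lit 6156) (nat_lit 0) (XT.nd (nat_lit 546) (nat_lit 4560) (nat_lit 0) (XT.nd (nat_lit 234) (nat_lit 1748) (nat_lit 0) (XT.nd (nat_lit 78) (nat_lit 0) (nat_lit 0) (XT.lf (nat_lit 0) (nat_lit 12747961631) (nat_lit 1824) (nat_lit 7490281576) (nat_lit 1900) (nat_lit 1017686166) (nat_lit 481) (nat_lit 5) (nat_lit 505) (nat_lit 5) (nat_lit 506) (nat_lit 5) (nat_lit 613) (nat_lit 593) (nat_lit 354)) (XT.nd (nat_lit 78) (nat_lit 0) (nat_lit 0) (XT.lf (nat_lit 76) (nat_lit 3799035261) (nat_lit 0) (nat_lit 10647904059) (nat_lit 1900) (nat_lit 7032158750) (nat_lit 482) (nat_lit 5) (nat_lit 481) (nat_lit 5) (nat_lit 506) (nat_lit 5) (nat_lit 614) (nat_lit 593) (nat_lit 353)) (XT.lf (nat_lit 76) (nat_lit 15412416699) (nat_lit 0) (nat_lit 813736566) (nat_lit 1900) (nat_lit 5479651982) (nat_lit 482) (nat_lit 5) (nat_lit 481) (nat_lit 5) (nat_lit 506) (nat_lit 5) (nat_lit 615) (nat_lit 593) (nat_lit 352)))) (XT.nd (nat_lit 156) (nat_lit 1824) (nat_lit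 0) (XT.nd (nat_lit 78) (nat_lit 0) (nat_lit 0) (XT.lf (nat_lit 76) (nat_lit 5327776066) (nat_lit 0) (nat_lit 12803686825) (nat_lit 1900) (nat_lit 3803773678) (nat_lit 483) (nat_lit 5) (nat_lit 482) (nat_lit 5) (nat_lit 507) (nat_lit 5) (nat_lit 616) (nat_lit 593) (nat_lit 351)) (XT.lf (nat_lit 76) (nat_lit 17257959198) (nat_lit 0) (nat_lit 2860637136) (nat_lit 1900) (nat_lit 2049786061) (nat_lit 483) (nat_lit 5) (nat_lit 482) (nat_lit 5) (nat_lit 507) (nat_lit 5) (nat_lit 617) (nat_lit 593) (nat_lit 350))) (XT.nd (nat_lit 78) (nat_lit 76) (nat_lit 0) (XT.lf (nat_lit 0) (nat_lit 7062638863) (nat_lit 1824) (nat_lit 15172175676) (nat_lit 1900) (nat_lit 169589979) (nat_lit 459) (nat_lit 5) (nat_lit 483) (nat_lit 5) (nat_lit 484) (nat_lit 5) (nat_lit 618) (nat_lit 593) (nat_lit 349)) (XT.lf (nat_lit 0) (nat_lit 1773636440) (nat_lit 1900) (nat_lit 3336574776) (nat_lit 76) (nat_lit 17533741981) (nat_lit 458) (nat_lit 5) (nat_lit 483) (nat_lit 5) (nat_lit 459) (nat_lit 5) (nat_lit 619) (nat_lit 593) (nat_lit 348))))) (XT.nd (nat_lit 312) (nat_lit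 1672) (nat_lit 0) (XT.nd (nat_lit 156) (nat_lit 1824) (nat_lit 0) (XT.nd (nat_lit 78) (nat_lit 0) (nat_lit 0) (XT.lf (nat_lit 0) (nat_lit 3842208887) (nat_lit 1140) (nat_lit 13898329491) (nat_lit 76) (nat_lit 5145957217) (nat_lit 444) (nat_lit 5) (nat_lit 459) (nat_lit 5) (nat_lit 445) (nat_lit 5) (nat_lit 620) (nat_lit 593) (nat_lit 347)) (XT.lf (nat_lit 0) (nat_lit 6004901730) (nat_lit 1140) (nat_lit 1566089130) (nat_lit 76) (nat_lit 15561843207) (nat_lit 444) (nat_lit 5) (nat_lit 459) (nat_lit 5) (nat_lit 445) (nat_lit 5) (nat_lit 621) (nat_lit 593) (nat_lit 346))) (XT.nd (nat_lit 78) (nat_lit 912) (nat_lit 0) (XT.lf (nat_lit 0) (nat_lit 8298393058) (nat_lit 988) (nat_lit 12245511455) (nat_lit 76) (nat_lit 2838444107) (nat_lit 432) (nat_lit 5) (nat_lit 445) (nat_lit 5) (nat_lit 433) (nat_lit 5) (nat_lit 622) (nat_lit 593) (nat_lit 345)) (XT.lf (nat_lit 0) (nat_lit 430571781) (nat_lit 912) (nat_lit 10267186176) (nat_lit 988) (nat_lit 12937895629) (nat_lit 420) (nat_lit 5) (nat_lit 432) (nat_lit 5) (nat_lit 433) (nat_lit 5) (nat_lit 623)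 (nat_lit 593) (nat_lit 344)))) (XT.nd (nat_lit 156) (nat_lit 836) (nat_lit 0) (XT.nd (nat_lit 78) (nat_lit 836) (nat_lit 0) (XT.lf (nat_lit 0) (nat_lit 13225763890) (nat_lit 988) (nat_lit 10371477263) (nat_lit 76) (nat_lit 295170618) (nat_lit 420) (nat_lit 5) (nat_lit 433) (nat_lit 5) (nat_lit 421) (nat_lit 5) (nat_lit 624) (nat_lit 593) (nat_lit 343)) (XT.lf (nat_lit 0) (nat_lit 2682731074) (nat_lit 836) (nat_lit 13203618758) (nat_lit 912) (nat_lit 8266315083) (nat_lit 409) (nat_lit 5) (nat_lit 420) (nat_lit 5) (nat_lit 421) (nat_lit 5) (nat_lit 625) (nat_lit 593) (nat_lit 342))) (XT.nd (nat_lit 78) (nat_lit 836) (nat_lit 0) (XT.lf (nat_lit 0) (nat_lit 16135374933) (nat_lit 836) (nat_lit 2531023352) (nat_lit 912) (nat_lit 5750400006) (nat_lit 409) (nat_lit 5) (nat_lit 420) (nat_lit 5) (nat_lit 421) (nat_lit 5) (nat_lit 626) (nat_lit 593) (nat_lit 341)) (XT.lf (nat_lit 0) (nat_lit 5181325184) (nat_lit 836) (nat_lit 16405328537) (nat_lit 912) (nat_lit 3097868675) (nat_lit 398) (nat_lit 5) (nat_lit 409) (nat_lit 5) (nat_lit 410) (nat_lit 5)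 (nat_lit 627) (nat_lit 593) (nat_lit 340)))))) (XT.nd (nat_lit 546) (nat_lit 2888) (nat_lit 0) (XT.nd (nat_lit 234) (nat_lit 2356) (nat_lit 0) (XT.nd (nat_lit 78) (nat_lit 912) (nat_lit 0) (XT.lf (nat_lit 0) (nat_lit 19005382584) (nat_lit 836) (nat_lit 5628918356) (nat_lit 912) (nat_lit 321920492) (nat_lit 398) (nat_lit 5) (nat_lit 409) (nat_lit 5) (nat_lit 410) (nat_lit 5) (nat_lit 628) (nat_lit 593) (nat_lit 339)) (XT.nd (nat_lit 78) (nat_lit 0) (nat_lit 0) (XT.lf (nat_lit 0) (nat_lit 2560373567) (nat_lit 912) (nat_lit 17309891417) (nat_lit 76) (nat_lit 5361088962) (nat_lit 386) (nat_lit 5) (nat_lit 398) (nat_lit 5) (nat_lit 387) (nat_lit 5) (nat_lit 629) (nat_lit 593) (nat_lit 338)) (XT.lf (nat_lit 0) (nat_lit 5570328997) (nat_lit 912) (nat_lit 3402229367) (nat_lit 76) (nat_lit 16537901838) (nat_lit 386) (nat_lit 5) (nat_lit 398) (nat_lit 5) (nat_lit 387) (nat_lit 5) (nat_lit 630) (nat_lit 593) (nat_lit 337)))) (XT.nd (nat_lit 156) (nat_lit 1520) (nat_lit 0) (XT.nd (nat_lit 78) (nat_lit 0) (nat_lit 0) (XT.lf (nat_lit 0) (nat_lit 8722699345)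 (nat_lit 912) (nat_lit 14884500324) (nat_lit 76) (nat_lit 2186304763) (nat_lit 375) (nat_lit 5) (nat_lit 387) (nat_lit 5) (nat_lit 376) (nat_lit 5) (nat_lit 631) (nat_lit 593) (nat_lit 336)) (XT.lf (nat_lit 0) (nat_lit 12017467897) (nat_lit 912) (nat_lit 591960817) (nat_lit 76) (nat_lit 13471193980) (nat_lit 375) (nat_lit 5) (nat_lit 387) (nat_lit 5) (nat_lit 376) (nat_lit 5) (nat_lit 632) (nat_lit 593) (nat_lit 335))) (XT.nd (nat_lit 78) (nat_lit 760) (nat_lit 0) (XT.lf (nat_lit 0) (nat_lit 14169106782) (nat_lit 760) (nat_lit 1298028055) (nat_lit 836) (nat_lit 10904568584) (nat_lit 365) (nat_lit 5) (nat_lit 375) (nat_lit 5) (nat_lit 376) (nat_lit 5) (nat_lit 633) (nat_lit 593) (nat_lit 334)) (XT.lf (nat_lit 0) (nat_lit 2528354429) (nat_lit 760) (nat_lit 16541382348) (nat_lit 836) (nat_lit 7597190308) (nat_lit 355) (nat_lit 5) (nat_lit 365) (nat_lit 5) (nat_lit 366) (nat_lit 5) (nat_lit 634) (nat_lit 593) (nat_lit 333))))) (XT.nd (nat_lit 312) (nat_lit 1368) (nat_lit 0) (XT.nd (nat_lit 156) (nat_lit 836) (nat_lit 0) (XT.nd (nat_lit 78) (nat_lit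 684) (nat_lit 0) (XT.lf (nat_lit 0) (nat_lit 17707454056) (nat_lit 760) (nat_lit 5124444522) (nat_lit 836) (nat_lit 4134406642) (nat_lit 355) (nat_lit 5) (nat_lit 365) (nat_lit 5) (nat_lit 366) (nat_lit 5) (nat_lit 635) (nat_lit 593) (nat_lit 332)) (XT.lf (nat_lit 0) (nat_lit 5951012759) (nat_lit 684) (nat_lit 20796404268) (nat_lit 760) (nat_lit 522691772) (nat_lit 346) (nat_lit 5) (nat_lit 355) (nat_lit 5) (nat_lit 356) (nat_lit 5) (nat_lit 636) (nat_lit 593) (nat_lit 331))) (XT.nd (nat_lit 78) (nat_lit 760) (nat_lit 0) (XT.lf (nat_lit 0) (nat_lit 3213431666) (nat_lit 760) (nat_lit 6046219037) (nat_lit 76) (nat_lit 18318054698) (nat_lit 345) (nat_lit 5) (nat_lit 355) (nat_lit 5) (nat_lit 346) (nat_lit 5) (nat_lit 637) (nat_lit 593) (nat_lit 330)) (XT.lf (nat_lit 0) (nat_lit 7093882200) (nat_lit 836) (nat_lit 18254780122) (nat_lit 76) (nat_lit 2541190583) (nat_lit 335) (nat_lit 5) (nat_lit 346) (nat_lit 5) (nat_lit 336) (nat_lit 5) (nat_lit 638) (nat_lit 593) (nat_lit 329)))) (XT.nd (nat_lit 156) (nat_lit 684) (nat_lit 0) (XT.nd (nat_lit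 78) (nat_lit 684) (nat_lit 0) (XT.lf (nat_lit 0) (nat_lit 11151348874) (nat_lit 836) (nat_lit 2560224575) (nat_lit 76) (nat_lit 14494681909) (nat_lit 335) (nat_lit 5) (nat_lit 346) (nat_lit 5) (nat_lit 336) (nat_lit 5) (nat_lit 639) (nat_lit 593) (nat_lit 328)) (XT.lf (nat_lit 0) (nat_lit 13623812278) (nat_lit 684) (nat_lit 1751904417) (nat_lit 760) (nat_lit 13151554264) (nat_lit 326) (nat_lit 5) (nat_lit 335) (nat_lit 5) (nat_lit 336) (nat_lit 5) (nat_lit 640) (nat_lit 593) (nat_lit 327))) (XT.nd (nat_lit 78) (nat_lit 0) (nat_lit 0) (XT.lf (nat_lit 0) (nat_lit 1257299291) (nat_lit 684) (nat_lit 18517886098) (nat_lit 760) (nat_lit 9077709345) (nat_lit 317) (nat_lit 5) (nat_lit 326) (nat_lit 5) (nat_lit 327) (nat_lit 5) (nat_lit 641) (nat_lit 593) (nat_lit 326)) (XT.lf (nat_lit 0) (nat_lit 17928437869) (nat_lit 684) (nat_lit 6443101093) (nat_lit 760) (nat_lit 4811314245) (nat_lit 317) (nat_lit 5) (nat_lit 326) (nat_lit 5) (nat_lit 327) (nat_lit 5) (nat_lit 642) (nat_lit 593) (nat_lit 325))))))) (XT.nd (nat_lit 77532) (nat_lit 0) (nat_lit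 16948) (XT.nd (nat_lit 546) (nat_lit 2356) (nat_lit 0) (XT.nd (nat_lit 234) (nat_lit 1216) (nat_lit 0) (XT.nd (nat_lit 78) (nat_lit 760) (nat_lit 0) (XT.lf (nat_lit 0) (nat_lit 5443764865) (nat_lit 608) (nat_lit 23686940468) (nat_lit 684) (nat_lit 387287929) (nat_lit 309) (nat_lit 5) (nat_lit 317) (nat_lit 5) (nat_lit 318) (nat_lit 5) (nat_lit 643) (nat_lit 593) (nat_lit 324)) (XT.nd (nat_lit 78) (nat_lit 684) (nat_lit 0) (XT.lf (nat_lit 0) (nat_lit 4187231108) (nat_lit 684) (nat_lit 7302914726) (nat_lit 76) (nat_lit 18366832432) (nat_lit 308) (nat_lit 5) (nat_lit 317) (nat_lit 5) (nat_lit 309) (nat_lit 5) (nat_lit 644) (nat_lit 593) (nat_lit 323)) (XT.lf (nat_lit 0) (nat_lit 8916606923) (nat_lit 760) (nat_lit 20279632034) (nat_lit 76) (nat_lit 1005081889) (nat_lit 299) (nat_lit 5) (nat_lit 309) (nat_lit 5) (nat_lit 300) (nat_lit 5) (nat_lit 645) (nat_lit 593) (nat_lit 322)))) (XT.nd (nat_lit 156) (nat_lit 608) (nat_lit 0) (XT.nd (nat_lit 78) (nat_lit 608) (nat_lit 0) (XT.lf (nat_lit 0) (nat_lit 13863494406) (nat_lit 760) (nat_lit 3041277833)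 (nat_lit 76) (nat_lit 13645319676) (nat_lit 299) (nat_lit 5) (nat_lit 309) (nat_lit 5) (nat_lit 300) (nat_lit 5) (nat_lit 646) (nat_lit 593) (nat_lit 321)) (XT.lf (nat_lit 0) (nat_lit 14732050263) (nat_lit 608) (nat_lit 4270468168) (nat_lit 684) (nat_lit 11901456114) (nat_lit 291) (nat_lit 5) (nat_lit 299) (nat_lit 5) (nat_lit 300) (nat_lit 5) (nat_lit 647) (nat_lit 593) (nat_lit 320))) (XT.nd (nat_lit 78) (nat_lit 0) (nat_lit 0) (XT.lf (nat_lit 0) (nat_lit 1599408988) (nat_lit 608) (nat_lit 22729359843) (nat_lit 684) (nat_lit 6934477193) (nat_lit 283) (nat_lit 5) (nat_lit 291) (nat_lit 5) (nat_lit 292) (nat_lit 5) (nat_lit 648) (nat_lit 593) (nat_lit 319)) (XT.lf (nat_lit 0) (nat_lit 19913714670) (nat_lit 608) (nat_lit 9982048464) (nat_lit 684) (nat_lit 1731255532) (nat_lit 283) (nat_lit 5) (nat_lit 291) (nat_lit 5) (nat_lit 292) (nat_lit 5) (nat_lit 649) (nat_lit 593) (nat_lit 318))))) (XT.nd (nat_lit 312) (nat_lit 1064) (nat_lit 0) (XT.nd (nat_lit 156) (nat_lit 608) (nat_lit 0) (XT.nd (nat_lit 78) (nat_lit 0) (nat_lit 0) (XT.lf (nat_lit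 0) (nat_lit 3590032347) (nat_lit 684) (nat_lit 25359480862) (nat_lit 76) (nat_lit 3046871258) (nat_lit 274) (nat_lit 5) (nat_lit 283) (nat_lit 5) (nat_lit 275) (nat_lit 5) (nat_lit 650) (nat_lit 593) (nat_lit 317)) (XT.lf (nat_lit 0) (nat_lit 9137471444) (nat_lit 684) (nat_lit 6939772930) (nat_lit 76) (nat_lit 16292806304) (nat_lit 274) (nat_lit 5) (nat_lit 283) (nat_lit 5) (nat_lit 275) (nat_lit 5) (nat_lit 651) (nat_lit 593) (nat_lit 316))) (XT.nd (nat_lit 78) (nat_lit 0) (nat_lit 0) (XT.lf (nat_lit 0) (nat_lit 12002799427) (nat_lit 608) (nat_lit 2868692031) (nat_lit 684) (nat_lit 17878186216) (nat_lit 266) (nat_lit 5) (nat_lit 274) (nat_lit 5) (nat_lit 275) (nat_lit 5) (nat_lit 652) (nat_lit 593) (nat_lit 315)) (XT.lf (nat_lit 0) (nat_lit 20833641989) (nat_lit 684) (nat_lit 1789799431) (nat_lit 76) (nat_lit 10511186889) (nat_lit 266) (nat_lit 5) (nat_lit 275) (nat_lit 5) (nat_lit 267) (nat_lit 5) (nat_lit 653) (nat_lit 593) (nat_lit 314)))) (XT.nd (nat_lit 76518) (nat_lit 0) (nat_lit 18544) (XT.nd (nat_lit 78) (nat_lit 532) (nat_lit 0)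 (XT.lf (nat_lit 0) (nat_lit 17757402290) (nat_lit 532) (nat_lit 9289692439) (nat_lit 608) (nat_lit 6477542142) (nat_lit 259) (nat_lit 5) (nat_lit 266) (nat_lit 5) (nat_lit 267) (nat_lit 5) (nat_lit 654) (nat_lit 593) (nat_lit 313)) (XT.lf (nat_lit 0) (nat_lit 3816659512) (nat_lit 532) (nat_lit 29630804384) (nat_lit 608) (nat_lit 473728859) (nat_lit 252) (nat_lit 5) (nat_lit 259) (nat_lit 5) (nat_lit 260) (nat_lit 5) (nat_lit 655) (nat_lit 593) (nat_lit 312))) (XT.nd (nat_lit 78) (nat_lit 0) (nat_lit 0) (XT.lf (nat_lit 0) (nat_lit 3505623618) (nat_lit 0) (nat_lit 3505623618) (nat_lit 1748) (nat_lit 1851197663) (nat_lit 496) (nat_lit 5) (nat_lit 496) (nat_lit 3) (nat_lit 519) (nat_lit 3) (nat_lit 594) (nat_lit 594) (nat_lit 372)) (XT.lf (nat_lit 0) (nat_lit 14384551492) (nat_lit 1748) (nat_lit 1931163868) (nat_lit 1824) (nat_lit 1581973532) (nat_lit 496) (nat_lit 5) (nat_lit 519) (nat_lit 3) (nat_lit 520) (nat_lit 5) (nat_lit 595) (nat_lit 594) (nat_lit 371)))))) (XT.nd (nat_lit 546) (nat_lit 1596) (nat_lit 0) (XT.nd (nat_lit 234) (nat_lit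 0) (nat_lit 152) (XT.nd (nat_lit 78) (nat_lit 0) (nat_lit 76) (XT.lf (nat_lit 76) (nat_lit 7070359202) (nat_lit 0) (nat_lit 7770300276) (nat_lit 1824) (nat_lit 3231548635) (nat_lit 497) (nat_lit 5) (nat_lit 496) (nat_lit 5) (nat_lit 520) (nat_lit 5) (nat_lit 596) (nat_lit 594) (nat_lit 370)) (XT.nd (nat_lit 78) (nat_lit 0) (nat_lit 0) (XT.lf (nat_lit 0) (nat_lit 15319655306) (nat_lit 1748) (nat_lit 1981105127) (nat_lit 1824) (nat_lit 949182310) (nat_lit 497) (nat_lit 5) (nat_lit 520) (nat_lit 5) (nat_lit 521) (nat_lit 5) (nat_lit 597) (nat_lit 594) (nat_lit 369)) (XT.lf (nat_lit 76) (nat_lit 7260872506) (nat_lit 0) (nat_lit 8640644713) (nat_lit 1824) (nat_lit 2527849455) (nat_lit 498) (nat_lit 5) (nat_lit 497) (nat_lit 5) (nat_lit 521) (nat_lit 5) (nat_lit 598) (nat_lit 594) (nat_lit 368)))) (XT.nd (nat_lit 156) (nat_lit 0) (nat_lit 0) (XT.nd (nat_lit 78) (nat_lit 0) (nat_lit 0) (XT.lf (nat_lit 0) (nat_lit 16504434586) (nat_lit 1748) (nat_lit 1901958294) (nat_lit 1824) (nat_lit 205798166) (nat_lit 498) (nat_lit 5) (nat_lit 521) (nat_lit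 5) (nat_lit 522) (nat_lit 5) (nat_lit 599) (nat_lit 594) (nat_lit 367)) (XT.lf (nat_lit 76) (nat_lit 7589229216) (nat_lit 0) (nat_lit 9631565412) (nat_lit 1824) (nat_lit 1575849908) (nat_lit 499) (nat_lit 5) (nat_lit 498) (nat_lit 5) (nat_lit 522) (nat_lit 5) (nat_lit 600) (nat_lit 594) (nat_lit 366))) (XT.nd (nat_lit 78) (nat_lit 0) (nat_lit 76) (XT.lf (nat_lit 76) (nat_lit 17293051321) (nat_lit 0) (nat_lit 666161864) (nat_lit 1824) (nat_lit 1025419600) (nat_lit 499) (nat_lit 5) (nat_lit 498) (nat_lit 5) (nat_lit 522) (nat_lit 5) (nat_lit 601) (nat_lit 594) (nat_lit 365)) (XT.lf (nat_lit 76) (nat_lit 8062233805) (nat_lit 0) (nat_lit 10752639999) (nat_lit 1824) (nat_lit 359457826) (nat_lit 500) (nat_lit 5) (nat_lit 499) (nat_lit 5) (nat_lit 523) (nat_lit 5) (nat_lit 602) (nat_lit 594) (nat_lit 364))))) (XT.nd (nat_lit 312) (nat_lit 0) (nat_lit 152) (XT.nd (nat_lit 156) (nat_lit 0) (nat_lit 76) (XT.nd (nat_lit 78) (nat_lit 0) (nat_lit 76) (XT.lf (nat_lit 0) (nat_lit 326591435) (nat_lit 1824) (nat_lit 1343175291) (nat_lit 1900) (nat_lit 17697797235)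 (nat_lit 475) (nat_lit 5) (nat_lit 499) (nat_lit 5) (nat_lit 500) (nat_lit 5) (nat_lit 603) (nat_lit 594) (nat_lit 363)) (XT.lf (nat_lit 0) (nat_lit 1123168541) (nat_lit 1824) (nat_lit 10883054222) (nat_lit 1900) (nat_lit 7556358544) (nat_lit 476) (nat_lit 5) (nat_lit 500) (nat_lit 5) (nat_lit 501) (nat_lit 5) (nat_lit 604) (nat_lit 594) (nat_lit 362))) (XT.nd (nat_lit 78) (nat_lit 0) (nat_lit 76) (XT.lf (nat_lit 0) (nat_lit 1951113948) (nat_lit 1824) (nat_lit 854641150) (nat_lit 1900) (nat_lit 16955435451) (nat_lit 476) (nat_lit 5) (nat_lit 500) (nat_lit 5) (nat_lit 501) (nat_lit 5) (nat_lit 605) (nat_lit 594) (nat_lit 361)) (XT.lf (nat_lit 0) (nat_lit 2895801137) (nat_lit 1824) (nat_lit 10509917823) (nat_lit 1900) (nat_lit 6556049636) (nat_lit 477) (nat_lit 5) (nat_lit 501) (nat_lit 5) (nat_lit 502) (nat_lit 5) (nat_lit 606) (nat_lit 594) (nat_lit 360)))) (XT.nd (nat_lit 156) (nat_lit 0) (nat_lit 76) (XT.nd (nat_lit 78) (nat_lit 0) (nat_lit 76) (XT.lf (nat_lit 0) (nat_lit 3879214464) (nat_lit 1824) (nat_lit 211920594) (nat_lit 1900) (nat_lit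 16074826769) (nat_lit 477) (nat_lit 5) (nat_lit 501) (nat_lit 5) (nat_lit 502) (nat_lit 5) (nat_lit 607) (nat_lit 594) (nat_lit 359)) (XT.lf (nat_lit 0) (nat_lit 4981134415) (nat_lit 1824) (nat_lit 9982837453) (nat_lit 1900) (nat_lit 5408290557) (nat_lit 478) (nat_lit 5) (nat_lit 502) (nat_lit 5) (nat_lit 503) (nat_lit 5) (nat_lit 608) (nat_lit 594) (nat_lit 358))) (XT.nd (nat_lit 78) (nat_lit 0) (nat_lit 76) (XT.lf (nat_lit 76) (nat_lit 600653729) (nat_lit 0) (nat_lit 5532506700) (nat_lit 1900) (nat_lit 14448967511) (nat_lit 479) (nat_lit 5) (nat_lit 478) (nat_lit 5) (nat_lit 503) (nat_lit 5) (nat_lit 609) (nat_lit 594) (nat_lit 357)) (XT.lf (nat_lit 0) (nat_lit 7397915652) (nat_lit 1824) (nat_lit 9293902817) (nat_lit 1900) (nat_lit 4102578782) (nat_lit 479) (nat_lit 5) (nat_lit 503) (nat_lit 5) (nat_lit 504) (nat_lit 5) (nat_lit 610) (nat_lit 594) (nat_lit 356))))))))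
noncomputable def xc102 : XT := (XT.nd (nat_lit 2340) (nat_lit 5776) (nat_lit 0) (XT.nd (nat_lit 1170) (nat_lit 6460) (nat_lit 0) (XT.nd (nat_lit 546) (nat_lit 4484) (nat_lit 0) (XT.nd (nat_lit 234) (nat_lit 0) (nat_lit 152) (XT.nd (nat_lit 78) (nat_lit 0) (nat_lit 76) (XT.lf (nat_lit 76) (nat_lit 1588473215) (nat_lit 0) (nat_lit 7142244928) (nat_lit 1900) (nat_lit 12279339012) (nat_lit 480) (nat_lit 5) (nat_lit 479) (nat_lit 5) (nat_lit 504) (nat_lit 5) (nat_lit 611) (nat_lit 594) (nat_lit 355)) (XT.nd (nat_lit 78) (nat_lit 0) (nat_lit 0) (XT.lf (nat_lit 0) (nat_lit 10165695047) (nat_lit 1824) (nat_lit 8434797641) (nat_lit 1900) (nat_lit 2628027448) (nat_lit 480) (nat_lit 5) (nat_lit 504) (nat_lit 5) (nat_lit 505) (nat_lit 5) (nat_lit 612) (nat_lit 594) (nat_lit 354)) (XT.lf (nat_lit 76) (nat_lit 2757442291) (nat_lit 0) (nat_lit 8933081330) (nat_lit 1900) (nat_lit 9759605957) (nat_lit 481) (nat_lit 5) (nat_lit 480) (nat_lit 5) (nat_lit 505) (nat_lit 5) (nat_lit 613) (nat_lit 594) (nat_lit 353)))) (XT.nd (nat_lit 156) (nat_lit 0) (nat_lit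 0) (XT.nd (nat_lit 78) (nat_lit 0) (nat_lit 0) (XT.lf (nat_lit 0) (nat_lit 13304862747) (nat_lit 1824) (nat_lit 7396785986) (nat_lit 1900) (nat_lit 973342431) (nat_lit 481) (nat_lit 5) (nat_lit 505) (nat_lit 5) (nat_lit 506) (nat_lit 5) (nat_lit 614) (nat_lit 594) (nat_lit 352)) (XT.lf (nat_lit 76) (nat_lit 4116716522) (nat_lit 0) (nat_lit 10916752320) (nat_lit 1900) (nat_lit 6869241771) (nat_lit 482) (nat_lit 5) (nat_lit 481) (nat_lit 5) (nat_lit 506) (nat_lit 5) (nat_lit 615) (nat_lit 594) (nat_lit 351))) (XT.nd (nat_lit 78) (nat_lit 0) (nat_lit 76) (XT.lf (nat_lit 76) (nat_lit 15957626362) (nat_lit 0) (nat_lit 884805590) (nat_lit 1900) (nat_lit 5291637026) (nat_lit 482) (nat_lit 5) (nat_lit 481) (nat_lit 5) (nat_lit 506) (nat_lit 5) (nat_lit 616) (nat_lit 594) (nat_lit 350)) (XT.lf (nat_lit 76) (nat_lit 5675901251) (nat_lit 0) (nat_lit 13105445467) (nat_lit 1900) (nat_lit 3586832570) (nat_lit 483) (nat_lit 5) (nat_lit 482) (nat_lit 5) (nat_lit 507) (nat_lit 5) (nat_lit 617) (nat_lit 594) (nat_lit 349))))) (XT.nd (nat_lit 312) (nat_lit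 1824) (nat_lit 0) (XT.nd (nat_lit 156) (nat_lit 1064) (nat_lit 0) (XT.nd (nat_lit 78) (nat_lit 1824) (nat_lit 0) (XT.lf (nat_lit 76) (nat_lit 17839951386) (nat_lit 0) (nat_lit 2962639001) (nat_lit 1900) (nat_lit 1803510623) (nat_lit 483) (nat_lit 5) (nat_lit 482) (nat_lit 5) (nat_lit 507) (nat_lit 5) (nat_lit 618) (nat_lit 594) (nat_lit 348)) (XT.lf (nat_lit 0) (nat_lit 108520816) (nat_lit 1900) (nat_lit 15402575391) (nat_lit 76) (nat_lit 7335818238) (nat_lit 458) (nat_lit 5) (nat_lit 483) (nat_lit 5) (nat_lit 459) (nat_lit 5) (nat_lit 619) (nat_lit 594) (nat_lit 347))) (XT.nd (nat_lit 78) (nat_lit 1064) (nat_lit 0) (XT.lf (nat_lit 0) (nat_lit 2082867902) (nat_lit 1900) (nat_lit 3163205816) (nat_lit 76) (nat_lit 17845267735) (nat_lit 458) (nat_lit 5) (nat_lit 483) (nat_lit 5) (nat_lit 459) (nat_lit 5) (nat_lit 620) (nat_lit 594) (nat_lit 346)) (XT.lf (nat_lit 0) (nat_lit 4188788625) (nat_lit 1140) (nat_lit 13932157124) (nat_lit 76) (nat_lit 5217869720) (nat_lit 444) (nat_lit 5) (nat_lit 459) (nat_lit 5) (nat_lit 445) (nat_lit 5) (nat_lit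 621) (nat_lit 594) (nat_lit 345)))) (XT.nd (nat_lit 156) (nat_lit 912) (nat_lit 0) (XT.nd (nat_lit 78) (nat_lit 912) (nat_lit 0) (XT.lf (nat_lit 0) (nat_lit 6389446392) (nat_lit 1140) (nat_lit 1358058994) (nat_lit 76) (nat_lit 15842681403) (nat_lit 444) (nat_lit 5) (nat_lit 459) (nat_lit 5) (nat_lit 445) (nat_lit 5) (nat_lit 622) (nat_lit 594) (nat_lit 344)) (XT.lf (nat_lit 0) (nat_lit 8725016613) (nat_lit 988) (nat_lit 12247264100) (nat_lit 76) (nat_lit 2872487033) (nat_lit 432) (nat_lit 5) (nat_lit 445) (nat_lit 5) (nat_lit 433) (nat_lit 5) (nat_lit 623) (nat_lit 594) (nat_lit 343))) (XT.nd (nat_lit 78) (nat_lit 0) (nat_lit 0) (XT.lf (nat_lit 0) (nat_lit 680741079) (nat_lit 912) (nat_lit 10488085189) (nat_lit 988) (nat_lit 12934383683) (nat_lit 420) (nat_lit 5) (nat_lit 432) (nat_lit 5) (nat_lit 433) (nat_lit 5) (nat_lit 624) (nat_lit 594) (nat_lit 342)) (XT.lf (nat_lit 0) (nat_lit 13742251871) (nat_lit 988) (nat_lit 10336930766) (nat_lit 76) (nat_lit 286023757) (nat_lit 420) (nat_lit 5) (nat_lit 433) (nat_lit 5) (nat_lit 421) (nat_lit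 5) (nat_lit 625) (nat_lit 594) (nat_lit 341)))))) (XT.nd (nat_lit 546) (nat_lit 3040) (nat_lit 0) (XT.nd (nat_lit 234) (nat_lit 1748) (nat_lit 0) (XT.nd (nat_lit 78) (nat_lit 836) (nat_lit 0) (XT.lf (nat_lit 0) (nat_lit 2976769790) (nat_lit 836) (nat_lit 13475899832) (nat_lit 912) (nat_lit 8178062852) (nat_lit 409) (nat_lit 5) (nat_lit 420) (nat_lit 5) (nat_lit 421) (nat_lit 5) (nat_lit 626) (nat_lit 594) (nat_lit 340)) (XT.nd (nat_lit 78) (nat_lit 836) (nat_lit 0) (XT.lf (nat_lit 0) (nat_lit 16693753113) (nat_lit 836) (nat_lit 2589691563) (nat_lit 912) (nat_lit 5616801602) (nat_lit 409) (nat_lit 5) (nat_lit 420) (nat_lit 5) (nat_lit 421) (nat_lit 5) (nat_lit 627) (nat_lit 594) (nat_lit 339)) (XT.lf (nat_lit 0) (nat_lit 5523979633) (nat_lit 836) (nat_lit 16734847498) (nat_lit 912) (nat_lit 2914563565) (nat_lit 398) (nat_lit 5) (nat_lit 409) (nat_lit 5) (nat_lit 410) (nat_lit 5) (nat_lit 628) (nat_lit 594) (nat_lit 338)))) (XT.nd (nat_lit 156) (nat_lit 836) (nat_lit 0) (XT.nd (nat_lit 78) (nat_lit 912) (nat_lit 0) (XT.lf (nat_lit 0) (nat_lit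 19619831358) (nat_lit 836) (nat_lit 5742881419) (nat_lit 912) (nat_lit 87905486) (nat_lit 398) (nat_lit 5) (nat_lit 409) (nat_lit 5) (nat_lit 410) (nat_lit 5) (nat_lit 629) (nat_lit 594) (nat_lit 337)) (XT.lf (nat_lit 0) (nat_lit 2845771305) (nat_lit 912) (nat_lit 17415459576) (nat_lit 76) (nat_lit 5470053765) (nat_lit 386) (nat_lit 5) (nat_lit 398) (nat_lit 5) (nat_lit 387) (nat_lit 5) (nat_lit 630) (nat_lit 594) (nat_lit 336))) (XT.nd (nat_lit 78) (nat_lit 836) (nat_lit 0) (XT.lf (nat_lit 0) (nat_lit 5911333878) (nat_lit 912) (nat_lit 3234362514) (nat_lit 76) (nat_lit 16870368722) (nat_lit 386) (nat_lit 5) (nat_lit 398) (nat_lit 5) (nat_lit 387) (nat_lit 5) (nat_lit 631) (nat_lit 594) (nat_lit 335)) (XT.lf (nat_lit 0) (nat_lit 9123821585) (nat_lit 912) (nat_lit 14943336756) (nat_lit 76) (nat_lit 2237670730) (nat_lit 375) (nat_lit 5) (nat_lit 387) (nat_lit 5) (nat_lit 376) (nat_lit 5) (nat_lit 632) (nat_lit 594) (nat_lit 334))))) (XT.nd (nat_lit 312) (nat_lit 1520) (nat_lit 0) (XT.nd (nat_lit 156) (nat_lit 760) (nat_lit 0) (XT.nd (nat_lit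 78) (nat_lit 760) (nat_lit 0) (XT.lf (nat_lit 0) (nat_lit 12480041032) (nat_lit 912) (nat_lit 369629863) (nat_lit 76) (nat_lit 13748107930) (nat_lit 375) (nat_lit 5) (nat_lit 387) (nat_lit 5) (nat_lit 376) (nat_lit 5) (nat_lit 633) (nat_lit 594) (nat_lit 333)) (XT.lf (nat_lit 0) (nat_lit 14685118496) (nat_lit 760) (nat_lit 1310735871) (nat_lit 836) (nat_lit 10898883970) (nat_lit 365) (nat_lit 5) (nat_lit 375) (nat_lit 5) (nat_lit 376) (nat_lit 5) (nat_lit 634) (nat_lit 594) (nat_lit 332))) (XT.nd (nat_lit 78) (nat_lit 0) (nat_lit 0) (XT.lf (nat_lit 0) (nat_lit 2814305369) (nat_lit 760) (nat_lit 16853514097) (nat_lit 836) (nat_lit 7528101014) (nat_lit 355) (nat_lit 5) (nat_lit 365) (nat_lit 5) (nat_lit 366) (nat_lit 5) (nat_lit 635) (nat_lit 594) (nat_lit 331)) (XT.lf (nat_lit 0) (nat_lit 18292371619) (nat_lit 760) (nat_lit 5208604101) (nat_lit 836) (nat_lit 4000395657) (nat_lit 355) (nat_lit 5) (nat_lit 365) (nat_lit 5) (nat_lit 366) (nat_lit 5) (nat_lit 636) (nat_lit 594) (nat_lit 330)))) (XT.nd (nat_lit 156) (nat_lit 760) (nat_lit 0) (XT.nd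 (nat_lit 78) (nat_lit 76) (nat_lit 0) (XT.lf (nat_lit 0) (nat_lit 6303396981) (nat_lit 684) (nat_lit 21188873909) (nat_lit 760) (nat_lit 319031029) (nat_lit 346) (nat_lit 5) (nat_lit 355) (nat_lit 5) (nat_lit 356) (nat_lit 5) (nat_lit 637) (nat_lit 594) (nat_lit 329)) (XT.lf (nat_lit 0) (nat_lit 3484863463) (nat_lit 760) (nat_lit 5935591604) (nat_lit 76) (nat_lit 18704650657) (nat_lit 345) (nat_lit 5) (nat_lit 355) (nat_lit 5) (nat_lit 346) (nat_lit 5) (nat_lit 638) (nat_lit 594) (nat_lit 328))) (XT.nd (nat_lit 78) (nat_lit 0) (nat_lit 0) (XT.lf (nat_lit 0) (nat_lit 7440519616) (nat_lit 836) (nat_lit 18385910205) (nat_lit 76) (nat_lit 2617114633) (nat_lit 335) (nat_lit 5) (nat_lit 346) (nat_lit 5) (nat_lit 336) (nat_lit 5) (nat_lit 639) (nat_lit 594) (nat_lit 327)) (XT.lf (nat_lit 0) (nat_lit 11575120725) (nat_lit 836) (nat_lit 2382051105) (nat_lit 76) (nat_lit 14809183624) (nat_lit 335) (nat_lit 5) (nat_lit 346) (nat_lit 5) (nat_lit 336) (nat_lit 5) (nat_lit 640) (nat_lit 594) (nat_lit 326))))))) (XT.nd (nat_lit 77610) (nat_lit 0) (nat_lit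 16416) (XT.nd (nat_lit 546) (nat_lit 3040) (nat_lit 0) (XT.nd (nat_lit 234) (nat_lit 1368) (nat_lit 0) (XT.nd (nat_lit 78) (nat_lit 684) (nat_lit 0) (XT.lf (nat_lit 0) (nat_lit 14124157419) (nat_lit 684) (nat_lit 1757361786) (nat_lit 760) (nat_lit 13212321495) (nat_lit 326) (nat_lit 5) (nat_lit 335) (nat_lit 5) (nat_lit 336) (nat_lit 5) (nat_lit 641) (nat_lit 594) (nat_lit 325)) (XT.nd (nat_lit 78) (nat_lit 0) (nat_lit 0) (XT.lf (nat_lit 0) (nat_lit 1512573762) (nat_lit 684) (nat_lit 18854197946) (nat_lit 760) (nat_lit 9059249549) (nat_lit 317) (nat_lit 5) (nat_lit 326) (nat_lit 5) (nat_lit 327) (nat_lit 5) (nat_lit 642) (nat_lit 594) (nat_lit 324)) (XT.lf (nat_lit 0) (nat_lit 18512622789) (nat_lit 684) (nat_lit 6538584807) (nat_lit 760) (nat_lit 4711448389) (nat_lit 317) (nat_lit 5) (nat_lit 326) (nat_lit 5) (nat_lit 327) (nat_lit 5) (nat_lit 643) (nat_lit 594) (nat_lit 323)))) (XT.nd (nat_lit 156) (nat_lit 684) (nat_lit 0) (XT.nd (nat_lit 78) (nat_lit 76) (nat_lit 0) (XT.lf (nat_lit 0) (nat_lit 5780385649) (nat_lit 608) (nat_lit 24123093415)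 (nat_lit 684) (nat_lit 201061529) (nat_lit 309) (nat_lit 5) (nat_lit 317) (nat_lit 5) (nat_lit 318) (nat_lit 5) (nat_lit 644) (nat_lit 594) (nat_lit 322)) (XT.lf (nat_lit 0) (nat_lit 4458650416) (nat_lit 684) (nat_lit 7223190054) (nat_lit 76) (nat_lit 18768514888) (nat_lit 308) (nat_lit 5) (nat_lit 317) (nat_lit 5) (nat_lit 309) (nat_lit 5) (nat_lit 645) (nat_lit 594) (nat_lit 321))) (XT.nd (nat_lit 78) (nat_lit 0) (nat_lit 0) (XT.lf (nat_lit 0) (nat_lit 9280642357) (nat_lit 760) (nat_lit 20457461515) (nat_lit 76) (nat_lit 1063520522) (nat_lit 299) (nat_lit 5) (nat_lit 309) (nat_lit 5) (nat_lit 300) (nat_lit 5) (nat_lit 646) (nat_lit 594) (nat_lit 320)) (XT.lf (nat_lit 0) (nat_lit 14322826348) (nat_lit 760) (nat_lit 2878806175) (nat_lit 76) (nat_lit 13955811359) (nat_lit 299) (nat_lit 5) (nat_lit 309) (nat_lit 5) (nat_lit 300) (nat_lit 5) (nat_lit 647) (nat_lit 594) (nat_lit 319))))) (XT.nd (nat_lit 312) (nat_lit 1140) (nat_lit 0) (XT.nd (nat_lit 156) (nat_lit 684) (nat_lit 0) (XT.nd (nat_lit 78) (nat_lit 608) (nat_lit 0) (XT.lf (nat_lit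 0) (nat_lit 15248519422) (nat_lit 608) (nat_lit 4313981842) (nat_lit 684) (nat_lit 11955945660) (nat_lit 291) (nat_lit 5) (nat_lit 299) (nat_lit 5) (nat_lit 300) (nat_lit 5) (nat_lit 648) (nat_lit 594) (nat_lit 318)) (XT.lf (nat_lit 0) (nat_lit 1855079082) (nat_lit 608) (nat_lit 23138388476) (nat_lit 684) (nat_lit 6891472624) (nat_lit 283) (nat_lit 5) (nat_lit 291) (nat_lit 5) (nat_lit 292) (nat_lit 5) (nat_lit 649) (nat_lit 594) (nat_lit 317))) (XT.nd (nat_lit 78) (nat_lit 684) (nat_lit 0) (XT.lf (nat_lit 0) (nat_lit 20531284957) (nat_lit 608) (nat_lit 10137024175) (nat_lit 684) (nat_lit 1587749159) (nat_lit 283) (nat_lit 5) (nat_lit 291) (nat_lit 5) (nat_lit 292) (nat_lit 5) (nat_lit 650) (nat_lit 594) (nat_lit 316)) (XT.lf (nat_lit 0) (nat_lit 3835912139) (nat_lit 684) (nat_lit 25643306357) (nat_lit 76) (nat_lit 3153604260) (nat_lit 274) (nat_lit 5) (nat_lit 283) (nat_lit 5) (nat_lit 275) (nat_lit 5) (nat_lit 651) (nat_lit 594) (nat_lit 315)))) (XT.nd (nat_lit 156) (nat_lit 532) (nat_lit 0) (XT.nd (nat_lit 78) (nat_lit 608) (nat_lit 0)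 (XT.lf (nat_lit 0) (nat_lit 9490886702) (nat_lit 684) (nat_lit 6859583955) (nat_lit 76) (nat_lit 16663560054) (nat_lit 274) (nat_lit 5) (nat_lit 283) (nat_lit 5) (nat_lit 275) (nat_lit 5) (nat_lit 652) (nat_lit 594) (nat_lit 314)) (XT.lf (nat_lit 0) (nat_lit 12460399162) (nat_lit 608) (nat_lit 2877254004) (nat_lit 684) (nat_lit 18063635911) (nat_lit 266) (nat_lit 5) (nat_lit 274) (nat_lit 5) (nat_lit 275) (nat_lit 5) (nat_lit 653) (nat_lit 594) (nat_lit 313))) (XT.nd (nat_lit 78) (nat_lit 532) (nat_lit 0) (XT.lf (nat_lit 0) (nat_lit 21416048944) (nat_lit 684) (nat_lit 1609312107) (nat_lit 76) (nat_lit 10768637775) (nat_lit 266) (nat_lit 5) (nat_lit 275) (nat_lit 5) (nat_lit 267) (nat_lit 5) (nat_lit 654) (nat_lit 594) (nat_lit 312)) (XT.lf (nat_lit 0) (nat_lit 18327410732) (nat_lit 532) (nat_lit 9424505335) (nat_lit 608) (nat_lit 6439928731) (nat_lit 259) (nat_lit 5) (nat_lit 266) (nat_lit 5) (nat_lit 267) (nat_lit 5) (nat_lit 655) (nat_lit 594) (nat_lit 311)))))) (XT.nd (nat_lit 546) (nat_lit 1596) (nat_lit 0) (XT.nd (nat_lit 234) (nat_lit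 0) (nat_lit 76) (XT.nd (nat_lit 78) (nat_lit 0) (nat_lit 0) (XT.lf (nat_lit 0) (nat_lit 3680761913) (nat_lit 0) (nat_lit 3680761913) (nat_lit 1748) (nat_lit 1673955858) (nat_lit 496) (nat_lit 5) (nat_lit 496) (nat_lit 3) (nat_lit 519) (nat_lit 3) (nat_lit 595) (nat_lit 595) (nat_lit 370)) (XT.nd (nat_lit 78) (nat_lit 0) (nat_lit 0) (XT.lf (nat_lit 0) (nat_lit 15082771438) (nat_lit 1748) (nat_lit 1754254139) (nat_lit 1824) (nat_lit 1410380866) (nat_lit 496) (nat_lit 5) (nat_lit 519) (nat_lit 3) (nat_lit 520) (nat_lit 5) (nat_lit 596) (nat_lit 595) (nat_lit 369)) (XT.lf (nat_lit 76) (nat_lit 7425881412) (nat_lit 0) (nat_lit 8115460762) (nat_lit 1824) (nat_lit 2884207566) (nat_lit 497) (nat_lit 5) (nat_lit 496) (nat_lit 5) (nat_lit 520) (nat_lit 5) (nat_lit 597) (nat_lit 595) (nat_lit 368)))) (XT.nd (nat_lit 156) (nat_lit 0) (nat_lit 76) (XT.nd (nat_lit 78) (nat_lit 0) (nat_lit 0) (XT.lf (nat_lit 0) (nat_lit 16020791054) (nat_lit 1748) (nat_lit 1801659020) (nat_lit 1824) (nat_lit 784572019) (nat_lit 497) (nat_lit 5) (nat_lit 520) (nat_lit 5)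 (nat_lit 521) (nat_lit 5) (nat_lit 598) (nat_lit 595) (nat_lit 367)) (XT.lf (nat_lit 76) (nat_lit 7623716927) (nat_lit 0) (nat_lit 8984246205) (nat_lit 1824) (nat_lit 2182198396) (nat_lit 498) (nat_lit 5) (nat_lit 497) (nat_lit 5) (nat_lit 521) (nat_lit 5) (nat_lit 599) (nat_lit 595) (nat_lit 366))) (XT.nd (nat_lit 78) (nat_lit 0) (nat_lit 0) (XT.lf (nat_lit 0) (nat_lit 17214235724) (nat_lit 1748) (nat_lit 1717910867) (nat_lit 1824) (nat_lit 44670331) (nat_lit 498) (nat_lit 5) (nat_lit 521) (nat_lit 5) (nat_lit 522) (nat_lit 5) (nat_lit 600) (nat_lit 595) (nat_lit 365)) (XT.lf (nat_lit 76) (nat_lit 7961639297) (nat_lit 0) (nat_lit 9977270776) (nat_lit 1824) (nat_lit 1226170133) (nat_lit 499) (nat_lit 5) (nat_lit 498) (nat_lit 5) (nat_lit 522) (nat_lit 5) (nat_lit 601) (nat_lit 595) (nat_lit 364))))) (XT.nd (nat_lit 312) (nat_lit 0) (nat_lit 76) (XT.nd (nat_lit 156) (nat_lit 0) (nat_lit 0) (XT.nd (nat_lit 78) (nat_lit 1748) (nat_lit 0) (XT.lf (nat_lit 76) (nat_lit 17855211854) (nat_lit 0) (nat_lit 829557704) (nat_lit 1824) (nat_lit 672205665)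 (nat_lit 499) (nat_lit 5) (nat_lit 498) (nat_lit 5) (nat_lit 522) (nat_lit 5) (nat_lit 602) (nat_lit 595) (nat_lit 363)) (XT.lf (nat_lit 0) (nat_lit 247583) (nat_lit 1824) (nat_lit 11103979141) (nat_lit 1900) (nat_lit 8446375540) (nat_lit 475) (nat_lit 5) (nat_lit 499) (nat_lit 5) (nat_lit 500) (nat_lit 5) (nat_lit 603) (nat_lit 595) (nat_lit 362))) (XT.nd (nat_lit 78) (nat_lit 0) (nat_lit 76) (XT.lf (nat_lit 0) (nat_lit 688109465) (nat_lit 1824) (nat_lit 1146528869) (nat_lit 1900) (nat_lit 17913155720) (nat_lit 475) (nat_lit 5) (nat_lit 499) (nat_lit 5) (nat_lit 500) (nat_lit 5) (nat_lit 604) (nat_lit 595) (nat_lit 361)) (XT.lf (nat_lit 0) (nat_lit 1494271882) (nat_lit 1824) (nat_lit 10870838106) (nat_lit 1900) (nat_lit 7581729107) (nat_lit 476) (nat_lit 5) (nat_lit 500) (nat_lit 5) (nat_lit 501) (nat_lit 5) (nat_lit 605) (nat_lit 595) (nat_lit 360)))) (XT.nd (nat_lit 156) (nat_lit 0) (nat_lit 76) (XT.nd (nat_lit 78) (nat_lit 0) (nat_lit 76) (XT.lf (nat_lit 0) (nat_lit 2331940119) (nat_lit 1824) (nat_lit 646364169) (nat_lit 1900) (nat_lit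 17171253367) (nat_lit 476) (nat_lit 5) (nat_lit 500) (nat_lit 5) (nat_lit 501) (nat_lit 5) (nat_lit 606) (nat_lit 595) (nat_lit 359)) (XT.lf (nat_lit 0) (nat_lit 3289541120) (nat_lit 1824) (nat_lit 10488746220) (nat_lit 1900) (nat_lit 6575979925) (nat_lit 477) (nat_lit 5) (nat_lit 501) (nat_lit 5) (nat_lit 502) (nat_lit 5) (nat_lit 607) (nat_lit 595) (nat_lit 358))) (XT.nd (nat_lit 78) (nat_lit 0) (nat_lit 76) (XT.lf (nat_lit 76) (nat_lit 10816142) (nat_lit 0) (nat_lit 4275292013) (nat_lit 1900) (nat_lit 16276566894) (nat_lit 478) (nat_lit 5) (nat_lit 477) (nat_lit 5) (nat_lit 502) (nat_lit 5) (nat_lit 608) (nat_lit 595) (nat_lit 357)) (XT.lf (nat_lit 0) (nat_lit 5404361512) (nat_lit 1824) (nat_lit 9950006702) (nat_lit 1900) (nat_lit 5418847932) (nat_lit 478) (nat_lit 5) (nat_lit 502) (nat_lit 5) (nat_lit 503) (nat_lit 5) (nat_lit 609) (nat_lit 595) (nat_lit 356))))))))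
noncomputable def xc103 : XT := (XT.nd (nat_lit 2340) (nat_lit 6004) (nat_lit 0) (XT.nd (nat_lit 1170) (nat_lit 6612) (nat_lit 0) (XT.nd (nat_lit 546) (nat_lit 3496) (nat_lit 0) (XT.nd (nat_lit 234) (nat_lit 0) (nat_lit 152) (XT.nd (nat_lit 78) (nat_lit 0) (nat_lit 76) (XT.lf (nat_lit 76) (nat_lit 843624781) (nat_lit 0) (nat_lit 5730957614) (nat_lit 1900) (nat_lit 14412793873) (nat_lit 479) (nat_lit 5) (nat_lit 478) (nat_lit 5) (nat_lit 503) (nat_lit 5) (nat_lit 610) (nat_lit 595) (nat_lit 355)) (XT.nd (nat_lit 78) (nat_lit 0) (nat_lit 0) (XT.lf (nat_lit 0) (nat_lit 7857823666) (nat_lit 1824) (nat_lit 9246523746) (nat_lit 1900) (nat_lit 4099680106) (nat_lit 479) (nat_lit 5) (nat_lit 503) (nat_lit 5) (nat_lit 504) (nat_lit 5) (nat_lit 611) (nat_lit 595) (nat_lit 354)) (XT.lf (nat_lit 76) (nat_lit 1851965220) (nat_lit 0) (nat_lit 7360704823) (nat_lit 1900) (nat_lit 12211423187) (nat_lit 480) (nat_lit 5) (nat_lit 479) (nat_lit 5) (nat_lit 504) (nat_lit 5) (nat_lit 612) (nat_lit 595) (nat_lit 353)))) (XT.nd (nat_lit 156) (nat_lit 0) (nat_lit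 76) (XT.nd (nat_lit 78) (nat_lit 0) (nat_lit 0) (XT.lf (nat_lit 0) (nat_lit 10669838943) (nat_lit 1824) (nat_lit 8369789132) (nat_lit 1900) (nat_lit 2607427907) (nat_lit 480) (nat_lit 5) (nat_lit 504) (nat_lit 5) (nat_lit 505) (nat_lit 5) (nat_lit 613) (nat_lit 595) (nat_lit 352)) (XT.lf (nat_lit 76) (nat_lit 3044758070) (nat_lit 0) (nat_lit 9176014773) (nat_lit 1900) (nat_lit 9652412946) (nat_lit 481) (nat_lit 5) (nat_lit 480) (nat_lit 5) (nat_lit 505) (nat_lit 5) (nat_lit 614) (nat_lit 595) (nat_lit 351))) (XT.nd (nat_lit 78) (nat_lit 0) (nat_lit 0) (XT.lf (nat_lit 0) (nat_lit 13861177114) (nat_lit 1824) (nat_lit 7310868168) (nat_lit 1900) (nat_lit 930624104) (nat_lit 481) (nat_lit 5) (nat_lit 505) (nat_lit 5) (nat_lit 506) (nat_lit 5) (nat_lit 615) (nat_lit 595) (nat_lit 350)) (XT.lf (nat_lit 76) (nat_lit 4431365880) (nat_lit 0) (nat_lit 11188807261) (nat_lit 1900) (nat_lit 6714854062) (nat_lit 482) (nat_lit 5) (nat_lit 481) (nat_lit 5) (nat_lit 506) (nat_lit 5) (nat_lit 616) (nat_lit 595) (nat_lit 349))))) (XT.nd (nat_lit 312) (nat_lit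 1976) (nat_lit 0) (XT.nd (nat_lit 156) (nat_lit 1748) (nat_lit 0) (XT.nd (nat_lit 78) (nat_lit 0) (nat_lit 76) (XT.lf (nat_lit 76) (nat_lit 16504538720) (nat_lit 0) (nat_lit 955168266) (nat_lit 1900) (nat_lit 5111418253) (nat_lit 482) (nat_lit 5) (nat_lit 481) (nat_lit 5) (nat_lit 506) (nat_lit 5) (nat_lit 617) (nat_lit 595) (nat_lit 348)) (XT.lf (nat_lit 76) (nat_lit 6021608495) (nat_lit 0) (nat_lit 13411465281) (nat_lit 1900) (nat_lit 3376930830) (nat_lit 483) (nat_lit 5) (nat_lit 482) (nat_lit 5) (nat_lit 507) (nat_lit 5) (nat_lit 618) (nat_lit 595) (nat_lit 347))) (XT.nd (nat_lit 78) (nat_lit 1824) (nat_lit 0) (XT.lf (nat_lit 76) (nat_lit 18424386902) (nat_lit 0) (nat_lit 3064941688) (nat_lit 1900) (nat_lit 1563464766) (nat_lit 483) (nat_lit 5) (nat_lit 482) (nat_lit 5) (nat_lit 507) (nat_lit 5) (nat_lit 619) (nat_lit 595) (nat_lit 346)) (XT.lf (nat_lit 0) (nat_lit 379082148) (nat_lit 1900) (nat_lit 15475234295) (nat_lit 76) (nat_lit 7444153146) (nat_lit 458) (nat_lit 5) (nat_lit 483) (nat_lit 5) (nat_lit 459) (nat_lit 5) (nat_lit 620)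 (nat_lit 595) (nat_lit 345)))) (XT.nd (nat_lit 156) (nat_lit 912) (nat_lit 0) (XT.nd (nat_lit 78) (nat_lit 1064) (nat_lit 0) (XT.lf (nat_lit 0) (nat_lit 2387653609) (nat_lit 1900) (nat_lit 2995692870) (nat_lit 76) (nat_lit 18164544210) (nat_lit 458) (nat_lit 5) (nat_lit 483) (nat_lit 5) (nat_lit 459) (nat_lit 5) (nat_lit 621) (nat_lit 595) (nat_lit 344)) (XT.lf (nat_lit 0) (nat_lit 4531825797) (nat_lit 1140) (nat_lit 13976141523) (nat_lit 76) (nat_lit 5292424498) (nat_lit 444) (nat_lit 5) (nat_lit 459) (nat_lit 5) (nat_lit 445) (nat_lit 5) (nat_lit 622) (nat_lit 595) (nat_lit 343))) (XT.nd (nat_lit 78) (nat_lit 912) (nat_lit 0) (XT.lf (nat_lit 0) (nat_lit 6771413163) (nat_lit 1140) (nat_lit 1155162582) (nat_lit 76) (nat_lit 16130316781) (nat_lit 444) (nat_lit 5) (nat_lit 459) (nat_lit 5) (nat_lit 445) (nat_lit 5) (nat_lit 623) (nat_lit 595) (nat_lit 342)) (XT.lf (nat_lit 0) (nat_lit 9150051061) (nat_lit 988) (nat_lit 12258493904) (nat_lit 76) (nat_lit 2908093294) (nat_lit 432) (nat_lit 5) (nat_lit 445) (nat_lit 5) (nat_lit 433) (nat_lit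 5) (nat_lit 624) (nat_lit 595) (nat_lit 341)))))) (XT.nd (nat_lit 546) (nat_lit 3116) (nat_lit 0) (XT.nd (nat_lit 234) (nat_lit 1748) (nat_lit 0) (XT.nd (nat_lit 78) (nat_lit 836) (nat_lit 0) (XT.lf (nat_lit 0) (nat_lit 926533777) (nat_lit 912) (nat_lit 10712798152) (nat_lit 988) (nat_lit 12940985757) (nat_lit 420) (nat_lit 5) (nat_lit 432) (nat_lit 5) (nat_lit 433) (nat_lit 5) (nat_lit 625) (nat_lit 595) (nat_lit 340)) (XT.nd (nat_lit 78) (nat_lit 836) (nat_lit 0) (XT.lf (nat_lit 0) (nat_lit 14259285204) (nat_lit 988) (nat_lit 10311089563) (nat_lit 76) (nat_lit 277278379) (nat_lit 420) (nat_lit 5) (nat_lit 433) (nat_lit 5) (nat_lit 421) (nat_lit 5) (nat_lit 626) (nat_lit 595) (nat_lit 339)) (XT.lf (nat_lit 0) (nat_lit 3267354874) (nat_lit 836) (nat_lit 13753307774) (nat_lit 912) (nat_lit 8097892340) (nat_lit 409) (nat_lit 5) (nat_lit 420) (nat_lit 5) (nat_lit 421) (nat_lit 5) (nat_lit 627) (nat_lit 595) (nat_lit 338)))) (XT.nd (nat_lit 156) (nat_lit 912) (nat_lit 0) (XT.nd (nat_lit 78) (nat_lit 836) (nat_lit 0) (XT.lf (nat_lit 0) (nat_lit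 17254147477) (nat_lit 836) (nat_lit 2649220635) (nat_lit 912) (nat_lit 5490184919) (nat_lit 409) (nat_lit 5) (nat_lit 420) (nat_lit 5) (nat_lit 421) (nat_lit 5) (nat_lit 628) (nat_lit 595) (nat_lit 337)) (XT.lf (nat_lit 0) (nat_lit 5864205424) (nat_lit 836) (nat_lit 17070901993) (nat_lit 912) (nat_lit 2737116193) (nat_lit 398) (nat_lit 5) (nat_lit 409) (nat_lit 5) (nat_lit 410) (nat_lit 5) (nat_lit 629) (nat_lit 595) (nat_lit 336))) (XT.nd (nat_lit 78) (nat_lit 836) (nat_lit 0) (XT.lf (nat_lit 0) (nat_lit 139597542) (nat_lit 912) (nat_lit 5718535658) (nat_lit 76) (nat_lit 20096935041) (nat_lit 397) (nat_lit 5) (nat_lit 409) (nat_lit 5) (nat_lit 398) (nat_lit 5) (nat_lit 630) (nat_lit 595) (nat_lit 335)) (XT.lf (nat_lit 0) (nat_lit 3127783105) (nat_lit 912) (nat_lit 17532483042) (nat_lit 76) (nat_lit 5581130180) (nat_lit 386) (nat_lit 5) (nat_lit 398) (nat_lit 5) (nat_lit 387) (nat_lit 5) (nat_lit 631) (nat_lit 595) (nat_lit 334))))) (XT.nd (nat_lit 312) (nat_lit 1520) (nat_lit 0) (XT.nd (nat_lit 156) (nat_lit 760) (nat_lit 0) (XT.nd (nat_lit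 78) (nat_lit 836) (nat_lit 0) (XT.lf (nat_lit 0) (nat_lit 6250243274) (nat_lit 912) (nat_lit 3072299052) (nat_lit 76) (nat_lit 17209418587) (nat_lit 386) (nat_lit 5) (nat_lit 398) (nat_lit 5) (nat_lit 387) (nat_lit 5) (nat_lit 632) (nat_lit 595) (nat_lit 333)) (XT.lf (nat_lit 0) (nat_lit 9524164464) (nat_lit 912) (nat_lit 15012624892) (nat_lit 76) (nat_lit 2289767351) (nat_lit 375) (nat_lit 5) (nat_lit 387) (nat_lit 5) (nat_lit 376) (nat_lit 5) (nat_lit 633) (nat_lit 595) (nat_lit 332))) (XT.nd (nat_lit 78) (nat_lit 760) (nat_lit 0) (XT.lf (nat_lit 0) (nat_lit 12943236410) (nat_lit 912) (nat_lit 151945402) (nat_lit 76) (nat_lit 14030269310) (nat_lit 375) (nat_lit 5) (nat_lit 387) (nat_lit 5) (nat_lit 376) (nat_lit 5) (nat_lit 634) (nat_lit 595) (nat_lit 331)) (XT.lf (nat_lit 0) (nat_lit 15202417153) (nat_lit 760) (nat_lit 1324212465) (nat_lit 836) (nat_lit 10901775158) (nat_lit 365) (nat_lit 5) (nat_lit 375) (nat_lit 5) (nat_lit 376) (nat_lit 5) (nat_lit 635) (nat_lit 595) (nat_lit 330)))) (XT.nd (nat_lit 156) (nat_lit 760) (nat_lit 0) (XT.nd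 (nat_lit 78) (nat_lit 0) (nat_lit 0) (XT.lf (nat_lit 0) (nat_lit 3096835086) (nat_lit 760) (nat_lit 17172614466) (nat_lit 836) (nat_lit 7466212918) (nat_lit 355) (nat_lit 5) (nat_lit 365) (nat_lit 5) (nat_lit 366) (nat_lit 5) (nat_lit 636) (nat_lit 595) (nat_lit 329)) (XT.lf (nat_lit 0) (nat_lit 18880026511) (nat_lit 760) (nat_lit 5295158621) (nat_lit 836) (nat_lit 3872119143) (nat_lit 355) (nat_lit 5) (nat_lit 365) (nat_lit 5) (nat_lit 366) (nat_lit 5) (nat_lit 637) (nat_lit 595) (nat_lit 328))) (XT.nd (nat_lit 78) (nat_lit 76) (nat_lit 0) (XT.lf (nat_lit 0) (nat_lit 6653767080) (nat_lit 684) (nat_lit 21590103863) (nat_lit 760) (nat_lit 119611401) (nat_lit 346) (nat_lit 5) (nat_lit 355) (nat_lit 5) (nat_lit 356) (nat_lit 5) (nat_lit 638) (nat_lit 595) (nat_lit 327)) (XT.lf (nat_lit 0) (nat_lit 3753679499) (nat_lit 760) (nat_lit 5831743062) (nat_lit 76) (nat_lit 19098192790) (nat_lit 345) (nat_lit 5) (nat_lit 355) (nat_lit 5) (nat_lit 346) (nat_lit 5) (nat_lit 639) (nat_lit 595) (nat_lit 326))))))) (XT.nd (nat_lit 1170) (nat_lit 0) (nat_lit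 0) (XT.nd (nat_lit 546) (nat_lit 3192) (nat_lit 0) (XT.nd (nat_lit 234) (nat_lit 1368) (nat_lit 0) (XT.nd (nat_lit 78) (nat_lit 684) (nat_lit 0) (XT.lf (nat_lit 0) (nat_lit 7786138709) (nat_lit 836) (nat_lit 18528748055) (nat_lit 76) (nat_lit 2693582492) (nat_lit 335) (nat_lit 5) (nat_lit 346) (nat_lit 5) (nat_lit 336) (nat_lit 5) (nat_lit 640) (nat_lit 595) (nat_lit 325)) (XT.nd (nat_lit 78) (nat_lit 684) (nat_lit 0) (XT.lf (nat_lit 0) (nat_lit 11999572846) (nat_lit 836) (nat_lit 2209221192) (nat_lit 76) (nat_lit 15129019812) (nat_lit 335) (nat_lit 5) (nat_lit 346) (nat_lit 5) (nat_lit 336) (nat_lit 5) (nat_lit 641) (nat_lit 595) (nat_lit 324)) (XT.lf (nat_lit 0) (nat_lit 14625661036) (nat_lit 684) (nat_lit 1764076958) (nat_lit 760) (nat_lit 13282158223) (nat_lit 326) (nat_lit 5) (nat_lit 335) (nat_lit 5) (nat_lit 336) (nat_lit 5) (nat_lit 642) (nat_lit 595) (nat_lit 323)))) (XT.nd (nat_lit 156) (nat_lit 684) (nat_lit 0) (XT.nd (nat_lit 78) (nat_lit 0) (nat_lit 0) (XT.lf (nat_lit 0) (nat_lit 1764017554) (nat_lit 684) (nat_lit 19198558073)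 (nat_lit 760) (nat_lit 9048187344) (nat_lit 317) (nat_lit 5) (nat_lit 326) (nat_lit 5) (nat_lit 327) (nat_lit 5) (nat_lit 643) (nat_lit 595) (nat_lit 322)) (XT.lf (nat_lit 0) (nat_lit 19099730456) (nat_lit 684) (nat_lit 6637274315) (nat_lit 760) (nat_lit 4617199714) (nat_lit 317) (nat_lit 5) (nat_lit 326) (nat_lit 5) (nat_lit 327) (nat_lit 5) (nat_lit 644) (nat_lit 595) (nat_lit 321))) (XT.nd (nat_lit 78) (nat_lit 76) (nat_lit 0) (XT.lf (nat_lit 0) (nat_lit 6114895213) (nat_lit 608) (nat_lit 24569428926) (nat_lit 684) (nat_lit 18642776) (nat_lit 309) (nat_lit 5) (nat_lit 317) (nat_lit 5) (nat_lit 318) (nat_lit 5) (nat_lit 645) (nat_lit 595) (nat_lit 320)) (XT.lf (nat_lit 0) (nat_lit 4728210473) (nat_lit 684) (nat_lit 7150638317) (nat_lit 76) (nat_lit 19176897303) (nat_lit 308) (nat_lit 5) (nat_lit 317) (nat_lit 5) (nat_lit 309) (nat_lit 5) (nat_lit 646) (nat_lit 595) (nat_lit 319))))) (XT.nd (nat_lit 312) (nat_lit 1292) (nat_lit 0) (XT.nd (nat_lit 156) (nat_lit 1216) (nat_lit 0) (XT.nd (nat_lit 78) (nat_lit 0) (nat_lit 0) (XT.lf (nat_lit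 0) (nat_lit 9644747414) (nat_lit 760) (nat_lit 20647691907) (nat_lit 76) (nat_lit 1121639255) (nat_lit 299) (nat_lit 5) (nat_lit 309) (nat_lit 5) (nat_lit 300) (nat_lit 5) (nat_lit 647) (nat_lit 595) (nat_lit 318)) (XT.lf (nat_lit 0) (nat_lit 14784275237) (nat_lit 760) (nat_lit 2721755986) (nat_lit 76) (nat_lit 14271053392) (nat_lit 299) (nat_lit 5) (nat_lit 309) (nat_lit 5) (nat_lit 300) (nat_lit 5) (nat_lit 648) (nat_lit 595) (nat_lit 317))) (XT.nd (nat_lit 78) (nat_lit 608) (nat_lit 0) (XT.lf (nat_lit 0) (nat_lit 15766704108) (nat_lit 608) (nat_lit 4359992650) (nat_lit 684) (nat_lit 12018652063) (nat_lit 291) (nat_lit 5) (nat_lit 299) (nat_lit 5) (nat_lit 300) (nat_lit 5) (nat_lit 649) (nat_lit 595) (nat_lit 316)) (XT.lf (nat_lit 0) (nat_lit 2107176735) (nat_lit 608) (nat_lit 23557366777) (nat_lit 684) (nat_lit 6854663367) (nat_lit 283) (nat_lit 5) (nat_lit 291) (nat_lit 5) (nat_lit 292) (nat_lit 5) (nat_lit 650) (nat_lit 595) (nat_lit 315)))) (XT.nd (nat_lit 156) (nat_lit 608) (nat_lit 0) (XT.nd (nat_lit 78) (nat_lit 684) (nat_lit 0)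 (XT.lf (nat_lit 0) (nat_lit 21152691119) (nat_lit 608) (nat_lit 10296833807) (nat_lit 684) (nat_lit 1448289722) (nat_lit 283) (nat_lit 5) (nat_lit 291) (nat_lit 5) (nat_lit 292) (nat_lit 5) (nat_lit 651) (nat_lit 595) (nat_lit 314)) (XT.lf (nat_lit 0) (nat_lit 4079949822) (nat_lit 684) (nat_lit 25941481863) (nat_lit 76) (nat_lit 3260693624) (nat_lit 274) (nat_lit 5) (nat_lit 283) (nat_lit 5) (nat_lit 275) (nat_lit 5) (nat_lit 652) (nat_lit 595) (nat_lit 313))) (XT.nd (nat_lit 78) (nat_lit 608) (nat_lit 0) (XT.lf (nat_lit 0) (nat_lit 9844743102) (nat_lit 684) (nat_lit 6786294633) (nat_lit 76) (nat_lit 17039985450) (nat_lit 274) (nat_lit 5) (nat_lit 283) (nat_lit 5) (nat_lit 275) (nat_lit 5) (nat_lit 653) (nat_lit 595) (nat_lit 312)) (XT.lf (nat_lit 0) (nat_lit 12918703403) (nat_lit 608) (nat_lit 2887882640) (nat_lit 684) (nat_lit 18259477997) (nat_lit 266) (nat_lit 5) (nat_lit 274) (nat_lit 5) (nat_lit 275) (nat_lit 5) (nat_lit 654) (nat_lit 595) (nat_lit 311)))))) (XT.nd (nat_lit 77064) (nat_lit 0) (nat_lit 15884) (XT.nd (nat_lit 76752)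 (nat_lit 0) (nat_lit 17480) (XT.nd (nat_lit 76596) (nat_lit 0) (nat_lit 17480) (XT.lf (nat_lit 0) (nat_lit 22003668380) (nat_lit 684) (nat_lit 1433613582) (nat_lit 76) (nat_lit 11029403792) (nat_lit 266) (nat_lit 5) (nat_lit 275) (nat_lit 5) (nat_lit 267) (nat_lit 5) (nat_lit 655) (nat_lit 595) (nat_lit 310)) (XT.nd (nat_lit 78) (nat_lit 0) (nat_lit 0) (XT.lf (nat_lit 0) (nat_lit 3855324693) (nat_lit 0) (nat_lit 3855324693) (nat_lit 1748) (nat_lit 1501489418) (nat_lit 496) (nat_lit 5) (nat_lit 496) (nat_lit 3) (nat_lit 519) (nat_lit 3) (nat_lit 596) (nat_lit 596) (nat_lit 368)) (XT.lf (nat_lit 0) (nat_lit 15779014445) (nat_lit 1748) (nat_lit 1582175625) (nat_lit 1824) (nat_lit 1243248098) (nat_lit 496) (nat_lit 5) (nat_lit 519) (nat_lit 3) (nat_lit 520) (nat_lit 5) (nat_lit 597) (nat_lit 596) (nat_lit 367)))) (XT.nd (nat_lit 156) (nat_lit 0) (nat_lit 76) (XT.nd (nat_lit 78) (nat_lit 0) (nat_lit 76) (XT.lf (nat_lit 76) (nat_lit 7780199719) (nat_lit 0) (nat_lit 8460156060) (nat_lit 1824) (nat_lit 2545917051) (nat_lit 497) (nat_lit 5) (nat_lit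 496) (nat_lit 5) (nat_lit 520) (nat_lit 5) (nat_lit 598) (nat_lit 596) (nat_lit 366)) (XT.lf (nat_lit 0) (nat_lit 16720621178) (nat_lit 1748) (nat_lit 1627130677) (nat_lit 1824) (nat_lit 623798698) (nat_lit 497) (nat_lit 5) (nat_lit 520) (nat_lit 5) (nat_lit 521) (nat_lit 5) (nat_lit 599) (nat_lit 596) (nat_lit 365))) (XT.nd (nat_lit 78) (nat_lit 0) (nat_lit 0) (XT.lf (nat_lit 76) (nat_lit 7985367516) (nat_lit 0) (nat_lit 9328087797) (nat_lit 1824) (nat_lit 1845019556) (nat_lit 498) (nat_lit 5) (nat_lit 497) (nat_lit 5) (nat_lit 521) (nat_lit 5) (nat_lit 600) (nat_lit 596) (nat_lit 364)) (XT.lf (nat_lit 76) (nat_lit 17809464689) (nat_lit 0) (nat_lit 114768653) (nat_lit 1824) (nat_lit 1424782886) (nat_lit 498) (nat_lit 5) (nat_lit 497) (nat_lit 5) (nat_lit 521) (nat_lit 5) (nat_lit 601) (nat_lit 596) (nat_lit 363))))) (XT.nd (nat_lit 312) (nat_lit 0) (nat_lit 76) (XT.nd (nat_lit 156) (nat_lit 1748) (nat_lit 0) (XT.nd (nat_lit 78) (nat_lit 0) (nat_lit 0) (XT.lf (nat_lit 76) (nat_lit 8332930423) (nat_lit 0) (nat_lit 10323946195) (nat_lit 1824)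 (nat_lit 884299098) (nat_lit 499) (nat_lit 5) (nat_lit 498) (nat_lit 5) (nat_lit 522) (nat_lit 5) (nat_lit 602) (nat_lit 596) (nat_lit 362)) (XT.lf (nat_lit 76) (nat_lit 18420216424) (nat_lit 0) (nat_lit 990393959) (nat_lit 1824) (nat_lit 326439545) (nat_lit 499) (nat_lit 5) (nat_lit 498) (nat_lit 5) (nat_lit 522) (nat_lit 5) (nat_lit 603) (nat_lit 596) (nat_lit 361))) (XT.nd (nat_lit 78) (nat_lit 0) (nat_lit 0) (XT.lf (nat_lit 0) (nat_lit 348278223) (nat_lit 1824) (nat_lit 11106931343) (nat_lit 1900) (nat_lit 8479423189) (nat_lit 475) (nat_lit 5) (nat_lit 499) (nat_lit 5) (nat_lit 500) (nat_lit 5) (nat_lit 604) (nat_lit 596) (nat_lit 360)) (XT.lf (nat_lit 0) (nat_lit 1043073309) (nat_lit 1824) (nat_lit 954628682) (nat_lit 1900) (nat_lit 18138203284) (nat_lit 475) (nat_lit 5) (nat_lit 499) (nat_lit 5) (nat_lit 500) (nat_lit 5) (nat_lit 605) (nat_lit 596) (nat_lit 359)))) (XT.nd (nat_lit 156) (nat_lit 0) (nat_lit 76) (XT.nd (nat_lit 78) (nat_lit 0) (nat_lit 0) (XT.lf (nat_lit 0) (nat_lit 1859259174) (nat_lit 1824) (nat_lit 10867304079) (nat_lit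 1900) (nat_lit 7612490362) (nat_lit 476) (nat_lit 5) (nat_lit 500) (nat_lit 5) (nat_lit 501) (nat_lit 5) (nat_lit 606) (nat_lit 596) (nat_lit 358)) (XT.lf (nat_lit 0) (nat_lit 2707110151) (nat_lit 1824) (nat_lit 442673032) (nat_lit 1900) (nat_lit 17396175173) (nat_lit 476) (nat_lit 5) (nat_lit 500) (nat_lit 5) (nat_lit 501) (nat_lit 5) (nat_lit 607) (nat_lit 596) (nat_lit 357))) (XT.nd (nat_lit 78) (nat_lit 0) (nat_lit 0) (XT.lf (nat_lit 0) (nat_lit 3678115449) (nat_lit 1824) (nat_lit 10476135562) (nat_lit 1900) (nat_lit 6600626491) (nat_lit 477) (nat_lit 5) (nat_lit 501) (nat_lit 5) (nat_lit 502) (nat_lit 5) (nat_lit 608) (nat_lit 596) (nat_lit 356)) (XT.lf (nat_lit 76) (nat_lit 231954984) (nat_lit 0) (nat_lit 4457764128) (nat_lit 1900) (nat_lit 16277832605) (nat_lit 478) (nat_lit 5) (nat_lit 477) (nat_lit 5) (nat_lit 502) (nat_lit 5) (nat_lit 609) (nat_lit 596) (nat_lit 355))))))))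
noncomputable def xc104 : XT := (XT.nd (nat_lit 2262) (nat_lit 6764) (nat_lit 0) (XT.nd (nat_lit 1092) (nat_lit 6764) (nat_lit 0) (XT.nd (nat_lit 546) (nat_lit 2584) (nat_lit 0) (XT.nd (nat_lit 234) (nat_lit 0) (nat_lit 76) (XT.nd (nat_lit 78) (nat_lit 0) (nat_lit 0) (XT.lf (nat_lit 0) (nat_lit 5823487197) (nat_lit 1824) (nat_lit 9925547110) (nat_lit 1900) (nat_lit 5433406710) (nat_lit 478) (nat_lit 5) (nat_lit 502) (nat_lit 5) (nat_lit 503) (nat_lit 5) (nat_lit 610) (nat_lit 596) (nat_lit 354)) (XT.nd (nat_lit 78) (nat_lit 0) (nat_lit 76) (XT.lf (nat_lit 76) (nat_lit 1082486873) (nat_lit 0) (nat_lit 5929968135) (nat_lit 1900) (nat_lit 14388522848) (nat_lit 479) (nat_lit 5) (nat_lit 478) (nat_lit 5) (nat_lit 503) (nat_lit 5) (nat_lit 611) (nat_lit 596) (nat_lit 353)) (XT.lf (nat_lit 0) (nat_lit 8314816455) (nat_lit 1824) (nat_lit 9207254752) (nat_lit 1900) (nat_lit 4100022178) (nat_lit 479) (nat_lit 5) (nat_lit 503) (nat_lit 5) (nat_lit 504) (nat_lit 5) (nat_lit 612) (nat_lit 596) (nat_lit 352)))) (XT.nd (nat_lit 156) (nat_lit 0) (nat_lit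 76) (XT.nd (nat_lit 78) (nat_lit 0) (nat_lit 76) (XT.lf (nat_lit 76) (nat_lit 2111728996) (nat_lit 0) (nat_lit 7580597694) (nat_lit 1900) (nat_lit 12154322734) (nat_lit 480) (nat_lit 5) (nat_lit 479) (nat_lit 5) (nat_lit 504) (nat_lit 5) (nat_lit 613) (nat_lit 596) (nat_lit 351)) (XT.lf (nat_lit 0) (nat_lit 11172384121) (nat_lit 1824) (nat_lit 8312555481) (nat_lit 1900) (nat_lit 2589257270) (nat_lit 480) (nat_lit 5) (nat_lit 504) (nat_lit 5) (nat_lit 505) (nat_lit 5) (nat_lit 614) (nat_lit 596) (nat_lit 350))) (XT.nd (nat_lit 78) (nat_lit 0) (nat_lit 76) (XT.lf (nat_lit 76) (nat_lit 3328804839) (nat_lit 0) (nat_lit 9421311132) (nat_lit 1900) (nat_lit 9554818058) (nat_lit 481) (nat_lit 5) (nat_lit 480) (nat_lit 5) (nat_lit 505) (nat_lit 5) (nat_lit 615) (nat_lit 596) (nat_lit 349)) (XT.lf (nat_lit 0) (nat_lit 14417348283) (nat_lit 1824) (nat_lit 7232312811) (nat_lit 1900) (nat_lit 889466135) (nat_lit 481) (nat_lit 5) (nat_lit 505) (nat_lit 5) (nat_lit 506) (nat_lit 5) (nat_lit 616) (nat_lit 596) (nat_lit 348))))) (XT.nd (nat_lit 234) (nat_lit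 2812) (nat_lit 0) (XT.nd (nat_lit 78) (nat_lit 0) (nat_lit 0) (XT.lf (nat_lit 76) (nat_lit 4743287150) (nat_lit 0) (nat_lit 11464217293) (nat_lit 1900) (nat_lit 6568708483) (nat_lit 482) (nat_lit 5) (nat_lit 481) (nat_lit 5) (nat_lit 506) (nat_lit 5) (nat_lit 617) (nat_lit 596) (nat_lit 347)) (XT.nd (nat_lit 78) (nat_lit 0) (nat_lit 76) (XT.lf (nat_lit 76) (nat_lit 17053545134) (nat_lit 0) (nat_lit 1024893089) (nat_lit 1900) (nat_lit 4938702834) (nat_lit 482) (nat_lit 5) (nat_lit 481) (nat_lit 5) (nat_lit 506) (nat_lit 5) (nat_lit 618) (nat_lit 596) (nat_lit 346)) (XT.lf (nat_lit 76) (nat_lit 6365213694) (nat_lit 0) (nat_lit 13721900377) (nat_lit 1900) (nat_lit 3173767417) (nat_lit 483) (nat_lit 5) (nat_lit 482) (nat_lit 5) (nat_lit 507) (nat_lit 5) (nat_lit 619) (nat_lit 596) (nat_lit 345)))) (XT.nd (nat_lit 156) (nat_lit 1064) (nat_lit 0) (XT.nd (nat_lit 78) (nat_lit 1824) (nat_lit 0) (XT.lf (nat_lit 76) (nat_lit 19011671727) (nat_lit 0) (nat_lit 3167618748) (nat_lit 1900) (nat_lit 1329339915) (nat_lit 483) (nat_lit 5) (nat_lit 482) (nat_lit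 5) (nat_lit 507) (nat_lit 5) (nat_lit 620) (nat_lit 596) (nat_lit 344)) (XT.lf (nat_lit 0) (nat_lit 644632760) (nat_lit 1900) (nat_lit 15558486959) (nat_lit 76) (nat_lit 7556145151) (nat_lit 458) (nat_lit 5) (nat_lit 483) (nat_lit 5) (nat_lit 459) (nat_lit 5) (nat_lit 621) (nat_lit 596) (nat_lit 343))) (XT.nd (nat_lit 78) (nat_lit 1064) (nat_lit 0) (XT.lf (nat_lit 0) (nat_lit 2688317435) (nat_lit 1900) (nat_lit 2833791019) (nat_lit 76) (nat_lit 18491667390) (nat_lit 458) (nat_lit 5) (nat_lit 483) (nat_lit 5) (nat_lit 459) (nat_lit 5) (nat_lit 622) (nat_lit 596) (nat_lit 342)) (XT.lf (nat_lit 0) (nat_lit 4871656276) (nat_lit 1140) (nat_lit 14030117695) (nat_lit 76) (nat_lit 5369627644) (nat_lit 444) (nat_lit 5) (nat_lit 459) (nat_lit 5) (nat_lit 445) (nat_lit 5) (nat_lit 623) (nat_lit 596) (nat_lit 341)))))) (XT.nd (nat_lit 546) (nat_lit 3268) (nat_lit 0) (XT.nd (nat_lit 234) (nat_lit 1672) (nat_lit 0) (XT.nd (nat_lit 78) (nat_lit 1824) (nat_lit 0) (XT.lf (nat_lit 0) (nat_lit 7151149233) (nat_lit 1140) (nat_lit 957141659) (nat_lit 76) (nat_lit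 16424839446) (nat_lit 444) (nat_lit 5) (nat_lit 459) (nat_lit 5) (nat_lit 445) (nat_lit 5) (nat_lit 624) (nat_lit 596) (nat_lit 340)) (XT.nd (nat_lit 78) (nat_lit 912) (nat_lit 0) (XT.lf (nat_lit 0) (nat_lit 9573857653) (nat_lit 988) (nat_lit 12279023761) (nat_lit 76) (nat_lit 2945259889) (nat_lit 432) (nat_lit 5) (nat_lit 445) (nat_lit 5) (nat_lit 433) (nat_lit 5) (nat_lit 625) (nat_lit 596) (nat_lit 339)) (XT.lf (nat_lit 0) (nat_lit 1168226579) (nat_lit 912) (nat_lit 10941424798) (nat_lit 988) (nat_lit 12957508664) (nat_lit 420) (nat_lit 5) (nat_lit 432) (nat_lit 5) (nat_lit 433) (nat_lit 5) (nat_lit 626) (nat_lit 596) (nat_lit 338)))) (XT.nd (nat_lit 156) (nat_lit 836) (nat_lit 0) (XT.nd (nat_lit 78) (nat_lit 836) (nat_lit 0) (XT.lf (nat_lit 0) (nat_lit 14777254737) (nat_lit 988) (nat_lit 10293762894) (nat_lit 76) (nat_lit 268919820) (nat_lit 420) (nat_lit 5) (nat_lit 433) (nat_lit 5) (nat_lit 421) (nat_lit 5) (nat_lit 627) (nat_lit 596) (nat_lit 337)) (XT.lf (nat_lit 0) (nat_lit 3554779718) (nat_lit 836) (nat_lit 14035957499) (nat_lit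 912) (nat_lit 8025582820) (nat_lit 409) (nat_lit 5) (nat_lit 420) (nat_lit 5) (nat_lit 421) (nat_lit 5) (nat_lit 628) (nat_lit 596) (nat_lit 336))) (XT.nd (nat_lit 78) (nat_lit 836) (nat_lit 0) (XT.lf (nat_lit 0) (nat_lit 17816953708) (nat_lit 836) (nat_lit 2709639920) (nat_lit 912) (nat_lit 5370314728) (nat_lit 409) (nat_lit 5) (nat_lit 420) (nat_lit 5) (nat_lit 421) (nat_lit 5) (nat_lit 629) (nat_lit 596) (nat_lit 335)) (XT.lf (nat_lit 0) (nat_lit 6202314406) (nat_lit 836) (nat_lit 17413624862) (nat_lit 912) (nat_lit 2565273893) (nat_lit 398) (nat_lit 5) (nat_lit 409) (nat_lit 5) (nat_lit 410) (nat_lit 5) (nat_lit 630) (nat_lit 596) (nat_lit 334))))) (XT.nd (nat_lit 312) (nat_lit 1520) (nat_lit 0) (XT.nd (nat_lit 156) (nat_lit 836) (nat_lit 0) (XT.nd (nat_lit 78) (nat_lit 836) (nat_lit 0) (XT.lf (nat_lit 0) (nat_lit 361617851) (nat_lit 912) (nat_lit 5613486120) (nat_lit 76) (nat_lit 20494669219) (nat_lit 397) (nat_lit 5) (nat_lit 409) (nat_lit 5) (nat_lit 398) (nat_lit 5) (nat_lit 631) (nat_lit 596) (nat_lit 333)) (XT.lf (nat_lit 0) (nat_lit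 3406694374) (nat_lit 912) (nat_lit 17660828083) (nat_lit 76) (nat_lit 5694363068) (nat_lit 386) (nat_lit 5) (nat_lit 398) (nat_lit 5) (nat_lit 387) (nat_lit 5) (nat_lit 632) (nat_lit 596) (nat_lit 332))) (XT.nd (nat_lit 78) (nat_lit 836) (nat_lit 0) (XT.lf (nat_lit 0) (nat_lit 6587361480) (nat_lit 912) (nat_lit 2915799328) (nat_lit 76) (nat_lit 17555185669) (nat_lit 386) (nat_lit 5) (nat_lit 398) (nat_lit 5) (nat_lit 387) (nat_lit 5) (nat_lit 633) (nat_lit 596) (nat_lit 331)) (XT.lf (nat_lit 0) (nat_lit 9924054182) (nat_lit 912) (nat_lit 15092213608) (nat_lit 76) (nat_lit 2342620759) (nat_lit 375) (nat_lit 5) (nat_lit 387) (nat_lit 5) (nat_lit 376) (nat_lit 5) (nat_lit 634) (nat_lit 596) (nat_lit 330)))) (XT.nd (nat_lit 156) (nat_lit 760) (nat_lit 0) (XT.nd (nat_lit 78) (nat_lit 0) (nat_lit 0) (XT.lf (nat_lit 0) (nat_lit 62168075) (nat_lit 760) (nat_lit 13345637118) (nat_lit 836) (nat_lit 14256029924) (nat_lit 365) (nat_lit 5) (nat_lit 375) (nat_lit 5) (nat_lit 376) (nat_lit 5) (nat_lit 635) (nat_lit 596) (nat_lit 329)) (XT.lf (nat_lit 0)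 (nat_lit 15721379268) (nat_lit 760) (nat_lit 1338453227) (nat_lit 836) (nat_lit 10913076240) (nat_lit 365) (nat_lit 5) (nat_lit 375) (nat_lit 5) (nat_lit 376) (nat_lit 5) (nat_lit 636) (nat_lit 596) (nat_lit 328))) (XT.nd (nat_lit 78) (nat_lit 0) (nat_lit 0) (XT.lf (nat_lit 0) (nat_lit 3376230082) (nat_lit 760) (nat_lit 17498794636) (nat_lit 836) (nat_lit 7411336757) (nat_lit 355) (nat_lit 5) (nat_lit 365) (nat_lit 5) (nat_lit 366) (nat_lit 5) (nat_lit 637) (nat_lit 596) (nat_lit 327)) (XT.lf (nat_lit 0) (nat_lit 19470821448) (nat_lit 760) (nat_lit 5384128342) (nat_lit 836) (nat_lit 3749365036) (nat_lit 355) (nat_lit 5) (nat_lit 365) (nat_lit 5) (nat_lit 366) (nat_lit 5) (nat_lit 638) (nat_lit 596) (nat_lit 326))))))) (XT.nd (nat_lit 1170) (nat_lit 608) (nat_lit 0) (XT.nd (nat_lit 546) (nat_lit 3268) (nat_lit 0) (XT.nd (nat_lit 234) (nat_lit 1368) (nat_lit 0) (XT.nd (nat_lit 78) (nat_lit 760) (nat_lit 0) (XT.lf (nat_lit 0) (nat_lit 74810946) (nat_lit 760) (nat_lit 21924920995) (nat_lit 76) (nat_lit 6927121688) (nat_lit 345) (nat_lit 5) (nat_lit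 355) (nat_lit 5) (nat_lit 346) (nat_lit 5) (nat_lit 639) (nat_lit 596) (nat_lit 325)) (XT.nd (nat_lit 78) (nat_lit 760) (nat_lit 0) (XT.lf (nat_lit 0) (nat_lit 4020139830) (nat_lit 760) (nat_lit 5734459840) (nat_lit 76) (nat_lit 19498850533) (nat_lit 345) (nat_lit 5) (nat_lit 355) (nat_lit 5) (nat_lit 346) (nat_lit 5) (nat_lit 640) (nat_lit 596) (nat_lit 324)) (XT.lf (nat_lit 0) (nat_lit 8131027861) (nat_lit 836) (nat_lit 18683175040) (nat_lit 76) (nat_lit 2770642882) (nat_lit 335) (nat_lit 5) (nat_lit 346) (nat_lit 5) (nat_lit 336) (nat_lit 5) (nat_lit 641) (nat_lit 596) (nat_lit 323)))) (XT.nd (nat_lit 156) (nat_lit 684) (nat_lit 0) (XT.nd (nat_lit 78) (nat_lit 684) (nat_lit 0) (XT.lf (nat_lit 0) (nat_lit 12425021537) (nat_lit 836) (nat_lit 2041495836) (nat_lit 76) (nat_lit 15454334268) (nat_lit 335) (nat_lit 5) (nat_lit 346) (nat_lit 5) (nat_lit 336) (nat_lit 5) (nat_lit 642) (nat_lit 596) (nat_lit 322)) (XT.lf (nat_lit 0) (nat_lit 15128689893) (nat_lit 684) (nat_lit 1772030485) (nat_lit 760) (nat_lit 13360940851) (nat_lit 326) (nat_lit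 5) (nat_lit 335) (nat_lit 5) (nat_lit 336) (nat_lit 5) (nat_lit 643) (nat_lit 596) (nat_lit 321))) (XT.nd (nat_lit 78) (nat_lit 0) (nat_lit 0) (XT.lf (nat_lit 0) (nat_lit 2011901054) (nat_lit 684) (nat_lit 19551076110) (nat_lit 760) (nat_lit 9044369087) (nat_lit 317) (nat_lit 5) (nat_lit 326) (nat_lit 5) (nat_lit 327) (nat_lit 5) (nat_lit 644) (nat_lit 596) (nat_lit 320)) (XT.lf (nat_lit 0) (nat_lit 19690159525) (nat_lit 684) (nat_lit 6739183404) (nat_lit 760) (nat_lit 4528384881) (nat_lit 317) (nat_lit 5) (nat_lit 326) (nat_lit 5) (nat_lit 327) (nat_lit 5) (nat_lit 645) (nat_lit 596) (nat_lit 319))))) (XT.nd (nat_lit 312) (nat_lit 1900) (nat_lit 0) (XT.nd (nat_lit 156) (nat_lit 684) (nat_lit 0) (XT.nd (nat_lit 78) (nat_lit 0) (nat_lit 0) (XT.lf (nat_lit 0) (nat_lit 158083809) (nat_lit 684) (nat_lit 24866949343) (nat_lit 76) (nat_lit 6288450109) (nat_lit 308) (nat_lit 5) (nat_lit 317) (nat_lit 5) (nat_lit 309) (nat_lit 5) (nat_lit 646) (nat_lit 596) (nat_lit 318)) (XT.lf (nat_lit 0) (nat_lit 4996157082) (nat_lit 684) (nat_lit 7085062524)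 (nat_lit 76) (nat_lit 19592165466) (nat_lit 308) (nat_lit 5) (nat_lit 317) (nat_lit 5) (nat_lit 309) (nat_lit 5) (nat_lit 647) (nat_lit 596) (nat_lit 317))) (XT.nd (nat_lit 78) (nat_lit 0) (nat_lit 0) (XT.lf (nat_lit 0) (nat_lit 10009203502) (nat_lit 760) (nat_lit 20850227792) (nat_lit 76) (nat_lit 1179489498) (nat_lit 299) (nat_lit 5) (nat_lit 309) (nat_lit 5) (nat_lit 300) (nat_lit 5) (nat_lit 648) (nat_lit 596) (nat_lit 316)) (XT.lf (nat_lit 0) (nat_lit 15248157938) (nat_lit 760) (nat_lit 2569898995) (nat_lit 76) (nat_lit 14591197458) (nat_lit 299) (nat_lit 5) (nat_lit 309) (nat_lit 5) (nat_lit 300) (nat_lit 5) (nat_lit 649) (nat_lit 596) (nat_lit 315)))) (XT.nd (nat_lit 156) (nat_lit 684) (nat_lit 0) (XT.nd (nat_lit 78) (nat_lit 608) (nat_lit 0) (XT.lf (nat_lit 0) (nat_lit 16286973116) (nat_lit 608) (nat_lit 4408487363) (nat_lit 684) (nat_lit 12089462906) (nat_lit 291) (nat_lit 5) (nat_lit 299) (nat_lit 5) (nat_lit 300) (nat_lit 5) (nat_lit 650) (nat_lit 596) (nat_lit 314)) (XT.lf (nat_lit 0) (nat_lit 2355967783) (nat_lit 608) (nat_lit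 23986425042) (nat_lit 684) (nat_lit 6823899359) (nat_lit 283) (nat_lit 5) (nat_lit 291) (nat_lit 5) (nat_lit 292) (nat_lit 5) (nat_lit 651) (nat_lit 596) (nat_lit 313))) (XT.nd (nat_lit 78) (nat_lit 684) (nat_lit 0) (XT.lf (nat_lit 0) (nat_lit 21778340542) (nat_lit 608) (nat_lit 10461506688) (nat_lit 684) (nat_lit 1312689560) (nat_lit 283) (nat_lit 5) (nat_lit 291) (nat_lit 5) (nat_lit 292) (nat_lit 5) (nat_lit 652) (nat_lit 596) (nat_lit 312)) (XT.lf (nat_lit 0) (nat_lit 4322371041) (nat_lit 684) (nat_lit 26253957577) (nat_lit 76) (nat_lit 3368215531) (nat_lit 274) (nat_lit 5) (nat_lit 283) (nat_lit 5) (nat_lit 275) (nat_lit 5) (nat_lit 653) (nat_lit 596) (nat_lit 311)))))) (XT.nd (nat_lit 77142) (nat_lit 0) (nat_lit 15808) (XT.nd (nat_lit 76830) (nat_lit 0) (nat_lit 17480) (XT.nd (nat_lit 78) (nat_lit 608) (nat_lit 0) (XT.lf (nat_lit 0) (nat_lit 10199306810) (nat_lit 684) (nat_lit 6719712759) (nat_lit 76) (nat_lit 17422263624) (nat_lit 274) (nat_lit 5) (nat_lit 283) (nat_lit 5) (nat_lit 275) (nat_lit 5) (nat_lit 654) (nat_lit 596) (nat_lit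 310)) (XT.nd (nat_lit 76674) (nat_lit 0) (nat_lit 17480) (XT.lf (nat_lit 0) (nat_lit 13378054266) (nat_lit 608) (nat_lit 2900545672) (nat_lit 684) (nat_lit 18465660798) (nat_lit 266) (nat_lit 5) (nat_lit 274) (nat_lit 5) (nat_lit 275) (nat_lit 5) (nat_lit 655) (nat_lit 596) (nat_lit 309)) (XT.lf (nat_lit 0) (nat_lit 4029458812) (nat_lit 0) (nat_lit 4029458812) (nat_lit 1748) (nat_lit 1333570766) (nat_lit 496) (nat_lit 5) (nat_lit 496) (nat_lit 3) (nat_lit 519) (nat_lit 3) (nat_lit 597) (nat_lit 597) (nat_lit 366)))) (XT.nd (nat_lit 156) (nat_lit 0) (nat_lit 76) (XT.nd (nat_lit 78) (nat_lit 0) (nat_lit 0) (XT.lf (nat_lit 0) (nat_lit 16473859995) (nat_lit 1748) (nat_lit 1414699955) (nat_lit 1824) (nat_lit 1080357980) (nat_lit 496) (nat_lit 5) (nat_lit 519) (nat_lit 3) (nat_lit 520) (nat_lit 5) (nat_lit 598) (nat_lit 597) (nat_lit 365)) (XT.lf (nat_lit 76) (nat_lit 8133612900) (nat_lit 0) (nat_lit 8804662990) (nat_lit 1824) (nat_lit 2216236906) (nat_lit 497) (nat_lit 5) (nat_lit 496) (nat_lit 5) (nat_lit 520) (nat_lit 5) (nat_lit 599) (nat_lit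 597) (nat_lit 364))) (XT.nd (nat_lit 78) (nat_lit 0) (nat_lit 0) (XT.lf (nat_lit 0) (nat_lit 17419714786) (nat_lit 1748) (nat_lit 1457288127) (nat_lit 1824) (nat_lit 466662253) (nat_lit 497) (nat_lit 5) (nat_lit 520) (nat_lit 5) (nat_lit 521) (nat_lit 5) (nat_lit 600) (nat_lit 597) (nat_lit 363)) (XT.lf (nat_lit 76) (nat_lit 8346128548) (nat_lit 0) (nat_lit 9672431818) (nat_lit 1824) (nat_lit 1515884954) (nat_lit 498) (nat_lit 5) (nat_lit 497) (nat_lit 5) (nat_lit 521) (nat_lit 5) (nat_lit 601) (nat_lit 597) (nat_lit 362))))) (XT.nd (nat_lit 312) (nat_lit 0) (nat_lit 76) (XT.nd (nat_lit 156) (nat_lit 1748) (nat_lit 0) (XT.nd (nat_lit 78) (nat_lit 0) (nat_lit 76) (XT.lf (nat_lit 76) (nat_lit 18362765436) (nat_lit 0) (nat_lit 271752521) (nat_lit 1824) (nat_lit 1094420707) (nat_lit 498) (nat_lit 5) (nat_lit 497) (nat_lit 5) (nat_lit 521) (nat_lit 5) (nat_lit 602) (nat_lit 597) (nat_lit 361)) (XT.lf (nat_lit 76) (nat_lit 8703412887) (nat_lit 0) (nat_lit 10671841884) (nat_lit 1824) (nat_lit 549818185) (nat_lit 499) (nat_lit 5) (nat_lit 498) (nat_lit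 5) (nat_lit 522) (nat_lit 5) (nat_lit 603) (nat_lit 597) (nat_lit 360))) (XT.nd (nat_lit 78) (nat_lit 0) (nat_lit 76) (XT.lf (nat_lit 0) (nat_lit 12132096) (nat_lit 1824) (nat_lit 1136632217) (nat_lit 1900) (nat_lit 18976234553) (nat_lit 474) (nat_lit 5) (nat_lit 498) (nat_lit 5) (nat_lit 499) (nat_lit 5) (nat_lit 604) (nat_lit 597) (nat_lit 359)) (XT.lf (nat_lit 0) (nat_lit 689755213) (nat_lit 1824) (nat_lit 11118451573) (nat_lit 1900) (nat_lit 8518408171) (nat_lit 475) (nat_lit 5) (nat_lit 499) (nat_lit 5) (nat_lit 500) (nat_lit 5) (nat_lit 605) (nat_lit 597) (nat_lit 358)))) (XT.nd (nat_lit 156) (nat_lit 0) (nat_lit 76) (XT.nd (nat_lit 78) (nat_lit 0) (nat_lit 76) (XT.lf (nat_lit 0) (nat_lit 1391887154) (nat_lit 1824) (nat_lit 767232631) (nat_lit 1900) (nat_lit 18372924720) (nat_lit 475) (nat_lit 5) (nat_lit 499) (nat_lit 5) (nat_lit 500) (nat_lit 5) (nat_lit 606) (nat_lit 597) (nat_lit 357)) (XT.lf (nat_lit 0) (nat_lit 2218533798) (nat_lit 1824) (nat_lit 10872279160) (nat_lit 1900) (nat_lit 7648560502) (nat_lit 476) (nat_lit 5) (nat_lit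 500) (nat_lit 5) (nat_lit 501) (nat_lit 5) (nat_lit 607) (nat_lit 597) (nat_lit 356))) (XT.nd (nat_lit 78) (nat_lit 0) (nat_lit 76) (XT.lf (nat_lit 0) (nat_lit 3077026315) (nat_lit 1824) (nat_lit 243319629) (nat_lit 1900) (nat_lit 17630197042) (nat_lit 476) (nat_lit 5) (nat_lit 500) (nat_lit 5) (nat_lit 501) (nat_lit 5) (nat_lit 608) (nat_lit 597) (nat_lit 355)) (XT.lf (nat_lit 0) (nat_lit 4061927188) (nat_lit 1824) (nat_lit 10471908195) (nat_lit 1900) (nat_lit 6629915997) (nat_lit 477) (nat_lit 5) (nat_lit 501) (nat_lit 5) (nat_lit 502) (nat_lit 5) (nat_lit 609) (nat_lit 597) (nat_lit 354))))))))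
noncomputable def xc105 : XT := (XT.nd (nat_lit 2340) (nat_lit 6156) (nat_lit 0) (XT.nd (nat_lit 1170) (nat_lit 6764) (nat_lit 0) (XT.nd (nat_lit 546) (nat_lit 2508) (nat_lit 0) (XT.nd (nat_lit 234) (nat_lit 0) (nat_lit 152) (XT.nd (nat_lit 78) (nat_lit 0) (nat_lit 76) (XT.lf (nat_lit 76) (nat_lit 448937912) (nat_lit 0) (nat_lit 4640120367) (nat_lit 1900) (nat_lit 16291715260) (nat_lit 478) (nat_lit 5) (nat_lit 477) (nat_lit 5) (nat_lit 502) (nat_lit 5) (nat_lit 610) (nat_lit 597) (nat_lit 353)) (XT.nd (nat_lit 78) (nat_lit 0) (nat_lit 0) (XT.lf (nat_lit 0) (nat_lit 6238917394) (nat_lit 1824) (nat_lit 9909275539) (nat_lit 1900) (nat_lit 5451899737) (nat_lit 478) (nat_lit 5) (nat_lit 502) (nat_lit 5) (nat_lit 503) (nat_lit 5) (nat_lit 611) (nat_lit 597) (nat_lit 352)) (XT.lf (nat_lit 76) (nat_lit 1317506081) (nat_lit 0) (nat_lit 6129681847) (nat_lit 1900) (nat_lit 14375902203) (nat_lit 479) (nat_lit 5) (nat_lit 478) (nat_lit 5) (nat_lit 503) (nat_lit 5) (nat_lit 612) (nat_lit 597) (nat_lit 351)))) (XT.nd (nat_lit 156) (nat_lit 0) (nat_lit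 76) (XT.nd (nat_lit 78) (nat_lit 0) (nat_lit 0) (XT.lf (nat_lit 0) (nat_lit 8769306089) (nat_lit 1824) (nat_lit 9175906317) (nat_lit 1900) (nat_lit 4103541720) (nat_lit 479) (nat_lit 5) (nat_lit 503) (nat_lit 5) (nat_lit 504) (nat_lit 5) (nat_lit 613) (nat_lit 597) (nat_lit 350)) (XT.lf (nat_lit 76) (nat_lit 2368039386) (nat_lit 0) (nat_lit 7802066217) (nat_lit 1900) (nat_lit 12107781241) (nat_lit 480) (nat_lit 5) (nat_lit 479) (nat_lit 5) (nat_lit 504) (nat_lit 5) (nat_lit 614) (nat_lit 597) (nat_lit 349))) (XT.nd (nat_lit 78) (nat_lit 0) (nat_lit 0) (XT.lf (nat_lit 0) (nat_lit 11673752219) (nat_lit 1824) (nat_lit 8262899793) (nat_lit 1900) (nat_lit 2573453801) (nat_lit 480) (nat_lit 5) (nat_lit 504) (nat_lit 5) (nat_lit 505) (nat_lit 5) (nat_lit 615) (nat_lit 597) (nat_lit 348)) (XT.lf (nat_lit 76) (nat_lit 3609867295) (nat_lit 0) (nat_lit 9669114578) (nat_lit 1900) (nat_lit 9466557300) (nat_lit 481) (nat_lit 5) (nat_lit 480) (nat_lit 5) (nat_lit 505) (nat_lit 5) (nat_lit 616) (nat_lit 597) (nat_lit 347))))) (XT.nd (nat_lit 312) (nat_lit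 2812) (nat_lit 0) (XT.nd (nat_lit 156) (nat_lit 0) (nat_lit 0) (XT.nd (nat_lit 78) (nat_lit 0) (nat_lit 0) (XT.lf (nat_lit 0) (nat_lit 14973811000) (nat_lit 1824) (nat_lit 7160914546) (nat_lit 1900) (nat_lit 849805967) (nat_lit 481) (nat_lit 5) (nat_lit 505) (nat_lit 5) (nat_lit 506) (nat_lit 5) (nat_lit 617) (nat_lit 597) (nat_lit 346)) (XT.lf (nat_lit 76) (nat_lit 5052776069) (nat_lit 0) (nat_lit 11743130518) (nat_lit 1900) (nat_lit 6430529922) (nat_lit 482) (nat_lit 5) (nat_lit 481) (nat_lit 5) (nat_lit 506) (nat_lit 5) (nat_lit 618) (nat_lit 597) (nat_lit 345))) (XT.nd (nat_lit 78) (nat_lit 0) (nat_lit 76) (XT.lf (nat_lit 76) (nat_lit 17605030915) (nat_lit 0) (nat_lit 1094046715) (nat_lit 1900) (nat_lit 4773209508) (nat_lit 482) (nat_lit 5) (nat_lit 481) (nat_lit 5) (nat_lit 506) (nat_lit 5) (nat_lit 619) (nat_lit 597) (nat_lit 344)) (XT.lf (nat_lit 76) (nat_lit 6707024915) (nat_lit 0) (nat_lit 14036905273) (nat_lit 1900) (nat_lit 2977052426) (nat_lit 483) (nat_lit 5) (nat_lit 482) (nat_lit 5) (nat_lit 507) (nat_lit 5) (nat_lit 620)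 (nat_lit 597) (nat_lit 343)))) (XT.nd (nat_lit 156) (nat_lit 1064) (nat_lit 0) (XT.nd (nat_lit 78) (nat_lit 1824) (nat_lit 0) (XT.lf (nat_lit 76) (nat_lit 19602206091) (nat_lit 0) (nat_lit 3270742582) (nat_lit 1900) (nat_lit 1100838145) (nat_lit 483) (nat_lit 5) (nat_lit 482) (nat_lit 5) (nat_lit 507) (nat_lit 5) (nat_lit 621) (nat_lit 597) (nat_lit 342)) (XT.lf (nat_lit 0) (nat_lit 905477135) (nat_lit 1900) (nat_lit 15652190318) (nat_lit 76) (nat_lit 7671809521) (nat_lit 458) (nat_lit 5) (nat_lit 483) (nat_lit 5) (nat_lit 459) (nat_lit 5) (nat_lit 622) (nat_lit 597) (nat_lit 341))) (XT.nd (nat_lit 78) (nat_lit 1064) (nat_lit 0) (XT.lf (nat_lit 0) (nat_lit 2985173705) (nat_lit 1900) (nat_lit 2677264506) (nat_lit 76) (nat_lit 18826737470) (nat_lit 458) (nat_lit 5) (nat_lit 483) (nat_lit 5) (nat_lit 459) (nat_lit 5) (nat_lit 623) (nat_lit 597) (nat_lit 340)) (XT.lf (nat_lit 0) (nat_lit 5208606860) (nat_lit 1140) (nat_lit 14093931642) (nat_lit 76) (nat_lit 5449487187) (nat_lit 444) (nat_lit 5) (nat_lit 459) (nat_lit 5) (nat_lit 445) (nat_lit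 5) (nat_lit 624) (nat_lit 597) (nat_lit 339)))))) (XT.nd (nat_lit 546) (nat_lit 3268) (nat_lit 0) (XT.nd (nat_lit 234) (nat_lit 1672) (nat_lit 0) (XT.nd (nat_lit 78) (nat_lit 1824) (nat_lit 0) (XT.lf (nat_lit 0) (nat_lit 7528993255) (nat_lit 1140) (nat_lit 763746839) (nat_lit 76) (nat_lit 16726343087) (nat_lit 444) (nat_lit 5) (nat_lit 459) (nat_lit 5) (nat_lit 445) (nat_lit 5) (nat_lit 625) (nat_lit 597) (nat_lit 338)) (XT.nd (nat_lit 78) (nat_lit 912) (nat_lit 0) (XT.lf (nat_lit 0) (nat_lit 9996789604) (nat_lit 988) (nat_lit 12308687261) (nat_lit 76) (nat_lit 2983985087) (nat_lit 432) (nat_lit 5) (nat_lit 445) (nat_lit 5) (nat_lit 433) (nat_lit 5) (nat_lit 626) (nat_lit 597) (nat_lit 337)) (XT.lf (nat_lit 0) (nat_lit 1406087580) (nat_lit 912) (nat_lit 11174065946) (nat_lit 988) (nat_lit 12983770709) (nat_lit 420) (nat_lit 5) (nat_lit 432) (nat_lit 5) (nat_lit 433) (nat_lit 5) (nat_lit 627) (nat_lit 597) (nat_lit 336)))) (XT.nd (nat_lit 156) (nat_lit 836) (nat_lit 0) (XT.nd (nat_lit 78) (nat_lit 836) (nat_lit 0) (XT.lf (nat_lit 0) (nat_lit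 15296544380) (nat_lit 988) (nat_lit 10284770351) (nat_lit 76) (nat_lit 260934004) (nat_lit 420) (nat_lit 5) (nat_lit 433) (nat_lit 5) (nat_lit 421) (nat_lit 5) (nat_lit 628) (nat_lit 597) (nat_lit 335)) (XT.lf (nat_lit 0) (nat_lit 3839329510) (nat_lit 836) (nat_lit 14323965739) (nat_lit 912) (nat_lit 7960923996) (nat_lit 409) (nat_lit 5) (nat_lit 420) (nat_lit 5) (nat_lit 421) (nat_lit 5) (nat_lit 629) (nat_lit 597) (nat_lit 334))) (XT.nd (nat_lit 78) (nat_lit 836) (nat_lit 0) (XT.lf (nat_lit 0) (nat_lit 18382561603) (nat_lit 836) (nat_lit 2770978885) (nat_lit 912) (nat_lit 5256965650) (nat_lit 409) (nat_lit 5) (nat_lit 420) (nat_lit 5) (nat_lit 421) (nat_lit 5) (nat_lit 630) (nat_lit 597) (nat_lit 333)) (XT.lf (nat_lit 0) (nat_lit 6538610668) (nat_lit 836) (nat_lit 17763151521) (nat_lit 912) (nat_lit 2398793303) (nat_lit 398) (nat_lit 5) (nat_lit 409) (nat_lit 5) (nat_lit 410) (nat_lit 5) (nat_lit 631) (nat_lit 597) (nat_lit 332))))) (XT.nd (nat_lit 312) (nat_lit 1520) (nat_lit 0) (XT.nd (nat_lit 156) (nat_lit 836) (nat_lit 0) (XT.nd (nat_lit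 78) (nat_lit 836) (nat_lit 0) (XT.lf (nat_lit 0) (nat_lit 579565663) (nat_lit 912) (nat_lit 5514855947) (nat_lit 76) (nat_lit 20900521347) (nat_lit 397) (nat_lit 5) (nat_lit 409) (nat_lit 5) (nat_lit 398) (nat_lit 5) (nat_lit 632) (nat_lit 597) (nat_lit 331)) (XT.lf (nat_lit 0) (nat_lit 3682782516) (nat_lit 912) (nat_lit 17800372384) (nat_lit 76) (nat_lit 5809798085) (nat_lit 386) (nat_lit 5) (nat_lit 398) (nat_lit 5) (nat_lit 387) (nat_lit 5) (nat_lit 633) (nat_lit 597) (nat_lit 330))) (XT.nd (nat_lit 78) (nat_lit 836) (nat_lit 0) (XT.lf (nat_lit 0) (nat_lit 6922985430) (nat_lit 912) (nat_lit 2764632706) (nat_lit 76) (nat_lit 17907806789) (nat_lit 386) (nat_lit 5) (nat_lit 398) (nat_lit 5) (nat_lit 387) (nat_lit 5) (nat_lit 634) (nat_lit 597) (nat_lit 329)) (XT.lf (nat_lit 0) (nat_lit 10323810187) (nat_lit 912) (nat_lit 15181962741) (nat_lit 76) (nat_lit 2396257161) (nat_lit 375) (nat_lit 5) (nat_lit 387) (nat_lit 5) (nat_lit 376) (nat_lit 5) (nat_lit 635) (nat_lit 597) (nat_lit 328)))) (XT.nd (nat_lit 156) (nat_lit 760) (nat_lit 0) (XT.nd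 (nat_lit 78) (nat_lit 0) (nat_lit 0) (XT.lf (nat_lit 0) (nat_lit 274111213) (nat_lit 760) (nat_lit 13600546442) (nat_lit 836) (nat_lit 14338469718) (nat_lit 365) (nat_lit 5) (nat_lit 375) (nat_lit 5) (nat_lit 376) (nat_lit 5) (nat_lit 636) (nat_lit 597) (nat_lit 327)) (XT.lf (nat_lit 0) (nat_lit 16242375261) (nat_lit 760) (nat_lit 1353454234) (nat_lit 836) (nat_lit 10932631093) (nat_lit 365) (nat_lit 5) (nat_lit 375) (nat_lit 5) (nat_lit 376) (nat_lit 5) (nat_lit 637) (nat_lit 597) (nat_lit 326))) (XT.nd (nat_lit 78) (nat_lit 0) (nat_lit 0) (XT.lf (nat_lit 0) (nat_lit 3652768807) (nat_lit 760) (nat_lit 17832169106) (nat_lit 836) (nat_lit 7363292425) (nat_lit 355) (nat_lit 5) (nat_lit 365) (nat_lit 5) (nat_lit 366) (nat_lit 5) (nat_lit 638) (nat_lit 597) (nat_lit 325)) (XT.lf (nat_lit 0) (nat_lit 20065153684) (nat_lit 760) (nat_lit 5475535005) (nat_lit 836) (nat_lit 3631929721) (nat_lit 355) (nat_lit 5) (nat_lit 365) (nat_lit 5) (nat_lit 366) (nat_lit 5) (nat_lit 639) (nat_lit 597) (nat_lit 324))))))) (XT.nd (nat_lit 1170) (nat_lit 0) (nat_lit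 0) (XT.nd (nat_lit 546) (nat_lit 3268) (nat_lit 0) (XT.nd (nat_lit 234) (nat_lit 1368) (nat_lit 0) (XT.nd (nat_lit 78) (nat_lit 760) (nat_lit 0) (XT.lf (nat_lit 0) (nat_lit 263941226) (nat_lit 760) (nat_lit 22153695804) (nat_lit 76) (nat_lit 7083991462) (nat_lit 345) (nat_lit 5) (nat_lit 355) (nat_lit 5) (nat_lit 346) (nat_lit 5) (nat_lit 640) (nat_lit 597) (nat_lit 323)) (XT.nd (nat_lit 78) (nat_lit 760) (nat_lit 0) (XT.lf (nat_lit 0) (nat_lit 4284497588) (nat_lit 760) (nat_lit 5643537653) (nat_lit 76) (nat_lit 19906795525) (nat_lit 345) (nat_lit 5) (nat_lit 355) (nat_lit 5) (nat_lit 346) (nat_lit 5) (nat_lit 641) (nat_lit 597) (nat_lit 322)) (XT.lf (nat_lit 0) (nat_lit 8475469236) (nat_lit 836) (nat_lit 18849083854) (nat_lit 76) (nat_lit 2848344033) (nat_lit 335) (nat_lit 5) (nat_lit 346) (nat_lit 5) (nat_lit 336) (nat_lit 5) (nat_lit 642) (nat_lit 597) (nat_lit 321)))) (XT.nd (nat_lit 156) (nat_lit 684) (nat_lit 0) (XT.nd (nat_lit 78) (nat_lit 684) (nat_lit 0) (XT.lf (nat_lit 0) (nat_lit 12851777671) (nat_lit 836) (nat_lit 1878644688)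 (nat_lit 76) (nat_lit 15785272221) (nat_lit 335) (nat_lit 5) (nat_lit 346) (nat_lit 5) (nat_lit 336) (nat_lit 5) (nat_lit 643) (nat_lit 597) (nat_lit 320)) (XT.lf (nat_lit 0) (nat_lit 15633604749) (nat_lit 684) (nat_lit 1781204263) (nat_lit 760) (nat_lit 13448555154) (nat_lit 326) (nat_lit 5) (nat_lit 335) (nat_lit 5) (nat_lit 336) (nat_lit 5) (nat_lit 644) (nat_lit 597) (nat_lit 319))) (XT.nd (nat_lit 78) (nat_lit 0) (nat_lit 0) (XT.lf (nat_lit 0) (nat_lit 2256486585) (nat_lit 684) (nat_lit 19911865870) (nat_lit 760) (nat_lit 9047649775) (nat_lit 317) (nat_lit 5) (nat_lit 326) (nat_lit 5) (nat_lit 327) (nat_lit 5) (nat_lit 645) (nat_lit 597) (nat_lit 318)) (XT.lf (nat_lit 0) (nat_lit 20284303411) (nat_lit 684) (nat_lit 6844328090) (nat_lit 760) (nat_lit 4444828369) (nat_lit 317) (nat_lit 5) (nat_lit 326) (nat_lit 5) (nat_lit 327) (nat_lit 5) (nat_lit 646) (nat_lit 597) (nat_lit 317))))) (XT.nd (nat_lit 312) (nat_lit 1900) (nat_lit 0) (XT.nd (nat_lit 156) (nat_lit 684) (nat_lit 0) (XT.nd (nat_lit 78) (nat_lit 0) (nat_lit 0) (XT.lf (nat_lit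 0) (nat_lit 331228230) (nat_lit 684) (nat_lit 25159789742) (nat_lit 76) (nat_lit 6445327167) (nat_lit 308) (nat_lit 5) (nat_lit 317) (nat_lit 5) (nat_lit 309) (nat_lit 5) (nat_lit 647) (nat_lit 597) (nat_lit 316)) (XT.lf (nat_lit 0) (nat_lit 5262729973) (nat_lit 684) (nat_lit 7026274962) (nat_lit 76) (nat_lit 20014506869) (nat_lit 308) (nat_lit 5) (nat_lit 317) (nat_lit 5) (nat_lit 309) (nat_lit 5) (nat_lit 648) (nat_lit 597) (nat_lit 315))) (XT.nd (nat_lit 78) (nat_lit 0) (nat_lit 0) (XT.lf (nat_lit 0) (nat_lit 10374286784) (nat_lit 760) (nat_lit 21064985181) (nat_lit 76) (nat_lit 1237121442) (nat_lit 299) (nat_lit 5) (nat_lit 309) (nat_lit 5) (nat_lit 300) (nat_lit 5) (nat_lit 649) (nat_lit 597) (nat_lit 314)) (XT.lf (nat_lit 0) (nat_lit 15714786991) (nat_lit 760) (nat_lit 2423015438) (nat_lit 76) (nat_lit 14916396068) (nat_lit 299) (nat_lit 5) (nat_lit 309) (nat_lit 5) (nat_lit 300) (nat_lit 5) (nat_lit 650) (nat_lit 597) (nat_lit 313)))) (XT.nd (nat_lit 156) (nat_lit 684) (nat_lit 0) (XT.nd (nat_lit 78) (nat_lit 608) (nat_lit 0) (XT.lf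 (nat_lit 0) (nat_lit 16809689631) (nat_lit 608) (nat_lit 4459454937) (nat_lit 684) (nat_lit 12168274273) (nat_lit 291) (nat_lit 5) (nat_lit 299) (nat_lit 5) (nat_lit 300) (nat_lit 5) (nat_lit 651) (nat_lit 597) (nat_lit 312)) (XT.lf (nat_lit 0) (nat_lit 2601710277) (nat_lit 608) (nat_lit 24425698842) (nat_lit 684) (nat_lit 6799038174) (nat_lit 283) (nat_lit 5) (nat_lit 291) (nat_lit 5) (nat_lit 292) (nat_lit 5) (nat_lit 652) (nat_lit 597) (nat_lit 311))) (XT.nd (nat_lit 78) (nat_lit 684) (nat_lit 0) (XT.lf (nat_lit 0) (nat_lit 22408635920) (nat_lit 608) (nat_lit 10631075351) (nat_lit 684) (nat_lit 1180767692) (nat_lit 283) (nat_lit 5) (nat_lit 291) (nat_lit 5) (nat_lit 292) (nat_lit 5) (nat_lit 653) (nat_lit 597) (nat_lit 310)) (XT.lf (nat_lit 0) (nat_lit 4563395761) (nat_lit 684) (nat_lit 26580695781) (nat_lit 76) (nat_lit 3476245003) (nat_lit 274) (nat_lit 5) (nat_lit 283) (nat_lit 5) (nat_lit 275) (nat_lit 5) (nat_lit 654) (nat_lit 597) (nat_lit 309)))))) (XT.nd (nat_lit 77220) (nat_lit 0) (nat_lit 15200) (XT.nd (nat_lit 76908) (nat_lit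 0) (nat_lit 16872) (XT.nd (nat_lit 76752) (nat_lit 0) (nat_lit 16872) (XT.lf (nat_lit 0) (nat_lit 10554839318) (nat_lit 684) (nat_lit 6659655104) (nat_lit 76) (nat_lit 17810576702) (nat_lit 274) (nat_lit 5) (nat_lit 283) (nat_lit 5) (nat_lit 275) (nat_lit 5) (nat_lit 655) (nat_lit 597) (nat_lit 308)) (XT.nd (nat_lit 78) (nat_lit 0) (nat_lit 0) (XT.lf (nat_lit 0) (nat_lit 4203307913) (nat_lit 0) (nat_lit 4203307913) (nat_lit 1748) (nat_lit 1169980320) (nat_lit 496) (nat_lit 5) (nat_lit 496) (nat_lit 3) (nat_lit 519) (nat_lit 3) (nat_lit 598) (nat_lit 598) (nat_lit 364)) (XT.lf (nat_lit 0) (nat_lit 17167875124) (nat_lit 1748) (nat_lit 1251606813) (nat_lit 1824) (nat_lit 921500818) (nat_lit 496) (nat_lit 5) (nat_lit 519) (nat_lit 3) (nat_lit 520) (nat_lit 5) (nat_lit 599) (nat_lit 598) (nat_lit 363)))) (XT.nd (nat_lit 156) (nat_lit 0) (nat_lit 76) (XT.nd (nat_lit 78) (nat_lit 0) (nat_lit 76) (XT.lf (nat_lit 76) (nat_lit 8486413174) (nat_lit 0) (nat_lit 9149252798) (nat_lit 1824) (nat_lit 1894742260) (nat_lit 497) (nat_lit 5) (nat_lit 496) (nat_lit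 5) (nat_lit 520) (nat_lit 5) (nat_lit 600) (nat_lit 598) (nat_lit 362)) (XT.lf (nat_lit 0) (nat_lit 18118629251) (nat_lit 1748) (nat_lit 1291907589) (nat_lit 1824) (nat_lit 312969335) (nat_lit 497) (nat_lit 5) (nat_lit 520) (nat_lit 5) (nat_lit 521) (nat_lit 5) (nat_lit 601) (nat_lit 598) (nat_lit 361))) (XT.nd (nat_lit 78) (nat_lit 0) (nat_lit 0) (XT.lf (nat_lit 76) (nat_lit 8706297641) (nat_lit 0) (nat_lit 10017535841) (nat_lit 1824) (nat_lit 1194381244) (nat_lit 498) (nat_lit 5) (nat_lit 497) (nat_lit 5) (nat_lit 521) (nat_lit 5) (nat_lit 602) (nat_lit 598) (nat_lit 360)) (XT.lf (nat_lit 76) (nat_lit 18919478119) (nat_lit 0) (nat_lit 425869323) (nat_lit 1824) (nat_lit 771386171) (nat_lit 498) (nat_lit 5) (nat_lit 497) (nat_lit 5) (nat_lit 521) (nat_lit 5) (nat_lit 603) (nat_lit 598) (nat_lit 359))))) (XT.nd (nat_lit 312) (nat_lit 0) (nat_lit 152) (XT.nd (nat_lit 156) (nat_lit 0) (nat_lit 76) (XT.nd (nat_lit 78) (nat_lit 1824) (nat_lit 0) (XT.lf (nat_lit 76) (nat_lit 9073390271) (nat_lit 0) (nat_lit 11021204102) (nat_lit 1824) (nat_lit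 222322723) (nat_lit 499) (nat_lit 5) (nat_lit 498) (nat_lit 5) (nat_lit 522) (nat_lit 5) (nat_lit 604) (nat_lit 598) (nat_lit 358)) (XT.lf (nat_lit 0) (nat_lit 339877134) (nat_lit 1824) (nat_lit 962924929) (nat_lit 1900) (nat_lit 19218126906) (nat_lit 474) (nat_lit 5) (nat_lit 498) (nat_lit 5) (nat_lit 499) (nat_lit 5) (nat_lit 605) (nat_lit 598) (nat_lit 357))) (XT.nd (nat_lit 78) (nat_lit 0) (nat_lit 0) (XT.lf (nat_lit 0) (nat_lit 1025072258) (nat_lit 1824) (nat_lit 11138380777) (nat_lit 1900) (nat_lit 8563244345) (nat_lit 475) (nat_lit 5) (nat_lit 499) (nat_lit 5) (nat_lit 500) (nat_lit 5) (nat_lit 606) (nat_lit 598) (nat_lit 356)) (XT.lf (nat_lit 0) (nat_lit 1734942486) (nat_lit 1824) (nat_lit 584106865) (nat_lit 1900) (nat_lit 18617312637) (nat_lit 475) (nat_lit 5) (nat_lit 499) (nat_lit 5) (nat_lit 500) (nat_lit 5) (nat_lit 607) (nat_lit 598) (nat_lit 355)))) (XT.nd (nat_lit 156) (nat_lit 0) (nat_lit 76) (XT.nd (nat_lit 78) (nat_lit 0) (nat_lit 0) (XT.lf (nat_lit 0) (nat_lit 2572486790) (nat_lit 1824) (nat_lit 10885600368) (nat_lit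 1900) (nat_lit 7689863442) (nat_lit 476) (nat_lit 5) (nat_lit 500) (nat_lit 5) (nat_lit 501) (nat_lit 5) (nat_lit 608) (nat_lit 598) (nat_lit 354)) (XT.lf (nat_lit 0) (nat_lit 3442078916) (nat_lit 1824) (nat_lit 48064085) (nat_lit 1900) (nat_lit 17873322287) (nat_lit 476) (nat_lit 5) (nat_lit 500) (nat_lit 5) (nat_lit 501) (nat_lit 5) (nat_lit 609) (nat_lit 598) (nat_lit 353))) (XT.nd (nat_lit 78) (nat_lit 0) (nat_lit 0) (XT.lf (nat_lit 0) (nat_lit 4441367798) (nat_lit 1824) (nat_lit 10475896456) (nat_lit 1900) (nat_lit 6663780155) (nat_lit 477) (nat_lit 5) (nat_lit 501) (nat_lit 5) (nat_lit 502) (nat_lit 5) (nat_lit 610) (nat_lit 598) (nat_lit 352)) (XT.lf (nat_lit 76) (nat_lit 662014928) (nat_lit 0) (nat_lit 4822504624) (nat_lit 1900) (nat_lit 16317978249) (nat_lit 478) (nat_lit 5) (nat_lit 477) (nat_lit 5) (nat_lit 502) (nat_lit 5) (nat_lit 611) (nat_lit 598) (nat_lit 351))))))))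
noncomputable def xc106 : XT := (XT.nd (nat_lit 2340) (nat_lit 5396) (nat_lit 0) (XT.nd (nat_lit 1170) (nat_lit 7524) (nat_lit 0) (XT.nd (nat_lit 546) (nat_lit 2584) (nat_lit 0) (XT.nd (nat_lit 234) (nat_lit 0) (nat_lit 76) (XT.nd (nat_lit 78) (nat_lit 0) (nat_lit 0) (XT.lf (nat_lit 0) (nat_lit 6651047196) (nat_lit 1824) (nat_lit 9901018803) (nat_lit 1900) (nat_lit 5474264234) (nat_lit 478) (nat_lit 5) (nat_lit 502) (nat_lit 5) (nat_lit 503) (nat_lit 5) (nat_lit 612) (nat_lit 598) (nat_lit 350)) (XT.nd (nat_lit 78) (nat_lit 0) (nat_lit 76) (XT.lf (nat_lit 76) (nat_lit 1548940276) (nat_lit 0) (nat_lit 6330240064) (nat_lit 1900) (nat_lit 14374693698) (nat_lit 479) (nat_lit 5) (nat_lit 478) (nat_lit 5) (nat_lit 503) (nat_lit 5) (nat_lit 613) (nat_lit 598) (nat_lit 349)) (XT.lf (nat_lit 0) (nat_lit 9221694618) (nat_lit 1824) (nat_lit 9152298790) (nat_lit 1900) (nat_lit 4110179161) (nat_lit 479) (nat_lit 5) (nat_lit 503) (nat_lit 5) (nat_lit 504) (nat_lit 5) (nat_lit 614) (nat_lit 598) (nat_lit 348)))) (XT.nd (nat_lit 156) (nat_lit 0) (nat_lit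 76) (XT.nd (nat_lit 78) (nat_lit 0) (nat_lit 76) (XT.lf (nat_lit 76) (nat_lit 2621163158) (nat_lit 0) (nat_lit 8025251494) (nat_lit 1900) (nat_lit 12071555524) (nat_lit 480) (nat_lit 5) (nat_lit 479) (nat_lit 5) (nat_lit 504) (nat_lit 5) (nat_lit 615) (nat_lit 598) (nat_lit 347)) (XT.lf (nat_lit 0) (nat_lit 12174355689) (nat_lit 1824) (nat_lit 8220634914) (nat_lit 1900) (nat_lit 2559958810) (nat_lit 480) (nat_lit 5) (nat_lit 504) (nat_lit 5) (nat_lit 505) (nat_lit 5) (nat_lit 616) (nat_lit 598) (nat_lit 346))) (XT.nd (nat_lit 78) (nat_lit 0) (nat_lit 76) (XT.lf (nat_lit 76) (nat_lit 3888222233) (nat_lit 0) (nat_lit 9919568403) (nat_lit 1900) (nat_lit 9387379104) (nat_lit 481) (nat_lit 5) (nat_lit 480) (nat_lit 5) (nat_lit 505) (nat_lit 5) (nat_lit 617) (nat_lit 598) (nat_lit 345)) (XT.lf (nat_lit 0) (nat_lit 15530991710) (nat_lit 1824) (nat_lit 7096477587) (nat_lit 1900) (nat_lit 811583430) (nat_lit 481) (nat_lit 5) (nat_lit 505) (nat_lit 5) (nat_lit 506) (nat_lit 5) (nat_lit 618) (nat_lit 598) (nat_lit 344))))) (XT.nd (nat_lit 312) (nat_lit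 2812) (nat_lit 0) (XT.nd (nat_lit 156) (nat_lit 0) (nat_lit 76) (XT.nd (nat_lit 78) (nat_lit 0) (nat_lit 0) (XT.lf (nat_lit 76) (nat_lit 5360120687) (nat_lit 0) (nat_lit 12025694859) (nat_lit 1900) (nat_lit 6300054852) (nat_lit 482) (nat_lit 5) (nat_lit 481) (nat_lit 5) (nat_lit 506) (nat_lit 5) (nat_lit 619) (nat_lit 598) (nat_lit 343)) (XT.lf (nat_lit 76) (nat_lit 18159375746) (nat_lit 0) (nat_lit 1162694051) (nat_lit 1900) (nat_lit 4614668140) (nat_lit 482) (nat_lit 5) (nat_lit 481) (nat_lit 5) (nat_lit 506) (nat_lit 5) (nat_lit 620) (nat_lit 598) (nat_lit 342))) (XT.nd (nat_lit 78) (nat_lit 0) (nat_lit 0) (XT.lf (nat_lit 76) (nat_lit 7047342795) (nat_lit 0) (nat_lit 14356635005) (nat_lit 1900) (nat_lit 2786506643) (nat_lit 483) (nat_lit 5) (nat_lit 482) (nat_lit 5) (nat_lit 507) (nat_lit 5) (nat_lit 621) (nat_lit 598) (nat_lit 341)) (XT.lf (nat_lit 76) (nat_lit 20196384901) (nat_lit 0) (nat_lit 3374384519) (nat_lit 1900) (nat_lit 877671740) (nat_lit 483) (nat_lit 5) (nat_lit 482) (nat_lit 5) (nat_lit 507) (nat_lit 5) (nat_lit 622) (nat_lit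 598) (nat_lit 340)))) (XT.nd (nat_lit 156) (nat_lit 1064) (nat_lit 0) (XT.nd (nat_lit 78) (nat_lit 0) (nat_lit 0) (XT.lf (nat_lit 0) (nat_lit 1161910130) (nat_lit 1900) (nat_lit 15756212228) (nat_lit 76) (nat_lit 7791164076) (nat_lit 458) (nat_lit 5) (nat_lit 483) (nat_lit 5) (nat_lit 459) (nat_lit 5) (nat_lit 623) (nat_lit 598) (nat_lit 339)) (XT.lf (nat_lit 0) (nat_lit 3278527623) (nat_lit 1900) (nat_lit 2525886369) (nat_lit 76) (nat_lit 19169858851) (nat_lit 458) (nat_lit 5) (nat_lit 483) (nat_lit 5) (nat_lit 459) (nat_lit 5) (nat_lit 624) (nat_lit 598) (nat_lit 338))) (XT.nd (nat_lit 78) (nat_lit 0) (nat_lit 0) (XT.lf (nat_lit 0) (nat_lit 5542995700) (nat_lit 1140) (nat_lit 14167440026) (nat_lit 76) (nat_lit 5532013061) (nat_lit 444) (nat_lit 5) (nat_lit 459) (nat_lit 5) (nat_lit 445) (nat_lit 5) (nat_lit 625) (nat_lit 598) (nat_lit 337)) (XT.lf (nat_lit 0) (nat_lit 7905275771) (nat_lit 1140) (nat_lit 574737218) (nat_lit 76) (nat_lit 17034924979) (nat_lit 444) (nat_lit 5) (nat_lit 459) (nat_lit 5) (nat_lit 445) (nat_lit 5) (nat_lit 626)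 (nat_lit 598) (nat_lit 336)))))) (XT.nd (nat_lit 546) (nat_lit 3952) (nat_lit 0) (XT.nd (nat_lit 234) (nat_lit 1748) (nat_lit 0) (XT.nd (nat_lit 78) (nat_lit 912) (nat_lit 0) (XT.lf (nat_lit 0) (nat_lit 10419192521) (nat_lit 988) (nat_lit 12347328350) (nat_lit 76) (nat_lit 3024268404) (nat_lit 432) (nat_lit 5) (nat_lit 445) (nat_lit 5) (nat_lit 433) (nat_lit 5) (nat_lit 627) (nat_lit 598) (nat_lit 335)) (XT.nd (nat_lit 78) (nat_lit 0) (nat_lit 0) (XT.lf (nat_lit 0) (nat_lit 1640376641) (nat_lit 912) (nat_lit 11410823555) (nat_lit 988) (nat_lit 13019601325) (nat_lit 420) (nat_lit 5) (nat_lit 432) (nat_lit 5) (nat_lit 433) (nat_lit 5) (nat_lit 628) (nat_lit 598) (nat_lit 334)) (XT.lf (nat_lit 0) (nat_lit 15817531544) (nat_lit 988) (nat_lit 10283941535) (nat_lit 76) (nat_lit 253307421) (nat_lit 420) (nat_lit 5) (nat_lit 433) (nat_lit 5) (nat_lit 421) (nat_lit 5) (nat_lit 629) (nat_lit 598) (nat_lit 333)))) (XT.nd (nat_lit 156) (nat_lit 912) (nat_lit 0) (XT.nd (nat_lit 78) (nat_lit 0) (nat_lit 0) (XT.lf (nat_lit 0) (nat_lit 4121281610) (nat_lit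 836) (nat_lit 14617451100) (nat_lit 912) (nat_lit 7903715640) (nat_lit 409) (nat_lit 5) (nat_lit 420) (nat_lit 5) (nat_lit 421) (nat_lit 5) (nat_lit 630) (nat_lit 598) (nat_lit 332)) (XT.lf (nat_lit 0) (nat_lit 18951355492) (nat_lit 836) (nat_lit 2833267135) (nat_lit 912) (nat_lit 5149921791) (nat_lit 409) (nat_lit 5) (nat_lit 420) (nat_lit 5) (nat_lit 421) (nat_lit 5) (nat_lit 631) (nat_lit 598) (nat_lit 331))) (XT.nd (nat_lit 78) (nat_lit 76) (nat_lit 0) (XT.lf (nat_lit 0) (nat_lit 6873390931) (nat_lit 836) (nat_lit 18119620013) (nat_lit 912) (nat_lit 2237440001) (nat_lit 398) (nat_lit 5) (nat_lit 409) (nat_lit 5) (nat_lit 410) (nat_lit 5) (nat_lit 632) (nat_lit 598) (nat_lit 330)) (XT.lf (nat_lit 0) (nat_lit 793690093) (nat_lit 912) (nat_lit 5422442670) (nat_lit 76) (nat_lit 21314647445) (nat_lit 397) (nat_lit 5) (nat_lit 409) (nat_lit 5) (nat_lit 398) (nat_lit 5) (nat_lit 633) (nat_lit 598) (nat_lit 329))))) (XT.nd (nat_lit 312) (nat_lit 1520) (nat_lit 0) (XT.nd (nat_lit 156) (nat_lit 1596) (nat_lit 0) (XT.nd (nat_lit 78) (nat_lit 0)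 (nat_lit 0) (XT.lf (nat_lit 0) (nat_lit 3956317304) (nat_lit 912) (nat_lit 17951004726) (nat_lit 76) (nat_lit 5927481701) (nat_lit 386) (nat_lit 5) (nat_lit 398) (nat_lit 5) (nat_lit 387) (nat_lit 5) (nat_lit 634) (nat_lit 598) (nat_lit 328)) (XT.lf (nat_lit 0) (nat_lit 7257405078) (nat_lit 912) (nat_lit 2618577217) (nat_lit 76) (nat_lit 18267421409) (nat_lit 386) (nat_lit 5) (nat_lit 398) (nat_lit 5) (nat_lit 387) (nat_lit 5) (nat_lit 635) (nat_lit 598) (nat_lit 327))) (XT.nd (nat_lit 78) (nat_lit 760) (nat_lit 0) (XT.lf (nat_lit 0) (nat_lit 10723745561) (nat_lit 912) (nat_lit 15281742770) (nat_lit 76) (nat_lit 2450702862) (nat_lit 375) (nat_lit 5) (nat_lit 387) (nat_lit 5) (nat_lit 376) (nat_lit 5) (nat_lit 636) (nat_lit 598) (nat_lit 326)) (XT.lf (nat_lit 0) (nat_lit 482111484) (nat_lit 760) (nat_lit 13861020059) (nat_lit 836) (nat_lit 14430428650) (nat_lit 365) (nat_lit 5) (nat_lit 375) (nat_lit 5) (nat_lit 376) (nat_lit 5) (nat_lit 637) (nat_lit 598) (nat_lit 325)))) (XT.nd (nat_lit 156) (nat_lit 760) (nat_lit 0) (XT.nd (nat_lit 78)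 (nat_lit 760) (nat_lit 0) (XT.lf (nat_lit 0) (nat_lit 16765769871) (nat_lit 760) (nat_lit 1369212229) (nat_lit 836) (nat_lit 10960293066) (nat_lit 365) (nat_lit 5) (nat_lit 375) (nat_lit 5) (nat_lit 376) (nat_lit 5) (nat_lit 638) (nat_lit 598) (nat_lit 324)) (XT.lf (nat_lit 0) (nat_lit 3926722034) (nat_lit 760) (nat_lit 18172855720) (nat_lit 836) (nat_lit 7321908650) (nat_lit 355) (nat_lit 5) (nat_lit 365) (nat_lit 5) (nat_lit 366) (nat_lit 5) (nat_lit 639) (nat_lit 598) (nat_lit 323))) (XT.nd (nat_lit 78) (nat_lit 760) (nat_lit 0) (XT.lf (nat_lit 0) (nat_lit 20663415435) (nat_lit 760) (nat_lit 5569401814) (nat_lit 836) (nat_lit 3519617705) (nat_lit 355) (nat_lit 5) (nat_lit 365) (nat_lit 5) (nat_lit 366) (nat_lit 5) (nat_lit 640) (nat_lit 598) (nat_lit 322)) (XT.lf (nat_lit 0) (nat_lit 449568052) (nat_lit 760) (nat_lit 22395189932) (nat_lit 76) (nat_lit 7243286959) (nat_lit 345) (nat_lit 5) (nat_lit 355) (nat_lit 5) (nat_lit 346) (nat_lit 5) (nat_lit 641) (nat_lit 598) (nat_lit 321))))))) (XT.nd (nat_lit 77922) (nat_lit 0) (nat_lit 15200)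 (XT.nd (nat_lit 546) (nat_lit 2584) (nat_lit 0) (XT.nd (nat_lit 234) (nat_lit 2052) (nat_lit 0) (XT.nd (nat_lit 78) (nat_lit 760) (nat_lit 0) (XT.lf (nat_lit 0) (nat_lit 4546999306) (nat_lit 760) (nat_lit 5558781163) (nat_lit 76) (nat_lit 20322201698) (nat_lit 345) (nat_lit 5) (nat_lit 355) (nat_lit 5) (nat_lit 346) (nat_lit 5) (nat_lit 642) (nat_lit 598) (nat_lit 320)) (XT.nd (nat_lit 78) (nat_lit 0) (nat_lit 0) (XT.lf (nat_lit 0) (nat_lit 8819739115) (nat_lit 836) (nat_lit 19026378213) (nat_lit 76) (nat_lit 2926733726) (nat_lit 335) (nat_lit 5) (nat_lit 346) (nat_lit 5) (nat_lit 336) (nat_lit 5) (nat_lit 643) (nat_lit 598) (nat_lit 319)) (XT.lf (nat_lit 0) (nat_lit 13280147042) (nat_lit 836) (nat_lit 1720445700) (nat_lit 76) (nat_lit 16121980422) (nat_lit 335) (nat_lit 5) (nat_lit 346) (nat_lit 5) (nat_lit 336) (nat_lit 5) (nat_lit 644) (nat_lit 598) (nat_lit 318)))) (XT.nd (nat_lit 156) (nat_lit 684) (nat_lit 0) (XT.nd (nat_lit 78) (nat_lit 684) (nat_lit 0) (XT.lf (nat_lit 0) (nat_lit 16140760753) (nat_lit 684) (nat_lit 1791581489) (nat_lit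 760) (nat_lit 13544896006) (nat_lit 326) (nat_lit 5) (nat_lit 335) (nat_lit 5) (nat_lit 336) (nat_lit 5) (nat_lit 645) (nat_lit 598) (nat_lit 317)) (XT.lf (nat_lit 0) (nat_lit 2498028763) (nat_lit 684) (nat_lit 20281045361) (nat_lit 760) (nat_lit 9057892762) (nat_lit 317) (nat_lit 5) (nat_lit 326) (nat_lit 5) (nat_lit 327) (nat_lit 5) (nat_lit 646) (nat_lit 598) (nat_lit 316))) (XT.nd (nat_lit 78) (nat_lit 684) (nat_lit 0) (XT.lf (nat_lit 0) (nat_lit 20882550702) (nat_lit 684) (nat_lit 6952726587) (nat_lit 760) (nat_lit 4366362183) (nat_lit 317) (nat_lit 5) (nat_lit 326) (nat_lit 5) (nat_lit 327) (nat_lit 5) (nat_lit 647) (nat_lit 598) (nat_lit 315)) (XT.lf (nat_lit 0) (nat_lit 501234902) (nat_lit 684) (nat_lit 25466427877) (nat_lit 76) (nat_lit 6604133802) (nat_lit 308) (nat_lit 5) (nat_lit 317) (nat_lit 5) (nat_lit 309) (nat_lit 5) (nat_lit 648) (nat_lit 598) (nat_lit 314))))) (XT.nd (nat_lit 312) (nat_lit 1292) (nat_lit 0) (XT.nd (nat_lit 156) (nat_lit 608) (nat_lit 0) (XT.nd (nat_lit 78) (nat_lit 684) (nat_lit 0) (XT.lf (nat_lit 0) (nat_lit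 5528163110) (nat_lit 684) (nat_lit 6974096874) (nat_lit 76) (nat_lit 20444110822) (nat_lit 308) (nat_lit 5) (nat_lit 317) (nat_lit 5) (nat_lit 309) (nat_lit 5) (nat_lit 649) (nat_lit 598) (nat_lit 313)) (XT.lf (nat_lit 0) (nat_lit 10740268494) (nat_lit 760) (nat_lit 21291891221) (nat_lit 76) (nat_lit 1294584127) (nat_lit 299) (nat_lit 5) (nat_lit 309) (nat_lit 5) (nat_lit 300) (nat_lit 5) (nat_lit 650) (nat_lit 598) (nat_lit 312))) (XT.nd (nat_lit 78) (nat_lit 608) (nat_lit 0) (XT.lf (nat_lit 0) (nat_lit 16184470941) (nat_lit 760) (nat_lit 2280893724) (nat_lit 76) (nat_lit 15246802672) (nat_lit 299) (nat_lit 5) (nat_lit 309) (nat_lit 5) (nat_lit 300) (nat_lit 5) (nat_lit 651) (nat_lit 598) (nat_lit 311)) (XT.lf (nat_lit 0) (nat_lit 17335211618) (nat_lit 608) (nat_lit 4512886469) (nat_lit 684) (nat_lit 12254990497) (nat_lit 291) (nat_lit 5) (nat_lit 299) (nat_lit 5) (nat_lit 300) (nat_lit 5) (nat_lit 652) (nat_lit 598) (nat_lit 310)))) (XT.nd (nat_lit 156) (nat_lit 684) (nat_lit 0) (XT.nd (nat_lit 78) (nat_lit 0) (nat_lit 0) (XT.lf (nat_lit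 0) (nat_lit 2844654842) (nat_lit 608) (nat_lit 24875329024) (nat_lit 684) (nat_lit 6779944762) (nat_lit 283) (nat_lit 5) (nat_lit 291) (nat_lit 5) (nat_lit 292) (nat_lit 5) (nat_lit 653) (nat_lit 598) (nat_lit 309)) (XT.lf (nat_lit 0) (nat_lit 23043975657) (nat_lit 608) (nat_lit 10805575490) (nat_lit 684) (nat_lit 1052349540) (nat_lit 283) (nat_lit 5) (nat_lit 291) (nat_lit 5) (nat_lit 292) (nat_lit 5) (nat_lit 654) (nat_lit 598) (nat_lit 308))) (XT.nd (nat_lit 76830) (nat_lit 0) (nat_lit 16872) (XT.lf (nat_lit 0) (nat_lit 4803238551) (nat_lit 684) (nat_lit 26921670569) (nat_lit 76) (nat_lit 3584855986) (nat_lit 274) (nat_lit 5) (nat_lit 283) (nat_lit 5) (nat_lit 275) (nat_lit 5) (nat_lit 655) (nat_lit 598) (nat_lit 307)) (XT.lf (nat_lit 0) (nat_lit 4377012599) (nat_lit 0) (nat_lit 4377012599) (nat_lit 1748) (nat_lit 1010506165) (nat_lit 496) (nat_lit 5) (nat_lit 496) (nat_lit 3) (nat_lit 519) (nat_lit 3) (nat_lit 599) (nat_lit 599) (nat_lit 362)))))) (XT.nd (nat_lit 546) (nat_lit 0) (nat_lit 76) (XT.nd (nat_lit 234) (nat_lit 1672) (nat_lit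 0) (XT.nd (nat_lit 78) (nat_lit 0) (nat_lit 0) (XT.lf (nat_lit 0) (nat_lit 17861615104) (nat_lit 1748) (nat_lit 1092683604) (nat_lit 1824) (nat_lit 766474163) (nat_lit 496) (nat_lit 5) (nat_lit 519) (nat_lit 3) (nat_lit 520) (nat_lit 5) (nat_lit 600) (nat_lit 599) (nat_lit 361)) (XT.nd (nat_lit 78) (nat_lit 0) (nat_lit 76) (XT.lf (nat_lit 76) (nat_lit 8838886550) (nat_lit 0) (nat_lit 9494191476) (nat_lit 1824) (nat_lit 1581022935) (nat_lit 497) (nat_lit 5) (nat_lit 496) (nat_lit 5) (nat_lit 520) (nat_lit 5) (nat_lit 601) (nat_lit 599) (nat_lit 360)) (XT.lf (nat_lit 0) (nat_lit 18817910879) (nat_lit 1748) (nat_lit 1130773134) (nat_lit 1824) (nat_lit 162533064) (nat_lit 497) (nat_lit 5) (nat_lit 520) (nat_lit 5) (nat_lit 521) (nat_lit 5) (nat_lit 602) (nat_lit 599) (nat_lit 359)))) (XT.nd (nat_lit 156) (nat_lit 1748) (nat_lit 0) (XT.nd (nat_lit 78) (nat_lit 0) (nat_lit 0) (XT.lf (nat_lit 76) (nat_lit 9066166118) (nat_lit 0) (nat_lit 10363652981) (nat_lit 1824) (nat_lit 880109114) (nat_lit 498) (nat_lit 5) (nat_lit 497) (nat_lit 5) (nat_lit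 521) (nat_lit 5) (nat_lit 603) (nat_lit 599) (nat_lit 358)) (XT.lf (nat_lit 76) (nat_lit 19479968195) (nat_lit 0) (nat_lit 577294968) (nat_lit 1824) (nat_lit 455284724) (nat_lit 498) (nat_lit 5) (nat_lit 497) (nat_lit 5) (nat_lit 521) (nat_lit 5) (nat_lit 604) (nat_lit 599) (nat_lit 357))) (XT.nd (nat_lit 78) (nat_lit 0) (nat_lit 0) (XT.lf (nat_lit 0) (nat_lit 97285721) (nat_lit 1824) (nat_lit 11274336857) (nat_lit 1900) (nat_lit 9345221254) (nat_lit 474) (nat_lit 5) (nat_lit 498) (nat_lit 5) (nat_lit 499) (nat_lit 5) (nat_lit 605) (nat_lit 599) (nat_lit 356)) (XT.lf (nat_lit 0) (nat_lit 661459756) (nat_lit 1824) (nat_lit 793371496) (nat_lit 1900) (nat_lit 19470201537) (nat_lit 474) (nat_lit 5) (nat_lit 498) (nat_lit 5) (nat_lit 499) (nat_lit 5) (nat_lit 606) (nat_lit 599) (nat_lit 355))))) (XT.nd (nat_lit 312) (nat_lit 0) (nat_lit 152) (XT.nd (nat_lit 156) (nat_lit 0) (nat_lit 76) (XT.nd (nat_lit 78) (nat_lit 0) (nat_lit 0) (XT.lf (nat_lit 0) (nat_lit 1354610554) (nat_lit 1824) (nat_lit 11166569550) (nat_lit 1900) (nat_lit 8613851803) (nat_lit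 475) (nat_lit 5) (nat_lit 499) (nat_lit 5) (nat_lit 500) (nat_lit 5) (nat_lit 607) (nat_lit 599) (nat_lit 354)) (XT.lf (nat_lit 0) (nat_lit 2072618640) (nat_lit 1824) (nat_lit 405025431) (nat_lit 1900) (nat_lit 18871367293) (nat_lit 475) (nat_lit 5) (nat_lit 499) (nat_lit 5) (nat_lit 500) (nat_lit 5) (nat_lit 608) (nat_lit 599) (nat_lit 353))) (XT.nd (nat_lit 78) (nat_lit 0) (nat_lit 0) (XT.lf (nat_lit 0) (nat_lit 2921497382) (nat_lit 1824) (nat_lit 10907114398) (nat_lit 1900) (nat_lit 7736328657) (nat_lit 476) (nat_lit 5) (nat_lit 500) (nat_lit 5) (nat_lit 501) (nat_lit 5) (nat_lit 609) (nat_lit 599) (nat_lit 352)) (XT.lf (nat_lit 76) (nat_lit 145230312) (nat_lit 0) (nat_lit 3658359443) (nat_lit 1900) (nat_lit 17981273847) (nat_lit 477) (nat_lit 5) (nat_lit 476) (nat_lit 5) (nat_lit 501) (nat_lit 5) (nat_lit 610) (nat_lit 599) (nat_lit 351)))) (XT.nd (nat_lit 156) (nat_lit 0) (nat_lit 76) (XT.nd (nat_lit 78) (nat_lit 0) (nat_lit 0) (XT.lf (nat_lit 0) (nat_lit 4816817670) (nat_lit 1824) (nat_lit 10487942353) (nat_lit 1900) (nat_lit 6702155563)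 (nat_lit 477) (nat_lit 5) (nat_lit 501) (nat_lit 5) (nat_lit 502) (nat_lit 5) (nat_lit 611) (nat_lit 599) (nat_lit 350)) (XT.lf (nat_lit 76) (nat_lit 871428101) (nat_lit 0) (nat_lit 5005057994) (nat_lit 1900) (nat_lit 16356399217) (nat_lit 478) (nat_lit 5) (nat_lit 477) (nat_lit 5) (nat_lit 502) (nat_lit 5) (nat_lit 612) (nat_lit 599) (nat_lit 349))) (XT.nd (nat_lit 78) (nat_lit 0) (nat_lit 0) (XT.lf (nat_lit 0) (nat_lit 7060261387) (nat_lit 1824) (nat_lit 9900613337) (nat_lit 1900) (nat_lit 5500441659) (nat_lit 478) (nat_lit 5) (nat_lit 502) (nat_lit 5) (nat_lit 503) (nat_lit 5) (nat_lit 613) (nat_lit 599) (nat_lit 348)) (XT.lf (nat_lit 76) (nat_lit 1777039491) (nat_lit 0) (nat_lit 6531781986) (nat_lit 1900) (nat_lit 14384672627) (nat_lit 479) (nat_lit 5) (nat_lit 478) (nat_lit 5) (nat_lit 503) (nat_lit 5) (nat_lit 614) (nat_lit 599) (nat_lit 347))))))))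
noncomputable def xc107 : XT := (XT.nd (nat_lit 2340) (nat_lit 3952) (nat_lit 0) (XT.nd (nat_lit 1170) (nat_lit 6460) (nat_lit 0) (XT.nd (nat_lit 546) (nat_lit 4484) (nat_lit 0) (XT.nd (nat_lit 234) (nat_lit 0) (nat_lit 76) (XT.nd (nat_lit 78) (nat_lit 0) (nat_lit 0) (XT.lf (nat_lit 0) (nat_lit 9672374578) (nat_lit 1824) (nat_lit 9136262053) (nat_lit 1900) (nat_lit 4119878522) (nat_lit 479) (nat_lit 5) (nat_lit 503) (nat_lit 5) (nat_lit 504) (nat_lit 5) (nat_lit 615) (nat_lit 599) (nat_lit 346)) (XT.nd (nat_lit 78) (nat_lit 0) (nat_lit 76) (XT.lf (nat_lit 76) (nat_lit 2871359379) (nat_lit 0) (nat_lit 8250293195) (nat_lit 1900) (nat_lit 12045415179) (nat_lit 480) (nat_lit 5) (nat_lit 479) (nat_lit 5) (nat_lit 504) (nat_lit 5) (nat_lit 616) (nat_lit 599) (nat_lit 345)) (XT.lf (nat_lit 0) (nat_lit 12674598307) (nat_lit 1824) (nat_lit 8185583104) (nat_lit 1900) (nat_lit 2548716553) (nat_lit 480) (nat_lit 5) (nat_lit 504) (nat_lit 5) (nat_lit 505) (nat_lit 5) (nat_lit 617) (nat_lit 599) (nat_lit 344)))) (XT.nd (nat_lit 156) (nat_lit 0) (nat_lit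 76) (XT.nd (nat_lit 78) (nat_lit 0) (nat_lit 76) (XT.lf (nat_lit 76) (nat_lit 4164138919) (nat_lit 0) (nat_lit 10172815147) (nat_lit 1900) (nat_lit 9317043890) (nat_lit 481) (nat_lit 5) (nat_lit 480) (nat_lit 5) (nat_lit 505) (nat_lit 5) (nat_lit 618) (nat_lit 599) (nat_lit 343)) (XT.lf (nat_lit 0) (nat_lit 16089309055) (nat_lit 1824) (nat_lit 7038815396) (nat_lit 1900) (nat_lit 774740649) (nat_lit 481) (nat_lit 5) (nat_lit 505) (nat_lit 5) (nat_lit 506) (nat_lit 5) (nat_lit 619) (nat_lit 599) (nat_lit 342))) (XT.nd (nat_lit 78) (nat_lit 0) (nat_lit 0) (XT.lf (nat_lit 76) (nat_lit 5665601740) (nat_lit 0) (nat_lit 12312058169) (nat_lit 1900) (nat_lit 6177030892) (nat_lit 482) (nat_lit 5) (nat_lit 481) (nat_lit 5) (nat_lit 506) (nat_lit 5) (nat_lit 620) (nat_lit 599) (nat_lit 341)) (XT.lf (nat_lit 76) (nat_lit 18716954084) (nat_lit 0) (nat_lit 1230898337) (nat_lit 1900) (nat_lit 4462819290) (nat_lit 482) (nat_lit 5) (nat_lit 481) (nat_lit 5) (nat_lit 506) (nat_lit 5) (nat_lit 621) (nat_lit 599) (nat_lit 340))))) (XT.nd (nat_lit 312) (nat_lit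 2888) (nat_lit 0) (XT.nd (nat_lit 156) (nat_lit 1824) (nat_lit 0) (XT.nd (nat_lit 78) (nat_lit 0) (nat_lit 0) (XT.lf (nat_lit 76) (nat_lit 7386460914) (nat_lit 0) (nat_lit 14681245240) (nat_lit 1900) (nat_lit 2601861121) (nat_lit 483) (nat_lit 5) (nat_lit 482) (nat_lit 5) (nat_lit 507) (nat_lit 5) (nat_lit 622) (nat_lit 599) (nat_lit 339)) (XT.lf (nat_lit 76) (nat_lit 20794598151) (nat_lit 0) (nat_lit 3478614890) (nat_lit 1900) (nat_lit 659562768) (nat_lit 483) (nat_lit 5) (nat_lit 482) (nat_lit 5) (nat_lit 507) (nat_lit 5) (nat_lit 623) (nat_lit 599) (nat_lit 338))) (XT.nd (nat_lit 78) (nat_lit 0) (nat_lit 0) (XT.lf (nat_lit 0) (nat_lit 1414217395) (nat_lit 1900) (nat_lit 15870431152) (nat_lit 76) (nat_lit 7914229153) (nat_lit 458) (nat_lit 5) (nat_lit 483) (nat_lit 5) (nat_lit 459) (nat_lit 5) (nat_lit 624) (nat_lit 599) (nat_lit 337)) (XT.lf (nat_lit 0) (nat_lit 3568675687) (nat_lit 1900) (nat_lit 2379438096) (nat_lit 76) (nat_lit 19521140142) (nat_lit 458) (nat_lit 5) (nat_lit 483) (nat_lit 5) (nat_lit 459) (nat_lit 5) (nat_lit 625)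 (nat_lit 599) (nat_lit 336)))) (XT.nd (nat_lit 156) (nat_lit 1824) (nat_lit 0) (XT.nd (nat_lit 78) (nat_lit 0) (nat_lit 0) (XT.lf (nat_lit 0) (nat_lit 5875132722) (nat_lit 1140) (nat_lit 14250509849) (nat_lit 76) (nat_lit 5617217076) (nat_lit 444) (nat_lit 5) (nat_lit 459) (nat_lit 5) (nat_lit 445) (nat_lit 5) (nat_lit 626) (nat_lit 599) (nat_lit 335)) (XT.lf (nat_lit 0) (nat_lit 8280319627) (nat_lit 1140) (nat_lit 389880023) (nat_lit 76) (nat_lit 17350685982) (nat_lit 444) (nat_lit 5) (nat_lit 459) (nat_lit 5) (nat_lit 445) (nat_lit 5) (nat_lit 627) (nat_lit 599) (nat_lit 334))) (XT.nd (nat_lit 78) (nat_lit 912) (nat_lit 0) (XT.lf (nat_lit 0) (nat_lit 10841404827) (nat_lit 988) (nat_lit 12394801007) (nat_lit 76) (nat_lit 3066110573) (nat_lit 432) (nat_lit 5) (nat_lit 445) (nat_lit 5) (nat_lit 433) (nat_lit 5) (nat_lit 628) (nat_lit 599) (nat_lit 333)) (XT.lf (nat_lit 0) (nat_lit 1871345755) (nat_lit 912) (nat_lit 11651800781) (nat_lit 988) (nat_lit 13064840719) (nat_lit 420) (nat_lit 5) (nat_lit 432) (nat_lit 5) (nat_lit 433) (nat_lit 5)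 (nat_lit 629) (nat_lit 599) (nat_lit 332)))))) (XT.nd (nat_lit 546) (nat_lit 3876) (nat_lit 0) (XT.nd (nat_lit 234) (nat_lit 1748) (nat_lit 0) (XT.nd (nat_lit 78) (nat_lit 836) (nat_lit 0) (XT.lf (nat_lit 0) (nat_lit 16340587553) (nat_lit 988) (nat_lit 10291115731) (nat_lit 76) (nat_lit 246027103) (nat_lit 420) (nat_lit 5) (nat_lit 433) (nat_lit 5) (nat_lit 421) (nat_lit 5) (nat_lit 630) (nat_lit 599) (nat_lit 331)) (XT.nd (nat_lit 78) (nat_lit 0) (nat_lit 0) (XT.lf (nat_lit 0) (nat_lit 4400905926) (nat_lit 836) (nat_lit 14916534115) (nat_lit 912) (nat_lit 7853767235) (nat_lit 409) (nat_lit 5) (nat_lit 420) (nat_lit 5) (nat_lit 421) (nat_lit 5) (nat_lit 631) (nat_lit 599) (nat_lit 330)) (XT.lf (nat_lit 0) (nat_lit 19523714645) (nat_lit 836) (nat_lit 2896534431) (nat_lit 912) (nat_lit 5048976385) (nat_lit 409) (nat_lit 5) (nat_lit 420) (nat_lit 5) (nat_lit 421) (nat_lit 5) (nat_lit 632) (nat_lit 599) (nat_lit 329)))) (XT.nd (nat_lit 156) (nat_lit 836) (nat_lit 0) (XT.nd (nat_lit 78) (nat_lit 76) (nat_lit 0) (XT.lf (nat_lit 0) (nat_lit 7206944917)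 (nat_lit 836) (nat_lit 18483171065) (nat_lit 912) (nat_lit 2080988139) (nat_lit 398) (nat_lit 5) (nat_lit 409) (nat_lit 5) (nat_lit 410) (nat_lit 5) (nat_lit 633) (nat_lit 599) (nat_lit 328)) (XT.lf (nat_lit 0) (nat_lit 1004232404) (nat_lit 912) (nat_lit 5336052619) (nat_lit 76) (nat_lit 21737206898) (nat_lit 397) (nat_lit 5) (nat_lit 409) (nat_lit 5) (nat_lit 398) (nat_lit 5) (nat_lit 634) (nat_lit 599) (nat_lit 327))) (XT.nd (nat_lit 78) (nat_lit 0) (nat_lit 0) (XT.lf (nat_lit 0) (nat_lit 4227561238) (nat_lit 912) (nat_lit 18112624681) (nat_lit 76) (nat_lit 6047461221) (nat_lit 386) (nat_lit 5) (nat_lit 398) (nat_lit 5) (nat_lit 387) (nat_lit 5) (nat_lit 635) (nat_lit 599) (nat_lit 326)) (XT.lf (nat_lit 0) (nat_lit 7590903755) (nat_lit 912) (nat_lit 2477419212) (nat_lit 76) (nat_lit 18634171687) (nat_lit 386) (nat_lit 5) (nat_lit 398) (nat_lit 5) (nat_lit 387) (nat_lit 5) (nat_lit 636) (nat_lit 599) (nat_lit 325))))) (XT.nd (nat_lit 312) (nat_lit 1520) (nat_lit 0) (XT.nd (nat_lit 156) (nat_lit 760) (nat_lit 0) (XT.nd (nat_lit 78) (nat_lit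 760) (nat_lit 0) (XT.lf (nat_lit 0) (nat_lit 11124167388) (nat_lit 912) (nat_lit 15391434502) (nat_lit 76) (nat_lit 2505984275) (nat_lit 375) (nat_lit 5) (nat_lit 387) (nat_lit 5) (nat_lit 376) (nat_lit 5) (nat_lit 637) (nat_lit 599) (nat_lit 324)) (XT.lf (nat_lit 0) (nat_lit 686407738) (nat_lit 760) (nat_lit 14127151157) (nat_lit 836) (nat_lit 14531791488) (nat_lit 365) (nat_lit 5) (nat_lit 375) (nat_lit 5) (nat_lit 376) (nat_lit 5) (nat_lit 638) (nat_lit 599) (nat_lit 323))) (XT.nd (nat_lit 78) (nat_lit 760) (nat_lit 0) (XT.lf (nat_lit 0) (nat_lit 17291922547) (nat_lit 760) (nat_lit 1385724607) (nat_lit 836) (nat_lit 10995924677) (nat_lit 365) (nat_lit 5) (nat_lit 375) (nat_lit 5) (nat_lit 376) (nat_lit 5) (nat_lit 639) (nat_lit 599) (nat_lit 322)) (XT.lf (nat_lit 0) (nat_lit 4198353217) (nat_lit 760) (nat_lit 18520975686) (nat_lit 836) (nat_lit 7287022695) (nat_lit 355) (nat_lit 5) (nat_lit 365) (nat_lit 5) (nat_lit 366) (nat_lit 5) (nat_lit 640) (nat_lit 599) (nat_lit 321)))) (XT.nd (nat_lit 156) (nat_lit 760) (nat_lit 0) (XT.nd (nat_lit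 78) (nat_lit 760) (nat_lit 0) (XT.lf (nat_lit 0) (nat_lit 21265994275) (nat_lit 760) (nat_lit 5665753431) (nat_lit 836) (nat_lit 3412241306) (nat_lit 355) (nat_lit 5) (nat_lit 365) (nat_lit 5) (nat_lit 366) (nat_lit 5) (nat_lit 641) (nat_lit 599) (nat_lit 320)) (XT.lf (nat_lit 0) (nat_lit 631904281) (nat_lit 760) (nat_lit 22649341532) (nat_lit 76) (nat_lit 7405084328) (nat_lit 345) (nat_lit 5) (nat_lit 355) (nat_lit 5) (nat_lit 346) (nat_lit 5) (nat_lit 642) (nat_lit 599) (nat_lit 319))) (XT.nd (nat_lit 78) (nat_lit 760) (nat_lit 0) (XT.lf (nat_lit 0) (nat_lit 4807885242) (nat_lit 760) (nat_lit 5480003650) (nat_lit 76) (nat_lit 20745245369) (nat_lit 345) (nat_lit 5) (nat_lit 355) (nat_lit 5) (nat_lit 346) (nat_lit 5) (nat_lit 643) (nat_lit 599) (nat_lit 318)) (XT.lf (nat_lit 0) (nat_lit 9164108227) (nat_lit 836) (nat_lit 19214972560) (nat_lit 76) (nat_lit 3005859338) (nat_lit 335) (nat_lit 5) (nat_lit 346) (nat_lit 5) (nat_lit 336) (nat_lit 5) (nat_lit 644) (nat_lit 599) (nat_lit 317))))))) (XT.nd (nat_lit 78000) (nat_lit 0) (nat_lit 14516)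 (XT.nd (nat_lit 546) (nat_lit 1216) (nat_lit 0) (XT.nd (nat_lit 234) (nat_lit 1368) (nat_lit 0) (XT.nd (nat_lit 78) (nat_lit 1368) (nat_lit 0) (XT.lf (nat_lit 0) (nat_lit 13710430699) (nat_lit 836) (nat_lit 1566684794) (nat_lit 76) (nat_lit 16464607225) (nat_lit 335) (nat_lit 5) (nat_lit 346) (nat_lit 5) (nat_lit 336) (nat_lit 5) (nat_lit 645) (nat_lit 599) (nat_lit 316)) (XT.nd (nat_lit 78) (nat_lit 684) (nat_lit 0) (XT.lf (nat_lit 0) (nat_lit 16650507829) (nat_lit 684) (nat_lit 1803146626) (nat_lit 760) (nat_lit 13649867117) (nat_lit 326) (nat_lit 5) (nat_lit 335) (nat_lit 5) (nat_lit 336) (nat_lit 5) (nat_lit 646) (nat_lit 599) (nat_lit 315)) (XT.lf (nat_lit 0) (nat_lit 2736774850) (nat_lit 684) (nat_lit 20658736793) (nat_lit 760) (nat_lit 9074969486) (nat_lit 317) (nat_lit 5) (nat_lit 326) (nat_lit 5) (nat_lit 327) (nat_lit 5) (nat_lit 647) (nat_lit 599) (nat_lit 314)))) (XT.nd (nat_lit 156) (nat_lit 684) (nat_lit 0) (XT.nd (nat_lit 78) (nat_lit 684) (nat_lit 0) (XT.lf (nat_lit 0) (nat_lit 21485285551) (nat_lit 684) (nat_lit 7064399280)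 (nat_lit 760) (nat_lit 4292825573) (nat_lit 317) (nat_lit 5) (nat_lit 326) (nat_lit 5) (nat_lit 327) (nat_lit 5) (nat_lit 648) (nat_lit 599) (nat_lit 313)) (XT.lf (nat_lit 0) (nat_lit 668297382) (nat_lit 684) (nat_lit 25786831349) (nat_lit 76) (nat_lit 6764955513) (nat_lit 308) (nat_lit 5) (nat_lit 317) (nat_lit 5) (nat_lit 309) (nat_lit 5) (nat_lit 649) (nat_lit 599) (nat_lit 312))) (XT.nd (nat_lit 78) (nat_lit 684) (nat_lit 0) (XT.lf (nat_lit 0) (nat_lit 5792684981) (nat_lit 684) (nat_lit 6928358139) (nat_lit 76) (nat_lit 20881168563) (nat_lit 308) (nat_lit 5) (nat_lit 317) (nat_lit 5) (nat_lit 309) (nat_lit 5) (nat_lit 650) (nat_lit 599) (nat_lit 311)) (XT.lf (nat_lit 0) (nat_lit 11107415247) (nat_lit 760) (nat_lit 21530883925) (nat_lit 76) (nat_lit 1351925498) (nat_lit 299) (nat_lit 5) (nat_lit 309) (nat_lit 5) (nat_lit 300) (nat_lit 5) (nat_lit 651) (nat_lit 599) (nat_lit 310))))) (XT.nd (nat_lit 77142) (nat_lit 0) (nat_lit 16188) (XT.nd (nat_lit 156) (nat_lit 608) (nat_lit 0) (XT.nd (nat_lit 78) (nat_lit 608) (nat_lit 0) (XT.lf (nat_lit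 0) (nat_lit 16657514656) (nat_lit 760) (nat_lit 2143330108) (nat_lit 76) (nat_lit 15582571753) (nat_lit 299) (nat_lit 5) (nat_lit 309) (nat_lit 5) (nat_lit 300) (nat_lit 5) (nat_lit 652) (nat_lit 599) (nat_lit 309)) (XT.lf (nat_lit 0) (nat_lit 17863892200) (nat_lit 608) (nat_lit 4568775141) (nat_lit 684) (nat_lit 12349523928) (nat_lit 291) (nat_lit 5) (nat_lit 299) (nat_lit 5) (nat_lit 300) (nat_lit 5) (nat_lit 653) (nat_lit 599) (nat_lit 308))) (XT.nd (nat_lit 78) (nat_lit 0) (nat_lit 0) (XT.lf (nat_lit 0) (nat_lit 3085045016) (nat_lit 608) (nat_lit 25335461715) (nat_lit 684) (nat_lit 6766491200) (nat_lit 283) (nat_lit 5) (nat_lit 291) (nat_lit 5) (nat_lit 292) (nat_lit 5) (nat_lit 654) (nat_lit 599) (nat_lit 307)) (XT.lf (nat_lit 0) (nat_lit 23684754266) (nat_lit 608) (nat_lit 10985045932) (nat_lit 684) (nat_lit 927266671) (nat_lit 283) (nat_lit 5) (nat_lit 291) (nat_lit 5) (nat_lit 292) (nat_lit 5) (nat_lit 655) (nat_lit 599) (nat_lit 306)))) (XT.nd (nat_lit 156) (nat_lit 0) (nat_lit 0) (XT.nd (nat_lit 78) (nat_lit 0) (nat_lit 0) (XT.lf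 (nat_lit 0) (nat_lit 4550710606) (nat_lit 0) (nat_lit 4550710606) (nat_lit 1748) (nat_lit 854943737) (nat_lit 496) (nat_lit 5) (nat_lit 496) (nat_lit 3) (nat_lit 519) (nat_lit 3) (nat_lit 600) (nat_lit 600) (nat_lit 360)) (XT.lf (nat_lit 0) (nat_lit 18555624104) (nat_lit 1748) (nat_lit 937725141) (nat_lit 1824) (nat_lit 615082508) (nat_lit 496) (nat_lit 5) (nat_lit 519) (nat_lit 3) (nat_lit 520) (nat_lit 5) (nat_lit 601) (nat_lit 600) (nat_lit 359))) (XT.nd (nat_lit 78) (nat_lit 0) (nat_lit 76) (XT.lf (nat_lit 76) (nat_lit 9191313178) (nat_lit 0) (nat_lit 9839740071) (nat_lit 1824) (nat_lit 1274682829) (nat_lit 497) (nat_lit 5) (nat_lit 496) (nat_lit 5) (nat_lit 520) (nat_lit 5) (nat_lit 602) (nat_lit 600) (nat_lit 358)) (XT.lf (nat_lit 0) (nat_lit 19518095552) (nat_lit 1748) (nat_lit 973676364) (nat_lit 1824) (nat_lit 15172750) (nat_lit 497) (nat_lit 5) (nat_lit 520) (nat_lit 5) (nat_lit 521) (nat_lit 5) (nat_lit 603) (nat_lit 600) (nat_lit 357)))))) (XT.nd (nat_lit 546) (nat_lit 0) (nat_lit 152) (XT.nd (nat_lit 234) (nat_lit 0) (nat_lit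 0) (XT.nd (nat_lit 78) (nat_lit 1748) (nat_lit 0) (XT.lf (nat_lit 76) (nat_lit 9426019356) (nat_lit 0) (nat_lit 10711032177) (nat_lit 1824) (nat_lit 572682697) (nat_lit 498) (nat_lit 5) (nat_lit 497) (nat_lit 5) (nat_lit 521) (nat_lit 5) (nat_lit 604) (nat_lit 600) (nat_lit 356)) (XT.nd (nat_lit 78) (nat_lit 1748) (nat_lit 0) (XT.lf (nat_lit 76) (nat_lit 20044596888) (nat_lit 0) (nat_lit 726199824) (nat_lit 1824) (nat_lit 145734929) (nat_lit 498) (nat_lit 5) (nat_lit 497) (nat_lit 5) (nat_lit 521) (nat_lit 5) (nat_lit 605) (nat_lit 600) (nat_lit 355)) (XT.lf (nat_lit 0) (nat_lit 407844258) (nat_lit 1824) (nat_lit 11314713858) (nat_lit 1900) (nat_lit 9402431652) (nat_lit 474) (nat_lit 5) (nat_lit 498) (nat_lit 5) (nat_lit 499) (nat_lit 5) (nat_lit 606) (nat_lit 600) (nat_lit 354)))) (XT.nd (nat_lit 156) (nat_lit 0) (nat_lit 76) (XT.nd (nat_lit 78) (nat_lit 0) (nat_lit 76) (XT.lf (nat_lit 0) (nat_lit 977250542) (nat_lit 1824) (nat_lit 627758793) (nat_lit 1900) (nat_lit 19732454561) (nat_lit 474) (nat_lit 5) (nat_lit 498) (nat_lit 5) (nat_lit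 499) (nat_lit 5) (nat_lit 607) (nat_lit 600) (nat_lit 353)) (XT.lf (nat_lit 0) (nat_lit 1678739339) (nat_lit 1824) (nat_lit 11202877832) (nat_lit 1900) (nat_lit 8670156685) (nat_lit 475) (nat_lit 5) (nat_lit 499) (nat_lit 5) (nat_lit 500) (nat_lit 5) (nat_lit 608) (nat_lit 600) (nat_lit 352))) (XT.nd (nat_lit 78) (nat_lit 0) (nat_lit 76) (XT.lf (nat_lit 0) (nat_lit 2405283340) (nat_lit 1824) (nat_lit 229769950) (nat_lit 1900) (nat_lit 19135096448) (nat_lit 475) (nat_lit 5) (nat_lit 499) (nat_lit 5) (nat_lit 500) (nat_lit 5) (nat_lit 609) (nat_lit 600) (nat_lit 351)) (XT.lf (nat_lit 0) (nat_lit 3265933536) (nat_lit 1824) (nat_lit 10936677315) (nat_lit 1900) (nat_lit 7787891010) (nat_lit 476) (nat_lit 5) (nat_lit 500) (nat_lit 5) (nat_lit 501) (nat_lit 5) (nat_lit 610) (nat_lit 600) (nat_lit 350))))) (XT.nd (nat_lit 312) (nat_lit 0) (nat_lit 152) (XT.nd (nat_lit 156) (nat_lit 0) (nat_lit 76) (XT.nd (nat_lit 78) (nat_lit 0) (nat_lit 76) (XT.lf (nat_lit 76) (nat_lit 335473635) (nat_lit 0) (nat_lit 3825802484) (nat_lit 1900) (nat_lit 18053635542)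 (nat_lit 477) (nat_lit 5) (nat_lit 476) (nat_lit 5) (nat_lit 501) (nat_lit 5) (nat_lit 611) (nat_lit 600) (nat_lit 349)) (XT.lf (nat_lit 0) (nat_lit 5188646638) (nat_lit 1824) (nat_lit 10507897247) (nat_lit 1900) (nat_lit 6744983569) (nat_lit 477) (nat_lit 5) (nat_lit 501) (nat_lit 5) (nat_lit 502) (nat_lit 5) (nat_lit 612) (nat_lit 600) (nat_lit 348))) (XT.nd (nat_lit 78) (nat_lit 0) (nat_lit 76) (XT.lf (nat_lit 76) (nat_lit 1077411906) (nat_lit 0) (nat_lit 5187918935) (nat_lit 1900) (nat_lit 16406769612) (nat_lit 478) (nat_lit 5) (nat_lit 477) (nat_lit 5) (nat_lit 502) (nat_lit 5) (nat_lit 613) (nat_lit 600) (nat_lit 347)) (XT.lf (nat_lit 0) (nat_lit 7466934942) (nat_lit 1824) (nat_lit 9907904878) (nat_lit 1900) (nat_lit 5530377578) (nat_lit 478) (nat_lit 5) (nat_lit 502) (nat_lit 5) (nat_lit 503) (nat_lit 5) (nat_lit 614) (nat_lit 600) (nat_lit 346)))) (XT.nd (nat_lit 156) (nat_lit 0) (nat_lit 76) (XT.nd (nat_lit 78) (nat_lit 0) (nat_lit 76) (XT.lf (nat_lit 76) (nat_lit 2002046264) (nat_lit 0) (nat_lit 6734444846) (nat_lit 1900) (nat_lit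 14405627378) (nat_lit 479) (nat_lit 5) (nat_lit 478) (nat_lit 5) (nat_lit 503) (nat_lit 5) (nat_lit 615) (nat_lit 600) (nat_lit 345)) (XT.lf (nat_lit 0) (nat_lit 10121729477) (nat_lit 1824) (nat_lit 9127635207) (nat_lit 1900) (nat_lit 4132587298) (nat_lit 479) (nat_lit 5) (nat_lit 503) (nat_lit 5) (nat_lit 504) (nat_lit 5) (nat_lit 616) (nat_lit 600) (nat_lit 344))) (XT.nd (nat_lit 78) (nat_lit 0) (nat_lit 76) (XT.lf (nat_lit 76) (nat_lit 3118879759) (nat_lit 0) (nat_lit 8477329693) (nat_lit 1900) (nat_lit 12029142154) (nat_lit 480) (nat_lit 5) (nat_lit 479) (nat_lit 5) (nat_lit 504) (nat_lit 5) (nat_lit 617) (nat_lit 600) (nat_lit 343)) (XT.lf (nat_lit 0) (nat_lit 13174875648) (nat_lit 1824) (nat_lit 8157575708) (nat_lit 1900) (nat_lit 2539674129) (nat_lit 480) (nat_lit 5) (nat_lit 504) (nat_lit 5) (nat_lit 505) (nat_lit 5) (nat_lit 618) (nat_lit 600) (nat_lit 342))))))))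
noncomputable def xc108 : XT := (XT.nd (nat_lit 2340) (nat_lit 2584) (nat_lit 0) (XT.nd (nat_lit 1170) (nat_lit 6992) (nat_lit 0) (XT.nd (nat_lit 546) (nat_lit 3724) (nat_lit 0) (XT.nd (nat_lit 234) (nat_lit 1672) (nat_lit 0) (XT.nd (nat_lit 78) (nat_lit 0) (nat_lit 76) (XT.lf (nat_lit 76) (nat_lit 4437879446) (nat_lit 0) (nat_lit 10428996726) (nat_lit 1900) (nat_lit 9255323640) (nat_lit 481) (nat_lit 5) (nat_lit 480) (nat_lit 5) (nat_lit 505) (nat_lit 5) (nat_lit 619) (nat_lit 600) (nat_lit 341)) (XT.nd (nat_lit 78) (nat_lit 0) (nat_lit 0) (XT.lf (nat_lit 0) (nat_lit 16649174350) (nat_lit 1824) (nat_lit 6987750352) (nat_lit 1900) (nat_lit 739221958) (nat_lit 481) (nat_lit 5) (nat_lit 505) (nat_lit 5) (nat_lit 506) (nat_lit 5) (nat_lit 620) (nat_lit 600) (nat_lit 340)) (XT.lf (nat_lit 76) (nat_lit 5969493013) (nat_lit 0) (nat_lit 12602368357) (nat_lit 1900) (nat_lit 6061216399) (nat_lit 482) (nat_lit 5) (nat_lit 481) (nat_lit 5) (nat_lit 506) (nat_lit 5) (nat_lit 621) (nat_lit 600) (nat_lit 339)))) (XT.nd (nat_lit 156) (nat_lit 1748) (nat_lit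 0) (XT.nd (nat_lit 78) (nat_lit 0) (nat_lit 76) (XT.lf (nat_lit 76) (nat_lit 19278135556) (nat_lit 0) (nat_lit 1298721230) (nat_lit 1900) (nat_lit 4317413803) (nat_lit 482) (nat_lit 5) (nat_lit 481) (nat_lit 5) (nat_lit 506) (nat_lit 5) (nat_lit 622) (nat_lit 600) (nat_lit 338)) (XT.lf (nat_lit 76) (nat_lit 7724666163) (nat_lit 0) (nat_lit 15010892381) (nat_lit 1900) (nat_lit 2422856768) (nat_lit 483) (nat_lit 5) (nat_lit 482) (nat_lit 5) (nat_lit 507) (nat_lit 5) (nat_lit 623) (nat_lit 600) (nat_lit 337))) (XT.nd (nat_lit 78) (nat_lit 1824) (nat_lit 0) (XT.lf (nat_lit 76) (nat_lit 21397231320) (nat_lit 0) (nat_lit 3583503105) (nat_lit 1900) (nat_lit 446242675) (nat_lit 483) (nat_lit 5) (nat_lit 482) (nat_lit 5) (nat_lit 507) (nat_lit 5) (nat_lit 624) (nat_lit 600) (nat_lit 336)) (XT.lf (nat_lit 0) (nat_lit 1662675774) (nat_lit 1900) (nat_lit 15994735853) (nat_lit 76) (nat_lit 8041027573) (nat_lit 458) (nat_lit 5) (nat_lit 483) (nat_lit 5) (nat_lit 459) (nat_lit 5) (nat_lit 625) (nat_lit 600) (nat_lit 335))))) (XT.nd (nat_lit 312) (nat_lit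 1748) (nat_lit 0) (XT.nd (nat_lit 156) (nat_lit 912) (nat_lit 0) (XT.nd (nat_lit 78) (nat_lit 1064) (nat_lit 0) (XT.lf (nat_lit 0) (nat_lit 3855906094) (nat_lit 1900) (nat_lit 2237709287) (nat_lit 76) (nat_lit 19880694158) (nat_lit 458) (nat_lit 5) (nat_lit 483) (nat_lit 5) (nat_lit 459) (nat_lit 5) (nat_lit 626) (nat_lit 600) (nat_lit 334)) (XT.lf (nat_lit 0) (nat_lit 6205320025) (nat_lit 1140) (nat_lit 14343018145) (nat_lit 76) (nat_lit 5705112892) (nat_lit 444) (nat_lit 5) (nat_lit 459) (nat_lit 5) (nat_lit 445) (nat_lit 5) (nat_lit 627) (nat_lit 600) (nat_lit 333))) (XT.nd (nat_lit 78) (nat_lit 912) (nat_lit 0) (XT.lf (nat_lit 0) (nat_lit 8654440381) (nat_lit 1140) (nat_lit 208950269) (nat_lit 76) (nat_lit 17673730560) (nat_lit 444) (nat_lit 5) (nat_lit 459) (nat_lit 5) (nat_lit 445) (nat_lit 5) (nat_lit 628) (nat_lit 600) (nat_lit 332)) (XT.lf (nat_lit 0) (nat_lit 11263758159) (nat_lit 988) (nat_lit 12450968932) (nat_lit 76) (nat_lit 3109513523) (nat_lit 432) (nat_lit 5) (nat_lit 445) (nat_lit 5) (nat_lit 433) (nat_lit 5) (nat_lit 629)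 (nat_lit 600) (nat_lit 331)))) (XT.nd (nat_lit 156) (nat_lit 836) (nat_lit 0) (XT.nd (nat_lit 78) (nat_lit 0) (nat_lit 0) (XT.lf (nat_lit 0) (nat_lit 2099239397) (nat_lit 912) (nat_lit 11897102037) (nat_lit 988) (nat_lit 13119339540) (nat_lit 420) (nat_lit 5) (nat_lit 432) (nat_lit 5) (nat_lit 433) (nat_lit 5) (nat_lit 630) (nat_lit 600) (nat_lit 330)) (XT.lf (nat_lit 0) (nat_lit 16866078060) (nat_lit 988) (nat_lit 10306141587) (nat_lit 76) (nat_lit 239080606) (nat_lit 420) (nat_lit 5) (nat_lit 433) (nat_lit 5) (nat_lit 421) (nat_lit 5) (nat_lit 631) (nat_lit 600) (nat_lit 329))) (XT.nd (nat_lit 78) (nat_lit 0) (nat_lit 0) (XT.lf (nat_lit 0) (nat_lit 4678465263) (nat_lit 836) (nat_lit 15221337300) (nat_lit 912) (nat_lit 7810897637) (nat_lit 409) (nat_lit 5) (nat_lit 420) (nat_lit 5) (nat_lit 421) (nat_lit 5) (nat_lit 632) (nat_lit 600) (nat_lit 328)) (XT.lf (nat_lit 0) (nat_lit 20100013662) (nat_lit 836) (nat_lit 2960810712) (nat_lit 912) (nat_lit 4953931460) (nat_lit 409) (nat_lit 5) (nat_lit 420) (nat_lit 5) (nat_lit 421) (nat_lit 5) (nat_lit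 633) (nat_lit 600) (nat_lit 327)))))) (XT.nd (nat_lit 546) (nat_lit 3648) (nat_lit 0) (XT.nd (nat_lit 234) (nat_lit 1596) (nat_lit 0) (XT.nd (nat_lit 78) (nat_lit 912) (nat_lit 0) (XT.lf (nat_lit 0) (nat_lit 7539555719) (nat_lit 836) (nat_lit 18853948146) (nat_lit 912) (nat_lit 1929220107) (nat_lit 398) (nat_lit 5) (nat_lit 409) (nat_lit 5) (nat_lit 410) (nat_lit 5) (nat_lit 634) (nat_lit 600) (nat_lit 326)) (XT.nd (nat_lit 78) (nat_lit 836) (nat_lit 0) (XT.lf (nat_lit 0) (nat_lit 1211426345) (nat_lit 912) (nat_lit 5255500599) (nat_lit 76) (nat_lit 22168362517) (nat_lit 397) (nat_lit 5) (nat_lit 409) (nat_lit 5) (nat_lit 398) (nat_lit 5) (nat_lit 635) (nat_lit 600) (nat_lit 325)) (XT.lf (nat_lit 0) (nat_lit 4496769890) (nat_lit 912) (nat_lit 18285142322) (nat_lit 76) (nat_lit 6169784808) (nat_lit 386) (nat_lit 5) (nat_lit 398) (nat_lit 5) (nat_lit 387) (nat_lit 5) (nat_lit 636) (nat_lit 600) (nat_lit 324)))) (XT.nd (nat_lit 156) (nat_lit 760) (nat_lit 0) (XT.nd (nat_lit 78) (nat_lit 836) (nat_lit 0) (XT.lf (nat_lit 0) (nat_lit 7923758524)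 (nat_lit 912) (nat_lit 2340953036) (nat_lit 76) (nat_lit 19008202535) (nat_lit 386) (nat_lit 5) (nat_lit 398) (nat_lit 5) (nat_lit 387) (nat_lit 5) (nat_lit 637) (nat_lit 600) (nat_lit 323)) (XT.lf (nat_lit 0) (nat_lit 11525377106) (nat_lit 912) (nat_lit 15510928779) (nat_lit 76) (nat_lit 2562127947) (nat_lit 375) (nat_lit 5) (nat_lit 387) (nat_lit 5) (nat_lit 376) (nat_lit 5) (nat_lit 638) (nat_lit 600) (nat_lit 322))) (XT.nd (nat_lit 78) (nat_lit 0) (nat_lit 0) (XT.lf (nat_lit 0) (nat_lit 887231263) (nat_lit 760) (nat_lit 14399035487) (nat_lit 836) (nat_lit 14642452563) (nat_lit 365) (nat_lit 5) (nat_lit 375) (nat_lit 5) (nat_lit 376) (nat_lit 5) (nat_lit 639) (nat_lit 600) (nat_lit 321)) (XT.lf (nat_lit 0) (nat_lit 17821187832) (nat_lit 760) (nat_lit 1402989401) (nat_lit 836) (nat_lit 11039397333) (nat_lit 365) (nat_lit 5) (nat_lit 375) (nat_lit 5) (nat_lit 376) (nat_lit 5) (nat_lit 640) (nat_lit 600) (nat_lit 320))))) (XT.nd (nat_lit 312) (nat_lit 2128) (nat_lit 0) (XT.nd (nat_lit 156) (nat_lit 760) (nat_lit 0) (XT.nd (nat_lit 78) (nat_lit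 0) (nat_lit 0) (XT.lf (nat_lit 0) (nat_lit 4467918841) (nat_lit 760) (nat_lit 18876653612) (nat_lit 836) (nat_lit 7258480057) (nat_lit 355) (nat_lit 5) (nat_lit 365) (nat_lit 5) (nat_lit 366) (nat_lit 5) (nat_lit 641) (nat_lit 600) (nat_lit 319)) (XT.lf (nat_lit 0) (nat_lit 21873273533) (nat_lit 760) (nat_lit 5764615963) (nat_lit 836) (nat_lit 3309620356) (nat_lit 355) (nat_lit 5) (nat_lit 365) (nat_lit 5) (nat_lit 366) (nat_lit 5) (nat_lit 642) (nat_lit 600) (nat_lit 318))) (XT.nd (nat_lit 78) (nat_lit 0) (nat_lit 0) (XT.lf (nat_lit 0) (nat_lit 811156043) (nat_lit 760) (nat_lit 22916099797) (nat_lit 76) (nat_lit 7569460169) (nat_lit 345) (nat_lit 5) (nat_lit 355) (nat_lit 5) (nat_lit 346) (nat_lit 5) (nat_lit 643) (nat_lit 600) (nat_lit 317)) (XT.lf (nat_lit 0) (nat_lit 5067389688) (nat_lit 760) (nat_lit 5407026698) (nat_lit 76) (nat_lit 21176105329) (nat_lit 345) (nat_lit 5) (nat_lit 355) (nat_lit 5) (nat_lit 346) (nat_lit 5) (nat_lit 644) (nat_lit 600) (nat_lit 316)))) (XT.nd (nat_lit 156) (nat_lit 1368) (nat_lit 0) (XT.nd (nat_lit 78)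 (nat_lit 0) (nat_lit 0) (XT.lf (nat_lit 0) (nat_lit 9508842075) (nat_lit 836) (nat_lit 19414791795) (nat_lit 76) (nat_lit 3085767892) (nat_lit 335) (nat_lit 5) (nat_lit 346) (nat_lit 5) (nat_lit 336) (nat_lit 5) (nat_lit 645) (nat_lit 600) (nat_lit 315)) (XT.lf (nat_lit 0) (nat_lit 14142925276) (nat_lit 836) (nat_lit 1417155533) (nat_lit 76) (nat_lit 16813302670) (nat_lit 335) (nat_lit 5) (nat_lit 346) (nat_lit 5) (nat_lit 336) (nat_lit 5) (nat_lit 646) (nat_lit 600) (nat_lit 314))) (XT.nd (nat_lit 78) (nat_lit 684) (nat_lit 0) (XT.lf (nat_lit 0) (nat_lit 17163191054) (nat_lit 684) (nat_lit 1815885363) (nat_lit 760) (nat_lit 13763380791) (nat_lit 326) (nat_lit 5) (nat_lit 335) (nat_lit 5) (nat_lit 336) (nat_lit 5) (nat_lit 647) (nat_lit 600) (nat_lit 313)) (XT.lf (nat_lit 0) (nat_lit 2972965088) (nat_lit 684) (nat_lit 21045066589) (nat_lit 760) (nat_lit 9098759215) (nat_lit 317) (nat_lit 5) (nat_lit 326) (nat_lit 5) (nat_lit 327) (nat_lit 5) (nat_lit 648) (nat_lit 600) (nat_lit 312))))))) (XT.nd (nat_lit 78078) (nat_lit 0) (nat_lit 14592)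 (XT.nd (nat_lit 77454) (nat_lit 0) (nat_lit 14440) (XT.nd (nat_lit 234) (nat_lit 1900) (nat_lit 0) (XT.nd (nat_lit 78) (nat_lit 684) (nat_lit 0) (XT.lf (nat_lit 0) (nat_lit 22092888067) (nat_lit 684) (nat_lit 7179368698) (nat_lit 760) (nat_lit 4224064769) (nat_lit 317) (nat_lit 5) (nat_lit 326) (nat_lit 5) (nat_lit 327) (nat_lit 5) (nat_lit 649) (nat_lit 600) (nat_lit 311)) (XT.nd (nat_lit 78) (nat_lit 0) (nat_lit 0) (XT.lf (nat_lit 0) (nat_lit 832603142) (nat_lit 684) (nat_lit 26120979082) (nat_lit 76) (nat_lit 6927877686) (nat_lit 308) (nat_lit 5) (nat_lit 317) (nat_lit 5) (nat_lit 309) (nat_lit 5) (nat_lit 650) (nat_lit 600) (nat_lit 310)) (XT.lf (nat_lit 0) (nat_lit 6056518890) (nat_lit 684) (nat_lit 6888896974) (nat_lit 76) (nat_lit 21325873369) (nat_lit 308) (nat_lit 5) (nat_lit 317) (nat_lit 5) (nat_lit 309) (nat_lit 5) (nat_lit 651) (nat_lit 600) (nat_lit 309)))) (XT.nd (nat_lit 156) (nat_lit 1216) (nat_lit 0) (XT.nd (nat_lit 78) (nat_lit 0) (nat_lit 0) (XT.lf (nat_lit 0) (nat_lit 11475989333) (nat_lit 760) (nat_lit 21781911906)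 (nat_lit 76) (nat_lit 1409192467) (nat_lit 299) (nat_lit 5) (nat_lit 309) (nat_lit 5) (nat_lit 300) (nat_lit 5) (nat_lit 652) (nat_lit 600) (nat_lit 308)) (XT.lf (nat_lit 0) (nat_lit 17134219637) (nat_lit 760) (nat_lit 2010128380) (nat_lit 76) (nat_lit 15923858932) (nat_lit 299) (nat_lit 5) (nat_lit 309) (nat_lit 5) (nat_lit 300) (nat_lit 5) (nat_lit 653) (nat_lit 600) (nat_lit 307))) (XT.nd (nat_lit 78) (nat_lit 608) (nat_lit 0) (XT.lf (nat_lit 0) (nat_lit 18396080030) (nat_lit 608) (nat_lit 4627116179) (nat_lit 684) (nat_lit 12451794703) (nat_lit 291) (nat_lit 5) (nat_lit 299) (nat_lit 5) (nat_lit 300) (nat_lit 5) (nat_lit 654) (nat_lit 600) (nat_lit 306)) (XT.lf (nat_lit 0) (nat_lit 3323117579) (nat_lit 608) (nat_lit 25806248333) (nat_lit 684) (nat_lit 6758556456) (nat_lit 283) (nat_lit 5) (nat_lit 291) (nat_lit 5) (nat_lit 292) (nat_lit 5) (nat_lit 655) (nat_lit 600) (nat_lit 305))))) (XT.nd (nat_lit 312) (nat_lit 1748) (nat_lit 0) (XT.nd (nat_lit 156) (nat_lit 0) (nat_lit 0) (XT.nd (nat_lit 78) (nat_lit 0) (nat_lit 0) (XT.lf (nat_lit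 0) (nat_lit 4724536962) (nat_lit 0) (nat_lit 4724536962) (nat_lit 1748) (nat_lit 703095524) (nat_lit 496) (nat_lit 5) (nat_lit 496) (nat_lit 3) (nat_lit 519) (nat_lit 3) (nat_lit 601) (nat_lit 601) (nat_lit 358)) (XT.lf (nat_lit 0) (nat_lit 19250435835) (nat_lit 1748) (nat_lit 786533339) (nat_lit 1824) (nat_lit 467137006) (nat_lit 496) (nat_lit 5) (nat_lit 519) (nat_lit 3) (nat_lit 520) (nat_lit 5) (nat_lit 602) (nat_lit 601) (nat_lit 357))) (XT.nd (nat_lit 78) (nat_lit 0) (nat_lit 0) (XT.lf (nat_lit 76) (nat_lit 9543967679) (nat_lit 0) (nat_lit 10186154986) (nat_lit 1824) (nat_lit 975339342) (nat_lit 497) (nat_lit 5) (nat_lit 496) (nat_lit 5) (nat_lit 520) (nat_lit 5) (nat_lit 603) (nat_lit 601) (nat_lit 356)) (XT.lf (nat_lit 76) (nat_lit 20089555401) (nat_lit 0) (nat_lit 131004508) (nat_lit 1824) (nat_lit 690262163) (nat_lit 497) (nat_lit 5) (nat_lit 496) (nat_lit 5) (nat_lit 520) (nat_lit 5) (nat_lit 604) (nat_lit 601) (nat_lit 355)))) (XT.nd (nat_lit 156) (nat_lit 0) (nat_lit 76) (XT.nd (nat_lit 78) (nat_lit 1824) (nat_lit 0) (XT.lf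 (nat_lit 76) (nat_lit 9786137125) (nat_lit 0) (nat_lit 11059918464) (nat_lit 1824) (nat_lit 271729009) (nat_lit 498) (nat_lit 5) (nat_lit 497) (nat_lit 5) (nat_lit 521) (nat_lit 5) (nat_lit 605) (nat_lit 601) (nat_lit 354)) (XT.lf (nat_lit 0) (nat_lit 155564707) (nat_lit 1824) (nat_lit 716140332) (nat_lit 1900) (nat_lit 20457112924) (nat_lit 473) (nat_lit 5) (nat_lit 497) (nat_lit 5) (nat_lit 498) (nat_lit 5) (nat_lit 606) (nat_lit 601) (nat_lit 353))) (XT.nd (nat_lit 78) (nat_lit 0) (nat_lit 0) (XT.lf (nat_lit 0) (nat_lit 712630154) (nat_lit 1824) (nat_lit 11363086435) (nat_lit 1900) (nat_lit 9465822436) (nat_lit 474) (nat_lit 5) (nat_lit 498) (nat_lit 5) (nat_lit 499) (nat_lit 5) (nat_lit 607) (nat_lit 601) (nat_lit 352)) (XT.lf (nat_lit 0) (nat_lit 1287608309) (nat_lit 1824) (nat_lit 465880930) (nat_lit 1900) (nat_lit 20004890075) (nat_lit 474) (nat_lit 5) (nat_lit 498) (nat_lit 5) (nat_lit 499) (nat_lit 5) (nat_lit 608) (nat_lit 601) (nat_lit 351)))))) (XT.nd (nat_lit 546) (nat_lit 0) (nat_lit 228) (XT.nd (nat_lit 234) (nat_lit 0) (nat_lit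 76) (XT.nd (nat_lit 78) (nat_lit 0) (nat_lit 0) (XT.lf (nat_lit 0) (nat_lit 1997816407) (nat_lit 1824) (nat_lit 11247174615) (nat_lit 1900) (nat_lit 8732091005) (nat_lit 475) (nat_lit 5) (nat_lit 499) (nat_lit 5) (nat_lit 500) (nat_lit 5) (nat_lit 609) (nat_lit 601) (nat_lit 350)) (XT.nd (nat_lit 78) (nat_lit 0) (nat_lit 76) (XT.lf (nat_lit 0) (nat_lit 2733293204) (nat_lit 1824) (nat_lit 58129297) (nat_lit 1900) (nat_lit 19408515226) (nat_lit 475) (nat_lit 5) (nat_lit 499) (nat_lit 5) (nat_lit 500) (nat_lit 5) (nat_lit 610) (nat_lit 601) (nat_lit 349)) (XT.lf (nat_lit 0) (nat_lit 3606152443) (nat_lit 1824) (nat_lit 10974154257) (nat_lit 1900) (nat_lit 7844490602) (nat_lit 476) (nat_lit 5) (nat_lit 500) (nat_lit 5) (nat_lit 501) (nat_lit 5) (nat_lit 611) (nat_lit 601) (nat_lit 348)))) (XT.nd (nat_lit 156) (nat_lit 0) (nat_lit 76) (XT.nd (nat_lit 78) (nat_lit 0) (nat_lit 76) (XT.lf (nat_lit 76) (nat_lit 522247234) (nat_lit 0) (nat_lit 3992933539) (nat_lit 1900) (nat_lit 18138599274) (nat_lit 477) (nat_lit 5) (nat_lit 476) (nat_lit 5) (nat_lit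 501) (nat_lit 5) (nat_lit 612) (nat_lit 601) (nat_lit 347)) (XT.lf (nat_lit 0) (nat_lit 5557214472) (nat_lit 1824) (nat_lit 10535621558) (nat_lit 1900) (nat_lit 6792210130) (nat_lit 477) (nat_lit 5) (nat_lit 501) (nat_lit 5) (nat_lit 502) (nat_lit 5) (nat_lit 613) (nat_lit 601) (nat_lit 346))) (XT.nd (nat_lit 78) (nat_lit 0) (nat_lit 76) (XT.lf (nat_lit 76) (nat_lit 1280193557) (nat_lit 0) (nat_lit 5371223433) (nat_lit 1900) (nat_lit 16468894248) (nat_lit 478) (nat_lit 5) (nat_lit 477) (nat_lit 5) (nat_lit 502) (nat_lit 5) (nat_lit 614) (nat_lit 601) (nat_lit 345)) (XT.lf (nat_lit 0) (nat_lit 7871433508) (nat_lit 1824) (nat_lit 9922748169) (nat_lit 1900) (nat_lit 5564021544) (nat_lit 478) (nat_lit 5) (nat_lit 502) (nat_lit 5) (nat_lit 503) (nat_lit 5) (nat_lit 615) (nat_lit 601) (nat_lit 344))))) (XT.nd (nat_lit 312) (nat_lit 0) (nat_lit 152) (XT.nd (nat_lit 156) (nat_lit 0) (nat_lit 76) (XT.nd (nat_lit 78) (nat_lit 0) (nat_lit 76) (XT.lf (nat_lit 76) (nat_lit 2224195978) (nat_lit 0) (nat_lit 6938364059) (nat_lit 1900) (nat_lit 14437359013)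 (nat_lit 479) (nat_lit 5) (nat_lit 478) (nat_lit 5) (nat_lit 503) (nat_lit 5) (nat_lit 616) (nat_lit 601) (nat_lit 343)) (XT.lf (nat_lit 0) (nat_lit 10570134277) (nat_lit 1824) (nat_lit 9126266258) (nat_lit 1900) (nat_lit 4148256350) (nat_lit 479) (nat_lit 5) (nat_lit 503) (nat_lit 5) (nat_lit 504) (nat_lit 5) (nat_lit 617) (nat_lit 601) (nat_lit 342))) (XT.nd (nat_lit 78) (nat_lit 0) (nat_lit 76) (XT.lf (nat_lit 76) (nat_lit 3363968996) (nat_lit 0) (nat_lit 8706498196) (nat_lit 1900) (nat_lit 12022530332) (nat_lit 480) (nat_lit 5) (nat_lit 479) (nat_lit 5) (nat_lit 504) (nat_lit 5) (nat_lit 618) (nat_lit 601) (nat_lit 341)) (XT.lf (nat_lit 0) (nat_lit 13675575559) (nat_lit 1824) (nat_lit 8136452849) (nat_lit 1900) (nat_lit 2532781379) (nat_lit 480) (nat_lit 5) (nat_lit 504) (nat_lit 5) (nat_lit 505) (nat_lit 5) (nat_lit 619) (nat_lit 601) (nat_lit 340)))) (XT.nd (nat_lit 156) (nat_lit 0) (nat_lit 76) (XT.nd (nat_lit 78) (nat_lit 0) (nat_lit 76) (XT.lf (nat_lit 76) (nat_lit 4709699077) (nat_lit 0) (nat_lit 10688254549) (nat_lit 1900) (nat_lit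 9202001501) (nat_lit 481) (nat_lit 5) (nat_lit 480) (nat_lit 5) (nat_lit 505) (nat_lit 5) (nat_lit 620) (nat_lit 601) (nat_lit 339)) (XT.lf (nat_lit 0) (nat_lit 17210992049) (nat_lit 1824) (nat_lit 6943113440) (nat_lit 1900) (nat_lit 704973810) (nat_lit 481) (nat_lit 5) (nat_lit 505) (nat_lit 5) (nat_lit 506) (nat_lit 5) (nat_lit 621) (nat_lit 601) (nat_lit 338))) (XT.nd (nat_lit 78) (nat_lit 0) (nat_lit 0) (XT.lf (nat_lit 76) (nat_lit 6272061688) (nat_lit 0) (nat_lit 12896773495) (nat_lit 1900) (nat_lit 5952380068) (nat_lit 482) (nat_lit 5) (nat_lit 481) (nat_lit 5) (nat_lit 506) (nat_lit 5) (nat_lit 622) (nat_lit 601) (nat_lit 337)) (XT.lf (nat_lit 76) (nat_lit 19843285340) (nat_lit 0) (nat_lit 1366222881) (nat_lit 1900) (nat_lit 4178212413) (nat_lit 482) (nat_lit 5) (nat_lit 481) (nat_lit 5) (nat_lit 506) (nat_lit 5) (nat_lit 623) (nat_lit 601) (nat_lit 336))))))))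
noncomputable def xc109 : XT := (XT.nd (nat_lit 2340) (nat_lit 608) (nat_lit 0) (XT.nd (nat_lit 1170) (nat_lit 6612) (nat_lit 0) (XT.nd (nat_lit 546) (nat_lit 3496) (nat_lit 0) (XT.nd (nat_lit 234) (nat_lit 1976) (nat_lit 0) (XT.nd (nat_lit 78) (nat_lit 1824) (nat_lit 0) (XT.lf (nat_lit 76) (nat_lit 8062239101) (nat_lit 0) (nat_lit 15345733677) (nat_lit 1900) (nat_lit 2249243954) (nat_lit 483) (nat_lit 5) (nat_lit 482) (nat_lit 5) (nat_lit 507) (nat_lit 5) (nat_lit 624) (nat_lit 601) (nat_lit 335)) (XT.nd (nat_lit 78) (nat_lit 1824) (nat_lit 0) (XT.lf (nat_lit 76) (nat_lit 22004665765) (nat_lit 0) (nat_lit 3689117725) (nat_lit 1900) (nat_lit 237451891) (nat_lit 483) (nat_lit 5) (nat_lit 482) (nat_lit 5) (nat_lit 507) (nat_lit 5) (nat_lit 625) (nat_lit 601) (nat_lit 334)) (XT.lf (nat_lit 0) (nat_lit 1907553695) (nat_lit 1900) (nat_lit 16129025108) (nat_lit 76) (nat_lit 8171584608) (nat_lit 458) (nat_lit 5) (nat_lit 483) (nat_lit 5) (nat_lit 459) (nat_lit 5) (nat_lit 626) (nat_lit 601) (nat_lit 333)))) (XT.nd (nat_lit 156) (nat_lit 912) (nat_lit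 0) (XT.nd (nat_lit 78) (nat_lit 1064) (nat_lit 0) (XT.lf (nat_lit 0) (nat_lit 4140499123) (nat_lit 1900) (nat_lit 2100497334) (nat_lit 76) (nat_lit 20248637926) (nat_lit 458) (nat_lit 5) (nat_lit 483) (nat_lit 5) (nat_lit 459) (nat_lit 5) (nat_lit 627) (nat_lit 601) (nat_lit 332)) (XT.lf (nat_lit 0) (nat_lit 6533852270) (nat_lit 1140) (nat_lit 14444851690) (nat_lit 76) (nat_lit 5795715991) (nat_lit 444) (nat_lit 5) (nat_lit 459) (nat_lit 5) (nat_lit 445) (nat_lit 5) (nat_lit 628) (nat_lit 601) (nat_lit 331))) (XT.nd (nat_lit 78) (nat_lit 912) (nat_lit 0) (XT.lf (nat_lit 0) (nat_lit 9027946683) (nat_lit 1140) (nat_lit 31730434) (nat_lit 76) (nat_lit 18004166780) (nat_lit 444) (nat_lit 5) (nat_lit 459) (nat_lit 5) (nat_lit 445) (nat_lit 5) (nat_lit 629) (nat_lit 601) (nat_lit 330)) (XT.lf (nat_lit 0) (nat_lit 11686577763) (nat_lit 988) (nat_lit 12515705251) (nat_lit 76) (nat_lit 3154480358) (nat_lit 432) (nat_lit 5) (nat_lit 445) (nat_lit 5) (nat_lit 433) (nat_lit 5) (nat_lit 630) (nat_lit 601) (nat_lit 329))))) (XT.nd (nat_lit 312) (nat_lit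 1748) (nat_lit 0) (XT.nd (nat_lit 156) (nat_lit 836) (nat_lit 0) (XT.nd (nat_lit 78) (nat_lit 0) (nat_lit 0) (XT.lf (nat_lit 0) (nat_lit 2324294855) (nat_lit 912) (nat_lit 12146833043) (nat_lit 988) (nat_lit 13182958556) (nat_lit 420) (nat_lit 5) (nat_lit 432) (nat_lit 5) (nat_lit 433) (nat_lit 5) (nat_lit 631) (nat_lit 601) (nat_lit 328)) (XT.lf (nat_lit 0) (nat_lit 17394363440) (nat_lit 988) (nat_lit 10328876819) (nat_lit 76) (nat_lit 232455992) (nat_lit 420) (nat_lit 5) (nat_lit 433) (nat_lit 5) (nat_lit 421) (nat_lit 5) (nat_lit 632) (nat_lit 601) (nat_lit 327))) (XT.nd (nat_lit 78) (nat_lit 0) (nat_lit 0) (XT.lf (nat_lit 0) (nat_lit 4954215671) (nat_lit 836) (nat_lit 15531985215) (nat_lit 912) (nat_lit 7774934754) (nat_lit 409) (nat_lit 5) (nat_lit 420) (nat_lit 5) (nat_lit 421) (nat_lit 5) (nat_lit 633) (nat_lit 601) (nat_lit 326)) (XT.lf (nat_lit 0) (nat_lit 20680622858) (nat_lit 836) (nat_lit 3026126110) (nat_lit 912) (nat_lit 4864597504) (nat_lit 409) (nat_lit 5) (nat_lit 420) (nat_lit 5) (nat_lit 421) (nat_lit 5) (nat_lit 634)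 (nat_lit 601) (nat_lit 325)))) (XT.nd (nat_lit 156) (nat_lit 836) (nat_lit 0) (XT.nd (nat_lit 78) (nat_lit 76) (nat_lit 0) (XT.lf (nat_lit 0) (nat_lit 7871500143) (nat_lit 836) (nat_lit 19232097524) (nat_lit 912) (nat_lit 1781926198) (nat_lit 398) (nat_lit 5) (nat_lit 409) (nat_lit 5) (nat_lit 410) (nat_lit 5) (nat_lit 635) (nat_lit 601) (nat_lit 324)) (XT.lf (nat_lit 0) (nat_lit 1415498484) (nat_lit 912) (nat_lit 5180609581) (nat_lit 76) (nat_lit 22608280594) (nat_lit 397) (nat_lit 5) (nat_lit 409) (nat_lit 5) (nat_lit 398) (nat_lit 5) (nat_lit 636) (nat_lit 601) (nat_lit 323))) (XT.nd (nat_lit 78) (nat_lit 0) (nat_lit 0) (XT.lf (nat_lit 0) (nat_lit 4764192242) (nat_lit 912) (nat_lit 18468477952) (nat_lit 76) (nat_lit 6294501499) (nat_lit 386) (nat_lit 5) (nat_lit 398) (nat_lit 5) (nat_lit 387) (nat_lit 5) (nat_lit 637) (nat_lit 601) (nat_lit 322)) (XT.lf (nat_lit 0) (nat_lit 8256240512) (nat_lit 912) (nat_lit 2208980708) (nat_lit 76) (nat_lit 19389661678) (nat_lit 386) (nat_lit 5) (nat_lit 398) (nat_lit 5) (nat_lit 387) (nat_lit 5) (nat_lit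 638) (nat_lit 601) (nat_lit 321)))))) (XT.nd (nat_lit 546) (nat_lit 3496) (nat_lit 0) (XT.nd (nat_lit 234) (nat_lit 1520) (nat_lit 0) (XT.nd (nat_lit 78) (nat_lit 760) (nat_lit 0) (XT.lf (nat_lit 0) (nat_lit 11927670856) (nat_lit 912) (nat_lit 15640126196) (nat_lit 76) (nat_lit 2619160574) (nat_lit 375) (nat_lit 5) (nat_lit 387) (nat_lit 5) (nat_lit 376) (nat_lit 5) (nat_lit 639) (nat_lit 601) (nat_lit 320)) (XT.nd (nat_lit 78) (nat_lit 0) (nat_lit 0) (XT.lf (nat_lit 0) (nat_lit 1084806119) (nat_lit 760) (nat_lit 14676771395) (nat_lit 836) (nat_lit 14762315499) (nat_lit 365) (nat_lit 5) (nat_lit 375) (nat_lit 5) (nat_lit 376) (nat_lit 5) (nat_lit 640) (nat_lit 601) (nat_lit 319)) (XT.lf (nat_lit 0) (nat_lit 18353915736) (nat_lit 760) (nat_lit 1421005265) (nat_lit 836) (nat_lit 11090591049) (nat_lit 365) (nat_lit 5) (nat_lit 375) (nat_lit 5) (nat_lit 376) (nat_lit 5) (nat_lit 641) (nat_lit 601) (nat_lit 318)))) (XT.nd (nat_lit 156) (nat_lit 760) (nat_lit 0) (XT.nd (nat_lit 78) (nat_lit 0) (nat_lit 0) (XT.lf (nat_lit 0) (nat_lit 4735668760)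 (nat_lit 760) (nat_lit 19240017530) (nat_lit 836) (nat_lit 7236134192) (nat_lit 355) (nat_lit 5) (nat_lit 365) (nat_lit 5) (nat_lit 366) (nat_lit 5) (nat_lit 642) (nat_lit 601) (nat_lit 317)) (XT.lf (nat_lit 0) (nat_lit 22485632673) (nat_lit 760) (nat_lit 5866016954) (nat_lit 836) (nat_lit 3211581914) (nat_lit 355) (nat_lit 5) (nat_lit 365) (nat_lit 5) (nat_lit 366) (nat_lit 5) (nat_lit 643) (nat_lit 601) (nat_lit 316))) (XT.nd (nat_lit 78) (nat_lit 0) (nat_lit 0) (XT.lf (nat_lit 0) (nat_lit 987523028) (nat_lit 760) (nat_lit 23195424710) (nat_lit 76) (nat_lit 7736491581) (nat_lit 345) (nat_lit 5) (nat_lit 355) (nat_lit 5) (nat_lit 346) (nat_lit 5) (nat_lit 644) (nat_lit 601) (nat_lit 315)) (XT.lf (nat_lit 0) (nat_lit 5325741270) (nat_lit 760) (nat_lit 5339679896) (nat_lit 76) (nat_lit 21614962935) (nat_lit 345) (nat_lit 5) (nat_lit 355) (nat_lit 5) (nat_lit 346) (nat_lit 5) (nat_lit 645) (nat_lit 601) (nat_lit 314))))) (XT.nd (nat_lit 312) (nat_lit 1368) (nat_lit 0) (XT.nd (nat_lit 156) (nat_lit 1368) (nat_lit 0) (XT.nd (nat_lit 78) (nat_lit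 0) (nat_lit 0) (XT.lf (nat_lit 0) (nat_lit 9854201233) (nat_lit 836) (nat_lit 19625771007) (nat_lit 76) (nat_lit 3166506093) (nat_lit 335) (nat_lit 5) (nat_lit 346) (nat_lit 5) (nat_lit 336) (nat_lit 5) (nat_lit 646) (nat_lit 601) (nat_lit 313)) (XT.lf (nat_lit 0) (nat_lit 14577923308) (nat_lit 836) (nat_lit 1271658816) (nat_lit 76) (nat_lit 17168218570) (nat_lit 335) (nat_lit 5) (nat_lit 346) (nat_lit 5) (nat_lit 336) (nat_lit 5) (nat_lit 647) (nat_lit 601) (nat_lit 312))) (XT.nd (nat_lit 78) (nat_lit 684) (nat_lit 0) (XT.lf (nat_lit 0) (nat_lit 17679151020) (nat_lit 684) (nat_lit 1829784582) (nat_lit 760) (nat_lit 13885357684) (nat_lit 326) (nat_lit 5) (nat_lit 335) (nat_lit 5) (nat_lit 336) (nat_lit 5) (nat_lit 648) (nat_lit 601) (nat_lit 311)) (XT.lf (nat_lit 0) (nat_lit 3206833021) (nat_lit 684) (nat_lit 21440165403) (nat_lit 760) (nat_lit 9129148797) (nat_lit 317) (nat_lit 5) (nat_lit 326) (nat_lit 5) (nat_lit 327) (nat_lit 5) (nat_lit 649) (nat_lit 601) (nat_lit 310)))) (XT.nd (nat_lit 156) (nat_lit 684) (nat_lit 0) (XT.nd (nat_lit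 78) (nat_lit 684) (nat_lit 0) (XT.lf (nat_lit 0) (nat_lit 22705734683) (nat_lit 684) (nat_lit 7297659486) (nat_lit 760) (nat_lit 4159932729) (nat_lit 317) (nat_lit 5) (nat_lit 326) (nat_lit 5) (nat_lit 327) (nat_lit 5) (nat_lit 650) (nat_lit 601) (nat_lit 309)) (XT.lf (nat_lit 0) (nat_lit 994333841) (nat_lit 684) (nat_lit 26468861088) (nat_lit 76) (nat_lit 7092985666) (nat_lit 308) (nat_lit 5) (nat_lit 317) (nat_lit 5) (nat_lit 309) (nat_lit 5) (nat_lit 651) (nat_lit 601) (nat_lit 308))) (XT.nd (nat_lit 78) (nat_lit 684) (nat_lit 0) (XT.lf (nat_lit 0) (nat_lit 6319883224) (nat_lit 684) (nat_lit 6855559643) (nat_lit 76) (nat_lit 21778420666) (nat_lit 308) (nat_lit 5) (nat_lit 317) (nat_lit 5) (nat_lit 309) (nat_lit 5) (nat_lit 652) (nat_lit 601) (nat_lit 307)) (XT.lf (nat_lit 0) (nat_lit 11846249009) (nat_lit 760) (nat_lit 22044934134) (nat_lit 76) (nat_lit 1466430967) (nat_lit 299) (nat_lit 5) (nat_lit 309) (nat_lit 5) (nat_lit 300) (nat_lit 5) (nat_lit 653) (nat_lit 601) (nat_lit 306))))))) (XT.nd (nat_lit 78156) (nat_lit 0) (nat_lit 11628)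 (XT.nd (nat_lit 77532) (nat_lit 0) (nat_lit 13832) (XT.nd (nat_lit 77220) (nat_lit 0) (nat_lit 13832) (XT.nd (nat_lit 78) (nat_lit 608) (nat_lit 0) (XT.lf (nat_lit 0) (nat_lit 17614884313) (nat_lit 760) (nat_lit 1881099565) (nat_lit 76) (nat_lit 16270821063) (nat_lit 299) (nat_lit 5) (nat_lit 309) (nat_lit 5) (nat_lit 300) (nat_lit 5) (nat_lit 654) (nat_lit 601) (nat_lit 305)) (XT.nd (nat_lit 77064) (nat_lit 0) (nat_lit 15580) (XT.lf (nat_lit 0) (nat_lit 18932119648) (nat_lit 608) (nat_lit 4687906806) (nat_lit 684) (nat_lit 12561730536) (nat_lit 291) (nat_lit 5) (nat_lit 299) (nat_lit 5) (nat_lit 300) (nat_lit 5) (nat_lit 655) (nat_lit 601) (nat_lit 304)) (XT.lf (nat_lit 0) (nat_lit 4898624149) (nat_lit 0) (nat_lit 4898624149) (nat_lit 1748) (nat_lit 554770768) (nat_lit 496) (nat_lit 5) (nat_lit 496) (nat_lit 3) (nat_lit 519) (nat_lit 3) (nat_lit 602) (nat_lit 602) (nat_lit 356)))) (XT.nd (nat_lit 156) (nat_lit 1748) (nat_lit 0) (XT.nd (nat_lit 78) (nat_lit 0) (nat_lit 0) (XT.lf (nat_lit 0) (nat_lit 19946574164) (nat_lit 1748) (nat_lit 638916924)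 (nat_lit 1824) (nat_lit 322455185) (nat_lit 496) (nat_lit 5) (nat_lit 519) (nat_lit 3) (nat_lit 520) (nat_lit 5) (nat_lit 603) (nat_lit 602) (nat_lit 355)) (XT.lf (nat_lit 76) (nat_lit 9897119463) (nat_lit 0) (nat_lit 10533688267) (nat_lit 1824) (nat_lit 682622807) (nat_lit 497) (nat_lit 5) (nat_lit 496) (nat_lit 5) (nat_lit 520) (nat_lit 5) (nat_lit 604) (nat_lit 602) (nat_lit 354))) (XT.nd (nat_lit 78) (nat_lit 1748) (nat_lit 0) (XT.lf (nat_lit 76) (nat_lit 20650437128) (nat_lit 0) (nat_lit 274614972) (nat_lit 1824) (nat_lit 397966110) (nat_lit 497) (nat_lit 5) (nat_lit 496) (nat_lit 5) (nat_lit 520) (nat_lit 5) (nat_lit 605) (nat_lit 602) (nat_lit 353)) (XT.lf (nat_lit 0) (nat_lit 22809469) (nat_lit 1824) (nat_lit 11387590712) (nat_lit 1900) (nat_lit 10123831380) (nat_lit 473) (nat_lit 5) (nat_lit 497) (nat_lit 5) (nat_lit 498) (nat_lit 5) (nat_lit 606) (nat_lit 602) (nat_lit 352))))) (XT.nd (nat_lit 312) (nat_lit 0) (nat_lit 152) (XT.nd (nat_lit 156) (nat_lit 0) (nat_lit 76) (XT.nd (nat_lit 78) (nat_lit 0) (nat_lit 76) (XT.lf (nat_lit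 0) (nat_lit 449203461) (nat_lit 1824) (nat_lit 564884531) (nat_lit 1900) (nat_lit 20735478176) (nat_lit 473) (nat_lit 5) (nat_lit 497) (nat_lit 5) (nat_lit 498) (nat_lit 5) (nat_lit 607) (nat_lit 602) (nat_lit 351)) (XT.lf (nat_lit 0) (nat_lit 1011993302) (nat_lit 1824) (nat_lit 11419335381) (nat_lit 1900) (nat_lit 9535321652) (nat_lit 474) (nat_lit 5) (nat_lit 498) (nat_lit 5) (nat_lit 499) (nat_lit 5) (nat_lit 608) (nat_lit 602) (nat_lit 350))) (XT.nd (nat_lit 78) (nat_lit 0) (nat_lit 76) (XT.lf (nat_lit 0) (nat_lit 1592880617) (nat_lit 1824) (nat_lit 307538957) (nat_lit 1900) (nat_lit 20287520001) (nat_lit 474) (nat_lit 5) (nat_lit 498) (nat_lit 5) (nat_lit 499) (nat_lit 5) (nat_lit 609) (nat_lit 602) (nat_lit 349)) (XT.lf (nat_lit 0) (nat_lit 2312188615) (nat_lit 1824) (nat_lit 11299337664) (nat_lit 1900) (nat_lit 8799592481) (nat_lit 475) (nat_lit 5) (nat_lit 499) (nat_lit 5) (nat_lit 500) (nat_lit 5) (nat_lit 610) (nat_lit 602) (nat_lit 348)))) (XT.nd (nat_lit 156) (nat_lit 0) (nat_lit 76) (XT.nd (nat_lit 78) (nat_lit 0) (nat_lit 76)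 (XT.lf (nat_lit 76) (nat_lit 111563889) (nat_lit 0) (nat_lit 2946154702) (nat_lit 1900) (nat_lit 19580806435) (nat_lit 476) (nat_lit 5) (nat_lit 475) (nat_lit 5) (nat_lit 500) (nat_lit 5) (nat_lit 611) (nat_lit 602) (nat_lit 347)) (XT.lf (nat_lit 0) (nat_lit 3942501017) (nat_lit 1824) (nat_lit 11019419153) (nat_lit 1900) (nat_lit 7906072621) (nat_lit 476) (nat_lit 5) (nat_lit 500) (nat_lit 5) (nat_lit 501) (nat_lit 5) (nat_lit 612) (nat_lit 602) (nat_lit 346))) (XT.nd (nat_lit 78) (nat_lit 0) (nat_lit 76) (XT.lf (nat_lit 76) (nat_lit 705764196) (nat_lit 0) (nat_lit 4159888524) (nat_lit 1900) (nat_lit 18235983928) (nat_lit 477) (nat_lit 5) (nat_lit 476) (nat_lit 5) (nat_lit 501) (nat_lit 5) (nat_lit 613) (nat_lit 602) (nat_lit 345)) (XT.lf (nat_lit 0) (nat_lit 5922871353) (nat_lit 1824) (nat_lit 10570984475) (nat_lit 1900) (nat_lit 6843785675) (nat_lit 477) (nat_lit 5) (nat_lit 501) (nat_lit 5) (nat_lit 502) (nat_lit 5) (nat_lit 614) (nat_lit 602) (nat_lit 344)))))) (XT.nd (nat_lit 546) (nat_lit 2508) (nat_lit 0) (XT.nd (nat_lit 234) (nat_lit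 0) (nat_lit 152) (XT.nd (nat_lit 78) (nat_lit 0) (nat_lit 76) (XT.lf (nat_lit 76) (nat_lit 1479993326) (nat_lit 0) (nat_lit 5555105148) (nat_lit 1900) (nat_lit 16542590900) (nat_lit 478) (nat_lit 5) (nat_lit 477) (nat_lit 5) (nat_lit 502) (nat_lit 5) (nat_lit 615) (nat_lit 602) (nat_lit 343)) (XT.nd (nat_lit 78) (nat_lit 0) (nat_lit 0) (XT.lf (nat_lit 0) (nat_lit 8274113878) (nat_lit 1824) (nat_lit 9945006663) (nat_lit 1900) (nat_lit 5601326979) (nat_lit 478) (nat_lit 5) (nat_lit 502) (nat_lit 5) (nat_lit 503) (nat_lit 5) (nat_lit 616) (nat_lit 602) (nat_lit 342)) (XT.lf (nat_lit 76) (nat_lit 2443717180) (nat_lit 0) (nat_lit 7143673359) (nat_lit 1900) (nat_lit 14479680864) (nat_lit 479) (nat_lit 5) (nat_lit 478) (nat_lit 5) (nat_lit 503) (nat_lit 5) (nat_lit 617) (nat_lit 602) (nat_lit 341)))) (XT.nd (nat_lit 156) (nat_lit 0) (nat_lit 76) (XT.nd (nat_lit 78) (nat_lit 0) (nat_lit 0) (XT.lf (nat_lit 0) (nat_lit 11017955851) (nat_lit 1824) (nat_lit 9132011832) (nat_lit 1900) (nat_lit 4166839803) (nat_lit 479) (nat_lit 5) (nat_lit 503) (nat_lit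 5) (nat_lit 504) (nat_lit 5) (nat_lit 618) (nat_lit 602) (nat_lit 340)) (XT.lf (nat_lit 76) (nat_lit 3606865102) (nat_lit 0) (nat_lit 8937934877) (nat_lit 1900) (nat_lit 12025385144) (nat_lit 480) (nat_lit 5) (nat_lit 479) (nat_lit 5) (nat_lit 504) (nat_lit 5) (nat_lit 619) (nat_lit 602) (nat_lit 339))) (XT.nd (nat_lit 78) (nat_lit 0) (nat_lit 0) (XT.lf (nat_lit 0) (nat_lit 14177078610) (nat_lit 1824) (nat_lit 8122063131) (nat_lit 1900) (nat_lit 2527990801) (nat_lit 480) (nat_lit 5) (nat_lit 504) (nat_lit 5) (nat_lit 505) (nat_lit 5) (nat_lit 620) (nat_lit 602) (nat_lit 338)) (XT.lf (nat_lit 76) (nat_lit 4979846579) (nat_lit 0) (nat_lit 10950729644) (nat_lit 1900) (nat_lit 9156871394) (nat_lit 481) (nat_lit 5) (nat_lit 480) (nat_lit 5) (nat_lit 505) (nat_lit 5) (nat_lit 621) (nat_lit 602) (nat_lit 337))))) (XT.nd (nat_lit 312) (nat_lit 2812) (nat_lit 0) (XT.nd (nat_lit 156) (nat_lit 0) (nat_lit 0) (XT.nd (nat_lit 78) (nat_lit 0) (nat_lit 0) (XT.lf (nat_lit 0) (nat_lit 17775160190) (nat_lit 1824) (nat_lit 6904743953) (nat_lit 1900) (nat_lit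 671944694) (nat_lit 481) (nat_lit 5) (nat_lit 505) (nat_lit 5) (nat_lit 506) (nat_lit 5) (nat_lit 622) (nat_lit 602) (nat_lit 336)) (XT.lf (nat_lit 76) (nat_lit 6573568679) (nat_lit 0) (nat_lit 13195421932) (nat_lit 1900) (nat_lit 5850300545) (nat_lit 482) (nat_lit 5) (nat_lit 481) (nat_lit 5) (nat_lit 506) (nat_lit 5) (nat_lit 623) (nat_lit 602) (nat_lit 335))) (XT.nd (nat_lit 78) (nat_lit 0) (nat_lit 76) (XT.lf (nat_lit 76) (nat_lit 20412764534) (nat_lit 0) (nat_lit 1433462012) (nat_lit 1900) (nat_lit 4044985363) (nat_lit 482) (nat_lit 5) (nat_lit 481) (nat_lit 5) (nat_lit 506) (nat_lit 5) (nat_lit 624) (nat_lit 602) (nat_lit 334)) (XT.lf (nat_lit 76) (nat_lit 8399454293) (nat_lit 0) (nat_lit 15685927328) (nat_lit 1900) (nat_lit 2080782131) (nat_lit 483) (nat_lit 5) (nat_lit 482) (nat_lit 5) (nat_lit 507) (nat_lit 5) (nat_lit 625) (nat_lit 602) (nat_lit 333)))) (XT.nd (nat_lit 156) (nat_lit 1064) (nat_lit 0) (XT.nd (nat_lit 78) (nat_lit 1824) (nat_lit 0) (XT.lf (nat_lit 76) (nat_lit 22617279090) (nat_lit 0) (nat_lit 3795526529) (nat_lit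 1900) (nat_lit 32939456) (nat_lit 483) (nat_lit 5) (nat_lit 482) (nat_lit 5) (nat_lit 507) (nat_lit 5) (nat_lit 626) (nat_lit 602) (nat_lit 332)) (XT.lf (nat_lit 0) (nat_lit 2149111541) (nat_lit 1900) (nat_lit 16273207435) (nat_lit 76) (nat_lit 8305927953) (nat_lit 458) (nat_lit 5) (nat_lit 483) (nat_lit 5) (nat_lit 459) (nat_lit 5) (nat_lit 627) (nat_lit 602) (nat_lit 331))) (XT.nd (nat_lit 78) (nat_lit 1064) (nat_lit 0) (XT.lf (nat_lit 0) (nat_lit 4422727509) (nat_lit 1900) (nat_lit 1967607108) (nat_lit 76) (nat_lit 20625092697) (nat_lit 458) (nat_lit 5) (nat_lit 483) (nat_lit 5) (nat_lit 459) (nat_lit 5) (nat_lit 628) (nat_lit 602) (nat_lit 330)) (XT.lf (nat_lit 0) (nat_lit 6861017055) (nat_lit 1140) (nat_lit 14555906723) (nat_lit 76) (nat_lit 5889043653) (nat_lit 444) (nat_lit 5) (nat_lit 459) (nat_lit 5) (nat_lit 445) (nat_lit 5) (nat_lit 629) (nat_lit 602) (nat_lit 329))))))))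
noncomputable def xc110 : XT := (XT.nd (nat_lit 79404) (nat_lit 0) (nat_lit 8360) (XT.nd (nat_lit 1170) (nat_lit 4256) (nat_lit 0) (XT.nd (nat_lit 546) (nat_lit 3268) (nat_lit 0) (XT.nd (nat_lit 234) (nat_lit 1672) (nat_lit 0) (XT.nd (nat_lit 78) (nat_lit 912) (nat_lit 0) (XT.lf (nat_lit 0) (nat_lit 143876830) (nat_lit 912) (nat_lit 9258197969) (nat_lit 988) (nat_lit 18199163646) (nat_lit 432) (nat_lit 5) (nat_lit 444) (nat_lit 5) (nat_lit 445) (nat_lit 5) (nat_lit 630) (nat_lit 602) (nat_lit 328)) (XT.nd (nat_lit 78) (nat_lit 912) (nat_lit 0) (XT.lf (nat_lit 0) (nat_lit 12110182867) (nat_lit 988) (nat_lit 12588892233) (nat_lit 76) (nat_lit 3201015338) (nat_lit 432) (nat_lit 5) (nat_lit 445) (nat_lit 5) (nat_lit 433) (nat_lit 5) (nat_lit 631) (nat_lit 602) (nat_lit 327)) (XT.lf (nat_lit 0) (nat_lit 2546742566) (nat_lit 912) (nat_lit 12401100889) (nat_lit 988) (nat_lit 13255568347) (nat_lit 420) (nat_lit 5) (nat_lit 432) (nat_lit 5) (nat_lit 433) (nat_lit 5) (nat_lit 632) (nat_lit 602) (nat_lit 326)))) (XT.nd (nat_lit 156) (nat_lit 836) (nat_lit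 0) (XT.nd (nat_lit 78) (nat_lit 836) (nat_lit 0) (XT.lf (nat_lit 0) (nat_lit 17925799169) (nat_lit 988) (nat_lit 10359187920) (nat_lit 76) (nat_lit 226141803) (nat_lit 420) (nat_lit 5) (nat_lit 433) (nat_lit 5) (nat_lit 421) (nat_lit 5) (nat_lit 633) (nat_lit 602) (nat_lit 325)) (XT.lf (nat_lit 0) (nat_lit 5228406772) (nat_lit 836) (nat_lit 15848604512) (nat_lit 912) (nat_lit 7745715228) (nat_lit 409) (nat_lit 5) (nat_lit 420) (nat_lit 5) (nat_lit 421) (nat_lit 5) (nat_lit 634) (nat_lit 602) (nat_lit 324))) (XT.nd (nat_lit 78) (nat_lit 836) (nat_lit 0) (XT.lf (nat_lit 0) (nat_lit 21265908637) (nat_lit 836) (nat_lit 3092510978) (nat_lit 912) (nat_lit 4780793160) (nat_lit 409) (nat_lit 5) (nat_lit 420) (nat_lit 5) (nat_lit 421) (nat_lit 5) (nat_lit 635) (nat_lit 602) (nat_lit 323)) (XT.lf (nat_lit 0) (nat_lit 8203049051) (nat_lit 836) (nat_lit 19617768324) (nat_lit 912) (nat_lit 1638904292) (nat_lit 398) (nat_lit 5) (nat_lit 409) (nat_lit 5) (nat_lit 410) (nat_lit 5) (nat_lit 636) (nat_lit 602) (nat_lit 322))))) (XT.nd (nat_lit 312) (nat_lit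 1520) (nat_lit 0) (XT.nd (nat_lit 156) (nat_lit 836) (nat_lit 0) (XT.nd (nat_lit 78) (nat_lit 836) (nat_lit 0) (XT.lf (nat_lit 0) (nat_lit 1616668518) (nat_lit 912) (nat_lit 5111210402) (nat_lit 76) (nat_lit 23057130968) (nat_lit 397) (nat_lit 5) (nat_lit 409) (nat_lit 5) (nat_lit 398) (nat_lit 5) (nat_lit 637) (nat_lit 602) (nat_lit 321)) (XT.lf (nat_lit 0) (nat_lit 5030071006) (nat_lit 912) (nat_lit 18662561835) (nat_lit 76) (nat_lit 6421661227) (nat_lit 386) (nat_lit 5) (nat_lit 398) (nat_lit 5) (nat_lit 387) (nat_lit 5) (nat_lit 638) (nat_lit 602) (nat_lit 320))) (XT.nd (nat_lit 78) (nat_lit 836) (nat_lit 0) (XT.lf (nat_lit 0) (nat_lit 8588615243) (nat_lit 912) (nat_lit 2081311620) (nat_lit 76) (nat_lit 19778699714) (nat_lit 386) (nat_lit 5) (nat_lit 398) (nat_lit 5) (nat_lit 387) (nat_lit 5) (nat_lit 639) (nat_lit 602) (nat_lit 319)) (XT.lf (nat_lit 0) (nat_lit 12331339812) (nat_lit 912) (nat_lit 15778936834) (nat_lit 76) (nat_lit 2677109018) (nat_lit 375) (nat_lit 5) (nat_lit 387) (nat_lit 5) (nat_lit 376) (nat_lit 5) (nat_lit 640)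 (nat_lit 602) (nat_lit 318)))) (XT.nd (nat_lit 156) (nat_lit 760) (nat_lit 0) (XT.nd (nat_lit 78) (nat_lit 0) (nat_lit 0) (XT.lf (nat_lit 0) (nat_lit 1279349444) (nat_lit 760) (nat_lit 14960459838) (nat_lit 836) (nat_lit 14891292955) (nat_lit 365) (nat_lit 5) (nat_lit 375) (nat_lit 5) (nat_lit 376) (nat_lit 5) (nat_lit 641) (nat_lit 602) (nat_lit 317)) (XT.lf (nat_lit 0) (nat_lit 18890452092) (nat_lit 760) (nat_lit 1439771464) (nat_lit 836) (nat_lit 11149394190) (nat_lit 365) (nat_lit 5) (nat_lit 375) (nat_lit 5) (nat_lit 376) (nat_lit 5) (nat_lit 642) (nat_lit 602) (nat_lit 316))) (XT.nd (nat_lit 78) (nat_lit 0) (nat_lit 0) (XT.lf (nat_lit 0) (nat_lit 5001846517) (nat_lit 760) (nat_lit 19611198932) (nat_lit 836) (nat_lit 7219846239) (nat_lit 355) (nat_lit 5) (nat_lit 365) (nat_lit 5) (nat_lit 366) (nat_lit 5) (nat_lit 643) (nat_lit 602) (nat_lit 315)) (XT.lf (nat_lit 0) (nat_lit 23103447661) (nat_lit 760) (nat_lit 5969985383) (nat_lit 836) (nat_lit 3117959987) (nat_lit 355) (nat_lit 5) (nat_lit 365) (nat_lit 5) (nat_lit 366) (nat_lit 5)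 (nat_lit 644) (nat_lit 602) (nat_lit 314)))))) (XT.nd (nat_lit 546) (nat_lit 1368) (nat_lit 0) (XT.nd (nat_lit 234) (nat_lit 1368) (nat_lit 0) (XT.nd (nat_lit 78) (nat_lit 760) (nat_lit 0) (XT.lf (nat_lit 0) (nat_lit 1161198771) (nat_lit 760) (nat_lit 23487286796) (nat_lit 76) (nat_lit 7906256215) (nat_lit 345) (nat_lit 5) (nat_lit 355) (nat_lit 5) (nat_lit 346) (nat_lit 5) (nat_lit 645) (nat_lit 602) (nat_lit 313)) (XT.nd (nat_lit 78) (nat_lit 760) (nat_lit 0) (XT.lf (nat_lit 0) (nat_lit 5583163235) (nat_lit 760) (nat_lit 5277800545) (nat_lit 76) (nat_lit 22062002196) (nat_lit 345) (nat_lit 5) (nat_lit 355) (nat_lit 5) (nat_lit 346) (nat_lit 5) (nat_lit 646) (nat_lit 602) (nat_lit 312)) (XT.lf (nat_lit 0) (nat_lit 10200441657) (nat_lit 836) (nat_lit 19847855223) (nat_lit 76) (nat_lit 3248120379) (nat_lit 335) (nat_lit 5) (nat_lit 346) (nat_lit 5) (nat_lit 336) (nat_lit 5) (nat_lit 647) (nat_lit 602) (nat_lit 311)))) (XT.nd (nat_lit 156) (nat_lit 684) (nat_lit 0) (XT.nd (nat_lit 78) (nat_lit 684) (nat_lit 0) (XT.lf (nat_lit 0) (nat_lit 15015713538)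 (nat_lit 836) (nat_lit 1130002576) (nat_lit 76) (nat_lit 17529508593) (nat_lit 335) (nat_lit 5) (nat_lit 346) (nat_lit 5) (nat_lit 336) (nat_lit 5) (nat_lit 648) (nat_lit 602) (nat_lit 310)) (XT.lf (nat_lit 0) (nat_lit 18198724184) (nat_lit 684) (nat_lit 1844832323) (nat_lit 760) (nat_lit 14015726580) (nat_lit 326) (nat_lit 5) (nat_lit 335) (nat_lit 5) (nat_lit 336) (nat_lit 5) (nat_lit 649) (nat_lit 602) (nat_lit 309))) (XT.nd (nat_lit 78) (nat_lit 0) (nat_lit 0) (XT.lf (nat_lit 0) (nat_lit 3438605814) (nat_lit 684) (nat_lit 21844168137) (nat_lit 760) (nat_lit 9166032424) (nat_lit 317) (nat_lit 5) (nat_lit 326) (nat_lit 5) (nat_lit 327) (nat_lit 5) (nat_lit 650) (nat_lit 602) (nat_lit 308)) (XT.lf (nat_lit 0) (nat_lit 23324198526) (nat_lit 684) (nat_lit 7419298387) (nat_lit 760) (nat_lit 4100288885) (nat_lit 317) (nat_lit 5) (nat_lit 326) (nat_lit 5) (nat_lit 327) (nat_lit 5) (nat_lit 651) (nat_lit 602) (nat_lit 307))))) (XT.nd (nat_lit 77376) (nat_lit 0) (nat_lit 14972) (XT.nd (nat_lit 156) (nat_lit 684) (nat_lit 0) (XT.nd (nat_lit 78)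 (nat_lit 0) (nat_lit 0) (XT.lf (nat_lit 0) (nat_lit 1153665574) (nat_lit 684) (nat_lit 26830478240) (nat_lit 76) (nat_lit 7260364820) (nat_lit 308) (nat_lit 5) (nat_lit 317) (nat_lit 5) (nat_lit 309) (nat_lit 5) (nat_lit 652) (nat_lit 602) (nat_lit 306)) (XT.lf (nat_lit 0) (nat_lit 6582991728) (nat_lit 684) (nat_lit 6828200180) (nat_lit 76) (nat_lit 22239008139) (nat_lit 308) (nat_lit 5) (nat_lit 317) (nat_lit 5) (nat_lit 309) (nat_lit 5) (nat_lit 653) (nat_lit 602) (nat_lit 305))) (XT.nd (nat_lit 78) (nat_lit 0) (nat_lit 0) (XT.lf (nat_lit 0) (nat_lit 12218448777) (nat_lit 760) (nat_lit 22319919697) (nat_lit 76) (nat_lit 1523686010) (nat_lit 299) (nat_lit 5) (nat_lit 309) (nat_lit 5) (nat_lit 300) (nat_lit 5) (nat_lit 654) (nat_lit 602) (nat_lit 304)) (XT.lf (nat_lit 0) (nat_lit 18099804341) (nat_lit 760) (nat_lit 1756061635) (nat_lit 76) (nat_lit 16623616330) (nat_lit 299) (nat_lit 5) (nat_lit 309) (nat_lit 5) (nat_lit 300) (nat_lit 5) (nat_lit 655) (nat_lit 602) (nat_lit 303)))) (XT.nd (nat_lit 156) (nat_lit 0) (nat_lit 0) (XT.nd (nat_lit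 78) (nat_lit 0) (nat_lit 0) (XT.lf (nat_lit 0) (nat_lit 5073102253) (nat_lit 0) (nat_lit 5073102253) (nat_lit 1748) (nat_lit 409785189) (nat_lit 496) (nat_lit 5) (nat_lit 496) (nat_lit 3) (nat_lit 519) (nat_lit 3) (nat_lit 603) (nat_lit 603) (nat_lit 354)) (XT.lf (nat_lit 0) (nat_lit 20644553718) (nat_lit 1748) (nat_lit 494691146) (nat_lit 1824) (nat_lit 180860690) (nat_lit 496) (nat_lit 5) (nat_lit 519) (nat_lit 3) (nat_lit 520) (nat_lit 5) (nat_lit 604) (nat_lit 603) (nat_lit 353))) (XT.nd (nat_lit 78) (nat_lit 0) (nat_lit 0) (XT.lf (nat_lit 76) (nat_lit 10251033046) (nat_lit 0) (nat_lit 10882587889) (nat_lit 1824) (nat_lit 396175954) (nat_lit 497) (nat_lit 5) (nat_lit 496) (nat_lit 5) (nat_lit 520) (nat_lit 5) (nat_lit 605) (nat_lit 603) (nat_lit 352)) (XT.lf (nat_lit 76) (nat_lit 21216358806) (nat_lit 0) (nat_lit 415622818) (nat_lit 1824) (nat_lit 111710423) (nat_lit 497) (nat_lit 5) (nat_lit 496) (nat_lit 5) (nat_lit 520) (nat_lit 5) (nat_lit 606) (nat_lit 603) (nat_lit 351))))))) (XT.nd (nat_lit 1170) (nat_lit 4864) (nat_lit 0) (XT.nd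 (nat_lit 546) (nat_lit 0) (nat_lit 228) (XT.nd (nat_lit 234) (nat_lit 0) (nat_lit 76) (XT.nd (nat_lit 78) (nat_lit 0) (nat_lit 0) (XT.lf (nat_lit 0) (nat_lit 308096501) (nat_lit 1824) (nat_lit 11453010558) (nat_lit 1900) (nat_lit 10198095256) (nat_lit 473) (nat_lit 5) (nat_lit 497) (nat_lit 5) (nat_lit 498) (nat_lit 5) (nat_lit 607) (nat_lit 603) (nat_lit 350)) (XT.nd (nat_lit 78) (nat_lit 0) (nat_lit 76) (XT.lf (nat_lit 0) (nat_lit 737433454) (nat_lit 1824) (nat_lit 417033233) (nat_lit 1900) (nat_lit 21024488964) (nat_lit 473) (nat_lit 5) (nat_lit 497) (nat_lit 5) (nat_lit 498) (nat_lit 5) (nat_lit 608) (nat_lit 603) (nat_lit 349)) (XT.lf (nat_lit 0) (nat_lit 1306272523) (nat_lit 1824) (nat_lit 11483349940) (nat_lit 1900) (nat_lit 9610863501) (nat_lit 474) (nat_lit 5) (nat_lit 498) (nat_lit 5) (nat_lit 499) (nat_lit 5) (nat_lit 609) (nat_lit 603) (nat_lit 348)))) (XT.nd (nat_lit 156) (nat_lit 0) (nat_lit 76) (XT.nd (nat_lit 78) (nat_lit 0) (nat_lit 76) (XT.lf (nat_lit 0) (nat_lit 1893404263) (nat_lit 1824) (nat_lit 152540571) (nat_lit 1900)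 (nat_lit 20580363946) (nat_lit 474) (nat_lit 5) (nat_lit 498) (nat_lit 5) (nat_lit 499) (nat_lit 5) (nat_lit 610) (nat_lit 603) (nat_lit 347)) (XT.lf (nat_lit 0) (nat_lit 2622192364) (nat_lit 1824) (nat_lit 11359253248) (nat_lit 1900) (nat_lit 8872604377) (nat_lit 475) (nat_lit 5) (nat_lit 499) (nat_lit 5) (nat_lit 500) (nat_lit 5) (nat_lit 611) (nat_lit 603) (nat_lit 346))) (XT.nd (nat_lit 78) (nat_lit 0) (nat_lit 76) (XT.lf (nat_lit 76) (nat_lit 278773762) (nat_lit 0) (nat_lit 3099758564) (nat_lit 1900) (nat_lit 19707554380) (nat_lit 476) (nat_lit 5) (nat_lit 475) (nat_lit 5) (nat_lit 500) (nat_lit 5) (nat_lit 612) (nat_lit 603) (nat_lit 345)) (XT.lf (nat_lit 0) (nat_lit 4275316364) (nat_lit 1824) (nat_lit 11072354452) (nat_lit 1900) (nat_lit 7972587199) (nat_lit 476) (nat_lit 5) (nat_lit 500) (nat_lit 5) (nat_lit 501) (nat_lit 5) (nat_lit 613) (nat_lit 603) (nat_lit 344))))) (XT.nd (nat_lit 312) (nat_lit 0) (nat_lit 152) (XT.nd (nat_lit 156) (nat_lit 0) (nat_lit 76) (XT.nd (nat_lit 78) (nat_lit 0) (nat_lit 76) (XT.lf (nat_lit 76) (nat_lit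 886230899) (nat_lit 0) (nat_lit 4326800552) (nat_lit 1900) (nat_lit 18345621589) (nat_lit 477) (nat_lit 5) (nat_lit 476) (nat_lit 5) (nat_lit 501) (nat_lit 5) (nat_lit 614) (nat_lit 603) (nat_lit 343)) (XT.lf (nat_lit 0) (nat_lit 6285958338) (nat_lit 1824) (nat_lit 10613863686) (nat_lit 1900) (nat_lit 6899664986) (nat_lit 477) (nat_lit 5) (nat_lit 501) (nat_lit 5) (nat_lit 502) (nat_lit 5) (nat_lit 615) (nat_lit 603) (nat_lit 342))) (XT.nd (nat_lit 78) (nat_lit 0) (nat_lit 76) (XT.lf (nat_lit 76) (nat_lit 1677024852) (nat_lit 0) (nat_lit 5739695568) (nat_lit 1900) (nat_lit 16627689898) (nat_lit 478) (nat_lit 5) (nat_lit 477) (nat_lit 5) (nat_lit 502) (nat_lit 5) (nat_lit 616) (nat_lit 603) (nat_lit 341)) (XT.lf (nat_lit 0) (nat_lit 8675324432) (nat_lit 1824) (nat_lit 9974552250) (nat_lit 1900) (nat_lit 5642251063) (nat_lit 478) (nat_lit 5) (nat_lit 502) (nat_lit 5) (nat_lit 503) (nat_lit 5) (nat_lit 617) (nat_lit 603) (nat_lit 340)))) (XT.nd (nat_lit 156) (nat_lit 0) (nat_lit 76) (XT.nd (nat_lit 78) (nat_lit 0) (nat_lit 76) (XT.lf (nat_lit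 76) (nat_lit 2660831894) (nat_lit 0) (nat_lit 7350504936) (nat_lit 1900) (nat_lit 14532418147) (nat_lit 479) (nat_lit 5) (nat_lit 478) (nat_lit 5) (nat_lit 503) (nat_lit 5) (nat_lit 618) (nat_lit 603) (nat_lit 339)) (XT.lf (nat_lit 0) (nat_lit 11465553422) (nat_lit 1824) (nat_lit 9144736891) (nat_lit 1900) (nat_lit 4188294943) (nat_lit 479) (nat_lit 5) (nat_lit 503) (nat_lit 5) (nat_lit 504) (nat_lit 5) (nat_lit 619) (nat_lit 603) (nat_lit 338))) (XT.nd (nat_lit 78) (nat_lit 0) (nat_lit 76) (XT.lf (nat_lit 76) (nat_lit 3847799719) (nat_lit 0) (nat_lit 9171775002) (nat_lit 1900) (nat_lit 12037523187) (nat_lit 480) (nat_lit 5) (nat_lit 479) (nat_lit 5) (nat_lit 504) (nat_lit 5) (nat_lit 620) (nat_lit 603) (nat_lit 337)) (XT.lf (nat_lit 0) (nat_lit 14679758532) (nat_lit 1824) (nat_lit 8114263357) (nat_lit 1900) (nat_lit 2525257456) (nat_lit 480) (nat_lit 5) (nat_lit 504) (nat_lit 5) (nat_lit 505) (nat_lit 5) (nat_lit 621) (nat_lit 603) (nat_lit 336)))))) (XT.nd (nat_lit 546) (nat_lit 3648) (nat_lit 0) (XT.nd (nat_lit 234) (nat_lit 1748) (nat_lit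 0) (XT.nd (nat_lit 78) (nat_lit 0) (nat_lit 76) (XT.lf (nat_lit 76) (nat_lit 5248564540) (nat_lit 0) (nat_lit 11216562773) (nat_lit 1900) (nat_lit 9119737640) (nat_lit 481) (nat_lit 5) (nat_lit 480) (nat_lit 5) (nat_lit 505) (nat_lit 5) (nat_lit 622) (nat_lit 603) (nat_lit 335)) (XT.nd (nat_lit 78) (nat_lit 0) (nat_lit 0) (XT.lf (nat_lit 0) (nat_lit 18342070834) (nat_lit 1824) (nat_lit 6872489201) (nat_lit 1900) (nat_lit 640085057) (nat_lit 481) (nat_lit 5) (nat_lit 505) (nat_lit 5) (nat_lit 506) (nat_lit 5) (nat_lit 623) (nat_lit 603) (nat_lit 334)) (XT.lf (nat_lit 76) (nat_lit 6874268962) (nat_lit 0) (nat_lit 13498462404) (nat_lit 1900) (nat_lit 5754766068) (nat_lit 482) (nat_lit 5) (nat_lit 481) (nat_lit 5) (nat_lit 506) (nat_lit 5) (nat_lit 624) (nat_lit 603) (nat_lit 333)))) (XT.nd (nat_lit 156) (nat_lit 1824) (nat_lit 0) (XT.nd (nat_lit 78) (nat_lit 0) (nat_lit 76) (XT.lf (nat_lit 76) (nat_lit 20986930521) (nat_lit 0) (nat_lit 1500495991) (nat_lit 1900) (nat_lit 3917512043) (nat_lit 482) (nat_lit 5) (nat_lit 481) (nat_lit 5) (nat_lit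 506) (nat_lit 5) (nat_lit 625) (nat_lit 603) (nat_lit 332)) (XT.lf (nat_lit 76) (nat_lit 8736580643) (nat_lit 0) (nat_lit 16031632590) (nat_lit 1900) (nat_lit 1917239466) (nat_lit 483) (nat_lit 5) (nat_lit 482) (nat_lit 5) (nat_lit 507) (nat_lit 5) (nat_lit 626) (nat_lit 603) (nat_lit 331))) (XT.nd (nat_lit 78) (nat_lit 0) (nat_lit 76) (XT.lf (nat_lit 0) (nat_lit 165340066) (nat_lit 1900) (nat_lit 3736346998) (nat_lit 1976) (nat_lit 23068995934) (nat_lit 457) (nat_lit 5) (nat_lit 482) (nat_lit 5) (nat_lit 483) (nat_lit 5) (nat_lit 627) (nat_lit 603) (nat_lit 330)) (XT.lf (nat_lit 0) (nat_lit 2387602010) (nat_lit 1900) (nat_lit 16427200827) (nat_lit 76) (nat_lit 8444087700) (nat_lit 458) (nat_lit 5) (nat_lit 483) (nat_lit 5) (nat_lit 459) (nat_lit 5) (nat_lit 628) (nat_lit 603) (nat_lit 329))))) (XT.nd (nat_lit 312) (nat_lit 1748) (nat_lit 0) (XT.nd (nat_lit 156) (nat_lit 912) (nat_lit 0) (XT.nd (nat_lit 78) (nat_lit 1064) (nat_lit 0) (XT.lf (nat_lit 0) (nat_lit 4702856803) (nat_lit 1900) (nat_lit 1838850665) (nat_lit 76) (nat_lit 21010183951)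 (nat_lit 458) (nat_lit 5) (nat_lit 483) (nat_lit 5) (nat_lit 459) (nat_lit 5) (nat_lit 629) (nat_lit 603) (nat_lit 328)) (XT.lf (nat_lit 0) (nat_lit 7187095277) (nat_lit 1140) (nat_lit 14676088678) (nat_lit 76) (nat_lit 5985114935) (nat_lit 444) (nat_lit 5) (nat_lit 459) (nat_lit 5) (nat_lit 445) (nat_lit 5) (nat_lit 630) (nat_lit 603) (nat_lit 327))) (XT.nd (nat_lit 78) (nat_lit 0) (nat_lit 0) (XT.lf (nat_lit 0) (nat_lit 316565966) (nat_lit 912) (nat_lit 9459807644) (nat_lit 988) (nat_lit 18373153937) (nat_lit 432) (nat_lit 5) (nat_lit 444) (nat_lit 5) (nat_lit 445) (nat_lit 5) (nat_lit 631) (nat_lit 603) (nat_lit 326)) (XT.lf (nat_lit 0) (nat_lit 12534887053) (nat_lit 988) (nat_lit 12670421016) (nat_lit 76) (nat_lit 3249123853) (nat_lit 432) (nat_lit 5) (nat_lit 445) (nat_lit 5) (nat_lit 433) (nat_lit 5) (nat_lit 632) (nat_lit 603) (nat_lit 325)))) (XT.nd (nat_lit 156) (nat_lit 836) (nat_lit 0) (XT.nd (nat_lit 78) (nat_lit 0) (nat_lit 0) (XT.lf (nat_lit 0) (nat_lit 2766806420) (nat_lit 912) (nat_lit 12660014089) (nat_lit 988) (nat_lit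 13337049014) (nat_lit 420) (nat_lit 5) (nat_lit 432) (nat_lit 5) (nat_lit 433) (nat_lit 5) (nat_lit 633) (nat_lit 603) (nat_lit 324)) (XT.lf (nat_lit 0) (nat_lit 18460736202) (nat_lit 988) (nat_lit 10396949884) (nat_lit 76) (nat_lit 220127049) (nat_lit 420) (nat_lit 5) (nat_lit 433) (nat_lit 5) (nat_lit 421) (nat_lit 5) (nat_lit 634) (nat_lit 603) (nat_lit 323))) (XT.nd (nat_lit 78) (nat_lit 0) (nat_lit 0) (XT.lf (nat_lit 0) (nat_lit 5501282085) (nat_lit 836) (nat_lit 16171324000) (nat_lit 912) (nat_lit 7723084146) (nat_lit 409) (nat_lit 5) (nat_lit 420) (nat_lit 5) (nat_lit 421) (nat_lit 5) (nat_lit 635) (nat_lit 603) (nat_lit 322)) (XT.lf (nat_lit 0) (nat_lit 21856233847) (nat_lit 836) (nat_lit 3159995902) (nat_lit 912) (nat_lit 4702344918) (nat_lit 409) (nat_lit 5) (nat_lit 420) (nat_lit 5) (nat_lit 421) (nat_lit 5) (nat_lit 636) (nat_lit 603) (nat_lit 321))))))))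
noncomputable def xc111 : XT := (XT.nd (nat_lit 79560) (nat_lit 0) (nat_lit 3572) (XT.nd (nat_lit 1170) (nat_lit 684) (nat_lit 0) (XT.nd (nat_lit 546) (nat_lit 3648) (nat_lit 0) (XT.nd (nat_lit 234) (nat_lit 1596) (nat_lit 0) (XT.nd (nat_lit 78) (nat_lit 912) (nat_lit 0) (XT.lf (nat_lit 0) (nat_lit 8534467688) (nat_lit 836) (nat_lit 20011112588) (nat_lit 912) (nat_lit 1499959550) (nat_lit 398) (nat_lit 5) (nat_lit 409) (nat_lit 5) (nat_lit 410) (nat_lit 5) (nat_lit 637) (nat_lit 603) (nat_lit 320)) (XT.nd (nat_lit 78) (nat_lit 836) (nat_lit 0) (XT.lf (nat_lit 0) (nat_lit 1815149586) (nat_lit 912) (nat_lit 5047141481) (nat_lit 76) (nat_lit 23515087085) (nat_lit 397) (nat_lit 5) (nat_lit 409) (nat_lit 5) (nat_lit 398) (nat_lit 5) (nat_lit 638) (nat_lit 603) (nat_lit 319)) (XT.lf (nat_lit 0) (nat_lit 5294642937) (nat_lit 912) (nat_lit 18867333953) (nat_lit 76) (nat_lit 6551314846) (nat_lit 386) (nat_lit 5) (nat_lit 398) (nat_lit 5) (nat_lit 387) (nat_lit 5) (nat_lit 639) (nat_lit 603) (nat_lit 318)))) (XT.nd (nat_lit 156) (nat_lit 760) (nat_lit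 0) (XT.nd (nat_lit 78) (nat_lit 836) (nat_lit 0) (XT.lf (nat_lit 0) (nat_lit 8921142951) (nat_lit 912) (nat_lit 1957762246) (nat_lit 76) (nat_lit 20175470173) (nat_lit 386) (nat_lit 5) (nat_lit 398) (nat_lit 5) (nat_lit 387) (nat_lit 5) (nat_lit 640) (nat_lit 603) (nat_lit 317)) (XT.lf (nat_lit 0) (nat_lit 12736670510) (nat_lit 912) (nat_lit 15927280001) (nat_lit 76) (nat_lit 2736000326) (nat_lit 375) (nat_lit 5) (nat_lit 387) (nat_lit 5) (nat_lit 376) (nat_lit 5) (nat_lit 641) (nat_lit 603) (nat_lit 316))) (XT.nd (nat_lit 78) (nat_lit 0) (nat_lit 0) (XT.lf (nat_lit 0) (nat_lit 1471071768) (nat_lit 760) (nat_lit 15250204421) (nat_lit 836) (nat_lit 15029306383) (nat_lit 365) (nat_lit 5) (nat_lit 375) (nat_lit 5) (nat_lit 376) (nat_lit 5) (nat_lit 642) (nat_lit 603) (nat_lit 315)) (XT.lf (nat_lit 0) (nat_lit 19431138914) (nat_lit 760) (nat_lit 1459287860) (nat_lit 836) (nat_lit 11215703219) (nat_lit 365) (nat_lit 5) (nat_lit 375) (nat_lit 5) (nat_lit 376) (nat_lit 5) (nat_lit 643) (nat_lit 603) (nat_lit 314))))) (XT.nd (nat_lit 312) (nat_lit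 2128) (nat_lit 0) (XT.nd (nat_lit 156) (nat_lit 760) (nat_lit 0) (XT.nd (nat_lit 78) (nat_lit 0) (nat_lit 0) (XT.lf (nat_lit 0) (nat_lit 5266689657) (nat_lit 760) (nat_lit 19990332803) (nat_lit 836) (nat_lit 7209484766) (nat_lit 355) (nat_lit 5) (nat_lit 365) (nat_lit 5) (nat_lit 366) (nat_lit 5) (nat_lit 644) (nat_lit 603) (nat_lit 313)) (XT.lf (nat_lit 0) (nat_lit 23727091330) (nat_lit 760) (nat_lit 6076551651) (nat_lit 836) (nat_lit 3028595267) (nat_lit 355) (nat_lit 5) (nat_lit 365) (nat_lit 5) (nat_lit 366) (nat_lit 5) (nat_lit 645) (nat_lit 603) (nat_lit 312))) (XT.nd (nat_lit 78) (nat_lit 0) (nat_lit 0) (XT.lf (nat_lit 0) (nat_lit 1332370922) (nat_lit 760) (nat_lit 23791666896) (nat_lit 76) (nat_lit 8078832322) (nat_lit 345) (nat_lit 5) (nat_lit 355) (nat_lit 5) (nat_lit 346) (nat_lit 5) (nat_lit 646) (nat_lit 603) (nat_lit 311)) (XT.lf (nat_lit 0) (nat_lit 5839873731) (nat_lit 760) (nat_lit 5221233383) (nat_lit 76) (nat_lit 22517409870) (nat_lit 345) (nat_lit 5) (nat_lit 355) (nat_lit 5) (nat_lit 346) (nat_lit 5) (nat_lit 647) (nat_lit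 603) (nat_lit 310)))) (XT.nd (nat_lit 156) (nat_lit 1368) (nat_lit 0) (XT.nd (nat_lit 78) (nat_lit 0) (nat_lit 0) (XT.lf (nat_lit 0) (nat_lit 10547814963) (nat_lit 836) (nat_lit 20080999175) (nat_lit 76) (nat_lit 3330656954) (nat_lit 335) (nat_lit 5) (nat_lit 346) (nat_lit 5) (nat_lit 336) (nat_lit 5) (nat_lit 648) (nat_lit 603) (nat_lit 309)) (XT.lf (nat_lit 0) (nat_lit 15456581214) (nat_lit 836) (nat_lit 992001498) (nat_lit 76) (nat_lit 17897328340) (nat_lit 335) (nat_lit 5) (nat_lit 346) (nat_lit 5) (nat_lit 336) (nat_lit 5) (nat_lit 649) (nat_lit 603) (nat_lit 308))) (XT.nd (nat_lit 78) (nat_lit 684) (nat_lit 0) (XT.lf (nat_lit 0) (nat_lit 18722243211) (nat_lit 684) (nat_lit 1861017751) (nat_lit 760) (nat_lit 14154424178) (nat_lit 326) (nat_lit 5) (nat_lit 335) (nat_lit 5) (nat_lit 336) (nat_lit 5) (nat_lit 650) (nat_lit 603) (nat_lit 307)) (XT.lf (nat_lit 0) (nat_lit 3668504547) (nat_lit 684) (nat_lit 22257213962) (nat_lit 760) (nat_lit 9209311407) (nat_lit 317) (nat_lit 5) (nat_lit 326) (nat_lit 5) (nat_lit 327) (nat_lit 5) (nat_lit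 651) (nat_lit 603) (nat_lit 306)))))) (XT.nd (nat_lit 77766) (nat_lit 0) (nat_lit 12540) (XT.nd (nat_lit 77454) (nat_lit 0) (nat_lit 12464) (XT.nd (nat_lit 78) (nat_lit 684) (nat_lit 0) (XT.lf (nat_lit 0) (nat_lit 23948649767) (nat_lit 684) (nat_lit 7544314219) (nat_lit 760) (nat_lit 4044998912) (nat_lit 317) (nat_lit 5) (nat_lit 326) (nat_lit 5) (nat_lit 327) (nat_lit 5) (nat_lit 652) (nat_lit 603) (nat_lit 305)) (XT.nd (nat_lit 78) (nat_lit 0) (nat_lit 0) (XT.lf (nat_lit 0) (nat_lit 1310769119) (nat_lit 684) (nat_lit 27205842063) (nat_lit 76) (nat_lit 7430100606) (nat_lit 308) (nat_lit 5) (nat_lit 317) (nat_lit 5) (nat_lit 309) (nat_lit 5) (nat_lit 653) (nat_lit 603) (nat_lit 304)) (XT.lf (nat_lit 0) (nat_lit 6846053753) (nat_lit 684) (nat_lit 6806680123) (nat_lit 76) (nat_lit 22707835840) (nat_lit 308) (nat_lit 5) (nat_lit 317) (nat_lit 5) (nat_lit 309) (nat_lit 5) (nat_lit 654) (nat_lit 603) (nat_lit 303)))) (XT.nd (nat_lit 156) (nat_lit 1824) (nat_lit 0) (XT.nd (nat_lit 78) (nat_lit 0) (nat_lit 0) (XT.lf (nat_lit 0) (nat_lit 5248099112)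 (nat_lit 0) (nat_lit 5248099112) (nat_lit 1748) (nat_lit 267960713) (nat_lit 496) (nat_lit 5) (nat_lit 496) (nat_lit 3) (nat_lit 519) (nat_lit 3) (nat_lit 604) (nat_lit 604) (nat_lit 352)) (XT.lf (nat_lit 0) (nat_lit 21344880462) (nat_lit 1748) (nat_lit 353677514) (nat_lit 1824) (nat_lit 42183018) (nat_lit 496) (nat_lit 5) (nat_lit 519) (nat_lit 3) (nat_lit 520) (nat_lit 5) (nat_lit 605) (nat_lit 604) (nat_lit 351))) (XT.nd (nat_lit 78) (nat_lit 1824) (nat_lit 0) (XT.lf (nat_lit 76) (nat_lit 10605968350) (nat_lit 0) (nat_lit 11233098026) (nat_lit 1824) (nat_lit 115653386) (nat_lit 497) (nat_lit 5) (nat_lit 496) (nat_lit 5) (nat_lit 520) (nat_lit 5) (nat_lit 606) (nat_lit 604) (nat_lit 350)) (XT.lf (nat_lit 0) (nat_lit 166631208) (nat_lit 1824) (nat_lit 386439195) (nat_lit 1900) (nat_lit 21619911730) (nat_lit 472) (nat_lit 5) (nat_lit 496) (nat_lit 5) (nat_lit 497) (nat_lit 5) (nat_lit 607) (nat_lit 604) (nat_lit 349))))) (XT.nd (nat_lit 312) (nat_lit 0) (nat_lit 152) (XT.nd (nat_lit 156) (nat_lit 0) (nat_lit 76) (XT.nd (nat_lit 78) (nat_lit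 0) (nat_lit 0) (XT.lf (nat_lit 0) (nat_lit 588028945) (nat_lit 1824) (nat_lit 11526042349) (nat_lit 1900) (nat_lit 10278823067) (nat_lit 473) (nat_lit 5) (nat_lit 497) (nat_lit 5) (nat_lit 498) (nat_lit 5) (nat_lit 608) (nat_lit 604) (nat_lit 348)) (XT.lf (nat_lit 0) (nat_lit 1020584588) (nat_lit 1824) (nat_lit 272404858) (nat_lit 1900) (nat_lit 21324161004) (nat_lit 473) (nat_lit 5) (nat_lit 497) (nat_lit 5) (nat_lit 498) (nat_lit 5) (nat_lit 609) (nat_lit 604) (nat_lit 347))) (XT.nd (nat_lit 78) (nat_lit 0) (nat_lit 0) (XT.lf (nat_lit 0) (nat_lit 1595796046) (nat_lit 1824) (nat_lit 11555027561) (nat_lit 1900) (nat_lit 9692388168) (nat_lit 474) (nat_lit 5) (nat_lit 498) (nat_lit 5) (nat_lit 499) (nat_lit 5) (nat_lit 610) (nat_lit 604) (nat_lit 346)) (XT.lf (nat_lit 0) (nat_lit 2189505753) (nat_lit 1824) (nat_lit 699836) (nat_lit 1900) (nat_lit 20883449065) (nat_lit 474) (nat_lit 5) (nat_lit 498) (nat_lit 5) (nat_lit 499) (nat_lit 5) (nat_lit 611) (nat_lit 604) (nat_lit 345)))) (XT.nd (nat_lit 156) (nat_lit 0) (nat_lit 76) (XT.nd (nat_lit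 78) (nat_lit 0) (nat_lit 0) (XT.lf (nat_lit 0) (nat_lit 2928154067) (nat_lit 1824) (nat_lit 11426815891) (nat_lit 1900) (nat_lit 8951075348) (nat_lit 475) (nat_lit 5) (nat_lit 499) (nat_lit 5) (nat_lit 500) (nat_lit 5) (nat_lit 612) (nat_lit 604) (nat_lit 344)) (XT.lf (nat_lit 76) (nat_lit 442921512) (nat_lit 0) (nat_lit 3252757934) (nat_lit 1900) (nat_lit 19847122439) (nat_lit 476) (nat_lit 5) (nat_lit 475) (nat_lit 5) (nat_lit 500) (nat_lit 5) (nat_lit 613) (nat_lit 604) (nat_lit 343))) (XT.nd (nat_lit 78) (nat_lit 0) (nat_lit 0) (XT.lf (nat_lit 0) (nat_lit 4604926234) (nat_lit 1824) (nat_lit 11132850864) (nat_lit 1900) (nat_lit 8043989274) (nat_lit 476) (nat_lit 5) (nat_lit 500) (nat_lit 5) (nat_lit 501) (nat_lit 5) (nat_lit 614) (nat_lit 604) (nat_lit 342)) (XT.lf (nat_lit 76) (nat_lit 1063847308) (nat_lit 0) (nat_lit 4493800095) (nat_lit 1900) (nat_lit 18467357149) (nat_lit 477) (nat_lit 5) (nat_lit 476) (nat_lit 5) (nat_lit 501) (nat_lit 5) (nat_lit 615) (nat_lit 604) (nat_lit 341))))))) (XT.nd (nat_lit 1170) (nat_lit 7752) (nat_lit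 0) (XT.nd (nat_lit 546) (nat_lit 1520) (nat_lit 0) (XT.nd (nat_lit 234) (nat_lit 0) (nat_lit 76) (XT.nd (nat_lit 78) (nat_lit 0) (nat_lit 0) (XT.lf (nat_lit 0) (nat_lit 6646807799) (nat_lit 1824) (nat_lit 10664145114) (nat_lit 1900) (nat_lit 6959807072) (nat_lit 477) (nat_lit 5) (nat_lit 501) (nat_lit 5) (nat_lit 502) (nat_lit 5) (nat_lit 616) (nat_lit 604) (nat_lit 340)) (XT.nd (nat_lit 78) (nat_lit 0) (nat_lit 76) (XT.lf (nat_lit 76) (nat_lit 1871495433) (nat_lit 0) (nat_lit 5925124157) (nat_lit 1900) (nat_lit 16724033757) (nat_lit 478) (nat_lit 5) (nat_lit 477) (nat_lit 5) (nat_lit 502) (nat_lit 5) (nat_lit 617) (nat_lit 604) (nat_lit 339)) (XT.lf (nat_lit 0) (nat_lit 9075405582) (nat_lit 1824) (nat_lit 10011264993) (nat_lit 1900) (nat_lit 5686754623) (nat_lit 478) (nat_lit 5) (nat_lit 502) (nat_lit 5) (nat_lit 503) (nat_lit 5) (nat_lit 618) (nat_lit 604) (nat_lit 338)))) (XT.nd (nat_lit 156) (nat_lit 0) (nat_lit 76) (XT.nd (nat_lit 78) (nat_lit 0) (nat_lit 76) (XT.lf (nat_lit 76) (nat_lit 2875755925) (nat_lit 0) (nat_lit 7558989575)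 (nat_lit 1900) (nat_lit 14595407597) (nat_lit 479) (nat_lit 5) (nat_lit 478) (nat_lit 5) (nat_lit 503) (nat_lit 5) (nat_lit 619) (nat_lit 604) (nat_lit 337)) (XT.lf (nat_lit 0) (nat_lit 11913278999) (nat_lit 1824) (nat_lit 9164314464) (nat_lit 1900) (nat_lit 4212582127) (nat_lit 479) (nat_lit 5) (nat_lit 503) (nat_lit 5) (nat_lit 504) (nat_lit 5) (nat_lit 620) (nat_lit 604) (nat_lit 336))) (XT.nd (nat_lit 78) (nat_lit 0) (nat_lit 76) (XT.lf (nat_lit 76) (nat_lit 4086998423) (nat_lit 0) (nat_lit 9408153051) (nat_lit 1900) (nat_lit 12058771862) (nat_lit 480) (nat_lit 5) (nat_lit 479) (nat_lit 5) (nat_lit 504) (nat_lit 5) (nat_lit 621) (nat_lit 604) (nat_lit 335)) (XT.lf (nat_lit 0) (nat_lit 15183982644) (nat_lit 1824) (nat_lit 8112918254) (nat_lit 1900) (nat_lit 2524538882) (nat_lit 480) (nat_lit 5) (nat_lit 504) (nat_lit 5) (nat_lit 505) (nat_lit 5) (nat_lit 622) (nat_lit 604) (nat_lit 334))))) (XT.nd (nat_lit 312) (nat_lit 1748) (nat_lit 0) (XT.nd (nat_lit 156) (nat_lit 0) (nat_lit 76) (XT.nd (nat_lit 78) (nat_lit 0) (nat_lit 76) (XT.lf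 (nat_lit 76) (nat_lit 5516089686) (nat_lit 0) (nat_lit 11485894543) (nat_lit 1900) (nat_lit 9090414609) (nat_lit 481) (nat_lit 5) (nat_lit 480) (nat_lit 5) (nat_lit 505) (nat_lit 5) (nat_lit 623) (nat_lit 604) (nat_lit 333)) (XT.lf (nat_lit 0) (nat_lit 18912110483) (nat_lit 1824) (nat_lit 6846204238) (nat_lit 1900) (nat_lit 609347224) (nat_lit 481) (nat_lit 5) (nat_lit 505) (nat_lit 5) (nat_lit 506) (nat_lit 5) (nat_lit 624) (nat_lit 604) (nat_lit 332))) (XT.nd (nat_lit 78) (nat_lit 0) (nat_lit 0) (XT.lf (nat_lit 76) (nat_lit 7174411886) (nat_lit 0) (nat_lit 13806044140) (nat_lit 1900) (nat_lit 5665574107) (nat_lit 482) (nat_lit 5) (nat_lit 481) (nat_lit 5) (nat_lit 506) (nat_lit 5) (nat_lit 625) (nat_lit 604) (nat_lit 331)) (XT.lf (nat_lit 76) (nat_lit 21566137312) (nat_lit 0) (nat_lit 1567380899) (nat_lit 1900) (nat_lit 3795580635) (nat_lit 482) (nat_lit 5) (nat_lit 481) (nat_lit 5) (nat_lit 506) (nat_lit 5) (nat_lit 626) (nat_lit 604) (nat_lit 330)))) (XT.nd (nat_lit 156) (nat_lit 0) (nat_lit 76) (XT.nd (nat_lit 78) (nat_lit 1900) (nat_lit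 0) (XT.lf (nat_lit 76) (nat_lit 9073881715) (nat_lit 0) (nat_lit 16383009873) (nat_lit 1900) (nat_lit 1758392496) (nat_lit 483) (nat_lit 5) (nat_lit 482) (nat_lit 5) (nat_lit 507) (nat_lit 5) (nat_lit 627) (nat_lit 604) (nat_lit 329)) (XT.lf (nat_lit 0) (nat_lit 359436627) (nat_lit 1900) (nat_lit 3649145674) (nat_lit 1976) (nat_lit 23497687615) (nat_lit 457) (nat_lit 5) (nat_lit 482) (nat_lit 5) (nat_lit 483) (nat_lit 5) (nat_lit 628) (nat_lit 604) (nat_lit 328))) (XT.nd (nat_lit 78) (nat_lit 0) (nat_lit 0) (XT.lf (nat_lit 0) (nat_lit 2623270466) (nat_lit 1900) (nat_lit 16590932505) (nat_lit 76) (nat_lit 8586096317) (nat_lit 458) (nat_lit 5) (nat_lit 483) (nat_lit 5) (nat_lit 459) (nat_lit 5) (nat_lit 629) (nat_lit 604) (nat_lit 327)) (XT.lf (nat_lit 0) (nat_lit 4981145719) (nat_lit 1900) (nat_lit 1714046955) (nat_lit 76) (nat_lit 21404041417) (nat_lit 458) (nat_lit 5) (nat_lit 483) (nat_lit 5) (nat_lit 459) (nat_lit 5) (nat_lit 630) (nat_lit 604) (nat_lit 326)))))) (XT.nd (nat_lit 546) (nat_lit 4104) (nat_lit 0) (XT.nd (nat_lit 234) (nat_lit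 1748) (nat_lit 0) (XT.nd (nat_lit 78) (nat_lit 912) (nat_lit 0) (XT.lf (nat_lit 0) (nat_lit 7512361482) (nat_lit 1140) (nat_lit 14805311932) (nat_lit 76) (nat_lit 6083950653) (nat_lit 444) (nat_lit 5) (nat_lit 459) (nat_lit 5) (nat_lit 445) (nat_lit 5) (nat_lit 631) (nat_lit 604) (nat_lit 325)) (XT.nd (nat_lit 78) (nat_lit 0) (nat_lit 0) (XT.lf (nat_lit 0) (nat_lit 486114893) (nat_lit 912) (nat_lit 9664810905) (nat_lit 988) (nat_lit 18558001693) (nat_lit 432) (nat_lit 5) (nat_lit 444) (nat_lit 5) (nat_lit 445) (nat_lit 5) (nat_lit 632) (nat_lit 604) (nat_lit 324)) (XT.lf (nat_lit 0) (nat_lit 12960998604) (nat_lit 988) (nat_lit 12760191353) (nat_lit 76) (nat_lit 3298812413) (nat_lit 432) (nat_lit 5) (nat_lit 445) (nat_lit 5) (nat_lit 433) (nat_lit 5) (nat_lit 633) (nat_lit 604) (nat_lit 323)))) (XT.nd (nat_lit 156) (nat_lit 836) (nat_lit 0) (XT.nd (nat_lit 78) (nat_lit 0) (nat_lit 0) (XT.lf (nat_lit 0) (nat_lit 2984704065) (nat_lit 912) (nat_lit 12923682635) (nat_lit 988) (nat_lit 13427289898) (nat_lit 420) (nat_lit 5) (nat_lit 432) (nat_lit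 5) (nat_lit 433) (nat_lit 5) (nat_lit 634) (nat_lit 604) (nat_lit 322)) (XT.lf (nat_lit 0) (nat_lit 18999521332) (nat_lit 988) (nat_lit 10442045942) (nat_lit 76) (nat_lit 214401187) (nat_lit 420) (nat_lit 5) (nat_lit 433) (nat_lit 5) (nat_lit 421) (nat_lit 5) (nat_lit 635) (nat_lit 604) (nat_lit 321))) (XT.nd (nat_lit 78) (nat_lit 0) (nat_lit 0) (XT.lf (nat_lit 0) (nat_lit 5773079332) (nat_lit 836) (nat_lit 16500274699) (nat_lit 912) (nat_lit 7706894746) (nat_lit 409) (nat_lit 5) (nat_lit 420) (nat_lit 5) (nat_lit 421) (nat_lit 5) (nat_lit 636) (nat_lit 604) (nat_lit 320)) (XT.lf (nat_lit 0) (nat_lit 22451958136) (nat_lit 836) (nat_lit 3228611721) (nat_lit 912) (nat_lit 4629086833) (nat_lit 409) (nat_lit 5) (nat_lit 420) (nat_lit 5) (nat_lit 421) (nat_lit 5) (nat_lit 637) (nat_lit 604) (nat_lit 319))))) (XT.nd (nat_lit 312) (nat_lit 2356) (nat_lit 0) (XT.nd (nat_lit 156) (nat_lit 836) (nat_lit 0) (XT.nd (nat_lit 78) (nat_lit 76) (nat_lit 0) (XT.lf (nat_lit 0) (nat_lit 8866015997) (nat_lit 836) (nat_lit 20412285338) (nat_lit 912) (nat_lit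 1364904120) (nat_lit 398) (nat_lit 5) (nat_lit 409) (nat_lit 5) (nat_lit 410) (nat_lit 5) (nat_lit 638) (nat_lit 604) (nat_lit 318)) (XT.lf (nat_lit 0) (nat_lit 2011148559) (nat_lit 912) (nat_lit 4988248547) (nat_lit 76) (nat_lit 23982326060) (nat_lit 397) (nat_lit 5) (nat_lit 409) (nat_lit 5) (nat_lit 398) (nat_lit 5) (nat_lit 639) (nat_lit 604) (nat_lit 317))) (XT.nd (nat_lit 78) (nat_lit 0) (nat_lit 0) (XT.lf (nat_lit 0) (nat_lit 5558139132) (nat_lit 912) (nat_lit 19082743763) (nat_lit 76) (nat_lit 6683514148) (nat_lit 386) (nat_lit 5) (nat_lit 398) (nat_lit 5) (nat_lit 387) (nat_lit 5) (nat_lit 640) (nat_lit 604) (nat_lit 316)) (XT.lf (nat_lit 0) (nat_lit 9254078885) (nat_lit 912) (nat_lit 1838155854) (nat_lit 76) (nat_lit 20580129582) (nat_lit 386) (nat_lit 5) (nat_lit 398) (nat_lit 5) (nat_lit 387) (nat_lit 5) (nat_lit 641) (nat_lit 604) (nat_lit 315)))) (XT.nd (nat_lit 156) (nat_lit 760) (nat_lit 0) (XT.nd (nat_lit 78) (nat_lit 760) (nat_lit 0) (XT.lf (nat_lit 0) (nat_lit 13143945157) (nat_lit 912) (nat_lit 16085083993) (nat_lit 76)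 (nat_lit 2795861747) (nat_lit 375) (nat_lit 5) (nat_lit 387) (nat_lit 5) (nat_lit 376) (nat_lit 5) (nat_lit 642) (nat_lit 604) (nat_lit 314)) (XT.lf (nat_lit 0) (nat_lit 1660177301) (nat_lit 760) (nat_lit 15546111418) (nat_lit 836) (nat_lit 15176285790) (nat_lit 365) (nat_lit 5) (nat_lit 375) (nat_lit 5) (nat_lit 376) (nat_lit 5) (nat_lit 643) (nat_lit 604) (nat_lit 313))) (XT.nd (nat_lit 78) (nat_lit 760) (nat_lit 0) (XT.lf (nat_lit 0) (nat_lit 19976314729) (nat_lit 760) (nat_lit 1479554900) (nat_lit 836) (nat_lit 11289422460) (nat_lit 365) (nat_lit 5) (nat_lit 375) (nat_lit 5) (nat_lit 376) (nat_lit 5) (nat_lit 644) (nat_lit 604) (nat_lit 312)) (XT.lf (nat_lit 0) (nat_lit 5530430034) (nat_lit 760) (nat_lit 20377557655) (nat_lit 836) (nat_lit 7204925521) (nat_lit 355) (nat_lit 5) (nat_lit 365) (nat_lit 5) (nat_lit 366) (nat_lit 5) (nat_lit 645) (nat_lit 604) (nat_lit 311))))))))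
noncomputable def xc112 : XT := (XT.nd (nat_lit 79560) (nat_lit 0) (nat_lit 684) (XT.nd (nat_lit 78390) (nat_lit 0) (nat_lit 12540) (XT.nd (nat_lit 546) (nat_lit 684) (nat_lit 0) (XT.nd (nat_lit 234) (nat_lit 2128) (nat_lit 0) (XT.nd (nat_lit 78) (nat_lit 760) (nat_lit 0) (XT.lf (nat_lit 0) (nat_lit 24356933729) (nat_lit 760) (nat_lit 6185747583) (nat_lit 836) (nat_lit 2943334878) (nat_lit 355) (nat_lit 5) (nat_lit 365) (nat_lit 5) (nat_lit 366) (nat_lit 5) (nat_lit 646) (nat_lit 604) (nat_lit 310)) (XT.nd (nat_lit 78) (nat_lit 0) (nat_lit 0) (XT.lf (nat_lit 0) (nat_lit 1501221509) (nat_lit 760) (nat_lit 24108555947) (nat_lit 76) (nat_lit 8254298802) (nat_lit 345) (nat_lit 5) (nat_lit 355) (nat_lit 5) (nat_lit 346) (nat_lit 5) (nat_lit 647) (nat_lit 604) (nat_lit 309)) (XT.lf (nat_lit 0) (nat_lit 6096086076) (nat_lit 760) (nat_lit 5169830318) (nat_lit 76) (nat_lit 22981375552) (nat_lit 345) (nat_lit 5) (nat_lit 355) (nat_lit 5) (nat_lit 346) (nat_lit 5) (nat_lit 648) (nat_lit 604) (nat_lit 308)))) (XT.nd (nat_lit 156) (nat_lit 1368) (nat_lit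 0) (XT.nd (nat_lit 78) (nat_lit 0) (nat_lit 0) (XT.lf (nat_lit 0) (nat_lit 10896568719) (nat_lit 836) (nat_lit 20325167071) (nat_lit 76) (nat_lit 3414161834) (nat_lit 335) (nat_lit 5) (nat_lit 346) (nat_lit 5) (nat_lit 336) (nat_lit 5) (nat_lit 649) (nat_lit 604) (nat_lit 307)) (XT.lf (nat_lit 0) (nat_lit 15900808384) (nat_lit 836) (nat_lit 857476736) (nat_lit 76) (nat_lit 18271835437) (nat_lit 335) (nat_lit 5) (nat_lit 346) (nat_lit 5) (nat_lit 336) (nat_lit 5) (nat_lit 650) (nat_lit 604) (nat_lit 306))) (XT.nd (nat_lit 78) (nat_lit 684) (nat_lit 0) (XT.lf (nat_lit 0) (nat_lit 19250037309) (nat_lit 684) (nat_lit 1878331130) (nat_lit 760) (nat_lit 14301394886) (nat_lit 326) (nat_lit 5) (nat_lit 335) (nat_lit 5) (nat_lit 336) (nat_lit 5) (nat_lit 651) (nat_lit 604) (nat_lit 305)) (XT.lf (nat_lit 0) (nat_lit 3896744512) (nat_lit 684) (nat_lit 22679446343) (nat_lit 760) (nat_lit 9258893958) (nat_lit 317) (nat_lit 5) (nat_lit 326) (nat_lit 5) (nat_lit 327) (nat_lit 5) (nat_lit 652) (nat_lit 604) (nat_lit 304))))) (XT.nd (nat_lit 77532) (nat_lit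 0) (nat_lit 12464) (XT.nd (nat_lit 78) (nat_lit 684) (nat_lit 0) (XT.lf (nat_lit 0) (nat_lit 24579455972) (nat_lit 684) (nat_lit 7672737859) (nat_lit 760) (nat_lit 3993934501) (nat_lit 317) (nat_lit 5) (nat_lit 326) (nat_lit 5) (nat_lit 327) (nat_lit 5) (nat_lit 653) (nat_lit 604) (nat_lit 303)) (XT.nd (nat_lit 77376) (nat_lit 0) (nat_lit 14288) (XT.lf (nat_lit 0) (nat_lit 1465810179) (nat_lit 684) (nat_lit 27594974532) (nat_lit 76) (nat_lit 7602278637) (nat_lit 308) (nat_lit 5) (nat_lit 317) (nat_lit 5) (nat_lit 309) (nat_lit 5) (nat_lit 654) (nat_lit 604) (nat_lit 302)) (XT.lf (nat_lit 0) (nat_lit 5423740462) (nat_lit 0) (nat_lit 5423740462) (nat_lit 1748) (nat_lit 129125215) (nat_lit 496) (nat_lit 5) (nat_lit 496) (nat_lit 3) (nat_lit 519) (nat_lit 3) (nat_lit 605) (nat_lit 605) (nat_lit 350)))) (XT.nd (nat_lit 156) (nat_lit 0) (nat_lit 0) (XT.nd (nat_lit 78) (nat_lit 1824) (nat_lit 0) (XT.lf (nat_lit 0) (nat_lit 21953680477) (nat_lit 0) (nat_lit 94988514) (nat_lit 1748) (nat_lit 121331744) (nat_lit 496) (nat_lit 5) (nat_lit 496) (nat_lit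 3) (nat_lit 519) (nat_lit 3) (nat_lit 606) (nat_lit 605) (nat_lit 349)) (XT.lf (nat_lit 0) (nat_lit 157189948) (nat_lit 1824) (nat_lit 11427214536) (nat_lit 1900) (nat_lit 10803936216) (nat_lit 472) (nat_lit 5) (nat_lit 496) (nat_lit 5) (nat_lit 497) (nat_lit 5) (nat_lit 607) (nat_lit 605) (nat_lit 348))) (XT.nd (nat_lit 78) (nat_lit 0) (nat_lit 76) (XT.lf (nat_lit 0) (nat_lit 438208196) (nat_lit 1824) (nat_lit 249318972) (nat_lit 1900) (nat_lit 21923533456) (nat_lit 472) (nat_lit 5) (nat_lit 496) (nat_lit 5) (nat_lit 497) (nat_lit 5) (nat_lit 608) (nat_lit 605) (nat_lit 347)) (XT.lf (nat_lit 0) (nat_lit 862929195) (nat_lit 1824) (nat_lit 11606593549) (nat_lit 1900) (nat_lit 10365950765) (nat_lit 473) (nat_lit 5) (nat_lit 497) (nat_lit 5) (nat_lit 498) (nat_lit 5) (nat_lit 609) (nat_lit 605) (nat_lit 346)))))) (XT.nd (nat_lit 546) (nat_lit 0) (nat_lit 304) (XT.nd (nat_lit 234) (nat_lit 0) (nat_lit 152) (XT.nd (nat_lit 78) (nat_lit 0) (nat_lit 76) (XT.lf (nat_lit 0) (nat_lit 1298976349) (nat_lit 1824) (nat_lit 130823889) (nat_lit 1900) (nat_lit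 21634517985) (nat_lit 473) (nat_lit 5) (nat_lit 497) (nat_lit 5) (nat_lit 498) (nat_lit 5) (nat_lit 610) (nat_lit 605) (nat_lit 345)) (XT.nd (nat_lit 78) (nat_lit 0) (nat_lit 0) (XT.lf (nat_lit 0) (nat_lit 1880881972) (nat_lit 1824) (nat_lit 11634273655) (nat_lit 1900) (nat_lit 9779841657) (nat_lit 474) (nat_lit 5) (nat_lit 498) (nat_lit 5) (nat_lit 499) (nat_lit 5) (nat_lit 611) (nat_lit 605) (nat_lit 344)) (XT.lf (nat_lit 76) (nat_lit 150132095) (nat_lit 0) (nat_lit 2332344417) (nat_lit 1900) (nat_lit 21047652597) (nat_lit 475) (nat_lit 5) (nat_lit 474) (nat_lit 5) (nat_lit 499) (nat_lit 5) (nat_lit 612) (nat_lit 605) (nat_lit 343)))) (XT.nd (nat_lit 156) (nat_lit 0) (nat_lit 76) (XT.nd (nat_lit 78) (nat_lit 0) (nat_lit 0) (XT.lf (nat_lit 0) (nat_lit 3230390596) (nat_lit 1824) (nat_lit 11501928119) (nat_lit 1900) (nat_lit 9034959295) (nat_lit 475) (nat_lit 5) (nat_lit 499) (nat_lit 5) (nat_lit 500) (nat_lit 5) (nat_lit 613) (nat_lit 605) (nat_lit 342)) (XT.lf (nat_lit 76) (nat_lit 604194663) (nat_lit 0) (nat_lit 3405283487) (nat_lit 1900)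 (nat_lit 19999367627) (nat_lit 476) (nat_lit 5) (nat_lit 475) (nat_lit 5) (nat_lit 500) (nat_lit 5) (nat_lit 614) (nat_lit 605) (nat_lit 341))) (XT.nd (nat_lit 78) (nat_lit 0) (nat_lit 0) (XT.lf (nat_lit 0) (nat_lit 4931649464) (nat_lit 1824) (nat_lit 11200807115) (nat_lit 1900) (nat_lit 8120238467) (nat_lit 476) (nat_lit 5) (nat_lit 500) (nat_lit 5) (nat_lit 501) (nat_lit 5) (nat_lit 615) (nat_lit 605) (nat_lit 340)) (XT.lf (nat_lit 76) (nat_lit 1238807252) (nat_lit 0) (nat_lit 4661015131) (nat_lit 1900) (nat_lit 18601047937) (nat_lit 477) (nat_lit 5) (nat_lit 476) (nat_lit 5) (nat_lit 501) (nat_lit 5) (nat_lit 616) (nat_lit 605) (nat_lit 339))))) (XT.nd (nat_lit 312) (nat_lit 0) (nat_lit 152) (XT.nd (nat_lit 156) (nat_lit 0) (nat_lit 76) (XT.nd (nat_lit 78) (nat_lit 0) (nat_lit 0) (XT.lf (nat_lit 0) (nat_lit 7005743854) (nat_lit 1824) (nat_lit 10721722666) (nat_lit 1900) (nat_lit 7024175058) (nat_lit 477) (nat_lit 5) (nat_lit 501) (nat_lit 5) (nat_lit 502) (nat_lit 5) (nat_lit 617) (nat_lit 605) (nat_lit 338)) (XT.lf (nat_lit 76) (nat_lit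 2063606315) (nat_lit 0) (nat_lit 6111518486) (nat_lit 1900) (nat_lit 16831476814) (nat_lit 478) (nat_lit 5) (nat_lit 477) (nat_lit 5) (nat_lit 502) (nat_lit 5) (nat_lit 618) (nat_lit 605) (nat_lit 337))) (XT.nd (nat_lit 78) (nat_lit 0) (nat_lit 0) (XT.lf (nat_lit 0) (nat_lit 9474690184) (nat_lit 1824) (nat_lit 10055032870) (nat_lit 1900) (nat_lit 5734802036) (nat_lit 478) (nat_lit 5) (nat_lit 502) (nat_lit 5) (nat_lit 503) (nat_lit 5) (nat_lit 619) (nat_lit 605) (nat_lit 336)) (XT.lf (nat_lit 76) (nat_lit 3088699141) (nat_lit 0) (nat_lit 7769256774) (nat_lit 1900) (nat_lit 14668497108) (nat_lit 479) (nat_lit 5) (nat_lit 478) (nat_lit 5) (nat_lit 503) (nat_lit 5) (nat_lit 620) (nat_lit 605) (nat_lit 335)))) (XT.nd (nat_lit 156) (nat_lit 0) (nat_lit 76) (XT.nd (nat_lit 78) (nat_lit 0) (nat_lit 0) (XT.lf (nat_lit 0) (nat_lit 12361477785) (nat_lit 1824) (nat_lit 9190625394) (nat_lit 1900) (nat_lit 4239664685) (nat_lit 479) (nat_lit 5) (nat_lit 503) (nat_lit 5) (nat_lit 504) (nat_lit 5) (nat_lit 621) (nat_lit 605) (nat_lit 334)) (XT.lf (nat_lit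 76) (nat_lit 4324681019) (nat_lit 0) (nat_lit 9647202837) (nat_lit 1900) (nat_lit 12088969033) (nat_lit 480) (nat_lit 5) (nat_lit 479) (nat_lit 5) (nat_lit 504) (nat_lit 5) (nat_lit 622) (nat_lit 605) (nat_lit 333))) (XT.nd (nat_lit 78) (nat_lit 0) (nat_lit 0) (XT.lf (nat_lit 0) (nat_lit 15690112260) (nat_lit 1824) (nat_lit 8117900215) (nat_lit 1900) (nat_lit 2525795016) (nat_lit 480) (nat_lit 5) (nat_lit 504) (nat_lit 5) (nat_lit 505) (nat_lit 5) (nat_lit 623) (nat_lit 605) (nat_lit 332)) (XT.lf (nat_lit 76) (nat_lit 5782653170) (nat_lit 0) (nat_lit 11758865524) (nat_lit 1900) (nat_lit 9068726377) (nat_lit 481) (nat_lit 5) (nat_lit 480) (nat_lit 5) (nat_lit 505) (nat_lit 5) (nat_lit 624) (nat_lit 605) (nat_lit 331))))))) (XT.nd (nat_lit 1170) (nat_lit 6156) (nat_lit 0) (XT.nd (nat_lit 546) (nat_lit 4484) (nat_lit 0) (XT.nd (nat_lit 234) (nat_lit 1824) (nat_lit 0) (XT.nd (nat_lit 78) (nat_lit 0) (nat_lit 0) (XT.lf (nat_lit 0) (nat_lit 19485660489) (nat_lit 1824) (nat_lit 6825751595) (nat_lit 1900) (nat_lit 579685327) (nat_lit 481) (nat_lit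 5) (nat_lit 505) (nat_lit 5) (nat_lit 506) (nat_lit 5) (nat_lit 625) (nat_lit 605) (nat_lit 330)) (XT.nd (nat_lit 78) (nat_lit 0) (nat_lit 0) (XT.lf (nat_lit 76) (nat_lit 7474241478) (nat_lit 0) (nat_lit 14118316973) (nat_lit 1900) (nat_lit 5582531031) (nat_lit 482) (nat_lit 5) (nat_lit 481) (nat_lit 5) (nat_lit 506) (nat_lit 5) (nat_lit 626) (nat_lit 605) (nat_lit 329)) (XT.lf (nat_lit 76) (nat_lit 22150735896) (nat_lit 0) (nat_lit 1634171605) (nat_lit 1900) (nat_lit 3678987779) (nat_lit 482) (nat_lit 5) (nat_lit 481) (nat_lit 5) (nat_lit 506) (nat_lit 5) (nat_lit 627) (nat_lit 605) (nat_lit 328)))) (XT.nd (nat_lit 156) (nat_lit 0) (nat_lit 76) (XT.nd (nat_lit 78) (nat_lit 1900) (nat_lit 0) (XT.lf (nat_lit 76) (nat_lit 9411616037) (nat_lit 0) (nat_lit 16740220851) (nat_lit 1900) (nat_lit 1604025782) (nat_lit 483) (nat_lit 5) (nat_lit 482) (nat_lit 5) (nat_lit 507) (nat_lit 5) (nat_lit 628) (nat_lit 605) (nat_lit 327)) (XT.lf (nat_lit 0) (nat_lit 550006520) (nat_lit 1900) (nat_lit 3566488196) (nat_lit 1976) (nat_lit 23936222455) (nat_lit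 457) (nat_lit 5) (nat_lit 482) (nat_lit 5) (nat_lit 483) (nat_lit 5) (nat_lit 629) (nat_lit 605) (nat_lit 326))) (XT.nd (nat_lit 78) (nat_lit 0) (nat_lit 0) (XT.lf (nat_lit 0) (nat_lit 2856355268) (nat_lit 1900) (nat_lit 16764338681) (nat_lit 76) (nat_lit 8731988623) (nat_lit 458) (nat_lit 5) (nat_lit 483) (nat_lit 5) (nat_lit 459) (nat_lit 5) (nat_lit 630) (nat_lit 605) (nat_lit 325)) (XT.lf (nat_lit 0) (nat_lit 5257846469) (nat_lit 1900) (nat_lit 1593021546) (nat_lit 76) (nat_lit 21806799089) (nat_lit 458) (nat_lit 5) (nat_lit 483) (nat_lit 5) (nat_lit 459) (nat_lit 5) (nat_lit 631) (nat_lit 605) (nat_lit 324))))) (XT.nd (nat_lit 312) (nat_lit 1672) (nat_lit 0) (XT.nd (nat_lit 156) (nat_lit 912) (nat_lit 0) (XT.nd (nat_lit 78) (nat_lit 912) (nat_lit 0) (XT.lf (nat_lit 0) (nat_lit 7837084201) (nat_lit 1140) (nat_lit 14943499564) (nat_lit 76) (nat_lit 6185573360) (nat_lit 444) (nat_lit 5) (nat_lit 459) (nat_lit 5) (nat_lit 445) (nat_lit 5) (nat_lit 632) (nat_lit 605) (nat_lit 323)) (XT.lf (nat_lit 0) (nat_lit 652716860) (nat_lit 912) (nat_lit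 9873300423) (nat_lit 988) (nat_lit 18753637579) (nat_lit 432) (nat_lit 5) (nat_lit 444) (nat_lit 5) (nat_lit 445) (nat_lit 5) (nat_lit 633) (nat_lit 605) (nat_lit 322))) (XT.nd (nat_lit 78) (nat_lit 912) (nat_lit 0) (XT.lf (nat_lit 0) (nat_lit 13388820854) (nat_lit 988) (nat_lit 12858111363) (nat_lit 76) (nat_lit 3350088625) (nat_lit 432) (nat_lit 5) (nat_lit 445) (nat_lit 5) (nat_lit 433) (nat_lit 5) (nat_lit 634) (nat_lit 605) (nat_lit 321)) (XT.lf (nat_lit 0) (nat_lit 3200647201) (nat_lit 912) (nat_lit 13192218056) (nat_lit 988) (nat_lit 13526189314) (nat_lit 420) (nat_lit 5) (nat_lit 432) (nat_lit 5) (nat_lit 433) (nat_lit 5) (nat_lit 635) (nat_lit 605) (nat_lit 320)))) (XT.nd (nat_lit 156) (nat_lit 836) (nat_lit 0) (XT.nd (nat_lit 78) (nat_lit 836) (nat_lit 0) (XT.lf (nat_lit 0) (nat_lit 19542497539) (nat_lit 988) (nat_lit 10494367310) (nat_lit 76) (nat_lit 208954106) (nat_lit 420) (nat_lit 5) (nat_lit 433) (nat_lit 5) (nat_lit 421) (nat_lit 5) (nat_lit 636) (nat_lit 605) (nat_lit 319)) (XT.lf (nat_lit 0) (nat_lit 6044030735) (nat_lit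 836) (nat_lit 16835589900) (nat_lit 912) (nat_lit 7697008148) (nat_lit 409) (nat_lit 5) (nat_lit 420) (nat_lit 5) (nat_lit 421) (nat_lit 5) (nat_lit 637) (nat_lit 605) (nat_lit 318))) (XT.nd (nat_lit 78) (nat_lit 836) (nat_lit 0) (XT.lf (nat_lit 0) (nat_lit 23053438296) (nat_lit 836) (nat_lit 3298389551) (nat_lit 912) (nat_lit 4560860243) (nat_lit 409) (nat_lit 5) (nat_lit 420) (nat_lit 5) (nat_lit 421) (nat_lit 5) (nat_lit 638) (nat_lit 605) (nat_lit 317)) (XT.lf (nat_lit 0) (nat_lit 9197948922) (nat_lit 836) (nat_lit 20821444634) (nat_lit 912) (nat_lit 1233556854) (nat_lit 398) (nat_lit 5) (nat_lit 409) (nat_lit 5) (nat_lit 410) (nat_lit 5) (nat_lit 639) (nat_lit 605) (nat_lit 316)))))) (XT.nd (nat_lit 546) (nat_lit 2888) (nat_lit 0) (XT.nd (nat_lit 234) (nat_lit 2356) (nat_lit 0) (XT.nd (nat_lit 78) (nat_lit 836) (nat_lit 0) (XT.lf (nat_lit 0) (nat_lit 2204866320) (nat_lit 912) (nat_lit 4934384372) (nat_lit 76) (nat_lit 24459028745) (nat_lit 397) (nat_lit 5) (nat_lit 409) (nat_lit 5) (nat_lit 398) (nat_lit 5) (nat_lit 640) (nat_lit 605)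 (nat_lit 315)) (XT.nd (nat_lit 78) (nat_lit 0) (nat_lit 0) (XT.lf (nat_lit 0) (nat_lit 5820785322) (nat_lit 912) (nat_lit 19308749975) (nat_lit 76) (nat_lit 6818311887) (nat_lit 386) (nat_lit 5) (nat_lit 398) (nat_lit 5) (nat_lit 387) (nat_lit 5) (nat_lit 641) (nat_lit 605) (nat_lit 314)) (XT.lf (nat_lit 0) (nat_lit 9587673606) (nat_lit 912) (nat_lit 1722322242) (nat_lit 76) (nat_lit 20992837522) (nat_lit 386) (nat_lit 5) (nat_lit 398) (nat_lit 5) (nat_lit 387) (nat_lit 5) (nat_lit 642) (nat_lit 605) (nat_lit 313)))) (XT.nd (nat_lit 156) (nat_lit 760) (nat_lit 0) (XT.nd (nat_lit 78) (nat_lit 760) (nat_lit 0) (XT.lf (nat_lit 0) (nat_lit 13553441934) (nat_lit 912) (nat_lit 16252285857) (nat_lit 76) (nat_lit 2856720750) (nat_lit 375) (nat_lit 5) (nat_lit 387) (nat_lit 5) (nat_lit 376) (nat_lit 5) (nat_lit 643) (nat_lit 605) (nat_lit 312)) (XT.lf (nat_lit 0) (nat_lit 1846864217) (nat_lit 760) (nat_lit 15848289807) (nat_lit 836) (nat_lit 15332169522) (nat_lit 365) (nat_lit 5) (nat_lit 375) (nat_lit 5) (nat_lit 376) (nat_lit 5) (nat_lit 644) (nat_lit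 605) (nat_lit 311))) (XT.nd (nat_lit 78) (nat_lit 760) (nat_lit 0) (XT.lf (nat_lit 0) (nat_lit 20526314916) (nat_lit 760) (nat_lit 1500573606) (nat_lit 836) (nat_lit 11370463866) (nat_lit 365) (nat_lit 5) (nat_lit 375) (nat_lit 5) (nat_lit 376) (nat_lit 5) (nat_lit 645) (nat_lit 605) (nat_lit 310)) (XT.lf (nat_lit 0) (nat_lit 5793294098) (nat_lit 760) (nat_lit 20773015572) (nat_lit 836) (nat_lit 7206051194) (nat_lit 355) (nat_lit 5) (nat_lit 365) (nat_lit 5) (nat_lit 366) (nat_lit 5) (nat_lit 646) (nat_lit 605) (nat_lit 309))))) (XT.nd (nat_lit 312) (nat_lit 1368) (nat_lit 0) (XT.nd (nat_lit 156) (nat_lit 760) (nat_lit 0) (XT.nd (nat_lit 78) (nat_lit 760) (nat_lit 0) (XT.lf (nat_lit 0) (nat_lit 24993342466) (nat_lit 760) (nat_lit 6297606421) (nat_lit 836) (nat_lit 2862032127) (nat_lit 355) (nat_lit 5) (nat_lit 365) (nat_lit 5) (nat_lit 366) (nat_lit 5) (nat_lit 647) (nat_lit 605) (nat_lit 308)) (XT.lf (nat_lit 0) (nat_lit 1667927185) (nat_lit 760) (nat_lit 24437954779) (nat_lit 76) (nat_lit 8432735253) (nat_lit 345) (nat_lit 5) (nat_lit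 355) (nat_lit 5) (nat_lit 346) (nat_lit 5) (nat_lit 648) (nat_lit 605) (nat_lit 307))) (XT.nd (nat_lit 78) (nat_lit 760) (nat_lit 0) (XT.lf (nat_lit 0) (nat_lit 6352009019) (nat_lit 760) (nat_lit 5123450173) (nat_lit 76) (nat_lit 23454091763) (nat_lit 345) (nat_lit 5) (nat_lit 355) (nat_lit 5) (nat_lit 346) (nat_lit 5) (nat_lit 649) (nat_lit 605) (nat_lit 306)) (XT.lf (nat_lit 0) (nat_lit 11246946707) (nat_lit 836) (nat_lit 20580332380) (nat_lit 76) (nat_lit 3498680885) (nat_lit 335) (nat_lit 5) (nat_lit 346) (nat_lit 5) (nat_lit 336) (nat_lit 5) (nat_lit 650) (nat_lit 605) (nat_lit 305)))) (XT.nd (nat_lit 156) (nat_lit 684) (nat_lit 0) (XT.nd (nat_lit 78) (nat_lit 684) (nat_lit 0) (XT.lf (nat_lit 0) (nat_lit 16348674173) (nat_lit 836) (nat_lit 726255651) (nat_lit 76) (nat_lit 18653189611) (nat_lit 335) (nat_lit 5) (nat_lit 346) (nat_lit 5) (nat_lit 336) (nat_lit 5) (nat_lit 651) (nat_lit 605) (nat_lit 304)) (XT.lf (nat_lit 0) (nat_lit 19782432552) (nat_lit 684) (nat_lit 1896763789) (nat_lit 760) (nat_lit 14456590628) (nat_lit 326) (nat_lit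 5) (nat_lit 335) (nat_lit 5) (nat_lit 336) (nat_lit 5) (nat_lit 652) (nat_lit 605) (nat_lit 303))) (XT.nd (nat_lit 78) (nat_lit 0) (nat_lit 0) (XT.lf (nat_lit 0) (nat_lit 4123535490) (nat_lit 684) (nat_lit 23111013070) (nat_lit 760) (nat_lit 9314694985) (nat_lit 317) (nat_lit 5) (nat_lit 326) (nat_lit 5) (nat_lit 327) (nat_lit 5) (nat_lit 653) (nat_lit 605) (nat_lit 302)) (XT.lf (nat_lit 0) (nat_lit 25216982433) (nat_lit 684) (nat_lit 7804602223) (nat_lit 760) (nat_lit 3946973140) (nat_lit 317) (nat_lit 5) (nat_lit 326) (nat_lit 5) (nat_lit 327) (nat_lit 5) (nat_lit 654) (nat_lit 605) (nat_lit 301))))))))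
noncomputable def xc113 : XT := (XT.nd (nat_lit 2340) (nat_lit 8740) (nat_lit 0) (XT.nd (nat_lit 1170) (nat_lit 2964) (nat_lit 0) (XT.nd (nat_lit 546) (nat_lit 0) (nat_lit 228) (XT.nd (nat_lit 234) (nat_lit 0) (nat_lit 76) (XT.nd (nat_lit 78) (nat_lit 0) (nat_lit 0) (XT.lf (nat_lit 0) (nat_lit 6797403) (nat_lit 1900) (nat_lit 5593307056) (nat_lit 1900) (nat_lit 5593307056) (nat_lit 471) (nat_lit 3) (nat_lit 496) (nat_lit 3) (nat_lit 496) (nat_lit 5) (nat_lit 606) (nat_lit 606) (nat_lit 348)) (XT.nd (nat_lit 78) (nat_lit 0) (nat_lit 76) (XT.lf (nat_lit 0) (nat_lit 146056405) (nat_lit 1900) (nat_lit 83057258) (nat_lit 1900) (nat_lit 22378923059) (nat_lit 471) (nat_lit 3) (nat_lit 496) (nat_lit 3) (nat_lit 496) (nat_lit 5) (nat_lit 607) (nat_lit 606) (nat_lit 347)) (XT.lf (nat_lit 0) (nat_lit 423318418) (nat_lit 1824) (nat_lit 11513749996) (nat_lit 1900) (nat_lit 10893763461) (nat_lit 472) (nat_lit 5) (nat_lit 496) (nat_lit 5) (nat_lit 497) (nat_lit 5) (nat_lit 608) (nat_lit 606) (nat_lit 346)))) (XT.nd (nat_lit 156) (nat_lit 0) (nat_lit 76)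 (XT.nd (nat_lit 78) (nat_lit 0) (nat_lit 76) (XT.lf (nat_lit 0) (nat_lit 704800468) (nat_lit 1824) (nat_lit 115081007) (nat_lit 1900) (nat_lit 22238228165) (nat_lit 472) (nat_lit 5) (nat_lit 496) (nat_lit 5) (nat_lit 497) (nat_lit 5) (nat_lit 609) (nat_lit 606) (nat_lit 345)) (XT.lf (nat_lit 0) (nat_lit 1133109416) (nat_lit 1824) (nat_lit 11694579278) (nat_lit 1900) (nat_lit 10459420526) (nat_lit 473) (nat_lit 5) (nat_lit 497) (nat_lit 5) (nat_lit 498) (nat_lit 5) (nat_lit 610) (nat_lit 606) (nat_lit 344))) (XT.nd (nat_lit 78) (nat_lit 0) (nat_lit 76) (XT.lf (nat_lit 76) (nat_lit 7984092) (nat_lit 0) (nat_lit 1564986011) (nat_lit 1900) (nat_lit 21947659174) (nat_lit 474) (nat_lit 5) (nat_lit 473) (nat_lit 5) (nat_lit 498) (nat_lit 5) (nat_lit 611) (nat_lit 606) (nat_lit 343)) (XT.lf (nat_lit 0) (nat_lit 2161838716) (nat_lit 1824) (nat_lit 11721001364) (nat_lit 1900) (nat_lit 9873175636) (nat_lit 474) (nat_lit 5) (nat_lit 498) (nat_lit 5) (nat_lit 499) (nat_lit 5) (nat_lit 612) (nat_lit 606) (nat_lit 342))))) (XT.nd (nat_lit 312) (nat_lit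 0) (nat_lit 152) (XT.nd (nat_lit 156) (nat_lit 0) (nat_lit 76) (XT.nd (nat_lit 78) (nat_lit 0) (nat_lit 76) (XT.lf (nat_lit 76) (nat_lit 298132252) (nat_lit 0) (nat_lit 2473502959) (nat_lit 1900) (nat_lit 21224291852) (nat_lit 475) (nat_lit 5) (nat_lit 474) (nat_lit 5) (nat_lit 499) (nat_lit 5) (nat_lit 613) (nat_lit 606) (nat_lit 341)) (XT.lf (nat_lit 0) (nat_lit 3529209719) (nat_lit 1824) (nat_lit 11584500236) (nat_lit 1900) (nat_lit 9124215229) (nat_lit 475) (nat_lit 5) (nat_lit 499) (nat_lit 5) (nat_lit 500) (nat_lit 5) (nat_lit 614) (nat_lit 606) (nat_lit 340))) (XT.nd (nat_lit 78) (nat_lit 0) (nat_lit 76) (XT.lf (nat_lit 76) (nat_lit 762774827) (nat_lit 0) (nat_lit 3557462969) (nat_lit 1900) (nat_lit 20164159613) (nat_lit 476) (nat_lit 5) (nat_lit 475) (nat_lit 5) (nat_lit 500) (nat_lit 5) (nat_lit 615) (nat_lit 606) (nat_lit 339)) (XT.lf (nat_lit 0) (nat_lit 5255796395) (nat_lit 1824) (nat_lit 11276129711) (nat_lit 1900) (nat_lit 8201298953) (nat_lit 476) (nat_lit 5) (nat_lit 500) (nat_lit 5) (nat_lit 501) (nat_lit 5) (nat_lit 616)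 (nat_lit 606) (nat_lit 338)))) (XT.nd (nat_lit 156) (nat_lit 0) (nat_lit 76) (XT.nd (nat_lit 78) (nat_lit 0) (nat_lit 76) (XT.lf (nat_lit 76) (nat_lit 1411298697) (nat_lit 0) (nat_lit 4828571300) (nat_lit 1900) (nat_lit 18746563364) (nat_lit 477) (nat_lit 5) (nat_lit 476) (nat_lit 5) (nat_lit 501) (nat_lit 5) (nat_lit 617) (nat_lit 606) (nat_lit 337)) (XT.lf (nat_lit 0) (nat_lit 7363082777) (nat_lit 1824) (nat_lit 10786497998) (nat_lit 1900) (nat_lit 7092736071) (nat_lit 477) (nat_lit 5) (nat_lit 501) (nat_lit 5) (nat_lit 502) (nat_lit 5) (nat_lit 618) (nat_lit 606) (nat_lit 336))) (XT.nd (nat_lit 78) (nat_lit 0) (nat_lit 76) (XT.lf (nat_lit 76) (nat_lit 2253552963) (nat_lit 0) (nat_lit 6299004379) (nat_lit 1900) (nat_lit 16949884879) (nat_lit 478) (nat_lit 5) (nat_lit 477) (nat_lit 5) (nat_lit 502) (nat_lit 5) (nat_lit 619) (nat_lit 606) (nat_lit 335)) (XT.lf (nat_lit 0) (nat_lit 9873503951) (nat_lit 1824) (nat_lit 10105751538) (nat_lit 1900) (nat_lit 5786361130) (nat_lit 478) (nat_lit 5) (nat_lit 502) (nat_lit 5) (nat_lit 503) (nat_lit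 5) (nat_lit 620) (nat_lit 606) (nat_lit 334)))))) (XT.nd (nat_lit 546) (nat_lit 3496) (nat_lit 0) (XT.nd (nat_lit 234) (nat_lit 0) (nat_lit 152) (XT.nd (nat_lit 78) (nat_lit 0) (nat_lit 76) (XT.lf (nat_lit 76) (nat_lit 3299865759) (nat_lit 0) (nat_lit 7981434882) (nat_lit 1900) (nat_lit 14751545404) (nat_lit 479) (nat_lit 5) (nat_lit 478) (nat_lit 5) (nat_lit 503) (nat_lit 5) (nat_lit 621) (nat_lit 606) (nat_lit 333)) (XT.nd (nat_lit 78) (nat_lit 0) (nat_lit 0) (XT.lf (nat_lit 0) (nat_lit 12810488585) (nat_lit 1824) (nat_lit 9223558087) (nat_lit 1900) (nat_lit 4269508839) (nat_lit 479) (nat_lit 5) (nat_lit 503) (nat_lit 5) (nat_lit 504) (nat_lit 5) (nat_lit 622) (nat_lit 606) (nat_lit 332)) (XT.lf (nat_lit 76) (nat_lit 4561061824) (nat_lit 0) (nat_lit 9889057625) (nat_lit 1900) (nat_lit 12127962691) (nat_lit 480) (nat_lit 5) (nat_lit 479) (nat_lit 5) (nat_lit 504) (nat_lit 5) (nat_lit 623) (nat_lit 606) (nat_lit 331)))) (XT.nd (nat_lit 156) (nat_lit 0) (nat_lit 76) (XT.nd (nat_lit 78) (nat_lit 0) (nat_lit 0) (XT.lf (nat_lit 0) (nat_lit 16198503089)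 (nat_lit 1824) (nat_lit 8129089050) (nat_lit 1900) (nat_lit 2528988113) (nat_lit 480) (nat_lit 5) (nat_lit 504) (nat_lit 5) (nat_lit 505) (nat_lit 5) (nat_lit 624) (nat_lit 606) (nat_lit 330)) (XT.lf (nat_lit 76) (nat_lit 6048480868) (nat_lit 0) (nat_lit 12035616354) (nat_lit 1900) (nat_lit 9054506398) (nat_lit 481) (nat_lit 5) (nat_lit 480) (nat_lit 5) (nat_lit 505) (nat_lit 5) (nat_lit 625) (nat_lit 606) (nat_lit 329))) (XT.nd (nat_lit 78) (nat_lit 0) (nat_lit 0) (XT.lf (nat_lit 0) (nat_lit 20063097455) (nat_lit 1824) (nat_lit 6811001030) (nat_lit 1900) (nat_lit 551055234) (nat_lit 481) (nat_lit 5) (nat_lit 505) (nat_lit 5) (nat_lit 506) (nat_lit 5) (nat_lit 626) (nat_lit 606) (nat_lit 328)) (XT.lf (nat_lit 76) (nat_lit 7773996736) (nat_lit 0) (nat_lit 14435431437) (nat_lit 1900) (nat_lit 5505451781) (nat_lit 482) (nat_lit 5) (nat_lit 481) (nat_lit 5) (nat_lit 506) (nat_lit 5) (nat_lit 627) (nat_lit 606) (nat_lit 327))))) (XT.nd (nat_lit 312) (nat_lit 1900) (nat_lit 0) (XT.nd (nat_lit 156) (nat_lit 1824) (nat_lit 0) (XT.nd (nat_lit 78)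 (nat_lit 0) (nat_lit 76) (XT.lf (nat_lit 76) (nat_lit 22741074563) (nat_lit 0) (nat_lit 1700921827) (nat_lit 1900) (nat_lit 3567538249) (nat_lit 482) (nat_lit 5) (nat_lit 481) (nat_lit 5) (nat_lit 506) (nat_lit 5) (nat_lit 628) (nat_lit 606) (nat_lit 326)) (XT.lf (nat_lit 76) (nat_lit 9750037409) (nat_lit 0) (nat_lit 17103428555) (nat_lit 1900) (nat_lit 1453931592) (nat_lit 483) (nat_lit 5) (nat_lit 482) (nat_lit 5) (nat_lit 507) (nat_lit 5) (nat_lit 629) (nat_lit 606) (nat_lit 325))) (XT.nd (nat_lit 78) (nat_lit 0) (nat_lit 76) (XT.lf (nat_lit 0) (nat_lit 737266897) (nat_lit 1900) (nat_lit 3488221275) (nat_lit 1976) (nat_lit 24384748025) (nat_lit 457) (nat_lit 5) (nat_lit 482) (nat_lit 5) (nat_lit 483) (nat_lit 5) (nat_lit 630) (nat_lit 606) (nat_lit 324)) (XT.lf (nat_lit 0) (nat_lit 3087088094) (nat_lit 1900) (nat_lit 16947364330) (nat_lit 76) (nat_lit 8881801771) (nat_lit 458) (nat_lit 5) (nat_lit 483) (nat_lit 5) (nat_lit 459) (nat_lit 5) (nat_lit 631) (nat_lit 606) (nat_lit 323)))) (XT.nd (nat_lit 156) (nat_lit 912) (nat_lit 0) (XT.nd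 (nat_lit 78) (nat_lit 1064) (nat_lit 0) (XT.lf (nat_lit 0) (nat_lit 5533205086) (nat_lit 1900) (nat_lit 1475606365) (nat_lit 76) (nat_lit 22218595242) (nat_lit 458) (nat_lit 5) (nat_lit 483) (nat_lit 5) (nat_lit 459) (nat_lit 5) (nat_lit 632) (nat_lit 606) (nat_lit 322)) (XT.lf (nat_lit 0) (nat_lit 8161526279) (nat_lit 1140) (nat_lit 15090583120) (nat_lit 76) (nat_lit 6290007332) (nat_lit 444) (nat_lit 5) (nat_lit 459) (nat_lit 5) (nat_lit 445) (nat_lit 5) (nat_lit 633) (nat_lit 606) (nat_lit 321))) (XT.nd (nat_lit 78) (nat_lit 0) (nat_lit 0) (XT.lf (nat_lit 0) (nat_lit 816559037) (nat_lit 912) (nat_lit 10085369756) (nat_lit 988) (nat_lit 18960002000) (nat_lit 432) (nat_lit 5) (nat_lit 444) (nat_lit 5) (nat_lit 445) (nat_lit 5) (nat_lit 634) (nat_lit 606) (nat_lit 320)) (XT.lf (nat_lit 0) (nat_lit 13818652517) (nat_lit 988) (nat_lit 12964097296) (nat_lit 76) (nat_lit 3402961182) (nat_lit 432) (nat_lit 5) (nat_lit 445) (nat_lit 5) (nat_lit 433) (nat_lit 5) (nat_lit 635) (nat_lit 606) (nat_lit 319))))))) (XT.nd (nat_lit 1170) (nat_lit 2128)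 (nat_lit 0) (XT.nd (nat_lit 546) (nat_lit 3116) (nat_lit 0) (XT.nd (nat_lit 234) (nat_lit 1748) (nat_lit 0) (XT.nd (nat_lit 78) (nat_lit 836) (nat_lit 0) (XT.lf (nat_lit 0) (nat_lit 3414841858) (nat_lit 912) (nat_lit 13465733475) (nat_lit 988) (nat_lit 13633654294) (nat_lit 420) (nat_lit 5) (nat_lit 432) (nat_lit 5) (nat_lit 433) (nat_lit 5) (nat_lit 636) (nat_lit 606) (nat_lit 318)) (XT.nd (nat_lit 78) (nat_lit 836) (nat_lit 0) (XT.lf (nat_lit 0) (nat_lit 20090004333) (nat_lit 988) (nat_lit 10553812951) (nat_lit 76) (nat_lit 203776110) (nat_lit 420) (nat_lit 5) (nat_lit 433) (nat_lit 5) (nat_lit 421) (nat_lit 5) (nat_lit 637) (nat_lit 606) (nat_lit 317)) (XT.lf (nat_lit 0) (nat_lit 6314363307) (nat_lit 836) (nat_lit 17177405223) (nat_lit 912) (nat_lit 7693293088) (nat_lit 409) (nat_lit 5) (nat_lit 420) (nat_lit 5) (nat_lit 421) (nat_lit 5) (nat_lit 638) (nat_lit 606) (nat_lit 316)))) (XT.nd (nat_lit 156) (nat_lit 912) (nat_lit 0) (XT.nd (nat_lit 78) (nat_lit 836) (nat_lit 0) (XT.lf (nat_lit 0) (nat_lit 23661028588) (nat_lit 836) (nat_lit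 3369360797) (nat_lit 912) (nat_lit 4497513504) (nat_lit 409) (nat_lit 5) (nat_lit 420) (nat_lit 5) (nat_lit 421) (nat_lit 5) (nat_lit 639) (nat_lit 606) (nat_lit 315)) (XT.lf (nat_lit 0) (nat_lit 9530516710) (nat_lit 836) (nat_lit 21238751639) (nat_lit 912) (nat_lit 1105743034) (nat_lit 398) (nat_lit 5) (nat_lit 409) (nat_lit 5) (nat_lit 410) (nat_lit 5) (nat_lit 640) (nat_lit 606) (nat_lit 314))) (XT.nd (nat_lit 78) (nat_lit 836) (nat_lit 0) (XT.lf (nat_lit 0) (nat_lit 2396498048) (nat_lit 912) (nat_lit 4885408520) (nat_lit 76) (nat_lit 24945379796) (nat_lit 397) (nat_lit 5) (nat_lit 409) (nat_lit 5) (nat_lit 398) (nat_lit 5) (nat_lit 641) (nat_lit 606) (nat_lit 313)) (XT.lf (nat_lit 0) (nat_lit 6082802149) (nat_lit 912) (nat_lit 19545320338) (nat_lit 76) (nat_lit 6955761800) (nat_lit 386) (nat_lit 5) (nat_lit 398) (nat_lit 5) (nat_lit 387) (nat_lit 5) (nat_lit 642) (nat_lit 606) (nat_lit 312))))) (XT.nd (nat_lit 312) (nat_lit 1520) (nat_lit 0) (XT.nd (nat_lit 156) (nat_lit 760) (nat_lit 0) (XT.nd (nat_lit 78) (nat_lit 836) (nat_lit 0)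 (XT.lf (nat_lit 0) (nat_lit 9922173276) (nat_lit 912) (nat_lit 1610097475) (nat_lit 76) (nat_lit 21413756699) (nat_lit 386) (nat_lit 5) (nat_lit 398) (nat_lit 5) (nat_lit 387) (nat_lit 5) (nat_lit 643) (nat_lit 606) (nat_lit 311)) (XT.lf (nat_lit 0) (nat_lit 13965435295) (nat_lit 912) (nat_lit 16428831174) (nat_lit 76) (nat_lit 2918605037) (nat_lit 375) (nat_lit 5) (nat_lit 387) (nat_lit 5) (nat_lit 376) (nat_lit 5) (nat_lit 644) (nat_lit 606) (nat_lit 310))) (XT.nd (nat_lit 78) (nat_lit 0) (nat_lit 0) (XT.lf (nat_lit 0) (nat_lit 2031324925) (nat_lit 760) (nat_lit 16156851296) (nat_lit 836) (nat_lit 15496904047) (nat_lit 365) (nat_lit 5) (nat_lit 375) (nat_lit 5) (nat_lit 376) (nat_lit 5) (nat_lit 645) (nat_lit 606) (nat_lit 309)) (XT.lf (nat_lit 0) (nat_lit 21081472021) (nat_lit 760) (nat_lit 1522345562) (nat_lit 836) (nat_lit 11458746804) (nat_lit 365) (nat_lit 5) (nat_lit 375) (nat_lit 5) (nat_lit 376) (nat_lit 5) (nat_lit 646) (nat_lit 606) (nat_lit 308)))) (XT.nd (nat_lit 156) (nat_lit 760) (nat_lit 0) (XT.nd (nat_lit 78) (nat_lit 0)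 (nat_lit 0) (XT.lf (nat_lit 0) (nat_lit 6055503179) (nat_lit 760) (nat_lit 21176852242) (nat_lit 836) (nat_lit 7212751190) (nat_lit 355) (nat_lit 5) (nat_lit 365) (nat_lit 5) (nat_lit 366) (nat_lit 5) (nat_lit 647) (nat_lit 606) (nat_lit 307)) (XT.lf (nat_lit 0) (nat_lit 25636683039) (nat_lit 760) (nat_lit 6412162822) (nat_lit 836) (nat_lit 2784546271) (nat_lit 355) (nat_lit 5) (nat_lit 365) (nat_lit 5) (nat_lit 366) (nat_lit 5) (nat_lit 648) (nat_lit 606) (nat_lit 306))) (XT.nd (nat_lit 78) (nat_lit 0) (nat_lit 0) (XT.lf (nat_lit 0) (nat_lit 1832659475) (nat_lit 760) (nat_lit 24779873922) (nat_lit 76) (nat_lit 8614222017) (nat_lit 345) (nat_lit 5) (nat_lit 355) (nat_lit 5) (nat_lit 346) (nat_lit 5) (nat_lit 649) (nat_lit 606) (nat_lit 305)) (XT.lf (nat_lit 0) (nat_lit 6607846990) (nat_lit 760) (nat_lit 5081958438) (nat_lit 76) (nat_lit 23935754049) (nat_lit 345) (nat_lit 5) (nat_lit 355) (nat_lit 5) (nat_lit 346) (nat_lit 5) (nat_lit 650) (nat_lit 606) (nat_lit 304)))))) (XT.nd (nat_lit 78000) (nat_lit 0) (nat_lit 11780) (XT.nd (nat_lit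 234) (nat_lit 684) (nat_lit 0) (XT.nd (nat_lit 78) (nat_lit 684) (nat_lit 0) (XT.lf (nat_lit 0) (nat_lit 11599189191) (nat_lit 836) (nat_lit 20846477637) (nat_lit 76) (nat_lit 3584259860) (nat_lit 335) (nat_lit 5) (nat_lit 346) (nat_lit 5) (nat_lit 336) (nat_lit 5) (nat_lit 651) (nat_lit 606) (nat_lit 303)) (XT.nd (nat_lit 78) (nat_lit 684) (nat_lit 0) (XT.lf (nat_lit 0) (nat_lit 16800455058) (nat_lit 836) (nat_lit 598171557) (nat_lit 76) (nat_lit 19041552773) (nat_lit 335) (nat_lit 5) (nat_lit 346) (nat_lit 5) (nat_lit 336) (nat_lit 5) (nat_lit 652) (nat_lit 606) (nat_lit 302)) (XT.lf (nat_lit 0) (nat_lit 20319752192) (nat_lit 684) (nat_lit 1916308096) (nat_lit 760) (nat_lit 14619970656) (nat_lit 326) (nat_lit 5) (nat_lit 335) (nat_lit 5) (nat_lit 336) (nat_lit 5) (nat_lit 653) (nat_lit 606) (nat_lit 301)))) (XT.nd (nat_lit 77610) (nat_lit 0) (nat_lit 11704) (XT.nd (nat_lit 77532) (nat_lit 0) (nat_lit 11704) (XT.lf (nat_lit 0) (nat_lit 4349082024) (nat_lit 684) (nat_lit 23552066279) (nat_lit 760) (nat_lit 9376635893) (nat_lit 317) (nat_lit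 5) (nat_lit 326) (nat_lit 5) (nat_lit 327) (nat_lit 5) (nat_lit 654) (nat_lit 606) (nat_lit 300)) (XT.lf (nat_lit 0) (nat_lit 138399856) (nat_lit 1900) (nat_lit 5638121293) (nat_lit 1900) (nat_lit 5638121293) (nat_lit 471) (nat_lit 3) (nat_lit 496) (nat_lit 3) (nat_lit 496) (nat_lit 5) (nat_lit 607) (nat_lit 607) (nat_lit 346))) (XT.nd (nat_lit 78) (nat_lit 0) (nat_lit 76) (XT.lf (nat_lit 76) (nat_lit 47377280) (nat_lit 0) (nat_lit 359685319) (nat_lit 1900) (nat_lit 22647957523) (nat_lit 472) (nat_lit 5) (nat_lit 471) (nat_lit 3) (nat_lit 496) (nat_lit 5) (nat_lit 608) (nat_lit 607) (nat_lit 345)) (XT.lf (nat_lit 0) (nat_lit 684557441) (nat_lit 1824) (nat_lit 11607530541) (nat_lit 1900) (nat_lit 10990289749) (nat_lit 472) (nat_lit 5) (nat_lit 496) (nat_lit 5) (nat_lit 497) (nat_lit 5) (nat_lit 609) (nat_lit 607) (nat_lit 344))))) (XT.nd (nat_lit 312) (nat_lit 0) (nat_lit 152) (XT.nd (nat_lit 156) (nat_lit 0) (nat_lit 76) (XT.nd (nat_lit 78) (nat_lit 0) (nat_lit 76) (XT.lf (nat_lit 76) (nat_lit 16653884) (nat_lit 0) (nat_lit 950167051) (nat_lit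 1900) (nat_lit 22547477384) (nat_lit 473) (nat_lit 5) (nat_lit 472) (nat_lit 5) (nat_lit 497) (nat_lit 5) (nat_lit 610) (nat_lit 607) (nat_lit 343)) (XT.lf (nat_lit 0) (nat_lit 1398871986) (nat_lit 1824) (nat_lit 11789922091) (nat_lit 1900) (nat_lit 10559180588) (nat_lit 473) (nat_lit 5) (nat_lit 497) (nat_lit 5) (nat_lit 498) (nat_lit 5) (nat_lit 611) (nat_lit 607) (nat_lit 342))) (XT.nd (nat_lit 78) (nat_lit 0) (nat_lit 76) (XT.lf (nat_lit 76) (nat_lit 145781041) (nat_lit 0) (nat_lit 1697875804) (nat_lit 1900) (nat_lit 22142586028) (nat_lit 474) (nat_lit 5) (nat_lit 473) (nat_lit 5) (nat_lit 498) (nat_lit 5) (nat_lit 612) (nat_lit 607) (nat_lit 341)) (XT.lf (nat_lit 0) (nat_lit 2438965441) (nat_lit 1824) (nat_lit 11815131346) (nat_lit 1900) (nat_lit 9972347285) (nat_lit 474) (nat_lit 5) (nat_lit 498) (nat_lit 5) (nat_lit 499) (nat_lit 5) (nat_lit 613) (nat_lit 607) (nat_lit 340)))) (XT.nd (nat_lit 156) (nat_lit 0) (nat_lit 76) (XT.nd (nat_lit 78) (nat_lit 0) (nat_lit 76) (XT.lf (nat_lit 76) (nat_lit 443461982) (nat_lit 0) (nat_lit 2613814670)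 (nat_lit 1900) (nat_lit 21413950896) (nat_lit 475) (nat_lit 5) (nat_lit 474) (nat_lit 5) (nat_lit 499) (nat_lit 5) (nat_lit 614) (nat_lit 607) (nat_lit 339)) (XT.lf (nat_lit 0) (nat_lit 3824910514) (nat_lit 1824) (nat_lit 11674450098) (nat_lit 1900) (nat_lit 9218807135) (nat_lit 475) (nat_lit 5) (nat_lit 499) (nat_lit 5) (nat_lit 500) (nat_lit 5) (nat_lit 615) (nat_lit 607) (nat_lit 338))) (XT.nd (nat_lit 78) (nat_lit 0) (nat_lit 76) (XT.lf (nat_lit 76) (nat_lit 918837966) (nat_lit 0) (nat_lit 3709421352) (nat_lit 1900) (nat_lit 20341380360) (nat_lit 476) (nat_lit 5) (nat_lit 475) (nat_lit 5) (nat_lit 500) (nat_lit 5) (nat_lit 616) (nat_lit 607) (nat_lit 337)) (XT.lf (nat_lit 0) (nat_lit 5577669283) (nat_lit 1824) (nat_lit 11358732710) (nat_lit 1900) (nat_lit 8287139346) (nat_lit 476) (nat_lit 5) (nat_lit 500) (nat_lit 5) (nat_lit 501) (nat_lit 5) (nat_lit 617) (nat_lit 607) (nat_lit 336))))))))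
noncomputable def xc114 : XT := (XT.nd (nat_lit 2340) (nat_lit 2964) (nat_lit 0) (XT.nd (nat_lit 1170) (nat_lit 6992) (nat_lit 0) (XT.nd (nat_lit 546) (nat_lit 1444) (nat_lit 0) (XT.nd (nat_lit 234) (nat_lit 0) (nat_lit 152) (XT.nd (nat_lit 78) (nat_lit 0) (nat_lit 76) (XT.lf (nat_lit 76) (nat_lit 1581504006) (nat_lit 0) (nat_lit 4996592039) (nat_lit 1900) (nat_lit 18903784585) (nat_lit 477) (nat_lit 5) (nat_lit 476) (nat_lit 5) (nat_lit 501) (nat_lit 5) (nat_lit 618) (nat_lit 607) (nat_lit 335)) (XT.nd (nat_lit 78) (nat_lit 0) (nat_lit 0) (XT.lf (nat_lit 0) (nat_lit 7719133405) (nat_lit 1824) (nat_lit 10858380283) (nat_lit 1900) (nat_lit 7165461143) (nat_lit 477) (nat_lit 5) (nat_lit 501) (nat_lit 5) (nat_lit 502) (nat_lit 5) (nat_lit 619) (nat_lit 607) (nat_lit 334)) (XT.lf (nat_lit 76) (nat_lit 2441525331) (nat_lit 0) (nat_lit 6487706039) (nat_lit 1900) (nat_lit 17079134912) (nat_lit 478) (nat_lit 5) (nat_lit 477) (nat_lit 5) (nat_lit 502) (nat_lit 5) (nat_lit 620) (nat_lit 607) (nat_lit 333)))) (XT.nd (nat_lit 156) (nat_lit 0) (nat_lit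 76) (XT.nd (nat_lit 78) (nat_lit 0) (nat_lit 0) (XT.lf (nat_lit 0) (nat_lit 10272165845) (nat_lit 1824) (nat_lit 10163324094) (nat_lit 1900) (nat_lit 5841403091) (nat_lit 478) (nat_lit 5) (nat_lit 502) (nat_lit 5) (nat_lit 503) (nat_lit 5) (nat_lit 621) (nat_lit 607) (nat_lit 332)) (XT.lf (nat_lit 76) (nat_lit 3509454611) (nat_lit 0) (nat_lit 8195651211) (nat_lit 1900) (nat_lit 14844421712) (nat_lit 479) (nat_lit 5) (nat_lit 478) (nat_lit 5) (nat_lit 503) (nat_lit 5) (nat_lit 622) (nat_lit 607) (nat_lit 331))) (XT.nd (nat_lit 78) (nat_lit 0) (nat_lit 0) (XT.lf (nat_lit 0) (nat_lit 13260644190) (nat_lit 1824) (nat_lit 9263008280) (nat_lit 1900) (nat_lit 4302083619) (nat_lit 479) (nat_lit 5) (nat_lit 503) (nat_lit 5) (nat_lit 504) (nat_lit 5) (nat_lit 623) (nat_lit 607) (nat_lit 330)) (XT.lf (nat_lit 76) (nat_lit 4796349943) (nat_lit 0) (nat_lit 10133850246) (nat_lit 1900) (nat_lit 12175610639) (nat_lit 480) (nat_lit 5) (nat_lit 479) (nat_lit 5) (nat_lit 504) (nat_lit 5) (nat_lit 624) (nat_lit 607) (nat_lit 329))))) (XT.nd (nat_lit 312) (nat_lit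 1748) (nat_lit 0) (XT.nd (nat_lit 156) (nat_lit 0) (nat_lit 76) (XT.nd (nat_lit 78) (nat_lit 0) (nat_lit 0) (XT.lf (nat_lit 0) (nat_lit 16709505622) (nat_lit 1824) (nat_lit 8146371746) (nat_lit 1900) (nat_lit 2534082675) (nat_lit 480) (nat_lit 5) (nat_lit 504) (nat_lit 5) (nat_lit 505) (nat_lit 5) (nat_lit 625) (nat_lit 607) (nat_lit 328)) (XT.lf (nat_lit 76) (nat_lit 6313793657) (nat_lit 0) (nat_lit 12316287850) (nat_lit 1900) (nat_lit 9047597193) (nat_lit 481) (nat_lit 5) (nat_lit 480) (nat_lit 5) (nat_lit 505) (nat_lit 5) (nat_lit 626) (nat_lit 607) (nat_lit 327))) (XT.nd (nat_lit 78) (nat_lit 0) (nat_lit 0) (XT.lf (nat_lit 0) (nat_lit 20644793619) (nat_lit 1824) (nat_lit 6801829281) (nat_lit 1900) (nat_lit 523414478) (nat_lit 481) (nat_lit 5) (nat_lit 505) (nat_lit 5) (nat_lit 506) (nat_lit 5) (nat_lit 627) (nat_lit 607) (nat_lit 326)) (XT.lf (nat_lit 76) (nat_lit 8073911916) (nat_lit 0) (nat_lit 14757538880) (nat_lit 1900) (nat_lit 5434159556) (nat_lit 482) (nat_lit 5) (nat_lit 481) (nat_lit 5) (nat_lit 506) (nat_lit 5) (nat_lit 628)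 (nat_lit 607) (nat_lit 325)))) (XT.nd (nat_lit 156) (nat_lit 1824) (nat_lit 0) (XT.nd (nat_lit 78) (nat_lit 0) (nat_lit 76) (XT.lf (nat_lit 76) (nat_lit 23337499236) (nat_lit 0) (nat_lit 1767684198) (nat_lit 1900) (nat_lit 3461044641) (nat_lit 482) (nat_lit 5) (nat_lit 481) (nat_lit 5) (nat_lit 506) (nat_lit 5) (nat_lit 629) (nat_lit 607) (nat_lit 324)) (XT.lf (nat_lit 76) (nat_lit 10089395183) (nat_lit 0) (nat_lit 17472797479) (nat_lit 1900) (nat_lit 1307909585) (nat_lit 483) (nat_lit 5) (nat_lit 482) (nat_lit 5) (nat_lit 507) (nat_lit 5) (nat_lit 630) (nat_lit 607) (nat_lit 323))) (XT.nd (nat_lit 78) (nat_lit 0) (nat_lit 76) (XT.lf (nat_lit 0) (nat_lit 921428081) (nat_lit 1900) (nat_lit 3414198036) (nat_lit 1976) (nat_lit 24843416767) (nat_lit 457) (nat_lit 5) (nat_lit 482) (nat_lit 5) (nat_lit 483) (nat_lit 5) (nat_lit 631) (nat_lit 607) (nat_lit 322)) (XT.lf (nat_lit 0) (nat_lit 3315694255) (nat_lit 1900) (nat_lit 17139962976) (nat_lit 76) (nat_lit 9035575230) (nat_lit 458) (nat_lit 5) (nat_lit 483) (nat_lit 5) (nat_lit 459) (nat_lit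 5) (nat_lit 632) (nat_lit 607) (nat_lit 321)))))) (XT.nd (nat_lit 546) (nat_lit 3344) (nat_lit 0) (XT.nd (nat_lit 234) (nat_lit 1748) (nat_lit 0) (XT.nd (nat_lit 78) (nat_lit 1976) (nat_lit 0) (XT.lf (nat_lit 0) (nat_lit 5807461736) (nat_lit 1900) (nat_lit 1361639433) (nat_lit 76) (nat_lit 22639572464) (nat_lit 458) (nat_lit 5) (nat_lit 483) (nat_lit 5) (nat_lit 459) (nat_lit 5) (nat_lit 633) (nat_lit 607) (nat_lit 320)) (XT.nd (nat_lit 78) (nat_lit 912) (nat_lit 0) (XT.lf (nat_lit 0) (nat_lit 8485945188) (nat_lit 1140) (nat_lit 15246502399) (nat_lit 76) (nat_lit 6397278552) (nat_lit 444) (nat_lit 5) (nat_lit 459) (nat_lit 5) (nat_lit 445) (nat_lit 5) (nat_lit 634) (nat_lit 607) (nat_lit 319)) (XT.lf (nat_lit 0) (nat_lit 977822783) (nat_lit 912) (nat_lit 10301113411) (nat_lit 988) (nat_lit 19177044859) (nat_lit 432) (nat_lit 5) (nat_lit 444) (nat_lit 5) (nat_lit 445) (nat_lit 5) (nat_lit 635) (nat_lit 607) (nat_lit 318)))) (XT.nd (nat_lit 156) (nat_lit 836) (nat_lit 0) (XT.nd (nat_lit 78) (nat_lit 912) (nat_lit 0) (XT.lf (nat_lit 0) (nat_lit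 14250788010) (nat_lit 988) (nat_lit 13078073307) (nat_lit 76) (nat_lit 3457439845) (nat_lit 432) (nat_lit 5) (nat_lit 445) (nat_lit 5) (nat_lit 433) (nat_lit 5) (nat_lit 636) (nat_lit 607) (nat_lit 317)) (XT.lf (nat_lit 0) (nat_lit 3627488670) (nat_lit 912) (nat_lit 13744343663) (nat_lit 988) (nat_lit 13749600346) (nat_lit 420) (nat_lit 5) (nat_lit 432) (nat_lit 5) (nat_lit 433) (nat_lit 5) (nat_lit 637) (nat_lit 607) (nat_lit 316))) (XT.nd (nat_lit 78) (nat_lit 836) (nat_lit 0) (XT.lf (nat_lit 0) (nat_lit 20642378087) (nat_lit 988) (nat_lit 10620289339) (nat_lit 76) (nat_lit 198857900) (nat_lit 420) (nat_lit 5) (nat_lit 433) (nat_lit 5) (nat_lit 421) (nat_lit 5) (nat_lit 638) (nat_lit 607) (nat_lit 315)) (XT.lf (nat_lit 0) (nat_lit 6584299129) (nat_lit 836) (nat_lit 17525858676) (nat_lit 912) (nat_lit 7695625672) (nat_lit 409) (nat_lit 5) (nat_lit 420) (nat_lit 5) (nat_lit 421) (nat_lit 5) (nat_lit 639) (nat_lit 607) (nat_lit 314))))) (XT.nd (nat_lit 312) (nat_lit 1596) (nat_lit 0) (XT.nd (nat_lit 156) (nat_lit 912) (nat_lit 0) (XT.nd (nat_lit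 78) (nat_lit 836) (nat_lit 0) (XT.lf (nat_lit 0) (nat_lit 24275081077) (nat_lit 836) (nat_lit 3441557179) (nat_lit 912) (nat_lit 4438901737) (nat_lit 409) (nat_lit 5) (nat_lit 420) (nat_lit 5) (nat_lit 421) (nat_lit 5) (nat_lit 640) (nat_lit 607) (nat_lit 313)) (XT.lf (nat_lit 0) (nat_lit 9863965192) (nat_lit 836) (nat_lit 21664370687) (nat_lit 912) (nat_lit 981294115) (nat_lit 398) (nat_lit 5) (nat_lit 409) (nat_lit 5) (nat_lit 410) (nat_lit 5) (nat_lit 641) (nat_lit 607) (nat_lit 312))) (XT.nd (nat_lit 78) (nat_lit 836) (nat_lit 0) (XT.lf (nat_lit 0) (nat_lit 2586233469) (nat_lit 912) (nat_lit 4841187106) (nat_lit 76) (nat_lit 25441567743) (nat_lit 397) (nat_lit 5) (nat_lit 409) (nat_lit 5) (nat_lit 398) (nat_lit 5) (nat_lit 642) (nat_lit 607) (nat_lit 311)) (XT.lf (nat_lit 0) (nat_lit 6344405444) (nat_lit 912) (nat_lit 19792431439) (nat_lit 76) (nat_lit 7095918631) (nat_lit 386) (nat_lit 5) (nat_lit 398) (nat_lit 5) (nat_lit 387) (nat_lit 5) (nat_lit 643) (nat_lit 607) (nat_lit 310)))) (XT.nd (nat_lit 156) (nat_lit 760) (nat_lit 0) (XT.nd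 (nat_lit 78) (nat_lit 836) (nat_lit 0) (XT.lf (nat_lit 0) (nat_lit 10257819930) (nat_lit 912) (nat_lit 1501323635) (nat_lit 76) (nat_lit 21843053005) (nat_lit 386) (nat_lit 5) (nat_lit 398) (nat_lit 5) (nat_lit 387) (nat_lit 5) (nat_lit 644) (nat_lit 607) (nat_lit 309)) (XT.lf (nat_lit 0) (nat_lit 14380196253) (nat_lit 912) (nat_lit 16614673850) (nat_lit 76) (nat_lit 2981542567) (nat_lit 375) (nat_lit 5) (nat_lit 387) (nat_lit 5) (nat_lit 376) (nat_lit 5) (nat_lit 645) (nat_lit 607) (nat_lit 308))) (XT.nd (nat_lit 78) (nat_lit 0) (nat_lit 0) (XT.lf (nat_lit 0) (nat_lit 2213746332) (nat_lit 760) (nat_lit 16471910366) (nat_lit 836) (nat_lit 15670443756) (nat_lit 365) (nat_lit 5) (nat_lit 375) (nat_lit 5) (nat_lit 376) (nat_lit 5) (nat_lit 646) (nat_lit 607) (nat_lit 307)) (XT.lf (nat_lit 0) (nat_lit 21642116078) (nat_lit 760) (nat_lit 1544872908) (nat_lit 836) (nat_lit 11554197847) (nat_lit 365) (nat_lit 5) (nat_lit 375) (nat_lit 5) (nat_lit 376) (nat_lit 5) (nat_lit 647) (nat_lit 607) (nat_lit 306))))))) (XT.nd (nat_lit 78702) (nat_lit 0)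 (nat_lit 11324) (XT.nd (nat_lit 78078) (nat_lit 0) (nat_lit 11020) (XT.nd (nat_lit 234) (nat_lit 1444) (nat_lit 0) (XT.nd (nat_lit 78) (nat_lit 760) (nat_lit 0) (XT.lf (nat_lit 0) (nat_lit 6317273756) (nat_lit 760) (nat_lit 21589217006) (nat_lit 836) (nat_lit 7224921411) (nat_lit 355) (nat_lit 5) (nat_lit 365) (nat_lit 5) (nat_lit 366) (nat_lit 5) (nat_lit 648) (nat_lit 607) (nat_lit 305)) (XT.nd (nat_lit 78) (nat_lit 760) (nat_lit 0) (XT.lf (nat_lit 0) (nat_lit 26287319164) (nat_lit 760) (nat_lit 6529452862) (nat_lit 836) (nat_lit 2710742292) (nat_lit 355) (nat_lit 5) (nat_lit 365) (nat_lit 5) (nat_lit 366) (nat_lit 5) (nat_lit 649) (nat_lit 607) (nat_lit 304)) (XT.lf (nat_lit 0) (nat_lit 1995585009) (nat_lit 760) (nat_lit 25134333422) (nat_lit 76) (nat_lit 8798840233) (nat_lit 345) (nat_lit 5) (nat_lit 355) (nat_lit 5) (nat_lit 346) (nat_lit 5) (nat_lit 650) (nat_lit 607) (nat_lit 303)))) (XT.nd (nat_lit 156) (nat_lit 684) (nat_lit 0) (XT.nd (nat_lit 78) (nat_lit 760) (nat_lit 0) (XT.lf (nat_lit 0) (nat_lit 6863800346) (nat_lit 760) (nat_lit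 5045227040) (nat_lit 76) (nat_lit 24426561066) (nat_lit 345) (nat_lit 5) (nat_lit 355) (nat_lit 5) (nat_lit 346) (nat_lit 5) (nat_lit 651) (nat_lit 607) (nat_lit 302)) (XT.lf (nat_lit 0) (nat_lit 11953533173) (nat_lit 836) (nat_lit 21123594241) (nat_lit 76) (nat_lit 3670944440) (nat_lit 335) (nat_lit 5) (nat_lit 346) (nat_lit 5) (nat_lit 336) (nat_lit 5) (nat_lit 652) (nat_lit 607) (nat_lit 301))) (XT.nd (nat_lit 78) (nat_lit 684) (nat_lit 0) (XT.lf (nat_lit 0) (nat_lit 17256425138) (nat_lit 836) (nat_lit 473063470) (nat_lit 76) (nat_lit 19437089106) (nat_lit 335) (nat_lit 5) (nat_lit 346) (nat_lit 5) (nat_lit 336) (nat_lit 5) (nat_lit 653) (nat_lit 607) (nat_lit 300)) (XT.lf (nat_lit 0) (nat_lit 20862316968) (nat_lit 684) (nat_lit 1936957433) (nat_lit 760) (nat_lit 14791501380) (nat_lit 326) (nat_lit 5) (nat_lit 335) (nat_lit 5) (nat_lit 336) (nat_lit 5) (nat_lit 654) (nat_lit 607) (nat_lit 299))))) (XT.nd (nat_lit 312) (nat_lit 0) (nat_lit 152) (XT.nd (nat_lit 156) (nat_lit 0) (nat_lit 76) (XT.nd (nat_lit 78) (nat_lit 0) (nat_lit 0) (XT.lf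 (nat_lit 0) (nat_lit 267529354) (nat_lit 1900) (nat_lit 5686435521) (nat_lit 1900) (nat_lit 5686435521) (nat_lit 471) (nat_lit 3) (nat_lit 496) (nat_lit 3) (nat_lit 496) (nat_lit 5) (nat_lit 608) (nat_lit 608) (nat_lit 344)) (XT.lf (nat_lit 76) (nat_lit 176373217) (nat_lit 0) (nat_lit 487429657) (nat_lit 1900) (nat_lit 22847330643) (nat_lit 472) (nat_lit 5) (nat_lit 471) (nat_lit 3) (nat_lit 496) (nat_lit 5) (nat_lit 609) (nat_lit 608) (nat_lit 343))) (XT.nd (nat_lit 78) (nat_lit 0) (nat_lit 0) (XT.lf (nat_lit 0) (nat_lit 941205775) (nat_lit 1824) (nat_lit 11708486943) (nat_lit 1900) (nat_lit 11093458693) (nat_lit 472) (nat_lit 5) (nat_lit 496) (nat_lit 5) (nat_lit 497) (nat_lit 5) (nat_lit 610) (nat_lit 608) (nat_lit 342)) (XT.lf (nat_lit 76) (nat_lit 147318050) (nat_lit 0) (nat_lit 1077878817) (nat_lit 1900) (nat_lit 22754592183) (nat_lit 473) (nat_lit 5) (nat_lit 472) (nat_lit 5) (nat_lit 497) (nat_lit 5) (nat_lit 611) (nat_lit 608) (nat_lit 341)))) (XT.nd (nat_lit 156) (nat_lit 0) (nat_lit 76) (XT.nd (nat_lit 78) (nat_lit 0) (nat_lit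 0) (XT.lf (nat_lit 0) (nat_lit 1660509923) (nat_lit 1824) (nat_lit 11892551779) (nat_lit 1900) (nat_lit 10665185087) (nat_lit 473) (nat_lit 5) (nat_lit 497) (nat_lit 5) (nat_lit 498) (nat_lit 5) (nat_lit 612) (nat_lit 608) (nat_lit 340)) (XT.lf (nat_lit 76) (nat_lit 280989306) (nat_lit 0) (nat_lit 1829478526) (nat_lit 1900) (nat_lit 22350887259) (nat_lit 474) (nat_lit 5) (nat_lit 473) (nat_lit 5) (nat_lit 498) (nat_lit 5) (nat_lit 613) (nat_lit 608) (nat_lit 339))) (XT.nd (nat_lit 78) (nat_lit 0) (nat_lit 0) (XT.lf (nat_lit 0) (nat_lit 2712552468) (nat_lit 1824) (nat_lit 11916591560) (nat_lit 1900) (nat_lit 10077319160) (nat_lit 474) (nat_lit 5) (nat_lit 498) (nat_lit 5) (nat_lit 499) (nat_lit 5) (nat_lit 614) (nat_lit 608) (nat_lit 338)) (XT.lf (nat_lit 76) (nat_lit 586286513) (nat_lit 0) (nat_lit 2753405123) (nat_lit 1900) (nat_lit 21616521731) (nat_lit 475) (nat_lit 5) (nat_lit 474) (nat_lit 5) (nat_lit 499) (nat_lit 5) (nat_lit 615) (nat_lit 608) (nat_lit 337)))))) (XT.nd (nat_lit 546) (nat_lit 0) (nat_lit 228) (XT.nd (nat_lit 234) (nat_lit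 0) (nat_lit 76) (XT.nd (nat_lit 78) (nat_lit 0) (nat_lit 0) (XT.lf (nat_lit 0) (nat_lit 4117783773) (nat_lit 1824) (nat_lit 11771702899) (nat_lit 1900) (nat_lit 9318703847) (nat_lit 475) (nat_lit 5) (nat_lit 499) (nat_lit 5) (nat_lit 500) (nat_lit 5) (nat_lit 616) (nat_lit 608) (nat_lit 336)) (XT.nd (nat_lit 78) (nat_lit 0) (nat_lit 76) (XT.lf (nat_lit 76) (nat_lit 1072554636) (nat_lit 0) (nat_lit 3861280986) (nat_lit 1900) (nat_lit 20530923803) (nat_lit 476) (nat_lit 5) (nat_lit 475) (nat_lit 5) (nat_lit 500) (nat_lit 5) (nat_lit 617) (nat_lit 608) (nat_lit 335)) (XT.lf (nat_lit 0) (nat_lit 5897562692) (nat_lit 1824) (nat_lit 11448537511) (nat_lit 1900) (nat_lit 8377732589) (nat_lit 476) (nat_lit 5) (nat_lit 500) (nat_lit 5) (nat_lit 501) (nat_lit 5) (nat_lit 618) (nat_lit 608) (nat_lit 334)))) (XT.nd (nat_lit 156) (nat_lit 0) (nat_lit 76) (XT.nd (nat_lit 78) (nat_lit 0) (nat_lit 76) (XT.lf (nat_lit 76) (nat_lit 1749600190) (nat_lit 0) (nat_lit 5165198729) (nat_lit 1900) (nat_lit 19072604177) (nat_lit 477) (nat_lit 5) (nat_lit 476) (nat_lit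 5) (nat_lit 501) (nat_lit 5) (nat_lit 619) (nat_lit 608) (nat_lit 333)) (XT.lf (nat_lit 0) (nat_lit 8074197515) (nat_lit 1824) (nat_lit 10937285994) (nat_lit 1900) (nat_lit 7242325105) (nat_lit 477) (nat_lit 5) (nat_lit 501) (nat_lit 5) (nat_lit 502) (nat_lit 5) (nat_lit 620) (nat_lit 608) (nat_lit 332))) (XT.nd (nat_lit 78) (nat_lit 0) (nat_lit 76) (XT.lf (nat_lit 76) (nat_lit 2627708115) (nat_lit 0) (nat_lit 6677746176) (nat_lit 1900) (nat_lit 17219114702) (nat_lit 478) (nat_lit 5) (nat_lit 477) (nat_lit 5) (nat_lit 502) (nat_lit 5) (nat_lit 621) (nat_lit 608) (nat_lit 331)) (XT.lf (nat_lit 0) (nat_lit 10670988453) (nat_lit 1824) (nat_lit 10227660862) (nat_lit 1900) (nat_lit 5899902374) (nat_lit 478) (nat_lit 5) (nat_lit 502) (nat_lit 5) (nat_lit 503) (nat_lit 5) (nat_lit 622) (nat_lit 608) (nat_lit 330))))) (XT.nd (nat_lit 312) (nat_lit 0) (nat_lit 152) (XT.nd (nat_lit 156) (nat_lit 0) (nat_lit 76) (XT.nd (nat_lit 78) (nat_lit 0) (nat_lit 76) (XT.lf (nat_lit 76) (nat_lit 3717659405) (nat_lit 0) (nat_lit 8412032163) (nat_lit 1900) (nat_lit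 14947005456) (nat_lit 479) (nat_lit 5) (nat_lit 478) (nat_lit 5) (nat_lit 503) (nat_lit 5) (nat_lit 623) (nat_lit 608) (nat_lit 329)) (XT.lf (nat_lit 0) (nat_lit 13712271753) (nat_lit 1824) (nat_lit 9308878818) (nat_lit 1900) (nat_lit 4337360780) (nat_lit 479) (nat_lit 5) (nat_lit 503) (nat_lit 5) (nat_lit 504) (nat_lit 5) (nat_lit 624) (nat_lit 608) (nat_lit 328))) (XT.nd (nat_lit 78) (nat_lit 0) (nat_lit 76) (XT.lf (nat_lit 76) (nat_lit 5030749533) (nat_lit 0) (nat_lit 10381713207) (nat_lit 1900) (nat_lit 12231780189) (nat_lit 480) (nat_lit 5) (nat_lit 479) (nat_lit 5) (nat_lit 504) (nat_lit 5) (nat_lit 625) (nat_lit 608) (nat_lit 327)) (XT.lf (nat_lit 0) (nat_lit 17223465508) (nat_lit 1824) (nat_lit 8169642235) (nat_lit 1900) (nat_lit 2541045374) (nat_lit 480) (nat_lit 5) (nat_lit 504) (nat_lit 5) (nat_lit 505) (nat_lit 5) (nat_lit 626) (nat_lit 608) (nat_lit 326)))) (XT.nd (nat_lit 156) (nat_lit 0) (nat_lit 76) (XT.nd (nat_lit 78) (nat_lit 0) (nat_lit 76) (XT.lf (nat_lit 76) (nat_lit 6578807679) (nat_lit 0) (nat_lit 12601021114) (nat_lit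 1900) (nat_lit 9047850048) (nat_lit 481) (nat_lit 5) (nat_lit 480) (nat_lit 5) (nat_lit 505) (nat_lit 5) (nat_lit 627) (nat_lit 608) (nat_lit 325)) (XT.lf (nat_lit 0) (nat_lit 21231117225) (nat_lit 1824) (nat_lit 6798119837) (nat_lit 1900) (nat_lit 496722195) (nat_lit 481) (nat_lit 5) (nat_lit 505) (nat_lit 5) (nat_lit 506) (nat_lit 5) (nat_lit 628) (nat_lit 608) (nat_lit 324))) (XT.nd (nat_lit 78) (nat_lit 0) (nat_lit 0) (XT.lf (nat_lit 76) (nat_lit 8374216803) (nat_lit 0) (nat_lit 15084791554) (nat_lit 1900) (nat_lit 5368485519) (nat_lit 482) (nat_lit 5) (nat_lit 481) (nat_lit 5) (nat_lit 506) (nat_lit 5) (nat_lit 629) (nat_lit 608) (nat_lit 323)) (XT.lf (nat_lit 76) (nat_lit 23940353778) (nat_lit 0) (nat_lit 1834510329) (nat_lit 1900) (nat_lit 3359327075) (nat_lit 482) (nat_lit 5) (nat_lit 481) (nat_lit 5) (nat_lit 506) (nat_lit 5) (nat_lit 630) (nat_lit 608) (nat_lit 322))))))))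
noncomputable def xc115 : XT := (XT.nd (nat_lit 79950) (nat_lit 0) (nat_lit 4712) (XT.nd (nat_lit 1170) (nat_lit 3876) (nat_lit 0) (XT.nd (nat_lit 546) (nat_lit 3496) (nat_lit 0) (XT.nd (nat_lit 234) (nat_lit 1900) (nat_lit 0) (XT.nd (nat_lit 78) (nat_lit 1900) (nat_lit 0) (XT.lf (nat_lit 76) (nat_lit 10429934554) (nat_lit 0) (nat_lit 17848493676) (nat_lit 1900) (nat_lit 1165766508) (nat_lit 483) (nat_lit 5) (nat_lit 482) (nat_lit 5) (nat_lit 507) (nat_lit 5) (nat_lit 631) (nat_lit 608) (nat_lit 321)) (XT.nd (nat_lit 78) (nat_lit 0) (nat_lit 76) (XT.lf (nat_lit 0) (nat_lit 1102693865) (nat_lit 1900) (nat_lit 3344277783) (nat_lit 1976) (nat_lit 25312386007) (nat_lit 457) (nat_lit 5) (nat_lit 482) (nat_lit 5) (nat_lit 483) (nat_lit 5) (nat_lit 632) (nat_lit 608) (nat_lit 320)) (XT.lf (nat_lit 0) (nat_lit 3542392992) (nat_lit 1900) (nat_lit 17342096492) (nat_lit 76) (nat_lit 9193350771) (nat_lit 458) (nat_lit 5) (nat_lit 483) (nat_lit 5) (nat_lit 459) (nat_lit 5) (nat_lit 633) (nat_lit 608) (nat_lit 319)))) (XT.nd (nat_lit 156) (nat_lit 912)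 (nat_lit 0) (XT.nd (nat_lit 78) (nat_lit 1064) (nat_lit 0) (XT.lf (nat_lit 0) (nat_lit 6080851021) (nat_lit 1900) (nat_lit 1250964630) (nat_lit 76) (nat_lit 23069877675) (nat_lit 458) (nat_lit 5) (nat_lit 483) (nat_lit 5) (nat_lit 459) (nat_lit 5) (nat_lit 634) (nat_lit 608) (nat_lit 318)) (XT.lf (nat_lit 0) (nat_lit 8810593333) (nat_lit 1140) (nat_lit 15411205243) (nat_lit 76) (nat_lit 6507414697) (nat_lit 444) (nat_lit 5) (nat_lit 459) (nat_lit 5) (nat_lit 445) (nat_lit 5) (nat_lit 635) (nat_lit 608) (nat_lit 317))) (XT.nd (nat_lit 78) (nat_lit 0) (nat_lit 0) (XT.lf (nat_lit 0) (nat_lit 1136683895) (nat_lit 912) (nat_lit 10520626895) (nat_lit 988) (nat_lit 19404725336) (nat_lit 432) (nat_lit 5) (nat_lit 444) (nat_lit 5) (nat_lit 445) (nat_lit 5) (nat_lit 636) (nat_lit 608) (nat_lit 316)) (XT.lf (nat_lit 0) (nat_lit 14685517768) (nat_lit 988) (nat_lit 13199971245) (nat_lit 76) (nat_lit 3513535431) (nat_lit 432) (nat_lit 5) (nat_lit 445) (nat_lit 5) (nat_lit 433) (nat_lit 5) (nat_lit 637) (nat_lit 608) (nat_lit 315))))) (XT.nd (nat_lit 312)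 (nat_lit 1748) (nat_lit 0) (XT.nd (nat_lit 156) (nat_lit 836) (nat_lit 0) (XT.nd (nat_lit 78) (nat_lit 0) (nat_lit 0) (XT.lf (nat_lit 0) (nat_lit 3838783133) (nat_lit 912) (nat_lit 14028165099) (nat_lit 988) (nat_lit 13873951221) (nat_lit 420) (nat_lit 5) (nat_lit 432) (nat_lit 5) (nat_lit 433) (nat_lit 5) (nat_lit 638) (nat_lit 608) (nat_lit 314)) (XT.lf (nat_lit 0) (nat_lit 21199952358) (nat_lit 988) (nat_lit 10693710245) (nat_lit 76) (nat_lit 194190564) (nat_lit 420) (nat_lit 5) (nat_lit 433) (nat_lit 5) (nat_lit 421) (nat_lit 5) (nat_lit 639) (nat_lit 608) (nat_lit 313))) (XT.nd (nat_lit 78) (nat_lit 0) (nat_lit 0) (XT.lf (nat_lit 0) (nat_lit 6854055618) (nat_lit 836) (nat_lit 17881090718) (nat_lit 912) (nat_lit 7703889129) (nat_lit 409) (nat_lit 5) (nat_lit 420) (nat_lit 5) (nat_lit 421) (nat_lit 5) (nat_lit 640) (nat_lit 608) (nat_lit 312)) (XT.lf (nat_lit 0) (nat_lit 24895945941) (nat_lit 836) (nat_lit 3515010742) (nat_lit 912) (nat_lit 4384886580) (nat_lit 409) (nat_lit 5) (nat_lit 420) (nat_lit 5) (nat_lit 421) (nat_lit 5) (nat_lit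 641) (nat_lit 608) (nat_lit 311)))) (XT.nd (nat_lit 156) (nat_lit 836) (nat_lit 0) (XT.nd (nat_lit 78) (nat_lit 76) (nat_lit 0) (XT.lf (nat_lit 0) (nat_lit 10198536065) (nat_lit 836) (nat_lit 22098469342) (nat_lit 912) (nat_lit 860047468) (nat_lit 398) (nat_lit 5) (nat_lit 409) (nat_lit 5) (nat_lit 410) (nat_lit 5) (nat_lit 642) (nat_lit 608) (nat_lit 310)) (XT.lf (nat_lit 0) (nat_lit 2774257120) (nat_lit 912) (nat_lit 4801592563) (nat_lit 76) (nat_lit 25947785056) (nat_lit 397) (nat_lit 5) (nat_lit 409) (nat_lit 5) (nat_lit 398) (nat_lit 5) (nat_lit 643) (nat_lit 608) (nat_lit 309))) (XT.nd (nat_lit 78) (nat_lit 0) (nat_lit 0) (XT.lf (nat_lit 0) (nat_lit 6605806483) (nat_lit 912) (nat_lit 20050068509) (nat_lit 76) (nat_lit 7238838152) (nat_lit 386) (nat_lit 5) (nat_lit 398) (nat_lit 5) (nat_lit 387) (nat_lit 5) (nat_lit 644) (nat_lit 608) (nat_lit 308)) (XT.lf (nat_lit 0) (nat_lit 10594851750) (nat_lit 912) (nat_lit 1395848579) (nat_lit 76) (nat_lit 22280895583) (nat_lit 386) (nat_lit 5) (nat_lit 398) (nat_lit 5) (nat_lit 387) (nat_lit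 5) (nat_lit 645) (nat_lit 608) (nat_lit 307)))))) (XT.nd (nat_lit 546) (nat_lit 760) (nat_lit 0) (XT.nd (nat_lit 234) (nat_lit 1520) (nat_lit 0) (XT.nd (nat_lit 78) (nat_lit 760) (nat_lit 0) (XT.lf (nat_lit 0) (nat_lit 14797992655) (nat_lit 912) (nat_lit 16809775912) (nat_lit 76) (nat_lit 3045561566) (nat_lit 375) (nat_lit 5) (nat_lit 387) (nat_lit 5) (nat_lit 376) (nat_lit 5) (nat_lit 646) (nat_lit 608) (nat_lit 306)) (XT.nd (nat_lit 78) (nat_lit 0) (nat_lit 0) (XT.lf (nat_lit 0) (nat_lit 2394310099) (nat_lit 760) (nat_lit 16793584293) (nat_lit 836) (nat_lit 15852750775) (nat_lit 365) (nat_lit 5) (nat_lit 375) (nat_lit 5) (nat_lit 376) (nat_lit 5) (nat_lit 647) (nat_lit 608) (nat_lit 305)) (XT.lf (nat_lit 0) (nat_lit 22208574910) (nat_lit 760) (nat_lit 1568158327) (nat_lit 836) (nat_lit 11656750572) (nat_lit 365) (nat_lit 5) (nat_lit 375) (nat_lit 5) (nat_lit 376) (nat_lit 5) (nat_lit 648) (nat_lit 608) (nat_lit 304)))) (XT.nd (nat_lit 156) (nat_lit 760) (nat_lit 0) (XT.nd (nat_lit 78) (nat_lit 0) (nat_lit 0) (XT.lf (nat_lit 0) (nat_lit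 6578817725) (nat_lit 760) (nat_lit 22010262898) (nat_lit 836) (nat_lit 7242464051) (nat_lit 355) (nat_lit 5) (nat_lit 365) (nat_lit 5) (nat_lit 366) (nat_lit 5) (nat_lit 649) (nat_lit 608) (nat_lit 303)) (XT.lf (nat_lit 0) (nat_lit 26945613090) (nat_lit 760) (nat_lit 6649514029) (nat_lit 836) (nat_lit 2640490679) (nat_lit 355) (nat_lit 5) (nat_lit 365) (nat_lit 5) (nat_lit 366) (nat_lit 5) (nat_lit 650) (nat_lit 608) (nat_lit 302))) (XT.nd (nat_lit 78) (nat_lit 0) (nat_lit 0) (XT.lf (nat_lit 0) (nat_lit 2156865744) (nat_lit 760) (nat_lit 25501362672) (nat_lit 76) (nat_lit 8986671877) (nat_lit 345) (nat_lit 5) (nat_lit 355) (nat_lit 5) (nat_lit 346) (nat_lit 5) (nat_lit 651) (nat_lit 608) (nat_lit 301)) (XT.lf (nat_lit 0) (nat_lit 7120065602) (nat_lit 760) (nat_lit 5013134112) (nat_lit 76) (nat_lit 24926714679) (nat_lit 345) (nat_lit 5) (nat_lit 355) (nat_lit 5) (nat_lit 346) (nat_lit 5) (nat_lit 652) (nat_lit 608) (nat_lit 300))))) (XT.nd (nat_lit 77922) (nat_lit 0) (nat_lit 10412) (XT.nd (nat_lit 77766) (nat_lit 0) (nat_lit 10336) (XT.nd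 (nat_lit 78) (nat_lit 0) (nat_lit 0) (XT.lf (nat_lit 0) (nat_lit 12310212639) (nat_lit 836) (nat_lit 21411682285) (nat_lit 76) (nat_lit 3758780267) (nat_lit 335) (nat_lit 5) (nat_lit 346) (nat_lit 5) (nat_lit 336) (nat_lit 5) (nat_lit 653) (nat_lit 608) (nat_lit 299)) (XT.lf (nat_lit 0) (nat_lit 17716856388) (nat_lit 836) (nat_lit 350775876) (nat_lit 76) (nat_lit 19839965141) (nat_lit 335) (nat_lit 5) (nat_lit 346) (nat_lit 5) (nat_lit 336) (nat_lit 5) (nat_lit 654) (nat_lit 608) (nat_lit 298))) (XT.nd (nat_lit 78) (nat_lit 0) (nat_lit 0) (XT.lf (nat_lit 0) (nat_lit 394334670) (nat_lit 1900) (nat_lit 5738218637) (nat_lit 1900) (nat_lit 5738218637) (nat_lit 471) (nat_lit 3) (nat_lit 496) (nat_lit 3) (nat_lit 496) (nat_lit 5) (nat_lit 609) (nat_lit 609) (nat_lit 342)) (XT.lf (nat_lit 76) (nat_lit 302976798) (nat_lit 0) (nat_lit 613047754) (nat_lit 1900) (nat_lit 23060538280) (nat_lit 472) (nat_lit 5) (nat_lit 471) (nat_lit 3) (nat_lit 496) (nat_lit 5) (nat_lit 610) (nat_lit 609) (nat_lit 341)))) (XT.nd (nat_lit 156) (nat_lit 0) (nat_lit 76)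 (XT.nd (nat_lit 78) (nat_lit 0) (nat_lit 0) (XT.lf (nat_lit 0) (nat_lit 1193552752) (nat_lit 1824) (nat_lit 11816556904) (nat_lit 1900) (nat_lit 11203220166) (nat_lit 472) (nat_lit 5) (nat_lit 496) (nat_lit 5) (nat_lit 497) (nat_lit 5) (nat_lit 611) (nat_lit 609) (nat_lit 340)) (XT.lf (nat_lit 76) (nat_lit 275534586) (nat_lit 0) (nat_lit 1203923538) (nat_lit 1900) (nat_lit 22975317680) (nat_lit 473) (nat_lit 5) (nat_lit 472) (nat_lit 5) (nat_lit 497) (nat_lit 5) (nat_lit 612) (nat_lit 609) (nat_lit 339))) (XT.nd (nat_lit 78) (nat_lit 0) (nat_lit 0) (XT.lf (nat_lit 0) (nat_lit 1918307297) (nat_lit 1824) (nat_lit 12002405165) (nat_lit 1900) (nat_lit 10777393909) (nat_lit 473) (nat_lit 5) (nat_lit 497) (nat_lit 5) (nat_lit 498) (nat_lit 5) (nat_lit 613) (nat_lit 609) (nat_lit 338)) (XT.lf (nat_lit 76) (nat_lit 413764652) (nat_lit 0) (nat_lit 1959921621) (nat_lit 1900) (nat_lit 22572462396) (nat_lit 474) (nat_lit 5) (nat_lit 473) (nat_lit 5) (nat_lit 498) (nat_lit 5) (nat_lit 614) (nat_lit 609) (nat_lit 337))))))) (XT.nd (nat_lit 1170) (nat_lit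 5852) (nat_lit 0) (XT.nd (nat_lit 546) (nat_lit 0) (nat_lit 228) (XT.nd (nat_lit 234) (nat_lit 0) (nat_lit 76) (XT.nd (nat_lit 78) (nat_lit 0) (nat_lit 0) (XT.lf (nat_lit 0) (nat_lit 2982881679) (nat_lit 1824) (nat_lit 12025317074) (nat_lit 1900) (nat_lit 10188059055) (nat_lit 474) (nat_lit 5) (nat_lit 498) (nat_lit 5) (nat_lit 499) (nat_lit 5) (nat_lit 615) (nat_lit 609) (nat_lit 336)) (XT.nd (nat_lit 78) (nat_lit 0) (nat_lit 76) (XT.lf (nat_lit 76) (nat_lit 726765888) (nat_lit 0) (nat_lit 2892396870) (nat_lit 1900) (nat_lit 21831908506) (nat_lit 475) (nat_lit 5) (nat_lit 474) (nat_lit 5) (nat_lit 499) (nat_lit 5) (nat_lit 616) (nat_lit 609) (nat_lit 335)) (XT.lf (nat_lit 0) (nat_lit 4408112390) (nat_lit 1824) (nat_lit 11876190974) (nat_lit 1900) (nat_lit 9423878933) (nat_lit 475) (nat_lit 5) (nat_lit 499) (nat_lit 5) (nat_lit 500) (nat_lit 5) (nat_lit 617) (nat_lit 609) (nat_lit 334)))) (XT.nd (nat_lit 156) (nat_lit 0) (nat_lit 76) (XT.nd (nat_lit 78) (nat_lit 0) (nat_lit 76) (XT.lf (nat_lit 76) (nat_lit 1224090225) (nat_lit 0) (nat_lit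 4013161745) (nat_lit 1900) (nat_lit 20732695524) (nat_lit 476) (nat_lit 5) (nat_lit 475) (nat_lit 5) (nat_lit 500) (nat_lit 5) (nat_lit 618) (nat_lit 609) (nat_lit 333)) (XT.lf (nat_lit 0) (nat_lit 6215763873) (nat_lit 1824) (nat_lit 11545472646) (nat_lit 1900) (nat_lit 8473055845) (nat_lit 476) (nat_lit 5) (nat_lit 500) (nat_lit 5) (nat_lit 501) (nat_lit 5) (nat_lit 619) (nat_lit 609) (nat_lit 332))) (XT.nd (nat_lit 78) (nat_lit 0) (nat_lit 76) (XT.lf (nat_lit 76) (nat_lit 1915759153) (nat_lit 0) (nat_lit 5334510825) (nat_lit 1900) (nat_lit 19252925831) (nat_lit 477) (nat_lit 5) (nat_lit 476) (nat_lit 5) (nat_lit 501) (nat_lit 5) (nat_lit 620) (nat_lit 609) (nat_lit 331)) (XT.lf (nat_lit 0) (nat_lit 8428570203) (nat_lit 1824) (nat_lit 11023138696) (nat_lit 1900) (nat_lit 7323306496) (nat_lit 477) (nat_lit 5) (nat_lit 501) (nat_lit 5) (nat_lit 502) (nat_lit 5) (nat_lit 621) (nat_lit 609) (nat_lit 330))))) (XT.nd (nat_lit 312) (nat_lit 0) (nat_lit 152) (XT.nd (nat_lit 156) (nat_lit 0) (nat_lit 76) (XT.nd (nat_lit 78) (nat_lit 0) (nat_lit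 76) (XT.lf (nat_lit 76) (nat_lit 2812280998) (nat_lit 0) (nat_lit 6869246137) (nat_lit 1900) (nat_lit 17369722575) (nat_lit 478) (nat_lit 5) (nat_lit 477) (nat_lit 5) (nat_lit 502) (nat_lit 5) (nat_lit 622) (nat_lit 609) (nat_lit 329)) (XT.lf (nat_lit 0) (nat_lit 11070278360) (nat_lit 1824) (nat_lit 10298679176) (nat_lit 1900) (nat_lit 5961836620) (nat_lit 478) (nat_lit 5) (nat_lit 502) (nat_lit 5) (nat_lit 503) (nat_lit 5) (nat_lit 623) (nat_lit 609) (nat_lit 328))) (XT.nd (nat_lit 78) (nat_lit 0) (nat_lit 76) (XT.lf (nat_lit 76) (nat_lit 3924668978) (nat_lit 0) (nat_lit 8630703340) (nat_lit 1900) (nat_lit 15059185962) (nat_lit 479) (nat_lit 5) (nat_lit 478) (nat_lit 5) (nat_lit 503) (nat_lit 5) (nat_lit 624) (nat_lit 609) (nat_lit 327)) (XT.lf (nat_lit 0) (nat_lit 14165693159) (nat_lit 1824) (nat_lit 9361079437) (nat_lit 1900) (nat_lit 4375314733) (nat_lit 479) (nat_lit 5) (nat_lit 503) (nat_lit 5) (nat_lit 504) (nat_lit 5) (nat_lit 625) (nat_lit 609) (nat_lit 326)))) (XT.nd (nat_lit 156) (nat_lit 0) (nat_lit 76) (XT.nd (nat_lit 78) (nat_lit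 0) (nat_lit 76) (XT.lf (nat_lit 76) (nat_lit 5264460054) (nat_lit 0) (nat_lit 10632778801) (nat_lit 1900) (nat_lit 12296347874) (nat_lit 480) (nat_lit 5) (nat_lit 479) (nat_lit 5) (nat_lit 504) (nat_lit 5) (nat_lit 626) (nat_lit 609) (nat_lit 325)) (XT.lf (nat_lit 0) (nat_lit 17740723912) (nat_lit 1824) (nat_lit 8198801184) (nat_lit 1900) (nat_lit 2549844988) (nat_lit 480) (nat_lit 5) (nat_lit 504) (nat_lit 5) (nat_lit 505) (nat_lit 5) (nat_lit 627) (nat_lit 609) (nat_lit 324))) (XT.nd (nat_lit 78) (nat_lit 0) (nat_lit 76) (XT.lf (nat_lit 76) (nat_lit 6843734611) (nat_lit 0) (nat_lit 12889957632) (nat_lit 1900) (nat_lit 9055124725) (nat_lit 481) (nat_lit 5) (nat_lit 480) (nat_lit 5) (nat_lit 505) (nat_lit 5) (nat_lit 628) (nat_lit 609) (nat_lit 323)) (XT.lf (nat_lit 0) (nat_lit 21822432894) (nat_lit 1824) (nat_lit 6799762712) (nat_lit 1900) (nat_lit 470939056) (nat_lit 481) (nat_lit 5) (nat_lit 505) (nat_lit 5) (nat_lit 506) (nat_lit 5) (nat_lit 629) (nat_lit 609) (nat_lit 322)))))) (XT.nd (nat_lit 546) (nat_lit 3572) (nat_lit 0) (XT.nd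 (nat_lit 234) (nat_lit 2812) (nat_lit 0) (XT.nd (nat_lit 78) (nat_lit 0) (nat_lit 0) (XT.lf (nat_lit 76) (nat_lit 8675136979) (nat_lit 0) (nat_lit 15417342726) (nat_lit 1900) (nat_lit 5308268505) (nat_lit 482) (nat_lit 5) (nat_lit 481) (nat_lit 5) (nat_lit 506) (nat_lit 5) (nat_lit 630) (nat_lit 609) (nat_lit 321)) (XT.nd (nat_lit 78) (nat_lit 0) (nat_lit 76) (XT.lf (nat_lit 76) (nat_lit 24549980305) (nat_lit 0) (nat_lit 1901450870) (nat_lit 1900) (nat_lit 3262212906) (nat_lit 482) (nat_lit 5) (nat_lit 481) (nat_lit 5) (nat_lit 506) (nat_lit 5) (nat_lit 631) (nat_lit 609) (nat_lit 320)) (XT.lf (nat_lit 76) (nat_lit 10771896824) (nat_lit 0) (nat_lit 18230684855) (nat_lit 1900) (nat_lit 1027315913) (nat_lit 483) (nat_lit 5) (nat_lit 482) (nat_lit 5) (nat_lit 507) (nat_lit 5) (nat_lit 632) (nat_lit 609) (nat_lit 319)))) (XT.nd (nat_lit 156) (nat_lit 988) (nat_lit 0) (XT.nd (nat_lit 78) (nat_lit 0) (nat_lit 76) (XT.lf (nat_lit 0) (nat_lit 1281261797) (nat_lit 1900) (nat_lit 3278325763) (nat_lit 1976) (nat_lit 25791817987) (nat_lit 457) (nat_lit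 5) (nat_lit 482) (nat_lit 5) (nat_lit 483) (nat_lit 5) (nat_lit 633) (nat_lit 609) (nat_lit 318)) (XT.lf (nat_lit 0) (nat_lit 3767397764) (nat_lit 1900) (nat_lit 17553734900) (nat_lit 76) (nat_lit 9355172454) (nat_lit 458) (nat_lit 5) (nat_lit 483) (nat_lit 5) (nat_lit 459) (nat_lit 5) (nat_lit 634) (nat_lit 609) (nat_lit 317))) (XT.nd (nat_lit 78) (nat_lit 1064) (nat_lit 0) (XT.lf (nat_lit 0) (nat_lit 6353602269) (nat_lit 1900) (nat_lit 1143431451) (nat_lit 76) (nat_lit 23509662158) (nat_lit 458) (nat_lit 5) (nat_lit 483) (nat_lit 5) (nat_lit 459) (nat_lit 5) (nat_lit 635) (nat_lit 609) (nat_lit 316)) (XT.lf (nat_lit 0) (nat_lit 9135718350) (nat_lit 1140) (nat_lit 15584647337) (nat_lit 76) (nat_lit 6620445127) (nat_lit 444) (nat_lit 5) (nat_lit 459) (nat_lit 5) (nat_lit 445) (nat_lit 5) (nat_lit 636) (nat_lit 609) (nat_lit 315))))) (XT.nd (nat_lit 312) (nat_lit 1748) (nat_lit 0) (XT.nd (nat_lit 156) (nat_lit 912) (nat_lit 0) (XT.nd (nat_lit 78) (nat_lit 0) (nat_lit 0) (XT.lf (nat_lit 0) (nat_lit 1293312860) (nat_lit 912) (nat_lit 10744006767)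 (nat_lit 988) (nat_lit 19643011673) (nat_lit 432) (nat_lit 5) (nat_lit 444) (nat_lit 5) (nat_lit 445) (nat_lit 5) (nat_lit 637) (nat_lit 609) (nat_lit 314)) (XT.lf (nat_lit 0) (nat_lit 15123128545) (nat_lit 988) (nat_lit 13329730447) (nat_lit 76) (nat_lit 3571259801) (nat_lit 432) (nat_lit 5) (nat_lit 445) (nat_lit 5) (nat_lit 433) (nat_lit 5) (nat_lit 638) (nat_lit 609) (nat_lit 313))) (XT.nd (nat_lit 78) (nat_lit 0) (nat_lit 0) (XT.lf (nat_lit 0) (nat_lit 4048915859) (nat_lit 912) (nat_lit 14317316024) (nat_lit 988) (nat_lit 14006638691) (nat_lit 420) (nat_lit 5) (nat_lit 432) (nat_lit 5) (nat_lit 433) (nat_lit 5) (nat_lit 639) (nat_lit 609) (nat_lit 312)) (XT.lf (nat_lit 0) (nat_lit 21763058199) (nat_lit 988) (nat_lit 10773996521) (nat_lit 76) (nat_lit 189765557) (nat_lit 420) (nat_lit 5) (nat_lit 433) (nat_lit 5) (nat_lit 421) (nat_lit 5) (nat_lit 640) (nat_lit 609) (nat_lit 311)))) (XT.nd (nat_lit 156) (nat_lit 912) (nat_lit 0) (XT.nd (nat_lit 78) (nat_lit 0) (nat_lit 0) (XT.lf (nat_lit 0) (nat_lit 7123845792) (nat_lit 836) (nat_lit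 18243244316) (nat_lit 912) (nat_lit 7717973586) (nat_lit 409) (nat_lit 5) (nat_lit 420) (nat_lit 5) (nat_lit 421) (nat_lit 5) (nat_lit 641) (nat_lit 609) (nat_lit 310)) (XT.lf (nat_lit 0) (nat_lit 25523971783) (nat_lit 836) (nat_lit 3589753882) (nat_lit 912) (nat_lit 4335335952) (nat_lit 409) (nat_lit 5) (nat_lit 420) (nat_lit 5) (nat_lit 421) (nat_lit 5) (nat_lit 642) (nat_lit 609) (nat_lit 309))) (XT.nd (nat_lit 78) (nat_lit 76) (nat_lit 0) (XT.lf (nat_lit 0) (nat_lit 10534467156) (nat_lit 836) (nat_lit 22541218468) (nat_lit 912) (nat_lit 741846139) (nat_lit 398) (nat_lit 5) (nat_lit 409) (nat_lit 5) (nat_lit 410) (nat_lit 5) (nat_lit 643) (nat_lit 609) (nat_lit 308)) (XT.lf (nat_lit 0) (nat_lit 2960748588) (nat_lit 912) (nat_lit 4766503417) (nat_lit 76) (nat_lit 26464228221) (nat_lit 397) (nat_lit 5) (nat_lit 409) (nat_lit 5) (nat_lit 398) (nat_lit 5) (nat_lit 644) (nat_lit 609) (nat_lit 307))))))))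
noncomputable def xc116 : XT := (XT.nd (nat_lit 80106) (nat_lit 0) (nat_lit 0) (XT.nd (nat_lit 78936) (nat_lit 0) (nat_lit 9804) (XT.nd (nat_lit 546) (nat_lit 760) (nat_lit 0) (XT.nd (nat_lit 234) (nat_lit 1520) (nat_lit 0) (XT.nd (nat_lit 78) (nat_lit 836) (nat_lit 0) (XT.lf (nat_lit 0) (nat_lit 6867212242) (nat_lit 912) (nat_lit 20318225244) (nat_lit 76) (nat_lit 7384577187) (nat_lit 386) (nat_lit 5) (nat_lit 398) (nat_lit 5) (nat_lit 387) (nat_lit 5) (nat_lit 645) (nat_lit 609) (nat_lit 306)) (XT.nd (nat_lit 78) (nat_lit 836) (nat_lit 0) (XT.lf (nat_lit 0) (nat_lit 10933503323) (nat_lit 912) (nat_lit 1293525712) (nat_lit 76) (nat_lit 22727456899) (nat_lit 386) (nat_lit 5) (nat_lit 398) (nat_lit 5) (nat_lit 387) (nat_lit 5) (nat_lit 646) (nat_lit 609) (nat_lit 305)) (XT.lf (nat_lit 0) (nat_lit 15219089451) (nat_lit 912) (nat_lit 17014107325) (nat_lit 76) (nat_lit 3110690548) (nat_lit 375) (nat_lit 5) (nat_lit 387) (nat_lit 5) (nat_lit 376) (nat_lit 5) (nat_lit 647) (nat_lit 609) (nat_lit 304)))) (XT.nd (nat_lit 156) (nat_lit 760) (nat_lit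 0) (XT.nd (nat_lit 78) (nat_lit 0) (nat_lit 0) (XT.lf (nat_lit 0) (nat_lit 2573192879) (nat_lit 760) (nat_lit 17121993196) (nat_lit 836) (nat_lit 16043794779) (nat_lit 365) (nat_lit 5) (nat_lit 375) (nat_lit 5) (nat_lit 376) (nat_lit 5) (nat_lit 648) (nat_lit 609) (nat_lit 303)) (XT.lf (nat_lit 0) (nat_lit 22781174425) (nat_lit 760) (nat_lit 1592205039) (nat_lit 836) (nat_lit 11766345376) (nat_lit 365) (nat_lit 5) (nat_lit 375) (nat_lit 5) (nat_lit 376) (nat_lit 5) (nat_lit 649) (nat_lit 609) (nat_lit 302))) (XT.nd (nat_lit 78) (nat_lit 0) (nat_lit 0) (XT.lf (nat_lit 0) (nat_lit 6840342652) (nat_lit 760) (nat_lit 22440146695) (nat_lit 836) (nat_lit 7265287392) (nat_lit 355) (nat_lit 5) (nat_lit 365) (nat_lit 5) (nat_lit 366) (nat_lit 5) (nat_lit 650) (nat_lit 609) (nat_lit 301)) (XT.lf (nat_lit 0) (nat_lit 27611925913) (nat_lit 760) (nat_lit 6772385230) (nat_lit 836) (nat_lit 2573667218) (nat_lit 355) (nat_lit 5) (nat_lit 365) (nat_lit 5) (nat_lit 366) (nat_lit 5) (nat_lit 651) (nat_lit 609) (nat_lit 300))))) (XT.nd (nat_lit 78078) (nat_lit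 0) (nat_lit 9652) (XT.nd (nat_lit 77922) (nat_lit 0) (nat_lit 9576) (XT.nd (nat_lit 78) (nat_lit 0) (nat_lit 0) (XT.lf (nat_lit 0) (nat_lit 2316659186) (nat_lit 760) (nat_lit 25881000250) (nat_lit 76) (nat_lit 9177799816) (nat_lit 345) (nat_lit 5) (nat_lit 355) (nat_lit 5) (nat_lit 346) (nat_lit 5) (nat_lit 652) (nat_lit 609) (nat_lit 299)) (XT.lf (nat_lit 0) (nat_lit 7376835667) (nat_lit 760) (nat_lit 4985563779) (nat_lit 76) (nat_lit 25436420052) (nat_lit 345) (nat_lit 5) (nat_lit 355) (nat_lit 5) (nat_lit 346) (nat_lit 5) (nat_lit 653) (nat_lit 609) (nat_lit 298))) (XT.nd (nat_lit 78) (nat_lit 0) (nat_lit 0) (XT.lf (nat_lit 0) (nat_lit 518959858) (nat_lit 1900) (nat_lit 5793442837) (nat_lit 1900) (nat_lit 5793442837) (nat_lit 471) (nat_lit 3) (nat_lit 496) (nat_lit 3) (nat_lit 496) (nat_lit 5) (nat_lit 610) (nat_lit 610) (nat_lit 340)) (XT.lf (nat_lit 76) (nat_lit 427333255) (nat_lit 0) (nat_lit 736678859) (nat_lit 1900) (nat_lit 23287474751) (nat_lit 472) (nat_lit 5) (nat_lit 471) (nat_lit 3) (nat_lit 496) (nat_lit 5) (nat_lit 611) (nat_lit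 610) (nat_lit 339)))) (XT.nd (nat_lit 156) (nat_lit 0) (nat_lit 76) (XT.nd (nat_lit 78) (nat_lit 0) (nat_lit 0) (XT.lf (nat_lit 0) (nat_lit 1441878691) (nat_lit 1824) (nat_lit 11931684872) (nat_lit 1900) (nat_lit 11319530147) (nat_lit 472) (nat_lit 5) (nat_lit 496) (nat_lit 5) (nat_lit 497) (nat_lit 5) (nat_lit 612) (nat_lit 610) (nat_lit 338)) (XT.lf (nat_lit 76) (nat_lit 401451058) (nat_lit 0) (nat_lit 1328431791) (nat_lit 1900) (nat_lit 23209558417) (nat_lit 473) (nat_lit 5) (nat_lit 472) (nat_lit 5) (nat_lit 497) (nat_lit 5) (nat_lit 613) (nat_lit 610) (nat_lit 337))) (XT.nd (nat_lit 78) (nat_lit 0) (nat_lit 0) (XT.lf (nat_lit 0) (nat_lit 2172539625) (nat_lit 1824) (nat_lit 12119425923) (nat_lit 1900) (nat_lit 10895772545) (nat_lit 473) (nat_lit 5) (nat_lit 497) (nat_lit 5) (nat_lit 498) (nat_lit 5) (nat_lit 614) (nat_lit 610) (nat_lit 336)) (XT.lf (nat_lit 76) (nat_lit 544257899) (nat_lit 0) (nat_lit 2089329131) (nat_lit 1900) (nat_lit 22807223246) (nat_lit 474) (nat_lit 5) (nat_lit 473) (nat_lit 5) (nat_lit 498) (nat_lit 5) (nat_lit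 615) (nat_lit 610) (nat_lit 335)))))) (XT.nd (nat_lit 546) (nat_lit 0) (nat_lit 228) (XT.nd (nat_lit 234) (nat_lit 0) (nat_lit 76) (XT.nd (nat_lit 78) (nat_lit 0) (nat_lit 0) (XT.lf (nat_lit 0) (nat_lit 3250226895) (nat_lit 1824) (nat_lit 12141249869) (nat_lit 1900) (nat_lit 10304539874) (nat_lit 474) (nat_lit 5) (nat_lit 498) (nat_lit 5) (nat_lit 499) (nat_lit 5) (nat_lit 616) (nat_lit 610) (nat_lit 334)) (XT.nd (nat_lit 78) (nat_lit 0) (nat_lit 76) (XT.lf (nat_lit 76) (nat_lit 865055189) (nat_lit 0) (nat_lit 3030909595) (nat_lit 1900) (nat_lit 22060027204) (nat_lit 475) (nat_lit 5) (nat_lit 474) (nat_lit 5) (nat_lit 499) (nat_lit 5) (nat_lit 617) (nat_lit 610) (nat_lit 333)) (XT.lf (nat_lit 0) (nat_lit 4696171737) (nat_lit 1824) (nat_lit 11987853602) (nat_lit 1900) (nat_lit 9534310577) (nat_lit 475) (nat_lit 5) (nat_lit 499) (nat_lit 5) (nat_lit 500) (nat_lit 5) (nat_lit 618) (nat_lit 610) (nat_lit 332)))) (XT.nd (nat_lit 156) (nat_lit 0) (nat_lit 76) (XT.nd (nat_lit 78) (nat_lit 0) (nat_lit 76) (XT.lf (nat_lit 76) (nat_lit 1373605186)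 (nat_lit 0) (nat_lit 4165181169) (nat_lit 1900) (nat_lit 20946612453) (nat_lit 476) (nat_lit 5) (nat_lit 475) (nat_lit 5) (nat_lit 500) (nat_lit 5) (nat_lit 619) (nat_lit 610) (nat_lit 331)) (XT.lf (nat_lit 0) (nat_lit 6532553128) (nat_lit 1824) (nat_lit 11649473589) (nat_lit 1900) (nat_lit 8573090399) (nat_lit 476) (nat_lit 5) (nat_lit 500) (nat_lit 5) (nat_lit 501) (nat_lit 5) (nat_lit 620) (nat_lit 610) (nat_lit 330))) (XT.nd (nat_lit 78) (nat_lit 0) (nat_lit 76) (XT.lf (nat_lit 76) (nat_lit 2080147922) (nat_lit 0) (nat_lit 5504645987) (nat_lit 1900) (nat_lit 19444664057) (nat_lit 477) (nat_lit 5) (nat_lit 476) (nat_lit 5) (nat_lit 501) (nat_lit 5) (nat_lit 621) (nat_lit 610) (nat_lit 329)) (XT.lf (nat_lit 0) (nat_lit 8782540239) (nat_lit 1824) (nat_lit 11115868851) (nat_lit 1900) (nat_lit 7408387476) (nat_lit 477) (nat_lit 5) (nat_lit 501) (nat_lit 5) (nat_lit 502) (nat_lit 5) (nat_lit 622) (nat_lit 610) (nat_lit 328))))) (XT.nd (nat_lit 312) (nat_lit 0) (nat_lit 152) (XT.nd (nat_lit 156) (nat_lit 0) (nat_lit 76) (XT.nd (nat_lit 78)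 (nat_lit 0) (nat_lit 76) (XT.lf (nat_lit 76) (nat_lit 2995418891) (nat_lit 0) (nat_lit 7062326021) (nat_lit 1900) (nat_lit 17530867102) (nat_lit 478) (nat_lit 5) (nat_lit 477) (nat_lit 5) (nat_lit 502) (nat_lit 5) (nat_lit 623) (nat_lit 610) (nat_lit 327)) (XT.lf (nat_lit 0) (nat_lit 11470336500) (nat_lit 1824) (nat_lit 10376303179) (nat_lit 1900) (nat_lit 6027186576) (nat_lit 478) (nat_lit 5) (nat_lit 502) (nat_lit 5) (nat_lit 503) (nat_lit 5) (nat_lit 624) (nat_lit 610) (nat_lit 326))) (XT.nd (nat_lit 78) (nat_lit 0) (nat_lit 76) (XT.lf (nat_lit 76) (nat_lit 4130667533) (nat_lit 0) (nat_lit 8851789661) (nat_lit 1900) (nat_lit 15180862182) (nat_lit 479) (nat_lit 5) (nat_lit 478) (nat_lit 5) (nat_lit 503) (nat_lit 5) (nat_lit 625) (nat_lit 610) (nat_lit 325)) (XT.lf (nat_lit 0) (nat_lit 14621225371) (nat_lit 1824) (nat_lit 9419526556) (nat_lit 1900) (nat_lit 4415922466) (nat_lit 479) (nat_lit 5) (nat_lit 503) (nat_lit 5) (nat_lit 504) (nat_lit 5) (nat_lit 626) (nat_lit 610) (nat_lit 324)))) (XT.nd (nat_lit 156) (nat_lit 0) (nat_lit 76) (XT.nd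 (nat_lit 78) (nat_lit 0) (nat_lit 76) (XT.lf (nat_lit 76) (nat_lit 5497676524) (nat_lit 0) (nat_lit 10887179215) (nat_lit 1900) (nat_lit 12369199169) (nat_lit 480) (nat_lit 5) (nat_lit 479) (nat_lit 5) (nat_lit 504) (nat_lit 5) (nat_lit 627) (nat_lit 610) (nat_lit 323)) (XT.lf (nat_lit 0) (nat_lit 18261617873) (nat_lit 1824) (nat_lit 8233755777) (nat_lit 1900) (nat_lit 2560452331) (nat_lit 480) (nat_lit 5) (nat_lit 504) (nat_lit 5) (nat_lit 505) (nat_lit 5) (nat_lit 628) (nat_lit 610) (nat_lit 322))) (XT.nd (nat_lit 78) (nat_lit 0) (nat_lit 76) (XT.lf (nat_lit 76) (nat_lit 7108781908) (nat_lit 0) (nat_lit 13183239383) (nat_lit 1900) (nat_lit 9069289192) (nat_lit 481) (nat_lit 5) (nat_lit 480) (nat_lit 5) (nat_lit 505) (nat_lit 5) (nat_lit 629) (nat_lit 610) (nat_lit 321)) (XT.lf (nat_lit 0) (nat_lit 22419101970) (nat_lit 1824) (nat_lit 6806654236) (nat_lit 1900) (nat_lit 446027211) (nat_lit 481) (nat_lit 5) (nat_lit 505) (nat_lit 5) (nat_lit 506) (nat_lit 5) (nat_lit 630) (nat_lit 610) (nat_lit 320))))))) (XT.nd (nat_lit 1170) (nat_lit 3952)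 (nat_lit 0) (XT.nd (nat_lit 546) (nat_lit 3572) (nat_lit 0) (XT.nd (nat_lit 234) (nat_lit 2812) (nat_lit 0) (XT.nd (nat_lit 78) (nat_lit 0) (nat_lit 0) (XT.lf (nat_lit 76) (nat_lit 8976894083) (nat_lit 0) (nat_lit 15755346771) (nat_lit 1900) (nat_lit 5253354748) (nat_lit 482) (nat_lit 5) (nat_lit 481) (nat_lit 5) (nat_lit 506) (nat_lit 5) (nat_lit 631) (nat_lit 610) (nat_lit 319)) (XT.nd (nat_lit 78) (nat_lit 0) (nat_lit 76) (XT.lf (nat_lit 76) (nat_lit 25166719483) (nat_lit 0) (nat_lit 1968555564) (nat_lit 1900) (nat_lit 3169536451) (nat_lit 482) (nat_lit 5) (nat_lit 481) (nat_lit 5) (nat_lit 506) (nat_lit 5) (nat_lit 632) (nat_lit 610) (nat_lit 318)) (XT.lf (nat_lit 76) (nat_lit 11115519669) (nat_lit 0) (nat_lit 18619540485) (nat_lit 1900) (nat_lit 892377874) (nat_lit 483) (nat_lit 5) (nat_lit 482) (nat_lit 5) (nat_lit 507) (nat_lit 5) (nat_lit 633) (nat_lit 610) (nat_lit 317)))) (XT.nd (nat_lit 156) (nat_lit 988) (nat_lit 0) (XT.nd (nat_lit 78) (nat_lit 0) (nat_lit 76) (XT.lf (nat_lit 0) (nat_lit 1457323457) (nat_lit 1900) (nat_lit 3216212948)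 (nat_lit 1976) (nat_lit 26281879895) (nat_lit 457) (nat_lit 5) (nat_lit 482) (nat_lit 5) (nat_lit 483) (nat_lit 5) (nat_lit 634) (nat_lit 610) (nat_lit 316)) (XT.lf (nat_lit 0) (nat_lit 3990916530) (nat_lit 1900) (nat_lit 17774856194) (nat_lit 76) (nat_lit 9521086618) (nat_lit 458) (nat_lit 5) (nat_lit 483) (nat_lit 5) (nat_lit 459) (nat_lit 5) (nat_lit 635) (nat_lit 610) (nat_lit 315))) (XT.nd (nat_lit 78) (nat_lit 1064) (nat_lit 0) (XT.lf (nat_lit 0) (nat_lit 6625939816) (nat_lit 1900) (nat_lit 1038894781) (nat_lit 76) (nat_lit 23959081592) (nat_lit 458) (nat_lit 5) (nat_lit 483) (nat_lit 5) (nat_lit 459) (nat_lit 5) (nat_lit 636) (nat_lit 610) (nat_lit 314)) (XT.lf (nat_lit 0) (nat_lit 9461563388) (nat_lit 1140) (nat_lit 15766792022) (nat_lit 76) (nat_lit 6736400873) (nat_lit 444) (nat_lit 5) (nat_lit 459) (nat_lit 5) (nat_lit 445) (nat_lit 5) (nat_lit 637) (nat_lit 610) (nat_lit 313))))) (XT.nd (nat_lit 312) (nat_lit 1748) (nat_lit 0) (XT.nd (nat_lit 156) (nat_lit 912) (nat_lit 0) (XT.nd (nat_lit 78) (nat_lit 0) (nat_lit 0) (XT.lf (nat_lit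 0) (nat_lit 1447875087) (nat_lit 912) (nat_lit 10971350700) (nat_lit 988) (nat_lit 19891880971) (nat_lit 432) (nat_lit 5) (nat_lit 444) (nat_lit 5) (nat_lit 445) (nat_lit 5) (nat_lit 638) (nat_lit 610) (nat_lit 312)) (XT.lf (nat_lit 0) (nat_lit 15563903707) (nat_lit 988) (nat_lit 13467297544) (nat_lit 76) (nat_lit 3630625848) (nat_lit 432) (nat_lit 5) (nat_lit 445) (nat_lit 5) (nat_lit 433) (nat_lit 5) (nat_lit 639) (nat_lit 610) (nat_lit 311))) (XT.nd (nat_lit 78) (nat_lit 0) (nat_lit 0) (XT.lf (nat_lit 0) (nat_lit 4258072823) (nat_lit 912) (nat_lit 14611916499) (nat_lit 988) (nat_lit 14147602344) (nat_lit 420) (nat_lit 5) (nat_lit 432) (nat_lit 5) (nat_lit 433) (nat_lit 5) (nat_lit 640) (nat_lit 610) (nat_lit 310)) (XT.lf (nat_lit 0) (nat_lit 22332024470) (nat_lit 988) (nat_lit 10861075904) (nat_lit 76) (nat_lit 185574692) (nat_lit 420) (nat_lit 5) (nat_lit 433) (nat_lit 5) (nat_lit 421) (nat_lit 5) (nat_lit 641) (nat_lit 610) (nat_lit 309)))) (XT.nd (nat_lit 156) (nat_lit 912) (nat_lit 0) (XT.nd (nat_lit 78) (nat_lit 0) (nat_lit 0) (XT.lf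 (nat_lit 0) (nat_lit 7393878514) (nat_lit 836) (nat_lit 18612465012) (nat_lit 912) (nat_lit 7737775843) (nat_lit 409) (nat_lit 5) (nat_lit 420) (nat_lit 5) (nat_lit 421) (nat_lit 5) (nat_lit 642) (nat_lit 610) (nat_lit 308)) (XT.lf (nat_lit 0) (nat_lit 26159505931) (nat_lit 836) (nat_lit 3665819361) (nat_lit 912) (nat_lit 4290123834) (nat_lit 409) (nat_lit 5) (nat_lit 420) (nat_lit 5) (nat_lit 421) (nat_lit 5) (nat_lit 643) (nat_lit 610) (nat_lit 307))) (XT.nd (nat_lit 78) (nat_lit 76) (nat_lit 0) (XT.lf (nat_lit 0) (nat_lit 10871992687) (nat_lit 836) (nat_lit 22992792298) (nat_lit 912) (nat_lit 626538620) (nat_lit 398) (nat_lit 5) (nat_lit 409) (nat_lit 5) (nat_lit 410) (nat_lit 5) (nat_lit 644) (nat_lit 610) (nat_lit 306)) (XT.lf (nat_lit 0) (nat_lit 3145882751) (nat_lit 912) (nat_lit 4735804077) (nat_lit 76) (nat_lit 26991097815) (nat_lit 397) (nat_lit 5) (nat_lit 409) (nat_lit 5) (nat_lit 398) (nat_lit 5) (nat_lit 645) (nat_lit 610) (nat_lit 305)))))) (XT.nd (nat_lit 546) (nat_lit 760) (nat_lit 0) (XT.nd (nat_lit 234) (nat_lit 1520)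 (nat_lit 0) (XT.nd (nat_lit 78) (nat_lit 836) (nat_lit 0) (XT.lf (nat_lit 0) (nat_lit 7128825642) (nat_lit 912) (nat_lit 20596903632) (nat_lit 76) (nat_lit 7533193638) (nat_lit 386) (nat_lit 5) (nat_lit 398) (nat_lit 5) (nat_lit 387) (nat_lit 5) (nat_lit 646) (nat_lit 610) (nat_lit 304)) (XT.nd (nat_lit 78) (nat_lit 836) (nat_lit 0) (XT.lf (nat_lit 0) (nat_lit 11274005894) (nat_lit 912) (nat_lit 1194213759) (nat_lit 76) (nat_lit 23182912808) (nat_lit 386) (nat_lit 5) (nat_lit 398) (nat_lit 5) (nat_lit 387) (nat_lit 5) (nat_lit 647) (nat_lit 610) (nat_lit 303)) (XT.lf (nat_lit 0) (nat_lit 15643748964) (nat_lit 912) (nat_lit 17227645810) (nat_lit 76) (nat_lit 3176958330) (nat_lit 375) (nat_lit 5) (nat_lit 387) (nat_lit 5) (nat_lit 376) (nat_lit 5) (nat_lit 648) (nat_lit 610) (nat_lit 302)))) (XT.nd (nat_lit 156) (nat_lit 760) (nat_lit 0) (XT.nd (nat_lit 78) (nat_lit 0) (nat_lit 0) (XT.lf (nat_lit 0) (nat_lit 2750566558) (nat_lit 760) (nat_lit 17457260065) (nat_lit 836) (nat_lit 16243552824) (nat_lit 365) (nat_lit 5) (nat_lit 375) (nat_lit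 5) (nat_lit 376) (nat_lit 5) (nat_lit 649) (nat_lit 610) (nat_lit 301)) (XT.lf (nat_lit 0) (nat_lit 23360238915) (nat_lit 760) (nat_lit 1617016793) (nat_lit 836) (nat_lit 11882929293) (nat_lit 365) (nat_lit 5) (nat_lit 375) (nat_lit 5) (nat_lit 376) (nat_lit 5) (nat_lit 650) (nat_lit 610) (nat_lit 300))) (XT.nd (nat_lit 78) (nat_lit 0) (nat_lit 0) (XT.lf (nat_lit 0) (nat_lit 7102052015) (nat_lit 760) (nat_lit 22879028963) (nat_lit 836) (nat_lit 7293305615) (nat_lit 355) (nat_lit 5) (nat_lit 365) (nat_lit 5) (nat_lit 366) (nat_lit 5) (nat_lit 651) (nat_lit 610) (nat_lit 299)) (XT.lf (nat_lit 0) (nat_lit 28286617873) (nat_lit 760) (nat_lit 6898106791) (nat_lit 836) (nat_lit 2510152793) (nat_lit 355) (nat_lit 5) (nat_lit 365) (nat_lit 5) (nat_lit 366) (nat_lit 5) (nat_lit 652) (nat_lit 610) (nat_lit 298))))) (XT.nd (nat_lit 78156) (nat_lit 0) (nat_lit 9652) (XT.nd (nat_lit 78000) (nat_lit 0) (nat_lit 9576) (XT.nd (nat_lit 77922) (nat_lit 0) (nat_lit 9576) (XT.lf (nat_lit 0) (nat_lit 2475118597) (nat_lit 760) (nat_lit 26273293769) (nat_lit 76)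 (nat_lit 9372307851) (nat_lit 345) (nat_lit 5) (nat_lit 355) (nat_lit 5) (nat_lit 346) (nat_lit 5) (nat_lit 653) (nat_lit 610) (nat_lit 297)) (XT.lf (nat_lit 0) (nat_lit 641544452) (nat_lit 1900) (nat_lit 5852083540) (nat_lit 1900) (nat_lit 5852083540) (nat_lit 471) (nat_lit 3) (nat_lit 496) (nat_lit 3) (nat_lit 496) (nat_lit 5) (nat_lit 611) (nat_lit 611) (nat_lit 338))) (XT.nd (nat_lit 78) (nat_lit 0) (nat_lit 76) (XT.lf (nat_lit 76) (nat_lit 549583227) (nat_lit 0) (nat_lit 858457947) (nat_lit 1900) (nat_lit 23528047108) (nat_lit 472) (nat_lit 5) (nat_lit 471) (nat_lit 3) (nat_lit 496) (nat_lit 5) (nat_lit 612) (nat_lit 611) (nat_lit 337)) (XT.lf (nat_lit 0) (nat_lit 1686455293) (nat_lit 1824) (nat_lit 12053821867) (nat_lit 1900) (nat_lit 11442350564) (nat_lit 472) (nat_lit 5) (nat_lit 496) (nat_lit 5) (nat_lit 497) (nat_lit 5) (nat_lit 613) (nat_lit 611) (nat_lit 336)))) (XT.nd (nat_lit 156) (nat_lit 0) (nat_lit 76) (XT.nd (nat_lit 78) (nat_lit 0) (nat_lit 76) (XT.lf (nat_lit 76) (nat_lit 525210356) (nat_lit 0) (nat_lit 1451530397) (nat_lit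 1900) (nat_lit 23457231307) (nat_lit 473) (nat_lit 5) (nat_lit 472) (nat_lit 5) (nat_lit 497) (nat_lit 5) (nat_lit 614) (nat_lit 611) (nat_lit 335)) (XT.lf (nat_lit 0) (nat_lit 2423474252) (nat_lit 1824) (nat_lit 12243564399) (nat_lit 1900) (nat_lit 11020291954) (nat_lit 473) (nat_lit 5) (nat_lit 497) (nat_lit 5) (nat_lit 498) (nat_lit 5) (nat_lit 615) (nat_lit 611) (nat_lit 334))) (XT.nd (nat_lit 78) (nat_lit 0) (nat_lit 76) (XT.lf (nat_lit 76) (nat_lit 672615139) (nat_lit 0) (nat_lit 2217821862) (nat_lit 1900) (nat_lit 23055093589) (nat_lit 474) (nat_lit 5) (nat_lit 473) (nat_lit 5) (nat_lit 498) (nat_lit 5) (nat_lit 616) (nat_lit 611) (nat_lit 333)) (XT.lf (nat_lit 0) (nat_lit 3514854254) (nat_lit 1824) (nat_lit 12264338663) (nat_lit 1900) (nat_lit 10426739513) (nat_lit 474) (nat_lit 5) (nat_lit 498) (nat_lit 5) (nat_lit 499) (nat_lit 5) (nat_lit 617) (nat_lit 611) (nat_lit 332))))))))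
noncomputable def xc117 : XT := (XT.nd (nat_lit 2340) (nat_lit 2356) (nat_lit 0) (XT.nd (nat_lit 1170) (nat_lit 6688) (nat_lit 0) (XT.nd (nat_lit 546) (nat_lit 0) (nat_lit 304) (XT.nd (nat_lit 234) (nat_lit 0) (nat_lit 152) (XT.nd (nat_lit 78) (nat_lit 0) (nat_lit 76) (XT.lf (nat_lit 76) (nat_lit 1001304758) (nat_lit 0) (nat_lit 3169060261) (nat_lit 1900) (nat_lit 22300805341) (nat_lit 475) (nat_lit 5) (nat_lit 474) (nat_lit 5) (nat_lit 499) (nat_lit 5) (nat_lit 618) (nat_lit 611) (nat_lit 331)) (XT.nd (nat_lit 78) (nat_lit 0) (nat_lit 0) (XT.lf (nat_lit 0) (nat_lit 4982230022) (nat_lit 1824) (nat_lit 12106636827) (nat_lit 1900) (nat_lit 9649981472) (nat_lit 475) (nat_lit 5) (nat_lit 499) (nat_lit 5) (nat_lit 500) (nat_lit 5) (nat_lit 619) (nat_lit 611) (nat_lit 330)) (XT.lf (nat_lit 76) (nat_lit 1521255257) (nat_lit 0) (nat_lit 4317454602) (nat_lit 1900) (nat_lit 21172602583) (nat_lit 476) (nat_lit 5) (nat_lit 475) (nat_lit 5) (nat_lit 500) (nat_lit 5) (nat_lit 620) (nat_lit 611) (nat_lit 329)))) (XT.nd (nat_lit 156) (nat_lit 0) (nat_lit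 76) (XT.nd (nat_lit 78) (nat_lit 0) (nat_lit 0) (XT.lf (nat_lit 0) (nat_lit 6848204169) (nat_lit 1824) (nat_lit 11760482562) (nat_lit 1900) (nat_lit 8677821562) (nat_lit 476) (nat_lit 5) (nat_lit 500) (nat_lit 5) (nat_lit 501) (nat_lit 5) (nat_lit 621) (nat_lit 611) (nat_lit 328)) (XT.lf (nat_lit 76) (nat_lit 2242928876) (nat_lit 0) (nat_lit 5675720207) (nat_lit 1900) (nat_lit 19647743910) (nat_lit 477) (nat_lit 5) (nat_lit 476) (nat_lit 5) (nat_lit 501) (nat_lit 5) (nat_lit 622) (nat_lit 611) (nat_lit 327))) (XT.nd (nat_lit 78) (nat_lit 0) (nat_lit 0) (XT.lf (nat_lit 0) (nat_lit 9136390421) (nat_lit 1824) (nat_lit 11215413622) (nat_lit 1900) (nat_lit 7497553735) (nat_lit 477) (nat_lit 5) (nat_lit 501) (nat_lit 5) (nat_lit 502) (nat_lit 5) (nat_lit 623) (nat_lit 611) (nat_lit 326)) (XT.lf (nat_lit 76) (nat_lit 3177292161) (nat_lit 0) (nat_lit 7257104799) (nat_lit 1900) (nat_lit 17702466831) (nat_lit 478) (nat_lit 5) (nat_lit 477) (nat_lit 5) (nat_lit 502) (nat_lit 5) (nat_lit 624) (nat_lit 611) (nat_lit 325))))) (XT.nd (nat_lit 312) (nat_lit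 0) (nat_lit 152) (XT.nd (nat_lit 156) (nat_lit 0) (nat_lit 76) (XT.nd (nat_lit 78) (nat_lit 0) (nat_lit 0) (XT.lf (nat_lit 0) (nat_lit 11871458507) (nat_lit 1824) (nat_lit 10460463633) (nat_lit 1900) (nat_lit 6095936021) (nat_lit 478) (nat_lit 5) (nat_lit 502) (nat_lit 5) (nat_lit 503) (nat_lit 5) (nat_lit 625) (nat_lit 611) (nat_lit 324)) (XT.lf (nat_lit 76) (nat_lit 4335834878) (nat_lit 0) (nat_lit 9075415472) (nat_lit 1900) (nat_lit 15311942421) (nat_lit 479) (nat_lit 5) (nat_lit 478) (nat_lit 5) (nat_lit 503) (nat_lit 5) (nat_lit 626) (nat_lit 611) (nat_lit 323))) (XT.nd (nat_lit 78) (nat_lit 0) (nat_lit 0) (XT.lf (nat_lit 0) (nat_lit 15079180780) (nat_lit 1824) (nat_lit 9484143087) (nat_lit 1900) (nat_lit 4459163483) (nat_lit 479) (nat_lit 5) (nat_lit 503) (nat_lit 5) (nat_lit 504) (nat_lit 5) (nat_lit 627) (nat_lit 611) (nat_lit 322)) (XT.lf (nat_lit 76) (nat_lit 5730589752) (nat_lit 0) (nat_lit 11145046635) (nat_lit 1900) (nat_lit 12450228230) (nat_lit 480) (nat_lit 5) (nat_lit 479) (nat_lit 5) (nat_lit 504) (nat_lit 5) (nat_lit 628)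 (nat_lit 611) (nat_lit 321)))) (XT.nd (nat_lit 156) (nat_lit 0) (nat_lit 76) (XT.nd (nat_lit 78) (nat_lit 0) (nat_lit 0) (XT.lf (nat_lit 0) (nat_lit 18786480644) (nat_lit 1824) (nat_lit 8274419522) (nat_lit 1900) (nat_lit 2572840197) (nat_lit 480) (nat_lit 5) (nat_lit 504) (nat_lit 5) (nat_lit 505) (nat_lit 5) (nat_lit 629) (nat_lit 611) (nat_lit 320)) (XT.lf (nat_lit 76) (nat_lit 7374153053) (nat_lit 0) (nat_lit 13481008937) (nat_lit 1900) (nat_lit 9090219355) (nat_lit 481) (nat_lit 5) (nat_lit 480) (nat_lit 5) (nat_lit 505) (nat_lit 5) (nat_lit 630) (nat_lit 611) (nat_lit 319))) (XT.nd (nat_lit 78) (nat_lit 0) (nat_lit 0) (XT.lf (nat_lit 0) (nat_lit 23021482874) (nat_lit 1824) (nat_lit 6818696845) (nat_lit 1900) (nat_lit 421950230) (nat_lit 481) (nat_lit 5) (nat_lit 505) (nat_lit 5) (nat_lit 506) (nat_lit 5) (nat_lit 631) (nat_lit 611) (nat_lit 318)) (XT.lf (nat_lit 76) (nat_lit 9279706055) (nat_lit 0) (nat_lit 16098959272) (nat_lit 1900) (nat_lit 5203597614) (nat_lit 482) (nat_lit 5) (nat_lit 481) (nat_lit 5) (nat_lit 506) (nat_lit 5)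 (nat_lit 632) (nat_lit 611) (nat_lit 317)))))) (XT.nd (nat_lit 546) (nat_lit 3496) (nat_lit 0) (XT.nd (nat_lit 234) (nat_lit 1900) (nat_lit 0) (XT.nd (nat_lit 78) (nat_lit 1824) (nat_lit 0) (XT.lf (nat_lit 76) (nat_lit 25790910825) (nat_lit 0) (nat_lit 2035873309) (nat_lit 1900) (nat_lit 3081138720) (nat_lit 482) (nat_lit 5) (nat_lit 481) (nat_lit 5) (nat_lit 506) (nat_lit 5) (nat_lit 633) (nat_lit 611) (nat_lit 316)) (XT.nd (nat_lit 78) (nat_lit 1900) (nat_lit 0) (XT.lf (nat_lit 76) (nat_lit 11461037395) (nat_lit 0) (nat_lit 19015231883) (nat_lit 1900) (nat_lit 760778722) (nat_lit 483) (nat_lit 5) (nat_lit 482) (nat_lit 5) (nat_lit 507) (nat_lit 5) (nat_lit 634) (nat_lit 611) (nat_lit 315)) (XT.lf (nat_lit 0) (nat_lit 1631064719) (nat_lit 1900) (nat_lit 3157815821) (nat_lit 1976) (nat_lit 26782743895) (nat_lit 457) (nat_lit 5) (nat_lit 482) (nat_lit 5) (nat_lit 483) (nat_lit 5) (nat_lit 635) (nat_lit 611) (nat_lit 314)))) (XT.nd (nat_lit 156) (nat_lit 1976) (nat_lit 0) (XT.nd (nat_lit 78) (nat_lit 0) (nat_lit 0) (XT.lf (nat_lit 0) (nat_lit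 4213152019) (nat_lit 1900) (nat_lit 18005446163) (nat_lit 76) (nat_lit 9691141871) (nat_lit 458) (nat_lit 5) (nat_lit 483) (nat_lit 5) (nat_lit 459) (nat_lit 5) (nat_lit 636) (nat_lit 611) (nat_lit 313)) (XT.lf (nat_lit 0) (nat_lit 6898083277) (nat_lit 1900) (nat_lit 937214682) (nat_lit 76) (nat_lit 24418296087) (nat_lit 458) (nat_lit 5) (nat_lit 483) (nat_lit 5) (nat_lit 459) (nat_lit 5) (nat_lit 637) (nat_lit 611) (nat_lit 312))) (XT.nd (nat_lit 78) (nat_lit 912) (nat_lit 0) (XT.lf (nat_lit 0) (nat_lit 9788367389) (nat_lit 1140) (nat_lit 15957610119) (nat_lit 76) (nat_lit 6855314630) (nat_lit 444) (nat_lit 5) (nat_lit 459) (nat_lit 5) (nat_lit 445) (nat_lit 5) (nat_lit 638) (nat_lit 611) (nat_lit 311)) (XT.lf (nat_lit 0) (nat_lit 1600531138) (nat_lit 912) (nat_lit 11202757527) (nat_lit 988) (nat_lit 20151318998) (nat_lit 432) (nat_lit 5) (nat_lit 444) (nat_lit 5) (nat_lit 445) (nat_lit 5) (nat_lit 639) (nat_lit 611) (nat_lit 310))))) (XT.nd (nat_lit 312) (nat_lit 1748) (nat_lit 0) (XT.nd (nat_lit 156) (nat_lit 836) (nat_lit 0) (XT.nd (nat_lit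 78) (nat_lit 912) (nat_lit 0) (XT.lf (nat_lit 0) (nat_lit 16008123527) (nat_lit 988) (nat_lit 13612626279) (nat_lit 76) (nat_lit 3691647487) (nat_lit 432) (nat_lit 5) (nat_lit 445) (nat_lit 5) (nat_lit 433) (nat_lit 5) (nat_lit 640) (nat_lit 611) (nat_lit 309)) (XT.lf (nat_lit 0) (nat_lit 4466435593) (nat_lit 912) (nat_lit 14912088465) (nat_lit 988) (nat_lit 14296789376) (nat_lit 420) (nat_lit 5) (nat_lit 432) (nat_lit 5) (nat_lit 433) (nat_lit 5) (nat_lit 641) (nat_lit 611) (nat_lit 308))) (XT.nd (nat_lit 78) (nat_lit 836) (nat_lit 0) (XT.lf (nat_lit 0) (nat_lit 22907178135) (nat_lit 988) (nat_lit 10954882825) (nat_lit 76) (nat_lit 181610122) (nat_lit 420) (nat_lit 5) (nat_lit 433) (nat_lit 5) (nat_lit 421) (nat_lit 5) (nat_lit 642) (nat_lit 611) (nat_lit 307)) (XT.lf (nat_lit 0) (nat_lit 7664358744) (nat_lit 836) (nat_lit 18988900980) (nat_lit 912) (nat_lit 7763199166) (nat_lit 409) (nat_lit 5) (nat_lit 420) (nat_lit 5) (nat_lit 421) (nat_lit 5) (nat_lit 643) (nat_lit 611) (nat_lit 306)))) (XT.nd (nat_lit 156) (nat_lit 912) (nat_lit 0)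 (XT.nd (nat_lit 78) (nat_lit 836) (nat_lit 0) (XT.lf (nat_lit 0) (nat_lit 26802894735) (nat_lit 836) (nat_lit 3743240325) (nat_lit 912) (nat_lit 4249130042) (nat_lit 409) (nat_lit 5) (nat_lit 420) (nat_lit 5) (nat_lit 421) (nat_lit 5) (nat_lit 644) (nat_lit 611) (nat_lit 305)) (XT.lf (nat_lit 0) (nat_lit 11211343525) (nat_lit 836) (nat_lit 23453368503) (nat_lit 912) (nat_lit 513978617) (nat_lit 398) (nat_lit 5) (nat_lit 409) (nat_lit 5) (nat_lit 410) (nat_lit 5) (nat_lit 645) (nat_lit 611) (nat_lit 304))) (XT.nd (nat_lit 78) (nat_lit 836) (nat_lit 0) (XT.lf (nat_lit 0) (nat_lit 3329830001) (nat_lit 912) (nat_lit 4709384625) (nat_lit 76) (nat_lit 27528598577) (nat_lit 397) (nat_lit 5) (nat_lit 409) (nat_lit 5) (nat_lit 398) (nat_lit 5) (nat_lit 646) (nat_lit 611) (nat_lit 303)) (XT.lf (nat_lit 0) (nat_lit 7390845787) (nat_lit 912) (nat_lit 20886113796) (nat_lit 76) (nat_lit 7684746502) (nat_lit 386) (nat_lit 5) (nat_lit 398) (nat_lit 5) (nat_lit 387) (nat_lit 5) (nat_lit 647) (nat_lit 611) (nat_lit 302))))))) (XT.nd (nat_lit 79092) (nat_lit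 0) (nat_lit 9120) (XT.nd (nat_lit 78468) (nat_lit 0) (nat_lit 8816) (XT.nd (nat_lit 234) (nat_lit 760) (nat_lit 0) (XT.nd (nat_lit 78) (nat_lit 1596) (nat_lit 0) (XT.lf (nat_lit 0) (nat_lit 11616587612) (nat_lit 912) (nat_lit 1097776555) (nat_lit 76) (nat_lit 23647442624) (nat_lit 386) (nat_lit 5) (nat_lit 398) (nat_lit 5) (nat_lit 387) (nat_lit 5) (nat_lit 648) (nat_lit 611) (nat_lit 301)) (XT.nd (nat_lit 78) (nat_lit 760) (nat_lit 0) (XT.lf (nat_lit 0) (nat_lit 16072231136) (nat_lit 912) (nat_lit 17450376676) (nat_lit 76) (nat_lit 3244394046) (nat_lit 375) (nat_lit 5) (nat_lit 387) (nat_lit 5) (nat_lit 376) (nat_lit 5) (nat_lit 649) (nat_lit 611) (nat_lit 300)) (XT.lf (nat_lit 0) (nat_lit 2926598478) (nat_lit 760) (nat_lit 17799510808) (nat_lit 836) (nat_lit 16452009184) (nat_lit 365) (nat_lit 5) (nat_lit 375) (nat_lit 5) (nat_lit 376) (nat_lit 5) (nat_lit 650) (nat_lit 611) (nat_lit 299)))) (XT.nd (nat_lit 156) (nat_lit 0) (nat_lit 0) (XT.nd (nat_lit 78) (nat_lit 760) (nat_lit 0) (XT.lf (nat_lit 0) (nat_lit 23946091330) (nat_lit 760)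 (nat_lit 1642597856) (nat_lit 836) (nat_lit 12006455823) (nat_lit 365) (nat_lit 5) (nat_lit 375) (nat_lit 5) (nat_lit 376) (nat_lit 5) (nat_lit 651) (nat_lit 611) (nat_lit 298)) (XT.lf (nat_lit 0) (nat_lit 7364145449) (nat_lit 760) (nat_lit 23327074108) (nat_lit 836) (nat_lit 7326438621) (nat_lit 355) (nat_lit 5) (nat_lit 365) (nat_lit 5) (nat_lit 366) (nat_lit 5) (nat_lit 652) (nat_lit 611) (nat_lit 297))) (XT.nd (nat_lit 78000) (nat_lit 0) (nat_lit 8816) (XT.lf (nat_lit 0) (nat_lit 28970048656) (nat_lit 760) (nat_lit 7026720462) (nat_lit 836) (nat_lit 2449833195) (nat_lit 355) (nat_lit 5) (nat_lit 365) (nat_lit 5) (nat_lit 366) (nat_lit 5) (nat_lit 653) (nat_lit 611) (nat_lit 296)) (XT.lf (nat_lit 0) (nat_lit 762223665) (nat_lit 1900) (nat_lit 5914119295) (nat_lit 1900) (nat_lit 5914119295) (nat_lit 471) (nat_lit 3) (nat_lit 496) (nat_lit 3) (nat_lit 496) (nat_lit 5) (nat_lit 612) (nat_lit 612) (nat_lit 336))))) (XT.nd (nat_lit 312) (nat_lit 0) (nat_lit 152) (XT.nd (nat_lit 156) (nat_lit 0) (nat_lit 76) (XT.nd (nat_lit 78) (nat_lit 0)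 (nat_lit 76) (XT.lf (nat_lit 76) (nat_lit 669862961) (nat_lit 0) (nat_lit 978515910) (nat_lit 1900) (nat_lit 23782174815) (nat_lit 472) (nat_lit 5) (nat_lit 471) (nat_lit 3) (nat_lit 496) (nat_lit 5) (nat_lit 613) (nat_lit 612) (nat_lit 335)) (XT.lf (nat_lit 0) (nat_lit 1927546017) (nat_lit 1824) (nat_lit 12182925310) (nat_lit 1900) (nat_lit 11571649146) (nat_lit 472) (nat_lit 5) (nat_lit 496) (nat_lit 5) (nat_lit 497) (nat_lit 5) (nat_lit 614) (nat_lit 612) (nat_lit 334))) (XT.nd (nat_lit 78) (nat_lit 0) (nat_lit 76) (XT.lf (nat_lit 76) (nat_lit 646950893) (nat_lit 0) (nat_lit 1573342600) (nat_lit 1900) (nat_lit 23718265324) (nat_lit 473) (nat_lit 5) (nat_lit 472) (nat_lit 5) (nat_lit 497) (nat_lit 5) (nat_lit 615) (nat_lit 612) (nat_lit 333)) (XT.lf (nat_lit 0) (nat_lit 2671370722) (nat_lit 1824) (nat_lit 12374777437) (nat_lit 1900) (nat_lit 11150928433) (nat_lit 473) (nat_lit 5) (nat_lit 497) (nat_lit 5) (nat_lit 498) (nat_lit 5) (nat_lit 616) (nat_lit 612) (nat_lit 332)))) (XT.nd (nat_lit 156) (nat_lit 0) (nat_lit 76) (XT.nd (nat_lit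 78) (nat_lit 0) (nat_lit 76) (XT.lf (nat_lit 76) (nat_lit 798977940) (nat_lit 0) (nat_lit 2345517543) (nat_lit 1900) (nat_lit 23316008876) (nat_lit 474) (nat_lit 5) (nat_lit 473) (nat_lit 5) (nat_lit 498) (nat_lit 5) (nat_lit 617) (nat_lit 612) (nat_lit 331)) (XT.lf (nat_lit 0) (nat_lit 3777022562) (nat_lit 1824) (nat_lit 12394538736) (nat_lit 1900) (nat_lit 10554640740) (nat_lit 474) (nat_lit 5) (nat_lit 498) (nat_lit 5) (nat_lit 499) (nat_lit 5) (nat_lit 618) (nat_lit 612) (nat_lit 330))) (XT.nd (nat_lit 78) (nat_lit 0) (nat_lit 76) (XT.lf (nat_lit 76) (nat_lit 1135660404) (nat_lit 0) (nat_lit 3306963261) (nat_lit 1900) (nat_lit 22554181687) (nat_lit 475) (nat_lit 5) (nat_lit 474) (nat_lit 5) (nat_lit 499) (nat_lit 5) (nat_lit 619) (nat_lit 612) (nat_lit 329)) (XT.lf (nat_lit 0) (nat_lit 5266548643) (nat_lit 1824) (nat_lit 12232493278) (nat_lit 1900) (nat_lit 9770878721) (nat_lit 475) (nat_lit 5) (nat_lit 499) (nat_lit 5) (nat_lit 500) (nat_lit 5) (nat_lit 620) (nat_lit 612) (nat_lit 328)))))) (XT.nd (nat_lit 546) (nat_lit 0) (nat_lit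 304) (XT.nd (nat_lit 234) (nat_lit 0) (nat_lit 152) (XT.nd (nat_lit 78) (nat_lit 0) (nat_lit 76) (XT.lf (nat_lit 76) (nat_lit 1667191672) (nat_lit 0) (nat_lit 4470095321) (nat_lit 1900) (nat_lit 21410604693) (nat_lit 476) (nat_lit 5) (nat_lit 475) (nat_lit 5) (nat_lit 500) (nat_lit 5) (nat_lit 621) (nat_lit 612) (nat_lit 327)) (XT.nd (nat_lit 78) (nat_lit 0) (nat_lit 0) (XT.lf (nat_lit 0) (nat_lit 7162984457) (nat_lit 1824) (nat_lit 11878448367) (nat_lit 1900) (nat_lit 8787238581) (nat_lit 476) (nat_lit 5) (nat_lit 500) (nat_lit 5) (nat_lit 501) (nat_lit 5) (nat_lit 622) (nat_lit 612) (nat_lit 326)) (XT.lf (nat_lit 76) (nat_lit 2404259959) (nat_lit 0) (nat_lit 5847847934) (nat_lit 1900) (nat_lit 19862100723) (nat_lit 477) (nat_lit 5) (nat_lit 476) (nat_lit 5) (nat_lit 501) (nat_lit 5) (nat_lit 623) (nat_lit 612) (nat_lit 325)))) (XT.nd (nat_lit 156) (nat_lit 0) (nat_lit 76) (XT.nd (nat_lit 78) (nat_lit 0) (nat_lit 0) (XT.lf (nat_lit 0) (nat_lit 9490397908) (nat_lit 1824) (nat_lit 11321716699) (nat_lit 1900) (nat_lit 7590794419) (nat_lit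 477) (nat_lit 5) (nat_lit 501) (nat_lit 5) (nat_lit 502) (nat_lit 5) (nat_lit 624) (nat_lit 612) (nat_lit 324)) (XT.lf (nat_lit 76) (nat_lit 3358066850) (nat_lit 0) (nat_lit 7453700429) (nat_lit 1900) (nat_lit 17884450027) (nat_lit 478) (nat_lit 5) (nat_lit 477) (nat_lit 5) (nat_lit 502) (nat_lit 5) (nat_lit 625) (nat_lit 612) (nat_lit 323))) (XT.nd (nat_lit 78) (nat_lit 0) (nat_lit 0) (XT.lf (nat_lit 0) (nat_lit 12273935040) (nat_lit 1824) (nat_lit 10551097732) (nat_lit 1900) (nat_lit 6168071690) (nat_lit 478) (nat_lit 5) (nat_lit 502) (nat_lit 5) (nat_lit 503) (nat_lit 5) (nat_lit 626) (nat_lit 612) (nat_lit 322)) (XT.lf (nat_lit 76) (nat_lit 4540346648) (nat_lit 0) (nat_lit 9301704653) (nat_lit 1900) (nat_lit 15452344087) (nat_lit 479) (nat_lit 5) (nat_lit 478) (nat_lit 5) (nat_lit 503) (nat_lit 5) (nat_lit 627) (nat_lit 612) (nat_lit 321))))) (XT.nd (nat_lit 312) (nat_lit 0) (nat_lit 152) (XT.nd (nat_lit 156) (nat_lit 0) (nat_lit 76) (XT.nd (nat_lit 78) (nat_lit 0) (nat_lit 0) (XT.lf (nat_lit 0) (nat_lit 15539867529) (nat_lit 1824) (nat_lit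 9554858244) (nat_lit 1900) (nat_lit 4505019731) (nat_lit 479) (nat_lit 5) (nat_lit 503) (nat_lit 5) (nat_lit 504) (nat_lit 5) (nat_lit 628) (nat_lit 612) (nat_lit 320)) (XT.lf (nat_lit 76) (nat_lit 5963386569) (nat_lit 0) (nat_lit 11406513345) (nat_lit 1900) (nat_lit 12539337636) (nat_lit 480) (nat_lit 5) (nat_lit 479) (nat_lit 5) (nat_lit 504) (nat_lit 5) (nat_lit 629) (nat_lit 612) (nat_lit 319))) (XT.nd (nat_lit 78) (nat_lit 0) (nat_lit 0) (XT.lf (nat_lit 0) (nat_lit 19315642027) (nat_lit 1824) (nat_lit 8320712054) (nat_lit 1900) (nat_lit 2586983295) (nat_lit 480) (nat_lit 5) (nat_lit 504) (nat_lit 5) (nat_lit 505) (nat_lit 5) (nat_lit 630) (nat_lit 612) (nat_lit 318)) (XT.lf (nat_lit 76) (nat_lit 7640047789) (nat_lit 0) (nat_lit 13783409552) (nat_lit 1900) (nat_lit 9117798809) (nat_lit 481) (nat_lit 5) (nat_lit 480) (nat_lit 5) (nat_lit 505) (nat_lit 5) (nat_lit 631) (nat_lit 612) (nat_lit 317)))) (XT.nd (nat_lit 156) (nat_lit 0) (nat_lit 0) (XT.nd (nat_lit 78) (nat_lit 0) (nat_lit 0) (XT.lf (nat_lit 0) (nat_lit 23629931433) (nat_lit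 1824) (nat_lit 6835798891) (nat_lit 1900) (nat_lit 398673043) (nat_lit 481) (nat_lit 5) (nat_lit 505) (nat_lit 5) (nat_lit 506) (nat_lit 5) (nat_lit 632) (nat_lit 612) (nat_lit 316)) (XT.lf (nat_lit 76) (nat_lit 9583787384) (nat_lit 0) (nat_lit 16448337117) (nat_lit 1900) (nat_lit 5158857351) (nat_lit 482) (nat_lit 5) (nat_lit 481) (nat_lit 5) (nat_lit 506) (nat_lit 5) (nat_lit 633) (nat_lit 612) (nat_lit 315))) (XT.nd (nat_lit 78) (nat_lit 0) (nat_lit 76) (XT.lf (nat_lit 76) (nat_lit 26422892970) (nat_lit 0) (nat_lit 2103452206) (nat_lit 1900) (nat_lit 2996867166) (nat_lit 482) (nat_lit 5) (nat_lit 481) (nat_lit 5) (nat_lit 506) (nat_lit 5) (nat_lit 634) (nat_lit 612) (nat_lit 314)) (XT.lf (nat_lit 76) (nat_lit 11808681184) (nat_lit 0) (nat_lit 19417932319) (nat_lit 1900) (nat_lit 632350784) (nat_lit 483) (nat_lit 5) (nat_lit 482) (nat_lit 5) (nat_lit 507) (nat_lit 5) (nat_lit 635) (nat_lit 612) (nat_lit 313))))))))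
noncomputable def xc118 : XT := (XT.nd (nat_lit 80340) (nat_lit 0) (nat_lit 760) (XT.nd (nat_lit 1170) (nat_lit 1520) (nat_lit 0) (XT.nd (nat_lit 546) (nat_lit 3420) (nat_lit 0) (XT.nd (nat_lit 234) (nat_lit 2812) (nat_lit 0) (XT.nd (nat_lit 78) (nat_lit 0) (nat_lit 76) (XT.lf (nat_lit 0) (nat_lit 1802666015) (nat_lit 1900) (nat_lit 3103016171) (nat_lit 1976) (nat_lit 27294587163) (nat_lit 457) (nat_lit 5) (nat_lit 482) (nat_lit 5) (nat_lit 483) (nat_lit 5) (nat_lit 636) (nat_lit 612) (nat_lit 312)) (XT.nd (nat_lit 78) (nat_lit 0) (nat_lit 0) (XT.lf (nat_lit 0) (nat_lit 4434301986) (nat_lit 1900) (nat_lit 18245498229) (nat_lit 76) (nat_lit 9865389085) (nat_lit 458) (nat_lit 5) (nat_lit 483) (nat_lit 5) (nat_lit 459) (nat_lit 5) (nat_lit 637) (nat_lit 612) (nat_lit 311)) (XT.lf (nat_lit 0) (nat_lit 7170247811) (nat_lit 1900) (nat_lit 838256174) (nat_lit 76) (nat_lit 24887470221) (nat_lit 458) (nat_lit 5) (nat_lit 483) (nat_lit 5) (nat_lit 459) (nat_lit 5) (nat_lit 638) (nat_lit 612) (nat_lit 310)))) (XT.nd (nat_lit 156) (nat_lit 912) (nat_lit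 0) (XT.nd (nat_lit 78) (nat_lit 912) (nat_lit 0) (XT.lf (nat_lit 0) (nat_lit 10116365353) (nat_lit 1140) (nat_lit 16157079753) (nat_lit 76) (nat_lit 6977220749) (nat_lit 444) (nat_lit 5) (nat_lit 459) (nat_lit 5) (nat_lit 445) (nat_lit 5) (nat_lit 639) (nat_lit 612) (nat_lit 309)) (XT.lf (nat_lit 0) (nat_lit 1751436943) (nat_lit 912) (nat_lit 11438327299) (nat_lit 988) (nat_lit 20421320010) (nat_lit 432) (nat_lit 5) (nat_lit 444) (nat_lit 5) (nat_lit 445) (nat_lit 5) (nat_lit 640) (nat_lit 612) (nat_lit 308))) (XT.nd (nat_lit 78) (nat_lit 912) (nat_lit 0) (XT.lf (nat_lit 0) (nat_lit 16456065453) (nat_lit 988) (nat_lit 13765677328) (nat_lit 76) (nat_lit 3754339646) (nat_lit 432) (nat_lit 5) (nat_lit 445) (nat_lit 5) (nat_lit 433) (nat_lit 5) (nat_lit 641) (nat_lit 612) (nat_lit 307)) (XT.lf (nat_lit 0) (nat_lit 4674181561) (nat_lit 912) (nat_lit 15217955797) (nat_lit 988) (nat_lit 14454154408) (nat_lit 420) (nat_lit 5) (nat_lit 432) (nat_lit 5) (nat_lit 433) (nat_lit 5) (nat_lit 642) (nat_lit 612) (nat_lit 306))))) (XT.nd (nat_lit 312) (nat_lit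 1748) (nat_lit 0) (XT.nd (nat_lit 156) (nat_lit 836) (nat_lit 0) (XT.nd (nat_lit 78) (nat_lit 836) (nat_lit 0) (XT.lf (nat_lit 0) (nat_lit 23488844550) (nat_lit 988) (nat_lit 11055358224) (nat_lit 76) (nat_lit 177864332) (nat_lit 420) (nat_lit 5) (nat_lit 433) (nat_lit 5) (nat_lit 421) (nat_lit 5) (nat_lit 643) (nat_lit 612) (nat_lit 305)) (XT.lf (nat_lit 0) (nat_lit 7935487767) (nat_lit 836) (nat_lit 19372703094) (nat_lit 912) (nat_lit 7794153083) (nat_lit 409) (nat_lit 5) (nat_lit 420) (nat_lit 5) (nat_lit 421) (nat_lit 5) (nat_lit 644) (nat_lit 612) (nat_lit 304))) (XT.nd (nat_lit 78) (nat_lit 836) (nat_lit 0) (XT.lf (nat_lit 0) (nat_lit 27454483853) (nat_lit 836) (nat_lit 3822050322) (nat_lit 912) (nat_lit 4212240028) (nat_lit 409) (nat_lit 5) (nat_lit 420) (nat_lit 5) (nat_lit 421) (nat_lit 5) (nat_lit 645) (nat_lit 612) (nat_lit 303)) (XT.lf (nat_lit 0) (nat_lit 11552747428) (nat_lit 836) (nat_lit 23923128259) (nat_lit 912) (nat_lit 404024842) (nat_lit 398) (nat_lit 5) (nat_lit 409) (nat_lit 5) (nat_lit 410) (nat_lit 5) (nat_lit 646)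 (nat_lit 612) (nat_lit 302)))) (XT.nd (nat_lit 156) (nat_lit 836) (nat_lit 0) (XT.nd (nat_lit 78) (nat_lit 836) (nat_lit 0) (XT.lf (nat_lit 0) (nat_lit 3512756469) (nat_lit 912) (nat_lit 4687140625) (nat_lit 76) (nat_lit 28076939488) (nat_lit 397) (nat_lit 5) (nat_lit 409) (nat_lit 5) (nat_lit 398) (nat_lit 5) (nat_lit 647) (nat_lit 612) (nat_lit 301)) (XT.lf (nat_lit 0) (nat_lit 7653468193) (nat_lit 912) (nat_lit 21185873837) (nat_lit 76) (nat_lit 7839295902) (nat_lit 386) (nat_lit 5) (nat_lit 398) (nat_lit 5) (nat_lit 387) (nat_lit 5) (nat_lit 648) (nat_lit 612) (nat_lit 300))) (XT.nd (nat_lit 78) (nat_lit 836) (nat_lit 0) (XT.lf (nat_lit 0) (nat_lit 11961473767) (nat_lit 912) (nat_lit 1004082837) (nat_lit 76) (nat_lit 24121229193) (nat_lit 386) (nat_lit 5) (nat_lit 398) (nat_lit 5) (nat_lit 387) (nat_lit 5) (nat_lit 649) (nat_lit 612) (nat_lit 299)) (XT.lf (nat_lit 0) (nat_lit 16504793784) (nat_lit 912) (nat_lit 17682292658) (nat_lit 76) (nat_lit 3313027169) (nat_lit 375) (nat_lit 5) (nat_lit 387) (nat_lit 5) (nat_lit 376) (nat_lit 5)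 (nat_lit 650) (nat_lit 612) (nat_lit 298)))))) (XT.nd (nat_lit 78546) (nat_lit 0) (nat_lit 8968) (XT.nd (nat_lit 78234) (nat_lit 0) (nat_lit 8816) (XT.nd (nat_lit 78) (nat_lit 760) (nat_lit 0) (XT.lf (nat_lit 0) (nat_lit 3101451660) (nat_lit 760) (nat_lit 18148874286) (nat_lit 836) (nat_lit 16669155195) (nat_lit 365) (nat_lit 5) (nat_lit 375) (nat_lit 5) (nat_lit 376) (nat_lit 5) (nat_lit 651) (nat_lit 612) (nat_lit 297)) (XT.nd (nat_lit 78) (nat_lit 760) (nat_lit 0) (XT.lf (nat_lit 0) (nat_lit 24539053561) (nat_lit 760) (nat_lit 1668953011) (nat_lit 836) (nat_lit 12136884771) (nat_lit 365) (nat_lit 5) (nat_lit 375) (nat_lit 5) (nat_lit 376) (nat_lit 5) (nat_lit 652) (nat_lit 612) (nat_lit 296)) (XT.lf (nat_lit 0) (nat_lit 7626818971) (nat_lit 760) (nat_lit 23784450428) (nat_lit 836) (nat_lit 7364611850) (nat_lit 355) (nat_lit 5) (nat_lit 365) (nat_lit 5) (nat_lit 366) (nat_lit 5) (nat_lit 653) (nat_lit 612) (nat_lit 295)))) (XT.nd (nat_lit 156) (nat_lit 0) (nat_lit 76) (XT.nd (nat_lit 78) (nat_lit 0) (nat_lit 0) (XT.lf (nat_lit 0) (nat_lit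 881128580) (nat_lit 1900) (nat_lit 5979531712) (nat_lit 1900) (nat_lit 5979531712) (nat_lit 471) (nat_lit 3) (nat_lit 496) (nat_lit 3) (nat_lit 496) (nat_lit 5) (nat_lit 613) (nat_lit 613) (nat_lit 334)) (XT.lf (nat_lit 76) (nat_lit 788304500) (nat_lit 0) (nat_lit 1096979734) (nat_lit 1900) (nat_lit 24049789443) (nat_lit 472) (nat_lit 5) (nat_lit 471) (nat_lit 3) (nat_lit 496) (nat_lit 5) (nat_lit 614) (nat_lit 613) (nat_lit 333))) (XT.nd (nat_lit 78) (nat_lit 0) (nat_lit 0) (XT.lf (nat_lit 0) (nat_lit 2165406451) (nat_lit 1824) (nat_lit 12318958870) (nat_lit 1900) (nat_lit 11707399285) (nat_lit 472) (nat_lit 5) (nat_lit 496) (nat_lit 5) (nat_lit 497) (nat_lit 5) (nat_lit 615) (nat_lit 613) (nat_lit 332)) (XT.lf (nat_lit 76) (nat_lit 766806798) (nat_lit 0) (nat_lit 1693988224) (nat_lit 1900) (nat_lit 23992601210) (nat_lit 473) (nat_lit 5) (nat_lit 472) (nat_lit 5) (nat_lit 497) (nat_lit 5) (nat_lit 616) (nat_lit 613) (nat_lit 331))))) (XT.nd (nat_lit 312) (nat_lit 0) (nat_lit 152) (XT.nd (nat_lit 156) (nat_lit 0) (nat_lit 76) (XT.nd (nat_lit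 78) (nat_lit 0) (nat_lit 0) (XT.lf (nat_lit 0) (nat_lit 2916481128) (nat_lit 1824) (nat_lit 12513028225) (nat_lit 1900) (nat_lit 11287663495) (nat_lit 473) (nat_lit 5) (nat_lit 497) (nat_lit 5) (nat_lit 498) (nat_lit 5) (nat_lit 617) (nat_lit 613) (nat_lit 330)) (XT.lf (nat_lit 76) (nat_lit 923483545) (nat_lit 0) (nat_lit 2472530973) (nat_lit 1900) (nat_lit 23589915958) (nat_lit 474) (nat_lit 5) (nat_lit 473) (nat_lit 5) (nat_lit 498) (nat_lit 5) (nat_lit 618) (nat_lit 613) (nat_lit 329))) (XT.nd (nat_lit 78) (nat_lit 0) (nat_lit 0) (XT.lf (nat_lit 0) (nat_lit 4036983644) (nat_lit 1824) (nat_lit 12531811767) (nat_lit 1900) (nat_lit 10688231091) (nat_lit 474) (nat_lit 5) (nat_lit 498) (nat_lit 5) (nat_lit 499) (nat_lit 5) (nat_lit 619) (nat_lit 613) (nat_lit 328)) (XT.lf (nat_lit 76) (nat_lit 1268263608) (nat_lit 0) (nat_lit 3444730549) (nat_lit 1900) (nat_lit 22820105996) (nat_lit 475) (nat_lit 5) (nat_lit 474) (nat_lit 5) (nat_lit 499) (nat_lit 5) (nat_lit 620) (nat_lit 613) (nat_lit 327)))) (XT.nd (nat_lit 156) (nat_lit 0) (nat_lit 76)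 (XT.nd (nat_lit 78) (nat_lit 0) (nat_lit 0) (XT.lf (nat_lit 0) (nat_lit 5549382519) (nat_lit 1824) (nat_lit 12365382008) (nat_lit 1900) (nat_lit 9896993739) (nat_lit 475) (nat_lit 5) (nat_lit 499) (nat_lit 5) (nat_lit 500) (nat_lit 5) (nat_lit 621) (nat_lit 613) (nat_lit 326)) (XT.lf (nat_lit 76) (nat_lit 1811561370) (nat_lit 0) (nat_lit 4623214670) (nat_lit 1900) (nat_lit 21660568092) (nat_lit 476) (nat_lit 5) (nat_lit 475) (nat_lit 5) (nat_lit 500) (nat_lit 5) (nat_lit 622) (nat_lit 613) (nat_lit 325))) (XT.nd (nat_lit 78) (nat_lit 0) (nat_lit 0) (XT.lf (nat_lit 0) (nat_lit 7477155530) (nat_lit 1824) (nat_lit 12003326208) (nat_lit 1900) (nat_lit 8901334552) (nat_lit 476) (nat_lit 5) (nat_lit 500) (nat_lit 5) (nat_lit 501) (nat_lit 5) (nat_lit 623) (nat_lit 613) (nat_lit 324)) (XT.lf (nat_lit 76) (nat_lit 2564294895) (nat_lit 0) (nat_lit 6021142189) (nat_lit 1900) (nat_lit 20087679852) (nat_lit 477) (nat_lit 5) (nat_lit 476) (nat_lit 5) (nat_lit 501) (nat_lit 5) (nat_lit 624) (nat_lit 613) (nat_lit 323))))))) (XT.nd (nat_lit 1170) (nat_lit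 6992) (nat_lit 0) (XT.nd (nat_lit 546) (nat_lit 1520) (nat_lit 0) (XT.nd (nat_lit 234) (nat_lit 0) (nat_lit 76) (XT.nd (nat_lit 78) (nat_lit 0) (nat_lit 0) (XT.lf (nat_lit 0) (nat_lit 9844834546) (nat_lit 1824) (nat_lit 11434728123) (nat_lit 1900) (nat_lit 7688102050) (nat_lit 477) (nat_lit 5) (nat_lit 501) (nat_lit 5) (nat_lit 502) (nat_lit 5) (nat_lit 625) (nat_lit 613) (nat_lit 322)) (XT.nd (nat_lit 78) (nat_lit 0) (nat_lit 76) (XT.lf (nat_lit 76) (nat_lit 3537904894) (nat_lit 0) (nat_lit 7652229969) (nat_lit 1900) (nat_lit 18076754425) (nat_lit 478) (nat_lit 5) (nat_lit 477) (nat_lit 5) (nat_lit 502) (nat_lit 5) (nat_lit 626) (nat_lit 613) (nat_lit 321)) (XT.lf (nat_lit 0) (nat_lit 12678052114) (nat_lit 1824) (nat_lit 10648148932) (nat_lit 1900) (nat_lit 6243583209) (nat_lit 478) (nat_lit 5) (nat_lit 502) (nat_lit 5) (nat_lit 503) (nat_lit 5) (nat_lit 627) (nat_lit 613) (nat_lit 320)))) (XT.nd (nat_lit 156) (nat_lit 0) (nat_lit 76) (XT.nd (nat_lit 78) (nat_lit 0) (nat_lit 76) (XT.lf (nat_lit 76) (nat_lit 4744374528) (nat_lit 0) (nat_lit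 9530780721) (nat_lit 1900) (nat_lit 15601993446) (nat_lit 479) (nat_lit 5) (nat_lit 478) (nat_lit 5) (nat_lit 503) (nat_lit 5) (nat_lit 628) (nat_lit 613) (nat_lit 319)) (XT.lf (nat_lit 0) (nat_lit 16003589846) (nat_lit 1824) (nat_lit 9631607365) (nat_lit 1900) (nat_lit 4553475546) (nat_lit 479) (nat_lit 5) (nat_lit 503) (nat_lit 5) (nat_lit 504) (nat_lit 5) (nat_lit 629) (nat_lit 613) (nat_lit 318))) (XT.nd (nat_lit 78) (nat_lit 0) (nat_lit 76) (XT.lf (nat_lit 76) (nat_lit 6196250055) (nat_lit 0) (nat_lit 11671711834) (nat_lit 1900) (nat_lit 12636438154) (nat_lit 480) (nat_lit 5) (nat_lit 479) (nat_lit 5) (nat_lit 504) (nat_lit 5) (nat_lit 630) (nat_lit 613) (nat_lit 317)) (XT.lf (nat_lit 0) (nat_lit 19849428696) (nat_lit 1824) (nat_lit 8372558958) (nat_lit 1900) (nat_lit 2602858190) (nat_lit 480) (nat_lit 5) (nat_lit 504) (nat_lit 5) (nat_lit 505) (nat_lit 5) (nat_lit 631) (nat_lit 613) (nat_lit 316))))) (XT.nd (nat_lit 312) (nat_lit 1748) (nat_lit 0) (XT.nd (nat_lit 156) (nat_lit 0) (nat_lit 76) (XT.nd (nat_lit 78) (nat_lit 0) (nat_lit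 76) (XT.lf (nat_lit 76) (nat_lit 7906662350) (nat_lit 0) (nat_lit 14090585276) (nat_lit 1900) (nat_lit 9151918594) (nat_lit 481) (nat_lit 5) (nat_lit 480) (nat_lit 5) (nat_lit 505) (nat_lit 5) (nat_lit 632) (nat_lit 613) (nat_lit 315)) (XT.lf (nat_lit 0) (nat_lit 24244801208) (nat_lit 1824) (nat_lit 6857874450) (nat_lit 1900) (nat_lit 376161891) (nat_lit 481) (nat_lit 5) (nat_lit 505) (nat_lit 5) (nat_lit 506) (nat_lit 5) (nat_lit 633) (nat_lit 613) (nat_lit 314))) (XT.nd (nat_lit 78) (nat_lit 0) (nat_lit 0) (XT.lf (nat_lit 76) (nat_lit 9889349336) (nat_lit 0) (nat_lit 16803638595) (nat_lit 1900) (nat_lit 5119000842) (nat_lit 482) (nat_lit 5) (nat_lit 481) (nat_lit 5) (nat_lit 506) (nat_lit 5) (nat_lit 634) (nat_lit 613) (nat_lit 313)) (XT.lf (nat_lit 76) (nat_lit 27063003972) (nat_lit 0) (nat_lit 2171339619) (nat_lit 1900) (nat_lit 2916575435) (nat_lit 482) (nat_lit 5) (nat_lit 481) (nat_lit 5) (nat_lit 506) (nat_lit 5) (nat_lit 635) (nat_lit 613) (nat_lit 312)))) (XT.nd (nat_lit 156) (nat_lit 0) (nat_lit 76) (XT.nd (nat_lit 78) (nat_lit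 1900) (nat_lit 0) (XT.lf (nat_lit 76) (nat_lit 12158679338) (nat_lit 0) (nat_lit 19827817107) (nat_lit 1900) (nat_lit 506932141) (nat_lit 483) (nat_lit 5) (nat_lit 482) (nat_lit 5) (nat_lit 507) (nat_lit 5) (nat_lit 636) (nat_lit 613) (nat_lit 311)) (XT.lf (nat_lit 0) (nat_lit 1972302574) (nat_lit 1900) (nat_lit 3051700903) (nat_lit 1976) (nat_lit 27817591931) (nat_lit 457) (nat_lit 5) (nat_lit 482) (nat_lit 5) (nat_lit 483) (nat_lit 5) (nat_lit 637) (nat_lit 613) (nat_lit 310))) (XT.nd (nat_lit 78) (nat_lit 0) (nat_lit 0) (XT.lf (nat_lit 0) (nat_lit 4654559466) (nat_lit 1900) (nat_lit 18495013290) (nat_lit 76) (nat_lit 10043881388) (nat_lit 458) (nat_lit 5) (nat_lit 483) (nat_lit 5) (nat_lit 459) (nat_lit 5) (nat_lit 638) (nat_lit 613) (nat_lit 309)) (XT.lf (nat_lit 0) (nat_lit 7442644376) (nat_lit 1900) (nat_lit 741889039) (nat_lit 76) (nat_lit 25366773077) (nat_lit 458) (nat_lit 5) (nat_lit 483) (nat_lit 5) (nat_lit 459) (nat_lit 5) (nat_lit 639) (nat_lit 613) (nat_lit 308)))))) (XT.nd (nat_lit 546) (nat_lit 3344) (nat_lit 0) (XT.nd (nat_lit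 234) (nat_lit 1748) (nat_lit 0) (XT.nd (nat_lit 78) (nat_lit 912) (nat_lit 0) (XT.lf (nat_lit 0) (nat_lit 10445788600) (nat_lit 1140) (nat_lit 16365186199) (nat_lit 76) (nat_lit 7102155232) (nat_lit 444) (nat_lit 5) (nat_lit 459) (nat_lit 5) (nat_lit 445) (nat_lit 5) (nat_lit 640) (nat_lit 613) (nat_lit 307)) (XT.nd (nat_lit 78) (nat_lit 0) (nat_lit 0) (XT.lf (nat_lit 0) (nat_lit 1900744021) (nat_lit 912) (nat_lit 11678161340) (nat_lit 988) (nat_lit 20701886580) (nat_lit 432) (nat_lit 5) (nat_lit 444) (nat_lit 5) (nat_lit 445) (nat_lit 5) (nat_lit 641) (nat_lit 613) (nat_lit 306)) (XT.lf (nat_lit 0) (nat_lit 16908004386) (nat_lit 988) (nat_lit 13926418137) (nat_lit 76) (nat_lit 3818718260) (nat_lit 432) (nat_lit 5) (nat_lit 445) (nat_lit 5) (nat_lit 433) (nat_lit 5) (nat_lit 642) (nat_lit 613) (nat_lit 305)))) (XT.nd (nat_lit 156) (nat_lit 836) (nat_lit 0) (XT.nd (nat_lit 78) (nat_lit 0) (nat_lit 0) (XT.lf (nat_lit 0) (nat_lit 4881484162) (nat_lit 912) (nat_lit 15529644366) (nat_lit 988) (nat_lit 14619659299) (nat_lit 420) (nat_lit 5) (nat_lit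 432) (nat_lit 5) (nat_lit 433) (nat_lit 5) (nat_lit 643) (nat_lit 613) (nat_lit 304)) (XT.lf (nat_lit 0) (nat_lit 24077347750) (nat_lit 988) (nat_lit 11162449377) (nat_lit 76) (nat_lit 174330123) (nat_lit 420) (nat_lit 5) (nat_lit 433) (nat_lit 5) (nat_lit 421) (nat_lit 5) (nat_lit 644) (nat_lit 613) (nat_lit 303))) (XT.nd (nat_lit 78) (nat_lit 0) (nat_lit 0) (XT.lf (nat_lit 0) (nat_lit 8207463428) (nat_lit 836) (nat_lit 19764024990) (nat_lit 912) (nat_lit 7830553189) (nat_lit 409) (nat_lit 5) (nat_lit 420) (nat_lit 5) (nat_lit 421) (nat_lit 5) (nat_lit 645) (nat_lit 613) (nat_lit 302)) (XT.lf (nat_lit 0) (nat_lit 28114618536) (nat_lit 836) (nat_lit 3902283322) (nat_lit 912) (nat_lit 4179344676) (nat_lit 409) (nat_lit 5) (nat_lit 420) (nat_lit 5) (nat_lit 421) (nat_lit 5) (nat_lit 646) (nat_lit 613) (nat_lit 301))))) (XT.nd (nat_lit 312) (nat_lit 1596) (nat_lit 0) (XT.nd (nat_lit 156) (nat_lit 836) (nat_lit 0) (XT.nd (nat_lit 78) (nat_lit 76) (nat_lit 0) (XT.lf (nat_lit 0) (nat_lit 11896429281) (nat_lit 836) (nat_lit 24402256324) (nat_lit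 912) (nat_lit 296540799) (nat_lit 398) (nat_lit 5) (nat_lit 409) (nat_lit 5) (nat_lit 410) (nat_lit 5) (nat_lit 647) (nat_lit 613) (nat_lit 300)) (XT.lf (nat_lit 0) (nat_lit 3694824236) (nat_lit 912) (nat_lit 4668972929) (nat_lit 76) (nat_lit 28636333853) (nat_lit 397) (nat_lit 5) (nat_lit 409) (nat_lit 5) (nat_lit 398) (nat_lit 5) (nat_lit 648) (nat_lit 613) (nat_lit 299))) (XT.nd (nat_lit 78) (nat_lit 0) (nat_lit 0) (XT.lf (nat_lit 0) (nat_lit 7916885010) (nat_lit 912) (nat_lit 21496209697) (nat_lit 76) (nat_lit 7996903111) (nat_lit 386) (nat_lit 5) (nat_lit 398) (nat_lit 5) (nat_lit 387) (nat_lit 5) (nat_lit 649) (nat_lit 613) (nat_lit 298)) (XT.lf (nat_lit 0) (nat_lit 12308887020) (nat_lit 912) (nat_lit 913006045) (nat_lit 76) (nat_lit 24604458964) (nat_lit 386) (nat_lit 5) (nat_lit 398) (nat_lit 5) (nat_lit 387) (nat_lit 5) (nat_lit 650) (nat_lit 613) (nat_lit 297)))) (XT.nd (nat_lit 78312) (nat_lit 0) (nat_lit 8056) (XT.nd (nat_lit 78) (nat_lit 760) (nat_lit 0) (XT.lf (nat_lit 0) (nat_lit 16941692836) (nat_lit 912) (nat_lit 17923393767)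 (nat_lit 76) (nat_lit 3382887522) (nat_lit 375) (nat_lit 5) (nat_lit 387) (nat_lit 5) (nat_lit 376) (nat_lit 5) (nat_lit 651) (nat_lit 613) (nat_lit 296)) (XT.lf (nat_lit 0) (nat_lit 3275285012) (nat_lit 760) (nat_lit 18505482358) (nat_lit 836) (nat_lit 16894989114) (nat_lit 365) (nat_lit 5) (nat_lit 375) (nat_lit 5) (nat_lit 376) (nat_lit 5) (nat_lit 652) (nat_lit 613) (nat_lit 295))) (XT.nd (nat_lit 78) (nat_lit 0) (nat_lit 0) (XT.lf (nat_lit 0) (nat_lit 998386333) (nat_lit 1900) (nat_lit 6048305382) (nat_lit 1900) (nat_lit 6048305382) (nat_lit 471) (nat_lit 3) (nat_lit 496) (nat_lit 3) (nat_lit 496) (nat_lit 5) (nat_lit 614) (nat_lit 614) (nat_lit 332)) (XT.lf (nat_lit 76) (nat_lit 905035873) (nat_lit 0) (nat_lit 1213972679) (nat_lit 1900) (nat_lit 24330834377) (nat_lit 472) (nat_lit 5) (nat_lit 471) (nat_lit 3) (nat_lit 496) (nat_lit 5) (nat_lit 615) (nat_lit 614) (nat_lit 331))))))))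
noncomputable def xc119 : XT := (XT.nd (nat_lit 2340) (nat_lit 3420) (nat_lit 0) (XT.nd (nat_lit 1170) (nat_lit 3952) (nat_lit 0) (XT.nd (nat_lit 546) (nat_lit 0) (nat_lit 228) (XT.nd (nat_lit 234) (nat_lit 0) (nat_lit 76) (XT.nd (nat_lit 78) (nat_lit 0) (nat_lit 0) (XT.lf (nat_lit 0) (nat_lit 2400284662) (nat_lit 1824) (nat_lit 12461892309) (nat_lit 1900) (nat_lit 11849579910) (nat_lit 472) (nat_lit 5) (nat_lit 496) (nat_lit 5) (nat_lit 497) (nat_lit 5) (nat_lit 616) (nat_lit 614) (nat_lit 330)) (XT.nd (nat_lit 78) (nat_lit 0) (nat_lit 76) (XT.lf (nat_lit 76) (nat_lit 884908109) (nat_lit 0) (nat_lit 1813583840) (nat_lit 1900) (nat_lit 24280191199) (nat_lit 473) (nat_lit 5) (nat_lit 472) (nat_lit 5) (nat_lit 497) (nat_lit 5) (nat_lit 617) (nat_lit 614) (nat_lit 329)) (XT.lf (nat_lit 0) (nat_lit 3159050458) (nat_lit 1824) (nat_lit 12658286135) (nat_lit 1900) (nat_lit 11430483753) (nat_lit 473) (nat_lit 5) (nat_lit 497) (nat_lit 5) (nat_lit 498) (nat_lit 5) (nat_lit 618) (nat_lit 614) (nat_lit 328)))) (XT.nd (nat_lit 156) (nat_lit 0) (nat_lit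 76) (XT.nd (nat_lit 78) (nat_lit 0) (nat_lit 76) (XT.lf (nat_lit 76) (nat_lit 1046265063) (nat_lit 0) (nat_lit 2598974171) (nat_lit 1900) (nat_lit 23876772817) (nat_lit 474) (nat_lit 5) (nat_lit 473) (nat_lit 5) (nat_lit 498) (nat_lit 5) (nat_lit 619) (nat_lit 614) (nat_lit 327)) (XT.lf (nat_lit 0) (nat_lit 4294982669) (nat_lit 1824) (nat_lit 12676125680) (nat_lit 1900) (nat_lit 10827502765) (nat_lit 474) (nat_lit 5) (nat_lit 498) (nat_lit 5) (nat_lit 499) (nat_lit 5) (nat_lit 620) (nat_lit 614) (nat_lit 326))) (XT.nd (nat_lit 78) (nat_lit 0) (nat_lit 76) (XT.lf (nat_lit 76) (nat_lit 1399251713) (nat_lit 0) (nat_lit 3582471779) (nat_lit 1900) (nat_lit 23098538754) (nat_lit 475) (nat_lit 5) (nat_lit 474) (nat_lit 5) (nat_lit 499) (nat_lit 5) (nat_lit 621) (nat_lit 614) (nat_lit 325)) (XT.lf (nat_lit 0) (nat_lit 5830980419) (nat_lit 1824) (nat_lit 12505268333) (nat_lit 1900) (nat_lit 10028322160) (nat_lit 475) (nat_lit 5) (nat_lit 499) (nat_lit 5) (nat_lit 500) (nat_lit 5) (nat_lit 622) (nat_lit 614) (nat_lit 324))))) (XT.nd (nat_lit 312)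 (nat_lit 0) (nat_lit 152) (XT.nd (nat_lit 156) (nat_lit 0) (nat_lit 76) (XT.nd (nat_lit 78) (nat_lit 0) (nat_lit 76) (XT.lf (nat_lit 76) (nat_lit 1954507193) (nat_lit 0) (nat_lit 4776922180) (nat_lit 1900) (nat_lit 21922452373) (nat_lit 476) (nat_lit 5) (nat_lit 475) (nat_lit 5) (nat_lit 500) (nat_lit 5) (nat_lit 623) (nat_lit 614) (nat_lit 323)) (XT.lf (nat_lit 0) (nat_lit 7790973327) (nat_lit 1824) (nat_lit 12135077541) (nat_lit 1900) (nat_lit 9020106340) (nat_lit 476) (nat_lit 5) (nat_lit 500) (nat_lit 5) (nat_lit 501) (nat_lit 5) (nat_lit 624) (nat_lit 614) (nat_lit 322))) (XT.nd (nat_lit 78) (nat_lit 0) (nat_lit 76) (XT.lf (nat_lit 76) (nat_lit 2723183384) (nat_lit 0) (nat_lit 6195714683) (nat_lit 1900) (nat_lit 20324436442) (nat_lit 477) (nat_lit 5) (nat_lit 476) (nat_lit 5) (nat_lit 501) (nat_lit 5) (nat_lit 625) (nat_lit 614) (nat_lit 321)) (XT.lf (nat_lit 0) (nat_lit 10199967184) (nat_lit 1824) (nat_lit 11554404124) (nat_lit 1900) (nat_lit 7789472456) (nat_lit 477) (nat_lit 5) (nat_lit 501) (nat_lit 5) (nat_lit 502) (nat_lit 5)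 (nat_lit 626) (nat_lit 614) (nat_lit 320)))) (XT.nd (nat_lit 156) (nat_lit 0) (nat_lit 76) (XT.nd (nat_lit 78) (nat_lit 0) (nat_lit 76) (XT.lf (nat_lit 76) (nat_lit 3716964325) (nat_lit 0) (nat_lit 7852809681) (nat_lit 1900) (nat_lit 18279326996) (nat_lit 478) (nat_lit 5) (nat_lit 477) (nat_lit 5) (nat_lit 502) (nat_lit 5) (nat_lit 627) (nat_lit 614) (nat_lit 319)) (XT.lf (nat_lit 0) (nat_lit 13084091407) (nat_lit 1824) (nat_lit 10751566780) (nat_lit 1900) (nat_lit 6322463029) (nat_lit 478) (nat_lit 5) (nat_lit 502) (nat_lit 5) (nat_lit 503) (nat_lit 5) (nat_lit 628) (nat_lit 614) (nat_lit 318))) (XT.nd (nat_lit 78) (nat_lit 0) (nat_lit 76) (XT.lf (nat_lit 76) (nat_lit 4948086458) (nat_lit 0) (nat_lit 9762766938) (nat_lit 1900) (nat_lit 15760825392) (nat_lit 479) (nat_lit 5) (nat_lit 478) (nat_lit 5) (nat_lit 503) (nat_lit 5) (nat_lit 629) (nat_lit 614) (nat_lit 317)) (XT.lf (nat_lit 0) (nat_lit 16470648345) (nat_lit 1824) (nat_lit 9714331743) (nat_lit 1900) (nat_lit 4604517586) (nat_lit 479) (nat_lit 5) (nat_lit 503) (nat_lit 5) (nat_lit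 504) (nat_lit 5) (nat_lit 630) (nat_lit 614) (nat_lit 316)))))) (XT.nd (nat_lit 546) (nat_lit 4484) (nat_lit 0) (XT.nd (nat_lit 234) (nat_lit 0) (nat_lit 152) (XT.nd (nat_lit 78) (nat_lit 0) (nat_lit 76) (XT.lf (nat_lit 76) (nat_lit 6429359748) (nat_lit 0) (nat_lit 11940774888) (nat_lit 1900) (nat_lit 12741448506) (nat_lit 480) (nat_lit 5) (nat_lit 479) (nat_lit 5) (nat_lit 504) (nat_lit 5) (nat_lit 631) (nat_lit 614) (nat_lit 315)) (XT.nd (nat_lit 78) (nat_lit 0) (nat_lit 0) (XT.lf (nat_lit 0) (nat_lit 20388164509) (nat_lit 1824) (nat_lit 8429891589) (nat_lit 1900) (nat_lit 2620443257) (nat_lit 480) (nat_lit 5) (nat_lit 504) (nat_lit 5) (nat_lit 505) (nat_lit 5) (nat_lit 632) (nat_lit 614) (nat_lit 314)) (XT.lf (nat_lit 76) (nat_lit 8174189681) (nat_lit 0) (nat_lit 14402681038) (nat_lit 1900) (nat_lit 9192476967) (nat_lit 481) (nat_lit 5) (nat_lit 480) (nat_lit 5) (nat_lit 505) (nat_lit 5) (nat_lit 633) (nat_lit 614) (nat_lit 313)))) (XT.nd (nat_lit 156) (nat_lit 0) (nat_lit 0) (XT.nd (nat_lit 78) (nat_lit 0) (nat_lit 0) (XT.lf (nat_lit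 0) (nat_lit 24866443817) (nat_lit 1824) (nat_lit 6884843148) (nat_lit 1900) (nat_lit 354384270) (nat_lit 481) (nat_lit 5) (nat_lit 505) (nat_lit 5) (nat_lit 506) (nat_lit 5) (nat_lit 634) (nat_lit 614) (nat_lit 312)) (XT.lf (nat_lit 76) (nat_lit 10196600188) (nat_lit 0) (nat_lit 17165023494) (nat_lit 1900) (nat_lit 5083901374) (nat_lit 482) (nat_lit 5) (nat_lit 481) (nat_lit 5) (nat_lit 506) (nat_lit 5) (nat_lit 635) (nat_lit 614) (nat_lit 311))) (XT.nd (nat_lit 78) (nat_lit 0) (nat_lit 76) (XT.lf (nat_lit 76) (nat_lit 27711581566) (nat_lit 0) (nat_lit 2239582221) (nat_lit 1900) (nat_lit 2840123135) (nat_lit 482) (nat_lit 5) (nat_lit 481) (nat_lit 5) (nat_lit 506) (nat_lit 5) (nat_lit 636) (nat_lit 614) (nat_lit 310)) (XT.lf (nat_lit 76) (nat_lit 12511257510) (nat_lit 0) (nat_lit 20245063705) (nat_lit 1900) (nat_lit 384366382) (nat_lit 483) (nat_lit 5) (nat_lit 482) (nat_lit 5) (nat_lit 507) (nat_lit 5) (nat_lit 637) (nat_lit 614) (nat_lit 309))))) (XT.nd (nat_lit 312) (nat_lit 1824) (nat_lit 0) (XT.nd (nat_lit 156) (nat_lit 988) (nat_lit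 0) (XT.nd (nat_lit 78) (nat_lit 0) (nat_lit 76) (XT.lf (nat_lit 0) (nat_lit 2140144664) (nat_lit 1900) (nat_lit 3003761842) (nat_lit 1976) (nat_lit 28351945523) (nat_lit 457) (nat_lit 5) (nat_lit 482) (nat_lit 5) (nat_lit 483) (nat_lit 5) (nat_lit 638) (nat_lit 614) (nat_lit 308)) (XT.lf (nat_lit 0) (nat_lit 4874113016) (nat_lit 1900) (nat_lit 18753999576) (nat_lit 76) (nat_lit 10226674165) (nat_lit 458) (nat_lit 5) (nat_lit 483) (nat_lit 5) (nat_lit 459) (nat_lit 5) (nat_lit 639) (nat_lit 614) (nat_lit 307))) (XT.nd (nat_lit 78) (nat_lit 1064) (nat_lit 0) (XT.lf (nat_lit 0) (nat_lit 7715479970) (nat_lit 1900) (nat_lit 647987624) (nat_lit 76) (nat_lit 25856378293) (nat_lit 458) (nat_lit 5) (nat_lit 483) (nat_lit 5) (nat_lit 459) (nat_lit 5) (nat_lit 640) (nat_lit 614) (nat_lit 306)) (XT.lf (nat_lit 0) (nat_lit 10776865022) (nat_lit 1140) (nat_lit 16581921730) (nat_lit 76) (nat_lit 7230155725) (nat_lit 444) (nat_lit 5) (nat_lit 459) (nat_lit 5) (nat_lit 445) (nat_lit 5) (nat_lit 641) (nat_lit 614) (nat_lit 305)))) (XT.nd (nat_lit 156) (nat_lit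 912) (nat_lit 0) (XT.nd (nat_lit 78) (nat_lit 0) (nat_lit 0) (XT.lf (nat_lit 0) (nat_lit 2048599672) (nat_lit 912) (nat_lit 11922362298) (nat_lit 988) (nat_lit 20993029434) (nat_lit 432) (nat_lit 5) (nat_lit 444) (nat_lit 5) (nat_lit 445) (nat_lit 5) (nat_lit 642) (nat_lit 614) (nat_lit 304)) (XT.lf (nat_lit 0) (nat_lit 17364212939) (nat_lit 988) (nat_lit 14094822760) (nat_lit 76) (nat_lit 3884800257) (nat_lit 432) (nat_lit 5) (nat_lit 445) (nat_lit 5) (nat_lit 433) (nat_lit 5) (nat_lit 643) (nat_lit 614) (nat_lit 303))) (XT.nd (nat_lit 78) (nat_lit 0) (nat_lit 0) (XT.lf (nat_lit 0) (nat_lit 5088513086) (nat_lit 912) (nat_lit 15847282095) (nat_lit 988) (nat_lit 14793272980) (nat_lit 420) (nat_lit 5) (nat_lit 432) (nat_lit 5) (nat_lit 433) (nat_lit 5) (nat_lit 644) (nat_lit 614) (nat_lit 302)) (XT.lf (nat_lit 0) (nat_lit 24673010727) (nat_lit 988) (nat_lit 11276109734) (nat_lit 76) (nat_lit 171000601) (nat_lit 420) (nat_lit 5) (nat_lit 433) (nat_lit 5) (nat_lit 421) (nat_lit 5) (nat_lit 645) (nat_lit 614) (nat_lit 301))))))) (XT.nd (nat_lit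 79404) (nat_lit 0) (nat_lit 7600) (XT.nd (nat_lit 78780) (nat_lit 0) (nat_lit 7296) (XT.nd (nat_lit 234) (nat_lit 1748) (nat_lit 0) (XT.nd (nat_lit 78) (nat_lit 836) (nat_lit 0) (XT.lf (nat_lit 0) (nat_lit 8480480349) (nat_lit 836) (nat_lit 20163023131) (nat_lit 912) (nat_lit 7872320966) (nat_lit 409) (nat_lit 5) (nat_lit 420) (nat_lit 5) (nat_lit 421) (nat_lit 5) (nat_lit 646) (nat_lit 614) (nat_lit 300)) (XT.nd (nat_lit 78) (nat_lit 836) (nat_lit 0) (XT.lf (nat_lit 0) (nat_lit 28783643900) (nat_lit 836) (nat_lit 3983973735) (nat_lit 912) (nat_lit 4150340112) (nat_lit 409) (nat_lit 5) (nat_lit 420) (nat_lit 5) (nat_lit 421) (nat_lit 5) (nat_lit 647) (nat_lit 614) (nat_lit 299)) (XT.lf (nat_lit 0) (nat_lit 12242611332) (nat_lit 836) (nat_lit 24890941108) (nat_lit 912) (nat_lit 191394586) (nat_lit 398) (nat_lit 5) (nat_lit 409) (nat_lit 5) (nat_lit 410) (nat_lit 5) (nat_lit 648) (nat_lit 614) (nat_lit 298)))) (XT.nd (nat_lit 156) (nat_lit 836) (nat_lit 0) (XT.nd (nat_lit 78) (nat_lit 836) (nat_lit 0) (XT.lf (nat_lit 0) (nat_lit 3876191538)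 (nat_lit 912) (nat_lit 4654787500) (nat_lit 76) (nat_lit 29206999376) (nat_lit 397) (nat_lit 5) (nat_lit 409) (nat_lit 5) (nat_lit 398) (nat_lit 5) (nat_lit 649) (nat_lit 614) (nat_lit 297)) (XT.lf (nat_lit 0) (nat_lit 8181285237) (nat_lit 912) (nat_lit 21817155020) (nat_lit 76) (nat_lit 8157630572) (nat_lit 386) (nat_lit 5) (nat_lit 398) (nat_lit 5) (nat_lit 387) (nat_lit 5) (nat_lit 650) (nat_lit 614) (nat_lit 296))) (XT.nd (nat_lit 78) (nat_lit 836) (nat_lit 0) (XT.lf (nat_lit 0) (nat_lit 12659047630) (nat_lit 912) (nat_lit 824424136) (nat_lit 76) (nat_lit 25097322064) (nat_lit 386) (nat_lit 5) (nat_lit 398) (nat_lit 5) (nat_lit 387) (nat_lit 5) (nat_lit 651) (nat_lit 614) (nat_lit 295)) (XT.lf (nat_lit 0) (nat_lit 17383182571) (nat_lit 912) (nat_lit 18173687148) (nat_lit 76) (nat_lit 3454005297) (nat_lit 375) (nat_lit 5) (nat_lit 387) (nat_lit 5) (nat_lit 376) (nat_lit 5) (nat_lit 652) (nat_lit 614) (nat_lit 294))))) (XT.nd (nat_lit 312) (nat_lit 0) (nat_lit 152) (XT.nd (nat_lit 156) (nat_lit 0) (nat_lit 76) (XT.nd (nat_lit 78) (nat_lit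 0) (nat_lit 0) (XT.lf (nat_lit 0) (nat_lit 1114120285) (nat_lit 1900) (nat_lit 6120427811) (nat_lit 1900) (nat_lit 6120427811) (nat_lit 471) (nat_lit 3) (nat_lit 496) (nat_lit 3) (nat_lit 496) (nat_lit 5) (nat_lit 615) (nat_lit 615) (nat_lit 330)) (XT.lf (nat_lit 76) (nat_lit 1020181269) (nat_lit 0) (nat_lit 1329614446) (nat_lit 1900) (nat_lit 24625264546) (nat_lit 472) (nat_lit 5) (nat_lit 471) (nat_lit 3) (nat_lit 496) (nat_lit 5) (nat_lit 616) (nat_lit 615) (nat_lit 329))) (XT.nd (nat_lit 78) (nat_lit 0) (nat_lit 0) (XT.lf (nat_lit 0) (nat_lit 2632421538) (nat_lit 1824) (nat_lit 12611701341) (nat_lit 1900) (nat_lit 11998175351) (nat_lit 472) (nat_lit 5) (nat_lit 496) (nat_lit 5) (nat_lit 497) (nat_lit 5) (nat_lit 617) (nat_lit 615) (nat_lit 328)) (XT.lf (nat_lit 76) (nat_lit 1001380948) (nat_lit 0) (nat_lit 1932242917) (nat_lit 1900) (nat_lit 24580998758) (nat_lit 473) (nat_lit 5) (nat_lit 472) (nat_lit 5) (nat_lit 497) (nat_lit 5) (nat_lit 618) (nat_lit 615) (nat_lit 327)))) (XT.nd (nat_lit 156) (nat_lit 0) (nat_lit 76) (XT.nd (nat_lit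 78) (nat_lit 0) (nat_lit 0) (XT.lf (nat_lit 0) (nat_lit 3399316923) (nat_lit 1824) (nat_lit 12810526585) (nat_lit 1900) (nat_lit 11579380805) (nat_lit 473) (nat_lit 5) (nat_lit 497) (nat_lit 5) (nat_lit 498) (nat_lit 5) (nat_lit 619) (nat_lit 615) (nat_lit 326)) (XT.lf (nat_lit 76) (nat_lit 1167451655) (nat_lit 0) (nat_lit 2724956518) (nat_lit 1900) (nat_lit 24176548315) (nat_lit 474) (nat_lit 5) (nat_lit 473) (nat_lit 5) (nat_lit 498) (nat_lit 5) (nat_lit 620) (nat_lit 615) (nat_lit 325))) (XT.nd (nat_lit 78) (nat_lit 0) (nat_lit 0) (XT.lf (nat_lit 0) (nat_lit 4551258477) (nat_lit 1824) (nat_lit 12827454497) (nat_lit 1900) (nat_lit 10972452523) (nat_lit 474) (nat_lit 5) (nat_lit 498) (nat_lit 5) (nat_lit 499) (nat_lit 5) (nat_lit 621) (nat_lit 615) (nat_lit 324)) (XT.lf (nat_lit 76) (nat_lit 1528758117) (nat_lit 0) (nat_lit 3720294435) (nat_lit 1900) (nat_lit 23389450935) (nat_lit 475) (nat_lit 5) (nat_lit 474) (nat_lit 5) (nat_lit 499) (nat_lit 5) (nat_lit 622) (nat_lit 615) (nat_lit 323)))))) (XT.nd (nat_lit 546) (nat_lit 0) (nat_lit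 228) (XT.nd (nat_lit 234) (nat_lit 0) (nat_lit 76) (XT.nd (nat_lit 78) (nat_lit 0) (nat_lit 0) (XT.lf (nat_lit 0) (nat_lit 6111585273) (nat_lit 1824) (nat_lit 12652123686) (nat_lit 1900) (nat_lit 10164863753) (nat_lit 475) (nat_lit 5) (nat_lit 499) (nat_lit 5) (nat_lit 500) (nat_lit 5) (nat_lit 623) (nat_lit 615) (nat_lit 322)) (XT.nd (nat_lit 78) (nat_lit 0) (nat_lit 76) (XT.lf (nat_lit 76) (nat_lit 2096168075) (nat_lit 0) (nat_lit 4931325692) (nat_lit 1900) (nat_lit 22196227179) (nat_lit 476) (nat_lit 5) (nat_lit 475) (nat_lit 5) (nat_lit 500) (nat_lit 5) (nat_lit 624) (nat_lit 615) (nat_lit 321)) (XT.lf (nat_lit 0) (nat_lit 8104688494) (nat_lit 1824) (nat_lit 12273669911) (nat_lit 1900) (nat_lit 9143554504) (nat_lit 476) (nat_lit 5) (nat_lit 500) (nat_lit 5) (nat_lit 501) (nat_lit 5) (nat_lit 625) (nat_lit 615) (nat_lit 320)))) (XT.nd (nat_lit 156) (nat_lit 0) (nat_lit 76) (XT.nd (nat_lit 78) (nat_lit 0) (nat_lit 76) (XT.lf (nat_lit 76) (nat_lit 2881071304) (nat_lit 0) (nat_lit 6371675930) (nat_lit 1900) (nat_lit 20572335200) (nat_lit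 477) (nat_lit 5) (nat_lit 476) (nat_lit 5) (nat_lit 501) (nat_lit 5) (nat_lit 626) (nat_lit 615) (nat_lit 319)) (XT.lf (nat_lit 0) (nat_lit 10556057981) (nat_lit 1824) (nat_lit 11680706970) (nat_lit 1900) (nat_lit 7894904702) (nat_lit 477) (nat_lit 5) (nat_lit 501) (nat_lit 5) (nat_lit 502) (nat_lit 5) (nat_lit 627) (nat_lit 615) (nat_lit 318))) (XT.nd (nat_lit 78) (nat_lit 0) (nat_lit 76) (XT.lf (nat_lit 76) (nat_lit 3895399472) (nat_lit 0) (nat_lit 8055555141) (nat_lit 1900) (nat_lit 18492123727) (nat_lit 478) (nat_lit 5) (nat_lit 477) (nat_lit 5) (nat_lit 502) (nat_lit 5) (nat_lit 628) (nat_lit 615) (nat_lit 317)) (XT.lf (nat_lit 0) (nat_lit 13492330571) (nat_lit 1824) (nat_lit 10861306755) (nat_lit 1900) (nat_lit 6404706365) (nat_lit 478) (nat_lit 5) (nat_lit 502) (nat_lit 5) (nat_lit 503) (nat_lit 5) (nat_lit 629) (nat_lit 615) (nat_lit 316))))) (XT.nd (nat_lit 312) (nat_lit 0) (nat_lit 152) (XT.nd (nat_lit 156) (nat_lit 0) (nat_lit 76) (XT.nd (nat_lit 78) (nat_lit 0) (nat_lit 76) (XT.lf (nat_lit 76) (nat_lit 5151646841) (nat_lit 0)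 (nat_lit 9997786408) (nat_lit 1900) (nat_lit 15928783228) (nat_lit 479) (nat_lit 5) (nat_lit 478) (nat_lit 5) (nat_lit 503) (nat_lit 5) (nat_lit 630) (nat_lit 615) (nat_lit 315)) (XT.lf (nat_lit 0) (nat_lit 16941340342) (nat_lit 1824) (nat_lit 9802978460) (nat_lit 1900) (nat_lit 4658134783) (nat_lit 479) (nat_lit 5) (nat_lit 503) (nat_lit 5) (nat_lit 504) (nat_lit 5) (nat_lit 631) (nat_lit 615) (nat_lit 314))) (XT.nd (nat_lit 78) (nat_lit 0) (nat_lit 76) (XT.lf (nat_lit 76) (nat_lit 6662891861) (nat_lit 0) (nat_lit 12213835693) (nat_lit 1900) (nat_lit 12854295151) (nat_lit 480) (nat_lit 5) (nat_lit 479) (nat_lit 5) (nat_lit 504) (nat_lit 5) (nat_lit 632) (nat_lit 615) (nat_lit 313)) (XT.lf (nat_lit 0) (nat_lit 20932170820) (nat_lit 1824) (nat_lit 8492646910) (nat_lit 1900) (nat_lit 2639718618) (nat_lit 480) (nat_lit 5) (nat_lit 504) (nat_lit 5) (nat_lit 505) (nat_lit 5) (nat_lit 633) (nat_lit 615) (nat_lit 312)))) (XT.nd (nat_lit 156) (nat_lit 0) (nat_lit 76) (XT.nd (nat_lit 78) (nat_lit 0) (nat_lit 76) (XT.lf (nat_lit 76) (nat_lit 8442819653)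 (nat_lit 0) (nat_lit 14719842748) (nat_lit 1900) (nat_lit 9239379179) (nat_lit 481) (nat_lit 5) (nat_lit 480) (nat_lit 5) (nat_lit 505) (nat_lit 5) (nat_lit 634) (nat_lit 615) (nat_lit 311)) (XT.lf (nat_lit 0) (nat_lit 25495209242) (nat_lit 1824) (nat_lit 6916629985) (nat_lit 1900) (nat_lit 333308885) (nat_lit 481) (nat_lit 5) (nat_lit 505) (nat_lit 5) (nat_lit 506) (nat_lit 5) (nat_lit 635) (nat_lit 615) (nat_lit 310))) (XT.nd (nat_lit 78) (nat_lit 0) (nat_lit 0) (XT.lf (nat_lit 76) (nat_lit 10505745441) (nat_lit 0) (nat_lit 17532653189) (nat_lit 1900) (nat_lit 5053438413) (nat_lit 482) (nat_lit 5) (nat_lit 481) (nat_lit 5) (nat_lit 506) (nat_lit 5) (nat_lit 636) (nat_lit 615) (nat_lit 309)) (XT.lf (nat_lit 76) (nat_lit 28368963442) (nat_lit 0) (nat_lit 2308226048) (nat_lit 1900) (nat_lit 2767375609) (nat_lit 482) (nat_lit 5) (nat_lit 481) (nat_lit 5) (nat_lit 506) (nat_lit 5) (nat_lit 637) (nat_lit 615) (nat_lit 308))))))))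
noncomputable def xc120 : XT := (XT.nd (nat_lit 80652) (nat_lit 0) (nat_lit 836) (XT.nd (nat_lit 79482) (nat_lit 0) (nat_lit 6460) (XT.nd (nat_lit 546) (nat_lit 3496) (nat_lit 0) (XT.nd (nat_lit 234) (nat_lit 1900) (nat_lit 0) (XT.nd (nat_lit 78) (nat_lit 1900) (nat_lit 0) (XT.lf (nat_lit 76) (nat_lit 12866638932) (nat_lit 0) (nat_lit 20669851807) (nat_lit 1900) (nat_lit 264502382) (nat_lit 483) (nat_lit 5) (nat_lit 482) (nat_lit 5) (nat_lit 507) (nat_lit 5) (nat_lit 638) (nat_lit 615) (nat_lit 307)) (XT.nd (nat_lit 78) (nat_lit 0) (nat_lit 76) (XT.lf (nat_lit 0) (nat_lit 2306357822) (nat_lit 1900) (nat_lit 2959095557) (nat_lit 1976) (nat_lit 28897840405) (nat_lit 457) (nat_lit 5) (nat_lit 482) (nat_lit 5) (nat_lit 483) (nat_lit 5) (nat_lit 639) (nat_lit 615) (nat_lit 306)) (XT.lf (nat_lit 0) (nat_lit 5093146949) (nat_lit 1900) (nat_lit 19022472514) (nat_lit 76) (nat_lit 10413825054) (nat_lit 458) (nat_lit 5) (nat_lit 483) (nat_lit 5) (nat_lit 459) (nat_lit 5) (nat_lit 640) (nat_lit 615) (nat_lit 305)))) (XT.nd (nat_lit 156) (nat_lit 912)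 (nat_lit 0) (XT.nd (nat_lit 78) (nat_lit 1064) (nat_lit 0) (XT.lf (nat_lit 0) (nat_lit 7988957876) (nat_lit 1900) (nat_lit 556430657) (nat_lit 76) (nat_lit 26356464100) (nat_lit 458) (nat_lit 5) (nat_lit 483) (nat_lit 5) (nat_lit 459) (nat_lit 5) (nat_lit 641) (nat_lit 615) (nat_lit 304)) (XT.lf (nat_lit 0) (nat_lit 11109819325) (nat_lit 1140) (nat_lit 16807285469) (nat_lit 76) (nat_lit 7361261521) (nat_lit 444) (nat_lit 5) (nat_lit 459) (nat_lit 5) (nat_lit 445) (nat_lit 5) (nat_lit 642) (nat_lit 615) (nat_lit 303))) (XT.nd (nat_lit 78) (nat_lit 0) (nat_lit 0) (XT.lf (nat_lit 0) (nat_lit 2195147186) (nat_lit 912) (nat_lit 12171034199) (nat_lit 988) (nat_lit 21294767303) (nat_lit 432) (nat_lit 5) (nat_lit 444) (nat_lit 5) (nat_lit 445) (nat_lit 5) (nat_lit 643) (nat_lit 615) (nat_lit 302)) (XT.lf (nat_lit 0) (nat_lit 17824961698) (nat_lit 988) (nat_lit 14270871716) (nat_lit 76) (nat_lit 3952603560) (nat_lit 432) (nat_lit 5) (nat_lit 445) (nat_lit 5) (nat_lit 433) (nat_lit 5) (nat_lit 644) (nat_lit 615) (nat_lit 301))))) (XT.nd (nat_lit 312)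 (nat_lit 1748) (nat_lit 0) (XT.nd (nat_lit 156) (nat_lit 836) (nat_lit 0) (XT.nd (nat_lit 78) (nat_lit 0) (nat_lit 0) (XT.lf (nat_lit 0) (nat_lit 5295434483) (nat_lit 912) (nat_lit 16170999019) (nat_lit 988) (nat_lit 14974971288) (nat_lit 420) (nat_lit 5) (nat_lit 432) (nat_lit 5) (nat_lit 433) (nat_lit 5) (nat_lit 645) (nat_lit 615) (nat_lit 300)) (XT.lf (nat_lit 0) (nat_lit 25276155700) (nat_lit 988) (nat_lit 11396298758) (nat_lit 76) (nat_lit 167869166) (nat_lit 420) (nat_lit 5) (nat_lit 433) (nat_lit 5) (nat_lit 421) (nat_lit 5) (nat_lit 646) (nat_lit 615) (nat_lit 299))) (XT.nd (nat_lit 78) (nat_lit 0) (nat_lit 0) (XT.lf (nat_lit 0) (nat_lit 8754730145) (nat_lit 836) (nat_lit 20569856874) (nat_lit 912) (nat_lit 7919383603) (nat_lit 409) (nat_lit 5) (nat_lit 420) (nat_lit 5) (nat_lit 421) (nat_lit 5) (nat_lit 647) (nat_lit 615) (nat_lit 298)) (XT.lf (nat_lit 0) (nat_lit 29461905198) (nat_lit 836) (nat_lit 4067156426) (nat_lit 912) (nat_lit 4125127520) (nat_lit 409) (nat_lit 5) (nat_lit 420) (nat_lit 5) (nat_lit 421) (nat_lit 5) (nat_lit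 648) (nat_lit 615) (nat_lit 297)))) (XT.nd (nat_lit 156) (nat_lit 836) (nat_lit 0) (XT.nd (nat_lit 78) (nat_lit 76) (nat_lit 0) (XT.lf (nat_lit 0) (nat_lit 12591513410) (nat_lit 836) (nat_lit 25389374750) (nat_lit 912) (nat_lit 88458706) (nat_lit 398) (nat_lit 5) (nat_lit 409) (nat_lit 5) (nat_lit 410) (nat_lit 5) (nat_lit 649) (nat_lit 615) (nat_lit 296)) (XT.lf (nat_lit 0) (nat_lit 4057012963) (nat_lit 912) (nat_lit 4644495239) (nat_lit 76) (nat_lit 29789158246) (nat_lit 397) (nat_lit 5) (nat_lit 409) (nat_lit 5) (nat_lit 398) (nat_lit 5) (nat_lit 650) (nat_lit 615) (nat_lit 295))) (XT.nd (nat_lit 78) (nat_lit 0) (nat_lit 0) (XT.lf (nat_lit 0) (nat_lit 8446854932) (nat_lit 912) (nat_lit 22148751031) (nat_lit 76) (nat_lit 8321541929) (nat_lit 386) (nat_lit 5) (nat_lit 398) (nat_lit 5) (nat_lit 387) (nat_lit 5) (nat_lit 651) (nat_lit 615) (nat_lit 294)) (XT.lf (nat_lit 0) (nat_lit 13012173671) (nat_lit 912) (nat_lit 738219394) (nat_lit 76) (nat_lit 25600012373) (nat_lit 386) (nat_lit 5) (nat_lit 398) (nat_lit 5) (nat_lit 387) (nat_lit 5)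 (nat_lit 652) (nat_lit 615) (nat_lit 293)))))) (XT.nd (nat_lit 546) (nat_lit 0) (nat_lit 228) (XT.nd (nat_lit 234) (nat_lit 0) (nat_lit 76) (XT.nd (nat_lit 78) (nat_lit 0) (nat_lit 0) (XT.lf (nat_lit 0) (nat_lit 1228450197) (nat_lit 1900) (nat_lit 6195889348) (nat_lit 1900) (nat_lit 6195889348) (nat_lit 471) (nat_lit 3) (nat_lit 496) (nat_lit 3) (nat_lit 496) (nat_lit 5) (nat_lit 616) (nat_lit 616) (nat_lit 328)) (XT.nd (nat_lit 78) (nat_lit 0) (nat_lit 76) (XT.lf (nat_lit 76) (nat_lit 1133861209) (nat_lit 0) (nat_lit 1444021338) (nat_lit 1900) (nat_lit 24933046155) (nat_lit 472) (nat_lit 5) (nat_lit 471) (nat_lit 3) (nat_lit 496) (nat_lit 5) (nat_lit 617) (nat_lit 616) (nat_lit 327)) (XT.lf (nat_lit 0) (nat_lit 2862051113) (nat_lit 1824) (nat_lit 12768367495) (nat_lit 1900) (nat_lit 12153175232) (nat_lit 472) (nat_lit 5) (nat_lit 496) (nat_lit 5) (nat_lit 497) (nat_lit 5) (nat_lit 618) (nat_lit 616) (nat_lit 326)))) (XT.nd (nat_lit 156) (nat_lit 0) (nat_lit 76) (XT.nd (nat_lit 78) (nat_lit 0) (nat_lit 76) (XT.lf (nat_lit 76) (nat_lit 1116347703)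 (nat_lit 0) (nat_lit 2050075973) (nat_lit 1900) (nat_lit 24894998332) (nat_lit 473) (nat_lit 5) (nat_lit 472) (nat_lit 5) (nat_lit 497) (nat_lit 5) (nat_lit 619) (nat_lit 616) (nat_lit 325)) (XT.lf (nat_lit 0) (nat_lit 3637512272) (nat_lit 1824) (nat_lit 12969730895) (nat_lit 1900) (nat_lit 11734351137) (nat_lit 473) (nat_lit 5) (nat_lit 497) (nat_lit 5) (nat_lit 498) (nat_lit 5) (nat_lit 620) (nat_lit 616) (nat_lit 324))) (XT.nd (nat_lit 78) (nat_lit 0) (nat_lit 76) (XT.lf (nat_lit 76) (nat_lit 1287168711) (nat_lit 0) (nat_lit 2850584890) (nat_lit 1900) (nat_lit 24489221959) (nat_lit 474) (nat_lit 5) (nat_lit 473) (nat_lit 5) (nat_lit 498) (nat_lit 5) (nat_lit 621) (nat_lit 616) (nat_lit 323)) (XT.lf (nat_lit 0) (nat_lit 4806043889) (nat_lit 1824) (nat_lit 12985778196) (nat_lit 1900) (nat_lit 11123081604) (nat_lit 474) (nat_lit 5) (nat_lit 498) (nat_lit 5) (nat_lit 499) (nat_lit 5) (nat_lit 622) (nat_lit 616) (nat_lit 322))))) (XT.nd (nat_lit 312) (nat_lit 0) (nat_lit 152) (XT.nd (nat_lit 156) (nat_lit 0) (nat_lit 76) (XT.nd (nat_lit 78)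 (nat_lit 0) (nat_lit 76) (XT.lf (nat_lit 76) (nat_lit 1656912451) (nat_lit 0) (nat_lit 3858303958) (nat_lit 1900) (nat_lit 23692823772) (nat_lit 475) (nat_lit 5) (nat_lit 474) (nat_lit 5) (nat_lit 499) (nat_lit 5) (nat_lit 623) (nat_lit 616) (nat_lit 321)) (XT.lf (nat_lit 0) (nat_lit 6391434476) (nat_lit 1824) (nat_lit 12805925469) (nat_lit 1900) (nat_lit 10306622341) (nat_lit 475) (nat_lit 5) (nat_lit 499) (nat_lit 5) (nat_lit 500) (nat_lit 5) (nat_lit 624) (nat_lit 616) (nat_lit 320))) (XT.nd (nat_lit 78) (nat_lit 0) (nat_lit 76) (XT.lf (nat_lit 76) (nat_lit 2236679227) (nat_lit 0) (nat_lit 5086531471) (nat_lit 1900) (nat_lit 22481871983) (nat_lit 476) (nat_lit 5) (nat_lit 475) (nat_lit 5) (nat_lit 500) (nat_lit 5) (nat_lit 625) (nat_lit 616) (nat_lit 319)) (XT.lf (nat_lit 0) (nat_lit 8418546682) (nat_lit 1824) (nat_lit 12419076815) (nat_lit 1900) (nat_lit 9271683224) (nat_lit 476) (nat_lit 5) (nat_lit 500) (nat_lit 5) (nat_lit 501) (nat_lit 5) (nat_lit 626) (nat_lit 616) (nat_lit 318)))) (XT.nd (nat_lit 156) (nat_lit 0) (nat_lit 76) (XT.nd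 (nat_lit 78) (nat_lit 0) (nat_lit 76) (XT.lf (nat_lit 76) (nat_lit 3038100893) (nat_lit 0) (nat_lit 6549135355) (nat_lit 1900) (nat_lit 20831350174) (nat_lit 477) (nat_lit 5) (nat_lit 476) (nat_lit 5) (nat_lit 501) (nat_lit 5) (nat_lit 627) (nat_lit 616) (nat_lit 317)) (XT.lf (nat_lit 0) (nat_lit 10913364697) (nat_lit 1824) (nat_lit 11813604811) (nat_lit 1900) (nat_lit 8004401023) (nat_lit 477) (nat_lit 5) (nat_lit 501) (nat_lit 5) (nat_lit 502) (nat_lit 5) (nat_lit 628) (nat_lit 616) (nat_lit 316))) (XT.nd (nat_lit 78) (nat_lit 0) (nat_lit 76) (XT.lf (nat_lit 76) (nat_lit 4073361152) (nat_lit 0) (nat_lit 8260581341) (nat_lit 1900) (nat_lit 18715109407) (nat_lit 478) (nat_lit 5) (nat_lit 477) (nat_lit 5) (nat_lit 502) (nat_lit 5) (nat_lit 629) (nat_lit 616) (nat_lit 315)) (XT.lf (nat_lit 0) (nat_lit 13903043517) (nat_lit 1824) (nat_lit 10977330122) (nat_lit 1900) (nat_lit 6490311137) (nat_lit 478) (nat_lit 5) (nat_lit 502) (nat_lit 5) (nat_lit 503) (nat_lit 5) (nat_lit 630) (nat_lit 616) (nat_lit 314))))))) (XT.nd (nat_lit 1170) (nat_lit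 2660) (nat_lit 0) (XT.nd (nat_lit 546) (nat_lit 3496) (nat_lit 0) (XT.nd (nat_lit 234) (nat_lit 0) (nat_lit 152) (XT.nd (nat_lit 78) (nat_lit 0) (nat_lit 76) (XT.lf (nat_lit 76) (nat_lit 5355216739) (nat_lit 0) (nat_lit 10235962179) (nat_lit 1900) (nat_lit 16105818454) (nat_lit 479) (nat_lit 5) (nat_lit 478) (nat_lit 5) (nat_lit 503) (nat_lit 5) (nat_lit 631) (nat_lit 616) (nat_lit 313)) (XT.nd (nat_lit 78) (nat_lit 0) (nat_lit 0) (XT.lf (nat_lit 0) (nat_lit 17415960142) (nat_lit 1824) (nat_lit 9897500239) (nat_lit 1900) (nat_lit 4714318283) (nat_lit 479) (nat_lit 5) (nat_lit 503) (nat_lit 5) (nat_lit 504) (nat_lit 5) (nat_lit 632) (nat_lit 616) (nat_lit 312)) (XT.lf (nat_lit 76) (nat_lit 6897019477) (nat_lit 0) (nat_lit 12491027928) (nat_lit 1900) (nat_lit 12974912075) (nat_lit 480) (nat_lit 5) (nat_lit 479) (nat_lit 5) (nat_lit 504) (nat_lit 5) (nat_lit 633) (nat_lit 616) (nat_lit 311)))) (XT.nd (nat_lit 156) (nat_lit 0) (nat_lit 76) (XT.nd (nat_lit 78) (nat_lit 0) (nat_lit 0) (XT.lf (nat_lit 0) (nat_lit 21481766776) (nat_lit 1824) (nat_lit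 8560767331) (nat_lit 1900) (nat_lit 2660666101) (nat_lit 480) (nat_lit 5) (nat_lit 504) (nat_lit 5) (nat_lit 505) (nat_lit 5) (nat_lit 634) (nat_lit 616) (nat_lit 310)) (XT.lf (nat_lit 76) (nat_lit 8712739271) (nat_lit 0) (nat_lit 15042217390) (nat_lit 1900) (nat_lit 9292537268) (nat_lit 481) (nat_lit 5) (nat_lit 480) (nat_lit 5) (nat_lit 505) (nat_lit 5) (nat_lit 635) (nat_lit 616) (nat_lit 309))) (XT.nd (nat_lit 78) (nat_lit 0) (nat_lit 0) (XT.lf (nat_lit 0) (nat_lit 26131446134) (nat_lit 1824) (nat_lit 6953165175) (nat_lit 1900) (nat_lit 312905599) (nat_lit 481) (nat_lit 5) (nat_lit 505) (nat_lit 5) (nat_lit 506) (nat_lit 5) (nat_lit 636) (nat_lit 616) (nat_lit 308)) (XT.lf (nat_lit 76) (nat_lit 10816988041) (nat_lit 0) (nat_lit 17906690745) (nat_lit 1900) (nat_lit 5027497389) (nat_lit 482) (nat_lit 5) (nat_lit 481) (nat_lit 5) (nat_lit 506) (nat_lit 5) (nat_lit 637) (nat_lit 616) (nat_lit 307))))) (XT.nd (nat_lit 312) (nat_lit 1900) (nat_lit 0) (XT.nd (nat_lit 156) (nat_lit 1824) (nat_lit 0) (XT.nd (nat_lit 78) (nat_lit 0) (nat_lit 76)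 (XT.lf (nat_lit 76) (nat_lit 29035487505) (nat_lit 0) (nat_lit 2377316542) (nat_lit 1900) (nat_lit 2698203717) (nat_lit 482) (nat_lit 5) (nat_lit 481) (nat_lit 5) (nat_lit 506) (nat_lit 5) (nat_lit 638) (nat_lit 616) (nat_lit 306)) (XT.lf (nat_lit 76) (nat_lit 13225044637) (nat_lit 0) (nat_lit 21102363441) (nat_lit 1900) (nat_lit 147194075) (nat_lit 483) (nat_lit 5) (nat_lit 482) (nat_lit 5) (nat_lit 507) (nat_lit 5) (nat_lit 639) (nat_lit 616) (nat_lit 305))) (XT.nd (nat_lit 78) (nat_lit 0) (nat_lit 76) (XT.lf (nat_lit 0) (nat_lit 2471103071) (nat_lit 1900) (nat_lit 2917603187) (nat_lit 1976) (nat_lit 29455474234) (nat_lit 457) (nat_lit 5) (nat_lit 482) (nat_lit 5) (nat_lit 483) (nat_lit 5) (nat_lit 640) (nat_lit 616) (nat_lit 304)) (XT.lf (nat_lit 0) (nat_lit 5311841562) (nat_lit 1900) (nat_lit 19300454592) (nat_lit 76) (nat_lit 10605393948) (nat_lit 458) (nat_lit 5) (nat_lit 483) (nat_lit 5) (nat_lit 459) (nat_lit 5) (nat_lit 641) (nat_lit 616) (nat_lit 303)))) (XT.nd (nat_lit 156) (nat_lit 912) (nat_lit 0) (XT.nd (nat_lit 78) (nat_lit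 1064) (nat_lit 0) (XT.lf (nat_lit 0) (nat_lit 8263277890) (nat_lit 1900) (nat_lit 467101062) (nat_lit 76) (nat_lit 26867213376) (nat_lit 458) (nat_lit 5) (nat_lit 483) (nat_lit 5) (nat_lit 459) (nat_lit 5) (nat_lit 642) (nat_lit 616) (nat_lit 302)) (XT.lf (nat_lit 0) (nat_lit 11444873269) (nat_lit 1140) (nat_lit 17041283258) (nat_lit 76) (nat_lit 7495513550) (nat_lit 444) (nat_lit 5) (nat_lit 459) (nat_lit 5) (nat_lit 445) (nat_lit 5) (nat_lit 643) (nat_lit 616) (nat_lit 301))) (XT.nd (nat_lit 78) (nat_lit 0) (nat_lit 0) (XT.lf (nat_lit 0) (nat_lit 2340526023) (nat_lit 912) (nat_lit 12424282502) (nat_lit 988) (nat_lit 21607126779) (nat_lit 432) (nat_lit 5) (nat_lit 444) (nat_lit 5) (nat_lit 445) (nat_lit 5) (nat_lit 644) (nat_lit 616) (nat_lit 300)) (XT.lf (nat_lit 0) (nat_lit 18290519467) (nat_lit 988) (nat_lit 14454551838) (nat_lit 76) (nat_lit 4022147074) (nat_lit 432) (nat_lit 5) (nat_lit 445) (nat_lit 5) (nat_lit 433) (nat_lit 5) (nat_lit 645) (nat_lit 616) (nat_lit 299)))))) (XT.nd (nat_lit 79014) (nat_lit 0) (nat_lit 5624) (XT.nd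 (nat_lit 234) (nat_lit 912) (nat_lit 0) (XT.nd (nat_lit 78) (nat_lit 836) (nat_lit 0) (XT.lf (nat_lit 0) (nat_lit 5502411161) (nat_lit 912) (nat_lit 16500927344) (nat_lit 988) (nat_lit 15164736812) (nat_lit 420) (nat_lit 5) (nat_lit 432) (nat_lit 5) (nat_lit 433) (nat_lit 5) (nat_lit 646) (nat_lit 616) (nat_lit 298)) (XT.nd (nat_lit 78) (nat_lit 836) (nat_lit 0) (XT.lf (nat_lit 0) (nat_lit 25887104378) (nat_lit 988) (nat_lit 11522981778) (nat_lit 76) (nat_lit 164929504) (nat_lit 420) (nat_lit 5) (nat_lit 433) (nat_lit 5) (nat_lit 421) (nat_lit 5) (nat_lit 647) (nat_lit 616) (nat_lit 297)) (XT.lf (nat_lit 0) (nat_lit 9030401631) (nat_lit 836) (nat_lit 20984688537) (nat_lit 912) (nat_lit 7971673830) (nat_lit 409) (nat_lit 5) (nat_lit 420) (nat_lit 5) (nat_lit 421) (nat_lit 5) (nat_lit 648) (nat_lit 616) (nat_lit 296)))) (XT.nd (nat_lit 156) (nat_lit 0) (nat_lit 0) (XT.nd (nat_lit 78) (nat_lit 912) (nat_lit 0) (XT.lf (nat_lit 0) (nat_lit 30149748089) (nat_lit 836) (nat_lit 4151866737) (nat_lit 912) (nat_lit 4103612968) (nat_lit 409) (nat_lit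 5) (nat_lit 420) (nat_lit 5) (nat_lit 421) (nat_lit 5) (nat_lit 649) (nat_lit 616) (nat_lit 295)) (XT.lf (nat_lit 0) (nat_lit 12227625) (nat_lit 912) (nat_lit 25885443511) (nat_lit 76) (nat_lit 12931043468) (nat_lit 397) (nat_lit 5) (nat_lit 409) (nat_lit 5) (nat_lit 398) (nat_lit 5) (nat_lit 650) (nat_lit 616) (nat_lit 294))) (XT.nd (nat_lit 78546) (nat_lit 0) (nat_lit 5624) (XT.lf (nat_lit 0) (nat_lit 4237439644) (nat_lit 912) (nat_lit 4638011815) (nat_lit 76) (nat_lit 30383037223) (nat_lit 397) (nat_lit 5) (nat_lit 409) (nat_lit 5) (nat_lit 398) (nat_lit 5) (nat_lit 651) (nat_lit 616) (nat_lit 293)) (XT.lf (nat_lit 0) (nat_lit 1341492390) (nat_lit 1900) (nat_lit 6274683126) (nat_lit 1900) (nat_lit 6274683126) (nat_lit 471) (nat_lit 3) (nat_lit 496) (nat_lit 3) (nat_lit 496) (nat_lit 5) (nat_lit 617) (nat_lit 617) (nat_lit 326))))) (XT.nd (nat_lit 312) (nat_lit 0) (nat_lit 152) (XT.nd (nat_lit 156) (nat_lit 0) (nat_lit 76) (XT.nd (nat_lit 78) (nat_lit 0) (nat_lit 76) (XT.lf (nat_lit 76) (nat_lit 1246192715) (nat_lit 0) (nat_lit 1557306420)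 (nat_lit 1900) (nat_lit 25254156441) (nat_lit 472) (nat_lit 5) (nat_lit 471) (nat_lit 3) (nat_lit 496) (nat_lit 5) (nat_lit 618) (nat_lit 617) (nat_lit 325)) (XT.lf (nat_lit 0) (nat_lit 3089400886) (nat_lit 1824) (nat_lit 12931877990) (nat_lit 1900) (nat_lit 12314574351) (nat_lit 472) (nat_lit 5) (nat_lit 496) (nat_lit 5) (nat_lit 497) (nat_lit 5) (nat_lit 619) (nat_lit 617) (nat_lit 324))) (XT.nd (nat_lit 78) (nat_lit 0) (nat_lit 76) (XT.lf (nat_lit 76) (nat_lit 1229927191) (nat_lit 0) (nat_lit 2167190716) (nat_lit 1900) (nat_lit 25222175114) (nat_lit 473) (nat_lit 5) (nat_lit 472) (nat_lit 5) (nat_lit 497) (nat_lit 5) (nat_lit 620) (nat_lit 617) (nat_lit 323)) (XT.lf (nat_lit 0) (nat_lit 3873862106) (nat_lit 1824) (nat_lit 13135886161) (nat_lit 1900) (nat_lit 11895396018) (nat_lit 473) (nat_lit 5) (nat_lit 497) (nat_lit 5) (nat_lit 498) (nat_lit 5) (nat_lit 621) (nat_lit 617) (nat_lit 322)))) (XT.nd (nat_lit 156) (nat_lit 0) (nat_lit 76) (XT.nd (nat_lit 78) (nat_lit 0) (nat_lit 76) (XT.lf (nat_lit 76) (nat_lit 1405538020) (nat_lit 0) (nat_lit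 2975963795) (nat_lit 1900) (nat_lit 24814783674) (nat_lit 474) (nat_lit 5) (nat_lit 473) (nat_lit 5) (nat_lit 498) (nat_lit 5) (nat_lit 622) (nat_lit 617) (nat_lit 321)) (XT.lf (nat_lit 0) (nat_lit 5059565998) (nat_lit 1824) (nat_lit 13151082581) (nat_lit 1900) (nat_lit 11279395630) (nat_lit 474) (nat_lit 5) (nat_lit 498) (nat_lit 5) (nat_lit 499) (nat_lit 5) (nat_lit 623) (nat_lit 617) (nat_lit 320))) (XT.nd (nat_lit 78) (nat_lit 0) (nat_lit 76) (XT.lf (nat_lit 76) (nat_lit 1783840753) (nat_lit 0) (nat_lit 3996603864) (nat_lit 1900) (nat_lit 24008648548) (nat_lit 475) (nat_lit 5) (nat_lit 474) (nat_lit 5) (nat_lit 499) (nat_lit 5) (nat_lit 624) (nat_lit 617) (nat_lit 319)) (XT.lf (nat_lit 0) (nat_lit 6670760185) (nat_lit 1824) (nat_lit 12966656926) (nat_lit 1900) (nat_lit 10453605722) (nat_lit 475) (nat_lit 5) (nat_lit 499) (nat_lit 5) (nat_lit 500) (nat_lit 5) (nat_lit 625) (nat_lit 617) (nat_lit 318))))))))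
noncomputable def xc121 : XT := (XT.nd (nat_lit 80886) (nat_lit 0) (nat_lit 912) (XT.nd (nat_lit 1170) (nat_lit 5928) (nat_lit 0) (XT.nd (nat_lit 546) (nat_lit 0) (nat_lit 304) (XT.nd (nat_lit 234) (nat_lit 0) (nat_lit 152) (XT.nd (nat_lit 78) (nat_lit 0) (nat_lit 76) (XT.lf (nat_lit 76) (nat_lit 2376172318) (nat_lit 0) (nat_lit 5242644324) (nat_lit 1900) (nat_lit 22779375878) (nat_lit 476) (nat_lit 5) (nat_lit 475) (nat_lit 5) (nat_lit 500) (nat_lit 5) (nat_lit 626) (nat_lit 617) (nat_lit 317)) (XT.nd (nat_lit 78) (nat_lit 0) (nat_lit 0) (XT.lf (nat_lit 0) (nat_lit 8732788836) (nat_lit 1824) (nat_lit 12571277560) (nat_lit 1900) (nat_lit 9404500230) (nat_lit 476) (nat_lit 5) (nat_lit 500) (nat_lit 5) (nat_lit 501) (nat_lit 5) (nat_lit 627) (nat_lit 617) (nat_lit 316)) (XT.lf (nat_lit 76) (nat_lit 3194410933) (nat_lit 0) (nat_lit 6728201401) (nat_lit 1900) (nat_lit 21101464558) (nat_lit 477) (nat_lit 5) (nat_lit 476) (nat_lit 5) (nat_lit 501) (nat_lit 5) (nat_lit 628) (nat_lit 617) (nat_lit 315)))) (XT.nd (nat_lit 156) (nat_lit 0) (nat_lit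 76) (XT.nd (nat_lit 78) (nat_lit 0) (nat_lit 0) (XT.lf (nat_lit 0) (nat_lit 11272140984) (nat_lit 1824) (nat_lit 11953071545) (nat_lit 1900) (nat_lit 8117966771) (nat_lit 477) (nat_lit 5) (nat_lit 501) (nat_lit 5) (nat_lit 502) (nat_lit 5) (nat_lit 629) (nat_lit 617) (nat_lit 314)) (XT.lf (nat_lit 76) (nat_lit 4250996860) (nat_lit 0) (nat_lit 8468002787) (nat_lit 1900) (nat_lit 18948257430) (nat_lit 478) (nat_lit 5) (nat_lit 477) (nat_lit 5) (nat_lit 502) (nat_lit 5) (nat_lit 630) (nat_lit 617) (nat_lit 313))) (XT.nd (nat_lit 78) (nat_lit 0) (nat_lit 0) (XT.lf (nat_lit 0) (nat_lit 14316500711) (nat_lit 1824) (nat_lit 11099603783) (nat_lit 1900) (nat_lit 6579277918) (nat_lit 478) (nat_lit 5) (nat_lit 502) (nat_lit 5) (nat_lit 503) (nat_lit 5) (nat_lit 631) (nat_lit 617) (nat_lit 312)) (XT.lf (nat_lit 76) (nat_lit 5558954062) (nat_lit 0) (nat_lit 10477417334) (nat_lit 1900) (nat_lit 16291890573) (nat_lit 479) (nat_lit 5) (nat_lit 478) (nat_lit 5) (nat_lit 503) (nat_lit 5) (nat_lit 632) (nat_lit 617) (nat_lit 311))))) (XT.nd (nat_lit 312) (nat_lit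 0) (nat_lit 152) (XT.nd (nat_lit 156) (nat_lit 0) (nat_lit 76) (XT.nd (nat_lit 78) (nat_lit 0) (nat_lit 0) (XT.lf (nat_lit 0) (nat_lit 17894799330) (nat_lit 1824) (nat_lit 9997855290) (nat_lit 1900) (nat_lit 4773061401) (nat_lit 479) (nat_lit 5) (nat_lit 503) (nat_lit 5) (nat_lit 504) (nat_lit 5) (nat_lit 633) (nat_lit 617) (nat_lit 310)) (XT.lf (nat_lit 76) (nat_lit 7131912749) (nat_lit 0) (nat_lit 12772485857) (nat_lit 1900) (nat_lit 13103240595) (nat_lit 480) (nat_lit 5) (nat_lit 479) (nat_lit 5) (nat_lit 504) (nat_lit 5) (nat_lit 634) (nat_lit 617) (nat_lit 309))) (XT.nd (nat_lit 78) (nat_lit 0) (nat_lit 0) (XT.lf (nat_lit 0) (nat_lit 22037269603) (nat_lit 1824) (nat_lit 8634200558) (nat_lit 1900) (nat_lit 2683269187) (nat_lit 480) (nat_lit 5) (nat_lit 504) (nat_lit 5) (nat_lit 505) (nat_lit 5) (nat_lit 635) (nat_lit 617) (nat_lit 308)) (XT.lf (nat_lit 76) (nat_lit 8984132872) (nat_lit 0) (nat_lit 15369953113) (nat_lit 1900) (nat_lit 9351869851) (nat_lit 481) (nat_lit 5) (nat_lit 480) (nat_lit 5) (nat_lit 505) (nat_lit 5) (nat_lit 636)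 (nat_lit 617) (nat_lit 307)))) (XT.nd (nat_lit 156) (nat_lit 0) (nat_lit 0) (XT.nd (nat_lit 78) (nat_lit 0) (nat_lit 0) (XT.lf (nat_lit 0) (nat_lit 26775502110) (nat_lit 1824) (nat_lit 6994383985) (nat_lit 1900) (nat_lit 293145387) (nat_lit 481) (nat_lit 5) (nat_lit 505) (nat_lit 5) (nat_lit 506) (nat_lit 5) (nat_lit 637) (nat_lit 617) (nat_lit 306)) (XT.lf (nat_lit 76) (nat_lit 11130528581) (nat_lit 0) (nat_lit 18287301004) (nat_lit 1900) (nat_lit 5005969489) (nat_lit 482) (nat_lit 5) (nat_lit 481) (nat_lit 5) (nat_lit 506) (nat_lit 5) (nat_lit 638) (nat_lit 617) (nat_lit 305))) (XT.nd (nat_lit 78) (nat_lit 0) (nat_lit 76) (XT.lf (nat_lit 76) (nat_lit 29711492137) (nat_lit 0) (nat_lit 2446898602) (nat_lit 1900) (nat_lit 2632483626) (nat_lit 482) (nat_lit 5) (nat_lit 481) (nat_lit 5) (nat_lit 506) (nat_lit 5) (nat_lit 639) (nat_lit 617) (nat_lit 304)) (XT.lf (nat_lit 76) (nat_lit 13586693670) (nat_lit 0) (nat_lit 21542783065) (nat_lit 1900) (nat_lit 32300246) (nat_lit 483) (nat_lit 5) (nat_lit 482) (nat_lit 5) (nat_lit 507) (nat_lit 5) (nat_lit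 640) (nat_lit 617) (nat_lit 303)))))) (XT.nd (nat_lit 546) (nat_lit 1748) (nat_lit 0) (XT.nd (nat_lit 234) (nat_lit 2812) (nat_lit 0) (XT.nd (nat_lit 78) (nat_lit 0) (nat_lit 76) (XT.lf (nat_lit 0) (nat_lit 2634537141) (nat_lit 1900) (nat_lit 2879190275) (nat_lit 1976) (nat_lit 30025049906) (nat_lit 457) (nat_lit 5) (nat_lit 482) (nat_lit 5) (nat_lit 483) (nat_lit 5) (nat_lit 641) (nat_lit 617) (nat_lit 302)) (XT.nd (nat_lit 78) (nat_lit 0) (nat_lit 0) (XT.lf (nat_lit 0) (nat_lit 5530373350) (nat_lit 1900) (nat_lit 19587975244) (nat_lit 76) (nat_lit 10801442997) (nat_lit 458) (nat_lit 5) (nat_lit 483) (nat_lit 5) (nat_lit 459) (nat_lit 5) (nat_lit 642) (nat_lit 617) (nat_lit 301)) (XT.lf (nat_lit 0) (nat_lit 8538636543) (nat_lit 1900) (nat_lit 379885790) (nat_lit 76) (nat_lit 27388813692) (nat_lit 458) (nat_lit 5) (nat_lit 483) (nat_lit 5) (nat_lit 459) (nat_lit 5) (nat_lit 643) (nat_lit 617) (nat_lit 300)))) (XT.nd (nat_lit 156) (nat_lit 912) (nat_lit 0) (XT.nd (nat_lit 78) (nat_lit 912) (nat_lit 0) (XT.lf (nat_lit 0) (nat_lit 11782245895)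 (nat_lit 1140) (nat_lit 17283927532) (nat_lit 76) (nat_lit 7632954384) (nat_lit 444) (nat_lit 5) (nat_lit 459) (nat_lit 5) (nat_lit 445) (nat_lit 5) (nat_lit 644) (nat_lit 617) (nat_lit 299)) (XT.lf (nat_lit 0) (nat_lit 2484872005) (nat_lit 912) (nat_lit 12682214153) (nat_lit 988) (nat_lit 21930142180) (nat_lit 432) (nat_lit 5) (nat_lit 444) (nat_lit 5) (nat_lit 445) (nat_lit 5) (nat_lit 645) (nat_lit 617) (nat_lit 298))) (XT.nd (nat_lit 78) (nat_lit 912) (nat_lit 0) (XT.lf (nat_lit 0) (nat_lit 18761153515) (nat_lit 988) (nat_lit 14645856146) (nat_lit 76) (nat_lit 4093450687) (nat_lit 432) (nat_lit 5) (nat_lit 445) (nat_lit 5) (nat_lit 433) (nat_lit 5) (nat_lit 646) (nat_lit 617) (nat_lit 297)) (XT.lf (nat_lit 0) (nat_lit 5709602779) (nat_lit 912) (nat_lit 16837201508) (nat_lit 988) (nat_lit 15362558747) (nat_lit 420) (nat_lit 5) (nat_lit 432) (nat_lit 5) (nat_lit 433) (nat_lit 5) (nat_lit 647) (nat_lit 617) (nat_lit 296))))) (XT.nd (nat_lit 78858) (nat_lit 0) (nat_lit 5624) (XT.nd (nat_lit 156) (nat_lit 912) (nat_lit 0) (XT.nd (nat_lit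 78) (nat_lit 836) (nat_lit 0) (XT.lf (nat_lit 0) (nat_lit 26506178228) (nat_lit 988) (nat_lit 11656129846) (nat_lit 76) (nat_lit 162175570) (nat_lit 420) (nat_lit 5) (nat_lit 433) (nat_lit 5) (nat_lit 421) (nat_lit 5) (nat_lit 648) (nat_lit 617) (nat_lit 295)) (XT.lf (nat_lit 0) (nat_lit 9307681024) (nat_lit 836) (nat_lit 21407683467) (nat_lit 912) (nat_lit 8029129754) (nat_lit 409) (nat_lit 5) (nat_lit 420) (nat_lit 5) (nat_lit 421) (nat_lit 5) (nat_lit 649) (nat_lit 617) (nat_lit 294))) (XT.nd (nat_lit 78) (nat_lit 912) (nat_lit 0) (XT.lf (nat_lit 0) (nat_lit 30847518894) (nat_lit 836) (nat_lit 4238140502) (nat_lit 912) (nat_lit 4085707235) (nat_lit 409) (nat_lit 5) (nat_lit 420) (nat_lit 5) (nat_lit 421) (nat_lit 5) (nat_lit 650) (nat_lit 617) (nat_lit 293)) (XT.lf (nat_lit 0) (nat_lit 109811807) (nat_lit 912) (nat_lit 26305727549) (nat_lit 76) (nat_lit 13187797486) (nat_lit 397) (nat_lit 5) (nat_lit 409) (nat_lit 5) (nat_lit 398) (nat_lit 5) (nat_lit 651) (nat_lit 617) (nat_lit 292)))) (XT.nd (nat_lit 156) (nat_lit 0) (nat_lit 76) (XT.nd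 (nat_lit 78) (nat_lit 0) (nat_lit 0) (XT.lf (nat_lit 0) (nat_lit 1453359906) (nat_lit 1900) (nat_lit 6356804999) (nat_lit 1900) (nat_lit 6356804999) (nat_lit 471) (nat_lit 3) (nat_lit 496) (nat_lit 3) (nat_lit 496) (nat_lit 5) (nat_lit 618) (nat_lit 618) (nat_lit 324)) (XT.lf (nat_lit 76) (nat_lit 1357289466) (nat_lit 0) (nat_lit 1669579668) (nat_lit 1900) (nat_lit 25588583441) (nat_lit 472) (nat_lit 5) (nat_lit 471) (nat_lit 3) (nat_lit 496) (nat_lit 5) (nat_lit 619) (nat_lit 618) (nat_lit 323))) (XT.nd (nat_lit 78) (nat_lit 0) (nat_lit 0) (XT.lf (nat_lit 0) (nat_lit 3314692125) (nat_lit 1824) (nat_lit 13102225608) (nat_lit 1900) (nat_lit 12482372581) (nat_lit 472) (nat_lit 5) (nat_lit 496) (nat_lit 5) (nat_lit 497) (nat_lit 5) (nat_lit 620) (nat_lit 618) (nat_lit 322)) (XT.lf (nat_lit 76) (nat_lit 1342234822) (nat_lit 0) (nat_lit 2283692184) (nat_lit 1900) (nat_lit 25562524821) (nat_lit 473) (nat_lit 5) (nat_lit 472) (nat_lit 5) (nat_lit 497) (nat_lit 5) (nat_lit 621) (nat_lit 618) (nat_lit 321))))))) (XT.nd (nat_lit 1170) (nat_lit 4864)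 (nat_lit 0) (XT.nd (nat_lit 546) (nat_lit 0) (nat_lit 228) (XT.nd (nat_lit 234) (nat_lit 0) (nat_lit 76) (XT.nd (nat_lit 78) (nat_lit 0) (nat_lit 0) (XT.lf (nat_lit 0) (nat_lit 4108586164) (nat_lit 1824) (nat_lit 13308985130) (nat_lit 1900) (nat_lit 12062521410) (nat_lit 473) (nat_lit 5) (nat_lit 497) (nat_lit 5) (nat_lit 498) (nat_lit 5) (nat_lit 622) (nat_lit 618) (nat_lit 320)) (XT.nd (nat_lit 78) (nat_lit 0) (nat_lit 76) (XT.lf (nat_lit 76) (nat_lit 1522677938) (nat_lit 0) (nat_lit 3101195496) (nat_lit 1900) (nat_lit 25153233592) (nat_lit 474) (nat_lit 5) (nat_lit 473) (nat_lit 5) (nat_lit 498) (nat_lit 5) (nat_lit 623) (nat_lit 618) (nat_lit 319)) (XT.lf (nat_lit 0) (nat_lit 5312046469) (nat_lit 1824) (nat_lit 13323359155) (nat_lit 1900) (nat_lit 11441404528) (nat_lit 474) (nat_lit 5) (nat_lit 498) (nat_lit 5) (nat_lit 499) (nat_lit 5) (nat_lit 624) (nat_lit 618) (nat_lit 318)))) (XT.nd (nat_lit 156) (nat_lit 0) (nat_lit 76) (XT.nd (nat_lit 78) (nat_lit 0) (nat_lit 76) (XT.lf (nat_lit 76) (nat_lit 1909665639) (nat_lit 0) (nat_lit 4135295868)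 (nat_lit 1900) (nat_lit 24336926382) (nat_lit 475) (nat_lit 5) (nat_lit 474) (nat_lit 5) (nat_lit 499) (nat_lit 5) (nat_lit 625) (nat_lit 618) (nat_lit 317)) (XT.lf (nat_lit 0) (nat_lit 6949789593) (nat_lit 1824) (nat_lit 13134307006) (nat_lit 1900) (nat_lit 10605825602) (nat_lit 475) (nat_lit 5) (nat_lit 499) (nat_lit 5) (nat_lit 500) (nat_lit 5) (nat_lit 626) (nat_lit 618) (nat_lit 316))) (XT.nd (nat_lit 78) (nat_lit 0) (nat_lit 76) (XT.lf (nat_lit 76) (nat_lit 2514775645) (nat_lit 0) (nat_lit 5399767707) (nat_lit 1900) (nat_lit 23088737382) (nat_lit 476) (nat_lit 5) (nat_lit 475) (nat_lit 5) (nat_lit 500) (nat_lit 5) (nat_lit 627) (nat_lit 618) (nat_lit 315)) (XT.lf (nat_lit 0) (nat_lit 9047651477) (nat_lit 1824) (nat_lit 12730257138) (nat_lit 1900) (nat_lit 9542016746) (nat_lit 476) (nat_lit 5) (nat_lit 500) (nat_lit 5) (nat_lit 501) (nat_lit 5) (nat_lit 628) (nat_lit 618) (nat_lit 314))))) (XT.nd (nat_lit 312) (nat_lit 0) (nat_lit 152) (XT.nd (nat_lit 156) (nat_lit 0) (nat_lit 76) (XT.nd (nat_lit 78) (nat_lit 0) (nat_lit 76) (XT.lf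 (nat_lit 76) (nat_lit 3350136927) (nat_lit 0) (nat_lit 6908981634) (nat_lit 1900) (nat_lit 21382670493) (nat_lit 477) (nat_lit 5) (nat_lit 476) (nat_lit 5) (nat_lit 501) (nat_lit 5) (nat_lit 629) (nat_lit 618) (nat_lit 313)) (XT.lf (nat_lit 0) (nat_lit 11632636661) (nat_lit 1824) (nat_lit 12099086684) (nat_lit 1900) (nat_lit 8235610351) (nat_lit 477) (nat_lit 5) (nat_lit 501) (nat_lit 5) (nat_lit 502) (nat_lit 5) (nat_lit 630) (nat_lit 618) (nat_lit 312))) (XT.nd (nat_lit 78) (nat_lit 0) (nat_lit 76) (XT.lf (nat_lit 76) (nat_lit 4428450942) (nat_lit 0) (nat_lit 8677933604) (nat_lit 1900) (nat_lit 19191549601) (nat_lit 478) (nat_lit 5) (nat_lit 477) (nat_lit 5) (nat_lit 502) (nat_lit 5) (nat_lit 631) (nat_lit 618) (nat_lit 311)) (XT.lf (nat_lit 0) (nat_lit 14732969445) (nat_lit 1824) (nat_lit 11228100144) (nat_lit 1900) (nat_lit 6671609880) (nat_lit 478) (nat_lit 5) (nat_lit 502) (nat_lit 5) (nat_lit 503) (nat_lit 5) (nat_lit 632) (nat_lit 618) (nat_lit 310)))) (XT.nd (nat_lit 156) (nat_lit 0) (nat_lit 76) (XT.nd (nat_lit 78) (nat_lit 0)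 (nat_lit 76) (XT.lf (nat_lit 76) (nat_lit 5763013754) (nat_lit 0) (nat_lit 10722275091) (nat_lit 1900) (nat_lit 16486966897) (nat_lit 479) (nat_lit 5) (nat_lit 478) (nat_lit 5) (nat_lit 503) (nat_lit 5) (nat_lit 633) (nat_lit 618) (nat_lit 309)) (XT.lf (nat_lit 0) (nat_lit 18378147053) (nat_lit 1824) (nat_lit 10104007172) (nat_lit 1900) (nat_lit 4834359568) (nat_lit 479) (nat_lit 5) (nat_lit 503) (nat_lit 5) (nat_lit 504) (nat_lit 5) (nat_lit 634) (nat_lit 618) (nat_lit 308))) (XT.nd (nat_lit 78) (nat_lit 0) (nat_lit 76) (XT.lf (nat_lit 76) (nat_lit 7367739087) (nat_lit 0) (nat_lit 13058344426) (nat_lit 1900) (nat_lit 13239229166) (nat_lit 480) (nat_lit 5) (nat_lit 479) (nat_lit 5) (nat_lit 504) (nat_lit 5) (nat_lit 635) (nat_lit 618) (nat_lit 307)) (XT.lf (nat_lit 0) (nat_lit 22598994899) (nat_lit 1824) (nat_lit 8712899448) (nat_lit 1900) (nat_lit 2707512968) (nat_lit 480) (nat_lit 5) (nat_lit 504) (nat_lit 5) (nat_lit 505) (nat_lit 5) (nat_lit 636) (nat_lit 618) (nat_lit 306)))))) (XT.nd (nat_lit 546) (nat_lit 3648) (nat_lit 0) (XT.nd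 (nat_lit 234) (nat_lit 1748) (nat_lit 0) (XT.nd (nat_lit 78) (nat_lit 0) (nat_lit 76) (XT.lf (nat_lit 76) (nat_lit 9257182327) (nat_lit 0) (nat_lit 15703199326) (nat_lit 1900) (nat_lit 9417301941) (nat_lit 481) (nat_lit 5) (nat_lit 480) (nat_lit 5) (nat_lit 505) (nat_lit 5) (nat_lit 637) (nat_lit 618) (nat_lit 305)) (XT.nd (nat_lit 78) (nat_lit 0) (nat_lit 0) (XT.lf (nat_lit 0) (nat_lit 27427724046) (nat_lit 1824) (nat_lit 7040226593) (nat_lit 1900) (nat_lit 274000294) (nat_lit 481) (nat_lit 5) (nat_lit 505) (nat_lit 5) (nat_lit 506) (nat_lit 5) (nat_lit 638) (nat_lit 618) (nat_lit 304)) (XT.lf (nat_lit 76) (nat_lit 11446565507) (nat_lit 0) (nat_lit 18674650680) (nat_lit 1900) (nat_lit 4988751462) (nat_lit 482) (nat_lit 5) (nat_lit 481) (nat_lit 5) (nat_lit 506) (nat_lit 5) (nat_lit 639) (nat_lit 618) (nat_lit 303)))) (XT.nd (nat_lit 156) (nat_lit 0) (nat_lit 0) (XT.nd (nat_lit 78) (nat_lit 1824) (nat_lit 0) (XT.lf (nat_lit 76) (nat_lit 30397316445) (nat_lit 0) (nat_lit 2517016629) (nat_lit 1900) (nat_lit 2570096616) (nat_lit 482) (nat_lit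 5) (nat_lit 481) (nat_lit 5) (nat_lit 506) (nat_lit 5) (nat_lit 640) (nat_lit 618) (nat_lit 302)) (XT.lf (nat_lit 0) (nat_lit 79262323) (nat_lit 1900) (nat_lit 21911503445) (nat_lit 1976) (nat_lit 13872009088) (nat_lit 457) (nat_lit 5) (nat_lit 482) (nat_lit 5) (nat_lit 483) (nat_lit 5) (nat_lit 641) (nat_lit 618) (nat_lit 301))) (XT.nd (nat_lit 78) (nat_lit 0) (nat_lit 76) (XT.lf (nat_lit 0) (nat_lit 2796812666) (nat_lit 1900) (nat_lit 2843766607) (nat_lit 1976) (nat_lit 30606775612) (nat_lit 457) (nat_lit 5) (nat_lit 482) (nat_lit 5) (nat_lit 483) (nat_lit 5) (nat_lit 642) (nat_lit 618) (nat_lit 300)) (XT.lf (nat_lit 0) (nat_lit 5748915224) (nat_lit 1900) (nat_lit 19885070736) (nat_lit 76) (nat_lit 11002036611) (nat_lit 458) (nat_lit 5) (nat_lit 483) (nat_lit 5) (nat_lit 459) (nat_lit 5) (nat_lit 643) (nat_lit 618) (nat_lit 299))))) (XT.nd (nat_lit 312) (nat_lit 1748) (nat_lit 0) (XT.nd (nat_lit 156) (nat_lit 912) (nat_lit 0) (XT.nd (nat_lit 78) (nat_lit 1064) (nat_lit 0) (XT.lf (nat_lit 0) (nat_lit 8815227321) (nat_lit 1900) (nat_lit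 294675650) (nat_lit 76) (nat_lit 27921457372) (nat_lit 458) (nat_lit 5) (nat_lit 483) (nat_lit 5) (nat_lit 459) (nat_lit 5) (nat_lit 644) (nat_lit 618) (nat_lit 298)) (XT.lf (nat_lit 0) (nat_lit 12122153751) (nat_lit 1140) (nat_lit 17535237194) (nat_lit 76) (nat_lit 7773628239) (nat_lit 444) (nat_lit 5) (nat_lit 459) (nat_lit 5) (nat_lit 445) (nat_lit 5) (nat_lit 645) (nat_lit 618) (nat_lit 297))) (XT.nd (nat_lit 78) (nat_lit 0) (nat_lit 0) (XT.lf (nat_lit 0) (nat_lit 2628317486) (nat_lit 912) (nat_lit 12944937637) (nat_lit 988) (nat_lit 22263855429) (nat_lit 432) (nat_lit 5) (nat_lit 444) (nat_lit 5) (nat_lit 445) (nat_lit 5) (nat_lit 646) (nat_lit 618) (nat_lit 296)) (XT.lf (nat_lit 0) (nat_lit 19237129814) (nat_lit 988) (nat_lit 14844783718) (nat_lit 76) (nat_lit 4166535264) (nat_lit 432) (nat_lit 5) (nat_lit 445) (nat_lit 5) (nat_lit 433) (nat_lit 5) (nat_lit 647) (nat_lit 618) (nat_lit 295)))) (XT.nd (nat_lit 156) (nat_lit 836) (nat_lit 0) (XT.nd (nat_lit 78) (nat_lit 0) (nat_lit 0) (XT.lf (nat_lit 0) (nat_lit 5917166033) (nat_lit 912)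 (nat_lit 17179958243) (nat_lit 988) (nat_lit 15568432758) (nat_lit 420) (nat_lit 5) (nat_lit 432) (nat_lit 5) (nat_lit 433) (nat_lit 5) (nat_lit 648) (nat_lit 618) (nat_lit 294)) (XT.lf (nat_lit 0) (nat_lit 27133698718) (nat_lit 988) (nat_lit 11795719602) (nat_lit 76) (nat_lit 159601585) (nat_lit 420) (nat_lit 5) (nat_lit 433) (nat_lit 5) (nat_lit 421) (nat_lit 5) (nat_lit 649) (nat_lit 618) (nat_lit 293))) (XT.nd (nat_lit 78) (nat_lit 0) (nat_lit 0) (XT.lf (nat_lit 0) (nat_lit 9586752137) (nat_lit 836) (nat_lit 21839010107) (nat_lit 912) (nat_lit 8091694710) (nat_lit 409) (nat_lit 5) (nat_lit 420) (nat_lit 5) (nat_lit 421) (nat_lit 5) (nat_lit 650) (nat_lit 618) (nat_lit 292)) (XT.lf (nat_lit 0) (nat_lit 31555564854) (nat_lit 836) (nat_lit 4326014068) (nat_lit 912) (nat_lit 4071325654) (nat_lit 409) (nat_lit 5) (nat_lit 420) (nat_lit 5) (nat_lit 421) (nat_lit 5) (nat_lit 651) (nat_lit 618) (nat_lit 291))))))))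
noncomputable def xc122 : XT := (XT.nd (nat_lit 2340) (nat_lit 912) (nat_lit 0) (XT.nd (nat_lit 1170) (nat_lit 2964) (nat_lit 0) (XT.nd (nat_lit 546) (nat_lit 0) (nat_lit 228) (XT.nd (nat_lit 234) (nat_lit 0) (nat_lit 76) (XT.nd (nat_lit 78) (nat_lit 0) (nat_lit 0) (XT.lf (nat_lit 0) (nat_lit 1564162655) (nat_lit 1900) (nat_lit 6442253489) (nat_lit 1900) (nat_lit 6442253489) (nat_lit 471) (nat_lit 3) (nat_lit 496) (nat_lit 3) (nat_lit 496) (nat_lit 5) (nat_lit 619) (nat_lit 619) (nat_lit 322)) (XT.nd (nat_lit 78) (nat_lit 0) (nat_lit 76) (XT.lf (nat_lit 76) (nat_lit 1467261953) (nat_lit 0) (nat_lit 1780948116) (nat_lit 1900) (nat_lit 25936325767) (nat_lit 472) (nat_lit 5) (nat_lit 471) (nat_lit 3) (nat_lit 496) (nat_lit 5) (nat_lit 620) (nat_lit 619) (nat_lit 321)) (XT.lf (nat_lit 0) (nat_lit 3538140159) (nat_lit 1824) (nat_lit 13279408585) (nat_lit 1900) (nat_lit 12656574764) (nat_lit 472) (nat_lit 5) (nat_lit 496) (nat_lit 5) (nat_lit 497) (nat_lit 5) (nat_lit 621) (nat_lit 619) (nat_lit 320)))) (XT.nd (nat_lit 156) (nat_lit 0) (nat_lit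 76) (XT.nd (nat_lit 78) (nat_lit 0) (nat_lit 76) (XT.lf (nat_lit 76) (nat_lit 1453382754) (nat_lit 0) (nat_lit 2399682881) (nat_lit 1900) (nat_lit 25916053484) (nat_lit 473) (nat_lit 5) (nat_lit 472) (nat_lit 5) (nat_lit 497) (nat_lit 5) (nat_lit 622) (nat_lit 619) (nat_lit 319)) (XT.lf (nat_lit 0) (nat_lit 4341898618) (nat_lit 1824) (nat_lit 13489026084) (nat_lit 1900) (nat_lit 12235737883) (nat_lit 473) (nat_lit 5) (nat_lit 497) (nat_lit 5) (nat_lit 498) (nat_lit 5) (nat_lit 623) (nat_lit 619) (nat_lit 318))) (XT.nd (nat_lit 78) (nat_lit 0) (nat_lit 76) (XT.lf (nat_lit 76) (nat_lit 1638703543) (nat_lit 0) (nat_lit 3226380137) (nat_lit 1900) (nat_lit 25504581851) (nat_lit 474) (nat_lit 5) (nat_lit 473) (nat_lit 5) (nat_lit 498) (nat_lit 5) (nat_lit 624) (nat_lit 619) (nat_lit 317)) (XT.lf (nat_lit 0) (nat_lit 5563701806) (nat_lit 1824) (nat_lit 13502605002) (nat_lit 1900) (nat_lit 11609122455) (nat_lit 474) (nat_lit 5) (nat_lit 498) (nat_lit 5) (nat_lit 499) (nat_lit 5) (nat_lit 625) (nat_lit 619) (nat_lit 316))))) (XT.nd (nat_lit 312)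 (nat_lit 0) (nat_lit 152) (XT.nd (nat_lit 156) (nat_lit 0) (nat_lit 76) (XT.nd (nat_lit 78) (nat_lit 0) (nat_lit 76) (XT.lf (nat_lit 76) (nat_lit 2034506463) (nat_lit 0) (nat_lit 4274479992) (nat_lit 1900) (nat_lit 24677668046) (nat_lit 475) (nat_lit 5) (nat_lit 474) (nat_lit 5) (nat_lit 499) (nat_lit 5) (nat_lit 626) (nat_lit 619) (nat_lit 315)) (XT.lf (nat_lit 0) (nat_lit 7228745213) (nat_lit 1824) (nat_lit 13308870254) (nat_lit 1900) (nat_lit 10763297521) (nat_lit 475) (nat_lit 5) (nat_lit 499) (nat_lit 5) (nat_lit 500) (nat_lit 5) (nat_lit 627) (nat_lit 619) (nat_lit 314))) (XT.nd (nat_lit 78) (nat_lit 0) (nat_lit 76) (XT.lf (nat_lit 76) (nat_lit 2652614294) (nat_lit 0) (nat_lit 5558003829) (nat_lit 1900) (nat_lit 23409964250) (nat_lit 476) (nat_lit 5) (nat_lit 475) (nat_lit 5) (nat_lit 500) (nat_lit 5) (nat_lit 628) (nat_lit 619) (nat_lit 313)) (XT.lf (nat_lit 0) (nat_lit 9363366966) (nat_lit 1824) (nat_lit 12896006098) (nat_lit 1900) (nat_lit 9684247422) (nat_lit 476) (nat_lit 5) (nat_lit 500) (nat_lit 5) (nat_lit 501) (nat_lit 5)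 (nat_lit 629) (nat_lit 619) (nat_lit 312)))) (XT.nd (nat_lit 156) (nat_lit 0) (nat_lit 76) (XT.nd (nat_lit 78) (nat_lit 0) (nat_lit 76) (XT.lf (nat_lit 76) (nat_lit 3505411269) (nat_lit 0) (nat_lit 7091582840) (nat_lit 1900) (nat_lit 21674968889) (nat_lit 477) (nat_lit 5) (nat_lit 476) (nat_lit 5) (nat_lit 501) (nat_lit 5) (nat_lit 630) (nat_lit 619) (nat_lit 311)) (XT.lf (nat_lit 0) (nat_lit 11995097984) (nat_lit 1824) (nat_lit 12251635227) (nat_lit 1900) (nat_lit 8357343169) (nat_lit 477) (nat_lit 5) (nat_lit 501) (nat_lit 5) (nat_lit 502) (nat_lit 5) (nat_lit 631) (nat_lit 619) (nat_lit 310))) (XT.nd (nat_lit 78) (nat_lit 0) (nat_lit 76) (XT.lf (nat_lit 76) (nat_lit 4605864776) (nat_lit 0) (nat_lit 8890487625) (nat_lit 1900) (nat_lit 19444975962) (nat_lit 478) (nat_lit 5) (nat_lit 477) (nat_lit 5) (nat_lit 502) (nat_lit 5) (nat_lit 632) (nat_lit 619) (nat_lit 309)) (XT.lf (nat_lit 0) (nat_lit 15152714108) (nat_lit 1824) (nat_lit 11362796985) (nat_lit 1900) (nat_lit 6767312747) (nat_lit 478) (nat_lit 5) (nat_lit 502) (nat_lit 5) (nat_lit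 503) (nat_lit 5) (nat_lit 633) (nat_lit 619) (nat_lit 308)))))) (XT.nd (nat_lit 546) (nat_lit 3496) (nat_lit 0) (XT.nd (nat_lit 234) (nat_lit 0) (nat_lit 152) (XT.nd (nat_lit 78) (nat_lit 0) (nat_lit 76) (XT.lf (nat_lit 76) (nat_lit 5967547973) (nat_lit 0) (nat_lit 10970658897) (nat_lit 1900) (nat_lit 16691022377) (nat_lit 479) (nat_lit 5) (nat_lit 478) (nat_lit 5) (nat_lit 503) (nat_lit 5) (nat_lit 634) (nat_lit 619) (nat_lit 307)) (XT.nd (nat_lit 78) (nat_lit 0) (nat_lit 0) (XT.lf (nat_lit 0) (nat_lit 18866290285) (nat_lit 1824) (nat_lit 10215924664) (nat_lit 1900) (nat_lit 4898210292) (nat_lit 479) (nat_lit 5) (nat_lit 503) (nat_lit 5) (nat_lit 504) (nat_lit 5) (nat_lit 635) (nat_lit 619) (nat_lit 306)) (XT.lf (nat_lit 76) (nat_lit 7604663346) (nat_lit 0) (nat_lit 13348739355) (nat_lit 1900) (nat_lit 13382833202) (nat_lit 480) (nat_lit 5) (nat_lit 479) (nat_lit 5) (nat_lit 504) (nat_lit 5) (nat_lit 636) (nat_lit 619) (nat_lit 305)))) (XT.nd (nat_lit 156) (nat_lit 0) (nat_lit 76) (XT.nd (nat_lit 78) (nat_lit 0) (nat_lit 0) (XT.lf (nat_lit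 0) (nat_lit 23167256904) (nat_lit 1824) (nat_lit 8796821873) (nat_lit 1900) (nat_lit 2733384101) (nat_lit 480) (nat_lit 5) (nat_lit 504) (nat_lit 5) (nat_lit 505) (nat_lit 5) (nat_lit 637) (nat_lit 619) (nat_lit 304)) (XT.lf (nat_lit 76) (nat_lit 9532067225) (nat_lit 0) (nat_lit 16042106787) (nat_lit 1900) (nat_lit 9488764755) (nat_lit 481) (nat_lit 5) (nat_lit 480) (nat_lit 5) (nat_lit 505) (nat_lit 5) (nat_lit 638) (nat_lit 619) (nat_lit 303))) (XT.nd (nat_lit 78) (nat_lit 0) (nat_lit 0) (XT.lf (nat_lit 0) (nat_lit 28088458355) (nat_lit 1824) (nat_lit 7090637937) (nat_lit 1900) (nat_lit 255443391) (nat_lit 481) (nat_lit 5) (nat_lit 505) (nat_lit 5) (nat_lit 506) (nat_lit 5) (nat_lit 639) (nat_lit 619) (nat_lit 302)) (XT.lf (nat_lit 76) (nat_lit 11765295312) (nat_lit 0) (nat_lit 19068908454) (nat_lit 1900) (nat_lit 4975745430) (nat_lit 482) (nat_lit 5) (nat_lit 481) (nat_lit 5) (nat_lit 506) (nat_lit 5) (nat_lit 640) (nat_lit 619) (nat_lit 301))))) (XT.nd (nat_lit 312) (nat_lit 1900) (nat_lit 0) (XT.nd (nat_lit 156) (nat_lit 0) (nat_lit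 0) (XT.nd (nat_lit 78) (nat_lit 1824) (nat_lit 0) (XT.lf (nat_lit 76) (nat_lit 31093300515) (nat_lit 0) (nat_lit 2587714569) (nat_lit 1900) (nat_lit 2510928881) (nat_lit 482) (nat_lit 5) (nat_lit 481) (nat_lit 5) (nat_lit 506) (nat_lit 5) (nat_lit 641) (nat_lit 619) (nat_lit 300)) (XT.lf (nat_lit 0) (nat_lit 188283631) (nat_lit 1900) (nat_lit 22258549716) (nat_lit 1976) (nat_lit 14131042121) (nat_lit 457) (nat_lit 5) (nat_lit 482) (nat_lit 5) (nat_lit 483) (nat_lit 5) (nat_lit 642) (nat_lit 619) (nat_lit 299))) (XT.nd (nat_lit 78) (nat_lit 0) (nat_lit 76) (XT.lf (nat_lit 0) (nat_lit 2958078391) (nat_lit 1900) (nat_lit 2811246059) (nat_lit 1976) (nat_lit 31200864900) (nat_lit 457) (nat_lit 5) (nat_lit 482) (nat_lit 5) (nat_lit 483) (nat_lit 5) (nat_lit 643) (nat_lit 619) (nat_lit 298)) (XT.lf (nat_lit 0) (nat_lit 5967636712) (nat_lit 1900) (nat_lit 20191784057) (nat_lit 76) (nat_lit 11207241467) (nat_lit 458) (nat_lit 5) (nat_lit 483) (nat_lit 5) (nat_lit 459) (nat_lit 5) (nat_lit 644) (nat_lit 619) (nat_lit 297)))) (XT.nd (nat_lit 156) (nat_lit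 912) (nat_lit 0) (XT.nd (nat_lit 78) (nat_lit 1064) (nat_lit 0) (XT.lf (nat_lit 0) (nat_lit 9093240870) (nat_lit 1900) (nat_lit 211365149) (nat_lit 76) (nat_lit 28465341542) (nat_lit 458) (nat_lit 5) (nat_lit 483) (nat_lit 5) (nat_lit 459) (nat_lit 5) (nat_lit 645) (nat_lit 619) (nat_lit 296)) (XT.lf (nat_lit 0) (nat_lit 12464811108) (nat_lit 1140) (nat_lit 17795237509) (nat_lit 76) (nat_lit 7917580972) (nat_lit 444) (nat_lit 5) (nat_lit 459) (nat_lit 5) (nat_lit 445) (nat_lit 5) (nat_lit 646) (nat_lit 619) (nat_lit 295))) (XT.nd (nat_lit 78) (nat_lit 0) (nat_lit 0) (XT.lf (nat_lit 0) (nat_lit 2770991525) (nat_lit 912) (nat_lit 13212563034) (nat_lit 988) (nat_lit 22608315934) (nat_lit 432) (nat_lit 5) (nat_lit 444) (nat_lit 5) (nat_lit 445) (nat_lit 5) (nat_lit 647) (nat_lit 619) (nat_lit 294)) (XT.lf (nat_lit 0) (nat_lit 19718713268) (nat_lit 988) (nat_lit 15051339570) (nat_lit 76) (nat_lit 4241422643) (nat_lit 432) (nat_lit 5) (nat_lit 445) (nat_lit 5) (nat_lit 433) (nat_lit 5) (nat_lit 648) (nat_lit 619) (nat_lit 293))))))) (XT.nd (nat_lit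 79950) (nat_lit 0) (nat_lit 1824) (XT.nd (nat_lit 79326) (nat_lit 0) (nat_lit 4028) (XT.nd (nat_lit 79014) (nat_lit 0) (nat_lit 3876) (XT.nd (nat_lit 78) (nat_lit 0) (nat_lit 0) (XT.lf (nat_lit 0) (nat_lit 6125254834) (nat_lit 912) (nat_lit 17529336631) (nat_lit 988) (nat_lit 15782360848) (nat_lit 420) (nat_lit 5) (nat_lit 432) (nat_lit 5) (nat_lit 433) (nat_lit 5) (nat_lit 649) (nat_lit 619) (nat_lit 292)) (XT.nd (nat_lit 78858) (nat_lit 0) (nat_lit 3876) (XT.lf (nat_lit 0) (nat_lit 27769987577) (nat_lit 988) (nat_lit 11941733148) (nat_lit 76) (nat_lit 157202021) (nat_lit 420) (nat_lit 5) (nat_lit 433) (nat_lit 5) (nat_lit 421) (nat_lit 5) (nat_lit 650) (nat_lit 619) (nat_lit 291)) (XT.lf (nat_lit 0) (nat_lit 1674007568) (nat_lit 1900) (nat_lit 6531029730) (nat_lit 1900) (nat_lit 6531029730) (nat_lit 471) (nat_lit 3) (nat_lit 496) (nat_lit 3) (nat_lit 496) (nat_lit 5) (nat_lit 620) (nat_lit 620) (nat_lit 320)))) (XT.nd (nat_lit 156) (nat_lit 0) (nat_lit 76) (XT.nd (nat_lit 78) (nat_lit 0) (nat_lit 76) (XT.lf (nat_lit 76) (nat_lit 1576217629)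 (nat_lit 0) (nat_lit 1891515996) (nat_lit 1900) (nat_lit 26297392398) (nat_lit 472) (nat_lit 5) (nat_lit 471) (nat_lit 3) (nat_lit 496) (nat_lit 5) (nat_lit 621) (nat_lit 620) (nat_lit 319)) (XT.lf (nat_lit 0) (nat_lit 3759954665) (nat_lit 1824) (nat_lit 13463430498) (nat_lit 1900) (nat_lit 12837190622) (nat_lit 472) (nat_lit 5) (nat_lit 496) (nat_lit 5) (nat_lit 497) (nat_lit 5) (nat_lit 622) (nat_lit 620) (nat_lit 318))) (XT.nd (nat_lit 78) (nat_lit 0) (nat_lit 76) (XT.lf (nat_lit 76) (nat_lit 1563480048) (nat_lit 0) (nat_lit 2515262903) (nat_lit 1900) (nat_lit 26282777251) (nat_lit 473) (nat_lit 5) (nat_lit 472) (nat_lit 5) (nat_lit 497) (nat_lit 5) (nat_lit 623) (nat_lit 620) (nat_lit 317)) (XT.lf (nat_lit 0) (nat_lit 4574008343) (nat_lit 1824) (nat_lit 13676012729) (nat_lit 1900) (nat_lit 12415060526) (nat_lit 473) (nat_lit 5) (nat_lit 497) (nat_lit 5) (nat_lit 498) (nat_lit 5) (nat_lit 624) (nat_lit 620) (nat_lit 316))))) (XT.nd (nat_lit 312) (nat_lit 0) (nat_lit 152) (XT.nd (nat_lit 156) (nat_lit 0) (nat_lit 76) (XT.nd (nat_lit 78)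 (nat_lit 0) (nat_lit 76) (XT.lf (nat_lit 76) (nat_lit 1753726793) (nat_lit 0) (nat_lit 3351615862) (nat_lit 1900) (nat_lit 25868848408) (nat_lit 474) (nat_lit 5) (nat_lit 473) (nat_lit 5) (nat_lit 498) (nat_lit 5) (nat_lit 625) (nat_lit 620) (nat_lit 315)) (XT.lf (nat_lit 0) (nat_lit 5814743632) (nat_lit 1824) (nat_lit 13688822676) (nat_lit 1900) (nat_lit 11782567723) (nat_lit 474) (nat_lit 5) (nat_lit 498) (nat_lit 5) (nat_lit 499) (nat_lit 5) (nat_lit 626) (nat_lit 620) (nat_lit 314))) (XT.nd (nat_lit 78) (nat_lit 0) (nat_lit 76) (XT.lf (nat_lit 76) (nat_lit 2158479475) (nat_lit 0) (nat_lit 4414254681) (nat_lit 1900) (nat_lit 25030893779) (nat_lit 475) (nat_lit 5) (nat_lit 474) (nat_lit 5) (nat_lit 499) (nat_lit 5) (nat_lit 627) (nat_lit 620) (nat_lit 313)) (XT.lf (nat_lit 0) (nat_lit 7507845134) (nat_lit 1824) (nat_lit 13490346685) (nat_lit 1900) (nat_lit 10926040795) (nat_lit 475) (nat_lit 5) (nat_lit 499) (nat_lit 5) (nat_lit 500) (nat_lit 5) (nat_lit 628) (nat_lit 620) (nat_lit 312)))) (XT.nd (nat_lit 156) (nat_lit 0) (nat_lit 76)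 (XT.nd (nat_lit 78) (nat_lit 0) (nat_lit 76) (XT.lf (nat_lit 76) (nat_lit 2789810310) (nat_lit 0) (nat_lit 5717453764) (nat_lit 1900) (nat_lit 23743073301) (nat_lit 476) (nat_lit 5) (nat_lit 475) (nat_lit 5) (nat_lit 500) (nat_lit 5) (nat_lit 629) (nat_lit 620) (nat_lit 311)) (XT.lf (nat_lit 0) (nat_lit 9680163775) (nat_lit 1824) (nat_lit 13068520430) (nat_lit 1900) (nat_lit 9831210284) (nat_lit 476) (nat_lit 5) (nat_lit 500) (nat_lit 5) (nat_lit 501) (nat_lit 5) (nat_lit 630) (nat_lit 620) (nat_lit 310))) (XT.nd (nat_lit 78) (nat_lit 0) (nat_lit 76) (XT.lf (nat_lit 76) (nat_lit 3660363404) (nat_lit 0) (nat_lit 7276111127) (nat_lit 1900) (nat_lit 21978369253) (nat_lit 477) (nat_lit 5) (nat_lit 476) (nat_lit 5) (nat_lit 501) (nat_lit 5) (nat_lit 631) (nat_lit 620) (nat_lit 309)) (XT.lf (nat_lit 0) (nat_lit 12359767909) (nat_lit 1824) (nat_lit 12410707541) (nat_lit 1900) (nat_lit 8483179586) (nat_lit 477) (nat_lit 5) (nat_lit 501) (nat_lit 5) (nat_lit 502) (nat_lit 5) (nat_lit 632) (nat_lit 620) (nat_lit 308)))))) (XT.nd (nat_lit 546) (nat_lit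 2508) (nat_lit 0) (XT.nd (nat_lit 234) (nat_lit 0) (nat_lit 152) (XT.nd (nat_lit 78) (nat_lit 0) (nat_lit 76) (XT.lf (nat_lit 76) (nat_lit 4783376933) (nat_lit 0) (nat_lit 9105778490) (nat_lit 1900) (nat_lit 19708534621) (nat_lit 478) (nat_lit 5) (nat_lit 477) (nat_lit 5) (nat_lit 502) (nat_lit 5) (nat_lit 633) (nat_lit 620) (nat_lit 307)) (XT.nd (nat_lit 78) (nat_lit 0) (nat_lit 0) (XT.lf (nat_lit 0) (nat_lit 15575996451) (nat_lit 1824) (nat_lit 11503677336) (nat_lit 1900) (nat_lit 6866394746) (nat_lit 478) (nat_lit 5) (nat_lit 502) (nat_lit 5) (nat_lit 503) (nat_lit 5) (nat_lit 634) (nat_lit 620) (nat_lit 306)) (XT.lf (nat_lit 76) (nat_lit 6172706261) (nat_lit 0) (nat_lit 11222692513) (nat_lit 1900) (nat_lit 16904039423) (nat_lit 479) (nat_lit 5) (nat_lit 478) (nat_lit 5) (nat_lit 503) (nat_lit 5) (nat_lit 635) (nat_lit 620) (nat_lit 305)))) (XT.nd (nat_lit 156) (nat_lit 0) (nat_lit 76) (XT.nd (nat_lit 78) (nat_lit 0) (nat_lit 0) (XT.lf (nat_lit 0) (nat_lit 19359514103) (nat_lit 1824) (nat_lit 10333581630) (nat_lit 1900) (nat_lit 4964613111)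 (nat_lit 479) (nat_lit 5) (nat_lit 503) (nat_lit 5) (nat_lit 504) (nat_lit 5) (nat_lit 636) (nat_lit 620) (nat_lit 304)) (XT.lf (nat_lit 76) (nat_lit 7842847998) (nat_lit 0) (nat_lit 13643807222) (nat_lit 1900) (nat_lit 13534014907) (nat_lit 480) (nat_lit 5) (nat_lit 479) (nat_lit 5) (nat_lit 504) (nat_lit 5) (nat_lit 637) (nat_lit 620) (nat_lit 303))) (XT.nd (nat_lit 78) (nat_lit 0) (nat_lit 0) (XT.lf (nat_lit 0) (nat_lit 23742368773) (nat_lit 1824) (nat_lit 8885930587) (nat_lit 1900) (nat_lit 2760870770) (nat_lit 480) (nat_lit 5) (nat_lit 504) (nat_lit 5) (nat_lit 505) (nat_lit 5) (nat_lit 638) (nat_lit 620) (nat_lit 302)) (XT.lf (nat_lit 76) (nat_lit 9808965058) (nat_lit 0) (nat_lit 16386827694) (nat_lit 1900) (nat_lit 9566195543) (nat_lit 481) (nat_lit 5) (nat_lit 480) (nat_lit 5) (nat_lit 505) (nat_lit 5) (nat_lit 639) (nat_lit 620) (nat_lit 301))))) (XT.nd (nat_lit 312) (nat_lit 988) (nat_lit 0) (XT.nd (nat_lit 156) (nat_lit 1824) (nat_lit 0) (XT.nd (nat_lit 78) (nat_lit 0) (nat_lit 0) (XT.lf (nat_lit 0) (nat_lit 28758051271) (nat_lit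 1824) (nat_lit 7145567586) (nat_lit 1900) (nat_lit 237448732) (nat_lit 481) (nat_lit 5) (nat_lit 505) (nat_lit 5) (nat_lit 506) (nat_lit 5) (nat_lit 640) (nat_lit 620) (nat_lit 300)) (XT.lf (nat_lit 76) (nat_lit 12086912729) (nat_lit 0) (nat_lit 19470245062) (nat_lit 1900) (nat_lit 4966858703) (nat_lit 482) (nat_lit 5) (nat_lit 481) (nat_lit 5) (nat_lit 506) (nat_lit 5) (nat_lit 641) (nat_lit 620) (nat_lit 299))) (XT.nd (nat_lit 78) (nat_lit 1824) (nat_lit 0) (XT.lf (nat_lit 76) (nat_lit 31799785653) (nat_lit 0) (nat_lit 2659035958) (nat_lit 1900) (nat_lit 2454871345) (nat_lit 482) (nat_lit 5) (nat_lit 481) (nat_lit 5) (nat_lit 506) (nat_lit 5) (nat_lit 642) (nat_lit 620) (nat_lit 298)) (XT.lf (nat_lit 0) (nat_lit 295313492) (nat_lit 1900) (nat_lit 22616077691) (nat_lit 1976) (nat_lit 14395970587) (nat_lit 457) (nat_lit 5) (nat_lit 482) (nat_lit 5) (nat_lit 483) (nat_lit 5) (nat_lit 643) (nat_lit 620) (nat_lit 297)))) (XT.nd (nat_lit 156) (nat_lit 988) (nat_lit 0) (XT.nd (nat_lit 78) (nat_lit 0) (nat_lit 76) (XT.lf (nat_lit 0) (nat_lit 3118479360)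 (nat_lit 1900) (nat_lit 2781546451) (nat_lit 1976) (nat_lit 31807536731) (nat_lit 457) (nat_lit 5) (nat_lit 482) (nat_lit 5) (nat_lit 483) (nat_lit 5) (nat_lit 644) (nat_lit 620) (nat_lit 296)) (XT.lf (nat_lit 0) (nat_lit 6186704154) (nat_lit 1900) (nat_lit 20508164822) (nat_lit 76) (nat_lit 11417126515) (nat_lit 458) (nat_lit 5) (nat_lit 483) (nat_lit 5) (nat_lit 459) (nat_lit 5) (nat_lit 645) (nat_lit 620) (nat_lit 295))) (XT.nd (nat_lit 78) (nat_lit 1064) (nat_lit 0) (XT.lf (nat_lit 0) (nat_lit 9372865205) (nat_lit 1900) (nat_lit 129852339) (nat_lit 76) (nat_lit 29020668195) (nat_lit 458) (nat_lit 5) (nat_lit 483) (nat_lit 5) (nat_lit 459) (nat_lit 5) (nat_lit 646) (nat_lit 620) (nat_lit 294)) (XT.lf (nat_lit 0) (nat_lit 12810430169) (nat_lit 1140) (nat_lit 18063959993) (nat_lit 76) (nat_lit 8064860088) (nat_lit 444) (nat_lit 5) (nat_lit 459) (nat_lit 5) (nat_lit 445) (nat_lit 5) (nat_lit 647) (nat_lit 620) (nat_lit 293))))))))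
noncomputable def xc123 : XT := (XT.nd (nat_lit 81198) (nat_lit 0) (nat_lit 912) (XT.nd (nat_lit 80028) (nat_lit 0) (nat_lit 2812) (XT.nd (nat_lit 79404) (nat_lit 0) (nat_lit 4028) (XT.nd (nat_lit 79092) (nat_lit 0) (nat_lit 3876) (XT.nd (nat_lit 78) (nat_lit 912) (nat_lit 0) (XT.lf (nat_lit 0) (nat_lit 2913020054) (nat_lit 912) (nat_lit 13485202073) (nat_lit 988) (nat_lit 22963580481) (nat_lit 432) (nat_lit 5) (nat_lit 444) (nat_lit 5) (nat_lit 445) (nat_lit 5) (nat_lit 648) (nat_lit 620) (nat_lit 292)) (XT.nd (nat_lit 78) (nat_lit 912) (nat_lit 0) (XT.lf (nat_lit 0) (nat_lit 20206167943) (nat_lit 988) (nat_lit 15265534545) (nat_lit 76) (nat_lit 4318135634) (nat_lit 432) (nat_lit 5) (nat_lit 445) (nat_lit 5) (nat_lit 433) (nat_lit 5) (nat_lit 649) (nat_lit 620) (nat_lit 291)) (XT.lf (nat_lit 0) (nat_lit 6334020486) (nat_lit 912) (nat_lit 17885478174) (nat_lit 988) (nat_lit 16004351236) (nat_lit 420) (nat_lit 5) (nat_lit 432) (nat_lit 5) (nat_lit 433) (nat_lit 5) (nat_lit 650) (nat_lit 620) (nat_lit 290)))) (XT.nd (nat_lit 156) (nat_lit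 0) (nat_lit 76) (XT.nd (nat_lit 78) (nat_lit 0) (nat_lit 0) (XT.lf (nat_lit 0) (nat_lit 1782998735) (nat_lit 1900) (nat_lit 6623137417) (nat_lit 1900) (nat_lit 6623137417) (nat_lit 471) (nat_lit 3) (nat_lit 496) (nat_lit 3) (nat_lit 496) (nat_lit 5) (nat_lit 621) (nat_lit 621) (nat_lit 318)) (XT.lf (nat_lit 76) (nat_lit 1684261048) (nat_lit 0) (nat_lit 2001384877) (nat_lit 1900) (nat_lit 26671802487) (nat_lit 472) (nat_lit 5) (nat_lit 471) (nat_lit 3) (nat_lit 496) (nat_lit 5) (nat_lit 622) (nat_lit 621) (nat_lit 317))) (XT.nd (nat_lit 78) (nat_lit 0) (nat_lit 0) (XT.lf (nat_lit 0) (nat_lit 3980339939) (nat_lit 1824) (nat_lit 13654300166) (nat_lit 1900) (nat_lit 13024234668) (nat_lit 472) (nat_lit 5) (nat_lit 496) (nat_lit 5) (nat_lit 497) (nat_lit 5) (nat_lit 623) (nat_lit 621) (nat_lit 316)) (XT.lf (nat_lit 76) (nat_lit 1672632808) (nat_lit 0) (nat_lit 2630530064) (nat_lit 1900) (nat_lit 26662722202) (nat_lit 473) (nat_lit 5) (nat_lit 472) (nat_lit 5) (nat_lit 497) (nat_lit 5) (nat_lit 624) (nat_lit 621) (nat_lit 315))))) (XT.nd (nat_lit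 312) (nat_lit 0) (nat_lit 152) (XT.nd (nat_lit 156) (nat_lit 0) (nat_lit 76) (XT.nd (nat_lit 78) (nat_lit 0) (nat_lit 0) (XT.lf (nat_lit 0) (nat_lit 4805119183) (nat_lit 1824) (nat_lit 13869954095) (nat_lit 1900) (nat_lit 12600508878) (nat_lit 473) (nat_lit 5) (nat_lit 497) (nat_lit 5) (nat_lit 498) (nat_lit 5) (nat_lit 625) (nat_lit 621) (nat_lit 314)) (XT.lf (nat_lit 76) (nat_lit 1867856673) (nat_lit 0) (nat_lit 3476998932) (nat_lit 1900) (nat_lit 26246062862) (nat_lit 474) (nat_lit 5) (nat_lit 473) (nat_lit 5) (nat_lit 498) (nat_lit 5) (nat_lit 626) (nat_lit 621) (nat_lit 313))) (XT.nd (nat_lit 78) (nat_lit 0) (nat_lit 0) (XT.lf (nat_lit 0) (nat_lit 6065378940) (nat_lit 1824) (nat_lit 13882020097) (nat_lit 1900) (nat_lit 11961762732) (nat_lit 474) (nat_lit 5) (nat_lit 498) (nat_lit 5) (nat_lit 499) (nat_lit 5) (nat_lit 627) (nat_lit 621) (nat_lit 312)) (XT.lf (nat_lit 76) (nat_lit 2281697972) (nat_lit 0) (nat_lit 4554716908) (nat_lit 1900) (nat_lit 25396633121) (nat_lit 475) (nat_lit 5) (nat_lit 474) (nat_lit 5) (nat_lit 499) (nat_lit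 5) (nat_lit 628) (nat_lit 621) (nat_lit 311)))) (XT.nd (nat_lit 156) (nat_lit 0) (nat_lit 76) (XT.nd (nat_lit 78) (nat_lit 0) (nat_lit 0) (XT.lf (nat_lit 0) (nat_lit 7787303284) (nat_lit 1824) (nat_lit 13678741688) (nat_lit 1900) (nat_lit 11094078453) (nat_lit 475) (nat_lit 5) (nat_lit 499) (nat_lit 5) (nat_lit 500) (nat_lit 5) (nat_lit 629) (nat_lit 621) (nat_lit 310)) (XT.lf (nat_lit 76) (nat_lit 2926482843) (nat_lit 0) (nat_lit 5878217544) (nat_lit 1900) (nat_lit 24088090252) (nat_lit 476) (nat_lit 5) (nat_lit 475) (nat_lit 5) (nat_lit 500) (nat_lit 5) (nat_lit 630) (nat_lit 621) (nat_lit 309))) (XT.nd (nat_lit 78) (nat_lit 0) (nat_lit 0) (XT.lf (nat_lit 0) (nat_lit 9998266733) (nat_lit 1824) (nat_lit 13247801460) (nat_lit 1900) (nat_lit 9982926679) (nat_lit 476) (nat_lit 5) (nat_lit 500) (nat_lit 5) (nat_lit 501) (nat_lit 5) (nat_lit 631) (nat_lit 621) (nat_lit 308)) (XT.lf (nat_lit 76) (nat_lit 3815119989) (nat_lit 0) (nat_lit 7462672017) (nat_lit 1900) (nat_lit 22292889528) (nat_lit 477) (nat_lit 5) (nat_lit 476) (nat_lit 5) (nat_lit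 501) (nat_lit 5) (nat_lit 632) (nat_lit 621) (nat_lit 307)))))) (XT.nd (nat_lit 546) (nat_lit 1520) (nat_lit 0) (XT.nd (nat_lit 234) (nat_lit 0) (nat_lit 76) (XT.nd (nat_lit 78) (nat_lit 0) (nat_lit 0) (XT.lf (nat_lit 0) (nat_lit 12726886340) (nat_lit 1824) (nat_lit 12576299247) (nat_lit 1900) (nat_lit 8613136866) (nat_lit 477) (nat_lit 5) (nat_lit 501) (nat_lit 5) (nat_lit 502) (nat_lit 5) (nat_lit 633) (nat_lit 621) (nat_lit 306)) (XT.nd (nat_lit 78) (nat_lit 0) (nat_lit 76) (XT.lf (nat_lit 76) (nat_lit 4961123348) (nat_lit 0) (nat_lit 9323919734) (nat_lit 1900) (nat_lit 19982231592) (nat_lit 478) (nat_lit 5) (nat_lit 477) (nat_lit 5) (nat_lit 502) (nat_lit 5) (nat_lit 634) (nat_lit 621) (nat_lit 305)) (XT.lf (nat_lit 0) (nat_lit 16003075839) (nat_lit 1824) (nat_lit 11650729364) (nat_lit 1900) (nat_lit 6968866571) (nat_lit 478) (nat_lit 5) (nat_lit 502) (nat_lit 5) (nat_lit 503) (nat_lit 5) (nat_lit 635) (nat_lit 621) (nat_lit 304)))) (XT.nd (nat_lit 156) (nat_lit 0) (nat_lit 76) (XT.nd (nat_lit 78) (nat_lit 0) (nat_lit 76) (XT.lf (nat_lit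 76) (nat_lit 6378635711) (nat_lit 0) (nat_lit 11478500109) (nat_lit 1900) (nat_lit 17126007753) (nat_lit 479) (nat_lit 5) (nat_lit 478) (nat_lit 5) (nat_lit 503) (nat_lit 5) (nat_lit 636) (nat_lit 621) (nat_lit 303)) (XT.lf (nat_lit 0) (nat_lit 19858101936) (nat_lit 1824) (nat_lit 10456956909) (nat_lit 1900) (nat_lit 5033569553) (nat_lit 479) (nat_lit 5) (nat_lit 503) (nat_lit 5) (nat_lit 504) (nat_lit 5) (nat_lit 637) (nat_lit 621) (nat_lit 302))) (XT.nd (nat_lit 78) (nat_lit 0) (nat_lit 76) (XT.lf (nat_lit 76) (nat_lit 8082453309) (nat_lit 0) (nat_lit 13943685557) (nat_lit 1900) (nat_lit 13692743111) (nat_lit 480) (nat_lit 5) (nat_lit 479) (nat_lit 5) (nat_lit 504) (nat_lit 5) (nat_lit 638) (nat_lit 621) (nat_lit 301)) (XT.lf (nat_lit 0) (nat_lit 24324642841) (nat_lit 1824) (nat_lit 8980193101) (nat_lit 1900) (nat_lit 2789962643) (nat_lit 480) (nat_lit 5) (nat_lit 504) (nat_lit 5) (nat_lit 505) (nat_lit 5) (nat_lit 639) (nat_lit 621) (nat_lit 300))))) (XT.nd (nat_lit 312) (nat_lit 1748) (nat_lit 0) (XT.nd (nat_lit 156) (nat_lit 0) (nat_lit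 76) (XT.nd (nat_lit 78) (nat_lit 0) (nat_lit 76) (XT.lf (nat_lit 76) (nat_lit 10088051404) (nat_lit 0) (nat_lit 16737515778) (nat_lit 1900) (nat_lit 9649537421) (nat_lit 481) (nat_lit 5) (nat_lit 480) (nat_lit 5) (nat_lit 505) (nat_lit 5) (nat_lit 640) (nat_lit 621) (nat_lit 299)) (XT.lf (nat_lit 0) (nat_lit 29436849118) (nat_lit 1824) (nat_lit 7204969605) (nat_lit 1900) (nat_lit 219991318) (nat_lit 481) (nat_lit 5) (nat_lit 505) (nat_lit 5) (nat_lit 506) (nat_lit 5) (nat_lit 641) (nat_lit 621) (nat_lit 298))) (XT.nd (nat_lit 78) (nat_lit 0) (nat_lit 0) (XT.lf (nat_lit 76) (nat_lit 12411610913) (nat_lit 0) (nat_lit 19878833392) (nat_lit 1900) (nat_lit 4962003610) (nat_lit 482) (nat_lit 5) (nat_lit 481) (nat_lit 5) (nat_lit 506) (nat_lit 5) (nat_lit 642) (nat_lit 621) (nat_lit 297)) (XT.lf (nat_lit 76) (nat_lit 32517114630) (nat_lit 0) (nat_lit 2731023960) (nat_lit 1900) (nat_lit 2401819490) (nat_lit 482) (nat_lit 5) (nat_lit 481) (nat_lit 5) (nat_lit 506) (nat_lit 5) (nat_lit 643) (nat_lit 621) (nat_lit 296)))) (XT.nd (nat_lit 156) (nat_lit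 0) (nat_lit 76) (XT.nd (nat_lit 78) (nat_lit 0) (nat_lit 0) (XT.lf (nat_lit 0) (nat_lit 400474075) (nat_lit 1900) (nat_lit 22984159510) (nat_lit 1976) (nat_lit 14666884639) (nat_lit 457) (nat_lit 5) (nat_lit 482) (nat_lit 5) (nat_lit 483) (nat_lit 5) (nat_lit 644) (nat_lit 621) (nat_lit 295)) (XT.lf (nat_lit 0) (nat_lit 3278157098) (nat_lit 1900) (nat_lit 2754589405) (nat_lit 1976) (nat_lit 32427015544) (nat_lit 457) (nat_lit 5) (nat_lit 482) (nat_lit 5) (nat_lit 483) (nat_lit 5) (nat_lit 645) (nat_lit 621) (nat_lit 294))) (XT.nd (nat_lit 78) (nat_lit 0) (nat_lit 0) (XT.lf (nat_lit 0) (nat_lit 6406280902) (nat_lit 1900) (nat_lit 20834269184) (nat_lit 76) (nat_lit 11631762988) (nat_lit 458) (nat_lit 5) (nat_lit 483) (nat_lit 5) (nat_lit 459) (nat_lit 5) (nat_lit 646) (nat_lit 621) (nat_lit 293)) (XT.lf (nat_lit 0) (nat_lit 9654285906) (nat_lit 1900) (nat_lit 50038665) (nat_lit 76) (nat_lit 29587644249) (nat_lit 458) (nat_lit 5) (nat_lit 483) (nat_lit 5) (nat_lit 459) (nat_lit 5) (nat_lit 647) (nat_lit 621) (nat_lit 292))))))) (XT.nd (nat_lit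 80106) (nat_lit 0) (nat_lit 912) (XT.nd (nat_lit 79482) (nat_lit 0) (nat_lit 3116) (XT.nd (nat_lit 79170) (nat_lit 0) (nat_lit 2964) (XT.nd (nat_lit 78) (nat_lit 912) (nat_lit 0) (XT.lf (nat_lit 0) (nat_lit 13159221278) (nat_lit 1140) (nat_lit 18341442320) (nat_lit 76) (nat_lit 8215514746) (nat_lit 444) (nat_lit 5) (nat_lit 459) (nat_lit 5) (nat_lit 445) (nat_lit 5) (nat_lit 648) (nat_lit 621) (nat_lit 291)) (XT.nd (nat_lit 78) (nat_lit 0) (nat_lit 0) (XT.lf (nat_lit 0) (nat_lit 3054526032) (nat_lit 912) (nat_lit 13762968185) (nat_lit 988) (nat_lit 23329713132) (nat_lit 432) (nat_lit 5) (nat_lit 444) (nat_lit 5) (nat_lit 445) (nat_lit 5) (nat_lit 649) (nat_lit 621) (nat_lit 290)) (XT.lf (nat_lit 0) (nat_lit 20699757286) (nat_lit 988) (nat_lit 15487385205) (nat_lit 76) (nat_lit 4396698018) (nat_lit 432) (nat_lit 5) (nat_lit 445) (nat_lit 5) (nat_lit 433) (nat_lit 5) (nat_lit 650) (nat_lit 621) (nat_lit 289)))) (XT.nd (nat_lit 156) (nat_lit 0) (nat_lit 76) (XT.nd (nat_lit 78) (nat_lit 0) (nat_lit 0) (XT.lf (nat_lit 0) (nat_lit 1891237540)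 (nat_lit 1900) (nat_lit 6718582761) (nat_lit 1900) (nat_lit 6718582761) (nat_lit 471) (nat_lit 3) (nat_lit 496) (nat_lit 3) (nat_lit 496) (nat_lit 5) (nat_lit 622) (nat_lit 622) (nat_lit 316)) (XT.lf (nat_lit 76) (nat_lit 1791494006) (nat_lit 0) (nat_lit 2110653790) (nat_lit 1900) (nat_lit 27059585174) (nat_lit 472) (nat_lit 5) (nat_lit 471) (nat_lit 3) (nat_lit 496) (nat_lit 5) (nat_lit 623) (nat_lit 622) (nat_lit 315))) (XT.nd (nat_lit 78) (nat_lit 0) (nat_lit 0) (XT.lf (nat_lit 0) (nat_lit 4199495162) (nat_lit 1824) (nat_lit 13852031554) (nat_lit 1900) (nat_lit 13217726122) (nat_lit 472) (nat_lit 5) (nat_lit 496) (nat_lit 5) (nat_lit 497) (nat_lit 5) (nat_lit 624) (nat_lit 622) (nat_lit 314)) (XT.lf (nat_lit 76) (nat_lit 1780944325) (nat_lit 0) (nat_lit 2745580018) (nat_lit 1900) (nat_lit 27055924172) (nat_lit 473) (nat_lit 5) (nat_lit 472) (nat_lit 5) (nat_lit 497) (nat_lit 5) (nat_lit 625) (nat_lit 622) (nat_lit 313))))) (XT.nd (nat_lit 312) (nat_lit 0) (nat_lit 152) (XT.nd (nat_lit 156) (nat_lit 0) (nat_lit 76) (XT.nd (nat_lit 78)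 (nat_lit 0) (nat_lit 0) (XT.lf (nat_lit 0) (nat_lit 5035430210) (nat_lit 1824) (nat_lit 14070864433) (nat_lit 1900) (nat_lit 12792106849) (nat_lit 473) (nat_lit 5) (nat_lit 497) (nat_lit 5) (nat_lit 498) (nat_lit 5) (nat_lit 626) (nat_lit 622) (nat_lit 312)) (XT.lf (nat_lit 76) (nat_lit 1981199335) (nat_lit 0) (nat_lit 3602623833) (nat_lit 1900) (nat_lit 26636264287) (nat_lit 474) (nat_lit 5) (nat_lit 473) (nat_lit 5) (nat_lit 498) (nat_lit 5) (nat_lit 627) (nat_lit 622) (nat_lit 311))) (XT.nd (nat_lit 78) (nat_lit 0) (nat_lit 0) (XT.lf (nat_lit 0) (nat_lit 6315810352) (nat_lit 1824) (nat_lit 14082210449) (nat_lit 1900) (nat_lit 12146733911) (nat_lit 474) (nat_lit 5) (nat_lit 498) (nat_lit 5) (nat_lit 499) (nat_lit 5) (nat_lit 628) (nat_lit 622) (nat_lit 310)) (XT.lf (nat_lit 76) (nat_lit 2404272442) (nat_lit 0) (nat_lit 4695962278) (nat_lit 1900) (nat_lit 25774924746) (nat_lit 475) (nat_lit 5) (nat_lit 474) (nat_lit 5) (nat_lit 499) (nat_lit 5) (nat_lit 629) (nat_lit 622) (nat_lit 309)))) (XT.nd (nat_lit 156) (nat_lit 0) (nat_lit 76) (XT.nd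 (nat_lit 78) (nat_lit 0) (nat_lit 0) (XT.lf (nat_lit 0) (nat_lit 8067329671) (nat_lit 1824) (nat_lit 13874065914) (nat_lit 1900) (nat_lit 11267437187) (nat_lit 475) (nat_lit 5) (nat_lit 499) (nat_lit 5) (nat_lit 500) (nat_lit 5) (nat_lit 630) (nat_lit 622) (nat_lit 308)) (XT.lf (nat_lit 76) (nat_lit 3062748300) (nat_lit 0) (nat_lit 6040394260) (nat_lit 1900) (nat_lit 24445049562) (nat_lit 476) (nat_lit 5) (nat_lit 475) (nat_lit 5) (nat_lit 500) (nat_lit 5) (nat_lit 631) (nat_lit 622) (nat_lit 307))) (XT.nd (nat_lit 78) (nat_lit 0) (nat_lit 0) (XT.lf (nat_lit 0) (nat_lit 10317897275) (nat_lit 1824) (nat_lit 13433855741) (nat_lit 1900) (nat_lit 10139421226) (nat_lit 476) (nat_lit 5) (nat_lit 500) (nat_lit 5) (nat_lit 501) (nat_lit 5) (nat_lit 632) (nat_lit 622) (nat_lit 306)) (XT.lf (nat_lit 76) (nat_lit 3969805046) (nat_lit 0) (nat_lit 7651370543) (nat_lit 1900) (nat_lit 22618555940) (nat_lit 477) (nat_lit 5) (nat_lit 476) (nat_lit 5) (nat_lit 501) (nat_lit 5) (nat_lit 633) (nat_lit 622) (nat_lit 305)))))) (XT.nd (nat_lit 546) (nat_lit 2508)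 (nat_lit 0) (XT.nd (nat_lit 234) (nat_lit 0) (nat_lit 76) (XT.nd (nat_lit 78) (nat_lit 0) (nat_lit 0) (XT.lf (nat_lit 0) (nat_lit 13096690380) (nat_lit 1824) (nat_lit 12748411118) (nat_lit 1900) (nat_lit 8747235136) (nat_lit 477) (nat_lit 5) (nat_lit 501) (nat_lit 5) (nat_lit 502) (nat_lit 5) (nat_lit 634) (nat_lit 622) (nat_lit 304)) (XT.nd (nat_lit 78) (nat_lit 0) (nat_lit 76) (XT.lf (nat_lit 76) (nat_lit 5139237467) (nat_lit 0) (nat_lit 9545024883) (nat_lit 1900) (nat_lit 20266080644) (nat_lit 478) (nat_lit 5) (nat_lit 477) (nat_lit 5) (nat_lit 502) (nat_lit 5) (nat_lit 635) (nat_lit 622) (nat_lit 303)) (XT.lf (nat_lit 0) (nat_lit 16434209499) (nat_lit 1824) (nat_lit 11803946259) (nat_lit 1900) (nat_lit 7074741336) (nat_lit 478) (nat_lit 5) (nat_lit 502) (nat_lit 5) (nat_lit 503) (nat_lit 5) (nat_lit 636) (nat_lit 622) (nat_lit 302)))) (XT.nd (nat_lit 156) (nat_lit 0) (nat_lit 76) (XT.nd (nat_lit 78) (nat_lit 0) (nat_lit 76) (XT.lf (nat_lit 76) (nat_lit 6585481132) (nat_lit 0) (nat_lit 11738206354) (nat_lit 1900) (nat_lit 17356924238)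 (nat_lit 479) (nat_lit 5) (nat_lit 478) (nat_lit 5) (nat_lit 503) (nat_lit 5) (nat_lit 637) (nat_lit 622) (nat_lit 301)) (XT.lf (nat_lit 0) (nat_lit 20362335823) (nat_lit 1824) (nat_lit 10586034193) (nat_lit 1900) (nat_lit 5105083101) (nat_lit 479) (nat_lit 5) (nat_lit 503) (nat_lit 5) (nat_lit 504) (nat_lit 5) (nat_lit 638) (nat_lit 622) (nat_lit 300))) (XT.nd (nat_lit 78) (nat_lit 0) (nat_lit 76) (XT.lf (nat_lit 76) (nat_lit 8323637507) (nat_lit 0) (nat_lit 14248512931) (nat_lit 1900) (nat_lit 13858993115) (nat_lit 480) (nat_lit 5) (nat_lit 479) (nat_lit 5) (nat_lit 504) (nat_lit 5) (nat_lit 639) (nat_lit 622) (nat_lit 299)) (XT.lf (nat_lit 0) (nat_lit 24914390881) (nat_lit 1824) (nat_lit 9079581568) (nat_lit 1900) (nat_lit 2820650841) (nat_lit 480) (nat_lit 5) (nat_lit 504) (nat_lit 5) (nat_lit 505) (nat_lit 5) (nat_lit 640) (nat_lit 622) (nat_lit 298))))) (XT.nd (nat_lit 312) (nat_lit 2736) (nat_lit 0) (XT.nd (nat_lit 156) (nat_lit 0) (nat_lit 76) (XT.nd (nat_lit 78) (nat_lit 0) (nat_lit 76) (XT.lf (nat_lit 76) (nat_lit 10369500094)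 (nat_lit 0) (nat_lit 17094326388) (nat_lit 1900) (nat_lit 9738739211) (nat_lit 481) (nat_lit 5) (nat_lit 480) (nat_lit 5) (nat_lit 505) (nat_lit 5) (nat_lit 641) (nat_lit 622) (nat_lit 297)) (XT.lf (nat_lit 0) (nat_lit 30125198577) (nat_lit 1824) (nat_lit 7268802434) (nat_lit 1900) (nat_lit 203047056) (nat_lit 481) (nat_lit 5) (nat_lit 505) (nat_lit 5) (nat_lit 506) (nat_lit 5) (nat_lit 642) (nat_lit 622) (nat_lit 296))) (XT.nd (nat_lit 78) (nat_lit 0) (nat_lit 0) (XT.lf (nat_lit 76) (nat_lit 12739581625) (nat_lit 0) (nat_lit 20294848572) (nat_lit 1900) (nat_lit 4961097327) (nat_lit 482) (nat_lit 5) (nat_lit 481) (nat_lit 5) (nat_lit 506) (nat_lit 5) (nat_lit 643) (nat_lit 622) (nat_lit 295)) (XT.lf (nat_lit 76) (nat_lit 33245631916) (nat_lit 0) (nat_lit 2803721412) (nat_lit 1900) (nat_lit 2351673179) (nat_lit 482) (nat_lit 5) (nat_lit 481) (nat_lit 5) (nat_lit 506) (nat_lit 5) (nat_lit 644) (nat_lit 622) (nat_lit 294)))) (XT.nd (nat_lit 156) (nat_lit 988) (nat_lit 0) (XT.nd (nat_lit 78) (nat_lit 0) (nat_lit 0) (XT.lf (nat_lit 0) (nat_lit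 503883705) (nat_lit 1900) (nat_lit 23362874097) (nat_lit 1976) (nat_lit 14943877311) (nat_lit 457) (nat_lit 5) (nat_lit 482) (nat_lit 5) (nat_lit 483) (nat_lit 5) (nat_lit 645) (nat_lit 622) (nat_lit 293)) (XT.lf (nat_lit 0) (nat_lit 3437249797) (nat_lit 1900) (nat_lit 2730300209) (nat_lit 1976) (nat_lit 33059531324) (nat_lit 457) (nat_lit 5) (nat_lit 482) (nat_lit 5) (nat_lit 483) (nat_lit 5) (nat_lit 646) (nat_lit 622) (nat_lit 292))) (XT.nd (nat_lit 78) (nat_lit 1064) (nat_lit 0) (XT.lf (nat_lit 0) (nat_lit 6626527497) (nat_lit 1900) (nat_lit 21170159744) (nat_lit 76) (nat_lit 11851224414) (nat_lit 458) (nat_lit 5) (nat_lit 483) (nat_lit 5) (nat_lit 459) (nat_lit 5) (nat_lit 647) (nat_lit 622) (nat_lit 291)) (XT.lf (nat_lit 0) (nat_lit 28545552) (nat_lit 1064) (nat_lit 9909326092) (nat_lit 1140) (nat_lit 30138121394) (nat_lit 444) (nat_lit 5) (nat_lit 458) (nat_lit 5) (nat_lit 459) (nat_lit 5) (nat_lit 648) (nat_lit 622) (nat_lit 290))))))))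
noncomputable def xc124 : XT := (XT.nd (nat_lit 160602) (nat_lit 0) (nat_lit 988) (XT.nd (nat_lit 80262) (nat_lit 0) (nat_lit 0) (XT.nd (nat_lit 79638) (nat_lit 0) (nat_lit 2280) (XT.nd (nat_lit 79326) (nat_lit 0) (nat_lit 2128) (XT.nd (nat_lit 79170) (nat_lit 0) (nat_lit 2052) (XT.lf (nat_lit 0) (nat_lit 13511393117) (nat_lit 1140) (nat_lit 18627728229) (nat_lit 76) (nat_lit 8369595760) (nat_lit 444) (nat_lit 5) (nat_lit 459) (nat_lit 5) (nat_lit 445) (nat_lit 5) (nat_lit 649) (nat_lit 622) (nat_lit 289)) (XT.nd (nat_lit 78) (nat_lit 0) (nat_lit 0) (XT.lf (nat_lit 0) (nat_lit 1998822797) (nat_lit 1900) (nat_lit 6817374443) (nat_lit 1900) (nat_lit 6817374443) (nat_lit 471) (nat_lit 3) (nat_lit 496) (nat_lit 3) (nat_lit 496) (nat_lit 5) (nat_lit 623) (nat_lit 623) (nat_lit 314)) (XT.lf (nat_lit 76) (nat_lit 1898015676) (nat_lit 0) (nat_lit 2219419360) (nat_lit 1900) (nat_lit 27460779413) (nat_lit 472) (nat_lit 5) (nat_lit 471) (nat_lit 3) (nat_lit 496) (nat_lit 5) (nat_lit 624) (nat_lit 623) (nat_lit 313)))) (XT.nd (nat_lit 156) (nat_lit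 0) (nat_lit 76) (XT.nd (nat_lit 78) (nat_lit 0) (nat_lit 0) (XT.lf (nat_lit 0) (nat_lit 4417614655) (nat_lit 1824) (nat_lit 14056643682) (nat_lit 1900) (nat_lit 13417688834) (nat_lit 472) (nat_lit 5) (nat_lit 496) (nat_lit 5) (nat_lit 497) (nat_lit 5) (nat_lit 625) (nat_lit 623) (nat_lit 312)) (XT.lf (nat_lit 76) (nat_lit 1888515212) (nat_lit 0) (nat_lit 2860506376) (nat_lit 1900) (nat_lit 27462428590) (nat_lit 473) (nat_lit 5) (nat_lit 472) (nat_lit 5) (nat_lit 497) (nat_lit 5) (nat_lit 626) (nat_lit 623) (nat_lit 311))) (XT.nd (nat_lit 78) (nat_lit 0) (nat_lit 0) (XT.lf (nat_lit 0) (nat_lit 5265135973) (nat_lit 1824) (nat_lit 14278763129) (nat_lit 1900) (nat_lit 12989882660) (nat_lit 473) (nat_lit 5) (nat_lit 497) (nat_lit 5) (nat_lit 498) (nat_lit 5) (nat_lit 627) (nat_lit 623) (nat_lit 310)) (XT.lf (nat_lit 76) (nat_lit 2093858239) (nat_lit 0) (nat_lit 3728583385) (nat_lit 1900) (nat_lit 27039501075) (nat_lit 474) (nat_lit 5) (nat_lit 473) (nat_lit 5) (nat_lit 498) (nat_lit 5) (nat_lit 628) (nat_lit 623) (nat_lit 309))))) (XT.nd (nat_lit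 312) (nat_lit 0) (nat_lit 152) (XT.nd (nat_lit 156) (nat_lit 0) (nat_lit 76) (XT.nd (nat_lit 78) (nat_lit 0) (nat_lit 0) (XT.lf (nat_lit 0) (nat_lit 6566236356) (nat_lit 1824) (nat_lit 14289412087) (nat_lit 1900) (nat_lit 12337511653) (nat_lit 474) (nat_lit 5) (nat_lit 498) (nat_lit 5) (nat_lit 499) (nat_lit 5) (nat_lit 629) (nat_lit 623) (nat_lit 308)) (XT.lf (nat_lit 76) (nat_lit 2526310708) (nat_lit 0) (nat_lit 4838085129) (nat_lit 1900) (nat_lit 26165816324) (nat_lit 475) (nat_lit 5) (nat_lit 474) (nat_lit 5) (nat_lit 499) (nat_lit 5) (nat_lit 630) (nat_lit 623) (nat_lit 307))) (XT.nd (nat_lit 78) (nat_lit 0) (nat_lit 0) (XT.lf (nat_lit 0) (nat_lit 8348130630) (nat_lit 1824) (nat_lit 14076335192) (nat_lit 1900) (nat_lit 11446147297) (nat_lit 475) (nat_lit 5) (nat_lit 499) (nat_lit 5) (nat_lit 500) (nat_lit 5) (nat_lit 631) (nat_lit 623) (nat_lit 306)) (XT.lf (nat_lit 76) (nat_lit 3198720491) (nat_lit 0) (nat_lit 6204082157) (nat_lit 1900) (nat_lit 24813994292) (nat_lit 476) (nat_lit 5) (nat_lit 475) (nat_lit 5) (nat_lit 500) (nat_lit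 5) (nat_lit 632) (nat_lit 623) (nat_lit 305)))) (XT.nd (nat_lit 156) (nat_lit 0) (nat_lit 76) (XT.nd (nat_lit 78) (nat_lit 0) (nat_lit 0) (XT.lf (nat_lit 0) (nat_lit 10639273683) (nat_lit 1824) (nat_lit 13626694959) (nat_lit 1900) (nat_lit 10300721775) (nat_lit 476) (nat_lit 5) (nat_lit 500) (nat_lit 5) (nat_lit 501) (nat_lit 5) (nat_lit 633) (nat_lit 623) (nat_lit 304)) (XT.lf (nat_lit 76) (nat_lit 4124540110) (nat_lit 0) (nat_lit 7842311339) (nat_lit 1900) (nat_lit 22955402858) (nat_lit 477) (nat_lit 5) (nat_lit 476) (nat_lit 5) (nat_lit 501) (nat_lit 5) (nat_lit 634) (nat_lit 623) (nat_lit 303))) (XT.nd (nat_lit 78) (nat_lit 0) (nat_lit 0) (XT.lf (nat_lit 0) (nat_lit 13469414570) (nat_lit 1824) (nat_lit 12927048974) (nat_lit 1900) (nat_lit 8885497344) (nat_lit 477) (nat_lit 5) (nat_lit 501) (nat_lit 5) (nat_lit 502) (nat_lit 5) (nat_lit 635) (nat_lit 623) (nat_lit 302)) (XT.lf (nat_lit 76) (nat_lit 5317850410) (nat_lit 0) (nat_lit 9769207535) (nat_lit 1900) (nat_lit 20560103160) (nat_lit 478) (nat_lit 5) (nat_lit 477) (nat_lit 5) (nat_lit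 502) (nat_lit 5) (nat_lit 636) (nat_lit 623) (nat_lit 301)))))) (XT.nd (nat_lit 546) (nat_lit 2584) (nat_lit 0) (XT.nd (nat_lit 234) (nat_lit 0) (nat_lit 76) (XT.nd (nat_lit 78) (nat_lit 0) (nat_lit 0) (XT.lf (nat_lit 0) (nat_lit 16869652766) (nat_lit 1824) (nat_lit 11963326134) (nat_lit 1900) (nat_lit 7184034542) (nat_lit 478) (nat_lit 5) (nat_lit 502) (nat_lit 5) (nat_lit 503) (nat_lit 5) (nat_lit 637) (nat_lit 623) (nat_lit 300)) (XT.nd (nat_lit 78) (nat_lit 0) (nat_lit 76) (XT.lf (nat_lit 76) (nat_lit 6793385207) (nat_lit 0) (nat_lit 12001936496) (nat_lit 1900) (nat_lit 17596792760) (nat_lit 479) (nat_lit 5) (nat_lit 478) (nat_lit 5) (nat_lit 503) (nat_lit 5) (nat_lit 638) (nat_lit 623) (nat_lit 299)) (XT.lf (nat_lit 0) (nat_lit 20872496658) (nat_lit 1824) (nat_lit 10720801921) (nat_lit 1900) (nat_lit 5179159154) (nat_lit 479) (nat_lit 5) (nat_lit 503) (nat_lit 5) (nat_lit 504) (nat_lit 5) (nat_lit 639) (nat_lit 623) (nat_lit 298)))) (XT.nd (nat_lit 156) (nat_lit 0) (nat_lit 76) (XT.nd (nat_lit 78) (nat_lit 0) (nat_lit 76) (XT.lf (nat_lit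 76) (nat_lit 8566556943) (nat_lit 0) (nat_lit 14558429040) (nat_lit 1900) (nat_lit 14032746547) (nat_lit 480) (nat_lit 5) (nat_lit 479) (nat_lit 5) (nat_lit 504) (nat_lit 5) (nat_lit 640) (nat_lit 623) (nat_lit 297)) (XT.lf (nat_lit 0) (nat_lit 25511924357) (nat_lit 1824) (nat_lit 9184072665) (nat_lit 1900) (nat_lit 2852927896) (nat_lit 480) (nat_lit 5) (nat_lit 504) (nat_lit 5) (nat_lit 505) (nat_lit 5) (nat_lit 641) (nat_lit 623) (nat_lit 296))) (XT.nd (nat_lit 78) (nat_lit 0) (nat_lit 76) (XT.lf (nat_lit 76) (nat_lit 10653483390) (nat_lit 0) (nat_lit 17457416582) (nat_lit 1900) (nat_lit 9833755288) (nat_lit 481) (nat_lit 5) (nat_lit 480) (nat_lit 5) (nat_lit 505) (nat_lit 5) (nat_lit 642) (nat_lit 623) (nat_lit 295)) (XT.lf (nat_lit 0) (nat_lit 30823446952) (nat_lit 1824) (nat_lit 7337028767) (nat_lit 1900) (nat_lit 186592727) (nat_lit 481) (nat_lit 5) (nat_lit 505) (nat_lit 5) (nat_lit 506) (nat_lit 5) (nat_lit 643) (nat_lit 623) (nat_lit 294))))) (XT.nd (nat_lit 312) (nat_lit 988) (nat_lit 0) (XT.nd (nat_lit 156) (nat_lit 1824) (nat_lit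 0) (XT.nd (nat_lit 78) (nat_lit 0) (nat_lit 0) (XT.lf (nat_lit 76) (nat_lit 13071015409) (nat_lit 0) (nat_lit 20718468066) (nat_lit 1900) (nat_lit 4964061723) (nat_lit 482) (nat_lit 5) (nat_lit 481) (nat_lit 5) (nat_lit 506) (nat_lit 5) (nat_lit 644) (nat_lit 623) (nat_lit 293)) (XT.lf (nat_lit 76) (nat_lit 33985683918) (nat_lit 0) (nat_lit 2877170862) (nat_lit 1900) (nat_lit 2304336496) (nat_lit 482) (nat_lit 5) (nat_lit 481) (nat_lit 5) (nat_lit 506) (nat_lit 5) (nat_lit 645) (nat_lit 623) (nat_lit 292))) (XT.nd (nat_lit 78) (nat_lit 0) (nat_lit 0) (XT.lf (nat_lit 0) (nat_lit 605657023) (nat_lit 1900) (nat_lit 23752307085) (nat_lit 1976) (nat_lit 15227044533) (nat_lit 457) (nat_lit 5) (nat_lit 482) (nat_lit 5) (nat_lit 483) (nat_lit 5) (nat_lit 646) (nat_lit 623) (nat_lit 291)) (XT.lf (nat_lit 0) (nat_lit 3595892483) (nat_lit 1900) (nat_lit 2708607690) (nat_lit 1976) (nat_lit 33705319672) (nat_lit 457) (nat_lit 5) (nat_lit 482) (nat_lit 5) (nat_lit 483) (nat_lit 5) (nat_lit 647) (nat_lit 623) (nat_lit 290)))) (XT.nd (nat_lit 79326) (nat_lit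 0) (nat_lit 2052) (XT.nd (nat_lit 78) (nat_lit 1064) (nat_lit 0) (XT.lf (nat_lit 0) (nat_lit 6847601855) (nat_lit 1900) (nat_lit 21515905477) (nat_lit 76) (nat_lit 12075586625) (nat_lit 458) (nat_lit 5) (nat_lit 483) (nat_lit 5) (nat_lit 459) (nat_lit 5) (nat_lit 648) (nat_lit 623) (nat_lit 289)) (XT.lf (nat_lit 0) (nat_lit 106263021) (nat_lit 1064) (nat_lit 10117674597) (nat_lit 1140) (nat_lit 30651824153) (nat_lit 444) (nat_lit 5) (nat_lit 458) (nat_lit 5) (nat_lit 459) (nat_lit 5) (nat_lit 649) (nat_lit 623) (nat_lit 288))) (XT.nd (nat_lit 78) (nat_lit 0) (nat_lit 0) (XT.lf (nat_lit 0) (nat_lit 2105850873) (nat_lit 1900) (nat_lit 6919523572) (nat_lit 1900) (nat_lit 6919523572) (nat_lit 471) (nat_lit 3) (nat_lit 496) (nat_lit 3) (nat_lit 496) (nat_lit 5) (nat_lit 624) (nat_lit 624) (nat_lit 312)) (XT.lf (nat_lit 76) (nat_lit 2003922730) (nat_lit 0) (nat_lit 2327775927) (nat_lit 1900) (nat_lit 27875433808) (nat_lit 472) (nat_lit 5) (nat_lit 471) (nat_lit 3) (nat_lit 496) (nat_lit 5) (nat_lit 625) (nat_lit 624) (nat_lit 311))))))) (XT.nd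 (nat_lit 1170) (nat_lit 1140) (nat_lit 0) (XT.nd (nat_lit 546) (nat_lit 0) (nat_lit 228) (XT.nd (nat_lit 234) (nat_lit 0) (nat_lit 76) (XT.nd (nat_lit 78) (nat_lit 0) (nat_lit 0) (XT.lf (nat_lit 0) (nat_lit 4634888121) (nat_lit 1824) (nat_lit 14268160539) (nat_lit 1900) (nat_lit 13624151213) (nat_lit 472) (nat_lit 5) (nat_lit 496) (nat_lit 5) (nat_lit 497) (nat_lit 5) (nat_lit 626) (nat_lit 624) (nat_lit 310)) (XT.nd (nat_lit 78) (nat_lit 0) (nat_lit 76) (XT.lf (nat_lit 76) (nat_lit 1995443533) (nat_lit 0) (nat_lit 2975400814) (nat_lit 1900) (nat_lit 27882290324) (nat_lit 473) (nat_lit 5) (nat_lit 472) (nat_lit 5) (nat_lit 497) (nat_lit 5) (nat_lit 627) (nat_lit 624) (nat_lit 309)) (XT.lf (nat_lit 0) (nat_lit 5494426734) (nat_lit 1824) (nat_lit 14493674616) (nat_lit 1900) (nat_lit 13193868773) (nat_lit 473) (nat_lit 5) (nat_lit 497) (nat_lit 5) (nat_lit 498) (nat_lit 5) (nat_lit 628) (nat_lit 624) (nat_lit 308)))) (XT.nd (nat_lit 156) (nat_lit 0) (nat_lit 76) (XT.nd (nat_lit 78) (nat_lit 0) (nat_lit 76) (XT.lf (nat_lit 76) (nat_lit 2205934287)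 (nat_lit 0) (nat_lit 3854968852) (nat_lit 1900) (nat_lit 27455830796) (nat_lit 474) (nat_lit 5) (nat_lit 473) (nat_lit 5) (nat_lit 498) (nat_lit 5) (nat_lit 629) (nat_lit 624) (nat_lit 307)) (XT.lf (nat_lit 0) (nat_lit 6816851546) (nat_lit 1824) (nat_lit 14503648454) (nat_lit 1900) (nat_lit 12534130267) (nat_lit 474) (nat_lit 5) (nat_lit 498) (nat_lit 5) (nat_lit 499) (nat_lit 5) (nat_lit 630) (nat_lit 624) (nat_lit 306))) (XT.nd (nat_lit 78) (nat_lit 0) (nat_lit 76) (XT.lf (nat_lit 76) (nat_lit 2647918061) (nat_lit 0) (nat_lit 4981178633) (nat_lit 1900) (nat_lit 26569364372) (nat_lit 475) (nat_lit 5) (nat_lit 474) (nat_lit 5) (nat_lit 499) (nat_lit 5) (nat_lit 631) (nat_lit 624) (nat_lit 305)) (XT.lf (nat_lit 0) (nat_lit 8629909049) (nat_lit 1824) (nat_lit 14285570431) (nat_lit 1900) (nat_lit 11630242644) (nat_lit 475) (nat_lit 5) (nat_lit 499) (nat_lit 5) (nat_lit 500) (nat_lit 5) (nat_lit 632) (nat_lit 624) (nat_lit 304))))) (XT.nd (nat_lit 312) (nat_lit 0) (nat_lit 152) (XT.nd (nat_lit 156) (nat_lit 0) (nat_lit 76) (XT.nd (nat_lit 78)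 (nat_lit 0) (nat_lit 76) (XT.lf (nat_lit 76) (nat_lit 3334510764) (nat_lit 0) (nat_lit 6369378729) (nat_lit 1900) (nat_lit 25194975964) (nat_lit 476) (nat_lit 5) (nat_lit 475) (nat_lit 5) (nat_lit 500) (nat_lit 5) (nat_lit 633) (nat_lit 624) (nat_lit 303)) (XT.lf (nat_lit 0) (nat_lit 10962611311) (nat_lit 1824) (nat_lit 13826335840) (nat_lit 1900) (nat_lit 10466859360) (nat_lit 476) (nat_lit 5) (nat_lit 500) (nat_lit 5) (nat_lit 501) (nat_lit 5) (nat_lit 634) (nat_lit 624) (nat_lit 302))) (XT.nd (nat_lit 78) (nat_lit 0) (nat_lit 76) (XT.lf (nat_lit 76) (nat_lit 4279444372) (nat_lit 0) (nat_lit 8035598728) (nat_lit 1900) (nat_lit 23303472660) (nat_lit 477) (nat_lit 5) (nat_lit 476) (nat_lit 5) (nat_lit 501) (nat_lit 5) (nat_lit 635) (nat_lit 624) (nat_lit 301)) (XT.lf (nat_lit 0) (nat_lit 13845291118) (nat_lit 1824) (nat_lit 13112223587) (nat_lit 1900) (nat_lit 9027949223) (nat_lit 477) (nat_lit 5) (nat_lit 501) (nat_lit 5) (nat_lit 502) (nat_lit 5) (nat_lit 636) (nat_lit 624) (nat_lit 300)))) (XT.nd (nat_lit 156) (nat_lit 0) (nat_lit 76)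 (XT.nd (nat_lit 78) (nat_lit 0) (nat_lit 76) (XT.lf (nat_lit 76) (nat_lit 5497091111) (nat_lit 0) (nat_lit 9996581454) (nat_lit 1900) (nat_lit 20864328006) (nat_lit 478) (nat_lit 5) (nat_lit 477) (nat_lit 5) (nat_lit 502) (nat_lit 5) (nat_lit 637) (nat_lit 624) (nat_lit 299)) (XT.lf (nat_lit 0) (nat_lit 17309659314) (nat_lit 1824) (nat_lit 12128871923) (nat_lit 1900) (nat_lit 7296764040) (nat_lit 478) (nat_lit 5) (nat_lit 502) (nat_lit 5) (nat_lit 503) (nat_lit 5) (nat_lit 638) (nat_lit 624) (nat_lit 298))) (XT.nd (nat_lit 78) (nat_lit 0) (nat_lit 76) (XT.lf (nat_lit 76) (nat_lit 7002488639) (nat_lit 0) (nat_lit 12269816456) (nat_lit 1900) (nat_lit 17845624075) (nat_lit 479) (nat_lit 5) (nat_lit 478) (nat_lit 5) (nat_lit 503) (nat_lit 5) (nat_lit 639) (nat_lit 624) (nat_lit 297)) (XT.lf (nat_lit 0) (nat_lit 21388864428) (nat_lit 1824) (nat_lit 10861253181) (nat_lit 1900) (nat_lit 5255804997) (nat_lit 479) (nat_lit 5) (nat_lit 503) (nat_lit 5) (nat_lit 504) (nat_lit 5) (nat_lit 640) (nat_lit 624) (nat_lit 296)))))) (XT.nd (nat_lit 546) (nat_lit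 0) (nat_lit 0) (XT.nd (nat_lit 234) (nat_lit 1672) (nat_lit 0) (XT.nd (nat_lit 78) (nat_lit 0) (nat_lit 76) (XT.lf (nat_lit 76) (nat_lit 8811366250) (nat_lit 0) (nat_lit 14873574794) (nat_lit 1900) (nat_lit 14213991222) (nat_lit 480) (nat_lit 5) (nat_lit 479) (nat_lit 5) (nat_lit 504) (nat_lit 5) (nat_lit 641) (nat_lit 624) (nat_lit 295)) (XT.nd (nat_lit 78) (nat_lit 0) (nat_lit 0) (XT.lf (nat_lit 0) (nat_lit 26117554672) (nat_lit 1824) (nat_lit 9293647492) (nat_lit 1900) (nat_lit 2886787721) (nat_lit 480) (nat_lit 5) (nat_lit 504) (nat_lit 5) (nat_lit 505) (nat_lit 5) (nat_lit 642) (nat_lit 624) (nat_lit 294)) (XT.lf (nat_lit 76) (nat_lit 10940172140) (nat_lit 0) (nat_lit 17826945215) (nat_lit 1900) (nat_lit 9934545439) (nat_lit 481) (nat_lit 5) (nat_lit 480) (nat_lit 5) (nat_lit 505) (nat_lit 5) (nat_lit 643) (nat_lit 624) (nat_lit 293)))) (XT.nd (nat_lit 156) (nat_lit 1824) (nat_lit 0) (XT.nd (nat_lit 78) (nat_lit 0) (nat_lit 0) (XT.lf (nat_lit 0) (nat_lit 31531942423) (nat_lit 1824) (nat_lit 7409615445) (nat_lit 1900) (nat_lit 170605943)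 (nat_lit 481) (nat_lit 5) (nat_lit 505) (nat_lit 5) (nat_lit 506) (nat_lit 5) (nat_lit 644) (nat_lit 624) (nat_lit 292)) (XT.lf (nat_lit 76) (nat_lit 13406101760) (nat_lit 0) (nat_lit 21149871763) (nat_lit 1900) (nat_lit 4970823206) (nat_lit 482) (nat_lit 5) (nat_lit 481) (nat_lit 5) (nat_lit 506) (nat_lit 5) (nat_lit 645) (nat_lit 624) (nat_lit 291))) (XT.nd (nat_lit 78) (nat_lit 1824) (nat_lit 0) (XT.lf (nat_lit 76) (nat_lit 34737619208) (nat_lit 0) (nat_lit 2951414608) (nat_lit 1900) (nat_lit 2259717586) (nat_lit 482) (nat_lit 5) (nat_lit 481) (nat_lit 5) (nat_lit 506) (nat_lit 5) (nat_lit 646) (nat_lit 624) (nat_lit 290)) (XT.lf (nat_lit 0) (nat_lit 705905154) (nat_lit 1900) (nat_lit 24152550753) (nat_lit 1976) (nat_lit 15516485150) (nat_lit 457) (nat_lit 5) (nat_lit 482) (nat_lit 5) (nat_lit 483) (nat_lit 5) (nat_lit 647) (nat_lit 624) (nat_lit 289))))) (XT.nd (nat_lit 79638) (nat_lit 0) (nat_lit 1140) (XT.nd (nat_lit 79482) (nat_lit 0) (nat_lit 1064) (XT.nd (nat_lit 79404) (nat_lit 0) (nat_lit 1064) (XT.lf (nat_lit 0) (nat_lit 3754217186)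 (nat_lit 1900) (nat_lit 2689444086) (nat_lit 1976) (nat_lit 34364621877) (nat_lit 457) (nat_lit 5) (nat_lit 482) (nat_lit 5) (nat_lit 483) (nat_lit 5) (nat_lit 648) (nat_lit 624) (nat_lit 288)) (XT.lf (nat_lit 0) (nat_lit 2212415815) (nat_lit 1900) (nat_lit 7025043648) (nat_lit 1900) (nat_lit 7025043648) (nat_lit 471) (nat_lit 3) (nat_lit 496) (nat_lit 3) (nat_lit 496) (nat_lit 5) (nat_lit 625) (nat_lit 625) (nat_lit 310))) (XT.nd (nat_lit 78) (nat_lit 0) (nat_lit 76) (XT.lf (nat_lit 76) (nat_lit 2109309471) (nat_lit 0) (nat_lit 2435815663) (nat_lit 1900) (nat_lit 28303606466) (nat_lit 472) (nat_lit 5) (nat_lit 471) (nat_lit 3) (nat_lit 496) (nat_lit 5) (nat_lit 626) (nat_lit 625) (nat_lit 309)) (XT.lf (nat_lit 0) (nat_lit 4851500891) (nat_lit 1824) (nat_lit 14486611008) (nat_lit 1900) (nat_lit 13837146158) (nat_lit 472) (nat_lit 5) (nat_lit 496) (nat_lit 5) (nat_lit 497) (nat_lit 5) (nat_lit 627) (nat_lit 625) (nat_lit 308)))) (XT.nd (nat_lit 156) (nat_lit 0) (nat_lit 76) (XT.nd (nat_lit 78) (nat_lit 0) (nat_lit 76) (XT.lf (nat_lit 76)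 (nat_lit 2101824930) (nat_lit 0) (nat_lit 3090353190) (nat_lit 1900) (nat_lit 28315573541) (nat_lit 473) (nat_lit 5) (nat_lit 472) (nat_lit 5) (nat_lit 497) (nat_lit 5) (nat_lit 628) (nat_lit 625) (nat_lit 307)) (XT.lf (nat_lit 0) (nat_lit 5723488704) (nat_lit 1824) (nat_lit 14715628292) (nat_lit 1900) (nat_lit 13404101839) (nat_lit 473) (nat_lit 5) (nat_lit 497) (nat_lit 5) (nat_lit 498) (nat_lit 5) (nat_lit 629) (nat_lit 625) (nat_lit 306))) (XT.nd (nat_lit 78) (nat_lit 0) (nat_lit 76) (XT.lf (nat_lit 76) (nat_lit 2317525947) (nat_lit 0) (nat_lit 3981870034) (nat_lit 1900) (nat_lit 27885320056) (nat_lit 474) (nat_lit 5) (nat_lit 473) (nat_lit 5) (nat_lit 498) (nat_lit 5) (nat_lit 630) (nat_lit 625) (nat_lit 305)) (XT.lf (nat_lit 0) (nat_lit 7067846845) (nat_lit 1824) (nat_lit 14724947995) (nat_lit 1900) (nat_lit 12736627925) (nat_lit 474) (nat_lit 5) (nat_lit 498) (nat_lit 5) (nat_lit 499) (nat_lit 5) (nat_lit 631) (nat_lit 625) (nat_lit 304))))))))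
noncomputable def xc125 : XT := (XT.nd (nat_lit 81744) (nat_lit 0) (nat_lit 1064) (XT.nd (nat_lit 1170) (nat_lit 1292) (nat_lit 0) (XT.nd (nat_lit 546) (nat_lit 0) (nat_lit 304) (XT.nd (nat_lit 234) (nat_lit 0) (nat_lit 152) (XT.nd (nat_lit 78) (nat_lit 0) (nat_lit 76) (XT.lf (nat_lit 76) (nat_lit 2769197393) (nat_lit 0) (nat_lit 5125334886) (nat_lit 1900) (nat_lit 26985634129) (nat_lit 475) (nat_lit 5) (nat_lit 474) (nat_lit 5) (nat_lit 499) (nat_lit 5) (nat_lit 632) (nat_lit 625) (nat_lit 303)) (XT.nd (nat_lit 78) (nat_lit 0) (nat_lit 0) (XT.lf (nat_lit 0) (nat_lit 8912864600) (nat_lit 1824) (nat_lit 14501797540) (nat_lit 1900) (nat_lit 11819760608) (nat_lit 475) (nat_lit 5) (nat_lit 499) (nat_lit 5) (nat_lit 500) (nat_lit 5) (nat_lit 633) (nat_lit 625) (nat_lit 302)) (XT.lf (nat_lit 76) (nat_lit 3470228146) (nat_lit 0) (nat_lit 6536380807) (nat_lit 1900) (nat_lit 25588054439) (nat_lit 476) (nat_lit 5) (nat_lit 475) (nat_lit 5) (nat_lit 500) (nat_lit 5) (nat_lit 634) (nat_lit 625) (nat_lit 301)))) (XT.nd (nat_lit 156) (nat_lit 0) (nat_lit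 76) (XT.nd (nat_lit 78) (nat_lit 0) (nat_lit 0) (XT.lf (nat_lit 0) (nat_lit 11288122817) (nat_lit 1824) (nat_lit 14032800062) (nat_lit 1900) (nat_lit 10637868163) (nat_lit 476) (nat_lit 5) (nat_lit 500) (nat_lit 5) (nat_lit 501) (nat_lit 5) (nat_lit 635) (nat_lit 625) (nat_lit 300)) (XT.lf (nat_lit 76) (nat_lit 4434634817) (nat_lit 0) (nat_lit 8231336810) (nat_lit 1900) (nat_lit 23662815609) (nat_lit 477) (nat_lit 5) (nat_lit 476) (nat_lit 5) (nat_lit 501) (nat_lit 5) (nat_lit 636) (nat_lit 625) (nat_lit 299))) (XT.nd (nat_lit 78) (nat_lit 0) (nat_lit 0) (XT.lf (nat_lit 0) (nat_lit 14224550128) (nat_lit 1824) (nat_lit 13303950598) (nat_lit 1900) (nat_lit 9174619253) (nat_lit 477) (nat_lit 5) (nat_lit 501) (nat_lit 5) (nat_lit 502) (nat_lit 5) (nat_lit 637) (nat_lit 625) (nat_lit 298)) (XT.lf (nat_lit 76) (nat_lit 5677086463) (nat_lit 0) (nat_lit 10227260650) (nat_lit 1900) (nat_lit 21178791405) (nat_lit 478) (nat_lit 5) (nat_lit 477) (nat_lit 5) (nat_lit 502) (nat_lit 5) (nat_lit 638) (nat_lit 625) (nat_lit 297))))) (XT.nd (nat_lit 312)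 (nat_lit 0) (nat_lit 152) (XT.nd (nat_lit 156) (nat_lit 0) (nat_lit 76) (XT.nd (nat_lit 78) (nat_lit 0) (nat_lit 0) (XT.lf (nat_lit 0) (nat_lit 17754481385) (nat_lit 1824) (nat_lit 12300591295) (nat_lit 1900) (nat_lit 7412950000) (nat_lit 478) (nat_lit 5) (nat_lit 502) (nat_lit 5) (nat_lit 503) (nat_lit 5) (nat_lit 639) (nat_lit 625) (nat_lit 296)) (XT.lf (nat_lit 76) (nat_lit 7212930307) (nat_lit 0) (nat_lit 12541972906) (nat_lit 1900) (nat_lit 18103435692) (nat_lit 479) (nat_lit 5) (nat_lit 478) (nat_lit 5) (nat_lit 503) (nat_lit 5) (nat_lit 640) (nat_lit 625) (nat_lit 295))) (XT.nd (nat_lit 78) (nat_lit 0) (nat_lit 0) (XT.lf (nat_lit 0) (nat_lit 21911718454) (nat_lit 1824) (nat_lit 11007385609) (nat_lit 1900) (nat_lit 5335029767) (nat_lit 479) (nat_lit 5) (nat_lit 503) (nat_lit 5) (nat_lit 504) (nat_lit 5) (nat_lit 641) (nat_lit 625) (nat_lit 294)) (XT.lf (nat_lit 76) (nat_lit 9058218497) (nat_lit 0) (nat_lit 15194092400) (nat_lit 1900) (nat_lit 14402721012) (nat_lit 480) (nat_lit 5) (nat_lit 479) (nat_lit 5) (nat_lit 504) (nat_lit 5)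 (nat_lit 642) (nat_lit 625) (nat_lit 293)))) (XT.nd (nat_lit 156) (nat_lit 0) (nat_lit 76) (XT.nd (nat_lit 78) (nat_lit 0) (nat_lit 0) (XT.lf (nat_lit 0) (nat_lit 26731593414) (nat_lit 1824) (nat_lit 9408291466) (nat_lit 1900) (nat_lit 2922225577) (nat_lit 480) (nat_lit 5) (nat_lit 504) (nat_lit 5) (nat_lit 505) (nat_lit 5) (nat_lit 643) (nat_lit 625) (nat_lit 292)) (XT.lf (nat_lit 76) (nat_lit 11229735947) (nat_lit 0) (nat_lit 18203073029) (nat_lit 1900) (nat_lit 10041074722) (nat_lit 481) (nat_lit 5) (nat_lit 480) (nat_lit 5) (nat_lit 505) (nat_lit 5) (nat_lit 644) (nat_lit 625) (nat_lit 291))) (XT.nd (nat_lit 78) (nat_lit 0) (nat_lit 0) (XT.lf (nat_lit 0) (nat_lit 32251034300) (nat_lit 1824) (nat_lit 7486533343) (nat_lit 1900) (nat_lit 155065123) (nat_lit 481) (nat_lit 5) (nat_lit 505) (nat_lit 5) (nat_lit 506) (nat_lit 5) (nat_lit 645) (nat_lit 625) (nat_lit 290)) (XT.lf (nat_lit 76) (nat_lit 13745029296) (nat_lit 0) (nat_lit 21589242070) (nat_lit 1900) (nat_lit 4981312573) (nat_lit 482) (nat_lit 5) (nat_lit 481) (nat_lit 5) (nat_lit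 506) (nat_lit 5) (nat_lit 646) (nat_lit 625) (nat_lit 289)))))) (XT.nd (nat_lit 79950) (nat_lit 0) (nat_lit 1216) (XT.nd (nat_lit 79638) (nat_lit 0) (nat_lit 1064) (XT.nd (nat_lit 78) (nat_lit 1824) (nat_lit 0) (XT.lf (nat_lit 76) (nat_lit 35501788749) (nat_lit 0) (nat_lit 3026494735) (nat_lit 1900) (nat_lit 2217728509) (nat_lit 482) (nat_lit 5) (nat_lit 481) (nat_lit 5) (nat_lit 506) (nat_lit 5) (nat_lit 647) (nat_lit 625) (nat_lit 288)) (XT.nd (nat_lit 79482) (nat_lit 0) (nat_lit 1064) (XT.lf (nat_lit 0) (nat_lit 804735858) (nat_lit 1900) (nat_lit 24563703966) (nat_lit 1976) (nat_lit 15812300942) (nat_lit 457) (nat_lit 5) (nat_lit 482) (nat_lit 5) (nat_lit 483) (nat_lit 5) (nat_lit 648) (nat_lit 625) (nat_lit 287)) (XT.lf (nat_lit 0) (nat_lit 2318609465) (nat_lit 1900) (nat_lit 7133950523) (nat_lit 1900) (nat_lit 7133950523) (nat_lit 471) (nat_lit 3) (nat_lit 496) (nat_lit 3) (nat_lit 496) (nat_lit 5) (nat_lit 626) (nat_lit 626) (nat_lit 308)))) (XT.nd (nat_lit 156) (nat_lit 0) (nat_lit 76) (XT.nd (nat_lit 78) (nat_lit 0) (nat_lit 76)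 (XT.lf (nat_lit 76) (nat_lit 2214267947) (nat_lit 0) (nat_lit 2543628687) (nat_lit 1900) (nat_lit 28745364853) (nat_lit 472) (nat_lit 5) (nat_lit 471) (nat_lit 3) (nat_lit 496) (nat_lit 5) (nat_lit 627) (nat_lit 626) (nat_lit 307)) (XT.lf (nat_lit 0) (nat_lit 5067634146) (nat_lit 1824) (nat_lit 14712028790) (nat_lit 1900) (nat_lit 14056710996) (nat_lit 472) (nat_lit 5) (nat_lit 496) (nat_lit 5) (nat_lit 497) (nat_lit 5) (nat_lit 628) (nat_lit 626) (nat_lit 306))) (XT.nd (nat_lit 78) (nat_lit 0) (nat_lit 76) (XT.lf (nat_lit 76) (nat_lit 2207752745) (nat_lit 0) (nat_lit 3205451640) (nat_lit 1900) (nat_lit 28762351574) (nat_lit 473) (nat_lit 5) (nat_lit 472) (nat_lit 5) (nat_lit 497) (nat_lit 5) (nat_lit 629) (nat_lit 626) (nat_lit 305)) (XT.lf (nat_lit 0) (nat_lit 5952504263) (nat_lit 1824) (nat_lit 14944658452) (nat_lit 1900) (nat_lit 13620622640) (nat_lit 473) (nat_lit 5) (nat_lit 497) (nat_lit 5) (nat_lit 498) (nat_lit 5) (nat_lit 630) (nat_lit 626) (nat_lit 304))))) (XT.nd (nat_lit 312) (nat_lit 0) (nat_lit 152) (XT.nd (nat_lit 156) (nat_lit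 0) (nat_lit 76) (XT.nd (nat_lit 78) (nat_lit 0) (nat_lit 76) (XT.lf (nat_lit 76) (nat_lit 2428729383) (nat_lit 0) (nat_lit 4109375376) (nat_lit 1900) (nat_lit 28328044377) (nat_lit 474) (nat_lit 5) (nat_lit 473) (nat_lit 5) (nat_lit 498) (nat_lit 5) (nat_lit 631) (nat_lit 626) (nat_lit 303)) (XT.lf (nat_lit 0) (nat_lit 7319409730) (nat_lit 1824) (nat_lit 14953344083) (nat_lit 1900) (nat_lit 12945046617) (nat_lit 474) (nat_lit 5) (nat_lit 498) (nat_lit 5) (nat_lit 499) (nat_lit 5) (nat_lit 632) (nat_lit 626) (nat_lit 302))) (XT.nd (nat_lit 78) (nat_lit 0) (nat_lit 76) (XT.lf (nat_lit 76) (nat_lit 2890249326) (nat_lit 0) (nat_lit 5270645006) (nat_lit 1900) (nat_lit 27414699435) (nat_lit 475) (nat_lit 5) (nat_lit 474) (nat_lit 5) (nat_lit 499) (nat_lit 5) (nat_lit 633) (nat_lit 626) (nat_lit 301)) (XT.lf (nat_lit 0) (nat_lit 9197193949) (nat_lit 1824) (nat_lit 14725047351) (nat_lit 1900) (nat_lit 12014742048) (nat_lit 475) (nat_lit 5) (nat_lit 499) (nat_lit 5) (nat_lit 500) (nat_lit 5) (nat_lit 634) (nat_lit 626) (nat_lit 300)))) (XT.nd (nat_lit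 156) (nat_lit 0) (nat_lit 76) (XT.nd (nat_lit 78) (nat_lit 0) (nat_lit 76) (XT.lf (nat_lit 76) (nat_lit 3605979466) (nat_lit 0) (nat_lit 6705184647) (nat_lit 1900) (nat_lit 25993297801) (nat_lit 476) (nat_lit 5) (nat_lit 475) (nat_lit 5) (nat_lit 500) (nat_lit 5) (nat_lit 635) (nat_lit 626) (nat_lit 299)) (XT.lf (nat_lit 0) (nat_lit 11616018376) (nat_lit 1824) (nat_lit 14246114181) (nat_lit 1900) (nat_lit 10813785480) (nat_lit 476) (nat_lit 5) (nat_lit 500) (nat_lit 5) (nat_lit 501) (nat_lit 5) (nat_lit 636) (nat_lit 626) (nat_lit 298))) (XT.nd (nat_lit 78) (nat_lit 0) (nat_lit 76) (XT.lf (nat_lit 76) (nat_lit 4590226356) (nat_lit 0) (nat_lit 8429629547) (nat_lit 1900) (nat_lit 24033489736) (nat_lit 477) (nat_lit 5) (nat_lit 476) (nat_lit 5) (nat_lit 501) (nat_lit 5) (nat_lit 637) (nat_lit 626) (nat_lit 297)) (XT.lf (nat_lit 0) (nat_lit 14607419819) (nat_lit 1824) (nat_lit 13502250428) (nat_lit 1900) (nat_lit 9325538633) (nat_lit 477) (nat_lit 5) (nat_lit 501) (nat_lit 5) (nat_lit 502) (nat_lit 5) (nat_lit 638) (nat_lit 626) (nat_lit 296)))))))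 (XT.nd (nat_lit 80730) (nat_lit 0) (nat_lit 228) (XT.nd (nat_lit 546) (nat_lit 456) (nat_lit 0) (XT.nd (nat_lit 234) (nat_lit 0) (nat_lit 152) (XT.nd (nat_lit 78) (nat_lit 0) (nat_lit 76) (XT.lf (nat_lit 76) (nat_lit 5857961459) (nat_lit 0) (nat_lit 10461359464) (nat_lit 1900) (nat_lit 21503536821) (nat_lit 478) (nat_lit 5) (nat_lit 477) (nat_lit 5) (nat_lit 502) (nat_lit 5) (nat_lit 639) (nat_lit 626) (nat_lit 295)) (XT.nd (nat_lit 78) (nat_lit 0) (nat_lit 0) (XT.lf (nat_lit 0) (nat_lit 18204370018) (nat_lit 1824) (nat_lit 12478496559) (nat_lit 1900) (nat_lit 7532614883) (nat_lit 478) (nat_lit 5) (nat_lit 502) (nat_lit 5) (nat_lit 503) (nat_lit 5) (nat_lit 640) (nat_lit 626) (nat_lit 294)) (XT.lf (nat_lit 76) (nat_lit 7424847406) (nat_lit 0) (nat_lit 12818533357) (nat_lit 1900) (nat_lit 18370251748) (nat_lit 479) (nat_lit 5) (nat_lit 478) (nat_lit 5) (nat_lit 503) (nat_lit 5) (nat_lit 641) (nat_lit 626) (nat_lit 293)))) (XT.nd (nat_lit 156) (nat_lit 0) (nat_lit 76) (XT.nd (nat_lit 78) (nat_lit 0) (nat_lit 0) (XT.lf (nat_lit 0) (nat_lit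 22441337614) (nat_lit 1824) (nat_lit 11159201299) (nat_lit 1900) (nat_lit 5416844424) (nat_lit 479) (nat_lit 5) (nat_lit 503) (nat_lit 5) (nat_lit 504) (nat_lit 5) (nat_lit 642) (nat_lit 626) (nat_lit 292)) (XT.lf (nat_lit 76) (nat_lit 9307265336) (nat_lit 0) (nat_lit 15520125450) (nat_lit 1900) (nat_lit 14598935722) (nat_lit 480) (nat_lit 5) (nat_lit 479) (nat_lit 5) (nat_lit 504) (nat_lit 5) (nat_lit 643) (nat_lit 626) (nat_lit 291))) (XT.nd (nat_lit 78) (nat_lit 0) (nat_lit 0) (XT.lf (nat_lit 0) (nat_lit 27354352586) (nat_lit 1824) (nat_lit 9527994228) (nat_lit 1900) (nat_lit 2959238045) (nat_lit 480) (nat_lit 5) (nat_lit 504) (nat_lit 5) (nat_lit 505) (nat_lit 5) (nat_lit 644) (nat_lit 626) (nat_lit 290)) (XT.lf (nat_lit 76) (nat_lit 11522343319) (nat_lit 0) (nat_lit 18585962739) (nat_lit 1900) (nat_lit 10153313340) (nat_lit 481) (nat_lit 5) (nat_lit 480) (nat_lit 5) (nat_lit 505) (nat_lit 5) (nat_lit 645) (nat_lit 626) (nat_lit 289))))) (XT.nd (nat_lit 79872) (nat_lit 0) (nat_lit 76) (XT.nd (nat_lit 79716) (nat_lit 760) (nat_lit 0)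 (XT.nd (nat_lit 78) (nat_lit 0) (nat_lit 0) (XT.lf (nat_lit 0) (nat_lit 32981073276) (nat_lit 1824) (nat_lit 7567757270) (nat_lit 1900) (nat_lit 139949453) (nat_lit 481) (nat_lit 5) (nat_lit 505) (nat_lit 5) (nat_lit 506) (nat_lit 5) (nat_lit 646) (nat_lit 626) (nat_lit 288)) (XT.lf (nat_lit 76) (nat_lit 14087985919) (nat_lit 0) (nat_lit 22036764004) (nat_lit 1900) (nat_lit 4995464875) (nat_lit 482) (nat_lit 5) (nat_lit 481) (nat_lit 5) (nat_lit 506) (nat_lit 5) (nat_lit 647) (nat_lit 626) (nat_lit 287))) (XT.nd (nat_lit 78) (nat_lit 0) (nat_lit 0) (XT.lf (nat_lit 0) (nat_lit 2424521574) (nat_lit 1900) (nat_lit 7246262368) (nat_lit 1900) (nat_lit 7246262368) (nat_lit 471) (nat_lit 3) (nat_lit 496) (nat_lit 3) (nat_lit 496) (nat_lit 5) (nat_lit 627) (nat_lit 627) (nat_lit 306)) (XT.lf (nat_lit 76) (nat_lit 2318888067) (nat_lit 0) (nat_lit 2651303174) (nat_lit 1900) (nat_lit 29200785661) (nat_lit 472) (nat_lit 5) (nat_lit 471) (nat_lit 3) (nat_lit 496) (nat_lit 5) (nat_lit 628) (nat_lit 627) (nat_lit 305)))) (XT.nd (nat_lit 156) (nat_lit 0)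 (nat_lit 76) (XT.nd (nat_lit 78) (nat_lit 0) (nat_lit 0) (XT.lf (nat_lit 0) (nat_lit 5283465142) (nat_lit 1824) (nat_lit 14944452335) (nat_lit 1900) (nat_lit 14282887426) (nat_lit 472) (nat_lit 5) (nat_lit 496) (nat_lit 5) (nat_lit 497) (nat_lit 5) (nat_lit 629) (nat_lit 627) (nat_lit 304)) (XT.lf (nat_lit 76) (nat_lit 2313318140) (nat_lit 0) (nat_lit 3320782690) (nat_lit 1900) (nat_lit 29222706796) (nat_lit 473) (nat_lit 5) (nat_lit 472) (nat_lit 5) (nat_lit 497) (nat_lit 5) (nat_lit 630) (nat_lit 627) (nat_lit 303))) (XT.nd (nat_lit 78) (nat_lit 0) (nat_lit 0) (XT.lf (nat_lit 0) (nat_lit 6181652181) (nat_lit 1824) (nat_lit 15180804210) (nat_lit 1900) (nat_lit 13843476042) (nat_lit 473) (nat_lit 5) (nat_lit 497) (nat_lit 5) (nat_lit 498) (nat_lit 5) (nat_lit 631) (nat_lit 627) (nat_lit 302)) (XT.lf (nat_lit 76) (nat_lit 2539638569) (nat_lit 0) (nat_lit 4237572053) (nat_lit 1900) (nat_lit 28784088079) (nat_lit 474) (nat_lit 5) (nat_lit 473) (nat_lit 5) (nat_lit 498) (nat_lit 5) (nat_lit 632) (nat_lit 627) (nat_lit 301)))))) (XT.nd (nat_lit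 546) (nat_lit 0) (nat_lit 228) (XT.nd (nat_lit 234) (nat_lit 0) (nat_lit 76) (XT.nd (nat_lit 78) (nat_lit 0) (nat_lit 0) (XT.lf (nat_lit 0) (nat_lit 7571724442) (nat_lit 1824) (nat_lit 15188874947) (nat_lit 1900) (nat_lit 13159432106) (nat_lit 474) (nat_lit 5) (nat_lit 498) (nat_lit 5) (nat_lit 499) (nat_lit 5) (nat_lit 633) (nat_lit 627) (nat_lit 300)) (XT.nd (nat_lit 78) (nat_lit 0) (nat_lit 76) (XT.lf (nat_lit 76) (nat_lit 3011172330) (nat_lit 0) (nat_lit 5417199219) (nat_lit 1900) (nat_lit 27856642619) (nat_lit 475) (nat_lit 5) (nat_lit 474) (nat_lit 5) (nat_lit 499) (nat_lit 5) (nat_lit 634) (nat_lit 627) (nat_lit 299)) (XT.lf (nat_lit 0) (nat_lit 9483090979) (nat_lit 1824) (nat_lit 14955355546) (nat_lit 1900) (nat_lit 12215231264) (nat_lit 475) (nat_lit 5) (nat_lit 499) (nat_lit 5) (nat_lit 500) (nat_lit 5) (nat_lit 635) (nat_lit 627) (nat_lit 298)))) (XT.nd (nat_lit 156) (nat_lit 0) (nat_lit 76) (XT.nd (nat_lit 78) (nat_lit 0) (nat_lit 76) (XT.lf (nat_lit 76) (nat_lit 3741869487) (nat_lit 0) (nat_lit 6875886018) (nat_lit 1900) (nat_lit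 26410782242) (nat_lit 476) (nat_lit 5) (nat_lit 475) (nat_lit 5) (nat_lit 500) (nat_lit 5) (nat_lit 636) (nat_lit 627) (nat_lit 297)) (XT.lf (nat_lit 0) (nat_lit 11946505894) (nat_lit 1824) (nat_lit 14466309550) (nat_lit 1900) (nat_lit 10994651687) (nat_lit 476) (nat_lit 5) (nat_lit 500) (nat_lit 5) (nat_lit 501) (nat_lit 5) (nat_lit 637) (nat_lit 627) (nat_lit 296))) (XT.nd (nat_lit 78) (nat_lit 0) (nat_lit 76) (XT.lf (nat_lit 76) (nat_lit 4746331963) (nat_lit 0) (nat_lit 8630580847) (nat_lit 1900) (nat_lit 24415560738) (nat_lit 477) (nat_lit 5) (nat_lit 476) (nat_lit 5) (nat_lit 501) (nat_lit 5) (nat_lit 638) (nat_lit 627) (nat_lit 295)) (XT.lf (nat_lit 0) (nat_lit 14994126740) (nat_lit 1824) (nat_lit 13707148204) (nat_lit 1900) (nat_lit 9480741249) (nat_lit 477) (nat_lit 5) (nat_lit 501) (nat_lit 5) (nat_lit 502) (nat_lit 5) (nat_lit 639) (nat_lit 627) (nat_lit 294))))) (XT.nd (nat_lit 312) (nat_lit 0) (nat_lit 152) (XT.nd (nat_lit 156) (nat_lit 0) (nat_lit 76) (XT.nd (nat_lit 78) (nat_lit 0) (nat_lit 76) (XT.lf (nat_lit 76) (nat_lit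 6039839321) (nat_lit 0) (nat_lit 10698992652) (nat_lit 1900) (nat_lit 21838614850) (nat_lit 478) (nat_lit 5) (nat_lit 477) (nat_lit 5) (nat_lit 502) (nat_lit 5) (nat_lit 640) (nat_lit 627) (nat_lit 293)) (XT.lf (nat_lit 0) (nat_lit 18659575263) (nat_lit 1824) (nat_lit 12662604589) (nat_lit 1900) (nat_lit 7655783407) (nat_lit 478) (nat_lit 5) (nat_lit 502) (nat_lit 5) (nat_lit 503) (nat_lit 5) (nat_lit 641) (nat_lit 627) (nat_lit 292))) (XT.nd (nat_lit 78) (nat_lit 0) (nat_lit 76) (XT.lf (nat_lit 76) (nat_lit 7638375585) (nat_lit 0) (nat_lit 13099626239) (nat_lit 1900) (nat_lit 18646102902) (nat_lit 479) (nat_lit 5) (nat_lit 478) (nat_lit 5) (nat_lit 503) (nat_lit 5) (nat_lit 642) (nat_lit 627) (nat_lit 291)) (XT.lf (nat_lit 0) (nat_lit 22978000575) (nat_lit 1824) (nat_lit 11316706718) (nat_lit 1900) (nat_lit 5501261725) (nat_lit 479) (nat_lit 5) (nat_lit 503) (nat_lit 5) (nat_lit 504) (nat_lit 5) (nat_lit 643) (nat_lit 627) (nat_lit 290)))) (XT.nd (nat_lit 156) (nat_lit 0) (nat_lit 76) (XT.nd (nat_lit 78) (nat_lit 0) (nat_lit 76) (XT.lf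 (nat_lit 76) (nat_lit 9558657153) (nat_lit 0) (nat_lit 15851819002) (nat_lit 1900) (nat_lit 14802640974) (nat_lit 480) (nat_lit 5) (nat_lit 479) (nat_lit 5) (nat_lit 504) (nat_lit 5) (nat_lit 644) (nat_lit 627) (nat_lit 289)) (XT.lf (nat_lit 0) (nat_lit 27986144852) (nat_lit 1824) (nat_lit 9652749549) (nat_lit 1900) (nat_lit 2997822994) (nat_lit 480) (nat_lit 5) (nat_lit 504) (nat_lit 5) (nat_lit 505) (nat_lit 5) (nat_lit 645) (nat_lit 627) (nat_lit 288))) (XT.nd (nat_lit 78) (nat_lit 0) (nat_lit 76) (XT.lf (nat_lit 76) (nat_lit 11818161824) (nat_lit 0) (nat_lit 18975779118) (nat_lit 1900) (nat_lit 10271236510) (nat_lit 481) (nat_lit 5) (nat_lit 480) (nat_lit 5) (nat_lit 505) (nat_lit 5) (nat_lit 646) (nat_lit 627) (nat_lit 287)) (XT.lf (nat_lit 0) (nat_lit 33722411668) (nat_lit 1824) (nat_lit 7653265877) (nat_lit 1900) (nat_lit 125238856) (nat_lit 481) (nat_lit 5) (nat_lit 505) (nat_lit 5) (nat_lit 506) (nat_lit 5) (nat_lit 647) (nat_lit 627) (nat_lit 286))))))))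
noncomputable def xc126 : XT := (XT.nd (nat_lit 82134) (nat_lit 0) (nat_lit 0) (XT.nd (nat_lit 1170) (nat_lit 0) (nat_lit 0) (XT.nd (nat_lit 546) (nat_lit 0) (nat_lit 228) (XT.nd (nat_lit 234) (nat_lit 0) (nat_lit 76) (XT.nd (nat_lit 78) (nat_lit 0) (nat_lit 0) (XT.lf (nat_lit 0) (nat_lit 2530239918) (nat_lit 1900) (nat_lit 7361999645) (nat_lit 1900) (nat_lit 7361999645) (nat_lit 471) (nat_lit 3) (nat_lit 496) (nat_lit 3) (nat_lit 496) (nat_lit 5) (nat_lit 628) (nat_lit 628) (nat_lit 304)) (XT.nd (nat_lit 78) (nat_lit 0) (nat_lit 76) (XT.lf (nat_lit 76) (nat_lit 2423257718) (nat_lit 0) (nat_lit 2758925463) (nat_lit 1900) (nat_lit 29669954692) (nat_lit 472) (nat_lit 5) (nat_lit 471) (nat_lit 3) (nat_lit 496) (nat_lit 5) (nat_lit 629) (nat_lit 628) (nat_lit 303)) (XT.lf (nat_lit 0) (nat_lit 5499167425) (nat_lit 1824) (nat_lit 15183924782) (nat_lit 1900) (nat_lit 14515721462) (nat_lit 472) (nat_lit 5) (nat_lit 496) (nat_lit 5) (nat_lit 497) (nat_lit 5) (nat_lit 630) (nat_lit 628) (nat_lit 302)))) (XT.nd (nat_lit 156) (nat_lit 0) (nat_lit 76)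 (XT.nd (nat_lit 78) (nat_lit 0) (nat_lit 76) (XT.lf (nat_lit 76) (nat_lit 2418610204) (nat_lit 0) (nat_lit 3436431348) (nat_lit 1900) (nat_lit 29696730512) (nat_lit 473) (nat_lit 5) (nat_lit 472) (nat_lit 5) (nat_lit 497) (nat_lit 5) (nat_lit 631) (nat_lit 628) (nat_lit 301)) (XT.lf (nat_lit 0) (nat_lit 6411107824) (nat_lit 1824) (nat_lit 15424109442) (nat_lit 1900) (nat_lit 14072710951) (nat_lit 473) (nat_lit 5) (nat_lit 497) (nat_lit 5) (nat_lit 498) (nat_lit 5) (nat_lit 632) (nat_lit 628) (nat_lit 300))) (XT.nd (nat_lit 78) (nat_lit 0) (nat_lit 76) (XT.lf (nat_lit 76) (nat_lit 2650345411) (nat_lit 0) (nat_lit 4366546073) (nat_lit 1900) (nat_lit 29253544171) (nat_lit 474) (nat_lit 5) (nat_lit 473) (nat_lit 5) (nat_lit 498) (nat_lit 5) (nat_lit 633) (nat_lit 628) (nat_lit 299)) (XT.lf (nat_lit 0) (nat_lit 7824972192) (nat_lit 1824) (nat_lit 15431583610) (nat_lit 1900) (nat_lit 13379833895) (nat_lit 474) (nat_lit 5) (nat_lit 498) (nat_lit 5) (nat_lit 499) (nat_lit 5) (nat_lit 634) (nat_lit 628) (nat_lit 298))))) (XT.nd (nat_lit 312) (nat_lit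 0) (nat_lit 152) (XT.nd (nat_lit 156) (nat_lit 0) (nat_lit 76) (XT.nd (nat_lit 78) (nat_lit 0) (nat_lit 76) (XT.lf (nat_lit 76) (nat_lit 3132062844) (nat_lit 0) (nat_lit 5565086950) (nat_lit 1900) (nat_lit 28311554399) (nat_lit 475) (nat_lit 5) (nat_lit 474) (nat_lit 5) (nat_lit 499) (nat_lit 5) (nat_lit 635) (nat_lit 628) (nat_lit 297)) (XT.lf (nat_lit 0) (nat_lit 9770746984) (nat_lit 1824) (nat_lit 15192762587) (nat_lit 1900) (nat_lit 12421275965) (nat_lit 475) (nat_lit 5) (nat_lit 499) (nat_lit 5) (nat_lit 500) (nat_lit 5) (nat_lit 636) (nat_lit 628) (nat_lit 296))) (XT.nd (nat_lit 78) (nat_lit 0) (nat_lit 76) (XT.lf (nat_lit 76) (nat_lit 3878001024) (nat_lit 0) (nat_lit 7048580283) (nat_lit 1900) (nat_lit 26840591972) (nat_lit 476) (nat_lit 5) (nat_lit 475) (nat_lit 5) (nat_lit 500) (nat_lit 5) (nat_lit 637) (nat_lit 628) (nat_lit 295)) (XT.lf (nat_lit 0) (nat_lit 12279791212) (nat_lit 1824) (nat_lit 14693422251) (nat_lit 1900) (nat_lit 11180510212) (nat_lit 476) (nat_lit 5) (nat_lit 500) (nat_lit 5) (nat_lit 501) (nat_lit 5) (nat_lit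 638) (nat_lit 628) (nat_lit 294)))) (XT.nd (nat_lit 156) (nat_lit 0) (nat_lit 76) (XT.nd (nat_lit 78) (nat_lit 0) (nat_lit 76) (XT.lf (nat_lit 76) (nat_lit 4903062793) (nat_lit 0) (nat_lit 8834294645) (nat_lit 1900) (nat_lit 24809101871) (nat_lit 477) (nat_lit 5) (nat_lit 476) (nat_lit 5) (nat_lit 501) (nat_lit 5) (nat_lit 639) (nat_lit 628) (nat_lit 293)) (XT.lf (nat_lit 0) (nat_lit 15384895976) (nat_lit 1824) (nat_lit 13918673681) (nat_lit 1900) (nat_lit 9640263653) (nat_lit 477) (nat_lit 5) (nat_lit 501) (nat_lit 5) (nat_lit 502) (nat_lit 5) (nat_lit 640) (nat_lit 628) (nat_lit 292))) (XT.nd (nat_lit 78) (nat_lit 0) (nat_lit 76) (XT.lf (nat_lit 76) (nat_lit 6222841637) (nat_lit 0) (nat_lit 10940275464) (nat_lit 1900) (nat_lit 22184083122) (nat_lit 478) (nat_lit 5) (nat_lit 477) (nat_lit 5) (nat_lit 502) (nat_lit 5) (nat_lit 641) (nat_lit 628) (nat_lit 291)) (XT.lf (nat_lit 0) (nat_lit 19120346396) (nat_lit 1824) (nat_lit 12852936745) (nat_lit 1900) (nat_lit 7782482530) (nat_lit 478) (nat_lit 5) (nat_lit 502) (nat_lit 5) (nat_lit 503)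 (nat_lit 5) (nat_lit 642) (nat_lit 628) (nat_lit 290)))))) (XT.nd (nat_lit 80340) (nat_lit 0) (nat_lit 76) (XT.nd (nat_lit 234) (nat_lit 532) (nat_lit 0) (XT.nd (nat_lit 78) (nat_lit 0) (nat_lit 76) (XT.lf (nat_lit 76) (nat_lit 7853649085) (nat_lit 0) (nat_lit 13385380985) (nat_lit 1900) (nat_lit 18931026228) (nat_lit 479) (nat_lit 5) (nat_lit 478) (nat_lit 5) (nat_lit 503) (nat_lit 5) (nat_lit 643) (nat_lit 628) (nat_lit 289)) (XT.nd (nat_lit 78) (nat_lit 0) (nat_lit 0) (XT.lf (nat_lit 0) (nat_lit 23521986009) (nat_lit 1824) (nat_lit 11479912626) (nat_lit 1900) (nat_lit 5588296199) (nat_lit 479) (nat_lit 5) (nat_lit 503) (nat_lit 5) (nat_lit 504) (nat_lit 5) (nat_lit 644) (nat_lit 628) (nat_lit 288)) (XT.lf (nat_lit 76) (nat_lit 9812543205) (nat_lit 0) (nat_lit 16189319668) (nat_lit 1900) (nat_lit 15013848097) (nat_lit 480) (nat_lit 5) (nat_lit 479) (nat_lit 5) (nat_lit 504) (nat_lit 5) (nat_lit 645) (nat_lit 628) (nat_lit 287)))) (XT.nd (nat_lit 79950) (nat_lit 0) (nat_lit 0) (XT.nd (nat_lit 79872) (nat_lit 684) (nat_lit 0) (XT.lf (nat_lit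 0) (nat_lit 28627283756) (nat_lit 1824) (nat_lit 9782555248) (nat_lit 1900) (nat_lit 3037979559) (nat_lit 480) (nat_lit 5) (nat_lit 504) (nat_lit 5) (nat_lit 505) (nat_lit 5) (nat_lit 646) (nat_lit 628) (nat_lit 286)) (XT.lf (nat_lit 0) (nat_lit 2635850399) (nat_lit 1900) (nat_lit 7481185072) (nat_lit 1900) (nat_lit 7481185072) (nat_lit 471) (nat_lit 3) (nat_lit 496) (nat_lit 3) (nat_lit 496) (nat_lit 5) (nat_lit 629) (nat_lit 629) (nat_lit 302))) (XT.nd (nat_lit 78) (nat_lit 0) (nat_lit 76) (XT.lf (nat_lit 76) (nat_lit 2527462865) (nat_lit 0) (nat_lit 2866580160) (nat_lit 1900) (nat_lit 30152966740) (nat_lit 472) (nat_lit 5) (nat_lit 471) (nat_lit 3) (nat_lit 496) (nat_lit 5) (nat_lit 630) (nat_lit 629) (nat_lit 301)) (XT.lf (nat_lit 0) (nat_lit 5714911039) (nat_lit 1824) (nat_lit 15430493897) (nat_lit 1900) (nat_lit 14755263388) (nat_lit 472) (nat_lit 5) (nat_lit 496) (nat_lit 5) (nat_lit 497) (nat_lit 5) (nat_lit 631) (nat_lit 629) (nat_lit 300))))) (XT.nd (nat_lit 312) (nat_lit 0) (nat_lit 152) (XT.nd (nat_lit 156) (nat_lit 0) (nat_lit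 76) (XT.nd (nat_lit 78) (nat_lit 0) (nat_lit 76) (XT.lf (nat_lit 76) (nat_lit 2523716069) (nat_lit 0) (nat_lit 3552481201) (nat_lit 1900) (nat_lit 30184522850) (nat_lit 473) (nat_lit 5) (nat_lit 472) (nat_lit 5) (nat_lit 497) (nat_lit 5) (nat_lit 632) (nat_lit 629) (nat_lit 299)) (XT.lf (nat_lit 0) (nat_lit 6641043360) (nat_lit 1824) (nat_lit 15674622722) (nat_lit 1900) (nat_lit 14308380268) (nat_lit 473) (nat_lit 5) (nat_lit 497) (nat_lit 5) (nat_lit 498) (nat_lit 5) (nat_lit 633) (nat_lit 629) (nat_lit 298))) (XT.nd (nat_lit 78) (nat_lit 0) (nat_lit 76) (XT.lf (nat_lit 76) (nat_lit 2760939854) (nat_lit 0) (nat_lit 4496382356) (nat_lit 1900) (nat_lit 29736514258) (nat_lit 474) (nat_lit 5) (nat_lit 473) (nat_lit 5) (nat_lit 498) (nat_lit 5) (nat_lit 634) (nat_lit 629) (nat_lit 297)) (XT.lf (nat_lit 0) (nat_lit 8079331364) (nat_lit 1824) (nat_lit 15681517824) (nat_lit 1900) (nat_lit 13606305184) (nat_lit 474) (nat_lit 5) (nat_lit 498) (nat_lit 5) (nat_lit 499) (nat_lit 5) (nat_lit 635) (nat_lit 629) (nat_lit 296)))) (XT.nd (nat_lit 156) (nat_lit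 0) (nat_lit 76) (XT.nd (nat_lit 78) (nat_lit 0) (nat_lit 76) (XT.lf (nat_lit 76) (nat_lit 3253015392) (nat_lit 0) (nat_lit 5714396903) (nat_lit 1900) (nat_lit 28779533783) (nat_lit 475) (nat_lit 5) (nat_lit 474) (nat_lit 5) (nat_lit 499) (nat_lit 5) (nat_lit 636) (nat_lit 629) (nat_lit 295)) (XT.lf (nat_lit 0) (nat_lit 10060350876) (nat_lit 1824) (nat_lit 15437313658) (nat_lit 1900) (nat_lit 12632927239) (nat_lit 475) (nat_lit 5) (nat_lit 499) (nat_lit 5) (nat_lit 500) (nat_lit 5) (nat_lit 637) (nat_lit 629) (nat_lit 294))) (XT.nd (nat_lit 78) (nat_lit 0) (nat_lit 76) (XT.lf (nat_lit 76) (nat_lit 4014475066) (nat_lit 0) (nat_lit 7223362486) (nat_lit 1900) (nat_lit 27282819118) (nat_lit 476) (nat_lit 5) (nat_lit 475) (nat_lit 5) (nat_lit 500) (nat_lit 5) (nat_lit 638) (nat_lit 629) (nat_lit 293)) (XT.lf (nat_lit 0) (nat_lit 12616078308) (nat_lit 1824) (nat_lit 14927493032) (nat_lit 1900) (nat_lit 11371407510) (nat_lit 476) (nat_lit 5) (nat_lit 500) (nat_lit 5) (nat_lit 501) (nat_lit 5) (nat_lit 639) (nat_lit 629) (nat_lit 292))))))) (XT.nd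 (nat_lit 81042) (nat_lit 0) (nat_lit 0) (XT.nd (nat_lit 80418) (nat_lit 380) (nat_lit 0) (XT.nd (nat_lit 234) (nat_lit 0) (nat_lit 152) (XT.nd (nat_lit 78) (nat_lit 0) (nat_lit 76) (XT.lf (nat_lit 76) (nat_lit 5060528308) (nat_lit 0) (nat_lit 9040874984) (nat_lit 1900) (nat_lit 25214193865) (nat_lit 477) (nat_lit 5) (nat_lit 476) (nat_lit 5) (nat_lit 501) (nat_lit 5) (nat_lit 640) (nat_lit 629) (nat_lit 291)) (XT.nd (nat_lit 78) (nat_lit 0) (nat_lit 0) (XT.lf (nat_lit 0) (nat_lit 15779951356) (nat_lit 1824) (nat_lit 14136861181) (nat_lit 1900) (nat_lit 9804145029) (nat_lit 477) (nat_lit 5) (nat_lit 501) (nat_lit 5) (nat_lit 502) (nat_lit 5) (nat_lit 641) (nat_lit 629) (nat_lit 290)) (XT.lf (nat_lit 76) (nat_lit 6407088483) (nat_lit 0) (nat_lit 11185323725) (nat_lit 1900) (nat_lit 22540006207) (nat_lit 478) (nat_lit 5) (nat_lit 477) (nat_lit 5) (nat_lit 502) (nat_lit 5) (nat_lit 642) (nat_lit 629) (nat_lit 289)))) (XT.nd (nat_lit 156) (nat_lit 0) (nat_lit 76) (XT.nd (nat_lit 78) (nat_lit 0) (nat_lit 0) (XT.lf (nat_lit 0) (nat_lit 19586932128)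 (nat_lit 1824) (nat_lit 13049518802) (nat_lit 1900) (nat_lit 7912741422) (nat_lit 478) (nat_lit 5) (nat_lit 502) (nat_lit 5) (nat_lit 503) (nat_lit 5) (nat_lit 643) (nat_lit 629) (nat_lit 288)) (XT.lf (nat_lit 76) (nat_lit 8070800872) (nat_lit 0) (nat_lit 13675928110) (nat_lit 1900) (nat_lit 19225065119) (nat_lit 479) (nat_lit 5) (nat_lit 478) (nat_lit 5) (nat_lit 503) (nat_lit 5) (nat_lit 644) (nat_lit 629) (nat_lit 287))) (XT.nd (nat_lit 78) (nat_lit 0) (nat_lit 0) (XT.lf (nat_lit 0) (nat_lit 24073572809) (nat_lit 1824) (nat_lit 11648833999) (nat_lit 1900) (nat_lit 5677964122) (nat_lit 479) (nat_lit 5) (nat_lit 503) (nat_lit 5) (nat_lit 504) (nat_lit 5) (nat_lit 645) (nat_lit 629) (nat_lit 286)) (XT.lf (nat_lit 76) (nat_lit 10069071759) (nat_lit 0) (nat_lit 16532775695) (nat_lit 1900) (nat_lit 15232574024) (nat_lit 480) (nat_lit 5) (nat_lit 479) (nat_lit 5) (nat_lit 504) (nat_lit 5) (nat_lit 646) (nat_lit 629) (nat_lit 285))))) (XT.nd (nat_lit 312) (nat_lit 0) (nat_lit 152) (XT.nd (nat_lit 156) (nat_lit 0) (nat_lit 76) (XT.nd (nat_lit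 78) (nat_lit 0) (nat_lit 0) (XT.lf (nat_lit 0) (nat_lit 2741437152) (nat_lit 1900) (nat_lit 7603843600) (nat_lit 1900) (nat_lit 7603843600) (nat_lit 471) (nat_lit 3) (nat_lit 496) (nat_lit 3) (nat_lit 496) (nat_lit 5) (nat_lit 630) (nat_lit 630) (nat_lit 300)) (XT.lf (nat_lit 76) (nat_lit 2631587664) (nat_lit 0) (nat_lit 2974350237) (nat_lit 1900) (nat_lit 30649925492) (nat_lit 472) (nat_lit 5) (nat_lit 471) (nat_lit 3) (nat_lit 496) (nat_lit 5) (nat_lit 631) (nat_lit 630) (nat_lit 299))) (XT.nd (nat_lit 78) (nat_lit 0) (nat_lit 0) (XT.lf (nat_lit 0) (nat_lit 5930862725) (nat_lit 1824) (nat_lit 15684212021) (nat_lit 1900) (nat_lit 15001567711) (nat_lit 472) (nat_lit 5) (nat_lit 496) (nat_lit 5) (nat_lit 497) (nat_lit 5) (nat_lit 632) (nat_lit 630) (nat_lit 298)) (XT.lf (nat_lit 76) (nat_lit 2628721014) (nat_lit 0) (nat_lit 3669014511) (nat_lit 1900) (nat_lit 30686192668) (nat_lit 473) (nat_lit 5) (nat_lit 472) (nat_lit 5) (nat_lit 497) (nat_lit 5) (nat_lit 633) (nat_lit 630) (nat_lit 297)))) (XT.nd (nat_lit 156) (nat_lit 0) (nat_lit 76)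 (XT.nd (nat_lit 78) (nat_lit 0) (nat_lit 0) (XT.lf (nat_lit 0) (nat_lit 6871627952) (nat_lit 1824) (nat_lit 15932397271) (nat_lit 1900) (nat_lit 14550540855) (nat_lit 473) (nat_lit 5) (nat_lit 497) (nat_lit 5) (nat_lit 498) (nat_lit 5) (nat_lit 634) (nat_lit 630) (nat_lit 296)) (XT.lf (nat_lit 76) (nat_lit 2871509991) (nat_lit 0) (nat_lit 4627164829) (nat_lit 1900) (nat_lit 30233108445) (nat_lit 474) (nat_lit 5) (nat_lit 473) (nat_lit 5) (nat_lit 498) (nat_lit 5) (nat_lit 635) (nat_lit 630) (nat_lit 295))) (XT.nd (nat_lit 78) (nat_lit 0) (nat_lit 0) (XT.lf (nat_lit 0) (nat_lit 8334977707) (nat_lit 1824) (nat_lit 15938730015) (nat_lit 1900) (nat_lit 13838902849) (nat_lit 474) (nat_lit 5) (nat_lit 498) (nat_lit 5) (nat_lit 499) (nat_lit 5) (nat_lit 636) (nat_lit 630) (nat_lit 294)) (XT.lf (nat_lit 76) (nat_lit 3374122693) (nat_lit 0) (nat_lit 5865217150) (nat_lit 1900) (nat_lit 29260687988) (nat_lit 475) (nat_lit 5) (nat_lit 474) (nat_lit 5) (nat_lit 499) (nat_lit 5) (nat_lit 637) (nat_lit 630) (nat_lit 293)))))) (XT.nd (nat_lit 546) (nat_lit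 304) (nat_lit 0) (XT.nd (nat_lit 234) (nat_lit 0) (nat_lit 76) (XT.nd (nat_lit 78) (nat_lit 0) (nat_lit 0) (XT.lf (nat_lit 0) (nat_lit 10352089374) (nat_lit 1824) (nat_lit 15689058604) (nat_lit 1900) (nat_lit 12850239528) (nat_lit 475) (nat_lit 5) (nat_lit 499) (nat_lit 5) (nat_lit 500) (nat_lit 5) (nat_lit 638) (nat_lit 630) (nat_lit 292)) (XT.nd (nat_lit 78) (nat_lit 0) (nat_lit 76) (XT.lf (nat_lit 76) (nat_lit 4151390886) (nat_lit 0) (nat_lit 7400327426) (nat_lit 1900) (nat_lit 27737563645) (nat_lit 476) (nat_lit 5) (nat_lit 475) (nat_lit 5) (nat_lit 500) (nat_lit 5) (nat_lit 639) (nat_lit 630) (nat_lit 291)) (XT.lf (nat_lit 0) (nat_lit 12955569494) (nat_lit 1824) (nat_lit 15168567245) (nat_lit 1900) (nat_lit 11567393035) (nat_lit 476) (nat_lit 5) (nat_lit 500) (nat_lit 5) (nat_lit 501) (nat_lit 5) (nat_lit 640) (nat_lit 630) (nat_lit 290)))) (XT.nd (nat_lit 156) (nat_lit 0) (nat_lit 76) (XT.nd (nat_lit 78) (nat_lit 0) (nat_lit 76) (XT.lf (nat_lit 76) (nat_lit 5218836392) (nat_lit 0) (nat_lit 9250426091) (nat_lit 1900) (nat_lit 25630924835)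 (nat_lit 477) (nat_lit 5) (nat_lit 476) (nat_lit 5) (nat_lit 501) (nat_lit 5) (nat_lit 641) (nat_lit 630) (nat_lit 289)) (XT.lf (nat_lit 0) (nat_lit 16179515646) (nat_lit 1824) (nat_lit 14361749525) (nat_lit 1900) (nat_lit 9972427183) (nat_lit 477) (nat_lit 5) (nat_lit 501) (nat_lit 5) (nat_lit 502) (nat_lit 5) (nat_lit 642) (nat_lit 630) (nat_lit 288))) (XT.nd (nat_lit 78) (nat_lit 0) (nat_lit 76) (XT.lf (nat_lit 76) (nat_lit 6592698547) (nat_lit 0) (nat_lit 11434253914) (nat_lit 1900) (nat_lit 22906455525) (nat_lit 478) (nat_lit 5) (nat_lit 477) (nat_lit 5) (nat_lit 502) (nat_lit 5) (nat_lit 643) (nat_lit 630) (nat_lit 287)) (XT.lf (nat_lit 0) (nat_lit 20059580809) (nat_lit 1824) (nat_lit 13252380883) (nat_lit 1900) (nat_lit 8046591446) (nat_lit 478) (nat_lit 5) (nat_lit 502) (nat_lit 5) (nat_lit 503) (nat_lit 5) (nat_lit 644) (nat_lit 630) (nat_lit 286))))) (XT.nd (nat_lit 80340) (nat_lit 0) (nat_lit 76) (XT.nd (nat_lit 80184) (nat_lit 0) (nat_lit 0) (XT.nd (nat_lit 80106) (nat_lit 532) (nat_lit 0) (XT.lf (nat_lit 76) (nat_lit 8289962761)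 (nat_lit 0) (nat_lit 13971399292) (nat_lit 1900) (nat_lit 19528269195) (nat_lit 479) (nat_lit 5) (nat_lit 478) (nat_lit 5) (nat_lit 503) (nat_lit 5) (nat_lit 645) (nat_lit 630) (nat_lit 285)) (XT.lf (nat_lit 0) (nat_lit 2847082644) (nat_lit 1900) (nat_lit 7730002389) (nat_lit 1900) (nat_lit 7730002389) (nat_lit 471) (nat_lit 3) (nat_lit 496) (nat_lit 3) (nat_lit 496) (nat_lit 5) (nat_lit 631) (nat_lit 631) (nat_lit 298))) (XT.nd (nat_lit 78) (nat_lit 0) (nat_lit 76) (XT.lf (nat_lit 76) (nat_lit 2735714556) (nat_lit 0) (nat_lit 3082317128) (nat_lit 1900) (nat_lit 31160943435) (nat_lit 472) (nat_lit 5) (nat_lit 471) (nat_lit 3) (nat_lit 496) (nat_lit 5) (nat_lit 632) (nat_lit 631) (nat_lit 297)) (XT.lf (nat_lit 0) (nat_lit 6147186118) (nat_lit 1824) (nat_lit 15945136021) (nat_lit 1900) (nat_lit 15254693121) (nat_lit 472) (nat_lit 5) (nat_lit 496) (nat_lit 5) (nat_lit 497) (nat_lit 5) (nat_lit 633) (nat_lit 631) (nat_lit 296)))) (XT.nd (nat_lit 156) (nat_lit 0) (nat_lit 76) (XT.nd (nat_lit 78) (nat_lit 0) (nat_lit 76) (XT.lf (nat_lit 76) (nat_lit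 2733708568) (nat_lit 0) (nat_lit 3786112300) (nat_lit 1900) (nat_lit 31201857469) (nat_lit 473) (nat_lit 5) (nat_lit 472) (nat_lit 5) (nat_lit 497) (nat_lit 5) (nat_lit 634) (nat_lit 631) (nat_lit 295)) (XT.lf (nat_lit 0) (nat_lit 7103027951) (nat_lit 1824) (nat_lit 16197490906) (nat_lit 1900) (nat_lit 14799253500) (nat_lit 473) (nat_lit 5) (nat_lit 497) (nat_lit 5) (nat_lit 498) (nat_lit 5) (nat_lit 635) (nat_lit 631) (nat_lit 294))) (XT.nd (nat_lit 78) (nat_lit 0) (nat_lit 76) (XT.lf (nat_lit 76) (nat_lit 2982142171) (nat_lit 0) (nat_lit 4758976510) (nat_lit 1900) (nat_lit 30743445261) (nat_lit 474) (nat_lit 5) (nat_lit 473) (nat_lit 5) (nat_lit 498) (nat_lit 5) (nat_lit 636) (nat_lit 631) (nat_lit 293)) (XT.lf (nat_lit 0) (nat_lit 8592084523) (nat_lit 1824) (nat_lit 16203277237) (nat_lit 1900) (nat_lit 14077687404) (nat_lit 474) (nat_lit 5) (nat_lit 498) (nat_lit 5) (nat_lit 499) (nat_lit 5) (nat_lit 637) (nat_lit 631) (nat_lit 292))))))))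
noncomputable def xc127 : XT := (XT.nd (nat_lit 162708) (nat_lit 0) (nat_lit 0) (XT.nd (nat_lit 81276) (nat_lit 0) (nat_lit 0) (XT.nd (nat_lit 546) (nat_lit 228) (nat_lit 0) (XT.nd (nat_lit 234) (nat_lit 0) (nat_lit 152) (XT.nd (nat_lit 78) (nat_lit 0) (nat_lit 76) (XT.lf (nat_lit 76) (nat_lit 3495475766) (nat_lit 0) (nat_lit 6017635208) (nat_lit 1900) (nat_lit 29755132361) (nat_lit 475) (nat_lit 5) (nat_lit 474) (nat_lit 5) (nat_lit 499) (nat_lit 5) (nat_lit 638) (nat_lit 631) (nat_lit 291)) (XT.nd (nat_lit 78) (nat_lit 0) (nat_lit 0) (XT.lf (nat_lit 0) (nat_lit 10646147193) (nat_lit 1824) (nat_lit 15948051881) (nat_lit 1900) (nat_lit 13073270601) (nat_lit 475) (nat_lit 5) (nat_lit 499) (nat_lit 5) (nat_lit 500) (nat_lit 5) (nat_lit 639) (nat_lit 631) (nat_lit 290)) (XT.lf (nat_lit 76) (nat_lit 4288846153) (nat_lit 0) (nat_lit 7579569740) (nat_lit 1900) (nat_lit 28204933281) (nat_lit 476) (nat_lit 5) (nat_lit 475) (nat_lit 5) (nat_lit 500) (nat_lit 5) (nat_lit 640) (nat_lit 631) (nat_lit 289)))) (XT.nd (nat_lit 156) (nat_lit 0) (nat_lit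 76) (XT.nd (nat_lit 78) (nat_lit 0) (nat_lit 0) (XT.lf (nat_lit 0) (nat_lit 13298465601) (nat_lit 1824) (nat_lit 15416694791) (nat_lit 1900) (nat_lit 11768519226) (nat_lit 476) (nat_lit 5) (nat_lit 500) (nat_lit 5) (nat_lit 501) (nat_lit 5) (nat_lit 641) (nat_lit 631) (nat_lit 288)) (XT.lf (nat_lit 76) (nat_lit 5378093473) (nat_lit 0) (nat_lit 9463052459) (nat_lit 1900) (nat_lit 26059390212) (nat_lit 477) (nat_lit 5) (nat_lit 476) (nat_lit 5) (nat_lit 501) (nat_lit 5) (nat_lit 642) (nat_lit 631) (nat_lit 287))) (XT.nd (nat_lit 78) (nat_lit 0) (nat_lit 0) (XT.lf (nat_lit 0) (nat_lit 16583810749) (nat_lit 1824) (nat_lit 14593381980) (nat_lit 1900) (nat_lit 10145154518) (nat_lit 477) (nat_lit 5) (nat_lit 501) (nat_lit 5) (nat_lit 502) (nat_lit 5) (nat_lit 643) (nat_lit 631) (nat_lit 286)) (XT.lf (nat_lit 76) (nat_lit 6779789248) (nat_lit 0) (nat_lit 11687183238) (nat_lit 1900) (nat_lit 23283509275) (nat_lit 478) (nat_lit 5) (nat_lit 477) (nat_lit 5) (nat_lit 502) (nat_lit 5) (nat_lit 644) (nat_lit 631) (nat_lit 285))))) (XT.nd (nat_lit 80418)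 (nat_lit 0) (nat_lit 76) (XT.nd (nat_lit 80262) (nat_lit 0) (nat_lit 0) (XT.nd (nat_lit 80184) (nat_lit 532) (nat_lit 0) (XT.lf (nat_lit 0) (nat_lit 20538540628) (nat_lit 1824) (nat_lit 13461557398) (nat_lit 1900) (nat_lit 8184066139) (nat_lit 478) (nat_lit 5) (nat_lit 502) (nat_lit 5) (nat_lit 503) (nat_lit 5) (nat_lit 645) (nat_lit 631) (nat_lit 284)) (XT.lf (nat_lit 0) (nat_lit 2952867769) (nat_lit 1900) (nat_lit 7859690785) (nat_lit 1900) (nat_lit 7859690785) (nat_lit 471) (nat_lit 3) (nat_lit 496) (nat_lit 3) (nat_lit 496) (nat_lit 5) (nat_lit 632) (nat_lit 632) (nat_lit 296))) (XT.nd (nat_lit 78) (nat_lit 0) (nat_lit 76) (XT.lf (nat_lit 76) (nat_lit 2839924366) (nat_lit 0) (nat_lit 3190560823) (nat_lit 1900) (nat_lit 31686141766) (nat_lit 472) (nat_lit 5) (nat_lit 471) (nat_lit 3) (nat_lit 496) (nat_lit 5) (nat_lit 633) (nat_lit 632) (nat_lit 295)) (XT.lf (nat_lit 0) (nat_lit 6364041929) (nat_lit 1824) (nat_lit 16213327246) (nat_lit 1900) (nat_lit 15514702453) (nat_lit 472) (nat_lit 5) (nat_lit 496) (nat_lit 5) (nat_lit 497) (nat_lit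 5) (nat_lit 634) (nat_lit 632) (nat_lit 294)))) (XT.nd (nat_lit 156) (nat_lit 0) (nat_lit 76) (XT.nd (nat_lit 78) (nat_lit 0) (nat_lit 76) (XT.lf (nat_lit 76) (nat_lit 2838760607) (nat_lit 0) (nat_lit 3903854441) (nat_lit 1900) (nat_lit 31731643318) (nat_lit 473) (nat_lit 5) (nat_lit 472) (nat_lit 5) (nat_lit 497) (nat_lit 5) (nat_lit 635) (nat_lit 632) (nat_lit 293)) (XT.lf (nat_lit 0) (nat_lit 7335407080) (nat_lit 1824) (nat_lit 16469965992) (nat_lit 1900) (nat_lit 15054582887) (nat_lit 473) (nat_lit 5) (nat_lit 497) (nat_lit 5) (nat_lit 498) (nat_lit 5) (nat_lit 636) (nat_lit 632) (nat_lit 292))) (XT.nd (nat_lit 78) (nat_lit 0) (nat_lit 76) (XT.lf (nat_lit 76) (nat_lit 3092921097) (nat_lit 0) (nat_lit 4891899584) (nat_lit 1900) (nat_lit 31267651580) (nat_lit 474) (nat_lit 5) (nat_lit 473) (nat_lit 5) (nat_lit 498) (nat_lit 5) (nat_lit 637) (nat_lit 632) (nat_lit 291)) (XT.lf (nat_lit 0) (nat_lit 8850822851) (nat_lit 1824) (nat_lit 16475221118) (nat_lit 1900) (nat_lit 14322722984) (nat_lit 474) (nat_lit 5) (nat_lit 498) (nat_lit 5) (nat_lit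 499) (nat_lit 5) (nat_lit 638) (nat_lit 632) (nat_lit 290)))))) (XT.nd (nat_lit 80808) (nat_lit 0) (nat_lit 0) (XT.nd (nat_lit 234) (nat_lit 228) (nat_lit 0) (XT.nd (nat_lit 78) (nat_lit 0) (nat_lit 76) (XT.lf (nat_lit 76) (nat_lit 3617164040) (nat_lit 0) (nat_lit 6171738118) (nat_lit 1900) (nat_lit 30262990307) (nat_lit 475) (nat_lit 5) (nat_lit 474) (nat_lit 5) (nat_lit 499) (nat_lit 5) (nat_lit 639) (nat_lit 632) (nat_lit 289)) (XT.nd (nat_lit 78) (nat_lit 0) (nat_lit 0) (XT.lf (nat_lit 0) (nat_lit 10942707231) (nat_lit 1824) (nat_lit 16214352503) (nat_lit 1900) (nat_lit 13302081536) (nat_lit 475) (nat_lit 5) (nat_lit 499) (nat_lit 5) (nat_lit 500) (nat_lit 5) (nat_lit 640) (nat_lit 632) (nat_lit 288)) (XT.lf (nat_lit 76) (nat_lit 4426937041) (nat_lit 0) (nat_lit 7761183978) (nat_lit 1900) (nat_lit 28685043446) (nat_lit 476) (nat_lit 5) (nat_lit 475) (nat_lit 5) (nat_lit 500) (nat_lit 5) (nat_lit 641) (nat_lit 632) (nat_lit 287)))) (XT.nd (nat_lit 156) (nat_lit 380) (nat_lit 0) (XT.nd (nat_lit 78) (nat_lit 0) (nat_lit 0) (XT.lf (nat_lit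 0) (nat_lit 13644966168) (nat_lit 1824) (nat_lit 15671930072) (nat_lit 1900) (nat_lit 11974841486) (nat_lit 476) (nat_lit 5) (nat_lit 500) (nat_lit 5) (nat_lit 501) (nat_lit 5) (nat_lit 642) (nat_lit 632) (nat_lit 286)) (XT.lf (nat_lit 76) (nat_lit 5538404624) (nat_lit 0) (nat_lit 9678858921) (nat_lit 1900) (nat_lit 26499692664) (nat_lit 477) (nat_lit 5) (nat_lit 476) (nat_lit 5) (nat_lit 501) (nat_lit 5) (nat_lit 643) (nat_lit 632) (nat_lit 285))) (XT.nd (nat_lit 80340) (nat_lit 456) (nat_lit 0) (XT.lf (nat_lit 0) (nat_lit 16993057889) (nat_lit 1824) (nat_lit 14831806197) (nat_lit 1900) (nat_lit 10322374016) (nat_lit 477) (nat_lit 5) (nat_lit 501) (nat_lit 5) (nat_lit 502) (nat_lit 5) (nat_lit 644) (nat_lit 632) (nat_lit 284)) (XT.lf (nat_lit 0) (nat_lit 3058871945) (nat_lit 1900) (nat_lit 7992940298) (nat_lit 1900) (nat_lit 7992940298) (nat_lit 471) (nat_lit 3) (nat_lit 496) (nat_lit 3) (nat_lit 496) (nat_lit 5) (nat_lit 633) (nat_lit 633) (nat_lit 294))))) (XT.nd (nat_lit 312) (nat_lit 0) (nat_lit 152) (XT.nd (nat_lit 156) (nat_lit 0)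 (nat_lit 76) (XT.nd (nat_lit 78) (nat_lit 0) (nat_lit 76) (XT.lf (nat_lit 76) (nat_lit 2944296401) (nat_lit 0) (nat_lit 3299159961) (nat_lit 1900) (nat_lit 32225650320) (nat_lit 472) (nat_lit 5) (nat_lit 471) (nat_lit 3) (nat_lit 496) (nat_lit 5) (nat_lit 634) (nat_lit 633) (nat_lit 293)) (XT.lf (nat_lit 0) (nat_lit 6581588136) (nat_lit 1824) (nat_lit 16488851484) (nat_lit 1900) (nat_lit 15781662660) (nat_lit 472) (nat_lit 5) (nat_lit 496) (nat_lit 5) (nat_lit 497) (nat_lit 5) (nat_lit 635) (nat_lit 633) (nat_lit 292))) (XT.nd (nat_lit 78) (nat_lit 0) (nat_lit 76) (XT.lf (nat_lit 76) (nat_lit 2943957452) (nat_lit 0) (nat_lit 4022319741) (nat_lit 1900) (nat_lit 32275684777) (nat_lit 473) (nat_lit 5) (nat_lit 472) (nat_lit 5) (nat_lit 497) (nat_lit 5) (nat_lit 636) (nat_lit 633) (nat_lit 291)) (XT.lf (nat_lit 0) (nat_lit 7568926611) (nat_lit 1824) (nat_lit 16749889406) (nat_lit 1900) (nat_lit 15316597572) (nat_lit 473) (nat_lit 5) (nat_lit 497) (nat_lit 5) (nat_lit 498) (nat_lit 5) (nat_lit 637) (nat_lit 633) (nat_lit 290)))) (XT.nd (nat_lit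 156) (nat_lit 0) (nat_lit 76) (XT.nd (nat_lit 78) (nat_lit 0) (nat_lit 76) (XT.lf (nat_lit 76) (nat_lit 3203929924) (nat_lit 0) (nat_lit 5026015493) (nat_lit 1900) (nat_lit 31805862565) (nat_lit 474) (nat_lit 5) (nat_lit 473) (nat_lit 5) (nat_lit 498) (nat_lit 5) (nat_lit 638) (nat_lit 633) (nat_lit 289)) (XT.lf (nat_lit 0) (nat_lit 9111361644) (nat_lit 1824) (nat_lit 16754627824) (nat_lit 1900) (nat_lit 14574077321) (nat_lit 474) (nat_lit 5) (nat_lit 498) (nat_lit 5) (nat_lit 499) (nat_lit 5) (nat_lit 639) (nat_lit 633) (nat_lit 288))) (XT.nd (nat_lit 78) (nat_lit 0) (nat_lit 76) (XT.lf (nat_lit 76) (nat_lit 3739275446) (nat_lit 0) (nat_lit 6327612526) (nat_lit 1900) (nat_lit 30784393230) (nat_lit 475) (nat_lit 5) (nat_lit 474) (nat_lit 5) (nat_lit 499) (nat_lit 5) (nat_lit 640) (nat_lit 633) (nat_lit 287)) (XT.lf (nat_lit 0) (nat_lit 11241950739) (nat_lit 1824) (nat_lit 16488024006) (nat_lit 1900) (nat_lit 13536736703) (nat_lit 475) (nat_lit 5) (nat_lit 499) (nat_lit 5) (nat_lit 500) (nat_lit 5) (nat_lit 641) (nat_lit 633) (nat_lit 286)))))))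 (XT.nd (nat_lit 162162) (nat_lit 0) (nat_lit 0) (XT.nd (nat_lit 80964) (nat_lit 0) (nat_lit 0) (XT.nd (nat_lit 80652) (nat_lit 0) (nat_lit 0) (XT.nd (nat_lit 78) (nat_lit 304) (nat_lit 0) (XT.lf (nat_lit 76) (nat_lit 4565758332) (nat_lit 0) (nat_lit 7945264676) (nat_lit 1900) (nat_lit 29178017189) (nat_lit 476) (nat_lit 5) (nat_lit 475) (nat_lit 5) (nat_lit 500) (nat_lit 5) (nat_lit 642) (nat_lit 633) (nat_lit 285)) (XT.nd (nat_lit 80496) (nat_lit 380) (nat_lit 0) (XT.lf (nat_lit 0) (nat_lit 13995269619) (nat_lit 1824) (nat_lit 15934331943) (nat_lit 1900) (nat_lit 12186418165) (nat_lit 476) (nat_lit 5) (nat_lit 500) (nat_lit 5) (nat_lit 501) (nat_lit 5) (nat_lit 643) (nat_lit 633) (nat_lit 284)) (XT.lf (nat_lit 0) (nat_lit 3165173203) (nat_lit 1900) (nat_lit 8129784589) (nat_lit 1900) (nat_lit 8129784589) (nat_lit 471) (nat_lit 3) (nat_lit 496) (nat_lit 3) (nat_lit 496) (nat_lit 5) (nat_lit 634) (nat_lit 634) (nat_lit 292)))) (XT.nd (nat_lit 156) (nat_lit 0) (nat_lit 76) (XT.nd (nat_lit 78) (nat_lit 0) (nat_lit 76) (XT.lf (nat_lit 76) (nat_lit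 3048908538) (nat_lit 0) (nat_lit 3408191911) (nat_lit 1900) (nat_lit 32779607501) (nat_lit 472) (nat_lit 5) (nat_lit 471) (nat_lit 3) (nat_lit 496) (nat_lit 5) (nat_lit 635) (nat_lit 634) (nat_lit 291)) (XT.lf (nat_lit 0) (nat_lit 6799980153) (nat_lit 1824) (nat_lit 16771778931) (nat_lit 1900) (nat_lit 16055644777) (nat_lit 472) (nat_lit 5) (nat_lit 496) (nat_lit 5) (nat_lit 497) (nat_lit 5) (nat_lit 636) (nat_lit 634) (nat_lit 290))) (XT.nd (nat_lit 78) (nat_lit 0) (nat_lit 76) (XT.lf (nat_lit 76) (nat_lit 3049377964) (nat_lit 0) (nat_lit 4141586023) (nat_lit 1900) (nat_lit 32834124839) (nat_lit 473) (nat_lit 5) (nat_lit 472) (nat_lit 5) (nat_lit 497) (nat_lit 5) (nat_lit 637) (nat_lit 634) (nat_lit 289)) (XT.lf (nat_lit 0) (nat_lit 7803745541) (nat_lit 1824) (nat_lit 17037332499) (nat_lit 1900) (nat_lit 15585369957) (nat_lit 473) (nat_lit 5) (nat_lit 497) (nat_lit 5) (nat_lit 498) (nat_lit 5) (nat_lit 638) (nat_lit 634) (nat_lit 288))))) (XT.nd (nat_lit 80886) (nat_lit 152) (nat_lit 0) (XT.nd (nat_lit 156) (nat_lit 0) (nat_lit 76) (XT.nd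 (nat_lit 78) (nat_lit 0) (nat_lit 76) (XT.lf (nat_lit 76) (nat_lit 3315250359) (nat_lit 0) (nat_lit 5161405004) (nat_lit 1900) (nat_lit 32358221602) (nat_lit 474) (nat_lit 5) (nat_lit 473) (nat_lit 5) (nat_lit 498) (nat_lit 5) (nat_lit 639) (nat_lit 634) (nat_lit 287)) (XT.lf (nat_lit 0) (nat_lit 9373867939) (nat_lit 1824) (nat_lit 17041568020) (nat_lit 1900) (nat_lit 14831821725) (nat_lit 474) (nat_lit 5) (nat_lit 498) (nat_lit 5) (nat_lit 499) (nat_lit 5) (nat_lit 640) (nat_lit 634) (nat_lit 286))) (XT.nd (nat_lit 78) (nat_lit 0) (nat_lit 76) (XT.lf (nat_lit 76) (nat_lit 3861896524) (nat_lit 0) (nat_lit 6485344750) (nat_lit 1900) (nat_lit 31319480476) (nat_lit 475) (nat_lit 5) (nat_lit 474) (nat_lit 5) (nat_lit 499) (nat_lit 5) (nat_lit 641) (nat_lit 634) (nat_lit 285)) (XT.lf (nat_lit 0) (nat_lit 11544057501) (nat_lit 1824) (nat_lit 16769134402) (nat_lit 1900) (nat_lit 13777303748) (nat_lit 475) (nat_lit 5) (nat_lit 499) (nat_lit 5) (nat_lit 500) (nat_lit 5) (nat_lit 642) (nat_lit 634) (nat_lit 284)))) (XT.nd (nat_lit 156) (nat_lit 0)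 (nat_lit 76) (XT.nd (nat_lit 78) (nat_lit 0) (nat_lit 0) (XT.lf (nat_lit 0) (nat_lit 3271848272) (nat_lit 1900) (nat_lit 8270259446) (nat_lit 1900) (nat_lit 8270259446) (nat_lit 471) (nat_lit 3) (nat_lit 496) (nat_lit 3) (nat_lit 496) (nat_lit 5) (nat_lit 635) (nat_lit 635) (nat_lit 290)) (XT.lf (nat_lit 76) (nat_lit 3153837313) (nat_lit 0) (nat_lit 3517732866) (nat_lit 1900) (nat_lit 33348160219) (nat_lit 472) (nat_lit 5) (nat_lit 471) (nat_lit 3) (nat_lit 496) (nat_lit 5) (nat_lit 636) (nat_lit 635) (nat_lit 289))) (XT.nd (nat_lit 78) (nat_lit 0) (nat_lit 0) (XT.lf (nat_lit 0) (nat_lit 7019371004) (nat_lit 1824) (nat_lit 17062184152) (nat_lit 1900) (nat_lit 16336723900) (nat_lit 472) (nat_lit 5) (nat_lit 496) (nat_lit 5) (nat_lit 497) (nat_lit 5) (nat_lit 637) (nat_lit 635) (nat_lit 288)) (XT.lf (nat_lit 76) (nat_lit 3155099628) (nat_lit 0) (nat_lit 4261730208) (nat_lit 1900) (nat_lit 33407114879) (nat_lit 473) (nat_lit 5) (nat_lit 472) (nat_lit 5) (nat_lit 497) (nat_lit 5) (nat_lit 638) (nat_lit 635) (nat_lit 287)))))) (XT.nd (nat_lit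 81198) (nat_lit 0) (nat_lit 0) (XT.nd (nat_lit 234) (nat_lit 152) (nat_lit 0) (XT.nd (nat_lit 78) (nat_lit 0) (nat_lit 0) (XT.lf (nat_lit 0) (nat_lit 8040020757) (nat_lit 1824) (nat_lit 17332371060) (nat_lit 1900) (nat_lit 15860976273) (nat_lit 473) (nat_lit 5) (nat_lit 497) (nat_lit 5) (nat_lit 498) (nat_lit 5) (nat_lit 639) (nat_lit 635) (nat_lit 286)) (XT.nd (nat_lit 78) (nat_lit 0) (nat_lit 76) (XT.lf (nat_lit 76) (nat_lit 3426962744) (nat_lit 0) (nat_lit 5298148291) (nat_lit 1900) (nat_lit 32924880253) (nat_lit 474) (nat_lit 5) (nat_lit 473) (nat_lit 5) (nat_lit 498) (nat_lit 5) (nat_lit 640) (nat_lit 635) (nat_lit 285)) (XT.lf (nat_lit 0) (nat_lit 9638507025) (nat_lit 1824) (nat_lit 17336116835) (nat_lit 1900) (nat_lit 15096031071) (nat_lit 474) (nat_lit 5) (nat_lit 498) (nat_lit 5) (nat_lit 499) (nat_lit 5) (nat_lit 641) (nat_lit 635) (nat_lit 284)))) (XT.nd (nat_lit 80808) (nat_lit 0) (nat_lit 0) (XT.nd (nat_lit 80730) (nat_lit 228) (nat_lit 0) (XT.lf (nat_lit 76) (nat_lit 3985112510) (nat_lit 0) (nat_lit 6645020862) (nat_lit 1900)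 (nat_lit 31868399288) (nat_lit 475) (nat_lit 5) (nat_lit 474) (nat_lit 5) (nat_lit 499) (nat_lit 5) (nat_lit 642) (nat_lit 635) (nat_lit 283)) (XT.lf (nat_lit 0) (nat_lit 3378972671) (nat_lit 1900) (nat_lit 8414402780) (nat_lit 1900) (nat_lit 8414402780) (nat_lit 471) (nat_lit 3) (nat_lit 496) (nat_lit 3) (nat_lit 496) (nat_lit 5) (nat_lit 636) (nat_lit 636) (nat_lit 288))) (XT.nd (nat_lit 78) (nat_lit 0) (nat_lit 76) (XT.lf (nat_lit 76) (nat_lit 3259158008) (nat_lit 0) (nat_lit 3627857915) (nat_lit 1900) (nat_lit 33931463838) (nat_lit 472) (nat_lit 5) (nat_lit 471) (nat_lit 3) (nat_lit 496) (nat_lit 5) (nat_lit 637) (nat_lit 636) (nat_lit 287)) (XT.lf (nat_lit 0) (nat_lit 7239911488) (nat_lit 1824) (nat_lit 17360146062) (nat_lit 1900) (nat_lit 16624979166) (nat_lit 472) (nat_lit 5) (nat_lit 496) (nat_lit 5) (nat_lit 497) (nat_lit 5) (nat_lit 638) (nat_lit 636) (nat_lit 286))))) (XT.nd (nat_lit 81120) (nat_lit 0) (nat_lit 0) (XT.nd (nat_lit 156) (nat_lit 76) (nat_lit 0) (XT.nd (nat_lit 78) (nat_lit 0) (nat_lit 76) (XT.lf (nat_lit 76) (nat_lit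 3261198645) (nat_lit 0) (nat_lit 4382828387) (nat_lit 1900) (nat_lit 33994814599) (nat_lit 473) (nat_lit 5) (nat_lit 472) (nat_lit 5) (nat_lit 497) (nat_lit 5) (nat_lit 639) (nat_lit 636) (nat_lit 285)) (XT.lf (nat_lit 0) (nat_lit 8277907202) (nat_lit 1824) (nat_lit 17635085293) (nat_lit 1900) (nat_lit 16143496565) (nat_lit 473) (nat_lit 5) (nat_lit 497) (nat_lit 5) (nat_lit 498) (nat_lit 5) (nat_lit 640) (nat_lit 636) (nat_lit 284))) (XT.nd (nat_lit 80886) (nat_lit 152) (nat_lit 0) (XT.lf (nat_lit 76) (nat_lit 3539146152) (nat_lit 0) (nat_lit 5436325009) (nat_lit 1900) (nat_lit 33505998214) (nat_lit 474) (nat_lit 5) (nat_lit 473) (nat_lit 5) (nat_lit 498) (nat_lit 5) (nat_lit 641) (nat_lit 636) (nat_lit 283)) (XT.lf (nat_lit 0) (nat_lit 3486620784) (nat_lit 1900) (nat_lit 8562254605) (nat_lit 1900) (nat_lit 8562254605) (nat_lit 471) (nat_lit 3) (nat_lit 496) (nat_lit 3) (nat_lit 496) (nat_lit 5) (nat_lit 637) (nat_lit 637) (nat_lit 286)))) (XT.nd (nat_lit 156) (nat_lit 0) (nat_lit 0) (XT.nd (nat_lit 78) (nat_lit 0) (nat_lit 76) (XT.lf (nat_lit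 76) (nat_lit 3364944733) (nat_lit 0) (nat_lit 3738641133) (nat_lit 1900) (nat_lit 34529682134) (nat_lit 472) (nat_lit 5) (nat_lit 471) (nat_lit 3) (nat_lit 496) (nat_lit 5) (nat_lit 638) (nat_lit 637) (nat_lit 285)) (XT.lf (nat_lit 0) (nat_lit 7461750341) (nat_lit 1824) (nat_lit 17665747894) (nat_lit 1900) (nat_lit 16920493732) (nat_lit 472) (nat_lit 5) (nat_lit 496) (nat_lit 5) (nat_lit 497) (nat_lit 5) (nat_lit 639) (nat_lit 637) (nat_lit 284))) (XT.nd (nat_lit 81120) (nat_lit 76) (nat_lit 0) (XT.lf (nat_lit 76) (nat_lit 3367750016) (nat_lit 0) (nat_lit 4504955904) (nat_lit 1900) (nat_lit 34597391997) (nat_lit 473) (nat_lit 5) (nat_lit 472) (nat_lit 5) (nat_lit 497) (nat_lit 5) (nat_lit 640) (nat_lit 637) (nat_lit 283)) (XT.lf (nat_lit 76) (nat_lit 3471270507) (nat_lit 0) (nat_lit 3850155650) (nat_lit 1900) (nat_lit 35142987251) (nat_lit 472) (nat_lit 5) (nat_lit 471) (nat_lit 3) (nat_lit 496) (nat_lit 5) (nat_lit 639) (nat_lit 638) (nat_lit 283))))))))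

set_option maxRecDepth 10000000 in
noncomputable def Tp : PT := (PT.nd (nat_lit 21617310) (PT.nd (nat_lit 19915584) (PT.nd (nat_lit 18615012) (PT.nd (nat_lit 17560296) (PT.nd (nat_lit 16830372) (PT.nd (nat_lit 16424304) pc0 pc1) (PT.nd (nat_lit 325104) pc2 pc3)) (PT.nd (nat_lit 568074) (PT.nd (nat_lit 244296) pc4 pc5) (PT.nd (nat_lit 243438) pc6 pc7))) (PT.nd (nat_lit 731172) (PT.nd (nat_lit 405756) (PT.nd (nat_lit 163254) pc8 pc9) (PT.nd (nat_lit 162708) pc10 pc11)) (PT.nd (nat_lit 324558) (PT.nd (nat_lit 162396) pc12 pc13) (PT.nd (nat_lit 161772) pc14 pc15)))) (PT.nd (nat_lit 972348) (PT.nd (nat_lit 565578) (PT.nd (nat_lit 322374) (PT.nd (nat_lit 161304) pc16 pc17) (PT.nd (nat_lit 82602) pc18 pc19)) (PT.nd (nat_lit 164736) (PT.nd (nat_lit 82368) pc20 pc21) (PT.nd (nat_lit 159900) pc22 pc23))) (PT.nd (nat_lit 404274) (PT.nd (nat_lit 163878) (PT.nd (nat_lit 81978) pc24 pc25) (PT.nd (nat_lit 81666) pc26 pc27)) (PT.nd (nat_lit 162786) (PT.nd (nat_lit 81432) pc28 pc29) (PT.nd (nat_lit 81198) pc30 pc31))))) (PT.nd (nat_lit 1055652) (PT.nd (nat_lit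 568620) (PT.nd (nat_lit 247026) (PT.nd (nat_lit 161850) (PT.nd (nat_lit 80964) pc32 pc33) (PT.nd (nat_lit 80652) pc34 pc35)) (PT.nd (nat_lit 161070) (PT.nd (nat_lit 80574) pc36 pc37) (PT.nd (nat_lit 80262) pc38 pc39))) (PT.nd (nat_lit 244218) (PT.nd (nat_lit 84552) (PT.nd (nat_lit 80028) pc40 pc41) (PT.nd (nat_lit 79872) pc42 pc43)) (PT.nd (nat_lit 84084) (PT.nd (nat_lit 79560) pc44 pc45) (PT.nd (nat_lit 79404) pc46 pc47)))) (PT.nd (nat_lit 407628) (PT.nd (nat_lit 241410) (PT.nd (nat_lit 83616) (PT.nd (nat_lit 79092) pc48 pc49) (PT.nd (nat_lit 78936) pc50 pc51)) (PT.nd (nat_lit 83148) (PT.nd (nat_lit 4446) pc52 pc53) (PT.nd (nat_lit 78546) pc54 pc55))) (PT.nd (nat_lit 321282) (PT.nd (nat_lit 158730) (PT.nd (nat_lit 78468) pc56 pc57) (PT.nd (nat_lit 80964) pc58 pc59)) (PT.nd (nat_lit 242346) (PT.nd (nat_lit 86268) pc60 pc61) (PT.nd (nat_lit 88374) pc62 pc63))))))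

set_option maxRecDepth 10000000 in
noncomputable def Tx : XT := (XT.nd (nat_lit 38616708) (nat_lit 0) (nat_lit 9424) XT.nil (XT.nd (nat_lit 13237536) (nat_lit 0) (nat_lit 0) (XT.nd (nat_lit 5682690) (nat_lit 0) (nat_lit 4332) (XT.nd (nat_lit 3565926) (nat_lit 0) (nat_lit 5320) (XT.nd (nat_lit 2435004) (nat_lit 0) (nat_lit 2052) (XT.nd (nat_lit 1703676) (nat_lit 0) (nat_lit 912) (XT.nd (nat_lit 1215552) (nat_lit 0) (nat_lit 608) (XT.nd (nat_lit 811122) (nat_lit 0) (nat_lit 0) (XT.nd (nat_lit 567528) (nat_lit 0) (nat_lit 0) xc0 xc1) (XT.nd (nat_lit 163176) (nat_lit 0) (nat_lit 304) xc2 xc3)) (XT.nd (nat_lit 244764) (nat_lit 0) (nat_lit 0) (XT.nd (nat_lit 83304) (nat_lit 0) (nat_lit 0) xc4 xc5) (XT.nd (nat_lit 160836) (nat_lit 0) (nat_lit 304) xc6 xc7))) (XT.nd (nat_lit 405600) (nat_lit 0) (nat_lit 760) (XT.nd (nat_lit 241878) (nat_lit 0) (nat_lit 456) (XT.nd (nat_lit 82290) (nat_lit 0) (nat_lit 0) xc8 xc9) (XT.nd (nat_lit 81900) (nat_lit 0) (nat_lit 304) xc10 xc11)) (XT.nd (nat_lit 163176) (nat_lit 0) (nat_lit 380) (XT.nd (nat_lit 81666)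 (nat_lit 0) (nat_lit 0) xc12 xc13) (XT.nd (nat_lit 81354) (nat_lit 0) (nat_lit 0) xc14 xc15)))) (XT.nd (nat_lit 568932) (nat_lit 0) (nat_lit 1520) (XT.nd (nat_lit 323232) (nat_lit 0) (nat_lit 760) (XT.nd (nat_lit 161850) (nat_lit 0) (nat_lit 380) (XT.nd (nat_lit 80964) (nat_lit 0) (nat_lit 304) xc16 xc17) (XT.nd (nat_lit 80730) (nat_lit 0) (nat_lit 380) xc18 xc19)) (XT.nd (nat_lit 160836) (nat_lit 0) (nat_lit 380) (XT.nd (nat_lit 80496) (nat_lit 0) (nat_lit 380) xc20 xc21) (XT.nd (nat_lit 80184) (nat_lit 0) (nat_lit 1216) xc22 xc23))) (XT.nd (nat_lit 319332) (nat_lit 0) (nat_lit 836) (XT.nd (nat_lit 159900) (nat_lit 0) (nat_lit 456) (XT.nd (nat_lit 79950) (nat_lit 0) (nat_lit 456) xc24 xc25) (XT.nd (nat_lit 79794) (nat_lit 0) (nat_lit 0) xc26 xc27)) (XT.nd (nat_lit 84162) (nat_lit 0) (nat_lit 0) (XT.nd (nat_lit 4680) (nat_lit 3876) (nat_lit 0) xc28 xc29) (XT.nd (nat_lit 79326) (nat_lit 0) (nat_lit 380) xc30 xc31))))) (XT.nd (nat_lit 898560) (nat_lit 0) (nat_lit 2888) (XT.nd (nat_lit 410280) (nat_lit 0) (nat_lit 1368) (XT.nd (nat_lit 167544)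 (nat_lit 0) (nat_lit 0) (XT.nd (nat_lit 83694) (nat_lit 0) (nat_lit 0) (XT.nd (nat_lit 4602) (nat_lit 8968) (nat_lit 0) xc32 xc33) (XT.nd (nat_lit 79170) (nat_lit 0) (nat_lit 6308) xc34 xc35)) (XT.nd (nat_lit 158574) (nat_lit 0) (nat_lit 912) (XT.nd (nat_lit 79248) (nat_lit 0) (nat_lit 380) xc36 xc37) (XT.nd (nat_lit 4680) (nat_lit 1444) (nat_lit 0) xc38 xc39))) (XT.nd (nat_lit 243594) (nat_lit 0) (nat_lit 456) (XT.nd (nat_lit 159198) (nat_lit 0) (nat_lit 0) (XT.nd (nat_lit 79560) (nat_lit 0) (nat_lit 0) xc40 xc41) (XT.nd (nat_lit 4680) (nat_lit 3116) (nat_lit 0) xc42 xc43)) (XT.nd (nat_lit 159900) (nat_lit 0) (nat_lit 1064) (XT.nd (nat_lit 79872) (nat_lit 0) (nat_lit 532) xc44 xc45) (XT.nd (nat_lit 80106) (nat_lit 0) (nat_lit 4028) xc46 xc47)))) (XT.nd (nat_lit 567996) (nat_lit 0) (nat_lit 2660) (XT.nd (nat_lit 321204) (nat_lit 0) (nat_lit 1596) (XT.nd (nat_lit 160290) (nat_lit 0) (nat_lit 988) (XT.nd (nat_lit 80028) (nat_lit 0) (nat_lit 456) xc48 xc49) (XT.nd (nat_lit 80418) (nat_lit 0) (nat_lit 0) xc50 xc51)) (XT.nd (nat_lit 85254) (nat_lit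 0) (nat_lit 532) (XT.nd (nat_lit 80574) (nat_lit 0) (nat_lit 1748) xc52 xc53) (XT.nd (nat_lit 80730) (nat_lit 0) (nat_lit 0) xc54 xc55))) (XT.nd (nat_lit 324246) (nat_lit 0) (nat_lit 1900) (XT.nd (nat_lit 161928) (nat_lit 0) (nat_lit 684) (XT.nd (nat_lit 80886) (nat_lit 0) (nat_lit 684) xc56 xc57) (XT.nd (nat_lit 81120) (nat_lit 0) (nat_lit 608) xc58 xc59)) (XT.nd (nat_lit 162786) (nat_lit 0) (nat_lit 608) (XT.nd (nat_lit 81354) (nat_lit 0) (nat_lit 0) xc60 xc61) (XT.nd (nat_lit 81510) (nat_lit 0) (nat_lit 760) xc62 xc63)))))) (XT.nd (nat_lit 3493230) (nat_lit 0) (nat_lit 3800) (XT.nd (nat_lit 1946880) (nat_lit 0) (nat_lit 0) (XT.nd (nat_lit 891150) (nat_lit 10412) (nat_lit 0) (XT.nd (nat_lit 405054) (nat_lit 0) (nat_lit 2204) (XT.nd (nat_lit 240786) (nat_lit 0) (nat_lit 1368) (XT.nd (nat_lit 158808) (nat_lit 0) (nat_lit 684) xc64 xc65) (XT.nd (nat_lit 82056) (nat_lit 0) (nat_lit 760) xc66 xc67)) (XT.nd (nat_lit 242580) (nat_lit 0) (nat_lit 1444) (XT.nd (nat_lit 160056) (nat_lit 0) (nat_lit 1444) xc68 xc69) (XT.nd (nat_lit 82602) (nat_lit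 0) (nat_lit 760) xc70 xc71))) (XT.nd (nat_lit 569088) (nat_lit 380) (nat_lit 0) (XT.nd (nat_lit 244530) (nat_lit 16112) (nat_lit 0) (XT.nd (nat_lit 82914) (nat_lit 0) (nat_lit 76) xc72 xc73) (XT.nd (nat_lit 162162) (nat_lit 17860) (nat_lit 0) xc74 xc75)) (XT.nd (nat_lit 244140) (nat_lit 0) (nat_lit 0) (XT.nd (nat_lit 161460) (nat_lit 0) (nat_lit 0) xc76 xc77) (XT.nd (nat_lit 85410) (nat_lit 0) (nat_lit 0) xc78 xc79)))) (XT.nd (nat_lit 815412) (nat_lit 0) (nat_lit 1748) (XT.nd (nat_lit 406536) (nat_lit 0) (nat_lit 836) (XT.nd (nat_lit 167154) (nat_lit 0) (nat_lit 380) (XT.nd (nat_lit 85020) (nat_lit 0) (nat_lit 0) xc80 xc81) (XT.nd (nat_lit 82212) (nat_lit 0) (nat_lit 0) xc82 xc83)) (XT.nd (nat_lit 166842) (nat_lit 0) (nat_lit 456) (XT.nd (nat_lit 84708) (nat_lit 0) (nat_lit 0) xc84 xc85) (XT.nd (nat_lit 82290) (nat_lit 0) (nat_lit 0) xc86 xc87))) (XT.nd (nat_lit 405054) (nat_lit 0) (nat_lit 988) (XT.nd (nat_lit 164190) (nat_lit 0) (nat_lit 456) (XT.nd (nat_lit 82134) (nat_lit 0) (nat_lit 0) xc88 xc89) (XT.nd (nat_lit 81978) (nat_lit 0) (nat_lit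 0) xc90 xc91)) (XT.nd (nat_lit 163098) (nat_lit 0) (nat_lit 456) (XT.nd (nat_lit 81588) (nat_lit 0) (nat_lit 456) xc92 xc93) (XT.nd (nat_lit 81432) (nat_lit 0) (nat_lit 532) xc94 xc95))))) (XT.nd (nat_lit 1301352) (nat_lit 0) (nat_lit 5852) (XT.nd (nat_lit 648960) (nat_lit 0) (nat_lit 2660) (XT.nd (nat_lit 324558) (nat_lit 0) (nat_lit 1520) (XT.nd (nat_lit 162396) (nat_lit 0) (nat_lit 988) (XT.nd (nat_lit 81198) (nat_lit 0) (nat_lit 456) xc96 xc97) (XT.nd (nat_lit 81120) (nat_lit 0) (nat_lit 0) xc98 xc99)) (XT.nd (nat_lit 162084) (nat_lit 0) (nat_lit 608) (XT.nd (nat_lit 81042) (nat_lit 0) (nat_lit 76) xc100 xc101) (XT.nd (nat_lit 81120) (nat_lit 0) (nat_lit 532) xc102 xc103))) (XT.nd (nat_lit 325494) (nat_lit 0) (nat_lit 1292) (XT.nd (nat_lit 162552) (nat_lit 0) (nat_lit 608) (XT.nd (nat_lit 81198) (nat_lit 0) (nat_lit 608) xc104 xc105) (XT.nd (nat_lit 81432) (nat_lit 0) (nat_lit 684) xc106 xc107)) (XT.nd (nat_lit 163254) (nat_lit 0) (nat_lit 1216) (XT.nd (nat_lit 81588) (nat_lit 0) (nat_lit 608) xc108 xc109) (XT.nd (nat_lit 81744) (nat_lit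 0) (nat_lit 684) xc110 xc111)))) (XT.nd (nat_lit 892554) (nat_lit 0) (nat_lit 5928) (XT.nd (nat_lit 405912) (nat_lit 0) (nat_lit 2812) (XT.nd (nat_lit 241410) (nat_lit 0) (nat_lit 1368) (XT.nd (nat_lit 159276) (nat_lit 0) (nat_lit 684) xc112 xc113) (XT.nd (nat_lit 82212) (nat_lit 0) (nat_lit 684) xc114 xc115)) (XT.nd (nat_lit 242892) (nat_lit 0) (nat_lit 760) (XT.nd (nat_lit 160290) (nat_lit 0) (nat_lit 760) xc116 xc117) (XT.nd (nat_lit 160836) (nat_lit 0) (nat_lit 1520) xc118 xc119))) (XT.nd (nat_lit 569244) (nat_lit 0) (nat_lit 4408) (XT.nd (nat_lit 323310) (nat_lit 0) (nat_lit 2584) (XT.nd (nat_lit 161460) (nat_lit 0) (nat_lit 836) xc120 xc121) (XT.nd (nat_lit 83460) (nat_lit 0) (nat_lit 0) xc122 xc123)) (XT.nd (nat_lit 485550) (nat_lit 0) (nat_lit 2052) (XT.nd (nat_lit 242268) (nat_lit 0) (nat_lit 988) xc124 xc125) (XT.nd (nat_lit 244374) (nat_lit 0) (nat_lit 0) xc126 xc127))))))) XT.nil))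

set_option maxRecDepth 10000000 in
noncomputable def Te : XT := XT.nil

set_option maxRecDepth 10000000 in
noncomputable def Tz : ZL := (ZL.cons (nat_lit 76) (nat_lit 3) (nat_lit 233147309957715163858) (ZL.cons (nat_lit 152) (nat_lit 6) (nat_lit 461750747416354761034) (ZL.cons (nat_lit 9424) (nat_lit 6) (nat_lit 155527958090125018742) (ZL.cons (nat_lit 9728) (nat_lit 6) (nat_lit 154297779232455399912) (ZL.cons (nat_lit 9804) (nat_lit 3) (nat_lit 77134706051924105264) (ZL.cons (nat_lit 10032) (nat_lit 6) (nat_lit 153099174836638783360) (ZL.cons (nat_lit 10108) (nat_lit 6) (nat_lit 153042996797632388702) (ZL.cons (nat_lit 10336) (nat_lit 6) (nat_lit 151931674861735633164) (ZL.cons (nat_lit 10412) (nat_lit 6) (nat_lit 151848231224298645096) (ZL.cons (nat_lit 10488) (nat_lit 3) (nat_lit 75910210156949719911) (ZL.cons (nat_lit 10792) (nat_lit 6) (nat_lit 150684646848328025304) (ZL.cons (nat_lit 10868) (nat_lit 6) (nat_lit 150629570339498226620) (ZL.cons (nat_lit 11096) (nat_lit 6) (nat_lit 149551787362122109472) (ZL.cons (nat_lit 11172) (nat_lit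 6) (nat_lit 149469979874438787840) (ZL.cons (nat_lit 11248) (nat_lit 3) (nat_lit 74721357138004097215) (ZL.cons (nat_lit 11476) (nat_lit 6) (nat_lit 148449208507058856068) (ZL.cons (nat_lit 11552) (nat_lit 6) (nat_lit 148341194177362276642) (ZL.cons (nat_lit 11628) (nat_lit 6) (nat_lit 148287197600078160284) (ZL.cons (nat_lit 11856) (nat_lit 6) (nat_lit 147242770587211015962) (ZL.cons (nat_lit 11932) (nat_lit 6) (nat_lit 147162567167913641810) (ZL.cons (nat_lit 12008) (nat_lit 3) (nat_lit 73567918094530059431) (ZL.cons (nat_lit 12236) (nat_lit 6) (nat_lit 146174278349635926874) (ZL.cons (nat_lit 12312) (nat_lit 6) (nat_lit 146068381947972613710) (ZL.cons (nat_lit 12388) (nat_lit 6) (nat_lit 146015444127105832968) (ZL.cons (nat_lit 12616) (nat_lit 6) (nat_lit 145135298448073254442) (ZL.cons (nat_lit 12692) (nat_lit 6) (nat_lit 145004212848011961852) (ZL.cons (nat_lit 12768) (nat_lit 6) (nat_lit 144925582044779242098) (ZL.cons (nat_lit 12844) (nat_lit 3) (nat_lit 72449687601382992152) (ZL.cons (nat_lit 13072) (nat_lit 6) (nat_lit 143969642546816015396)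 (ZL.cons (nat_lit 13148) (nat_lit 6) (nat_lit 143865822545185316216) (ZL.cons (nat_lit 13224) (nat_lit 6) (nat_lit 143813922720806119410) (ZL.cons (nat_lit 13376) (nat_lit 6) (nat_lit 143144257294274047028) (ZL.cons (nat_lit 13452) (nat_lit 6) (nat_lit 142964265330541168088) (ZL.cons (nat_lit 13528) (nat_lit 6) (nat_lit 142835750036363430258) (ZL.cons (nat_lit 13604) (nat_lit 6) (nat_lit 142758661013586254026) (ZL.cons (nat_lit 13680) (nat_lit 3) (nat_lit 71366484015610157507) (ZL.cons (nat_lit 13756) (nat_lit 6) (nat_lit 142191415241585041764) (ZL.cons (nat_lit 13832) (nat_lit 6) (nat_lit 141987686933612410182) (ZL.cons (nat_lit 13908) (nat_lit 6) (nat_lit 141834960568310124652) (ZL.cons (nat_lit 13984) (nat_lit 6) (nat_lit 141733176252985909770) (ZL.cons (nat_lit 14060) (nat_lit 6) (nat_lit 141682294072221991332) (ZL.cons (nat_lit 14136) (nat_lit 6) (nat_lit 141266523617807256734) (ZL.cons (nat_lit 14212) (nat_lit 6) (nat_lit 141039524384109377460) (ZL.cons (nat_lit 14288) (nat_lit 6) (nat_lit 140863061674567339288) (ZL.cons (nat_lit 14364)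 (nat_lit 6) (nat_lit 140737066288118576706) (ZL.cons (nat_lit 14440) (nat_lit 6) (nat_lit 140661488814807619618) (ZL.cons (nat_lit 14516) (nat_lit 3) (nat_lit 70318149808204820096) (ZL.cons (nat_lit 14592) (nat_lit 6) (nat_lit 140369219720343132018) (ZL.cons (nat_lit 14668) (nat_lit 6) (nat_lit 140119405853581284420) (ZL.cons (nat_lit 14744) (nat_lit 6) (nat_lit 139919672218313998556) (ZL.cons (nat_lit 14820) (nat_lit 6) (nat_lit 139769940487625483332) (ZL.cons (nat_lit 14896) (nat_lit 6) (nat_lit 139670151943189978544) (ZL.cons (nat_lit 14972) (nat_lit 6) (nat_lit 139620267452244960468) (ZL.cons (nat_lit 15048) (nat_lit 6) (nat_lit 139226970511231845532) (ZL.cons (nat_lit 15124) (nat_lit 6) (nat_lit 139004422242900591344) (ZL.cons (nat_lit 15200) (nat_lit 6) (nat_lit 138831419586486828428) (ZL.cons (nat_lit 15276) (nat_lit 6) (nat_lit 138707894697811570998) (ZL.cons (nat_lit 15352) (nat_lit 6) (nat_lit 138633799135742005222) (ZL.cons (nat_lit 15428) (nat_lit 3) (nat_lit 69304551921597483286) (ZL.cons (nat_lit 15504) (nat_lit 6) (nat_lit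 138361868382417002196) (ZL.cons (nat_lit 15580) (nat_lit 6) (nat_lit 138116952826768132004) (ZL.cons (nat_lit 15656) (nat_lit 6) (nat_lit 137921135537290400764) (ZL.cons (nat_lit 15732) (nat_lit 6) (nat_lit 137774339722889895642) (ZL.cons (nat_lit 15808) (nat_lit 6) (nat_lit 137676507816580577224) (ZL.cons (nat_lit 15884) (nat_lit 6) (nat_lit 137627601452908990874) (ZL.cons (nat_lit 15960) (nat_lit 6) (nat_lit 137523760211399964278) (ZL.cons (nat_lit 16036) (nat_lit 6) (nat_lit 137256915942694607806) (ZL.cons (nat_lit 16112) (nat_lit 6) (nat_lit 137038731365899260562) (ZL.cons (nat_lit 16188) (nat_lit 6) (nat_lit 136869120918434787116) (ZL.cons (nat_lit 16264) (nat_lit 6) (nat_lit 136748018086400221006) (ZL.cons (nat_lit 16340) (nat_lit 6) (nat_lit 136675375378488882014) (ZL.cons (nat_lit 16416) (nat_lit 3) (nat_lit 68325582153682167157) (ZL.cons (nat_lit 16492) (nat_lit 6) (nat_lit 136423974321313715408) (ZL.cons (nat_lit 16568) (nat_lit 6) (nat_lit 136183861031461881884) (ZL.cons (nat_lit 16644) (nat_lit 6) (nat_lit 135991883296679792434)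 (ZL.cons (nat_lit 16720) (nat_lit 6) (nat_lit 135847965831581258000) (ZL.cons (nat_lit 16796) (nat_lit 6) (nat_lit 135752052197944671316) (ZL.cons (nat_lit 16872) (nat_lit 6) (nat_lit 135704104782580370974) (ZL.cons (nat_lit 16948) (nat_lit 6) (nat_lit 135617801318852364262) (ZL.cons (nat_lit 17024) (nat_lit 6) (nat_lit 135356189290709857916) (ZL.cons (nat_lit 17100) (nat_lit 6) (nat_lit 135142282842871282186) (ZL.cons (nat_lit 17176) (nat_lit 6) (nat_lit 134975998090455131748) (ZL.cons (nat_lit 17252) (nat_lit 6) (nat_lit 134857269823754576740) (ZL.cons (nat_lit 17328) (nat_lit 6) (nat_lit 134786051482665028706) (ZL.cons (nat_lit 17404) (nat_lit 3) (nat_lit 67381157569212638032) (ZL.cons (nat_lit 17480) (nat_lit 6) (nat_lit 134838080789035079328) (ZL.cons (nat_lit 17556) (nat_lit 6) (nat_lit 134555391566489952570) (ZL.cons (nat_lit 17632) (nat_lit 6) (nat_lit 134319986380360704018) (ZL.cons (nat_lit 17708) (nat_lit 6) (nat_lit 134131772914888067300) (ZL.cons (nat_lit 17784) (nat_lit 6) (nat_lit 133990677360869896288) (ZL.cons (nat_lit 17860)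 (nat_lit 6) (nat_lit 133896644386716379930) (ZL.cons (nat_lit 17936) (nat_lit 6) (nat_lit 133849637116751379596) (ZL.cons (nat_lit 18012) (nat_lit 6) (nat_lit 133781153820478942352) (ZL.cons (nat_lit 18088) (nat_lit 6) (nat_lit 133524671439947073388) (ZL.cons (nat_lit 18164) (nat_lit 6) (nat_lit 133314959236183763848) (ZL.cons (nat_lit 18240) (nat_lit 6) (nat_lit 133151934969109106556) (ZL.cons (nat_lit 18316) (nat_lit 6) (nat_lit 133035534707637974194) (ZL.cons (nat_lit 18392) (nat_lit 6) (nat_lit 132965712804609005536) (ZL.cons (nat_lit 18468) (nat_lit 3) (nat_lit 66471220939441878922) (ZL.cons (nat_lit 18544) (nat_lit 6) (nat_lit 133033172430031332750) (ZL.cons (nat_lit 18620) (nat_lit 6) (nat_lit 132756026133418463378) (ZL.cons (nat_lit 18696) (nat_lit 6) (nat_lit 132525236735252533426) (ZL.cons (nat_lit 18772) (nat_lit 6) (nat_lit 132340713729887203312) (ZL.cons (nat_lit 18848) (nat_lit 6) (nat_lit 132202384755359584670) (ZL.cons (nat_lit 18924) (nat_lit 6) (nat_lit 132110195565013000008) (ZL.cons (nat_lit 19000) (nat_lit 6) (nat_lit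 132064110006223783992) (ZL.cons (nat_lit 19076) (nat_lit 6) (nat_lit 132311154069111654112) (ZL.cons (nat_lit 19152) (nat_lit 6) (nat_lit 132013749031242901990) (ZL.cons (nat_lit 19228) (nat_lit 6) (nat_lit 131762295716995971630) (ZL.cons (nat_lit 19304) (nat_lit 6) (nat_lit 131556695517228021104) (ZL.cons (nat_lit 19380) (nat_lit 6) (nat_lit 131396867804409729640) (ZL.cons (nat_lit 19456) (nat_lit 6) (nat_lit 131282749901006658698) (ZL.cons (nat_lit 19532) (nat_lit 6) (nat_lit 131214297054899826678) (ZL.cons (nat_lit 19608) (nat_lit 3) (nat_lit 65595741210917929177) (ZL.cons (nat_lit 19684) (nat_lit 6) (nat_lit 131297549044360712532) (ZL.cons (nat_lit 19760) (nat_lit 6) (nat_lit 131025836988857899422) (ZL.cons (nat_lit 19836) (nat_lit 6) (nat_lit 130799572873008948488) (ZL.cons (nat_lit 19912) (nat_lit 6) (nat_lit 130618667965788036612) (ZL.cons (nat_lit 19988) (nat_lit 6) (nat_lit 130483051324094292848) (ZL.cons (nat_lit 20064) (nat_lit 6) (nat_lit 130392669764930974548) (ZL.cons (nat_lit 20140) (nat_lit 6) (nat_lit 130347487844549390220)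 (ZL.cons (nat_lit 20216) (nat_lit 6) (nat_lit 130607145310031941202) (ZL.cons (nat_lit 20292) (nat_lit 6) (nat_lit 130315571743493948924) (ZL.cons (nat_lit 20368) (nat_lit 6) (nat_lit 130069048886389115240) (ZL.cons (nat_lit 20444) (nat_lit 6) (nat_lit 129867480063087202956) (ZL.cons (nat_lit 20520) (nat_lit 6) (nat_lit 129710786226990838780) (ZL.cons (nat_lit 20596) (nat_lit 6) (nat_lit 129598905929536847658) (ZL.cons (nat_lit 20672) (nat_lit 6) (nat_lit 129531795296098777050) (ZL.cons (nat_lit 20748) (nat_lit 3) (nat_lit 64754714004390580523) (ZL.cons (nat_lit 20824) (nat_lit 6) (nat_lit 129942267081694106128) (ZL.cons (nat_lit 20900) (nat_lit 6) (nat_lit 129631221445513781334) (ZL.cons (nat_lit 20976) (nat_lit 6) (nat_lit 129364837077373768482) (ZL.cons (nat_lit 21052) (nat_lit 6) (nat_lit 129143009512815973448) (ZL.cons (nat_lit 21128) (nat_lit 6) (nat_lit 128965651760638608864) (ZL.cons (nat_lit 21204) (nat_lit 6) (nat_lit 128832694268781997330) (ZL.cons (nat_lit 21280) (nat_lit 6) (nat_lit 128744084897053253900) (ZL.cons (nat_lit 21356)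 (nat_lit 6) (nat_lit 128699788896679151616) (ZL.cons (nat_lit 21508) (nat_lit 6) (nat_lit 128972517722251522078) (ZL.cons (nat_lit 21584) (nat_lit 6) (nat_lit 128686661284469176710) (ZL.cons (nat_lit 21660) (nat_lit 6) (nat_lit 128444972208876202508) (ZL.cons (nat_lit 21736) (nat_lit 6) (nat_lit 128247355715442955174) (ZL.cons (nat_lit 21812) (nat_lit 6) (nat_lit 128093734307505343232) (ZL.cons (nat_lit 21888) (nat_lit 6) (nat_lit 127984047741373979390) (ZL.cons (nat_lit 21964) (nat_lit 6) (nat_lit 127918253002709204284) (ZL.cons (nat_lit 22040) (nat_lit 3) (nat_lit 63948162144826359002) (ZL.cons (nat_lit 22116) (nat_lit 6) (nat_lit 128339202258521578110) (ZL.cons (nat_lit 22192) (nat_lit 6) (nat_lit 128034255556384004784) (ZL.cons (nat_lit 22268) (nat_lit 6) (nat_lit 127773094411148698066) (ZL.cons (nat_lit 22344) (nat_lit 6) (nat_lit 127555616406680271564) (ZL.cons (nat_lit 22420) (nat_lit 6) (nat_lit 127381736257486776872) (ZL.cons (nat_lit 22496) (nat_lit 6) (nat_lit 127251385775274412622) (ZL.cons (nat_lit 22572) (nat_lit 6) (nat_lit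 127164513842207017104) (ZL.cons (nat_lit 22648) (nat_lit 6) (nat_lit 127121086390859858002) (ZL.cons (nat_lit 22724) (nat_lit 6) (nat_lit 127731026695318565142) (ZL.cons (nat_lit 22800) (nat_lit 6) (nat_lit 127407364047734689896) (ZL.cons (nat_lit 22876) (nat_lit 6) (nat_lit 127127112638144155220) (ZL.cons (nat_lit 22952) (nat_lit 6) (nat_lit 126890162564033396202) (ZL.cons (nat_lit 23028) (nat_lit 6) (nat_lit 126696420903804722342) (ZL.cons (nat_lit 23104) (nat_lit 6) (nat_lit 126545811680336475342) (ZL.cons (nat_lit 23180) (nat_lit 6) (nat_lit 126438275831188079416) (ZL.cons (nat_lit 23256) (nat_lit 6) (nat_lit 126373771185438299902) (ZL.cons (nat_lit 23332) (nat_lit 3) (nat_lit 63176136223573813540) (ZL.cons (nat_lit 23408) (nat_lit 6) (nat_lit 127147752532421619246) (ZL.cons (nat_lit 23484) (nat_lit 6) (nat_lit 126805740918713918588) (ZL.cons (nat_lit 23560) (nat_lit 6) (nat_lit 126506773563677081992) (ZL.cons (nat_lit 23636) (nat_lit 6) (nat_lit 126250733225211095016) (ZL.cons (nat_lit 23712) (nat_lit 6) (nat_lit 126037519495340088640)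 (ZL.cons (nat_lit 23788) (nat_lit 6) (nat_lit 125867048760836662472) (ZL.cons (nat_lit 23864) (nat_lit 6) (nat_lit 125739254170432383796) (ZL.cons (nat_lit 23940) (nat_lit 6) (nat_lit 125654085608601603874) (ZL.cons (nat_lit 24016) (nat_lit 6) (nat_lit 125611509675908310640) (ZL.cons (nat_lit 24092) (nat_lit 6) (nat_lit 126229150238682859186) (ZL.cons (nat_lit 24168) (nat_lit 6) (nat_lit 125911833917522197178) (ZL.cons (nat_lit 24244) (nat_lit 6) (nat_lit 125637077633609908282) (ZL.cons (nat_lit 24320) (nat_lit 6) (nat_lit 125404773639383673948) (ZL.cons (nat_lit 24396) (nat_lit 6) (nat_lit 125214830835237915264) (ZL.cons (nat_lit 24472) (nat_lit 6) (nat_lit 125067174733798457420) (ZL.cons (nat_lit 24548) (nat_lit 6) (nat_lit 124961747430711794748) (ZL.cons (nat_lit 24624) (nat_lit 6) (nat_lit 124898507581937501106) (ZL.cons (nat_lit 24700) (nat_lit 3) (nat_lit 62438715193767440347) (ZL.cons (nat_lit 24776) (nat_lit 6) (nat_lit 125677365893649342644) (ZL.cons (nat_lit 24852) (nat_lit 6) (nat_lit 125342060390014341998) (ZL.cons (nat_lit 24928)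 (nat_lit 6) (nat_lit 125048955139978227690) (ZL.cons (nat_lit 25004) (nat_lit 6) (nat_lit 124797935200305691436) (ZL.cons (nat_lit 25080) (nat_lit 6) (nat_lit 124588902131804704794) (ZL.cons (nat_lit 25156) (nat_lit 6) (nat_lit 124421773960722914434) (ZL.cons (nat_lit 25232) (nat_lit 6) (nat_lit 124296485146601072594) (ZL.cons (nat_lit 25308) (nat_lit 6) (nat_lit 124212986556570896202) (ZL.cons (nat_lit 25384) (nat_lit 6) (nat_lit 124171245446087275382) (ZL.cons (nat_lit 25460) (nat_lit 6) (nat_lit 125150171497595708762) (ZL.cons (nat_lit 25536) (nat_lit 6) (nat_lit 124797229540554493764) (ZL.cons (nat_lit 25612) (nat_lit 6) (nat_lit 124486135108044040818) (ZL.cons (nat_lit 25688) (nat_lit 6) (nat_lit 124216766202247679152) (ZL.cons (nat_lit 25764) (nat_lit 6) (nat_lit 123989017188300390590) (ZL.cons (nat_lit 25840) (nat_lit 6) (nat_lit 123802798752863372272) (ZL.cons (nat_lit 25916) (nat_lit 6) (nat_lit 123658037869099197916) (ZL.cons (nat_lit 25992) (nat_lit 6) (nat_lit 123554677768033842356) (ZL.cons (nat_lit 26068) (nat_lit 6) (nat_lit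 123492677916294338786) (ZL.cons (nat_lit 26144) (nat_lit 3) (nat_lit 61736007000106669189) (ZL.cons (nat_lit 26220) (nat_lit 6) (nat_lit 124647360307621544350) (ZL.cons (nat_lit 26296) (nat_lit 6) (nat_lit 124277127709986001556) (ZL.cons (nat_lit 26372) (nat_lit 6) (nat_lit 123948396824069334258) (ZL.cons (nat_lit 26448) (nat_lit 6) (nat_lit 123661038735798633954) (ZL.cons (nat_lit 26524) (nat_lit 6) (nat_lit 123414940755727519980) (ZL.cons (nat_lit 26600) (nat_lit 6) (nat_lit 123210006374844199742) (ZL.cons (nat_lit 26676) (nat_lit 6) (nat_lit 123046155226724797428) (ZL.cons (nat_lit 26752) (nat_lit 6) (nat_lit 122923323056017109352) (ZL.cons (nat_lit 26828) (nat_lit 6) (nat_lit 122841461693242426614) (ZL.cons (nat_lit 26904) (nat_lit 6) (nat_lit 122800539035905543456) (ZL.cons (nat_lit 26980) (nat_lit 6) (nat_lit 123781550936806681652) (ZL.cons (nat_lit 27056) (nat_lit 6) (nat_lit 123435529410295686558) (ZL.cons (nat_lit 27132) (nat_lit 6) (nat_lit 123130534868618771902) (ZL.cons (nat_lit 27208) (nat_lit 6) (nat_lit 122866447706073319290)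 (ZL.cons (nat_lit 27284) (nat_lit 6) (nat_lit 122643164359066173640) (ZL.cons (nat_lit 27360) (nat_lit 6) (nat_lit 122460597265500469406) (ZL.cons (nat_lit 27436) (nat_lit 6) (nat_lit 122318674830437553372) (ZL.cons (nat_lit 27512) (nat_lit 6) (nat_lit 122217341398020538118) (ZL.cons (nat_lit 27588) (nat_lit 6) (nat_lit 122156557229648475792) (ZL.cons (nat_lit 27664) (nat_lit 3) (nat_lit 61068149244196296521) (ZL.cons (nat_lit 27740) (nat_lit 6) (nat_lit 123310304877183914710) (ZL.cons (nat_lit 27816) (nat_lit 6) (nat_lit 122947331742247108052) (ZL.cons (nat_lit 27892) (nat_lit 6) (nat_lit 122625046559975865600) (ZL.cons (nat_lit 27968) (nat_lit 6) (nat_lit 122343322944024198636) (ZL.cons (nat_lit 28044) (nat_lit 6) (nat_lit 122102050414542714348) (ZL.cons (nat_lit 28120) (nat_lit 6) (nat_lit 121901134354853184702) (ZL.cons (nat_lit 28196) (nat_lit 6) (nat_lit 121740495974343966748) (ZL.cons (nat_lit 28272) (nat_lit 6) (nat_lit 121620072277571723536) (ZL.cons (nat_lit 28348) (nat_lit 6) (nat_lit 121539816039557328694) (ZL.cons (nat_lit 28424)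 (nat_lit 6) (nat_lit 121499695787266266776) (ZL.cons (nat_lit 28500) (nat_lit 6) (nat_lit 122863204728741378074) (ZL.cons (nat_lit 28576) (nat_lit 6) (nat_lit 122483612369857697334) (ZL.cons (nat_lit 28652) (nat_lit 6) (nat_lit 122144375579160643318) (ZL.cons (nat_lit 28728) (nat_lit 6) (nat_lit 121845361322614648558) (ZL.cons (nat_lit 28804) (nat_lit 6) (nat_lit 121586452339726949918) (ZL.cons (nat_lit 28880) (nat_lit 6) (nat_lit 121367547097563081634) (ZL.cons (nat_lit 28956) (nat_lit 6) (nat_lit 121188559750930038268) (ZL.cons (nat_lit 29032) (nat_lit 6) (nat_lit 121049420108711493136) (ZL.cons (nat_lit 29108) (nat_lit 6) (nat_lit 120950073606341870336) (ZL.cons (nat_lit 29184) (nat_lit 6) (nat_lit 120890481284408475902) (ZL.cons (nat_lit 29260) (nat_lit 3) (nat_lit 60435309886686648367) (ZL.cons (nat_lit 29336) (nat_lit 6) (nat_lit 122440075158087525654) (ZL.cons (nat_lit 29412) (nat_lit 6) (nat_lit 122044189442393184048) (ZL.cons (nat_lit 29488) (nat_lit 6) (nat_lit 121688333427749255950) (ZL.cons (nat_lit 29564) (nat_lit 6) (nat_lit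 121372367562777449626) (ZL.cons (nat_lit 29640) (nat_lit 6) (nat_lit 121096167939295423190) (ZL.cons (nat_lit 29716) (nat_lit 6) (nat_lit 120859626243725340554) (ZL.cons (nat_lit 29792) (nat_lit 6) (nat_lit 120662649714617958550) (ZL.cons (nat_lit 29868) (nat_lit 6) (nat_lit 120505161106275588006) (ZL.cons (nat_lit 29944) (nat_lit 6) (nat_lit 120387098658459663286) (ZL.cons (nat_lit 30020) (nat_lit 6) (nat_lit 120308416072171040894) (ZL.cons (nat_lit 30096) (nat_lit 6) (nat_lit 120269082491493529210) (ZL.cons (nat_lit 30172) (nat_lit 6) (nat_lit 122040750232057395156) (ZL.cons (nat_lit 30248) (nat_lit 6) (nat_lit 121628890637136915446) (ZL.cons (nat_lit 30324) (nat_lit 6) (nat_lit 121256741265682326482) (ZL.cons (nat_lit 30400) (nat_lit 6) (nat_lit 120924156176763646076) (ZL.cons (nat_lit 30476) (nat_lit 6) (nat_lit 120631004944855808076) (ZL.cons (nat_lit 30552) (nat_lit 6) (nat_lit 120377172608691397644) (ZL.cons (nat_lit 30628) (nat_lit 6) (nat_lit 120162559626177801288) (ZL.cons (nat_lit 30704) (nat_lit 6) (nat_lit 119987081835361092106)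 (ZL.cons (nat_lit 30780) (nat_lit 6) (nat_lit 119850670421421341974) (ZL.cons (nat_lit 30856) (nat_lit 6) (nat_lit 119753271889686417662) (ZL.cons (nat_lit 30932) (nat_lit 6) (nat_lit 119694848044653678020) (ZL.cons (nat_lit 31008) (nat_lit 3) (nat_lit 59837687987505672752) (ZL.cons (nat_lit 31084) (nat_lit 6) (nat_lit 121237553091812320442) (ZL.cons (nat_lit 31160) (nat_lit 6) (nat_lit 120849429841131593374) (ZL.cons (nat_lit 31236) (nat_lit 6) (nat_lit 120500551395402252102) (ZL.cons (nat_lit 31312) (nat_lit 6) (nat_lit 120190780939547540020) (ZL.cons (nat_lit 31388) (nat_lit 6) (nat_lit 119919996994957318024) (ZL.cons (nat_lit 31464) (nat_lit 6) (nat_lit 119688093371849393872) (ZL.cons (nat_lit 31540) (nat_lit 6) (nat_lit 119494979127626470338) (ZL.cons (nat_lit 31616) (nat_lit 6) (nat_lit 119340578531212381568) (ZL.cons (nat_lit 31692) (nat_lit 6) (nat_lit 119224831033353631844) (ZL.cons (nat_lit 31768) (nat_lit 6) (nat_lit 119147691242874590282) (ZL.cons (nat_lit 31844) (nat_lit 6) (nat_lit 119109128908877029808) (ZL.cons (nat_lit 31920)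 (nat_lit 6) (nat_lit 120870023340715350172) (ZL.cons (nat_lit 31996) (nat_lit 6) (nat_lit 120466239424126644572) (ZL.cons (nat_lit 32072) (nat_lit 6) (nat_lit 120101387099171165196) (ZL.cons (nat_lit 32148) (nat_lit 6) (nat_lit 119775323286505792248) (ZL.cons (nat_lit 32224) (nat_lit 6) (nat_lit 119487920117968696170) (ZL.cons (nat_lit 32300) (nat_lit 6) (nat_lit 119239064886434960454) (ZL.cons (nat_lit 32376) (nat_lit 6) (nat_lit 119028660001617709124) (ZL.cons (nat_lit 32452) (nat_lit 6) (nat_lit 118856622951797406002) (ZL.cons (nat_lit 32528) (nat_lit 6) (nat_lit 118722886271464317640) (ZL.cons (nat_lit 32604) (nat_lit 6) (nat_lit 118627397514861450666) (ZL.cons (nat_lit 32680) (nat_lit 6) (nat_lit 118570119235417588272) (ZL.cons (nat_lit 32756) (nat_lit 3) (nat_lit 59275514485531180157) (ZL.cons (nat_lit 32832) (nat_lit 6) (nat_lit 120526157254531848964) (ZL.cons (nat_lit 32908) (nat_lit 6) (nat_lit 120107019743915713430) (ZL.cons (nat_lit 32984) (nat_lit 6) (nat_lit 119726506753052255522) (ZL.cons (nat_lit 33060) (nat_lit 6) (nat_lit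 119384469061160744470) (ZL.cons (nat_lit 33136) (nat_lit 6) (nat_lit 119080772535812987526) (ZL.cons (nat_lit 33212) (nat_lit 6) (nat_lit 118815298080332377728) (ZL.cons (nat_lit 33288) (nat_lit 6) (nat_lit 118587941587089314834) (ZL.cons (nat_lit 33364) (nat_lit 6) (nat_lit 118398613896674683916) (ZL.cons (nat_lit 33440) (nat_lit 6) (nat_lit 118247240762935381202) (ZL.cons (nat_lit 33516) (nat_lit 6) (nat_lit 118133762823858175590) (ZL.cons (nat_lit 33592) (nat_lit 6) (nat_lit 118058135578290487784) (ZL.cons (nat_lit 33668) (nat_lit 6) (nat_lit 118020329368488957906) (ZL.cons (nat_lit 33744) (nat_lit 6) (nat_lit 120205819983816254658) (ZL.cons (nat_lit 33820) (nat_lit 6) (nat_lit 119771629930035972130) (ZL.cons (nat_lit 33896) (nat_lit 6) (nat_lit 119375763345145084288) (ZL.cons (nat_lit 33972) (nat_lit 6) (nat_lit 119018064987345594704) (ZL.cons (nat_lit 34048) (nat_lit 6) (nat_lit 118698394582771699656) (ZL.cons (nat_lit 34124) (nat_lit 6) (nat_lit 118416626770480428992) (ZL.cons (nat_lit 34200) (nat_lit 6) (nat_lit 118172651053290492016)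 (ZL.cons (nat_lit 34276) (nat_lit 6) (nat_lit 117966371754450049534) (ZL.cons (nat_lit 34352) (nat_lit 6) (nat_lit 117797707980116419024) (ZL.cons (nat_lit 34428) (nat_lit 6) (nat_lit 117666593587632999060) (ZL.cons (nat_lit 34504) (nat_lit 6) (nat_lit 117572977159590972616) (ZL.cons (nat_lit 34580) (nat_lit 6) (nat_lit 117516821983665617326) (ZL.cons (nat_lit 34656) (nat_lit 3) (nat_lit 58749053019109657703) (ZL.cons (nat_lit 34732) (nat_lit 6) (nat_lit 119635238576675118692) (ZL.cons (nat_lit 34808) (nat_lit 6) (nat_lit 119908885906109463104) (ZL.cons (nat_lit 34884) (nat_lit 6) (nat_lit 119459938457070212934) (ZL.cons (nat_lit 34960) (nat_lit 6) (nat_lit 119049019329015178098) (ZL.cons (nat_lit 35036) (nat_lit 6) (nat_lit 118675967377188258580) (ZL.cons (nat_lit 35112) (nat_lit 6) (nat_lit 118340636306706385000) (ZL.cons (nat_lit 35188) (nat_lit 6) (nat_lit 118042894615188976232) (ZL.cons (nat_lit 35264) (nat_lit 6) (nat_lit 117782625541188378390) (ZL.cons (nat_lit 35340) (nat_lit 6) (nat_lit 117559727018401061826) (ZL.cons (nat_lit 35416)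 (nat_lit 6) (nat_lit 117374111635641619752) (ZL.cons (nat_lit 35492) (nat_lit 6) (nat_lit 117225706602563871992) (ZL.cons (nat_lit 35568) (nat_lit 6) (nat_lit 117114453721115631196) (ZL.cons (nat_lit 35644) (nat_lit 6) (nat_lit 117040309362715937268) (ZL.cons (nat_lit 35720) (nat_lit 6) (nat_lit 117003244451145809936) (ZL.cons (nat_lit 35796) (nat_lit 3) (nat_lit 58760693927333494616) (ZL.cons (nat_lit 35872) (nat_lit 6) (nat_lit 117532795801187633424) (ZL.cons (nat_lit 35948) (nat_lit 6) (nat_lit 117567024114454083896) (ZL.cons (nat_lit 36024) (nat_lit 6) (nat_lit 117624086217334288282) (ZL.cons (nat_lit 36100) (nat_lit 6) (nat_lit 117704004487123493718) (ZL.cons (nat_lit 36176) (nat_lit 6) (nat_lit 117806810264319656754) (ZL.cons (nat_lit 36252) (nat_lit 6) (nat_lit 117932543864913834708) (ZL.cons (nat_lit 36328) (nat_lit 6) (nat_lit 118081254596200378242) (ZL.cons (nat_lit 36404) (nat_lit 6) (nat_lit 118253000776113125214) (ZL.cons (nat_lit 36480) (nat_lit 6) (nat_lit 118447849756095178660) (ZL.cons (nat_lit 36556) (nat_lit 6) (nat_lit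 118665877947511237428) (ZL.cons (nat_lit 36632) (nat_lit 6) (nat_lit 118907170851612837224) (ZL.cons (nat_lit 36708) (nat_lit 6) (nat_lit 119171823093068253190) (ZL.cons (nat_lit 36784) (nat_lit 6) (nat_lit 118746146569754250712) (ZL.cons (nat_lit 36860) (nat_lit 6) (nat_lit 118358042074763184200) (ZL.cons (nat_lit 36936) (nat_lit 6) (nat_lit 118007357410253880686) (ZL.cons (nat_lit 37012) (nat_lit 6) (nat_lit 117693955052828493386) (ZL.cons (nat_lit 37088) (nat_lit 6) (nat_lit 117417712099601757440) (ZL.cons (nat_lit 37164) (nat_lit 6) (nat_lit 117178520220003780010) (ZL.cons (nat_lit 37240) (nat_lit 6) (nat_lit 116976285613297463854) (ZL.cons (nat_lit 37316) (nat_lit 6) (nat_lit 116810928971793904530) (ZL.cons (nat_lit 37392) (nat_lit 6) (nat_lit 116682385449751335938) (ZL.cons (nat_lit 37468) (nat_lit 6) (nat_lit 116590604637945427658) (ZL.cons (nat_lit 37544) (nat_lit 6) (nat_lit 116535550543900961688) (ZL.cons (nat_lit 37620) (nat_lit 3) (nat_lit 58258600788888568138) (ZL.cons (nat_lit 37696) (nat_lit 6) (nat_lit 116939646840957458466)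 (ZL.cons (nat_lit 37772) (nat_lit 6) (nat_lit 116962690892929159732) (ZL.cons (nat_lit 37848) (nat_lit 6) (nat_lit 117008788033755688422) (ZL.cons (nat_lit 37924) (nat_lit 6) (nat_lit 117077956340747172590) (ZL.cons (nat_lit 38000) (nat_lit 6) (nat_lit 117170222938729883404) (ZL.cons (nat_lit 38076) (nat_lit 6) (nat_lit 117285624010683421922) (ZL.cons (nat_lit 38152) (nat_lit 6) (nat_lit 117424204811930122872) (ZL.cons (nat_lit 38228) (nat_lit 6) (nat_lit 117586019687882239860) (ZL.cons (nat_lit 38304) (nat_lit 6) (nat_lit 117771132095353871754) (ZL.cons (nat_lit 38380) (nat_lit 6) (nat_lit 117979614627445987822) (ZL.cons (nat_lit 38456) (nat_lit 6) (nat_lit 118211549042014310464) (ZL.cons (nat_lit 38532) (nat_lit 6) (nat_lit 118467026293731219414) (ZL.cons (nat_lit 38608) (nat_lit 6) (nat_lit 118064164403481185260) (ZL.cons (nat_lit 38684) (nat_lit 6) (nat_lit 117698427195807734752) (ZL.cons (nat_lit 38760) (nat_lit 6) (nat_lit 117369671244354917518) (ZL.cons (nat_lit 38836) (nat_lit 6) (nat_lit 117077767625220203040) (ZL.cons (nat_lit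 38912) (nat_lit 6) (nat_lit 116822601866396087506) (ZL.cons (nat_lit 38988) (nat_lit 6) (nat_lit 116604073902879110484) (ZL.cons (nat_lit 39064) (nat_lit 6) (nat_lit 116422098037428677078) (ZL.cons (nat_lit 39140) (nat_lit 6) (nat_lit 116276602906960296922) (ZL.cons (nat_lit 39216) (nat_lit 6) (nat_lit 116167531454560060846) (ZL.cons (nat_lit 39292) (nat_lit 6) (nat_lit 116094840907109380524) (ZL.cons (nat_lit 39368) (nat_lit 6) (nat_lit 116058502758511216474) (ZL.cons (nat_lit 39444) (nat_lit 3) (nat_lit 58190360230155948012) (ZL.cons (nat_lit 39520) (nat_lit 6) (nat_lit 116392356565762953098) (ZL.cons (nat_lit 39596) (nat_lit 6) (nat_lit 116427269445294732582) (ZL.cons (nat_lit 39672) (nat_lit 6) (nat_lit 116485472790232541054) (ZL.cons (nat_lit 39748) (nat_lit 6) (nat_lit 116566989425417530600) (ZL.cons (nat_lit 39824) (nat_lit 6) (nat_lit 116671851318157616896) (ZL.cons (nat_lit 39900) (nat_lit 6) (nat_lit 116800099590763678410) (ZL.cons (nat_lit 39976) (nat_lit 6) (nat_lit 116951784536675952814) (ZL.cons (nat_lit 40052) (nat_lit 6)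 (nat_lit 117126965640186954724) (ZL.cons (nat_lit 40128) (nat_lit 6) (nat_lit 117325711599768649240) (ZL.cons (nat_lit 40204) (nat_lit 6) (nat_lit 117548100355013029182) (ZL.cons (nat_lit 40280) (nat_lit 6) (nat_lit 117794219117196660978) (ZL.cons (nat_lit 40356) (nat_lit 6) (nat_lit 117413724514264242828) (ZL.cons (nat_lit 40432) (nat_lit 6) (nat_lit 117069916019647278600) (ZL.cons (nat_lit 40508) (nat_lit 6) (nat_lit 116762658806485134188) (ZL.cons (nat_lit 40584) (nat_lit 6) (nat_lit 116491832381753040122) (ZL.cons (nat_lit 40660) (nat_lit 6) (nat_lit 116257330539009924996) (ZL.cons (nat_lit 40736) (nat_lit 6) (nat_lit 116059061316748830724) (ZL.cons (nat_lit 40812) (nat_lit 6) (nat_lit 115896946962333576486) (ZL.cons (nat_lit 40888) (nat_lit 6) (nat_lit 115770923901507528846) (ZL.cons (nat_lit 40964) (nat_lit 6) (nat_lit 115680942713462520728) (ZL.cons (nat_lit 41040) (nat_lit 6) (nat_lit 115626968111458142326) (ZL.cons (nat_lit 41116) (nat_lit 3) (nat_lit 57804489464491901844) (ZL.cons (nat_lit 41192) (nat_lit 6) (nat_lit 115855797472435006660)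 (ZL.cons (nat_lit 41268) (nat_lit 6) (nat_lit 115879302405446141952) (ZL.cons (nat_lit 41344) (nat_lit 6) (nat_lit 115926321489089201218) (ZL.cons (nat_lit 41420) (nat_lit 6) (nat_lit 115996873162220515068) (ZL.cons (nat_lit 41496) (nat_lit 6) (nat_lit 116090985092162880096) (ZL.cons (nat_lit 41572) (nat_lit 6) (nat_lit 116208694185555489388) (ZL.cons (nat_lit 41648) (nat_lit 6) (nat_lit 116350046602827124356) (ZL.cons (nat_lit 41724) (nat_lit 6) (nat_lit 116515097776298283682) (ZL.cons (nat_lit 41800) (nat_lit 6) (nat_lit 116703912431919348214) (ZL.cons (nat_lit 41876) (nat_lit 6) (nat_lit 116916564614653306604) (ZL.cons (nat_lit 41952) (nat_lit 6) (nat_lit 117153137717512995700) (ZL.cons (nat_lit 42028) (nat_lit 6) (nat_lit 116794571827637063830) (ZL.cons (nat_lit 42104) (nat_lit 6) (nat_lit 116472262071310772424) (ZL.cons (nat_lit 42180) (nat_lit 6) (nat_lit 116186082052551248424) (ZL.cons (nat_lit 42256) (nat_lit 6) (nat_lit 115935919543900154766) (ZL.cons (nat_lit 42332) (nat_lit 6) (nat_lit 115721676442412922390) (ZL.cons (nat_lit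 42408) (nat_lit 6) (nat_lit 115543268731187007286) (ZL.cons (nat_lit 42484) (nat_lit 6) (nat_lit 115400626446414085564) (ZL.cons (nat_lit 42560) (nat_lit 6) (nat_lit 115293693649943265882) (ZL.cons (nat_lit 42636) (nat_lit 6) (nat_lit 115222428407344559684) (ZL.cons (nat_lit 42712) (nat_lit 6) (nat_lit 115186802771464006694) (ZL.cons (nat_lit 42788) (nat_lit 3) (nat_lit 57676401598807301788) (ZL.cons (nat_lit 42864) (nat_lit 6) (nat_lit 115364672025174681794) (ZL.cons (nat_lit 42940) (nat_lit 6) (nat_lit 115400283162297096868) (ZL.cons (nat_lit 43016) (nat_lit 6) (nat_lit 115459650574133661512) (ZL.cons (nat_lit 43092) (nat_lit 6) (nat_lit 115542797542022350844) (ZL.cons (nat_lit 43168) (nat_lit 6) (nat_lit 115649756672617238868) (ZL.cons (nat_lit 43244) (nat_lit 6) (nat_lit 115780569910675421614) (ZL.cons (nat_lit 43320) (nat_lit 6) (nat_lit 115935288555505941504) (ZL.cons (nat_lit 43396) (nat_lit 6) (nat_lit 116113973281087163452) (ZL.cons (nat_lit 43472) (nat_lit 6) (nat_lit 116316694159860491858) (ZL.cons (nat_lit 43548) (nat_lit 6)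 (nat_lit 116543530690209759402) (ZL.cons (nat_lit 43624) (nat_lit 6) (nat_lit 116206463538624500354) (ZL.cons (nat_lit 43700) (nat_lit 6) (nat_lit 115905230976700829360) (ZL.cons (nat_lit 43776) (nat_lit 6) (nat_lit 115639714874022305768) (ZL.cons (nat_lit 43852) (nat_lit 6) (nat_lit 115409811106627094860) (ZL.cons (nat_lit 43928) (nat_lit 6) (nat_lit 115215429516175041652) (ZL.cons (nat_lit 44004) (nat_lit 6) (nat_lit 115056493874591459064) (ZL.cons (nat_lit 44080) (nat_lit 6) (nat_lit 114932941854173765300) (ZL.cons (nat_lit 44156) (nat_lit 6) (nat_lit 114844725003149247538) (ZL.cons (nat_lit 44232) (nat_lit 6) (nat_lit 114791808726674366752) (ZL.cons (nat_lit 44308) (nat_lit 3) (nat_lit 57387086136634076200) (ZL.cons (nat_lit 44384) (nat_lit 6) (nat_lit 114883176488644951532) (ZL.cons (nat_lit 44460) (nat_lit 6) (nat_lit 114907151520316309532) (ZL.cons (nat_lit 44536) (nat_lit 6) (nat_lit 114955110985632229984) (ZL.cons (nat_lit 44612) (nat_lit 6) (nat_lit 115027073692226170110) (ZL.cons (nat_lit 44688) (nat_lit 6) (nat_lit 115123067860767382438)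 (ZL.cons (nat_lit 44764) (nat_lit 6) (nat_lit 115243131136027843916) (ZL.cons (nat_lit 44840) (nat_lit 6) (nat_lit 115387310601644911584) (ZL.cons (nat_lit 44916) (nat_lit 6) (nat_lit 115555662798585494096) (ZL.cons (nat_lit 44992) (nat_lit 6) (nat_lit 115748253747318979918) (ZL.cons (nat_lit 45068) (nat_lit 6) (nat_lit 115965158973707617478) (ZL.cons (nat_lit 45144) (nat_lit 6) (nat_lit 115649169016524978842) (ZL.cons (nat_lit 45220) (nat_lit 6) (nat_lit 115368600370682308256) (ZL.cons (nat_lit 45296) (nat_lit 6) (nat_lit 115123343009259667414) (ZL.cons (nat_lit 45372) (nat_lit 6) (nat_lit 114913300752899635674) (ZL.cons (nat_lit 45448) (nat_lit 6) (nat_lit 114738391232089914982) (ZL.cons (nat_lit 45524) (nat_lit 6) (nat_lit 114598545854861560352) (ZL.cons (nat_lit 45600) (nat_lit 6) (nat_lit 114493709779890168508) (ZL.cons (nat_lit 45676) (nat_lit 6) (nat_lit 114423841894989476158) (ZL.cons (nat_lit 45752) (nat_lit 6) (nat_lit 114388914800988934010) (ZL.cons (nat_lit 45828) (nat_lit 3) (nat_lit 57217313487038959950) (ZL.cons (nat_lit 45904)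 (nat_lit 6) (nat_lit 114446733178189199682) (ZL.cons (nat_lit 45980) (nat_lit 6) (nat_lit 114483056538054063060) (ZL.cons (nat_lit 46056) (nat_lit 6) (nat_lit 114543611298127358994) (ZL.cons (nat_lit 46132) (nat_lit 6) (nat_lit 114628421205373822116) (ZL.cons (nat_lit 46208) (nat_lit 6) (nat_lit 114737519518580607898) (ZL.cons (nat_lit 46284) (nat_lit 6) (nat_lit 114870949021399954298) (ZL.cons (nat_lit 46360) (nat_lit 6) (nat_lit 115028762039127084588) (ZL.cons (nat_lit 46436) (nat_lit 6) (nat_lit 115211020459219930974) (ZL.cons (nat_lit 46512) (nat_lit 6) (nat_lit 115417795755568725950) (ZL.cons (nat_lit 46588) (nat_lit 6) (nat_lit 115122469714467087722) (ZL.cons (nat_lit 46664) (nat_lit 6) (nat_lit 114862159809880299886) (ZL.cons (nat_lit 46740) (nat_lit 6) (nat_lit 114636763959492838212) (ZL.cons (nat_lit 46816) (nat_lit 6) (nat_lit 114446193772775138988) (ZL.cons (nat_lit 46892) (nat_lit 6) (nat_lit 114290374516320646254) (ZL.cons (nat_lit 46968) (nat_lit 6) (nat_lit 114169245084538593544) (ZL.cons (nat_lit 47044) (nat_lit 6) (nat_lit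 114082757975691027112) (ZL.cons (nat_lit 47120) (nat_lit 6) (nat_lit 114030879273264673400) (ZL.cons (nat_lit 47196) (nat_lit 3) (nat_lit 57006794316335172802) (ZL.cons (nat_lit 47272) (nat_lit 6) (nat_lit 114018847579703168458) (ZL.cons (nat_lit 47348) (nat_lit 6) (nat_lit 114043302112007953618) (ZL.cons (nat_lit 47424) (nat_lit 6) (nat_lit 114092220766630192478) (ZL.cons (nat_lit 47500) (nat_lit 6) (nat_lit 114165622727356011408) (ZL.cons (nat_lit 47576) (nat_lit 6) (nat_lit 114263536779268047984) (ZL.cons (nat_lit 47652) (nat_lit 6) (nat_lit 114386001320033718688) (ZL.cons (nat_lit 47728) (nat_lit 6) (nat_lit 114533064374963127710) (ZL.cons (nat_lit 47804) (nat_lit 6) (nat_lit 114704783615842521874) (ZL.cons (nat_lit 47880) (nat_lit 6) (nat_lit 114901226383550677414) (ZL.cons (nat_lit 47956) (nat_lit 6) (nat_lit 114626159083704921936) (ZL.cons (nat_lit 48032) (nat_lit 6) (nat_lit 114385710690153313268) (ZL.cons (nat_lit 48108) (nat_lit 6) (nat_lit 114179786909408184110) (ZL.cons (nat_lit 48184) (nat_lit 6) (nat_lit 114008306987045712844)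 (ZL.cons (nat_lit 48260) (nat_lit 6) (nat_lit 113871203676037522030) (ZL.cons (nat_lit 48336) (nat_lit 6) (nat_lit 113768423210379294732) (ZL.cons (nat_lit 48412) (nat_lit 6) (nat_lit 113699925284006066938) (ZL.cons (nat_lit 48488) (nat_lit 6) (nat_lit 113665683034985927578) (ZL.cons (nat_lit 48564) (nat_lit 3) (nat_lit 56811663463292149883) (ZL.cons (nat_lit 48640) (nat_lit 6) (nat_lit 113635675254777805144) (ZL.cons (nat_lit 48716) (nat_lit 6) (nat_lit 113672725081839965786) (ZL.cons (nat_lit 48792) (nat_lit 6) (nat_lit 113734490937114727642) (ZL.cons (nat_lit 48868) (nat_lit 6) (nat_lit 113820997042506120026) (ZL.cons (nat_lit 48944) (nat_lit 6) (nat_lit 113932277321977041524) (ZL.cons (nat_lit 49020) (nat_lit 6) (nat_lit 114068375414852774850) (ZL.cons (nat_lit 49096) (nat_lit 6) (nat_lit 114229344692934447746) (ZL.cons (nat_lit 49172) (nat_lit 6) (nat_lit 114415248281429151064) (ZL.cons (nat_lit 49248) (nat_lit 6) (nat_lit 114160042492618574754) (ZL.cons (nat_lit 49324) (nat_lit 6) (nat_lit 113939066168709298602) (ZL.cons (nat_lit 49400)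 (nat_lit 6) (nat_lit 113752232652319397402) (ZL.cons (nat_lit 49476) (nat_lit 6) (nat_lit 113599468675403228056) (ZL.cons (nat_lit 49552) (nat_lit 6) (nat_lit 113480714330518862654) (ZL.cons (nat_lit 49628) (nat_lit 6) (nat_lit 113395923047334973994) (ZL.cons (nat_lit 49704) (nat_lit 6) (nat_lit 113345061574367960552) (ZL.cons (nat_lit 49780) (nat_lit 3) (nat_lit 56664054982971074494) (ZL.cons (nat_lit 49856) (nat_lit 6) (nat_lit 113260016112694115620) (ZL.cons (nat_lit 49932) (nat_lit 6) (nat_lit 113284959735644996480) (ZL.cons (nat_lit 50008) (nat_lit 6) (nat_lit 113334856763359680118) (ZL.cons (nat_lit 50084) (nat_lit 6) (nat_lit 113409726763300015428) (ZL.cons (nat_lit 50160) (nat_lit 6) (nat_lit 113509599096250292734) (ZL.cons (nat_lit 50236) (nat_lit 6) (nat_lit 113634512927831276854) (ZL.cons (nat_lit 50312) (nat_lit 6) (nat_lit 113784517243859274054) (ZL.cons (nat_lit 50388) (nat_lit 6) (nat_lit 113959670869556256104) (ZL.cons (nat_lit 50464) (nat_lit 6) (nat_lit 113723937150388012310) (ZL.cons (nat_lit 50540) (nat_lit 6) (nat_lit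 113522051090833964116) (ZL.cons (nat_lit 50616) (nat_lit 6) (nat_lit 113353933519890364836) (ZL.cons (nat_lit 50692) (nat_lit 6) (nat_lit 113219518509098020902) (ZL.cons (nat_lit 50768) (nat_lit 6) (nat_lit 113118753346687994138) (ZL.cons (nat_lit 50844) (nat_lit 6) (nat_lit 113051598516910319830) (ZL.cons (nat_lit 50920) (nat_lit 6) (nat_lit 113018027684537634184) (ZL.cons (nat_lit 50996) (nat_lit 3) (nat_lit 56458088684223131995) (ZL.cons (nat_lit 51072) (nat_lit 6) (nat_lit 112928772663203639472) (ZL.cons (nat_lit 51148) (nat_lit 6) (nat_lit 112966563486807043328) (ZL.cons (nat_lit 51224) (nat_lit 6) (nat_lit 113029564659187300420) (ZL.cons (nat_lit 51300) (nat_lit 6) (nat_lit 113117800886686520652) (ZL.cons (nat_lit 51376) (nat_lit 6) (nat_lit 113231306771746860580) (ZL.cons (nat_lit 51452) (nat_lit 6) (nat_lit 113370126826480108574) (ZL.cons (nat_lit 51528) (nat_lit 6) (nat_lit 113534315490123414928) (ZL.cons (nat_lit 51604) (nat_lit 6) (nat_lit 113317672035310399092) (ZL.cons (nat_lit 51680) (nat_lit 6) (nat_lit 113134501921202652818)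 (ZL.cons (nat_lit 51756) (nat_lit 6) (nat_lit 112984733316382878950) (ZL.cons (nat_lit 51832) (nat_lit 6) (nat_lit 112868307488064873654) (ZL.cons (nat_lit 51908) (nat_lit 6) (nat_lit 112785178779061061242) (ZL.cons (nat_lit 51984) (nat_lit 6) (nat_lit 112735314589877714730) (ZL.cons (nat_lit 52060) (nat_lit 3) (nat_lit 56359347682965420324) (ZL.cons (nat_lit 52136) (nat_lit 6) (nat_lit 112604024183311015800) (ZL.cons (nat_lit 52212) (nat_lit 6) (nat_lit 112629466678720914278) (ZL.cons (nat_lit 52288) (nat_lit 6) (nat_lit 112680361646989891588) (ZL.cons (nat_lit 52364) (nat_lit 6) (nat_lit 112756729046929033602) (ZL.cons (nat_lit 52440) (nat_lit 6) (nat_lit 112858598826538316456) (ZL.cons (nat_lit 52516) (nat_lit 6) (nat_lit 112986010934750920258) (ZL.cons (nat_lit 52592) (nat_lit 6) (nat_lit 113139015337099477406) (ZL.cons (nat_lit 52668) (nat_lit 6) (nat_lit 112941087827732763490) (ZL.cons (nat_lit 52744) (nat_lit 6) (nat_lit 112776266679748842628) (ZL.cons (nat_lit 52820) (nat_lit 6) (nat_lit 112644487257403407398) (ZL.cons (nat_lit 52896)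 (nat_lit 6) (nat_lit 112545697882491616454) (ZL.cons (nat_lit 52972) (nat_lit 6) (nat_lit 112479859814082131838) (ZL.cons (nat_lit 53048) (nat_lit 6) (nat_lit 112446947233324596890) (ZL.cons (nat_lit 53124) (nat_lit 3) (nat_lit 56155293471811034765) (ZL.cons (nat_lit 53200) (nat_lit 6) (nat_lit 112323434144274592526) (ZL.cons (nat_lit 53276) (nat_lit 6) (nat_lit 112361980784350064458) (ZL.cons (nat_lit 53352) (nat_lit 6) (nat_lit 112426241980177926690) (ZL.cons (nat_lit 53428) (nat_lit 6) (nat_lit 112516242932227131326) (ZL.cons (nat_lit 53504) (nat_lit 6) (nat_lit 112632018934988678054) (ZL.cons (nat_lit 53580) (nat_lit 6) (nat_lit 112773615390816591010) (ZL.cons (nat_lit 53656) (nat_lit 6) (nat_lit 112594036847573702506) (ZL.cons (nat_lit 53732) (nat_lit 6) (nat_lit 112447204882064120282) (ZL.cons (nat_lit 53808) (nat_lit 6) (nat_lit 112333061913124899404) (ZL.cons (nat_lit 53884) (nat_lit 6) (nat_lit 112251563178807436256) (ZL.cons (nat_lit 53960) (nat_lit 6) (nat_lit 112202676718823763204) (ZL.cons (nat_lit 54036) (nat_lit 3) (nat_lit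 56093191681006551169) (ZL.cons (nat_lit 54112) (nat_lit 6) (nat_lit 112048345870709471668) (ZL.cons (nat_lit 54188) (nat_lit 6) (nat_lit 112074297216027568118) (ZL.cons (nat_lit 54264) (nat_lit 6) (nat_lit 112126210083661924972) (ZL.cons (nat_lit 54340) (nat_lit 6) (nat_lit 112204104831599849826) (ZL.cons (nat_lit 54416) (nat_lit 6) (nat_lit 112308012006801318336) (ZL.cons (nat_lit 54492) (nat_lit 6) (nat_lit 112437972357178174218) (ZL.cons (nat_lit 54568) (nat_lit 6) (nat_lit 112276382996409624352) (ZL.cons (nat_lit 54644) (nat_lit 6) (nat_lit 112147187484306256480) (ZL.cons (nat_lit 54720) (nat_lit 6) (nat_lit 112050335155961363398) (ZL.cons (nat_lit 54796) (nat_lit 6) (nat_lit 111985788030069711814) (ZL.cons (nat_lit 54872) (nat_lit 6) (nat_lit 111953520794032912844) (ZL.cons (nat_lit 54948) (nat_lit 3) (nat_lit 55902046990135606222) (ZL.cons (nat_lit 55024) (nat_lit 6) (nat_lit 111817198124936785898) (ZL.cons (nat_lit 55100) (nat_lit 6) (nat_lit 111856515697813767270) (ZL.cons (nat_lit 55176) (nat_lit 6) (nat_lit 111922062117558186746)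 (ZL.cons (nat_lit 55252) (nat_lit 6) (nat_lit 112013863088648375474) (ZL.cons (nat_lit 55328) (nat_lit 6) (nat_lit 112131954611465153138) (ZL.cons (nat_lit 55404) (nat_lit 6) (nat_lit 111988001704102817624) (ZL.cons (nat_lit 55480) (nat_lit 6) (nat_lit 111876096832593777548) (ZL.cons (nat_lit 55556) (nat_lit 6) (nat_lit 111796196112674696030) (ZL.cons (nat_lit 55632) (nat_lit 6) (nat_lit 111748268210729918528) (ZL.cons (nat_lit 55708) (nat_lit 3) (nat_lit 55866147165751890212) (ZL.cons (nat_lit 55784) (nat_lit 6) (nat_lit 111590582687904741026) (ZL.cons (nat_lit 55860) (nat_lit 6) (nat_lit 111617053060129199402) (ZL.cons (nat_lit 55936) (nat_lit 6) (nat_lit 111670004185116243396) (ZL.cons (nat_lit 56012) (nat_lit 6) (nat_lit 111749456828012926746) (ZL.cons (nat_lit 56088) (nat_lit 6) (nat_lit 111855442146718424628) (ZL.cons (nat_lit 56164) (nat_lit 6) (nat_lit 111728779879950416910) (ZL.cons (nat_lit 56240) (nat_lit 6) (nat_lit 111633826616867188398) (ZL.cons (nat_lit 56316) (nat_lit 6) (nat_lit 111570545120894980962) (ZL.cons (nat_lit 56392)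 (nat_lit 6) (nat_lit 111538910575760864326) (ZL.cons (nat_lit 56468) (nat_lit 3) (nat_lit 55697181018066298702) (ZL.cons (nat_lit 56544) (nat_lit 6) (nat_lit 111407728263691482326) (ZL.cons (nat_lit 56620) (nat_lit 6) (nat_lit 111447832188026003324) (ZL.cons (nat_lit 56696) (nat_lit 6) (nat_lit 111514689536165311192) (ZL.cons (nat_lit 56772) (nat_lit 6) (nat_lit 111608326526677303696) (ZL.cons (nat_lit 56848) (nat_lit 6) (nat_lit 111498615868335107542) (ZL.cons (nat_lit 56924) (nat_lit 6) (nat_lit 111420281829198753112) (ZL.cons (nat_lit 57000) (nat_lit 6) (nat_lit 111373293690037206542) (ZL.cons (nat_lit 57076) (nat_lit 3) (nat_lit 55678816512064614005) (ZL.cons (nat_lit 57152) (nat_lit 6) (nat_lit 111228459220345150268) (ZL.cons (nat_lit 57228) (nat_lit 6) (nat_lit 111255459000014097812) (ZL.cons (nat_lit 57304) (nat_lit 6) (nat_lit 111309469147500882684) (ZL.cons (nat_lit 57380) (nat_lit 6) (nat_lit 111390510843255499706) (ZL.cons (nat_lit 57456) (nat_lit 6) (nat_lit 111297419408860177634) (ZL.cons (nat_lit 57532) (nat_lit 6) (nat_lit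 111235378726534484070) (ZL.cons (nat_lit 57608) (nat_lit 6) (nat_lit 111204364466599075604) (ZL.cons (nat_lit 57684) (nat_lit 3) (nat_lit 55539587814252288607) (ZL.cons (nat_lit 57760) (nat_lit 6) (nat_lit 111092809180614639836) (ZL.cons (nat_lit 57836) (nat_lit 6) (nat_lit 111133715183435851254) (ZL.cons (nat_lit 57912) (nat_lit 6) (nat_lit 111201909678537945280) (ZL.cons (nat_lit 57988) (nat_lit 6) (nat_lit 111125111600953284074) (ZL.cons (nat_lit 58064) (nat_lit 6) (nat_lit 111079044797853728614) (ZL.cons (nat_lit 58140) (nat_lit 3) (nat_lit 55531845601913149340) (ZL.cons (nat_lit 58216) (nat_lit 6) (nat_lit 110959818945584727648) (ZL.cons (nat_lit 58292) (nat_lit 6) (nat_lit 110987358720847054144) (ZL.cons (nat_lit 58368) (nat_lit 6) (nat_lit 111042449071283574716) (ZL.cons (nat_lit 58444) (nat_lit 6) (nat_lit 110981624872925051614) (ZL.cons (nat_lit 58520) (nat_lit 6) (nat_lit 110951218735733474686) (ZL.cons (nat_lit 58596) (nat_lit 3) (nat_lit 55428218070945508093) (ZL.cons (nat_lit 58672) (nat_lit 6) (nat_lit 110870342365043280060)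 (ZL.cons (nat_lit 58748) (nat_lit 6) (nat_lit 110912066487920915710) (ZL.cons (nat_lit 58824) (nat_lit 6) (nat_lit 110866902955470371140) (ZL.cons (nat_lit 58900) (nat_lit 3) (nat_lit 55425925206153112073) (ZL.cons (nat_lit 58976) (nat_lit 6) (nat_lit 110782620227257547130) (ZL.cons (nat_lit 59052) (nat_lit 6) (nat_lit 110810710798025120158) (ZL.cons (nat_lit 59128) (nat_lit 6) (nat_lit 110780900859602005522) (ZL.cons (nat_lit 59204) (nat_lit 3) (nat_lit 55362078953325754004) (ZL.cons (nat_lit 59280) (nat_lit 6) (nat_lit 110738342254266817162) (ZL.cons (nat_lit 59356) (nat_lit 3) (nat_lit 55361792429503924760) (ZL.cons (nat_lit 59432) (nat_lit 6) (nat_lit 110694932476824925034) (ZL.cons (nat_lit 59508) (nat_lit 1) (nat_lit 18446744073709551617) ZL.nil))))))))))))))))))))))))))))))))))))))))))))))))))))))))))))))))))))))))))))))))))))))))))))))))))))))))))))))))))))))))))))))))))))))))))))))))))))))))))))))))))))))))))))))))))))))))))))))))))))))))))))))))))))))))))))))))))))))))))))))))))))))))))))))))))))))))))))))))))))))))))))))))))))))))))))))))))))))))))))))))))))))))))))))))))))))))))))))))))))))))))))))))))))))))))))))))))))))))))))))))))))))))))))))))))))))))))))))))))))))))))))))))))))))))))))))))))))))))))))))))))))))))))))))))))))))))))))))))))))))))))))))))))))))))))))))))))))))))))))))))))))))))))))))))))))))))))))))))))))))))))))))))))))))))))))))))))))))))))))))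

noncomputable def vl : XL := ⟨(nat_lit 0), (nat_lit 76), (nat_lit 208383496), (nat_lit 152), (nat_lit 23469523), (nat_lit 152), (nat_lit 23469523), (nat_lit 1), (nat_lit 4), (nat_lit 2), (nat_lit 5), (nat_lit 2), (nat_lit 4), (nat_lit 0), (nat_lit 0), (nat_lit 0)⟩

noncomputable def cp0 : Nat := (nat_lit 3854460035833555265102389657733831103385878336291071427952705684127422749877478113357516808594329482859052762356956278857727207530644394613848625723515386354664110150750816673030613278350766061434316605277451928134416526322456986296355183113586612139479962478628954562678347168485534670579385457526180542506685595813992007733686987712578417045778299636808968916440322637020247425350245575863055700228061414263987387109826969143211618313844040774426300862914466152005518129723074347296107957305304419464109443547773306377008697555203186527786151226294369888342660509602763400192970964687864867548311947872079052559993103758679939697440920595044102389573065003709215970876790815989666473465217484500766536015508039296878943537513915911194080984892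547525324047365561709517841369059299495559453441992762318739381258756476306408288400856018388781242267385813275944432132401033848937751795607478397625503569797734234929263064487317313244533292194886472613258983306739968373330189949624000473593307688459766367881669018490069333405581508751790952782528756551945115948103655749841531194015769703693517457753618129114135603586657391398224093229840920511483545854137013838005195733880995194954767602250650977928212457467325706699646356343645234622739574862000920379982862754000745040517357752850270561842283778878177610763502023766729013034881123729701703149916233688876094015284430949071240606803062867027760314522070116991657874067915717796526662616623907360458512605540438808223596094431091924594594648438191153435563218947237241187276411263841130159391276073468007427592531678998934853461633738918033122346118045447770541240837508879185438458277855561558817281575514228520319208660295048226041745605980015664247109103933641577097167161172307987199156496054730790939403352971256789580431014377680958603298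853287335712620310397680983595140097276423028569682525386340837964124575608683620000167599267208585183679765564007237333484229196956571242414440229179043139448200160183939303901989843840703273512883270480915262688323202398650135865491188042345399559173991987287739769171645193837590299433424572759896594635787149361697394292643806104056945442926974059513259937157552416035026921283039885633476629781592793340117321433317741536028519395075467303940446275654782937536058430256424095134167298652579217301642453916198195218355876473420480303891133774510525695576644427399713166491801269090043903072571869549815693655953824224546424773274252854480690569924962714782417216240675189657305695381786526624614782393326847349062193634907914431731327327800424942639421484709854814086847732541102166781272013339610081693488503260005681707205555223051421389000386065285510904085617637091178581044676112164258438905434900984650406787891783226932488559981352211741656911684203730464987583418949083017150764107678866046153757443840841019570577311199639123553274241608379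112832814075584234064768211270349916732442830884602571920717815942302989760571347497170562294307428770892554145797112311928710951563430029168616243565363541158830774346556553897439817397494581952948785439251088799105741800415319881237855075052981978356087443993516394579133683014604178775909938365114188133665731007723139565372727852504225736262015944818507141297708719061435721473493572434344706554192453497171055499955031429932818544424874828669560855828774246066780759607589736475267544478456966505036813136438250502702286650668089161511347041361724587727708672691046094051084193237143922811553482208482019142117516094351276311550108065143121501908186705375287842538136182973319383755290577242803730755130082331562441459961635206019760575286700715268454177543318765373980521650408100033718298970216029486183956085691555255686042786342491706859965013824770875344722377079532732142198080586224852457124006939654782577842301819176556571718392217923088790473295013054265945601007365295962057063549428248812532937931989785981039799097238837075980801592130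634757849000025666749331037963297801882819116497558145555761707813614254836729788554877591690656209018323540744629997165440970442341212727139305921396310803512905865281327178863573725158824170345142518174550669328790162025176353241068123585590002016139583322960773092327092962611280760549384056418094340090162064559971542600338706596314325205692235630972873490929859107007545857982035401452197058597497182663305920800413031113238153012243060654158822913531024749015434043592208083902340877201326197824608127040485584352515146015226720409266807405336055497212497484304633010280968242824776784340445320524339828187411893885460907443290295294761607991675521733398158101351259350987978051073286192018218127278560907083366869728916810025204112309451514802382098638342108510379172198184807205068496966648591925364057601637328179536507556798709898990447126236759382193822104349495648483485837307420049670204587854535573301415383737854437504298397689933445543132882095198264410171723316337813443883465633661438021781526304725345299856652813334492858669232218232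477103882357503175023495086562120870269270887648559986465733735052432152038024953171191029820165844763183601186825557004185688917009398018742542133465078672569272378886002083722890852913285563612368168585702600282777727293340279937627654986187897647572671362986083762476133899716095358808567904181110882505464087227939660338036066429968548798749103406527776115854837362539465553020836843006221714286995614583542837295881495726467693642451821159485485025409288202028176499513782252389023186253781600838386326903128648278685528409750704694714517991203340914010894251751277415606572884136257506328540387196766453088678341651270042421858634312291632116367687383002229806252676626773273297762084209422230523388410533393136271350102677129315466202860073000019505551974800092949206779550193181178421886414166889206655446907773822434036643722637240571560683230818660227521158645121237472774821264448667230674529948815822428009466853033446420690430962405509766004606874702090247352896354150250931205806523708975918845068177123204121853492207177546733819973719966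687763331764266386918286218072336399361226094854800823097315330168758308627455876800762440373452694034902417321623331832213066794109195515150043410378828952428163715104430095854736286069401822174013145145118937981302722585163006761224630947308089250550001886174876640477368275681186979648050016455401353042678659110614027097843570581098825548852067090813050628231550432922291346999938334146234037357167873908651643811578853576856541386288473964225242929129897545247286755420309734797923756254964096878283837422428566995202540965360933280935032512292030048201244505648944493574478150057385543141049992712009222102810156355812352931349816452680631176048394615005533398860545299626943224493236120616483980601501227961027292507358119809477310687227273084314022708594441404097044410369254439043371299959242488313576960280544330114710570405383421948799803633809199591152981706361326611976934593995703944316737118319423366853702274648149858508162481408712486033366140334937423429025705419471723096164308013211285489849636021302903443660757492254432996885807750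602653326770485515516239637306575038714075327956600843400532795726993013919102436879587055576458543375576296527054447656804498309507348836225408491255714127037041350805104872359302835967273345725275321304185966557990071001361049204038617868022525658410514786830882640943360529215855091641136879917002350403046749826922457510764441295526334869867674013911119846443524949593907464590769390000535710670263257452393461687696252455833379113897667018567982104110764582565438317035402745813735685109106110946141493292995211754366777938384593443733007334921308662298488175054273476134145061546972705694977327497977813470109933901396889651873942176279799860787757494366740243918743209611626018694716428765751459732174943076410751603499667358539982538260272225856943255491318787769254105920437149993419940447511147271246020829762492876814353294771447124236620080980781214961214593485626374950751721311778235773648917207127283897311774149383754042461565524997458407332042849574079154935558218237481591037897782117312158959331238918073937110440895984319291000780600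005889947537156365876914127549142793378801717987217201044681693128358549439494831772320460355215572021442524619582739561573427305735066404627995743115303518294278779791097256611490228686614139346708368657744107213977282527353541202394399374243685831207473605454318367292760729882150138251554070095049478691198900668799189408627115064893271729129427334836971085011684416295211381776718603403804434023365679242286544423455570293494383955103763905548035952943682520785603681603368039648007840149495102094116419339110898681177747137679563391731518815837198354385437182053895795983476172596684113128826814790748029797669365219735777961905149871827005094743195744103140281231857713546385916171457487497859930123757178198529177667205044597128757344023941921361468203618860631171071948238222775627324934540817333001425440567824794868052137206245871295782313712591285349388326124816842880070655053449951170986422119783802846812775566200428098807896558164095534912480780421910198277938401110170568781170962993094037947896341929510659520229829130666636671202950241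696498919549020596836370575131021797235303101592802605577406745238656290703927043481680099016337502785567318384745235005922982494839035740312589507947678942053504699178480411124062818362786586929059745604700863198149381174796831559801528554611946526921054965986175389764475579411557062692220059563604797187200059083253780601322715413645345643375724965711556125238292821248026729608017237868662872608821605316629580762487790816878637517313903095076319499265203721158733063344771668103403509917559896261434600893018680003252922572545152094001530230420383512168639560244956026557694965814963316828698353147666210678539929593369275777791367774560776846557362413803370623760306733176928815283191197072178399586893741377091185245313164131683732713464942098186365812668461618500114819220884559028340004074483214495945786061739023558005006916659339762722158750699612316525327470191169069267190394891788183275948137133069394433965777056910981002510622303901591055565161600321217979742807738234610655741941617853913449783148257493194806170659256893237645742152435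744560700311394998469663099381682068344552885966318140637987562860531942370873472325213756066284434483526521612889885530548428164581423408059050077982389186888898305045406052584946544214673707212416044201192302803270776032798290983159015567912459479783973233373865159062252134042869173091670008123423462455077502505896768399950374265770928376802007456957497713265735263970915369293554211168485352560105058277323781912003305928558021705179672962622383106274866309406704230854898650658446853511271164964458322110675190135725981893860101933231691015441497827109026007079685719924200253363338783874271755175815870247758659439813823297097578656399775290531721567586852535461589242799399529348687005284282929306078685539838221172771649113404377057900313065174859030737814971501730665383242492282880849727084613204493927997869983704100318417263254276913647802013671432834883845704416624062848941450676159336488184302682882264179070231905574986674229837633256802145480934182137161157776319247844007759985660893560142230641180562554278876989140628638840975339567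858521905957761373197079882497289238848016656933077759111468859330012066316751914111476456402418550723233802128974492002197332430671007920739056164520911754430130844713598441181055185247975446567211251382008614409527988766032856700334676836342572360910665361571887011127620782170559002882902701845941677884865774169355944230107111196350640954959952698985877746116657763593918385940114940607818994003880534916112066544456115315474352408070708347384122388740420379477410578768002268406615700162947368051863852039461817637873737233581096065736772938325924307697800301677758786953025159195243310087970843396512205902890224789795799546536215423849330102103929871772689117450758638663662456225962657721749911880937810007324451431659685012207753747475375382091583749356032815865117792239062612846684890043713847083435337512935626161405371556760340940760942495640949333615835308931320092464529544653023488997647937107312708196783258621178993755267461470212769424021550655623513565659376573212848794286922590593122765353363568069521922138588469860875020779983147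766736974810499909761768335722105768049280628199280490568196264089789683612092716499416760203139115192823617684085293507539288581170791847240300195221454929585934380327970619967193244580525892239438304121077381891093306922420783934780358914549257343979931499393948663760917898003291174107733668094517644832030152685648162573877520903786408964526322419941093920281735651044907439220136740708520218384972308298996455997946435648523342263384191952230452182555997996520361686436047558400525688608440528134825358178006255527295140780402610868870536006645204451677548015761069423429029192663214269311320514423541813912930141274754802009889729253507358087350217817989089819978360315853206928868918400032281393160790801243825981605648102552269850858941219996531415979997489839904750801965899978086000212538201822927867442908164139265781158169190639599470964501659791853062330965194706912059234048981848811374921926835335099894847956268218726284305234604508821468229078841415250333494653266870126936357930867345537879474963220425652446003119164286449725810285407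419517608716192396817277896426562356941817701569908127444199165764609381215703594499957996963169102075356885007433003944829087039297479841501964339759294086098172756430748069373044048506341244309672917382063344971390896507346070899248510710301311554099378031924156846796619324363554936860417276450275735576144776380613420939845814103822813343269364736214662117417421648478612573722054622806032903648343222576965673488430407903362377869917910403154332242138002109773763243417584754717204441690996149005125315172986578693190483735757755609878765260866406888699556561488713286107847101668275708991639043739805078067422869299912682349810073245653154460124120576531777820337661717620968204215369024627038170334142550162232942563035788243898774770469971770582711970974961240458939144000824902980113356134770377211603489134307344391138987497145250016910458662987565091421171315979040083645224683263871942931320456662764525087501421702388334650095392925584415908839947344814472245106135029817388868966070372108879929419907829020815255482916115038412902437703560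500074403535272661087677942888863747564376709575153479327772603760154926546789392538830817459268171596145102822608574037749709413415273866613025121603500087011151153651401932777877545602901029138111115252117053309277448405865576190245554349087622928203531313861351288960803482226810327516482148035894546552693199834008978159909061430054047811033469379996982637922685599785962426424424335116950616255884136127815876654460505552596297327845817620863056502806232820206452263904890203246634055419308614589781847268927163725408757428697379572279653444342091508721048007702327537087992525245683411852411118608608564014499517750800790930371391341437563303191529212381813654881969332084654232038051056763653016925712992364915207764490941274799920156238359925177890142187478185753023653710799155533120305067382413161107317829785167380259421347298573831468522337808819591596662005600857370094257283324212924705919069330660740729176000904630683685215293614266304919357502133377579899010476212531991418734419383617826976895822980334375461385931463566233241041587624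830951597798421735499095948720785196298804696238979239928459450366733454095142286838095870424829522434498351547277437720683722922459382190352696146986212838416256423966143194807224755072970087398487004059605864165206649240281203887910394467690801621542956536860843931822816502329377299221363705343652184315941763822600517785801793929040307705949610792949767242296844263638763073999944013259847969766133751131408187616718645123716133754840722747491563033397875335459421253581362822855419952439468958841043851201398163029673686567431452658203955887160458931264228670851965158804413413959987728214686262200209279954474802891292125044990300930367494182774656528045711923156506623108194649133776664795185054103843132875247710486020186587530348281814258641023248178179573468543673373872658337845308537537068963806277842093423548041041489499986948718405017816389968282724597551096889147529169715677349270840755921917422840312830491087076571693493396776907282086590177835533428873591048194154196091644913110146191310283914556069814771049022748481125014091462977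8483619903395462569100316071974122554783359832302624824551661353228178187718732593197002020581970713567134282492654839373775589537809023108705272149559927633922040295482635031350638539158513106153204848930535111805539895693568676539833111785760381925154110668903339732071163256204188072855262532701356740091372660070386461505134281710148138530942375122883991517778364973579082528391360567582382895996815524681549012191873522724609374391912775729609747620653036608280766022814987875100614160235211712458814785581857341488657961624140888013951944098442307899094293761498890101126619280943244210666220213706202543204755993236707318935270628589344379910286208468546777731624715882477519995067684307350972215024764068552191915874303036508146426710822920649515470163631040241728606877293924541162016202196753092023352011704572570977493666831704293781404441974922034607990250969856807821686991007499847549599270326682322764920208939279147591037414269469933841321939108812610265316151795752179116099190953402590643756648590972861080280934448891737271011041537301087046417998496832351422251904363032069015690177303184063536634635108702994771564565938214970937239973602547169019342098765338810961125596730689065543712548739480659327724836804612954905255690309308153229736983475291020238081738811594224705180020421184834268750851761540997900117028081330652099032219108356043915639489365601135499403067392)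

noncomputable def cp1 : Nat := (nat_lit 402813587174816173408695830074895347869973485281458104097067033577765582007978060642260152644058742077526031619684037862802885002463463804138485803713270800414858462043825199725233385880578745939276945745687991605697137914505446118615388673055616815469800102649934194201592345323963915174767400752715236845328268593426578333772392043782523308712922988377343085822219903448337762984994155887020069178874504227805757362855801190927331173059710851885377559047998103495800944252363413834677749034378642285388882166927331305361921627952811787343846791941634727609806758067817242311369388496006955887778945669533790912811465268740008771274485987081311979904344273008506659682875778606028482960906201314801779932987797935381675432642928236426083903599508563244373151346969670404451307668120483964327493274604596307396839594165541349666634854027394677577360656522973157520288379567338302855644560064133951219187833766149171467731506535716281997049194438227788270168684342191410068649823981750434643473941591311648066849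698451296558445894457770788839125069553619412963843642643480193234003192422196696800808280216953810940625134799270657551137335997907026623841188770860524016508688241304349144821493922690493959331701910170273678616465812157248633616605226007714874205366109349195203963091671611835361926336018361597757520657042171730489027143835699533859130206258380848161726517222998313469669705209808350170050827196895992643723700549591883758098350098768378407739165358510069505885567919320785901449168718353393001393731777870951999951056371267222538992881314107751190001792505468661752999139160043022523881777667120407925319882783612637561272906892033291899802531718936188277503430664283844956230211976422736944392437240144610497532303934703432173551395431003598957881143700463329622210141630403322478432072358817836270099867890094534195927423954293868479119703344096476971615969915118288401700972581537533168577286258491252700742961822363767512811220273729426223386102826416824726774559149191803845490533963043012104881327361890265122247020489824605981441171060969779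323181646493842772502187034296527036840304402350578096551126506402803595195070033161093265813626241222487697640032182910505996496725186910450040471335992766803485183624753503568240268857825328359651614445723836822078269902412744310547570107622214877743649901753397604167451282924870334574482548909861862594188745339791931005240236264871317119272704217930065867023101398351323800828925087360894115237079887835482439071735120866722825692591198692259268228688925847870685901113348270603652578599462613150949456315445416429297508056356145087968900248136340667232810827092262335725409109002809929133750950713689858691962585198432075648681928462668898573111736448297651451618098105013857191174071961951807613207896643390841877724022879457427019780339519555004071814126541304028195467596744004674759434330119289669421562862734075305146735825155578226001764936205355969377722515256239967461600073524084704325495549764126201847418996831535958817952941228781621154282783208366600995472439165067428740849381108996167222975046265894643721888739520884609869954891710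910132201846917157075935657798795430823059957927170796968261233695955458373319618973603663931292086938874526283552837667448125413336682836472709526824062417467359633416371136048308718984828631038143080800245945462632316829043152016797500242214853627582251517252663457090671475376121334239283919555033826660985127035385717791045533033276606524551261297978739855589849461666173323475373695411629663093007841915932332729417175167151229084328781999802569114218015859020695718329428140462149941045163721629658494131718294857730609775679394475430102078955488240233810649656448292980158365590128739099910042786489427977424706685035909675441168872225123398132133759999635148227089630608698690023234580603452192875261104812440239675204557032082817018536581402678100792463933579789242533208629543226277546712221737493985515675493687255378867874437284299061661963519092394161895550282949702026973219573205122782767154268011681775405469857430351167409891815333271602673954634566094191348116566440940824135664462121682737275606850162881040818359066636755368007039697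237946404233654934082390079541888636342809147445352955490310133077675533341908242535041815169969735798451117775462525980172320443522129699247861638635267115015074745873676799987113355472273332839918349295609401128707071840615537096547592494064604877945483581926528970768871768562080824815625875390737852720821042114805084703289049519472767804244484080210827001858541706919730594267614825241415276953893931638875688360722847858919664483972872767972390798884646113802803011678313155720541957317144634946149023882144327152647806713902569107632316403609899378756783232854483463536017558618006669205542174398083411442808325169384285193071275800802749536053201547357813889830412700785835427725025359070708300652948998648996608554220061685749246304148034787470487845514200545788112530713308064147369095740238494461843718228382182842083201318784174137589027446687893355217066481252042274806766306418213436784631877895319855304201236593691428626594620483385258437285940495529258892046808668635980126859392270982282896011302713159472458949989021672237130992937776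722737005800876636899433964497655105403439275603471058440284679286870208485819991720241485834994223137287239972818456119488545446289385461842069509795740378172977834781660828801216904363294717916867252772413919506974234611609298118637341576519485174610718595282371649643431994951929629211037277347170878762876157198247604004575498281018694952231143988148751252021479407474397219234088701202255351345908669015121895888004744465292949844235391848562226231472028340180740365194431397092308054416612391269056470688942830586593466626208168171482258004790615512984175276175238369871887570606340861067776506064655819080817580072418225809971601761997319404732406808872045897114802743817078110144607036998178659452309805397594091284122860846672654028501817699564792652937261919759561541589670536846194655324551923754504137170692629515887727547735782163186187973742416659973759297967556070044211770610829497329779718263210239334877884006718561637252650096504531347909758486477369945543785885461956088910873370683986924296805260952758465940554708809446113458934910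193499372732993667379715869148257945811789105298153389692896747189738808647159223321576667642261492096043491099088896951779420914004270113326503043720448474865439900319850418850736912938970319255152150891638088713346691798218781353536678548739460365227827918826230841195482723481291670936558117020105472563738768416996247439854908974134112187047435939408124159103918870815057573343189083463857670661152002142344678040697651704472726152393811560741525990690698385343264633547896456756341255420821710555454053014438831095386456769961293419806892440276138535468429134253875094961281573935116932966546698218823008815911913939107827047501719440915563787041647185441153647796620825958843741594277028300279012933286226895413039420469490441349034251116278840492062682738693797665717982187119142858715805226429372094069109283414740399358332114147889115912345245677094462492598233210761085670008371423765304256909090358809425319186464656918672267838003465930690004675214067865797953517209083778901868057532006810629871418269315160271178053602356382549100229861468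964581249153555644959053283271109013121561961576470934668051880804578165865624911688373872248375458271955376678465859878612808570418355785041728872350884769943817406886137555885695348074472729455062183439075028743809903254092124773353093162318836578616315780033588969023584762400102187161098209540992529010038359048182909600378822383417293722073366429969616364535715006985308150402259854230412726451174743795690057877713934203147157179823960161777625243279998675247697391609375620489100501327935080897287882791968226359950148910287587585459809585521544261321257862865605508596316414656685381821814104726416517612326428495199614343243802528819392995690656874330321216388438428276222798575062402560947031814632784145083212875304711977382042078801308028157683917469082654458680199086027785201390076013726107182033086546457676024080182142970093606667564956422657480490825938613357015513996154902474902573954767387383052947255256295005770076588019562656028366587578336727894048013287134309730010181212543434131323362937308360875416570713844502850548690207896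967777373593940849934345532427043844764106533187994216062752754344887722227341157524322783586099073932966230203403366457491268945992986866383404032791374931017484698097450185512840641833024914847981412886789253121510925592633035012919608444448415562612405170942681109473993159645204212103994204337635321704967583620607553704440662207138946754018023825689936340745939684207366125240676840713991143183769695486879941319189620756881734155314439188553224843896406591266232852654589340696653296288598661150005823896349963134343184100842480057206266405573002054618389614322643233077667104058013221481382246023561406500714253436000030584083730603910972827952066477257532976178438558852949835380897594617480397436972902259692045339372978513600423238049018034343780096369662753849771846456030891032109750244577639477013331946437195024018263851088825657768535516855780935380530562952723135147549176307950763705923571688923705476495879676607752683424881687069506642352879161526161208057319620051156209004656042412117670249102079464236929444091028443560459863657412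493263532525378836365970768174207097235079763343027029042225111675161936300111079973933745873272734764738136494380134438866424852121105972965772135045828478125862090397983831813646558673307274979299911421908355068742691230846891481097372529840690164945317443349987414195987107877883156268385682937000024603351781005992007333970062299412710874803694178959375817477398291363630381296065004242390938373169352954965912525643936967288926453515785390663628923212801521171935536952727544150121623841074132221860113962237956258588442955194260674599101353713969541194393895701677109494389861520946860588854297420678004219352818265113766807984330290253189646097634026552494770617887232609393721268006107397038670679746954923215649287197330358800426790930072362600258402716631297080816646540619599097933043642248986498899634707634052832242345850314089221591528856259296276341722410648684576161266984946655888449468308460155921303436398298376624543519428358510028916036783203065901596717112397221301116036875969532122044571351357600563950014874351075267475725439575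560881622664230058706175188319332479584962351163036876178020066761492774551112713933508739515570725365700340115507346323829301304666486608477713399472877363556732909813771222501116876612469546497806828308450016635311676564588582449483759639184031595119020598538094025372407911534442641659699057352160181578251728297324153279254479386646089199048911021286739144914026933838177452515012933749485933408723837381277232511218141951868554986391846198857712985068000719003527371178997763831901620672979747172735004261920789500373954163199720228816390753450054413996798532682972878077486017216576739953635898768201757611672636679695089864036206736096103474731686503826318886514246098705690078542537618829792684748207518952838003021403486364405600536784665268195078948111948270883052350305808246537395817946269350260033752777435854417050919639151086265964463029573127514748774492600575327837683040601256152025810758625971511214758539622133074179221592670823562629972567143506163492755308738371206244046083352625064147382398393028387762850946366795226454783831670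680086943381537693845163442754555251045039342815291016245734257966102291353068044415270525331312776102241189181173132197448914758729918743509083518011146221631706078691684460236742380320808980609327895036043490817926512427293070415831908839279246067732023616493255868488284788833003042639998288689523929799656190934478906816554100128119888960122342735582731229448704982121185521884309586020113365810878804325305244518450979086530031626924747082929979709276983674510708660845215920575930535543609945017235727447970439611081089549704181956902296213728920189818008790079013574232654665899616745864326964156936957331932738144492332408876789764548876023169903391731059575981375081007978597041146937734980115189413121262073457348089203347189699931919839034458062980061717862015145616831616251386580314804824130245637968419432003352839180022521199291090064601742444710920135051254489607419983022431844442777912312972490672291367964425189097873174942140232669084509739096783140409480987683263244640583007429835705728500414590570139614431061782528804536356256807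087129157920642475492156439131848467489563576301892170733924376726158983690849986167613823567477840141531623192054626010081451942783548037985919543247781288221216406534762426238170877074285705798487427373057175785213534699128682204119391238286111643000908829447239505832214406650345953663757084720800897331425823763891563350576014730321344298447788725904501658061414820800286527652070832975791398886185120006283441900772899767289563232127610122440612545352655764272351541424068468935781841682429516026225976166047664239547396586793925525567103054136786727477478757331711301096014941398895338934178408409161917866160345469305188179586566107594147996892315504039208928700594287305658334165708387437361407071682295451834778943277945744015927853529341878613939025245582616167642854987799711493096376452822802063072290598364959396931337109669646117682001953915587291344877464409720298860747312204217606235377410690937651975030478248222153831053448709943821378815579622381799737513015688991985245113771059983466278066208720423643700976536719310637683966414009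208105163679888394211031509417100140401732351596296269053037825831203936108512714849474480958697241559492576991356701750048754573181736527144202800659947296944415014142384542254493899221613040484656387851952078825592592635760494419243183586644826629565049170440863573446125829336375769542434322083513749899910689945565668890693716559744743568134651635564741440297407528176531702833627486389507370411601614916147564412569925643045478373198541754197051889824840759321395378417627838949080379552318592294044577094983507368167673897612900833464669783720871838805627897749899072243542314008125805433631562527391227546310819062149247079383274406862150328331274276641521149918401703346425674355625022359747751115206588635333777057390622377507732176478472164934862068736481354619105310201441711374420040750172786710754502084256264868209318182734380411263013581234382064028762584787716816100170879635717504845578992978483112746162008855805185909225286992099137202057551084993373481743088486836108058565533144653120830235829909741540555371596653110084219457858201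641078678370049120045053926904234024139445988166084427943011731394478192365297454557306886437382862169804759003123556307362930840966761018246178465739951621017449280145218062755325172112742482105766994853199815689542587683520110697619063299332065160517329173268212537933342484625332363247674092993062617886084685191261340108409321846106540346312845381573733549465035661552796702927906537773144452044176121255981455785327467288490476578700644002938590025013950845550496339200238622321231353176930890340235477882388297191246531232017027891579323004595245881328532427176519302287332962147694681588769171650554257455622761527510006662548272757886535503116445478011744322180008789399159702781823207018973543549749832102620685855983603249117312261826927181468687178207130357188618035502505540249085716757459685084237573547151884013863573274699023324886392731770244368149881145059858732466973132919502880657754165485056859425248620962516918003585653079154970228416106434253352100817575290910011438007028551182882685976088387037032277699174741510090658358254406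635189778866011821007284910038339965234438199158153835740377827278963146512195778156600797694593119732676249401877849014534397409025730548201036691495719636291818868699532795679857026056710551001348630902978275833146347883448338737950117195798461439256858803753145693031072438892074048603187473380818435835809608225979522925331608270806169047210882582765057161384306706830538458369785154464686462870586401720363051515547366213026780914613033150329247904409339331247367610930713686491704106520459884693142807820909004222339318735384159978453747164417078768649020929596141610176515804463010211066234298199936682865189005205060685510101603061341826706673673255382500060868203736843278457288089052705518139931797982932912100878347400878722248336675425311577812764237051022623831013528144972604096376115990796939792386740171995489449318784864910238659677765762456438275359333075341829575115007984193960095453930428627912081719596303891190520040680509535085416483788929416233875079046584174798875189054832610144907802848802577338419308042671315364049248744733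66587632853837386566836574532285694094864238861758711595582752370156766183839813016984340332937805378826105411076159057616447678108981263641029460388265085670286378150190109105399464062863691379621464812628530851878614859132857669221157435519794122167110755327341466944347600081708629506315837793307081735403118895355732418659289300868194603553163735042921875813846401284398399231183832313666982221594327918895266962405064690049415658034493042035999054903819504689418421146337418190990411521680996559057934899375113229398127305289839784999623605566049285142509309789954887906901279130534799783628610875400106944003732905742688774379054197699499314995727077245236695512057026980399133800258581500917352842276371980921231748335122442447357352984313312950555414243580089383784786798628020967184082140199898935301819754658706420378622408020357303802791585172515045795313869520993322267869957791298620569040761362430009437566232463898599759298558734948480584410702428556319752444921226273160669045082733305113087520126928549965093955003983898092884135706257663661130819531080206998340543175311373589411809232021590051004141705101312)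

noncomputable def rc0 : Nat := (nat_lit 385865624847346002674950191451480190840345231250924501115091988741639864621864672720930922160049803534223390086394529799944873476409122364268382004170623794002760298929566552027995338036736476408901207287838451264189796865475835235207845825608870315059749220537935984066402105992654772692170195404587707713261229457351480687743094675026619528999292989503689482774370790633229560681023518134535697681056083726626966345060801143902217798179470229185155509841498613167012712606746575479188885422518478272160087856156381930563660717542263777815398212781994809494518530703128032856401785669346599447664108982869040789013853410618526737846240475909100305970628903678730155944863297565564436175378647048905773297932700502092232822079108857872392460932643997486177306750327508732380567457158097601721823982178466226203515102230291716941896983107404317043826157769220767831607138390174743659373749276464743579698452910030121594361736191657200069972291040365561844189076453216645429834472904368200804906603468107082505871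182980071549618998641921677842561666735063464011160182582881524124158296670043644894884873783081448907766574730127777772538719276167635898507712951816054524853387170218932998838348152472871267510277667764766007597463193046598542830375911544001597424668379913837724174906440406749629269632064382418485848744392979307768881964077543678368332578886544670463582160032658784191012423689279629981916265380264257546504699263867856202798989187030360075525235278279176850448982260866131915740285439791798131957927834760005272308207359618085106813627484030432454834278901015058147038689411106646910142657305587432537175406414482595499480089662677730974310651861219373138703570537204259150004662441813786503419758380932807087319385377491584961678756477297914449330046017605209483495246143839961766657001308297320138659354967690859183525552930103383791513790455449305111477730795750355220315739385137393520589042599996080039859098702146715900594637264572801505696736538608988001959940569594439483626242424221850188894194543309149973927404657300211697676178433586581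151186698053144403711238951897401650383557308927456001896205774191199525949569248516618219976597624126624375678690523270284595731016146304736457316833839928323000502056868994828659377973433225984723559134796707349585961907834607440185897802540715661585241510862698329799586012821738332069472684397700406569727447746484552502042945227581823656361867609550633335885192997270922623396521441823904507459406690053863059014454147514435833636565241582445799390685360059214309615453268804064824020040418898704674083119454482972936702539533666198584795279221445337312093396491171400862422108560347671788902466980642867021811685129692843737423751069459472872133786096208498125054879457275799155078130188220349512610593253547537784377837766305112284798781689219978048208446847493906577724083418166168728971978489396164413231616468738603341698254955849000285511169034974057171128792039192646130805200225140429631086870298541414037508530719902137298581933538987754716713511054951786739123096901654058765927961781088078954835383550957461713256503441563602759146125849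612698905189047970988798984873199981935064878384417175158656880176055183761304189600384948414243316447597949615228231785544436646568055352115612824080217701396498348348521539574388143165630581113246858455368103329107339420851506160342738775424919757134284719019042910780581651573347291147347468773126714185126981349367469479264406836003087906882859606744217933618074728475027409616446552947803614924901610283920301432679067227189082386293465983628042091533232703731655081013125373270107576639490356675357294123243857411182881741761466333659433638919278218885572092539847010441250559717937640643946086521500817855092246076978807663331306900919782276433008610877066669091553390551728011042973144846005000877858497448237131291996954381322392919250334937060192230381066874477671494749057205670895419546285125593626401289284008148502009327564244359751045796216559922780832335671209182501984945429306214675542816949128020178479382014383435808690243435634282070743303855172445403246576595507739614736563743644558320876918587386398943880313395096806245352699876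055197123553239412554073087639245218621319452081655760881882202934178389724339497562570164981244569224104257701237310851969247167649182087350395857107663007287759802306177636550252002520355000857541284944505541568849744012242836245908730420223419656023231630898414085513746993338789982372226965963797799577603445700774818646540297394518618891479378795783688727346270642639332457455117722072838746014555631985225854010753108985019447348933961519086312415608876035542442918472252670761602839201285934829801065063302895815545072755793936035580892439074020117875501597100473873298063523846453524939815837379169323707903198709514320382705893335664135140360625583312117002328278319383620860444116904675175720040959682197354487575411830812831728738194267949288718734310439178254761509870798211619867653370861769775111945395450148539468864236298576191813119265655069413820218159660055809516824775036061181594621164113693637137765110656392665552822576213090478430295323461003794078931263437059281531655179858586925041458548514344999758508257864084706835087675383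089570347966790305440811368992767857321041115954628704651737127384182780774029214157342168236539978518543929722946600677587700586502792853925327847825646173343220946680321588646881897121122644964065514947255346169048503752847481223404036851025297026054191293289139717290269832177319548117321155531651204079599510843034510276700261227154867973157958804145417232038281668615499487564623238857771405107751367343786605585631996086263039558724897567205514403349874057268562261617652450663511471591379398030545511653444752131335705220806160612531059370755770261323891908540374800715548358693847886070303767671215316488521606901351535406418566720090554951129437218345047957140790642638437552181736181899482624555721051913950526422791130902056934990142953213270823061521987224105049624906191047902879749398178157833142136635858132609015592606537523123313583512404129320818015519148959914174847388634383564130765415828750200636452567903460977020568695085412623969320878084643752336913853183616024343078199631479000755928151069418985484074174918088567961489012517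748807617128845589461849286899135786977042957389804673808580431490104040981031572400424314565980862734552897456017201256720616365405005547592188833622490736821619435986761895327083720628301238346880403571283950442690226796635820702507758119959626959862270012024572521509641864608772002634474381160704074975059368548425069629911833267162389769015376045996883005517465891489914193623201473364209130051890594662233563642773578860681491831467751274269442267858528038897553107511506788688170607277031800461235596332021951602503953453400993271003081377761332108225649024381210770366658426248146120039497001612409309038040202902833141703724812967662394237762955457978541326507853862380533337075450777447193482128852967019005918592253180569644682016630606227324419031412207861128191316115061920282551503319925051252131871605561793207965993082302862407989396108335336926623169228128074090608420724957161073405039655556268339272468303243241642012859519967234941102945890501794478650829979486619094146387150867584315760511218568150778192589235669306697688209590723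051823737280867631727654094244809721270078393514493555631204175649443136938133943808011589553360710934660875377393347476623793697069532728781741578512327299171116219282865782153230054714159345995305940257726943649979706168084435356093711578202074267516151099241121083728590224110624487788233914536001120732075574505219726625017541735405629468634811073549487178791565037289629405304764439645490381310222879194431824249517582393174869322206912503344623234905401915087697539237030124958303244311464762098065146485584158804180083410716038256834323009508558050061609322102966498699450161380890123823099861482202295667258532788326017947840089061718190875473741505865545804518047223760391916991375751557958817991106791672970241260228868693501233888496767382529525597694170081252696396775946931409811289613416790807690830878181849515671139701436783012144636843182745307712144101536109367531648592549675635912584212383516057187823568247635287724531797433147719830068200753619074370210276070862062617389740737108858752472569974680841523612807809726383603202160656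107504544401790667149049439338751984346365417966745132945616915562901219059109389773373831178487729294027461117089541348148682219905841734223944513515192662283872001763699260212583307348549771312224959295406999429350919805475364719113798860441421093103088212529602419189194470507378873599268186624736476878409569965442153958251422178846940326869580896025155155405562699834612746710304746378294205873655504740740484729496709836563318732366732832539260949934768464467352658580853813486666936382251963307828802930285195184414253113695702810671924730195877031710897584549255442574006996958153742335349645838994211639796144279467868478782406716532644976766937012472297043587879258293227936282344035587217736146398967306056181557121885324778305407423394567541533317690058457099909462124099267285392571742349382480585507983607842326576467472218483646947944409736923518871561769758239750904813663895496731267933410686342626787529988656436738562915934315696329961597088590371010187395106464383716430209939202328520600877901525623046799022390518875638429034245454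111363064628045155391845655585056605351570241873002317928343506110374636558296380921421440467100992297100760945768665190600874758960149625930105917113549875343204613440832464792521826721947887250454783258048422454167974069616618262600395052598096500543075515716074263346587014504668967929461392840757526826435826880368424311577973495167612915501885388182802073935590647402648202800695351856272664033469720178145075692443738958327739659684891323354304786800540188263121131605646550541685867259367513310038828537122098198736461731823109921825213931483885649618652563348277542108038169337071003082410192908846573446771021448088147354046990209197558521698423391073469837978154792528662382548648108081694419768000153985844673261592485017307768744059511613704336888183596436737763605403057969675890017440865261024832395602926756449960258195247321173621967879724718224393112077472629125851044356157383726675394701638991279782472470471412797995353890146595887790761260513712670988227256405511370731686581022754925670383797335913266493086306630102047025456983751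557035453883288371356221867903059511655612726998100899779949733976666919304066263402969385365719613800002739931255851521613993343318486138532792936855987944666910967050829675321949679629427397987640288052653746692105239588692267420073744202618992358384835953635875520556204971566802617577164355375479690337955827730939105748541907595295722664061199280207288740562526686899113111215390682802074477234049868323498399686974756309500697380953084025604089391770011639086875973836689884475744072812546639481408562779014805360860387080152093688757689093419540637207876166409183785114254061017782164794678484688675326711172377829094456871255859603467031591193594072460914359203749000854576773883446292726690355181260297610494421951257134956189098080187045945294245492635082733236451997496788429873622747794063966583030276195004115767890719930345713324616873802154796905041658377071705062859123282277499533300971148150739320905964302112445869021098246892921229857482695252978647187635271341072851593661960327119370096484387602874475669557767425150315336954782631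795269800402476840283951145520822673348488274163400783596537847749335996021998491941285857141816188540088504143242979866345624859854829170401824777030354799885978544183108240493064430274863537811458420957425178550956708467765037715568283793563409922287235146533685854806945267823001691616547258060566384584061860062150673008162906689880774561786868351875846098385292115218695000417288035639464752577722645841963532800858230662499807362592453727872072524138133856789327938001834588219018311700876157121285304970194416493286328119418338408371959600759546032574028704542661861439597156608820867715196869418811586401858299647038536689586617460318728413756705373221788049626255206476373396378670848858616239854501568465571266175732695359767474366779333289127008995622732349616683291893882416549936507010639278068590109120713437076925471920323636971636782947298347263815058561775285336404230065478645608285078048410521995567512661142884758577534475306655053779639391379180498454745017299572949202599510280342817570171929708750372504809648247958859817709704093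858776982138997917290395447882018148938330795633419021142846509755253133771654191573772676294208558487580037539663893532988262772676551354934076906619379586423994863933822829293188776530008446679862208847680893307795467062115700609857488269761237768964420866432034912153424836669343328273500213242593780271691557978441059515351993641302902628313460891640387027826573654138281134494026071544126538287736605201904547955133079607528711950037818170016418925495169132951429617927077250321195833978062366064043040902602888516440258839077052535818745179132484038686033128446284839281341222265370176841082458437667132888718592913607571913926101362284124413530685657840605920882280816949503927711267643924469348946375854444215516580988715692283569841608914920524584678368494266034844061526388602482281918306638319144758761910458676765086393254742296534815695003107000209571687050310205475780764827866476377645647417665866891018717172696119919512686872635281135044425283675032767529981399212426631230596231234626153939887638394118538624966180072071127162653331260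176844288274184877925458237023044244776202273987197605706190911219142099846432551644824662096068244173433797191532690503151902765792450925158213740875806479311767145894420506719283755594497931798276987302215937896012944646736836420359322303199675753465675697814834580527817152903777483152747631135141750096760386973115845927345955954486479946115204669807789430791211400723402636606842046837499476844943308383334634351211417130539998095211957117543351690875569116448605773405318782427238477933182198715311725841983082779311318155884776070023657241652113195624770354308590944283522801399790450219811751011723590843952321190808534503858262745078776251592267131732653081738270368603772921377672586376450443311387345191551269914129862373531984389541443607730829275833720297032523519512826605717112635761451111022471816477806046498284073959438363320290096688797914154263463624408777852415541743371350085295424536253986606023877720056366346374950819263239971065125100469055709143962465430685448003292669551900718496201874339770165867476773130375065021296744466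950605856529421411524501456528467685752331257283501950283285577472424472654654608047630012564103776767076347389618496084716332691655677140602428873751614884134534762139766691064933852705171283253094764535960848171829069086463246451454702880021766763737321510286673585093315582597959239674793394748502067664063132807967820035352063785349406322701296213541866224745132647468563365114604917155549878498008978398498525385095776955865322018718930559457982897954831515011671257810901676445930850620192083398437478073572083103567011465410235251442844961823332884191696089784388781780507987976192135534805942783273051111272091746790981130593772289546374835230338246266570835179223958331035330921888100768711318175722403496148339094651257277921769372995473704892683076013087856458720607632327150014827597972852658708651347729537889789771220021897471664866075988842884981695419545406765541212112634972480856207867513030318078388084425515686877553342899154142936704321619021352276134110478665142198230941750897406606556847732110333485601239102292383790775541049861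760008015219910588493097946656735633501707150930729482656483977727007772223238111226637976654108628537371203393046661177897588620453136340451028495064462830774858561398160044064936868357264666540187466757717572592518015912368196247188475343764521588177062650344144812298089859633686752451058825345557296354045267220983689495002254520401618802137413730562727023071188819099237080318546981016741371200370093446363671399563554356206947789921708599892854815830183346083095865292604326948511065228575911643258919429991543782509533210274598103170555488279280331962501036449893006056696033695438377338775916867937378882914536800784732751708299651484195082451075235322050093336524200118178300296636325216693192820525100272610088880898281902236471154497797846960503132914419715349090333751267874550813816497486024367138745634104747974252885522910573254838166730357238322597449625671289857390156294206731147534582465194115588802414584849015515582474253616015324882913755316579617845082134461689789824146697799043196871054068254949115461632944958001416501501712825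81883428947265289728012110030211369711253419597752041543724284646851558149208024417861314800450425869510036972537183100960044767674147818101990859905849557930291061242928137661546089333341877984932101135863649727118670390449097730827709722262257032917989688437833312860369760873221360278233480049726839386494524982201246633857362775964108138403319008533595755903244761921395369974711327999934526275911386576978913774558939521431014869400990729991068709057720989031771056515250679393473016948768779394957907738936932447955097010569989997108254175579986013458609536051804730688637862575333000548178620871034132032052556992565494636390102774843915582659556059569067192131070376221159359043912260369751903099496781144303520508335912080766464260146969269774024774375330040679385293466323469375225785424108596491936335898338599107324683933819634628010055293168780673539459100553614332404676628571233669876689759400946713872774106444918151843500559190503115679976391369675256546976792577420453970607054558634423081871548634388182712799512121716176677883294616088974579757556946256708389678126743743174483567659211005955949602264842240)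

noncomputable def rc1 : Nat := (nat_lit 386280246353691960267004354330299454082275639325760923676936676824185552194569434526139027477675204348162501095633134970949698421277070781535090933897374958229795659786084013433719881034532033888673831536348604095770722527207073614069050259872475154481192075148567693837810406560223963962412727612790496920171294400388177276079648180498900086501181387507365624254251366657937137675348377514874418269574645295599269669572764271566573346714406564434821926378255641697020952749824684503352459777251080884837044314888756627324855929748967570402079387656399031147790970169786108283058177748134988469738985900624794160878475277826280882383474363709044355253295118014059551322793695832989708464674267659594279176859434833016370391171556089352293007480285323252119820425166334204612248627379078325921040155349560887417627102454830298559833492211178399128695933793745814400757089380512221680995002690232102224327015389893892157195515860604662626767687028286420210170567622481910285167549910177645928380564038961953426265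225298162312955202744133925683857019895201982806486905980614070670284250132307480377575688015883710725494172943668870203123504530217156012170543750205092625424419751397804055983633004925673921692014939099281883650496385533735536429457364999315007318243918600867913121613837268334195017753002576807209986533169288390792351439390036464423182770207211529778032701076012600215812650176846419631286350531444924546412851024970120828760385261523929370905189401371250010488556300898870898945526941650411928982949603687036852070652147711801772587744874882559779026654971796159291534609812519537695938550484211078200394723404813404203565188850365791357653920428907302515554519601411781866804952928528935885052700396899255199118774789159481651631591526703816606660486152615183755235338784138644101998951993118148998403321611220607201206519070775807553251652658024435443540130330970002375752766702128140619196092300643555252963649816551268262375894365175514312127135204292356942597150511698102719205424049988689531752639913666690044562901474487469290963326962493310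292514476091492391110336217177795512498436905243467278463478393074728178114920197991784433977104013794961598759218229537897387744410775586883571897868791990199884484829893385408566768731581742019723049807014384387570455942592059914861230143967179300741241006688110659260467770291226078071876485749685342428364118550595311214539879504845626910046446881972032645658783174816937386402111784354619123123053055550696311491568328858612889408391983741190403258206894023208286605404018298359427586143614155125367475070362325863579026529934577059989247339035836446007085250390531825686421596877893151801791688699886542369022216071838808666545548250023962773635979395755473306486357315322459377169359953861211761325564531746813684126759798680607118403628368984108044613394766897492613856465975579259803170337010213331779300301561359044913030939796569300601019591536114884840633418025562289661037685594013850867971892578953600674138584907323912009299583378000488999650301761088991617804195483569501252287651553494635966836126065116578143137253649049522808298570186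966610594550266574540632549909790135025447696119487622025613245222096789572113444891366640175873923403405050796588594152412300542120490072875902655848489960568460006281078635966788593268813269911504445326363350192266749131458314630733538853886146284143971167907873598372156886644376240867121321451242090778058047701273419337037671539156689887450485611664020781645413804131834846101127942274016459497781637544627028496212472840299337088126661346678232067714902774501055047292566029796837091761901973128538106193371251316001270135926585322527114050402301932761791463941138553362821176806787231341532763372794483837985792638709104863330326477510186364560099042947716752611638843169777257093901784565831380203162553147795490639494473702131323268040981183465164958596247825889962116577737468101941558723430408667932540107470141720827853483083476718356690572413903075677777005708740537221217335119451394594697150011178007295153435130079273414874593286445843898722083821340071172572715986225297761861328925293972603906278963977545955364495443315550803105094622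333180095899870989641860216761548232631347124202705692299938691507076490179221800727929218344671611457729468148380305604979804912946099763820790142712611421717590635532291951737396290242605644659540014761026770012902641721327495103618596674864668227534967564462927720902978040760922073694816699786941965952091926040997284211538719184754488316874920903689802274740378189766169920806673382173192672726659751790232499741637974287642433220263514235432177531813259194307732846747872101943320437698812712467527669686075958051916857660532131503839539233637598740146603010192518042805241269986111092812436603151992230451342828331021939702896705840877798990169285812930694831920797049877279452492015490286664814526242830928600330807308479119729457157529293275058130662584542022491442980411826019294791261758047346368553972083126069806800555035178551102264993958693226065833232689031818275190929808750362463333603338324103640018987823854815612198869945137508896502896074251282527454401678775785597782064708915257394196444677160438367374804513142834504263728059655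077618981309193942835511074580213497127162513619821034987859177480466438823353230386485936619693384803678062792065101278125005085898838301960822501664405825146852475507716413211482338703430644737924599492992410906203568669667241068182921732173409822993292840294301357204192729800216131772218643816936055955383786397015567924581413429273357874905784028100100132572784197242054910339794072131770278542494848598618820606101982480764770801096853179608462551785238265904046428969456228524385761261200045882111898681685701238767478548549005664746389447315296355152153197558456019438728551957054286096241996427306580481257866828644751604303985496542756242343888303034774971832474088832761663267761923552112357582046772834822505066155098281716859373459782271091942193788340996076967408040128127601412350344061852907860608270328675429325792739346960016635561009075227220226518380919764362085301190784638630217814958489899277891899428698159962804114639390248908705137411176599439035504060180690210049678717716113932085800521944044946793145769258223536012963224727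459211111423927801801270260281209687278394672600800883318827212443816177981727421268984424101803307461879144883641404689765863324451487350722045122267438133215297583722175814146782435428917982729838041014436356189866773963481442809900965396695638802388654732252267520353433149850354380323833787411515381719679418747843514125172001886211054202471535849948917858217950286154266998741776829318380564345897782702856258577834146764549649935246499436156400763624420441852376622374330586381176315805580271709514967571617489276455794634080889775306401220141972745043811387697448420400583677841045400488021999704801693541443232082372789791676389540204856099088343086015861926019097135860776672364043057667827070701780206825584327648558318881919633274552051605615002921687645219269082636295842480942000000823315295232549979967882950843735332845876352057936276586036722530948820454329014521299512558362138427560709735782538544074415326785082882540723093835761343815957096746305057613127918604885261082767539133160563509167357498754851210117460160906957631129859489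321121198520925684022171409567178795498977192081524232073349859962180710204158583272860423316042658662041177353524443514938703319814808528228709461353558094093871042731624587589516947644133900280203102682976873407071388100308765814915108561687186802456472482958417748075775479817129008017028157492214356683145467831407861494554068585381714117069825156030551901835265733488562351237169455706405018290337694542540909568197823812517141906957889642367794648158135892384013526609568837672916940108454320478148295973010402655000852487508255389783014767884503933926918090156608134190669443415170481591228294565289228014944185003033090014481222682450253352425102262635782974365288956737660049132721495479999125025926439738447136005182841788549271867151221499895943882840573938028120770361025290384077745838456121937776700402589735900087091946171407538644173293209528607218984561030301341448875331784139116285960074081054781917354541380849769112780279884178259691933481355856032379663789353168141454459959892114074615340309415903448753460187997472293117228726088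648767362939503346555899134203280678057290484747585637798917228984806968005007942137829713022456623130089610914799045941284210216546682556877790662177955241559734693731703275296954337748867660077894247196464566593029777584619181962201392477896975401863805308389648777832579967045361808024787434870939916317231518958248434416313628244030418399024627513778226442646238296396624696207098034299168311226365604592370072877390011264973555317961806245679054462622210221667097066132305956046782829232227100072186714896854605370321534094869211988320478052189098752672997867411727175639541364308582582412007118627252300825199569304675946173835718897856924339545633455166247454370866819094479732407190736020048739175578839240822415826857445263407375636617050628679649956892742567442251229913316951441140080721917929476885217802170384527463230357914608561327767105199478920897012652826318094352338638678417727126554213754109232521019978282025232155309609847158415135815718544995866726533694433902444206450298886785818876854588380204682353332622570856670697814320738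694174978538364721789388459589357191344259320521616887312914077870537501068606721750085195600881258804345951225160642276337672159683969901455327012487380907097494882155513505105632444496496805797458035971297316971006329593821148698994745081159854003004012090575563612526441709838452049610273620277256467224559357974906064883132757376804305128456035732257929579478039805610819970592727561172140807655882267944599783801299737188555949510742503241868591509306639343033014232986072174497612136828064215372680530994511964249143000687871561450716202230377172269363857473275437291705745540466246246785867185931385556473932394023579219575568517819995199214565309532113838517268511193558919966931851395488180877235448861205497961502317298445360101018076071765279623752688316787537674523510885254446410566559866771467211950194939273085351109547326308901506271271211956619317529441142874772752172339589448220919170661505130856620786396068688192333577163441574539651638726459812702689187231140781148080286197874400547882515754635400535148703837407454419093518632693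071889258730426752115613047810394175360031542679471718618064845295849724533972584539185352067160137367577109661360139824760841359050211534029982208091009066886299154561170555623566542362739193387654828013422002850951623615068212688010047765610417615695637138141110716162923106723641649933434054680264500830250487926460223312463180547990662206936100666491759239419071502898690073154580869033105083478872705688427524096217873658647348710426674629271154828803195447152092912394462286367105906477973085322569552043229811098749343950110072278743919342333987453116022913198098177344241886851435007378470600288807568658370076558061360620326198882539725719143238244814250782864521248046361776728444528988274183199180842803581668442981850491298482351677225881098059334919458625112370884446960352653312669424888474348568045998540136903861290721198201664852568119992803009346045797298307240276906578029705741311239460870000721872621105297684754718340150893071473306323092189128653262830297159216348412612582165487847373629125047653538903551185570810803433204410269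653023354384070104274431467171320766516952006917838653286723438116097273407074834878413976189907423093413285282268041056914640966276880925544863536944244445744899001434294927631556961556575930085161721716614357868224028212111235851122612507900246101224429905713846587418625524524236759395402202524500674255903856410462462717927800644522201570847613450668050823525348148932634511713518937954603579851660978064667028959169100925620759183947691639209857774915331226148924105332770092251527625500456633746937357249434591456441739236980622506018350993469153641255395378420578857952172206674043676949468750851961718213218339496126015254828311542096952860585462729190062061648875357942341084048915414106691891791672431927428016680569830669040041911891890057390999953982583771179627309130697504320885031747217846657713781892198459777512091079001369143738797072031117056172589535765562961761225516644186678962653702977112213305586187067195787682893511738853237534394417914330806497950166828717186132143556014700550364002408613918716334008270175404244187594428136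026120469197407268124149810685072617537413793329611125058709401389491427259354792017242057322300417221744459925760478696957637134740000950061092647489545324889720088119936486825696582881407489347030134016444986272795433337009957939328780312934132978745657713076881341949011429153648788617003479531977905867262026036181211316479019905556846043604264844865620876624264961276807997564503907922246665776022327643054029163129505028385835854070578432750251962859416273795758592309966799420014853652582332676228054055400902020197644746250679147632437742856335267225963825742115080073337856728822435424805396925228069458106502552117295208153654100864322146991504232634638610743677834779268892017306059155367666502489164968762615969382308796303330502766981207128932221806501670916474919268477316353844010266821943796051097293778004636870643828860163201864902802074648677732082879064268991239594759519009246863482535858564158932411215643219274760461769852132887540593284357047854941651585858384247475281072355676005805348067713124340041809161441986315679873884876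817965614223448348528551209387868047246141167042524302831656542041180566651408180214519797571948331738510094310082954296632199417695570622819664506031226668604325729305574808360339466320099615680700961856599217535001286742582486177812751375173016077315799425045538457877046032194422224767370013123342292360487905788748353426098909630432017709913671682878678166175002225996022751038970161542206605033031582937890801640111436494488470082312312418164414140502635503337432027032636010579567377496540576423127150894039243423818572518480254601999699942092151410503266524628743789532033500384295108675391838581941376476504753833802473891897007180083601706501408589281710062212352856443009368534973363052874230180507891367147496941526202085769066890675090658356577163174019223415495632324951145928034063313925970825670062392652616487816998752489093330133478582751468194356674384630671719088265448360704346877252887033941440487599033719412999666857909465796334567186402609858397364498769554988499149659936077009748929268879309788512284438889215007187482831086638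780341491770962220688211379719648972616519195969476063264073218910604567470163809384916637747179847181135433815070747299799395469748524851199277745518976583211546364541308547586696792908063031039377314148822455832411733533423969757198922789801186477747779118363150740800028398178381101716824907272283990369448642860278283714445764158490540114428480491396580683807650480798560872210426554820973814727443082528379009971328391524483483080390391859717303082339836929233742126566173205693475799404279876961693755455099894679888186191929824527270099419019839084676793526824230930602781762304237631612643697957533710312486938796278750083032053851871042749365429844800047118590057863348834416931282146433436599319305827156438204522890554918577685432378716309922423036097320408646961421863533589488856188573817643260952318404965023632255254221962662120956717795072061058645252143716840275246420073398953608724478860713173884732439727210798895723579597338712592677802923047327149319270052807869770985482552186514033756545360264499286317392816276082817740385601661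011607777133943574795174590987701566218928695104850304183663152897861344057778467495862603493528860983015954913423420710674604661516798811585411298519086629897269115747963186681944967337375066935744618377902887520013732234680085028200287722587597240938907436670483320408960182926211790953950801890389694529720803465383029784828655783824912673474505871353083004830420560745433941093835163396831910249441113589714303062435566005220763984099441828498540348165317372692720955185532923896849710576296853772398031050085166326784723573369790271951380839548620776408227092398396387469598787749777398666075205584290411518347037093277671432276255869838103837174795503387769231386425279494564003977433410915190450171532909556285438363155152218693600924563125746189417787262360597420870380168095658939902372655659325276719341887012208161166016369591332259685066792297271451468587703210790896845173594106822258120644930342350138064793096472745934938799129278714653988225756668379697130030966791289390584535748769519257826551215036705790626273321026172357724108352678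41297603859848353587317475754965246244651585120002883152459250936036834214517061427617039135989446288301912930885196086934529855789371876171299885699835186163548794218371076759797250144018464366616771954247751529893704385921924809028610400590585058022118762870951492613658702829090542109259041778603419385993554110775988685069520081883511546293658664711835285328908243681777628909738995066357763442307772439753803417155561387878126144784965195137498641726956970608396118681635771535574924052426829456717707258422666979390322631886349202284643516582714592206938765531988086877523794512853053193605038074281495332920527618192843406925496800498986421724242922715677696098659177612088734654979773578796518831638787997779834402686716473935769335010377030036772301431694796677506044924758930957759132816425589504854322858765792970769691296366209394560648720407791677755482448352118427915130359254281935865492075103064532155232533587758296199576274168508483685994966197171510225544106275482736162632277170239896773259688442314976333295181580707115523306114974609247889556368462600079035291203813684045917942898509000219035698494177280)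

noncomputable def rc2 : Nat := (nat_lit 386689866538753694313063893178013206332679144985590635211668989818788576281360107087024885691317036786507951345638918934270422350374777123803816433979188013914268603419013621326973026576615051653923432079692820200936468036864284243058504464741772175538607739742313514330833555984973514166348470553912365195280977535769762280400319257712307245412952932090828855110507171822348458415904413222446369383752581761444243888162276926768336386753725391694708612350769986435278165269220290773762989637964237558126001435266328155656141125617051743969515699730390915536535961589185780117419234192845968787672600087491949831695220865993487458459634119282942474520561244631677647600167143177867572721685249109942439212749376794003881611891218087175130820743809764050518394724997479596785279782074729193370468317475171928297279667524663572940098519717626231545194044370638790735599645163220891134205835247486609420542394703667790260216823247522016446685530660857369493899696460338007473802789857145417341783802984478251279434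687143018992653647740665458071836282072652349625109951246241432491550879459017269720149836538505401123285907016599133472053998123742363864953413569328716363363792028338907393456780639519440897319457033160233743187343244650738088823707983163550272690034582835217458716354997330406081486441226515831133033261447150688470660127527718429104846156836878414710473601104086643510895372073932762939812324895427354613460319989482169148910094313995850451078316190463750438329049747102112892198838302707540068100889490891644242729213290324838518009250478916806071912988476602980336882108903711069119040096725719482608503102410414992722413886650783931552610057892521591466223689322689855613266090748219609019437617704940167603027473066926267305771858404499268658896178189744326875592061951064786736217797283307965190814022062781842788506162342361328367112865753972271490300244459000756569754420077471484023722268766807706536540876467207587370457474273541656081864632091805875128570906052151720578642625533800058688119459227782500882708170675767666804323698076180085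104524992623658036902582123869288654380984313213765988536682168988119339981294536261534444033506692696573507227761032454635642676532040721461740692212824561228352740585136002265036109910911981136548879286030742593579656519958402803394482877806390645623310275699156886054834136828909893655468238445751318858633044185920008617493538681939890221201599490076656554521437853191880327156121320768883458697968387417800975476853931902978681991850268638623297456304556434539228882341453765056968639953852627034037766578188774924377536823769352581941753939187836883066688637377351816532616232253669403503229125509300066797076514943177299473278381856404180048647564993338609151926080607386572247701049592403720135111175430885424458733118009626237720970053556721394584577866863218059801788341071676935921309161800033867605724592329880556902798477692618690790860931603360514443597283309141129321302905586378965595261953811329863371115863405829155524718966114820062072646347338315230766959805155452623983010885382105615409919525426770585015673583457380467987228698957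948905082060438575231901581006230705402269333803312162617252856301769987639899971033590780059112205486403520221391001453950931810165956073575888389967677063042628353039243040109623206640937161273066170357063477373896818620162906451218341593838872452202266672888240513059045985581702371775307809094383092075162527727876882259801188516250448782855237842487923782702285735522212772684481548500672152719440524225913866988695946900677952637498162031608754895503852103107726917858327139302500404585426522350629933071261072160400091770896661009196807212083206634657995197412463950163519092192896354545457561810631463535132188952435952019620407000993542169937944338307070705291761230288146864796540922205459145461998469212480099546920137045982530494245909104919529662958946268748170766890139643057151908189885578142041339363833876171577203170772977396980488687149067986174468001266451938934374895143453050655695784383652661975200763613652889254415221837969843179787310887614689030205216642558857748825396746539836062329583011352547327151352519851895254984662712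318307145510831438674554804486148903732517351010373162252492127758342847864247471676295412557585230654575654243514072580982454249814158433649308887388292795087178139554711471676808338955572104709962419897279568039978766933644806775322739264084643532279773752610595551238746271239542489546912910937085551152009467751487303493380022332758109933882070748652866085244111803425473026925345136300035257388567344537859761133551831816832370246341055934460056457019071508217665727474835316542064856677710667289181548206445057710286470961546978220505893003494741766809391112587715110633413609474348507609084521830787775180199595331302736042707990760932567261691633457849662334763270888298575208666631574072287266596714707382868047518080965455460535178009572046048396649530088087594031481519508636860450808688036400118668046432647337983822253848433700486636881970590766345191339773863632800371595686935491915367201427652315862897792812466032861201923768977053832250045833754250735931488692204562983544672158874791540230355962438534249014069296332869588797461281177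589981679511915305988843714151552971716563657423401116207340364235180588980714438863429515901338316821200641300548845389684121257900904201913725296353057432511702507292273116572738764760648958630532951865635876440717281973308988975320060147917624131332284447212753882405335005846124126828156617259659277554455575257227401094863850283228723267442697261471043095538732035226792860511311475392446627880152440946836726128076225511189189437261585977375985902365603210641910293766406339122593309485154894041340945242345010070235605704039441301205083534539516993410532047470963198845043922731512726247220487271684338886390318811054028488088009627597244909932641254833591196928923192120689644961088628650757288592189148299253808808909636231923872177667944158555909677060931129268469695534131171287337629421199112528114771990879086812992726625957373659067067180335920300818572402448958405463199449827419672903470642382150683137924441712280271955822889626289794030500628408510260943881780454840614355408929795849915681759950051173006860603113605041267641312936100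860012978944105498250133147067149598405668384410874205133520704962879958014173053111999766117582046644252033375953086780782523909730830416420057843381546389372385088398161900381878278288623176193989530074284770698715058159124914065846580284527208239283122105864780556798786473483363925374377832453602174195426548070255473845492349992932243366976971554182342786762624136141745068624614859331801344750993471449746179658081393931622550024821550372014112015779637405157090445509461455026682166455996433583031445573941939529222901496556192709442953806278676418805433858881026141891939568851102988008534139644826172937598352788204109937330163248087337146015762518513078651463667660589250374502710860314186476477228061401920068812489902031038682652755656915823075949158477397056802178547297207769446654309585092013763108968288153291112600765401832227610680872421693414690535965864684914705532569291591599514857666359322982489267231209932125512532948059363983292886179818340275242688040944654789658843430279661919783060783044039592947730606447610671811803507976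312212605542334549043597463781596338436321432825304654870841753459538263671945058849681336166537698995114876254236897422907297014365662687997603227127908382576310142988637815517885838220972224321288854442077573217774648937546471352508934336189407644132883602567194078607402107007359095548431506231674136011054851113014014042974185279960886422355924458227617743646409253269814249173170987817855993211017499626728427389354741668124594070935475555254248640573954020599289573367145148723022197470882902623687843855489476476239214854943305182539904441359744111702900918857861435480786776558461366754143496267595289994830740743281852846097555948317378505715674486504536851606849569887261127657705914675844488202665516895913991051155558670101287477240758834914492141122504483800714621492627539801594970363579933908725845539300936983329113886818435080740409344051360640126658679844563768771951883319032103507004233948874086293406419350472903589346089537576627687313866070608077264115400178016605647359763301469791721880168964014169947604629500014308801635165632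712414085584733776446331158084306147040045993404553775583377595201309773680211436637660078037530040688675359072719591221965872687384953312510739570041300877436612891557596554485780355084862251097054587723363551218619193140107957235686255213178459208761743989051667352078188549329264650645001939368068410948143919829050016997130917649008820481200451159123006459528802156009345811017876813708161340738302959418971608384678399048212422555219423397458479517271065187619750430900205531813307859012167062668138346661448010178733621033910813171225251904308407011784277652474185789709243225498004384603815693392842838198151355226816158730107645835852377154341285998774018595650465559705924045230341611181014968337485294236843327012775282066091304003074650604053723927554013066364779427496774166424939860564031834551572829581249311050038415381609117044283773267393694554366436009444480721662108949668438712887669528385727467607435778120881872642127162813264179613373997363157081142009860568893421925289676713453796944323380978436357073003003730231141312145688460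883978964599799375501220209953782281891475812725003498184918297175726786548222970628047190130784478558039457557397457909690514708456417212936761213251140791667338454561117851029913416078494424578791178914864091252694857067396772243119363339438948389372914037510234568966206513259629714040707492730747026812618717038741212766301261307606409969075935618406088418237467474317740061978922235749098878617932741085672787814578044522872649614776029982095319830580026550028738640344359481972989899132856680625130528290410941794827007977214180489641769609050207122367298586716074602146534887120083987514925412050082688935230498813900015452418931509723511845941721760402648553958930948091333282184385870802060557848903908786333583247333794714330165799718857497434123513577470397349465940225688932044740946093347004328322245407897898441011539741478696060813216465503795529284913506756947132709030892882710458692518728604073263574624826059404608942685272378194720055283275062260882069807722940803063668325128438949499629944932569347514832103354846229396380706496084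346153976363946762439240824159513201307028976196983790887421931130576176056871112655793283574256695704294578327041133360201698968137755272903459138622867729659775082894578485675218034920214167531640457908226500140363107605891230767424973017992603899071591701265641422398844527473123998296545941128480527211724103031979327592720515055929352835807770921584634213747079837462444955239823596566771622005675099552489406181592749846811096595514600473643200501910078781885986984552886884619987617218360761505184492184215749539285221057746791553935650511074192960851531261304468946057096895821049168774271762212837395751285112150546625659036212445032314867377755013117667199908439705744622701312178626091884015810209143398384912264850502712256195153123744903627132539284735199625174611920788621982833160482070353472212697015622989609527560464443430703568402678955710022200841701624110379491215191481480229785017510512509885878451857454286759045658953277842151700989284430679997092054553842880275789648942660012787097815802442108691574547981930773435597407222571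608186781733319204311290217836858848057034281691039955080371406797594897252104473428147034347595063070206332750717122384989905623249663734493896602148832748675510087926738778193616826959613590173301791637681060282488367372744578363459562371566135389489507119319187796593334071421882013030090241480314628216193265356556379011990531508180884750530895992706383753312759157955096695142207483360596190447270965019742851434373727692873385587842622480989797418003807308887452722765026115042204355752863045388957104193930717010964876559971477965177478840298269189826372845612405476274075225635442139065339958614647553635276952794244637718149758120364861494251735481026830457473182101545928133343860930416399112426413039582552912707425299557294467111471862871011184674346052402153896540287464814228488002590762521040539794668435246350392764723738570403504700149729833312229568327105517646197465480112543978134852301360150543479782184296641675846340294210109091634285264737281950018329258920311642538496289669358864873464394909029590035719406714664612243299469086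090123216419637374462593489596481504917169684256552844841280272309427855208991441383373946349098575551793681951481926941343928999149994953956227003946186403704933014113145712857064905676854672074240178204407208938905002974384691401934864864314362151795233053983170659611568904162592745616938294605254413214015934570977691133455196653849587099488652084125841138920166520508100323920360529968389123526875112535678438745899484136920059069137642791026112004806607320406602205837798089198071812762570115790212401009870402671032007168583429900901641990756126203712054950246093395641968751488417132292640842758762265208893198682141790619533282155509119565454458398725747439318740767119479625544421452182662726131813728532522674416212521384376335670746291878471202335810258726955852081131543944153007438690685450077800058458088783287456184892868287386692515865234853926676221780394485337099871535775942365125866678975355181272258848061339008983354324962742969205153796086013694273120746890476986546545408723593220504585720916454903335427961318875513892416970880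181335198221297994856546777336119970096091481860052611667086725429576263919134440086143063163436911791404392136812313347068637483633090231226000272396026025983664797374594037861229893485438702781656219426066879061340204396374817990733336423776481181191246593869633976231177669119406679980611887256888897687043908741861574830261830651481829315258770212984482207932531596973734535747811384962358384306912486169845982437779272457507342994022874103528754106888244650423568222003952428380687703864331274666341730449960561584518922543970955020250728536682274998075311452131362465938031945603393941613785009608517574095996802654599310344379594757687498556158394597919533551298986635771233218080978956490564641912939825615792504595089247353525738859742417132095387381628880717149675623944663841290009071921150945295269838236758607479487203797562228284433499953233689089198943924682051349946867650482461469749068887301736052758571255633174605359002612270613848684419713076506289731932782521866873396430462791718548584858838511429622474222372001973050819819534151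610598734714988958508028808001697841637864525117419690444310767477399105489344070224187579428384492955331452300304928262581511407214195635841697080216222062247560519626623524248694028255251628582615919478584108016772686401615550550154390918366493945347042474652002658385748499877494634797744714271125602048459655793526851495565609066147068222107292865020421601095296207706315894011546962555856240166160657556020921861155206047944650849073667842289391894812929622548810932304280358864501546465425090532569390002586094454663307212882057184315317808185205849645326054493240354381023795619826331312885285378308310821807197259948489588800156251303270602406901601317585562595245362549433307591137965850896727351676519358442019531618392224295550048367452454935669535676742113601086286802016114104052790701091208284105070148802598339998863279586878028029974055709191954768999301876664678043536010080395336682662488824777299904779682811491818972481858323077959581232119868131905832376001254144931174997394583578959070624988420780973952491571930685070969785412032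412048826915827591639716452285230399722653370099135236390243370468918982062418184849521747875333616490575600793198623057065166380507824915651301427365104416880620232321544637902721669733319717324979057066910490261025036813631577618319826367167582358555251724112639851136643209141758644951592611021724983116601414690925653821731407468826000237015119426571871567684134458105643331430038611900598517461067559372991269994619647951643106917261096486787168825923474410364990708845200192963386578457408982371144530013818553529908274529318048344003111469941508206036772400717447133406872887029252979517543184480166867829296573765734129703057743417086779935517580935103171127470720027527465325348019217546880566299438891680736794163350105852653109054226300943560426803944222273272717880270797247106281174727696992327271797543900366947872008927112267538722813968563440020158934093160671461884244528901865659116360849710475026570752761962521129897542969110922479098466974686766375194091440251441429377432615767931393304940003070102256058201414944122407711065493655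79438709108028505735941749082799525633633991427665193663387426509502440915499262761729747708891461649571279900142613746897499431312276473686354669483801625868584500311088191467879734747473868579116301059796918108580079248433901836918577459813281481892959474036128065289067820496964339304608927230276414997352523740796674607881452543339489075422678595788628126131816233298262837195667384444448183064768496169649059441100425223542283940868568706728064273505295081864350694339438553444076148579256647882878075615156033351520971470665236401459954962704633938597619430819783867071710051692517071852159342080256582758893810432730128144981129536377463779011953654181564540412124546297065905230992647795848715642160922738889891949483889101353659627100332966006008327447627257936132588125132359618503432501442056670226035487563831020969236317840911571190362478294598125117323365148251462886699823636542182502969220601546282752657299127160525260813885294491939454867553356333232146409901092745919732806754256120435291836109371159138378973477049112283080636875664126491868555183310715651106644617988226576767739220289358961548094573903872)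

noncomputable def rc3 : Nat := (nat_lit 387094297525110722988331828375024393035304834162007017797723769176634726567785379789959437207301678291028522155726692946796372157422041767155608247823904467424397738236395686596588982643584364793491703970185674483949570041718530008674149700644024901332248442073885327059848316304706823315888045498876936781608636275789453647727960814846146376988145192430964536306698155845329815091969133743720128133780367863846005792146086444579269118091586154269952407344060205314562033072845096935552295573649184850347081861375766248167908746597298426775930662310903993161021303771108505921824523001168163244944379201819715967781751143926342248164860470610965059688197877745080336136786549736079269708107371972741897896264133967622142748024486234999626708132403607310087665514601171731576907944008289238120930859725160047437635950971625603751641721011646628609287902283782620005737189177020810391972245514940331426531242082748883974434238890920613455690614172940774240070778912007683016947957207135994626501282920781273090478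808495782827580147609623721059660123130658780944361917447290106382847181627034039599043907299246002468941413900316204578703201014003143189092960834334732566036683329838310397795654078322131147159351431057131252887160511647881041429601968134520477888648347167637847506434470265962736940437822917911075446009171308271728038894842433935480854489016393098609288292024269089801990655241021331090146013523945076154495409601443944188153121784196388475476736094898472860721004698103803826235757122438184010479824239455518052527070799641397490881532135275136686012129767524053581753927612192730761489333201864309468894006525275828066649822684659751375924648325262960671769217637345352402183135126189863171359493390905238517979193428121101033783076652812702447280364418070262067725077824673525357686053139227815014591497840823225452878439305515779841389376329016995763346852857760382181736252733603864737818215414875396646814273616819608341180468036764166374498018105366363492042069170614208624757928712485196147195296877647061584215746328916853462144869204036123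669606207729764150481458441690338854569410503473134043150590807071496120715120394087294110199484981026566573579067505636523607153787667442893725934547478473884601795758082164250635870138387576751573208760132829029791212055743198709731866969962497658397526055898667775355048260425692474177563969717012110760941024721466212037060629546642961751297700278581494484330342870210047208988691903952435774819457215650798868472351253322766775853128542512006202203193379825118249503330320130725655891870932152137053435419657682483424798840900265925947868602368459514276233683586241173226227810894432577630924677259770235403190408394417684925576986575025897496499399411382623839570465587971055478177507377284294822201243568557932620428262333306133097132401088032257253371931561428864293795262350256785539837162603985021370691483959678414998827903150788880062090148191957346652444280984747538800481586747008201235884130428513382004192662886152105629100230168216542388209896697560365599681368525386745194193161050950014473749701706731295394052189461606413327890720703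999381669295024937192253428454805219743100658476600224585060150882440367393633337085500575768049219439317272401575874678781042322472760113437220177818867610645199999355338788713922761069538658596481868077884016777869851151587506986456566030530794961545583730714400996535250823512929600242562743332678044361622121640313056199205927131128099763301286850850401769433492372522965383677735411691523642585718291955221620119472309224578142923685620346008209169644625006035877175273145564276734698571566758973653979279055224918396928667162396696125023051886028274088813306377352748680899713950572996222285088940308381077198420346845756225703787883484623394300012348341160925966125663543751822208592370734633407383047901476610738592910960322465679523258980362173184873810850274483266952981454928129608240166437811656196795421967702994047188782580337550334514250059423499287868529286718948176298206089754632032865629111656975141187411102157485499963663540515607266274195607726642728648660554435185030873962878290180735237991915196472570065826101860467299730521402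246575054841454470499650913464640391764582033142046903312522356114202930485983691356659816609865407929441323464713991642332381125355696501340607752725370965907194996328552296329488261320494811231231573991378008624558807003217227194350997701440471017191518944416455899276682277017674911668389760436355614775071021490888508610253230273201688904233750876323877215867207818073293854431889826186372445781958247247827250246854929148102981281975446785901447604662721186005394201277610015878574199710603040438869776438385394258034082571966046389151383908857571327753982533009859733497118024789196861374811702536184526000132597947381723111163146730947550361537801684368017605315895176442241960618715053425060235417720095920515458302005816404556388380414605212827388947515544548342746713283139442324889656451373107137008908282648323040842891314904065819833479894109063079849818949615580631791222348102351349719420808994507490824592629705838975993401792094356883993362915644916104229998084322231959355860372334137457997006758212161577969985631881851039253054627073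718127437707585424981018252597953828410251554494735942660932418718973878776471807762246948870409873295639913912424957802585622067541525135980696114174345106134153294715087751664213506534650526396415048650195371772274493385915489339210642761824059464362384699131895204840306501857075392010708516383937774745739823252331520074689438502177580857710790325536856627070223640108417921494938426189540834299525655184021903441392679355308538776784503132927687641369342129125476264257638903102542696578650848159816999491018399996521662188206898102832152936921879205786918292076050421618100895631387883324101087362290612154700483181352731244016040794931110925993701827997835917713421268211022312154887800113334265131472606437265656799978883835828072702071933458639796048704033446679935871261478699477004250441099528405076618670965499480225133405621466662107603512167629003525733592549650388119181325480498347939716645686081950476615370706765815093406795841108596263589728583901161091001972068420588835956105030648266123703620717722922321869923474898582456872283250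172327805729295993561784714365550316699332623552419646119689545193643295147361683310949003877280129866390557262120108222099593116996896041876482993924315571492236127107331458884156126553028965597560558434714556925513393756215017088238085177658612343539324575759353212174578903671838047222249963667791491028331079729429552326395710262863945376689512040923971031046974107295746679054770204287553446626331524271165451173002308578058467553971297243796949391783802550770355253855975514073025388117066840150002924748207271022983808215291972236664951172897097360863196914236072206466770564371245151994020459218491416914078164244845042667364509304327576567482667305025118835751113514079262044329881110148157828238912548301985384614543955346798079904054318116746883652646095174586035942327992309129551231893727972063296625679530598760690173301596431791309849149032261705720659006434595132458385082260754898810505966224006136616840573555225793349825335714076409315996915281765610078468927148059014343324103007373880827551847891740086209214754834343964437876683455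919505522560255435359341476005740585508484385111533134292120366973956655357840288739163123131824468260066038800940589065746884933311377375807290401273507671741821592651679859167526779312924861876221622856770621179993749256399382946351509189075019253874313999292248960031561499619903824378484685338874813872953931728390710694210766679268017892164116190522445466140706968834141302567037329282159325017490733221637715096563020250795546379030850891919615744680053749417975081077353951049286928608076654986177677366252125383772177194016199973934939565343662983903658507331281213802141468095265195791069945116955335633568170554739626094555367378750577416732357146447384310335129912920888700634866832698092870010023430729369287782298523939915570811415393426118335429819994535174244525666510969270312314891472608094389382999947041781925321958925525303494634606174846078170998697265544497382373166301230758703368543951395442324557682064277200937937194883477959482566551264786459056051307298420804716686177528125105022045898308553004402448440535818485030318504818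476006105190102820011169529969443413945975927770793712954141066037830614129804767890034768188127818502505042041709115460117863292122384320852631150538916751917703475543851325615605462180611299787471129471739308169462584283426223202241858606893212522925358223043059124869560501761056340613076155969224130990286926595069464640411545191233310707233675056480681709866094276564831731595198574730926775556041197564225191008397614504675990931354874453053345920126338367827255012377447095498534080891298197147648186582178084054012584750033042494692293819792245803328208320751299323471460987751351904610493917950305024482263909366184132490235997575952893181281165316138577830370350668427403290802412775603213897275965439939970614584387004714768694572926006649161706301478142289422754460449155801241118379331025841013022568709074981635106947268939718799192386567287036085873096214141871256714103672856184425485814598382632256956340485082326941554672373889963921481853609044051976066110112313531883751974393722595125126768696504702923863095886135005724220211676773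444244098195557017439186699175793099444631367620364770870388019727235011331652239412392963666315586359223899955073104029359964255421714773991614500443289197855265764008949399063958443665395726796756099986470693574875432725018022914985831628673440120144331424143482072867176287736917295896802053081003772852498454888373905518708886803101642974634883065607965487111560548706352689117863506827874741144296324777600172439447596677753667503982969321839362671880733507108246179811927198897486948652488093772110116609886200990467953143600841496238899663561294806023628544004602059201605972120719624876042898198258504547808411287572422327940228364036663391989681460891031184614804413312292333277419238094717161756694562007886395350360649070690710797849680591158585726317068918763193249899008858668045470167963584413452231198246963276536168972474326451703478425230673968646857714528414622792758761223127101598146416186496920419229288157482062679176683528142042796331079423449305862245591148260045685192715016696378914698163046676598982787252647407334398685730457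483449105584144557233034271807586256192511127440045110831788419540556445342682564617303942349264207933275280264443467849727262587701388733470450982293043591679404823098283102204363584648100833566532379041938554032027284845714787964619900150813593049207251857490222379437150479834995263181494193183940080479290055845665909174879017131815205962641700724232648083350552632856048463467265239421258161216650870243060091040581856730240284275387120655567431343791572185854211379210780141286719766722912251127650280226376895750723957152583859252878943627078374153658164655485148787109182595244480026525167650539504015239262954179680348328119561316332271739448438930209258882325112752021986839371287166329058377715725688743071175022656829643475851960180168596026926375243259173680663471562826685005954792420922283498452037889220453159398136309920739726875502790431326890847333312152791333549683135851606307988991701183471189483908452604729216285983204877885280611598505598294433296927004084215686456311667757840619320208141728791660481818784558841854186550794971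274918118348381788101155142458145697455048027210361136224642258733959055829080155448060654215932915258256178321439045385403728950921427375377667031081789517536049680789182295500035428459171386176752035347372308538515441987012876481333183410385280217733984627118543659109769710285316518134891492349128912709752877128061360723225400594510952429704136052714037904771882878447632825077034167241317883965677263914724901180154657415286010397134406235496191346161925451211096613575267797669166847786905013817054897440846276335467282795055386899726984968688743724093581169908638088867923783872443965910331266571976730796929740189294137876370285778032151137684435397551778663534515891669439960832773287777773731581595394875777782859635105818514714953392279229604480619389626308882158184693244470378325166822804299407942667062967568984703516670372055662858253098076121857599146977202803887180064971869584267926814854664072459175460927347473806758555731103917421393388700582330188160870150671209060754554597415581434755794462497642039271283919148687921064032606917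347088430487313081214052797665224577077310592652679109203182079350052742653142198407594414077848613381277906560172209996978585104254373352884289997409182472872701943531173761488659152802541640418892771113952018012369894369115276162501799015466833867959149535561412858965667722748610286558692256552877282292330513916726183935348854148287550125130849678965715572670596655026872066061675700495023309968993559809592873306705034928326936652338524906845781040721097373677967902192821152890718735274951876585428863055616013364379268696203739208660919810343674752814949121021320845429760359607182088144945405310813727665682144332607170990411496104448722292972585265712801998063637818742985741314432588805264444998898317977763961403757813457860191189561209154518088007019906235382214686143606275006255733270208664192838057443427045397905193016473102265001980008693466135980778290396444430907405617741523938034314582108371346414436002958723019771136570862287353008528336544502343911858221789027369760914104136000941401969364258317248623401992003696890831254127957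859851361124165204941551379480079565582093521136897654166607699193062746782577859951198332636105489582257532869970531030383320519787709063312123925883348883906520056037429511694014666811132671491544244499021812406091101332134767546860315413872906112765153380182498831745774865593444711657241546724083549739931912598176402425411946139114371802128215216266585251800571324689311712652670868151195235491205581540257802825965527173852022022856999446561635293343664838535710518715115447663569780441656276878976838286619835874551326991833170709600338588063362278654116516765741431111590468301104687757011984794023345719904863332642004327164268713907571022416311716670817476759233400609775764561735436809585246220875330826397008324391812897442012805636844963299840117515108365709050489263699549235219309795275730732174338589704534399182141873467640005693963648170301432122547849984824299696004747026506535821595434573542958834500162231119618148344777039572928410245187203159702180029418755445937152507066491675784425499997023590024554039897298608637191527439762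741522254201239982889867565473714721693955166976496214422103388774430701971046248520772080799712415248417292335890460887785070656695761973086400994257042303029963570074081433094778596607655830722452509382704222761554614119575956212196976957184254723469595254318554047114031351968054045118018822060146126836038232061825895021947931266848249306771852789679001486591243435274036300422535699196022008271173851333299991158116011003634256966445974086956356981955146732184363805289795991337459699602117862194376820757889115110813258412650279910273955880366323770124174713027087841153543673515202403011328536668092928500367234180956047756705689159016647217102565565022342587174724877711985523529440757628493833730270202825134728789827969190699328947592400842482004861189145509004904264333672490443756559188689648187532857260813704005616315277607449091200872110923298872348451373870158388872331425457345805564466432829335445383636300764195165353733402407758207655000861929207331556118378004493839333540772621720051278948635891079567674752561573201665984596762265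687498684000035737483115917084967354618678639314313096020791479441591920407791070717012442056321218248676620626557166673955286434026376661570107541878899981072319490475456888204118362352731733872065835329800939436790867658780911376882659269475623940745338694605141621136081304853695466065309880532750762133369760999845142588979301567038541120562239344827128702475426951607327672243266547644173599060248783534074700946681339278771033916950606805284464956573202269445081260356641283708142169398721666704478860353192086254595415246123347533324157352215674309670870664083962664861988455451415370539350335289233792409888848913471782128525593164863506497148802462496316692326962391419159443682506544254846314737640993295569668140941356275817756324483111815888168289088506512026480702591736956475614006569939605987446580809932878345508399383486055482476942021246634504126474666276818289586018916652711299464020403515910598915034517113607451522277411362843457033702271397744533924364754094589800942945381022680078429999481627580721076586725453477457587019213794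20137322028299183911881994369436316945734600440695926195897772346384538119961005422323120375402550871096228405188068734959861937945835833887550431962068219021065348863520525427640059542692819133212348134154105741211714060957837570451321156513078918494459937163244861930100603549075239997026102042341598711229412337305896161200576195252338851959325352836317796566673875316458299070013201653920163121860772915880794367791006520488520859317244663537041877654083094830554362916269210974237067576193543752776178752373589098270444765871534565684578451851591780812764712120527627051772172409905800451341029865130781199270435599115785513276033599070064491220164437027629472827400809434510873861614195358728826078311946035221324832316205428516034470039054500580265260505696332988012973392550889290858439522058822054385350292822922334256943683891444048510825712625246257470474566924801561136824513939740753391079265488631048851128673755906045742687396669679530330359454867316939701577034904042230587732804127112656335130931105817024691723050792225129285136962625239882708178867351573127492583462432662530039592346340960272662085039554560)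

noncomputable def rc4 : Nat := (nat_lit 387493310132453576665728420717516762979763717021413630665790386693676920629605357929041625943097055705951242297569427122645726516336878140736903400486514454005917222501196251732923504444801436566337987511806464018401946995016585263032615852808603605235185651146746515267502686622535220028642276347712666263863044902805071443736906493534997002726270411687934960148460484534282784833866246528819663987507852312937456203466374224068286820745732120950327235869136152246617950926576260228947478212216897406450758333511359757423895482081203747916624706319567222678415947634597706984002974927237346646819437387787809053760401347692051411873470447978521534718585218699243198454959360592456295361004473484611957983083473981398293469891687596965797520376879751715314117146028543656868359086686784028155300297151530399641160780807866684525070094655243840542587007926844481133699431296386172966258497303476439290292459575064305209689108614521375643581909212376108925198866045315655218776630930697444966985401688865691209234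416451222294525147692710486589810352325097374247066813331882441644705988639874392692439263338818828565538799491080204987583494670351059825986100871388066579568714629289265375518370674599445406969255029459815756448978439293083732376722571184154774747725496297570406972376273492890413110147270611098132338363021904973081218051441681899233694592469052883525910358628092804701453426259781395153255269524751652790847204507926909885278694385148885688785107946395688395405205027221588689203359104245355336041221586847761422907774217597735832757481468713250718721106743592294142244812788307929852131398141487486782168012016501419773502420446977636882408003154044544164450086081433916066820157224851401545951190142510357502061962849391009498907372960927914759284553266486812517616823622754665344956747137495717308460301998819605008924892855829333081396894726876609644649906430646120535345986518093052486201482199631313346414663246296573879052408684898595507195221601141884458986414368689094348309068267045111495390169109269463311472613107108837099726207180739695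836374719017131668768970694284784207834650827704887501388879086415387867356887608925031730320393320511313711571613172096975558560477149169502086574289353459588820978606383673427543236418888812466756196323195717774226320314359556891901495635349170544614814612210411672149679288944997611753139709122516898877173981974339901424821074900473021911025119508178544637638457286013464272507109171113199951157154789759632995907317141502830126229409115554612575718811230204897754897187710780216576845915231620519679664261491742356421698433288861051045804219943349617467093386248137601094065067309179415412741006287991030525716803517087448530076710037966534376265090266054071658668147194177261235767856151754949451832738018326137057958487722659240245384633670822977682059996289824309646249863042523978150560475248442471856648603982069225986232825601880094903263445024147611993002364830207383427713344614204468463463476526182001213479468876473329778217341222727421403546550180687090142614570254065403713782344081892237720266726342504868888753922144625236668983803955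260856666581069443411308286303686803314792795176826455909757014061380798816642322270559984463160774539794487882723855626997956688285832039407700402722673478393908488602587464999141911398157960278499908623625659994194731904790154413872527371670658044266282501531398718972289747488138459721851063821681845760549860367093687460299697005405798679159246383266761792765969359881741296922968624750248020550806969050052821324435706173828614542745544268286662766394317153288145678878845537113096481473927748442462102760787137347582373477596308155023503767467542938473070384272895774001273996756593644908545359620762221051000378913470326333920707406167296835495497494612030508700990174887127908825143221794290384858947288016607099502528141130155204457541209743404729003147409918334293884794094449101845972757940386065297306544787422737262377381915331591976187500747963761827406571864215712686950235736051811160668626292841869557156245066896627379663560637576863053591002569563121356429536655959177727970239169452585071294855600728287809487102815309576609991866407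756275405478032286201726793513567427077484174116699463374716868632145548357886061071424558448274871146841739531935570689859619645448125038698650721659864484798081738344843901119657725681359490212083314995582561174184587411824478858567031852268602611793095819941084856368203016064048590952058715921439057766821673633413162352974243440544598932272565202099782903480093613236764575169231204684590840534660415030345791758439015881006174467547147204561738227365028791050208709454935764808584821233615778722984907895752410240860616704989986557402659320186258483079716584991389204950568692740835698763116113858086977689206593921828969775789321233299040890548512586305228654191671056663323562774975717279030530354044403400078716965583140698339001196968584437518085700573109941005139206558837185037689302845858455932950159452914791219591445007330755924583875176590660777466144999542220459451908048895339432113466137272149280714559205281101611611740390341384319376851669478810280494028811014378382381479098152198134886571507372233629178411983268844727823730895899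548134089670222206764742426529250613222770629789288957079713790594486390528260278948948611503280992938028024227949204753830412738371257530367268158079038172749958838228619085460336903230054268258034887344358641939605473977905286497272472106147736394149808453705481973415634655081430860153527118976909843605095854103590372136161271073530620565033722883394749349179005037452675899894066129982611287469099629912039271452667804970300468268416935006940947335568641043627484722588040540173725797646754642073828409973586996078413767689504318802166321524754822879523854079725306277772725798619042839712571151397589316838926599724270463986166456922783228689147851755171177563767154927310458814006369102012977393618330938595752111911643092382419503135874130251913495892455018613607912066123498450766796201410186585453432177154999990678672514718958135059849729401938220987049143278689686325725355350189038329908551825759788758615040402210506653892598423218233111748070502070097395916461728031628801646451896895938657441547918299842411994555180242682419287327231455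287830674033068620374138141654570363355984469320074017527515410170884596432930982051312818208889077982897482718539437722289676000100701825769889318213584271187875931575385165867369834420437203789200154259658919334128761282084058772682991285068796269008831414570799566445216939229421135858786854387903385002838571788369300637509931576083731971076312060810908018920670578556839660905471379961248882455244568049917059562014091713319408467087938080908330926616559906500428462441099221236946073135115803702774254057276801301427812014725007230280760601566462021277585283444754241195794061527683796988484076717016035004557588044398978184833596657028602568032693391070502505890904739420057929304008524567104130243563057599149648650882021092267305909766041980572702649908753917573424275588542171250245560297974239909450100901122109389225236642545683727208699340456870981301567831713902210217739336417579981338699486155683274826213274413534653804048588029278476432569567024775015407442840796694452833759288315313390679856945239790869263672937704010167044299661580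458335875629311123977652132791243318147305781022364557300178085734857354398234108139974637669209019752501528186054733394504994621257339277077521499311978018928220388036911828306057651570911861887394855274588780202714230178499418502419341256754467795410038358120829803855154461185807976756118984224799762812874714014971814125680270420937775522819686342997734290287723548380636865514929597361146497461786437193784490267613778454492071989375366396644995236422349835604322624426447011677227580511808229887716666738242564046932678927304668332309386390280225233635408119814439079532331847491138157619909894208559615469089428774471905517707877927108105322039699912891732920938738007657592988703632128396032895551854096841504295485248274884608557208106750904008019797746950905926136789050599397250283485237004313982293058709110240347587940552163445703264812594698924129475416736972278445392061048799834851327469813197578926784092856086175330091809091148469825098422838620794367993258207903675034927512986250799469173100651152526077605496161788071553140711291007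330128610918878610837936126358073751478182677972565205577406315086209308000671897665513706072893610143016626722051102448547623938295969630994384239970038683520709323331210044558996421275842584453499882704805485129437266149398978787371488047681070616107968205647436628164901531568770780720193344182235546536155872374647662534982957473356071724195591388303062686042735185232754153405910203642808096071773116779062002814640849341652418545365241762137899413321955118752705621124055182262094360712059524174090526020512843073673013547150009222094581424299489852811067963067855426945911790641295591417369721642949841674895446871716344397248878484771099612519933410836851750684367561405139746387511462490226661173826312427738994602563761686575727917275425595933328839384726190183854268213819640841937449943616896237548559264113156612704239563740775425372107713780163197493008723773736912144156987502577770982326558137934216619239966132126711924788515527907919486875502735106358771824723871735241249916164929899683471638444934258677793877845806161589395938014270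004660343650864029052291299215312190337255642067191289590010857412092144168873998183949703381336922727737198228935087544616790412855259417449586890625393876274071439248383834332763226314723417862411036978424064580865020007344178652216983312031925528714802295235334251906276546996176927806006600852205983258985186035922410165315346048015852992944050779471106816052226167286388006580684438976762888015099656827113004324881931538885168971699550631732465664644905296500806766203033667479088670268668761711313394239848557302195828051620643878199786051155258591434351271528233063749152525665379817849561885551066195415335252010217033567235920714127378479903908208541307302563862327623940556567173075437702770605943211223328315968924699950641084877331112640766381607182447357054922466109145323135454095758421399326334607884825168943597275303171312466535782946863835366393260604117336471849055024460650287189683712245489243929655158378524983033096698998075158381442486319908499923056409516377809303470707790445898595170089406350482263402689056990637436329458055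445880626589451865237971970537291443058303463159279479559533547525184071392542412184957442894866625795944772928577926483875193931992779916047970313248365450409889718817889481985426287906870440872040986102028072727823272647993976063378309000355019906879530723200667635941952365438924741399896130788477615124708372730633198511731460385977156263395546702417912398062347261264273339543180729095884125389225841680896497783680755902862827476835942839572399289458300646968968166468907422940094106437503724121692726988530207641759958555748970259316148652556681065642965780092603291806140585086024298451224232556082190477556849851196281339222359955427029783225145265936717502473098531601441305283395552056277530021416863336108132498668876486990485326910990249838553426780841080719078518128044376091502193713389220757895356474239607805875112323364123222448290683258267331004702262390015723497439109392951641228436103990479030925821143160418017171803501652576026924622155491651692998493856097335574839775499758541266361521233325170624256052370057363797066250471993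555724547231734428155633252398713941344004211823192340635716074026541812666361523835694546340210234730383948172563152285155820915055579299613724745255279617735808594097333310761859493780815997670959035775552126160819520001979701663006707814613225036313285609571282637260170671431535729040380654408738416715402916904251356538311931543066331008252794176223243904338374794227262164265618654599516548169374326388285356480033771692952597722093671756506786608725112100725994222809208754349398531994927491982969633646300548206455628209101756099026315409439753737344183860960511424071531505587000527998110533678333064381263729130344095434685625497232160322952039912777419704897622559831306794257377323740091481919434427701442244139837795802773503640021518162822030941316548187495123702159642089626370131756784076361221474980587285787216349859000680409001672016980712974151198819927204373734532007030209302807886302473720709245169567531132024532980524865421151556408884581952130680864081098591060304849830776725166034833701996860024655955227782785383225889727713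154013469743199888131412709818320799004730118023720349732083025080984429982178007853401390410680048842583598612811855293826490924006624490296255885531395471130009533577007587665377416626838293779773903859966410175609897835332238068953263192442411707740341374731276412248394423529947439401339287471089649544798894696868118754861493483533352629679598401143439777396441386652822796769844248317090525123108660381741131574804725641092370182546344972506277089445314007237538732173592867745148457984222413492148174749351308438492898837829151886288890217861308599272155815295219125421239780329999947234732920392514528945670204074703559621178386077818206464212285579560053121704727036842729148356695714727062255272524876014337558190703939999978055791684102807886748454187181057823427099372138985650674390126911302622246329022786887943870639830153124570381455028468827904014395125464037676517946046116719703707160544743361177359593365068971751921039277059576099094925434903671114966032017011678791718623425026882807003155953740115634402771735029732054440626099090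753982063908181664230320215715459223939646861781928960136384965996641312429847785470718342188144740990277549877256223120719104647478159980157409547561746677771714374163905124242915780965355071409270549150769258833238918823837954915578844032468737072777900099650474600470032837043676892557578909514613449518434053870275545478905064766012198372331170105938624947085603979619914485652972684116904950986543938648004060877087344241950141858412547128735500409678156041771076114731313773883949266033742931720767540899946762255988539436550781647384244939257741535069128648749986118857696753447346220871796103370739407457511593560686485793657364427265599098679499810622428184149663388229729325498149302140064191908779032028068842533115676102038172380392792080227902339219744984432788075218442158654704342096059101845604697155649070076537562994584022457543030917171365415739348923716750166363948827645023326871378724634516254486764833326507409605479542811202775337873497861032270530969366537148606473989357374770934749376256095442994277118081418671699469313520777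999028231521012513756955817272584629648501759181251493340568487776175307828287712505579872513777480066136767749208217299714682443711450095042473747518690482923211159124854000032759849609466570196916001345420675272862723978376894405772945982064860700975958758985579942448015974346214797257472457635958137324089607548879972781647214353464516922550984289228720719466374762388504533038687509110506682448788105089628884073227135273054229617039730082335662847781703411395971667385916306747950773138097788188324095026365600972718494771990475002279278569671137130018434915591657107114280684274971228627661257629865078005436112196997822692741968411500526586265318865877384828079761513376779918950146520552582008258609054733803242177065334817099739718019197061214305823953427311949878974908144490664301589336812543145723450225797582387200795726583351087511386931222055480421046330279771603908108175762345392266363344442167459697801964810600036019665188438605698260470172715139100096378254174035920363784051819972680992594410094109396188446276586126790838296786530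263584555591317636239705600460132352248295612797645519470869438804780605174462589094253267182152053679535485464410645446452080284612062645617270859212545847028242913549233480558816252301642010595850419118634157935596826952417157324019029239153557537055362212509452207453871866585687994446911062083538283380231621918797661371744998774921249237629414041826223547326205911528361320859589211279413972051542560429647895891448159046390118026076243664798648565489379543933359350468525195193295655843854811131417467579269286674881121959120152838111140866569915827702338558386982048677532431535807060271976563818038508159827542001530415884762878869668618581040727060554061661949898336313968116074343291704198487654263578587087357569099238551593187243431241556054153684161254359969591238643768186035587589423357714859294556374464305113978372781968092404853552880786360523683382762435479831891642944847428191947583294000285363426167677457921724162369568179265413722312597308021987476696595937720906786699994752682891724782574619186998842678347911561618670907490874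49119853687039316777581756277042511620119203957697368367104099461909806603081513127296228416530738303864948935348410676955519812874903876568125853671876053471926717639178933122865425851035397454647602492135570459160513062292890980099470877260673038432081456111180603642685816443730604371497349945092511418582791866781676315923941976741344484435417642729223788861866744994018356956253375043144017389150762279500591792466096363982727086313905572119554273751210168909584315485270163797724582741273855095002488863386913984837785229303031683824271262380527377811118098841622945052771110383733698849462326759722945316247855222456811771771213981974720795100875923374938194099170459810156679109163376292323753636953821620956467258288299388497299961449904990670694222397561303900215640510812929904549843307626149223874709704835447182294478357179871622071685604326683448747463573444909033467782673838904928234494920666073666163174247554921236036345966370479475204841149937687603627762713585410984421840527521388649819825025543405589758282918625752831925951412881328386755452918540664919979185950453133351939954595169404285658443896848384)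

noncomputable def rc5 : Nat := (nat_lit 387887097382014253698810188576303041155501585733959367467941393877229251217895002559412083486942106068043884024344725657367651364775717759536096969508656502341334129006650058102765849099634620241309229709378745587108959185362812364191290188592273986467657825253057485327988578368050379838917761644054079483709063968435769105673921839837724089490842160567899960896058138011043112918160055154071056539684232099944346428922414112656359137630306565594346957852858683598103631113547174602189259872562633150722178359055150202438183887739787216568404468520016890056857212869143176206432254379958825191190256768335817790095043817417786255173754358575227658013366027396173191518108583850089329945521016661375720079788383542194903926187269247191833829496416283051007802464610758523583075227206063441297376889724983380058204876602484662547186783167492348443073076600598073078638621514806482133264365337302102837033638839840298682650493582514378884825533960071988269430255568907742231422664759208147739957427178530510425069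959103836913392076064446383272843100828464284829258213648716287154862576681636993653884530881929349733888674639682862381306897047276047042289404765405082098107370610990088956452022735172712204543387433662016857973153122885505551345046586243061277355522107093860728134409735936208499720316511002020606864293348725158549859353792938506943011323079768331901899634136519235757763491785645042041825809019332325028241437240419629223275868175271170060922346526152025334819450372527024989341111944156320858189521877421546010657559080815784964060928307792312886918236802916477822895452267970102520055288128096888296626176125110613137409659525209858496378910255439119834508543432084842890531306273128874796093740737598652626215652751604778682828953360509617941630834643676371254523672987608020429117028020276444245926340958236911196739160998687781209488860913468033447569415497781084382945511715097379377432437684244931595117547093755022099812775751998079120651124991182642416754904270710396630182003175843094151005137637526350907623459772975760973900881960827654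140467686932635330380062580493761253715380830961656353183290747039741937003548415541135367526138317994944469366436586957447049478129740809939524448839334019317433904527451818646354551236002753436401564073108700002954189770934400921905166719386657407050051869464144200458638874098182525202563587944193656716989347592253776838921710678992744714504805132532045374510926427275641224462266061286327431670546458436397889704122812741934231036391580653459202092341399560602226663039709420690737850698155103170188363604436441379890634097197738283311327419144548182977789116284007989254464176433157448841778505389649359851868756455950190499825165737117354598092824578176521774252668534742908582428555210013437909423481248223917555242688157296709413125588937417158166774319777182817069468778809565479052385629206484660092928861721928371712677914090483166230672506460283613723000205354562935346875721911145048173920359241546978944966899482747796766792051254273529790665138200135810422274910954933919041472023593858234303619984081870686473755928634544499244779320809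086025683646892289655062470642188056358860351821750281030509722086917105242651147380917389274656766682805572259682319382834912257555825122748619795758393793825144228319080448558361902877523291391005223447276137167435803613541288738715688015591168289299958677696770119847602639197482712370424801162117479145178654707463610066259819026768472487549618720025659049769721124745500912035558651064925537511518221932086742084478820596191614448211278609997419927882187714862216217589788856011055113037501598494150801662038255130823513989328677506664577749569801427657936907566951399832438630791559655452625436692277725070466423725696131817528876198413424644679250685812305215186563219549623315229326688832987590666397092982467672350421530534764760515267277894605151967228859498908336679926129297642088469466135191978209124506720846384318118188542107551685686449954380770830083397019772191287997555971717703640208405848001336139801118380657702118042675527628054862899302282661984677356432130230605313057257786049196156953229350628747853264933286877563401234716522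600587121032246512196772055366441626055818589914381692671657958904309972772478274447460231561150578466638849624251499852189885250464773136885251729339061436268460679555205386532109091633492126359434704992802892395110493764729581939882599966830618006017971570961541259807745227938311792334043781009829286888513156547665308277503871584254774583250790280531078513169242474636520495730311093060257826338916975401869492998205323267602257295818783570922808553676909513505230503475685941175157656807741919458250039675152390983010298625506271792077244252069875758450176187399187916311118656367245608759396270359693144887922527042706050083277002033985738839789832200478880582826055969086645011396047273228181302448617918556779589416095325268653020925110933196996469351991040527450228435859305737720802282719108899573817274440357141137933009549997988764338173163334155316752067277252271411083075479648903403592137621105986232540238366375111753596974367349125582387851927935519077021917844878129878128040534243919679477590045261206914123354065780590369860242456634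291361024473375400399573584649566627140108183467854600831762503432867901820994322936399021592467760659069079562717587017339945100404753811891651519150448903374364932608114410639256014222149414314973101191248407121839313863965130051514449658113360969014639291712336707004700193272110829398368378950339143910672397944905478101629282103791971380960191588282090248308341530160624933544407046848349319437360318917398333755178883555272360717005456361960118850496731304396909182013503628749937510575331887142042864051457218470247216129871851509585785363937463579850072561129240957899366738387499807852892719545685093094816577406007830063329055123545706984797101859269740250427318115617283106413290966844323498483848362114236556119819998112194500308268579403725675837462010903936291714977478316835584159286491078531581800476551160277897230951874887675657344117246439776772468821814059598913617595459100784077050964123950158977590147115600672418479168779420879870065547008480766173106820862335828454540567604736627886562694368061516562250911467911377891584175974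882189878520680666175018501352305215206584839948337532376009715793471835515285350171840342608109469544910058541512804483896671443577409749457951297522346564861475005197720723477593176473251153202590921000656468825173453888052842592901647573367319967981211150478528756576733021740307131719494078315052154113868385576441697672892610749036912732036127173543422140565918275901697560944436244356089026162133866291219000689477752681380963070027068679415810282837101446966312367752314779313463224203113347467718445595956155148589705930668595748706532062998975098367138396803894819054793704452562888309551093517658716819843253318832898548330328719489966258703755550000336194546088590487227409899650982539460869535691738438122872977119493558508016563581292527961805070359691059381459839220117864866683536158175831246944565871975476887450796171888747891131063311141106695894816274196573414909985959465297475116699951246673221486561834035074609743116780934548280109816518332297586457694991177160947711707946589638617460978557877702968159515082169330227578353222278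816588051945587610403719600789611500200384258009507684399948319803740643672534474557773913825341662161731130476316234448343396458484140440786853759796623998111033618365054764216390504501503118242410966139286117232967700077315716009783618541060324526550558480093738903602750883681561516316036178488966803566527577184868819312392340501464884297314051571440444548971030883884276460411421112954330628781581364499600056828572635306471346105490645284144665524439787854515481017701981077404568192531213319490737509689566476456761065326628240631552131023892812871695126699800832501237850476194644028891522114440307597587845845737712184183793636918264145169519290453003506752726319560766704367350290967908967669477687109889259876885771510159448736853217485343110208475708084695799048490125729668711723265872241337272713349964585671074126478036648075596836041049495872421116975761684498265822664153675066646316014440400937667198469700127313249806672683613821675984351674618099732056027977596887742250546683722996424413153881727801053222004328144484992008902118870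580842616031717325382390528711695760482152705323614844142782406064501329872878651726776407231695897157557336739509053488877048822081040228032126992962522851163923280698970412207127828485791676760150583392176787134838310147209346281317462244035304489728701452201576099315189528865932878503907636922760022931954842609640505325692071747613845807708245341201892382450003378386547718823957531413986347832758192164907746118752491116056048098650387914605478956855983630705385576911849235263309904371433008244465101468746076984210049446168624905111525270069733590482356831976290277567239480932902318712220394931648989993331158535925543893916330599916625409758275287768638323816060631914826557786953350200217649729193676500944776808882231193324390994814425191444980292949623716365517617382584828525130166683632699868184106493502858599492902490992617021680914101002954728099432901021672732753922300934126185876399800406515491614349936089244286488544499701122197523441411615094017504454896036730817661337716472021450988093510228297068395347463098949463941019324278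501147088448442775297903204109389478789875966134808140049413002658615615541028425895942241372764694724154505732905400438525226818055592407559455742757679367822181929838957662998118003906880828847945014166998539619561606212675181838904078629540413062104626940083860171629157560664387969072219480576987802006504318931466993441179542329759035949736928825305401774847914861775051040771479321560103366197324239520780462188616401887681036026060921038091370145799512879735971203750130775735452389151608652584323150631303672956180165052077088792824169276734153148069228697426362466006996208371481317334835423494524609564246439858985738683389275269942107546962359407456005990940816003841211089519082793197359664225866148161779921212459193014038027200137037635964371488640716471649084853683852035952007895174891218362682192878668226179986580836577474061537851718539905856550129963876824617749568599749756590529787976637958891317254713625961475651681507672257516681172520710179755238228111147014123311648267213092689342664947244968213717762790832334154242383983658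707135079971087329545820384851374312270940039164260273228982258489370928660837268248493475731813516700767421664987766508938564977905137397768210953223309763446065005220688734609269398485830570605428736938550703316720076336051228250285980409656127481220716280899192822284777476182291958343786289783325398096545368357397384507724216127130893385157650026848048513439199160709142518421173280454342396216185815305190288441116066237483708741920447088024785221724669042606998527752237207701411951266690715478258035244897277441718733681327719342871949460252231147718937242070041998632715444997861554618781086197845797703266542880730360058532572034528299550834104392238062774221242417177121172608681223639311063976993879874364188932632403260276965115527861189423011608939526572300059965674764775238425896547536153937983905691952106282019739231841314752035628414592612660205029070957996568577209796211121059674501184017667563416416550206861931740725189625043047561418617474917367444845299535343363586093079658100235447709612406526347836868346218284870119438880141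149245036180586982466076187667679020036119382928928963156159993572552386410435026890887219792029032040296874665280467364037422473479638296041357507072184685644572672167695377901799660474943473765417524956192000497396241731357238049525854557944544067990894137082147364046197289843567860860769192872016079105991659181700084635727343114557043814001523909859192156109144080928139471470829521350708537769112224218986597711066725615409997429840514578854889596008161009441620300221803567549436477001184266197055395338041977891200177733754585338843586583031051205669314510994490635777403013071946368536222001044387039026315172143862985527278000966706393671193170826435737734018513809862352624860626727272067130148054696898286065288618924795092840711973148927979422360632028603995669624935918939392828646602367108398445170222399815190870319829801888833218445946390087934816866101698414114458440995980603481652713686648431368610315876413504187472162335105909223387932056473224975388026557340515466685133014800962289923610329978794866307702055831439383717728459591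331263487919693000960291683412852499258882264264229997103798681947013457983559026080670606458726665672770275519193356701582705069513925795074010148623682345319376296163548754287623728534037528013085426541829326512232926613070248268390742155768630318321214174465712163599821524510434325237050642080544851662599327065367470666766808727841939894440210968047255112160927651178409771515106025238056914359590435635887885129399561229404673139291210812348291761702827951228774701683731405099567167992423492227892699329580445941136611118109246907008898615742539825235241063891219682074154596051299686033879747307370050916799483226079102342393306315979093978603191559969402553417687794909145997734282582813158207976850832958698776591429150594367145361656405388735671198787928765716244741481948733679601724338824219554025931281089496861375894002230918988121540992518510775867652325597115762971742694784881735620125214166773030026261392738790980240150997978654858226432977944762399286870864498822031349801025107893781971931445287430727682039998882478323772169019201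830692016846678907066037468158268788782787539687348534350835038238434325004017492043601783763361274922526311413279062387796737544732815158798050456593126630417612110600815421849462486241700472896332096783526073448619120067954536037580187956287970582983992130647686828318013730197469416113381933472120755573984952194926391203327057938831346141356350511170969640258929885037312199040105290163952139705872131642013687828584349605160605526261092365874907515746335397699790543054644719703627109309019814976246985501515549006568126099543929737299051009878116987897807588427246229406044217102378579151707780408232483938188316628955945954413254709884738074401695519492959224763763954823220449882522136716072068366607311109271381766307815327664871259941018920509915784074276093728027217175133387723361549481880266698870267205398239631357299019449257817285474591276829033895340553911287554215469100761985437426554664867954705062485056002775168470359007942045275595787186599208803815032417407615805043344792621165036118829644571798830802556026909578535084042058661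644949849443486097812051979020684943247916412875966637888874178969850014110152060739323703140549187520618028339620379263707581575690858302109539738761635876567440291509799897077505450909455813207287840738187477999129966201153567717751853362566703727281831782178065784058462908261017728520148263417743581854309220641027905700380387264426909489495361840047229365832974451520078317149495797406894756223992122819773726780090050757974377646983288282072351763457376550987733373370014770085778147536170943829480749996336959572131718804639662149344562708122992243772894902836375495280523844972129131863398645652653284706022641876415393040007093390314017705070950774177963165336077247552255988885963424784029607354986774995915294003343613577821066069661571783803639460955496841173855575681937871838929947487339569277547371866754705559794249313461203765883644964530953316388374736416440603018884802858940896464875980699581229347713003668546926903213371258125561637108064650996326192124953782507212019589415895293338929516265881547016553422231150049256809541253023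167782903355866435206140825087185358849693569048072689055435698649741196813514766065240918583438466334085642971839998187088525216618975020196997582475480327508988206307523808446354766507785902225325056491801510158069394655445179435771596096003009575568136843828555986165633505134305829038226776906173712981829605582374628006026711440406766039351358663924818597382522798942967089133977341015728093473383690069156747091006033924201990080921929823846808784931439497350616379413298698519555461778585293636459936889212673442255158092415905180887626083484878548325188503838285836148655982597616645815380574950297983760094847183013311609046888954699082909200585422521702284451761584946057286000122875002516275006160526541622333027973446379461494678695443936848071535757368217297989414278923153590491676971805190039210111464212702585729426194623477558453264084839052257710907543231051745986624596663584491861834549198469538599018724188602317079740832987621121315525870221225815469926849101847892452925246690787114550945580875544799875683771645819094253502340348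04509635932867411910492836801911016572929763402464321466980817863498262022416663801791939533802141284255638675665671660878919310441113439881573929185967039065260858799454261844956075273182011162692019773593742929732995108798131315010738599460425971276560065887249634682017715548557388334258893853125194156670201978741207669183688464690604410789105725205385841811436359301251875535901420937793153662827577947068755045231879320430107136825899297858240251525355255237751199478270597297497958818070487411135540589786675341104863293772830031939857712766087368644645760648592893263207787160701210332258264192655631531095240002396208441148019763262972977815887166427401075686692224519077595320908772122355667096267395935957446241883551793237663791906141863789544532735652746810022025280008641407447540286478437725428342730876689666153926722873185555514747149843347700029636608142999227725263824471050464842685229278962142840362832807845490254764374227323440223179836894450649115088886630690176277058788228528730347770499291944025079607608546421864921307079509548774460183522572811326620641421686074601949240466868056841199696274784256)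

noncomputable def rc6 : Nat := (nat_lit 388275867930886688545550460783477799968591062304779389621283639538595683058571502993384135112385124344043637820642122378474798810846211258893257785969579727774269293049760996904538675505372109539228829694007423343116695392900204007819234941061223216318546648973986360351285307932240270072629166562717048825328903410014611103692048231707746495451280814159477171280958072430662523789525173928809497074224599710399169389817542913371742463384529986238255602383803741426775700118595315422930104487410964241187758328994742555863570880473837986231282499834194470520860383756727072478732503701096784337690283634778449345356045635950418430416080617061459241527182562725854721736719973600420179161018882791762645725183055321802578801422460644480062384996177189721987250737338815684551428340214820595830045568839473381111219022162487272369850998025854664610489061091576926726794921195689131204477604710232981996832836480144984748866812468311149358923928750769889786824069202866241513421361860192376614102747278107922364401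178364193239977142291490193000636895883782587559999967130784259069944016249388794365119636200913100688637242959711359170911634416682293978592569749845439156910139885698624925322151327640772351275173371546442375783432984919673946429721159637996716271898411923807119237927901874341388991567011935763175955995807270410118792313427448199269411509987185315462899937010109628470174170024272999738833349655994653456271654167187167289366343192733749769233728447681409106190611758356158180544221534423048313831730511679325552614376703682681177145518100667982187407493192946147732553038587111966987010596960622804292397852807491829561594681785073843328941745287673294133949359652740790551712059155814055348359507623340338443002711753270794714177473462229731055079193183593778079584516139331187396523477294232782448798011608324892154948194723310643316716124387201816457999703252140461731215268726230167426729841352303862112036723617695823955414312248481562321632005792566414561891389943233624031255659517403297079888958437446904283231502110368767068030478522842049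021911956428319902806740699941631273894959092958617776523302154390046650785882531814688977973280722221855603321002246019007653030054632023709158180352172846931460004991889747006496090165764236141691833462918829590522522085604555218413890824669083447959740816877549067900202169236852514372934513868991394749890431634732489944683560568523856701869265218424313871271218848031134794746173997338066577609851605839064515801035126548903999409822179090302520890464980685620374711927941093459393366001895779250772086468732486001722630236398930620070707194745953492147431610313263459146214560001893474025742099627811729496788346849181914400267106087261663402087695109302116850791583866722193830878772114416330508858872165607459123749855106701493474471441024761591148537448368434456638608722084250220123181531532756515922495134286037132468156668855862537482891436263293330938187361717296467048231021208784962158898887065821992727347216804611962798131533964368401300455544481181786982124242779137769250467290921349631150727938691934540422393282291208183576998897643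102861625437306064689582658650053404871267899820873100865191230764561585929468636666390857143898617355662208364809997208746202523779031704755176085514204335374299619587770916659111953754770817330924156660091962538536864570227339004246288329740568587078952300641333913549997118258124521297965066658491066460510639504771155279603626711066220506821108875855046210873233358548677651310301029225120301880160284442738190002480704894660354443346457755020843468795550388706458796533362738207518080120692620311582954512309338533442910090345623516951857427671928453638654795621642925894436735408231233783679060909971260259526913854605818795693381186576101260335235072515350596606603548922339520758861092962263130861011990086673733790357232055631234253179594447333986438163972090128228985583744292167382667330730142396005257810919755765176770985875642621908132387119487390295027860643579609014431622623177277237978214939642713071560530177470678176670905717024556600219153820656360859450863621636101685507007347761374695893864218346445559178862804077493003801153693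969461699142777061636231970202144064578628980658625029300223519361960736650822147991765500476729012145214508851705918495093216743203647130486955256740677298709901535930078469661639830148834823924285041934348044362479517779328442903196918975842166691031092623395779286026104248710987574454098848887049341594519468659407067585065446334449358925636013652556089732693500415134845509759070548469457010061890619331890374697588241630080892068472034960576898153832785575188816202492631682999455155297043801258975505578498830773301506633269068951420738331210795536959894510522187357884171789413810038980268176984338732662184045192725593761336146450473656393814819142866551008279036044586885538515556685748744296463061850106227826477391537263701254458867478732833995423921761285429233552863786067299907630816622147475542814369781491350668799413261339085140355047064124856911513071715363733978063276048117289855571150145485982282604722160569287987530050984309781203948759355339510951128666025900111667008693407612465950715375844279827291982757639629291152373934484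234735469430419189137858856556577165857970504885452136199753280365607269322519747845558195166725211477459361082829189588035936775663549937358277715292548526394930725249031977357035837500569447592776070277835564387794054916228469306664824752946335035347617215307500068770850776406166323451560260696314040763579321804343659735092046819755645438070279184270379948313976589847740949595973213602681258426511622112916145012636867206289920519500409839183867563878645829687474132394542116208622051666306509274142443123868350340327690138973808088813949288019984155870666883728198179527888689943714744994667464481259725809169913693101428769806451281230228910046834791818493843944879215390691887020845210890365279553769298027665696697589861277011902156165688745542720339535169510486445418593637807155174428209685528001223951712095886618737472323364084707646887430722323104109402452627666319501830232478245215921446537216580385928220964792615065953257701621785114001087867072411920085913735251674089409779587536779449142950544645138628853861897744106357197323502636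567142185980435337828690274394550632789495821770273353397965743685576994248696536301528317586169193210137337847294820179147156481288413812205980082252238647132202738553932677557423165167471436931874640203761322949686890879620157219424695911579695242764366466593731924416457995911611363914560672384372658629194970289798014951122942945820991624868662886877425743335734966987912182668466009275955761467786166502994023096763948815389876089995334097041878713028927694750175441097063972751972813413505977619257750013931330394023563719845600096882484081623575418638565240331079853205208463536913196453159405713580404201894428432066833291426606681414702125432385895936635283323550932676150152421047375882407184691963497433966985568992104070699198309276316770939099175343483877099347795079500746456611681996696509519061739170616816484219437984896088657407587921109060301865439177879657361137787099486478012414939502350769556176268326980317048661998116830064580995320915740942803864452925754982374821543043484382671058567364408447243482283352753585677258587566267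190132170409487073167695381528148946178368681494738208027300338071810020181458269587679414400399058555426349687948592528514256348715636490331048755305120200930709823964722891103369231037125549817131890722888535539581148021835429776798557960113332279896677813441781187007460168143474589252207897706463119268349439686102482182013338025573403652474807862424651641549213747824543734862136903702871321709642622026798333754105022135864367949239937085048160523896333498655910745594313403338657124289690680300495995826288832179280999652535838466735590246487442776903454556997818998257215846573776461684943442391110201971360606345428177941480242889810657871208113714721607346935625904945098318555338973145865577453464213278289080794108819822768939561241814755673166376683107625551856133685157828234597292696352007377521190652742123044137438500549550508908801495546760898607499766628547296694506889432366083364237187873016049005294694891275249623168988347691163112648816155172239158074287387249694285464404131201669372313477249855888670410405781489776495405658545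510106652765890994934331591893542781886988980141676873840293764621120069931019570176502637256540873188811421024047039631787453203458865934078664625436634644950172535831473167455142533453981655822615258740794139676948681600075177121171074353833557994252106049757980351399491792325147582267937385788698759838623424322644600469845442413546864877419426526581299778502507076811159460586836059262125544256233021053490079386551742080011130840019201456383486713575498470122880266805125573903296470582875398246216415008222591980987606949751047621026881354697832239211412919296486142460940026829690109571341632739434200997565856386127740288937967222188034705679635127892444503158180124534705292111854533657221928877119886318383574168541116448551567797055089881651095555798897478544929134722870679748015204318332461961164535263023234831438001497576862742930272543072212820177578273251130967167239616552049838875659167814142448112084060226130246646730267948083214072986206292210787240501806818003703344673574815084301040081953970660131021466387549151825504368859664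819206391371214906050481467308888642269084408149703034798493847630955356648260073420504473846274797709720750296563940734643904249716455601440832451213037327152269379106339326417375341326075440215312019993207858581631444015045349888589893417259190357533729170982166778620267488059150895162627002268719066813147496655801874641111483208796191758823417302034661580803898457852166972010499925706518603715348240055822680867354515773943049571111512492082311492759897574055865251356331425971364157109375688758565008259246853459567361042194527229663219318703940229114756181151473456347650770547792685078821738173257875132915813073368296428040241820600850850432365883979362043719339972517776501585608495251783320919187336157487195573640828569417585906197560397866420484042045122908981288302203153798184602351793341180095786222028984772815193137144483261421099668703445283591679303227209712700097033043736555746478816297685698619398556685724245743072072237416754695201369520696244212125412724795794181964563356296194546813988157467395971311164426549992983783408897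057580346652479246848634671607647133105892941773922850536082151672880979784160101552834940715928780102196871498590381082602729298439632143104916508748589432805439892780637047043142341891486111876221168088397516840109318109237751616245660144836020005216159909670374114009903775379878014738136138944321293384744471221863548606529080965678143805802333169356805628580906853133967379648334698468537116440950653199090577375061227766581942787113356825127148924601603039350062903716050068788036827603592244622372535462902838924389686618800372633460774416773057439625383940525049015418554092542477401045096936217412709614912467505015200775460218206287768501822021271587932543270626919123033128218592479231674255346878460038400256504734078364769529097142425985185853303297023250466783102321037434024859431156428500060057886283500118332200208733246855342221474647583702495075085009227111510999204359578902803452258483095593218451632926145617221556531216795969611152445186863086030678035783086713011005628039188794726951397178671401426889119791007104274870846715711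914279389326347587070983692724573168674611829861988190197744199000520109514851893039015402649784027772531573061427069177124294633209023413380667845637415454328353964107231566364034358625153437791445565269376921560371972210867286060263788344616189705173595340228212146378436296829991746113297731496926921802790516499268540534593995115903977257275040881138774685822891020195707902796838620462903511041573280904037697177655007362193422164123112658410499476707246957009399805344486356333004181972669500611510767066738422083500799710689913502018415250663950759833634570832043463555771731702696036367792885468739293566407943346701829899579871264869558573833712276994428036259745834843337630664938272331608793184338898404497201458465585002608551611719494526540999243726570081251483318125599857413829388812037955338456204954528987388773902466752826989449197247341850122209197288731161877619260426255930236797739276456019744484105337490742764344292545380779909706399015460375391494063628881490173396225588892369224444358210096521451944703109658781275918957110523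622517933396002095710302813478807904143052912235820648861630699853329585484254254479951431057356195021002092088106061319859310051229985912142122862434337161083526434257004682299073680559271174156373015494362909443049616938523241375094549529124162478647359923129227497422682616767724912936664806603007475375525544364383320599494956531910707077898856568721814577657486490551591294370706653501479675441363738680522515521194626490211356618288022424904839789430485531506293428595912524050982725443826835961792947125766205143716297273523850128375476964816311845611971529458453920817048592561692586548884993085403484029694177506096426575831317692499428227017647727809032989887651173063727638454060978003951782796973673331790910378325143418122161739096785018356652290667012733911303317971988452935944497304513158202216775820975247652617776175901736854255010403771918170216094822289540167968937996284599346695640023576526311001581802728947816332916669974792995913495704117095382832204755221276920697781087375746654363032980095305580040569971325990682689310373179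892087321671416849107242536682133556284194731741555616654299093185547347337068516174559205343645249815055724978147243424774099689464753381763735900044174451136341751640520165738081673186036396161579061279801247218329103411075721392386411694955884331026030646641378027950155834960614175406430626910645752964511515112305351871365299293745166579729593703564493857662272607228029282810946635040098361161192893278477809708714847550934176331050559023232088720558677064576039218601404025511115794809208275036537903131771946450610842854472264898482666961357961604086697991435912900319184476843501577550262048064626003132800068098179797734739211011526419059017780141544175321573026713742058447108503765651769120575715358271015418793468926699192152278342494611975931818526350871034879841103770111608063534723952046549944795398304237293313427821570811261542047971102125485339743780837218689413481228283846865803269391072676898862623696127697848363791570611131037310455300242418173330691308522588249436041652164981892624091704408495857523857873079656473717629033396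407020481385174165614021114887894649244412652947502897525498279585132527493559940558798879903922978676814407484628159578480056691871778402922226997038731189094033115434095102600627068392889730477437130121984366109937404276402993384465437839789163554232527967800224723804793829096333413912614009109379674901230962092107297191205253430617647938028640928867679315475718793851494346931500880205218396577974116241894513885196694694376370684080168018887404590918930586556884931167240211936274927396645000278655015622842804942250683050316018129748541894735721096152169296724908451603778927315203013147476508553395276709774510034537380361295809461646291434074995731405042102876134303600555834697883704643385354240355211806126690319838840551619030414247623213497618383681597384861522205597096588318287521677477173432387252919513775935665433673872307269629046854176966495357623303562686714892711764509080309275492838431375134287085858649230195023685926126789388074374823230805398506485473426807088788414472232831850037085370492983807641814032832018763593162719645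841974859685012752345217097362717433739986362141421294592456369521605364731883566350300622235274915480599922647794736027264300308960989303626344413844794748155661272695738659224137322988449417512660115927976228731082860813746006361884280895872823414797592559677482967716365864418714102038551620463347574644103611849407346563361403151238818404920107076288618197580793463480803544938991132754625873266327922675213131460337355832355549725912287685176984669472341035030604221513539060519131824966764695683812357315202425388545370257863024700195349576255977918937155143752847525450873669363251897289523210010028305905837334535069048471549272907849694859856262357914197111512663564111019628744646952942583161865049681094562685995905466154521966676863170961604019960660163544684259625247371901853961376533704348851152702667438178537175838519320940779717009784328196709411155143549012959031181297420034601831892045152371406073078737656090882778411306808801354898708600548647346672618604425294876795482875197793369079394067031556716197706402384106420501935501213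26815537826176096389821012755338407125801918672578543043094313026629851878120626679463429331024626493107326883812219143837936543513696776901744085104234853762585064012389710485053247846418934953010325072547660101919826719504571598668660014812907038023107779660013135333720156600566311226203111009163762576392706116201907425132413821775832732288748865768118407120914309535139296820816087985581345398784661520112056558438105580414590170876007004666955484970548237211590890872731540567622308995754928854364561359378124956383978247730818395331423627767120551867559088762276671871012817502588559979172271053468919573682369835065974764097146372410143563246697110973504648798772706223974296906582887233039278069426404353853166939826114989171304371150121791133925604453179371751691199970519593485126525512386071771849227831330743962790033541015614798186033899968690932559300227095323953884204252170297987095481410055918729407599759525114034164877372088800915780216416534744041231752617958541438448968601626905976932411195143602860086102747741799666806370423901281472413613026446500705423259522653621890938253432117833027590501020205056)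

noncomputable def rc7 : Nat := (nat_lit 388659895607512857745556801675983058005955855649928461259654041333371731268407799082638024447655508424918506632713874928935170295970506070819244190410408834675073228846454686537725498852379978961585120888803913898037974325470335490539818719553362749809599191201607734698061699797383486286916431885942882218116203931008476660600676090975396055666611936059334041959423182642873093562253642766739585878657387114266494348264600215324643694047758922275846595843695952631213437815315324967562072668391196420891705146211957190315026764497802618675732949364751025460739980445879345269077251407590872397672654213600151273124332618935582185562110706056444985322365493783968621029515323431069585191406804646268826604850177100290993062406059916762616686369109394984672004060040345472260836797131186690172946842401965910804809027635670268286682413772298970402800651217835665267723826299265950722870563329725417034245261577504337916483042100813027904589053039653483132395099653398388054949636171588278927098624703239477356116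617169933418342693225336314129681355402765797088550626823193879739933424896233561269860946317529700709715049614986090390085057887572443309278989478360636423863147493864322766865840732989320932295777317603052071565463410155971943539875865347465169661644747418500444233054750394633048070563728310934232694911106573000505761047524344083531400929848678658903244102457712566330938808789845084483616704558318512305332910921935984504366067168158876727950122710331802742580264083365010156756110228619955334224502135673205989742200672316323118768947554083994120085893758484140236671828708921222248071068530874222492434598637291847072419858217091774109260383466394268942831224722354571558169409008198407267698649841324756528619232264825161414333063869656202733142497130499809633387089272271789655865455323451369697695640204546386156440442941008909269363077490777994612891209943373332727804881283291388807924598490507321402931016172694116211874444300516949452848105187343263949346303771252304347647188374175220873606853643893369315207768544097702518571974575624368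923168409416259218544313542127904290873286924915155835033688474104232731363277899981966938561127009306870279627288732598996931808284180045860450492981908480877603149820427836106747252974361861856037076949770109126752850358136243095657175716837670463658986028815062523609741728907066933498550445891975881355471555271097364206270498460451947325066686140262066870805581788717475989315822622948125588398714730952071999562622155427197582300293460347340032199120969040288682063929131370424273960970703144548063542827359224469084123268061475660815118212892510718556156747944308504554336475102103559384425940356831656081521055056935994185822176431655103315712669537234988547217384102762915977988420474306487177777980841081111751815341063870370062381789816782540484411801317001575575946530372230165182795706125099863078333840761660502290343863305176416497108250631653827822882029787696774030575698271277205257910314896157960456658903626137193304873633659995333633350005307367214990294140058259269856059157945852280454461384125880468135401039419752540785038172445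930865480146632941460844546766050012551244753894059194789758353545212787665949753243320693027783750904838642988207912274396054764655176284720708096014080405954049899745236057768745802594560352368853846175990512381700473463228908671447959678518663957415477343792408722900192456307627310771428718318806735708811731992642536118770853999957285226833875872713545301419103252805315114103278132012540019493062303589066065123439852884137202751814355136809892589482141849460712810154204328880037935206570382180684640962044869377770202830415218381987593224128773892790623657913096471039807057908185586764088873812915847984839747025315933429935856357306922020694516343254701433301236638338451477268564019970887719649750768958430459905404289063731019224597669197859840375352987280660957578966475458434484554773726355154796834160841743807879060114796811790350847761986700241907788167899009116010844451735728090436214848492080423414503780197003814585454409870606990692334151049430137968600349206097322262086060512645771692879012678496058186811620926626994556972896903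418564292115861200720836469345124806253614976271074352752251479731006904265455299144959978305067579497185496050766486101141452729010004815309117271170512243843311565265259361427533178081220720937887473773998964205255786356893367489775989532679446552115834604549559643984538483002059384128793753213580732603783072480725506113465765608386428841336296711606148214675287431451296621007431248336575639816272672968522585768312650077550628452525392722005961483830751887367836058939254194487444345435459308447334647130589686210401904979723269561682958838873918149137886952228816328684450260274950767698691681349126650786767974330257658449708959109719339790792433624649007243077627301268532883303076931180228631775570704897877428093496436959494288597096431603106047453333112846405174293369159598137151784802233889960603853986676112682568046314646512216496728677258446001180637816203223549091894491906372364232277682333864174354659486644024690908946845563770502962076153400365003904026907112062485902139964187817513599248093199470504691669669706460710500144703175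516571999121669710828534781528162149620589297664438451878997132877038819409858354849023003669786926800670601132676480426254890947381240253719762570225396188350877730931981523051547640390024606792096986328715465434117223665204743591278036509153784053682107297091445832990037014313046750211303961834819152876710133527687437359513907465308911216086708870589654972537787973658580545358464368647679817794946266546194564484763779460433044706797307021936485741283505081506754994523751222447223184196999260536591174198581649395698649547237124541246620450214246684195698297344993448445530130382727287575431201582758167597626133237456343378801291997114766580279543152755499154404154694881964799010400801789638489057555275563447258753597457032861389216955594615134720632279680924763008361935188556513347684151042333527705754933871764859615857880620363030256964241704548119796049680475770429814311192525533086796146406987147486841189045804046524969370010961050927050295548555212007812166607962908353618556301562204335062407332110980543228470996785053542067490063026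835487709489563239919261572414783217480166617770641492259260050757071201227297733812678721043838858909173362138138513526054606044753821557445903509670750045534399235259609069238319725795097690405582915763826868253096168536260943922343751376879159158116444149957086068413598685777708797366023298933894749371137071724630753224147104383933540964365841691172060973965796871578585966404035685388072925477934297758782861200175879144496236216407870773676189103718375640479253754783808113643879466775574527892391727330687356849699506445572210168237423686939876332564275792627695073016811286084523772703229334937749076899355703134775521868731084798056257331834378279135601821415486823103549161788297228536376951868568610569217495819567943432996087391505902977712453592854736568014318083428846794808191052791317308417328139394679700481253921995528295248732840808983330403141640355208975340391382579106880177623877421036180043390723946123004993599115208325301565140830657457374295226307513622790582312548985109709777887370741766469372120792219230897590991784234427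496130457218424007675764473289982247521829122285424770326006179778178325588629467499427478416093144807100409134197921794331865564172428844306557859111924812213107310907605455690643541279757386190511222899928297341135806910823978614940078004830754397466003412621628894407558685130544926841739948564394973045464416492325586019026003574984136942005051441975173812515813135212805823432013140860980655830868765558696373888716687632804867243520044595339436481410065184264861809373388494091583606070780043832235455993882415032927136600217728552409935192377752846940576016390025602695716511136253322954382736021296938135067777138452215280473432366085583102429595063632294053924310386571927417985910812891898971990912712728691134031403349495887969963179462718168326615777398045138309646178958030532826393187713282320628843451777388339398291081981284522481646943322040546149660397964332137787213240689140883664328403744233584003318827941062137891973553584008823455695313671988741848704486487502549071865032856732035524533131719186568961698983101343381102639131858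569092244271706685945222125114921445789817213438851361393908258625749821689675830509306632604327906057938078380432919960003261976313058587846214571870214251501266677685996081080524267402811903749183183805818260353448778372953182440779281302246454561099124980609687477987218328656463077531739406026914944318450661989343046098563515725945157997765557754366999875787692585262978843893277063741787504799930909738427943578865819010333473574281793318897935416782898962948139536391441937679560986588971796657324809755224408316056479800964230504681399981901867199171148943002630157937366062533473138205708858480196706833916726704661126618419885758784655367577076216076196819746524629462583874551850094809536343974375021348191742614198909349981374159981277821392295372901166001253721860461653124555848910892314421738945169981758450990846049486457789238122649782431175417636787264601584908917978338151629080660277339893201189722653328635515360919565213473724499328213581790021674410404706268063831230828098729363510434038592935927435199506404383000343322174705099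566966291967383712960419022112955693801214531756968235882517750360342599275223216085291767329568555818989648063575046257857383245837786767847252239817103214409462980549220875204287291084417749631361555931911696854323051997078464200983700513316719094545840881115261087231997839669901495862608446767621261661897466486162044360062234860246268166219001305406825495024860121561742569991198191400593948914166881512409396900655710106252654861612293147052365837290648915121262176250777342945637248761557654869486584318967592515677827320513264424150313191566532294874393115210521161783140704392960733701719011052395384391346608391865059958152630143147123753557613358792829027311695333416783767754427414217896247776751702824580538033529180184308597865956161729025778946578361493825967194281659504891884962757375676058736562234414319585551629535925727007174114187487338464826235297271433987700103429818856542498917337420297138122019154895002690842546484491639536235063352737093959679236297876281205181527452823791880800458030827549774240645353580645281150267488055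079577246860861835479093448114874699068606553570912495086045819899347862067320973065691611820911504516341406060943107593371502602403030963663013156727530356471752301323610486189129179404340731072902309061819640330662490080299137544858474352055878135343858394661222880874332558381795567956167917546372563465589561288059961451446742588664460442095219052708540746347323557609456524577008828346590122506025143176727480832892199138434664181670611294212393001479974390212328476254998247155286500588393288316510030121943183262695203678097171016649392492175098363196355838775648233775361768628520866516599331576465681181634926511330714315500352579863911104133421370648108965258516158115827492495730296951872795492978538284468580710448692676587695199215288646766429532776740687616211164838159030449178577662106586276454255924220889477271062897900791227643785752780678362705543860105192682159789911673508193071629166275600237692679534392475324370689678080804159783705688209698819733560760913568440258035557805131253384812053692650633798883754681775004320143431701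649929635484187228736847199390914535756490717335402686960120686170051129080160011868064652239301704174414863053370796030852804218609623965400519303793004092128709289550548799983352886189252663558698986118366856913962394357089802518101353459013570531326978042135647434249138901270179985073352908011781274516108417087775160774775000062918539647313917134851365480220974515646313736879589702535295728582163437736625753109643531695521699272066580668445183374948624159738837043802337049163884317069605166659557748315892112220577782658527267816244700911820782679490830596815666992494460636770009313730560754161252377643157498110410536445677597577669051038708294638466455352287263473120637025694249432609447021609162738730197046075449709047739861022986077848854157187943368179251959227792217112119569314820954056566971122224592143121654806768934225568887216080600086271489096500273181900446542552377595385172352832108783428804328450865791360558801377995203928794025809992577431364896106791950346983961128915515568522267153690939344310332913473617006240116234958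522277171087854061757133285594727647022252894886812397417011576246044860855464653782956745926337188250416201561981439740880951021358331397147301778766883674184592507073326134908105182741528532635078038120503487517376776105095775675775406511179709841800712273615779826485161576045011441279460363741538355785275630119017335461542043042796956822186076864796226280010932116482383847132500795922221635557183585154759521923949685010567149758384056283534296468939097382685584680849715849811916742637947196713551932455471410369938923809025272461446883411769203727826404777137403030091178878350386836716895564780656669761063735000989964215426994231610229915384861780773134533173402836574051011946604753841138700932859253355975591139782557973687281879457607649130601542721595420694451341288701672835290307787059616901409523936081242997203953166808349234092842776173113047128258516709952560317678123617324779695587358043085278440335472233028089772287830787534418238428029435283768677352248339247199389423478186468115493396505851141189887867468002117492499906414650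859211881938142866784717230581082136534375705001659455224661151376974907357356687044405218893804424473494434984994071498218719150346329047287716644303333631062487888528085999298850599443660992684968431214464396577002112228116570703703452673560454144590952892065856377383659062419556184520451476599875138334423813790310089386116352213514808672194191983432298515266441959202016127852546688743295106687418398954897125402852351028264970238237630406998814232558998943034795870789966527318068245137256742486374988516175946083272096571357292042379312945362951045303894471452960158467703036634342735518145097551552443028542381566842051840983358644913148691195912758278136505889648717572549638689939827580953171374021244453225899372293645434410599352947559629654759531381988435143942431041376387021465399506229053561246957567336066249188508707410323685698691362488016733012142679510765409814482357961227047176089048323262196880266077911898559596455538113059133902926659039167866405832330044675416182727417279153062730522511507681426934028089509441394133470589495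648966272964574214571345799562608500603117548103397405935451409087610808923152849977801175572933437004181326356492657963277746069703664615250377975934116181236452082200128258380244562633538653278810658285646173785659244368518592014548266508512274155753174895226125497942290882539567236332467452963409314591997540964050815120481811930855830049968964711065067582174347856154651360973783472634410455589923499642175259490236494183682437754945010924098922550491208865327738771993179000099260731405970962032661715778415062441772361220377339755614865220631178728694409770864572031217229460891905373621993330329570687634688433926533490349870330501366798045267773575294657005094100158288249675385612229735645119242039731487016318960037457954310741509824262353923974140219392604825888933122947723111603084873317552712323093326619371341601837625327070227316234551613058743139854294451823180439943883526794649635194478535351843623701674928747314143496904608977074688063582807412176002585265464894855401058475529061815412254252306561063430072573890626459664710415024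703136626600512303002482492411293293730071301653230772126438705544178694949591883622059178618952654598052747901550966427569867498697133610316252049185882907370214564139527373358366217818399510475153954437687211070860800499735031279704528468408039967544139766272626779995789714435824842832990198962508671256349904067619598749319261429000692613577491718958534096368999036245714982554327277113265838741871733053802090445402747278240877032292876040036265114583125416959536507558681046194034981601081471788688721079634895710524011329890506510744197330935852760184797724127347565957156146647901381402026311039290171399727931363105332142825808443387785335313341135544339970852067767661179353396042260663426741894598041925026813785840350908045687685784247526921376181892375408163738456936519861167871445707634569678378871498865470878232890891318711601184031964009223643186885437344070066079429105282471487908982495813530745319683321313650981794422108043013679817991582126827427382127701544592360900787273017087797162545993337962511650680941305709128663128464186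73258261058499424074747380583304010872370219183135265217996462366976877409736081779646488683155896120830222034857733997537511023083020933357832231675619032644677376458913815859311632516753975896739256042930764672968861863978989511069775732285358763045930710205890244417170459172207110359960978016920361305307132981714506589642960196391323716931888563790547153003008942390313089613504148430421719833877978000971640705833256415030202763179601332193687169888617149192214923020510949332661602905996526835515158468954433980164443747819552881220652911559600637491149016342723397233831881547754504818562717071845300912283328508548933931246105979818697327903088900431955408789489341064503944814279199473861326643587251199058491255969924474068745263974214321068824442628238197718448704412367584471284741819052672032034919313384585687473341556376356197662047336600547982633253489719057617294602864979583416950144903542148604609719794288491448048724209273238819778815021602450013423474792842110618368149996724556210024665990296959235003723106444593406747216700184254830181968137457691569591990480329132592734002192699655728528543839158272)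

noncomputable def rc8 : Nat := (nat_lit 389039274232397563088409245716254147055250419027570510343961479392744611301120102622912295805273549441464409408135913635646620184813060585837716526431669319316809862767074561926332095501517687743869634770550851528563222259340725644510405944950460630477072420714666058949685541018691456275673123651009699337060902280369779870799177366587737590974179558005118237715003055982963690200256746460397355481458023943896181059811547017011394020339610796882185505112587184977113301701812022618470470130251219561896567374773715114777096974547419334955688997218739338708377063146578625539880022917271321465848329508367861790952527980759572571267752022226270059979590280120072809968166622588450118462778885518235260315135733468764746897069287605669390331752727991051951941025519363081556626254930630367030972724834163587982105421530544355077577011148993807947556104775699185709512606101832747490093602949075002087003473262620085124150083225165588911930362272514870364196410332890816020260173754577493235387805972147038310502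024480659569243266527958170589778693308338533942543557330979040334255406880920523097180143880818705351328982457789374798077583726639091294914336902572616649533792385833222623438711448314758403250131481004969926573853127985934476473231403010664245956484868550912103402576276261906221417748760835315598608164788345334773050488772083798008190434811080366679571715890681533636893890940183236296196277306106223351417485831177799528911425395433144959747509031958037221996911584105664636364115249057489507873985859604295717092192274183900870686464009173194316743298749129763600331872096913747346791126356806506659987207932648614775590163211109158878361277417750801529794320688777804830883220559076384884326047493889610968539076479479971883877725746413591439991166449181034258884468384012401864965749579812069787235254668087847416608518703182426943568386494367623876824385743764900317568889306880470581842242809683508457969079181762861362484264864323755671377802504792244481486776985177086348729274631216975770275068996811551798805864323961337291346725043555248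343112189974405774179396740445298690335824925818651251477027968524744679629753395035478486120638110928100206842424582291899800075875834860805356925809338943961322366257567195518578525199572866888874698769338213129049210790562425825115481814383367039082297225612056629839281847704909665188244431158303881165895887741091565681843159497230725101964258796425157086806380539127945644758442754606420420386607266416389069122647494619072274598769317744526459134254070611509659905764774637230709487569174166693375536865911236673128630420436723803106240267990395125207296230158451358368028960124079229012449228863091433506890337682761262111671655009300596436031176626502820807941914318677516668286448044780527327456775533394536199431882191632060857310515917158667126407258307236692978391901252776971808457294523587873877611668647670791311540697466834184442392224914853775437149217400161814212075696394201431747797521059226634600974880514288506735522570611851420752142840555959174712508674555140326915213972714307678948003348473608735480797051432914499367072779868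883159856937234515615111541940057566486529986689203264815697458126185005352525441579070259750053667807069914763968045015705288220829692835231732224628514187897190198572123531185505404075297065711001811659023643084534552413908476420068591118100259186298800792045719356102180310037824924640225091196986957551339457127835652029638722751240300858530388226058924616615614960860423927192587914708809627621831282547716087312416487850799026926091896839469944386925225692706016567168246254245627847030941941590858641567784231933485195446705481711476803810715618126693714884279054009058828499352669262093000991312496031603092503954810569765430560879303126078381537464231566972670031704467042858651544221765223613820928768391938444786193429415343451875552881224272838820907946038445908549027531447953484442173952959557290757523551116856987970215101626894523725953341665958225749608943030300179617103360628206326590749379264909471315844862275881386541064413929429673763727015918348531612657131865468113468432614522131819841182689868050300467936296794226856616399402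367110519575864731058916319056717446071708998912345422536056103686680561978616992326840226708905162374358300051250971119290162807211689193800692890482448012471896010428627644855797892568832261822745888271089644475822408356572840060269527334444790613877732356737353665675429536557902283407845068914309871205781893960689344735855089525351814319092592397859077675648449110667256463535721098228140281959924576812598579343070280201804801767131905510066945465484227412686558780482646130657626145143653060887151388640842585653737690477744698952347133481386135326686164082737052250945496848887308702312841936222768588850478428066674881536199867436767276475165368328307141437046389689034778688995050314388962526125805286633668144262264608612093295377133767105215583509027561239213505083044594895896111772602495272369431506241926282451923401072231368543217252470730474704909162641125659676750698971717684947229600164513487763846230243903472908833531194016886358558073249155484731209960458135922085653177614294067240452338890659414831560584993484220047928836335326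423548196272718602933613430506417218323587064476016720585261006303930453663792577243152072057329698582210847920248511168653471827695357558758551144198063434094110946952832551266280181553381529787112804747988821378957720344567769757151711613728116346607003822794233341811108414309836688337366439034898085575179189728650077333104490184968364629633462774576049672703825316634619340331981764532763680310309606411117560763296588957135785150567876169442750671599301410787189463095710733068341843049609580806089984514831944359833660730823425212194851605238954971716779071529094282943722849850540670386359567930384900784862209624432154179113127616145514472722189375293120802436121807840011478798448486060432645904826573843164866076774057270792802274823611749808858770108029180032455347255345917203570512988459573777887184148630514786858755882323430504810542989455304750558223181388923246330298638189408373215611211911577624801561997543686160263837806936221699657811094073191538137027895545617668888240869716982388099166027092992980829806686950323806281565860265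234546103145419780164588282329977234846150447960459331162467780481587927729063724179427329317742597258484772118644002373940823319157717126710043772648298676530314647694308490734545623739510841287216089424010675969793176506533779398240548588837166719363268019801983353330798452846015346370987015145197734427201657750160298916326923688504729086874602511706884686725748067505272687030130085638562031519033304008330705358347870908646839092857310268542217322681167457111233924930468276948385351570034249859006102126602469110571862419403147631687182744676016387609504009544162162302451233735405145239674951241834797898785764253852490528485043829169133705153515403875997348371318895899509846426376010647049321240330615505640307576340223167926021106153246226618964802384767563725658925946572384933970672881772108591241615525234897112699821800183122710721770784488271323081929863191457492197056866599788915510910887466695953957223599699012624845026143791349654577322171604591914914019211374026171539010587873689472043208852519759765192267908453229187975530845353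325355540266582904204106402941889640569692149184169186288159806488602225937336585428201839835446053282397673584295967551566437588215396539159493621951283081435715114382160282495563055233675837288611644912803191458921964028485642272285793263895464691616133897104609440400664445830931974996065397979086802716598893400146787761810202921688432957336146154324878176022787802780717820238961449601373198346108734595578621054301022033998076559538136639163297194714155142725006533173241412512409521948963841898206135074947074713989824960854344764727427189209145796153771096139605869803812359448011654918859805426089629651916893053034042102226735492393356448978687769593462787607750916624164521068739869439912496391872795527289720808098758286215827906192199396541214602230776802427266088855328989025248810848252660318702687489355892897068643285370097370847692576182496190323473720993217269023644242662737374780837068041279697174892518887896896471837298972626571041045771159397131241205291811784814175345124565625471580052512058996533286528659304852323831752817645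851364047152062964038799005799437274274165418670301349413997287804358361720013234148393263237208914758739548030702931540906286455859457024197146810510034315609245344808896510624319520098089092186889679164341457084119899474652901577353384211568239289262752483844149365390104272535977820749633613952506473414151226038033675120422703669157713112470084145286799685016397687056376064649012364179422392930912733471569642484502292770620265560863277619982650514382389482348803504274114070374981124180112627714157694351414159337363788405769054082856136677649683154208090429814564617394030669916591476545152188431738444353747586133499889680341755500069836464036485101974325782823235809370424734807996591332027374143905655458378503633543845879845199615550530792409016928608778789829451929166758908401107178047441956781978419248716699467777233387697454633138404844067374871100622586467083908334610914531813103498774013561377053029298390692840525323346498645275164996678092376142952490670989414865583503780688122524678836072583796925063770076124021095218718158379438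575006762601679703453950181026207361709493485884786239075948678777829143025532015296364674747778933105653087131789556268631082076070000300103563216535978638884010649675491916723541290716737071048851842830343203441120045059493581801836555694347274458507384100822086159579138455771150931876235094493966943426869491251706497351912554113859234749551101499348831475977429292415388771452954171925236099538648076203923161555177616809827888089729132113396502786078902583511142312688787869964623264912170522457084840867281265125718171373952913806434673552434131487210659725412955470984619747718634143905655694168631577246318595172215510501486122904464836478458023876046117478099597030389286776899234152915137490645095732104849430595387056014102195157002700672875552987252864596910780247315468655972651072460363695332632304644310047764380145800032662070978700341600079919193159491876808398052735101932919416953072938541044328543830766065481199594876662147650630560156606194620463993160963234697752455207956026489200792038861927825493943953155412582714706454868576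159562079990873825744440583208847185163092929264938164355978456047675341939515371281190513401719454337128780441657700019432487072610358134176343034117566475785090390257289107589706931613741926604595748274040829850449687794434428157468121675541589713119956527573536784958689241376628676765615817127139907474289041324855131226979466075960873104362380014285162972262910177593480564278919675321816524914959883468266710294709428039267461943157396871638988215999984958928476816171256664679182582342509762630510063476358610862957019419540216045569421000838173432822578119526369378413804001935942960085218579126587091699897229116167611379018693114842365955328432176121492484864580850695797365851117529460172516529339875344438523004854439211647867003520415170308468648620507659529763275519331605812252965745246497241255277501159716524041887894944549455531489055899140514310017623095971538937771125179882837152107647453659073200837397642801512649549210246527747887925160756096999014816349500920356543395453748242933244643563438369357578127925370055290973197919555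491471658692756845689049401816735212313384727755934457965789593648485758691713608008483888535297119095458264721232392506920411568377985624516246124293113238493510715771214994586642228304658353067468575247992240361205171516548877652964536567466208348569523784936628062879307566429288034460028731886046098005225317226895140788853656594131846069354900169647940102300701917360882900429673359066614611678039594041573099683643913147123431664593342299444407117124212472823732538671579079675425338186882738417785254617150392012442753717903024855539940302573102632425540308338989660524506215596105852347270867675760578956506415853657779941652674980356596768487207683197779086926827959334067995171257713493167842209354145148400378515640958325236561345613080528032666765392818561199253975507442748832820516266124316747894204837626994555497832560136626491547114602444206361743832016768881532923773388222715022045123720191440243168914388151062065166403588017550495544308864755243220343238177376295094368914956817619518473176494110125523804275004295586276067699243593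401338285382600002326238790686206817482979866906269115999969578510390856701816531347256814095137783935787477521185425139717535137948143159814359243367311826544702812918287541570692191016891918347938878376052123464459337065424826074324796079137206861913576480040684388469733706332285314719833763481417448935879255776544265653207945649559640591098234610896999342091487643050425150477652413723774879398515839224222440278732445401538782649619031837366824552524035323420856481561677637196607621611101278045510249819522616942244828522167794655036756558300748203868420221127316071568745523875251074595590969341406083042431793127772276253501386010825255711483766474640251392089913267480746534367604028212082312541366408318031382986691293995039299915835235869358732383366863662691019362819984835720909129790783093840536701548340634211004213267244062701311912433736931284012652953543015557127179375821100089775413126571137247976365492712366345072044070472492035274284315463766105954043753701146110189588285248080934158047305800194022677895171494906255763356551590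804080498663527180422031389983002618853385801055578098742150048653491437377169177674523269080787869007034208765022641249478775218045774255391040622393325121969517615137313301671255007818469415693848254976158197796790964441046115030794682176830147285630685962622176723390414815883613080098206904468356065750970085398963398660319988122595723356732468122855547910406550113531130986616263173265059269778713473856177781217138953134999183579779736362246480605057487523661409844083540214571561771995501531064194383425252782708322752846476874321682006416888624678146419897378817003923462582057717464054897493687528336247900781666184026272134602147159005033032401927654569079442323301354913564860978650975893698596173784428727216924027072490881985855190011066764766678129500271108149629655660498318831838087118481428508000551066190556952147326591639238923797175548064906470323467949174921394089988382267934295309822056171528551817018212446896740291781751585430671733442890597705256345968510116239555472775635244637429231243568184066020721762728781910161640228262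825164845618254037274014542738629785213663363083444752606529593528839640939471929699569020179571069003009824519940843326250865217983494966459898778712586605631012592351437564976994432112662743471757798224952230541901427306324857646010839234123228693742085802771491500495550654318205276884138735963475311810612537028003114442237701742060647624429565090060586271246097709819184149014976136797071151918893973342179346148076764517290933462430800448815265141895189527227503583581340844121253911975310685824825770507574337364072238212145206201263456930477347994934640632689466074456840994018045719204386141961245770389867831498832574657031814729142325258925680839830552071924025609877525826880572529776116963010397676535386982027708505085239740792725954231973962683312920995824180940242285364186941916404369249218999273015511478318955468698976693323391161976018616771987706637697827361883122023451914913474354621254147713791446781235336603675429556179209993816819075799859252288958853252599345871285082702071062861978644761231184975994736131877323182096620909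348665371787479904865077620474973438161555155418798739709501307275685578792964755370489874318318735462601089152542103328579949024858791679288923733096273351197900257448287941172432323890740601171814779101126834332829740460778377219460933829289962384914366937562471958495401871466707767526493855209246036297925311484230400952903832256736573823249830903123525531758542044061326257641236616507353832964468299627215255724891864309830690514475635585874348141419054035650375719999735362931252455643691246791914879412909638317764977654555616021307563395663137934730363700612709660293131062661188831787338570507730251324579986853889404324561392418489189766191706797490035273930148282712972742358556932689438884112958341800116442764496662610628395473773507830944118358092777472988194118366401066322846495382238491117227978998363458980615144004167053521593677829630369351313295246509735757247109217580171552483391320870883902580949687534916412276457470835947958190333977386051726753674919909161019835382250373299722599841618436495275419868472577485652624673752485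32855720794501748937515332782467047766280898200721539302609479817471405759884336658745747423070582767306525446553823006561058008117303353239264571293634679866844774791111142920755424137056455738812631528950961977123558021769533205621731014035792468289992697559336304707030400705674340337238358501299439853660149570497213541002726566785046471865052012133268508030736830724340826290779419870964009514821141985398434142507255426047686172040601793322654776608891549982107262202995495837200471539972874170240645448424232077409283180711054072652230785870815437997176811604403933237909847247997712223382029194766000346862398531287573100171649638346412143310591122693437842387187195076558606950938980293523926250411376693534601948479072275925456401478036514832067558637594704241196882321867846506366659472251888582563083894512481005677608561302493010411296446433844601107668017436723757121213744125922556648686087639824996481213035732383696383880170897530012898083014434197075124778781640810279798229082658512763493808113194059643673600712573977626700088635122846215747247439707016884505708776656851448350995706260826830858453757460480)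

noncomputable def rc9 : Nat := (nat_lit 389414073187026411447670258185949844552877161898760552453377887516068134510806076681264599199217014046056455231669592245665296301898255456940543144081149528431651283363480681993961955020559095087476849580364622960752939645158466415905965112999144889633585399931565512952921843829330864249027849704751515973583239932714077886843246478999758283034075774682209539940061933290839836532162629213733424168751532098753923594348886215089644886472928915500094628270956865286813272388932935986690639702277330153204845199594195581563611550216953350113797111623087136891934468103478661606043010844266058148267899803147047429273505235626663918014767783378668430922113473204017609307169942171732294426471592868187800002437366149912356770720914295009824222766781671089582714001580136685411029280291112325951613287031723141315760984576419114860234554376051602116428211748534838414291391606748822922330900400240631750343265464574528670668055511059060273092791771890650960967561105702201374633239859875101422318238930831777221192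462872784407761180022528463693082310880493358924138688639266223795924547982118780947888998359982146299802429278502446609339458102446058555470991629903566088808330218983876221777254868553219651875675890998845515455394874302510376279089794162966453178502596915166334249226780672145803104496714419193744097501702335240296982006509350794367106248011358855458693467400480491864329465564550294699838795489462703110368277767235184702365605658553815294381138079091275438213523514869540293387459021495051273359099208328514634304808211287966794136095107592245615628629637329211986902106530146693838630366356387879468454304342381189244968282406892927302211469302370651332357675217506704926275478200468247936111992693803721884960776034938164864158222312845189856367872700373238544099201669726652615067074951385915795068321463769693900407118703907783421434200194718049892998858357117802022059745642038415460363599997126710225576994748725982038661675898239905952248775466503245294314376625279921744786982440050047226454812796002324329075526341500965061397720247157887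894281603032728037206448995370114415081102832947159780612809384843814409855691980561684379593158563091573405091200451448072918656489572123497975526889274102677169822014963669296339256123711041445765421127389523977538470027837293545720577595650291581336034426958637938803284214067215665429847777670171325624477351392257806098915290092496716572155677131470004128072693244809793785584883702226101653037988012118320210679706150027709888287190489999675904760098582581198748611902368833514119331649568721586977668905029880443293335944452215275351531504944680134325701578236861816906221119774027937764869029038158552270917283703206704013709761283848043342437442423928135898409224635418363434224630902592298904105312129253795451689822434227991201192214057288518749424103318032431825821256897118538915074167707473153115679397222945846786366711278907019696679163340622345663814516254545843533277629196388063431974752201797997839647042008268937169615801002663520551703990948660934332322578069920563726323037382607653979092040668064088341042367303125269220626823133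114246955756546705478427542024954861833341847969951319214533251783167922918686091126198796356431892507870048043579918094149873916185534998868799147084225346798380933062483348796455565896598801581732773479409709560197291504883160451759377653861444579288876564350236220324268015731434794580246344479377396781640363282956429091578450773064764101539622196935163884613983650832675695663655384103512567308388183226028071521595067058252230976982608801186385537001298729520832408937846932540497168960699331626482547091155730380559706282741533928419511271152409038971007705751623669960524890727381089885299005601173244647664835236929517148632624386292853788330982817845432912164868571515461776540867460727368970717972333539155897729600830657702929717968168438071752867011944077380172846981088489036785576598089161916860953762663541300503184979077122203801259328742351897035997056788793614709015268908829170931196309595712933291869912072205571248996603001662592271427731140371326002150455073720339997650167522134327294256140836989479991948658858389330377068237074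121955734090946698668799740400881506888433666864768073129670818164923114615342150806786881864656203515094860727597288121285815855724255643916584881076791543115832259498895379685996821537422867218583511437013065893408296444845577924654612548314036104435473869400795796982540808552803043759846962078686571479070370008170181477790987821148259221561414033286323988695701983958956310436593660868038257523380243552315282852256145165652838364232898951466393159324076742298168187862208093377858150827867162421427816867689009111944549157161133815282716801181931172659661792122304616687348957527720178385026360061909515756988551620410160885605285934840571749901093052864501394415689564223304328058055819552193373684595682339321229638882122607780811079576553773123451535436426927213791549693172076059248456826087205152956050232885267143306191363369595441639154366198562320973981139527222554606899947350695577518319717223580035704182787986850212595481110128987067908014629772836279680168360827304044847974065753033555638000645383289032138398390517105661858631633604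947015751475602858741900672383613661694285733013064923684126359563860905234446560494290389346936011054084524352485891211252807957173293333708712492497826008394894055039492019029011290129572243292586424604134786939196034473354108478037228141429590709377947457558717462480172226782169660452261463766275507186841942640255366157498097438665558923219995781671954729038573371207818296571353057219270040960485412116931265188296752184667546409167606949108285729696374824962872391349951125388768406191806003989118808423447302396993120357947863734428267272514248347055400477056475556544917445018102076575288685251984672359507976330510132657908416830578920846891915703844406260773689436544114233991221142802462359508493233817326490602454802713862930536538913889953475136040923547270626377851655854185308895029414454935486128756678711511829236017829585934244080168888083825445289297473560937303459592661945198665204319630834680801320150480208208300394103348127791498601551998507384904480800122651047356882788373829674062123247690562355246341525975901929421244759410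990314498557417232759687973904782163579323832803197653029265151363190217492769262921043374190321947645774952815842887369316806332853715690484690101805459990429505498034111984361886146803614699150681776567658176007963614299822509633696134236597108766684558382939977996184868979147578230715024932089243123369135649304510897835481314057672874700930052934521395220164326615953996863726995463583240313061061739667829515041020316407129373272744746483952317169127014603758349705349072962332634874466848759685691102424640374112904277845897818602326499535009974669167972158813437399785038105906244744194849445847383673118936535139959611053522459011955215348515751665138674798735404748260253896979559518490848425266446343299974757647601201183388220861986542367000635264430097938767024154988090912376530115007840818599026501061460986431444620884802794870054472270455599466174085777173029601390867822192778565563995085484014844840217799528420469536110516422637773088700473207688608425678173585158421072271380935977588263456620729260425536468526773632213861274898071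777476697194705145482194157889411010762294838451034942694228202538475031326774337533440688551668321592046747957839558674881903414673682732444524675163881119023268553320244024453098717135562539395018593158975174384122050203683992104099563009686348217970350645527142877935558708456729894860029728011332081826466640242532461006726840804408322858253039795418685943042624016458656760861200337992232860557664733044608717716637056511923121182819445326156066857978458186813688100638752818411741841778539157721174289189565236846117298158261495318550783366240655372356896194800924847975664284899204429691408207410307459513764823849951956913751270085040340174510739791163398985562697981814620012621366731500984347645640252908176115664985312601800347639157482062561807887682575118978156406745879963666505374730029486390354249725118104756997052671000503641557722991312340849774498910698306680352077656029178862955744430654572279870492568905504613022776714162802566440411158646887722154183692805043498752337291810412298829313824310494383220952193241756745266877767232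034827996899700019520944141073918973000568747511566406251417816662086807656738295599682366304833865381356607698903577044690248143221221278835887918697281037764010835377536640045347057171348259033204013703357606888164893443133143618249320801460031795746217662890720116882955464156243819556057371677542324463674115586644105850665294333414872222884529955696767628122580790778622740703951291981360151508248006017654840990605002130263357129345238396951912730804852386073605658814107027333169886286730865527182378882421624805762074544233678388220852591799621246532563104601113328685225244641760682740881965943484774510515016105525871886623705487838714207610142882746940712892287816439959113732288241327040809702517682908178319587043374531623379822866004707156965282483948863344040267868503197674638559727082352110411434167735549527847515581397783484557699449741117009167867615454779938104245631448648224680186156470347638230630736799769825121636391587322882438914440249050398831763192152673353367338437851500110356442192640150143791295609307802502042507132161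863443147183026303093651422101258371803096938245768343765656293759604509583956877129290110647751946950382953552806968483853516101770494474699100957109092629925826322469554322833080642384021244451250803596021889333691417014943734478398797883868087925424103009148153708659004342399660977928981547134717629335606672550426562546081985000190376230996613641172211060161038896703927878628590429935524876267873882551873512066214460353506282258665160568741067955166118212538058939691831077512487972781829953186505885466079280296056111495602171885477140195866949559753064327640427360492675717003777430911518605482700199688992969235617694974297103289763625454240861917721020761700047961372015670616595989547710298930864873911956443419961896582631282559388664631278945053344987061085903921960094642387880094284345899070992421201409640689725967163778451428687319533242817124612286572920379464695481332633822040484783764496440522939783774073144737202060498348715664835224580661599576591880908911304047673831638462440172281597119688774756777815455951627582449741751835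724844737984137860145548123232183516074273202688863607917776673292959171435020000976247522306524199206052737897506691598866102951949911044518100168227859519433965888350881942965858861542001062941156298733018425953838054209662202520242917791505765997443625798682753799922358331560828319450623312137911851078045952894226066947636039900441558488283406371728104470441781045937146296192143256535684233202590341645953245095207380325493524590169463946862225496773782081924072351784608652732096847694072988213350585275607013249500293441005945978042845952469504947692604296697377529006977045112379022307937235091340354797623586932630352604338590368041922694667824849399939984662060093191136680297928277258433278808237382720406670090406581761809854176763820437710190727637454798050412859301520975146782857252044086303458184968759428920552608550120233584882693204969459264520163931953141310069046285233068337791301278945533073988836651757934262208956083172283670174427779486120438767177197190797818263915147210886810066509124572429988061894779953037104113757657402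514336205369118590285716468476898690619128566664988637293283737785864010140925396290512618860051431592168258409704664755621818707517035654146886111747220944349222594994885890557991845125907377233528093247409173458722026003686454938458970389190836770348808723679208426308153246256545541554015616490244332555218363935620884241798977389861252403142420854260844749493813889746763173823209697466441004746485396655628995123523708013298233903256950395048879868035763893368385891010871628414399102049350147303462037433203257768382282091691540300829010400680950480121971209247716642445414697288315264394577936808134415583090699629322020091612159905599973480201048165165805975516979807954218218034297900681927889150531123860491197818078167519086847430129059183838182179520541297365053191164586274359590823696546398299951235440478330605871388977465732222724219681062189040445983808336045373004014096438330969625411478444531054539369392715999669784227888592616879743512302948551391443309014984195372367303855727810608145232747929449731123551535681914239584777181982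590313359281916593453375268698339575133036227856779011301619333988545747936571873421034225805708383324758859594326743243292152122216567458716569006808866032110432574810042046317998900881936894253321929768728028514370254424756650287154989403007855068298457348998613727096088371176156106341350336111163868935319202265024414088479353196394670216495804540542658786147875286831404129274444794369599448342721162563096868566622909946487268793645256874525743257754350132044188485184727630609703597487453227481459937478105849844134464727538060588016234503129700455146882323494278546857349333258033705530637076792280024477799632031130793426999028499550518479289907660149947135159414430163255283013366942176590709625554306964334849856326499004744532449561714864226675536761709935021507076844773695693081854703731005950502932844079407386360717446946250446269534979797005847318895279984455689129392415311843674813278684607341462090962933349276605923010898798690731978041304997611527100276439875723034487504582535164599307544316600348716790004047289934346949013358310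091854020010851009713800796632809469906257581182301471716138897144547696389108535102483322496203368478326425688086327845834883730232423526321445509559337120776381464346088174040399930480781761960680622185681511646640202278570610312951802336164512574707449995030678590955822947059169400051195136835975483282844425695304639771667819739656415681007886046998654290840221718281511641664698271552070532586640640135623721983652668328416447852914349022384679898145781837311626078312015508176835579264652491614009421263974388012379390556466575816742542382997529538360071516780856037787837477824857044533972431241293710042825046911221077477493583437654217663934205612146879916569674920159999220171832674079498089644798198657117169299466323014684047628152172810989459957393559619915993516202991197387806991391612294650465567813580888923670763073489875733933730349878638848651435763648598293392569054369420962797845981888998826037698584394669334854642713813137239960186852114722037667262010242593432640203665826250826695553972261302036828388589032022776273553554140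770851893867051448484299389350413103325402866791154441438536686319824644731976962659995485504795375951610930299996414025201476004021931638271697774681346587457621495172684307355120208802968391929592038286333773278616071386560207146596615148717320427514600153670477414825260756259195417386753705528453008491132259989695469138152446391996758590258362938506636070000980808804147330069745382211810846969980792525690704201636510224796377424108155673953852155718287429701785314135255705302454501474551219409426279538420370538346919999122326282144283387343288585070160721259582448458944221351452865785132706019420178678477525310779682194840844853178193878527529421986368150492049685301383307471886335041836100134784892723046943934020174819638940944930834732115070560764867260638581581592431220674026591370038795657449589007732064496777536496375980867060294303642850553210068252078703139884332304530832861906475557877275519049947424014670678286689467745313106590742969689282569720165403132517093360133796541684362826849253434362883424236042323098800519118817825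867892911152406718379436049530277767823466689576506466897312469367980224242928496167204129324979239102182014707475139602516656482080109215035398880656743539536171730122389457496230875368425604896118490120605495208603517818177912457788277746634824510130938099555840816422381690455451670297698547031109881092468474631478588401730110836567970289567107910756396575885872833735435818382265873374919203225324327320602655507055917965994520709730209090965033582962967780137915981485463968778763746488285427547299441614434944373825680166046409293348864782389780333291524634864208961889368970440039802927107230383941183096976301236797355804454091467763027970949487454338982190750774460116832595595263100446128008104234558249839745583293002077748292425700707558765131408373892602817435321827316613085929437617904047741425414066668345739531550541344107724780035698189312587441947434773121362877328852480630461646271874365207503605841373986394021068972731774894793283714130795697005788797565363304292391423479806631153946806334401162920793427286414772887925766256181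12917534367351342388447191116927326405332036696757437832242097577766447365395597189510143812698848396420681400111489767509332522451478676823973130549579383450791592627544033181868019030112731128685094738410149712708020083546365604461393292849052667548860125448253819226580240792838934017604441898657649789667387333074839270143027079195264936291795259202283205327844346303983832147595997795094615137766534579253122545007117444914498253687460922556124698230517447146149381710338125488953515947252505436888772952937909064969761988596610862295222704673513266230844775766477606198185026633494743247520640253659601087741425665302623500025617648642581759066998632797681668142674517626348867363893711723195955778198992201585278470576158504895428061824785048887162457909187586207249269528508012213103487167823191885834647134418105319388107400454965484782445035566309000927696358430696168861171321059312386086119217021081363706632905459263884939479116836149414169579608387800351542635003968081651996095259975809567606452230960595012904540204705365059101821118107030204770785197777583496754898578063304131797300409810785666747269728174080)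

noncomputable def rc10 : Nat := (nat_lit 38978433739499744334226575796372988688334264378445375969529159456696045517683501929037389416717582007072743945203626199133431272670013052106215564596740143364034659423826820704807462621788607317532048963265413880569518093066172073035168340339932334702558886521888224704392523323047058760182978655083087479305609372531713684726388649293014108463747434140030330570640789072930788640644831083183252959000849125133411357836159512614164457463517574607308007916943805663308751666815477270858296733632006125587439270074691236681454414133694500729477295260143777856451955596194749950526300031327476810313321571526586693998595891356513041065628121015890463288667686557171040003279570508519532671708242152319716293942849658213315996547821028127374139218061645133743719168185367289127071588155084399047286973013583423396008647920477790842726122499383857080213813588465272387432243933953828660763558744459275897574105434480433228543392169121532649277889780009918777065292676799983295527395804920884218955414356729391673054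877211221942063333676117040464063437715480556750220181435698013323309023674664412227621075231440486286167403982290683651654938916580982495750450498913489624899053015709951102127868675750999609034142641609893716238824968974822110130537082223130329389356163173777598585557669031151927862829544188888994688971878376659327850386182009296767149457499970432617943394753194275144903728511117924773249958174781210001116794454878986928241774344917769453801595492742146022684671711097828825039644841284633057922353545543248580305696610893811845431675700888286972200385676484452160904355504936521511601151536791339103078956834260776665695630032108976377458682283181951648474879797840628289149163112739610045359876189285005298631132989995522847293782958004431142735962433428301292049967374349355218146636033534311786121772191454423578406825835195347174861062386938824829730929799968187911451071038572012695332464256313097202948976292761766391347804680033368189217965233807478113646148207635497068386358604407887583692633824004764794303891145930281784008213553192659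198016769813564970377039650154410883026558050897364944039686184046613299696588361245510167675388697018851363157335802851352159037559368259828450138064052805405773303531329415896529082196722781677338525881608709268245802272975323321420218542688531955296815721357795361459301951267317893321694451361219342763430711524035536249846064841076566710015555153773590263678961464675054970810656309350613722841724512133735525424834872606799656461543132036358418136228024854881605785118208964177147561205034741803465388115336398324756875859543722027103662340532970610190359834823539715317456240190985775522289848794570552479854936713562476665368114868085631180488795706282554821352607920447318383839342155403902626839045368137755470436285925790497887303172493832573807092272440917135163562574511959162630235995559598176133140241137626634459353413432654372362701524687740256046548997794532949056220933427477044806409580043813078000638545612822408081376294625981827162332492833191573693370865864438103029642324973355453119722164346031267169753499432382454339214271267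900931361052617241240894220434391242198069656254440204693913172537369244555032954656893280356981233786199605967929040750361347829323197193629748206246672763867109211727245671393702236693400325862634710313533441671902127982875612210680561401659821349050016597148836247629139178187910691460903102154490840315653117173358867497647622717068622809824311300845543188168462019126326653832667684987591609725492676788675499002752980550746689302141937890245521216414571310771155286585711347092113978961051215907947281535422675008231458495531250160405409565848994929409791056143274193805271791920960239494657217854332351761361587512418357868799391568891022320492554350476748335035902358046406445799596711581239358846518205128507129263631168842332512449502065978168910446885994462696477061354329535621257435752305076151411823337060897985197951850212076358335054988811827633994887159947980841874482194287445297686031191173346008042875932992633704670410271384640547370870186615794123175427674087515017041255356787384434472695979584765270772650820338575893652399255953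160110454614685211996664890990565121277725720696285105167091959059490019617317199941164754446619846954837371145524182808034300389364448484372977509579119055191933991341961640894561406271010064069733713017631475991936354762743818359306183812002410839675945707299571642498737535502641612799615750337396641203288428847634269257581395920443344613145911384886181940969898876485923762242329653092236840553550728216031378748265243984808812963560297647568361629474237303952300108831258473498927682438933666602900953913937768328226755327539951184104418852205630998617549579488134878224429297339163121789575230792590880947441627274891048249782768943662986678630901161487832611426508396777660510330595215690208000669155418078998054763134067590743510685159950363366955780569278748314392838088897563425693281193647299208990743019343045281800147367427391680663026730579554980009099175082501340363563818328217473696071968937675489534341891216905622715049777556210876144057424759844184924298888475263541845559374326655185898828507426817305110441177695292874621001211131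315037932249535516830179950076123813644950516662930916272032831801887708737371885606733218019244273567767558832077443543684895759570558124726214054621327055233658064778978983851138565180632635582095942634271584730122810537442593871221012731980232385700398091897968136268314219563319501030931985579168380926306541124427109476259118134966665723110256827126016283905023397744257532626913259616576927129133117922635530467825481245170006918911725242363045467426881963692178995680579363480969101211254988115582786044687973626581498708732206191061072922612322431662271767398880369152130304612099815126448243043572834693886226002919610412427759589198284696088940911437901983398505864476537607992000689635068751951323172263159575004947677436954355951692206187361801069045636156452031393496491110750199561525567567387629152308124483045915990308949963898765008630221295619890262309083672867483524705428975686095481698960169019560716160813181660136481326154144961789277755281746392300540168890363303073533441498619727602234804738173794443574597052872664346442661647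882904471691462028802091690231684873424745435056959320718891902694734187635677162680929779523088071985016645567256157502631925923829554570088880035569204517519745500890201510513017462673511205263459576660617541556926706423578223323435519181576901137106367455876336321885403863255445546193269323576477234107480756791651375076143886661318797213898050788290298369585782102202031636644236042633523016519304150623327701291672332589717553045542262539898006518667598721386451160776477338508134663599470839433236633232399323203424860363232868690701118067818154064811339734351354164995885653840393083483460597648052630204604883068436341211974929127965797295030012061498078229979097743149919170496596521418804847022202564298113350684332003115478351438519558014473104365976723271901179345043591741016162872149514529569321217455708157846819874429064510506942971227588227190010291250259690680613260353313415209788712892416901245094606480185925563386414698455068459169026938219666488029727748026605505610289336122043177969802585362505247891308773294981870702674638444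019254773445078582790043969213190082199189081733530414423304461233311219197975649341689310759235684807498486506618231336510927711783380168997702949933648388968442361449563105063681429718523728477312621241698399656860165134054044052859989812329239343534817283466510555522626214333523580108674909505916178298949734163410491500586786003453707373105365498045032695833419139326825346714072097142894615936258849752055060044542617183103562407815570542848625761666753724588236268905518617343828648715581817473572646608883562904873331980530567387023728745297690858530355320751943453464653737715896668385078111091801360196714441252604883066264752267493512571479126493238356024443105114183457276568235950060125297308669408064191335366371851470910949167584056272282584948180205862087671315853498261382390587147838106300762725564811066129550976474144423383242514783012290293041917849617947472947392160427023813413002878946936513323995743916773615854412754773348013723975536890489713459871301376676642251708467281664117681217186325046830530403208906745946133481944215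602177905548698453901440109350615052651643334064185239310193552292370902357341293777920764265788650004710048138545507213980281630874671533836538665523215154955683584676289904504864926560658737329342581861508328812138562787816341769269818294433330698403562145945950791193446620591692591366282362327863840597898435048555483725800783930439211243465787917547458613858317086094290730825809911983350020494534759499328560754043451838920965144571869867368757092973530882444510753381960934800702597605295136700134208598607361771381751882911390579475738393606960118994091433460715421533362418058428811336025831026660779280515202443710647235241584545299220962236410636972771794996005500729474827802432490371062624899160229917278686280440997671224549017383888039300131793917406018292957592679963748838819048043966662431133994546446758994144001211301819265656174277475542835472631699189905059212749916540987514465862060827323970065022621831126526749626167279378420924507526709711507548919750872429923858918964682553316322771938724558679487096929578636179188863445832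413790315654936023935829298868592492972018220385292383993917420220628330128889407094101420040050205836242277674038184945509392835352314236420125549112709740331960564045605412571456203298092286465398291267511937175907020963377960840808971660471575509548865951785596205833892658811735794565163243678862296716807983012750803467264137365425696415431275301755262701752910371900217657146268209086886319598186265862089026685112268355893457765635349286435554401520838102973352163583598629783602811787856040598932361483927551800160071664680791383933582314709022099726342416223223340530958469138540713549804812789327512256753255831313238634240058979918396232842249621514512637376777250253729589333922909983989077520873050537291573504379307400581784724166928320019819326220099929990158211636587946114869926982761163393104023504629678709406235835586331781793411689238972034864563278489710443584954856717872637243546554806939003162081506829970626946888706359496842940224568272920592462325415423383973949457557010311663548245978418175774912537021257034178626133694891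571228840147215640352830027849522065737196920789203724865624580499031264711832584826165256214981517337894798442822166393479389509372853431522601120075673693277203197960339127428198050714409017053457734980596076883239103756365240489309706841908560458944106008176430902437573494016632462951103099724259386485071519299138092807282134330452544532276740556249304663997940797471419685880806031164366781659947275334937841791550834700589966190734439020498075695154418027769666529211075473026406431663790884285385144041937615624278946225024317186683342149804743001587005486500303142822846628526005210098382366693833937437917847360907834731627075190721662880726773547852103051563728571508927759961538491515081909169478391154267718509108196166489606950900780360335545795193090720676926731801120001651861416022692588390741910388153790228905828179298769345992692467947859705072210388383426252093431526370917705235374185385741337276119114899590696852123307037955046475283626854828497674260400803586610708880779715563985627950483806324669595304898055142766523238161073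976870455196767519121657073703457270260600685373388620311657930901659095511562391022993596996884504271790515975729194558133760337537416618045248972529157943991812151663198678020061943176805468629284033450534021407150658216285797313562724618295186142027869395852328856955718671793576278906359093036177899891608560673017072685045344943085174144842303503995002602525827299483385646506259654242931203094934064204249088438366798617181478883041774066770947340932731482662513308007951518054207502316192416691008092358710003698477298697994157468556193613014434557128771818528143155571053269896400282654599535261297021986018269290031687237264369576960471270850876213628347015685996428290680289032575183415423285426702645150085996316021383977626612686581783221468333741029153080894128728617932265587686937269104792114686355557955138406183633598163778273670439809335366896543179561912611213407619863810644823655624321973997436145410743873681938243515345850967757524907689763330312299178487944416153150077272424042838261235344526414890620865805724324434595377543034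748834329378218038014745709467949071248386803169316323346225970258778242463470845661714241200434871227799071417839458877795689467191018686760023034098446875851744057054371297091458921978944416875225654398419917264347881557849147423769297805441929274331309574958766035037969496166043670265171490470153692358964699304978001379005925768869776789661259420265144674374937469460540862031689241523661617670453279786115546113642303061477218508521887340851725563172027772694925287415974974132726984186747577920900782511748872531280579909516345882224741608986221131449026633268445423831459707527897140708615244947461827896423072511047128169637787784037533748367332379211096851207290949633263904699004337715938013729361199937152808691154063904479504746487246998797348730824464325763545607904614279338894722425755348559136336765617745916685723453554065550668391625885948599785655924576791870728277948853606686121204821255831579937686132456716311881968381274880875742285855937304214254423391516538442700557875412350462678547059677078492554331341410131829514092192949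738454181283326379194187766144687453176864143128486575642995846793357145945985639946200091697344020480421742585881150401545925961156009968220346869791665523220151910279216998642609287437972365351304502797644538363319690099706627947048869522264318688370218963261383475839593501632591841982148997495623047187285574349408395270269205464531692358520804072550027040115822273681328229529792599545356346207630121544799290325257551460737169853907370634604074676045442711813999499395368565941422537803899665998557220259956033325580220433727693534350999253701361747657528798235875665580653137021564686434737039593643819569188074852493168153470587675242180268714596985271091898558717693426421826046399900281132462477678082273169147885706882326327472307681983981689546151897092769605086814490481249875516502541576941266153218834468365739810625280867172767463948339806879980138872421365916196029811707950372188448609132231336908999035062252239771289333020789229241418959704818489686455479300356791089024799212523607144428463091152715240377135274073623688423947580281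083375208897188360624684818603792529540627185425562832696333319499823982244194065269873110348281878222979639710714288628257906462344380812421725556730904944969354197812598100272182128957739095809343923883266900647801044952558688401278654569840875288451804342777672401562614611102107974517648565667104649482998802256109454660138173891905028530380943905786268617206274391420324809413431973782056495897557171719444137331412518731876177539422376722986736338579025098800972247277015146981948178252269167397510504942151150165556390262918877120424756719508539099733140952543158520022907006940108987226077127074986378120714430351526336609544543974059950077235716757942617424536191292711686097878862496341428837738405688501158753175561899434635216760236789462640025981638647232924608550229149384983027870506018182813941643108620940906601999902865888325352060868383160053273776697472836648498284177208406506387342669133638832925190169433302550879761180276041514111286446109368204729549178401886453409825869755789934458176928086877324365230514594191297194301963163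626775122704481643010839064305548471355767697599950344806560706076312079751547675672021670305870855845992912702594776813206594820995416369257339308765480147054038935387119390903731968283783020039062764347092675980377058068841653279771683614751129795232976189854517146107096275400747261848435323378714311133033891556876258171064432589552351439637790748458503869777037644881618494765929349254788988467897711094554876123941990051755902950227168059237529215577216892979107056212526478965704890935256031271868586564384376863697884015115101744253430149578891536802895186224571278815607396554205579836789349051866450008382270951629628783234929194186679206601262229143823286217168646161092028553172508520631896607157619825930819241239129739457110092926524044525133606057088204767574930814055720779272144466579618554275184710663681024102261731209267356071113568780241888846324528281362252158658272172352048894711408778557874674934209850617330009423232720633623197186855548721987123009059334862136189099308683745562133141310447242607198905396544501709845039854142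750893418339644309075424317975416784907217455329719651722794419470551544845921311359522839293757028839152781652183838848617024502190355725733562527498542410503991881519953726294449238212351417252099595971453449851305297473568804673271192749251403416098785903771949485361875842552073449703411159766286870100016135489449613931391339478693599705726322658722563290028405263844843558788158244027866824379624920246279845552819002539065578318072142988485010603658126149081127930454882900416998517588322271908739222274154601901401793922591566100856225886326802241269020682559579738278768784486963807279168664155958943079294923021186629830377594476245905909009977776504177804691371867573657826615257500656930862689156328994217262377806883456712198972814598798321622298411604879398359147685756480488420776960360610484075793178625524957948528607495623866747423831703651477622103993481069719931130899189910708490327550987241117237581793534735464020414302567093980233472608287053737577254979751252936294411332896480300342967012943533335015682834555094133716870606740149965619656439457855395116383943910483418701233765414125503197864687304704)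

noncomputable def rc11 : Nat := (nat_lit 39015009978317167862223176435228257006119661391178433177146228541466182950375308742092780762873870477494562125596805640272518527392249313161166123984497015935287796056880643130850028922379863370457522805347657531781776643638165333635393361722011001372027793012773522924518729352854827262565865597537868161630992097222612362267862319134196754687729257828219867721355095682315443373946038228325438523607813928997370311639484555032744594052506300732588505637641825792316348374578770052811904860003409011545082050993828205239525821415469740404441650854475479832263630633501715719645791745913061961074153677170462879726572379102564866968641841668881455353216006272038179804736383751347442703591090033519735956484444200735998390864466922207574473817523259643677654800367372415070677079836182687723873166563205297370637008073227568097009127107048058287358176478652229877256385591605657678149275249149429102303052741172408522251719087449167428359710920655112250880507079117048082896248306595154792304330472341292843180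289402878488214688088167518862664927704344715257202435871568437294991649468129888948810548378573700115445973090597285315011439897091368465138530325984745390418873314393652414161075912508900586277856662837079845621115270933284459777707011013527350144782966097742568693336607620571620506566472355386740916371545283749919794745866799815485131527897431224325573968088468802275735711207623567117958466735774954857821117018514064088798576926531009752373756003372743717745546871936939637760431967965900606167789949345654459456021733697886565333376104066801144736410347595660180016343032405573309742092643770442254360461062283912020814425049870473822564085104503695197230973717901716172831860023879665292479078049404607424537980749174110364863667494688658268597184277027629782533483659408992412758680017596688683299126031901646595230711535580149697567287013942129710007028216773784931955737230152292113756233961685541604826283870116562027185980779444605904182276830476971461072038757324979549401326360925855955646069747548623658972157173826926007885404436122747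947391079961980763621808611894168777986881422902802678348124784881960620930936937409823167986309647097262154458969171981342394225205283771322905550949669786869681910094916000144769323512597498825878371310386623462861377568365143797576455524807637711213732973313041133310011229652367612394846507874859501292771067445210083802188680185764845781263744458567758926500929623930579271539822174248994506112464971829973728596542069939443540973541623525197566128453743328731296348339289782034261537951052212877545813005295115760277054442520698168945795078834115256673302445633155757485971007530882930958039308876982586447185917703550010862020810183240367752735125857781302796605133183240185034946822924852644991122247937459088771399202039685004785829504043324579399093351559361183243875659386233217023333619159808550635552523695706192500610650020737164670762168588897958578667968709786260807583534911679295937348858175958776374013651088612300927895677871648763357615828233678527850741302897028960588702449085173364200153321618296883635246942622533639695644937329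254036153763017788942934811617901035738442314641910959614460403515341173275286338152760226261226221312963484132296056035938787416782831610145605968459370701963308669211497973762827393598146348055426643418127072610982614425774552213257845203788453871992693040521372485066123846428875733548529228618788428627066792670217353520371689792584449114176086611893663709930074606493012386125983944090185939919672405081695952728278193029608894725199448836955941805646256460664424966270437577606329044371157295164875799365302460788075143636757095113241664206497335423607454160605622400740129038203100943586821974195745646379364170516090105153590115678897562837568054636603432315866402208661136806282221596610532533055576140554785519497694385688058148125541361151316787760299787604663556710535252878117975278217019540138728777509770798264941431484195864249001657361978777867658177056752931917618157867469934379833141080021809990333053733049667997102845855510759588981063256349286541755559855067474622033102916056337350487641163173148034500110951130869427721680117024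560199981637072169874109169699996224216681127506423676825827318337255342454562217078330590314333144789124969467899887438954453332158183895035390507074834974880617663816406608581357957163634914819782864455761294712224673904528229343409393590807977407688384572388687731833993204833253016493544229157823783847641029293292927231622977903912613135720508730774173739122543288231816730251225628511566304610159445117914864834590366157107632937154740913397765185560308369851064232299402567568231575844269696423361957901641986789232215662484964540216911353283071311483854755341233769915993308635061178852382994739480877126684436443698293910949537503814164815413375633441276408052069569468400777711683954928751964332770189816312391368413530591763777422601511404638148369101850635047803055698290919320054632766752786228436163160528289350826522703664872188361146000141947778591141822533721860461201249230614853146420270907895786435048799966102478951360057513244947675818228256400465156574566108587315208580243664747175612373697155166393949018741738958426976564190042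793805838278659316582077360232902099452995725776393212695079402640528309630618738942753217228483041711587542318173250202919834632686374089150967028581936447974703159474895536446473113546867710840433170696269199360423955803733880422427921895314439570769214780592333632465402721326085787343588862450380483339004787558216820256051613321116297362713164189892971753210105795220712374494207721577026169123642591708687836796975870552812528601587504307224064170734535344824533606618189902625412494012777705501434202659606527357166512201339110005051316958765817148624877519927315830142691850849155211391716186753296532299971028868342541433738257043741383876941086443946830886556336322213660971973653021199651452745824526395348670963992640963491863807094186628350858511461545590255853021843392281481133732322511078127048259500845865069435014784955485897722075859775956239827170090382179711317539790734915582667486661734949935044783987972365686696179903502762592680765065138375726721083329443530236662562344010597667077458598663718277514928068513574363659323291829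256978760484526454890801369763767850647736275005021621196659959386662058824296953982209960578622278258757459108075366661978913416780619349255983717084879700957241504969358979780558501514437380012393651054169226554527076262310601788545654058182306350688934181324585955636529839908854895335611412190233183036097633621155091958397469959588522955119760557494749375724105758473438959510256314303473922771098508700864540254379011821857422250593280580861510803369806683492514587560355205190992104724411498328121031379745538991627688543440758945600388370542640635398716879975943403726282599270797910218334575703701121474218354082381932441245874259860762330359866258862772224046332707503171998641589752016772577660694460367260558781710313684860140176941801290929759971780890537481898990123444508671429983801047229227504981885230958144941862686981349407633874497942756421025455146664160888224984196918112442538492761029216121626911404808696241911112092736868691682467797592121472619990426615988787594986905709052134586516002082583275818830335042802845459087247916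734302878904934851417195474301159222894189298465734451731295971353112185902815353542956690756039765266861112429178697906443743923146571022711908956170454184699177781053637220454365983579365260612810085934649586439027232089705413531131309870279028574770478842222600073570153491999466003323717180321155949101306107036466332059296816102504888114858649036282406574395377912659363895522468879236685577554997091607002030876427666357131749793711480026227832725628877609489080973124665218420372936672341054093112445486174204975007177676248690860223345664622789291559930001508355255275455552860730793454227206178274892773268420849454875126321653836705375418935688956242190267172872010610860466213194564778360037106644872872602893883666560160224600567074324115025279932131885197862681627167817359268253918581448419596029034716676636879270611503884753825283626634715801968875915223897579974499355295171908933133702678440779778754428890629698975766725671763465770384652920427183300268489026898316158765816668321604453913548717817446255133244043320327168876409104796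498160912865240749162762021458465140611729276890572423180115046193802837475908055986112545645911726912966032051002390381710520385358797336987686846049129605085626629466485271824626858739797972731490121387172581039919673582507102501878328400171546362294720424061608279263394565389521568705963145458179714442406177474406398697975305163876167603219929273578610635445464315095581852537627348245544242337313901217691631043987296434684289972801180587188463496996725249869866187598170141428122984183236235944775840516032817840987843908115820765377242572750668097619082550559476598032425049167922775775754399748312583429843055829068483001830018215603670605301977978615737294525969318513018126192302488068715119874990658436066138486230788133685407911401311659016922048709732208625622249602219156708521561077040646085803091845555296848590185525629136189209655122937617697110169165478354255834842448087339581136968035190916669652224566154989708986407054970104963559181689745037954272542301335673842741757438547450373683137606559681360701100357302735406524207126128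061946953433195112639187379557435447040914281946685379259206752496415149123459812609837841437229630788453466079077614548053524849457492881312505301017470333041060300090916105003223783845946941991415888886196493222379752135812073216088497939209227893286757008384180289550369406899524006003797183618767507277562497919400721913412984336695877111223003660898245754719141425207013915309943498121977841936644217585469154566090003562135229263735221805929750884674754999465189410414177942606427291794330659823121323959910372696813803776709991144105662481538763206729203354077899381228070899580271445967536029708869697407799698050134549204977690033444231528520472968462624118007782198731691194480586144608863311141155872260658759249749396030256782637178178365651132185293645667423078252061008176064500915091654849270069075178605329990375798237821429588441904255890610173855782606249271308170718594141017999587429394876622592020905276118093989006300010504420030053359795754823632874869570778599366889207316452551714130416541231272460841301858033516723074993361894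409585061662392306370558038066380047628677825545760479184945254442061234151054929244528425130913082200119621479163694758764022154902805567916570561067985282732975005223018131789686993207576779411023670177207812390354114498920540313800052081018607375262208873005912874107502187515250580927167856603540448775861201685792281289229428001064102461824642912915797332302998884996759869685480152037616366159217527680866682861081706109017600796324912466730925212983622565213448902792766716525918837608473391125197226404306072000137974481059507855165773543008041623183574675959172935694490503002055696393064592043929411736189989521578481225768514777809629901296936752191216936677839536716502842566526062419895328182920405755401001385339322481616798341571322100918040671271891205295447963476754013795971614335701406106956786612425021858035069483596635629540696489654450955508268252305371064887108569445892106808641600216343892391576038404146193007650400736427893969352204273836310569829783557089235904719517589730433743501220338276791736014903581091019744717426116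537205643384465603011786492950888325405971569732803382211244887135436933512384153661647201825843149386576696188994076323800354458103074495914427785387923215214111162295946864603813311976319580215181461157834888677992060084481604928525141832963902697069773967686369082300273802628890191172751715953312865507516058146554729023612725685181799688237852455525906939087444672877051762935155571158483227831482521614551172632169723142681487325463254660083615185291430935316013396097613353154183933456769547433101491431384712537555460492313409336015561103418741506437708105068250439103579413960947030259959413528901219991844960748017910221688449568511610270350627287699300930036012326471461353329379781203866298974416231553737664448210193333445823779582702519799387823981032546945120141282834598514690217846862237475672046441746475938297816058672651105139306287309010672096579309531513860877871910502589383329752055043145024634640705733462492034163591616471880919069135200398216430307017246293455425976004517667240921329863276140879994444466637081997519437885717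713621132275851406869995879150739550112520122365880072222220984791976704955441112722615023514280892156771835186139711505257546451876733708426083145045113094445964036445176567631415456095718440050817525545597366319510403800902454568491559025834648771251183918381409153051034509261204874289751133776692217365517040777394645828618823371113303884871099604877430220663241866562988473434482514000439274910269982992203373803299201468881452687210307072918527405613120069955946485858173974808684331576421786324512495456224511041407651122497012983238192159876451417815325813374101921908045591989848157910542541924530650462603402815621274196103783851941379997732798932872108689936556407286439134701444022565630161637121338470706309035636263848008114722443212930728128384053274340304147914864797518369519006503235428365065911107155082073596664894802255315121214924122845416838980611920510196497411886125051495554738243590756282667841730080526867869694940242784996252404347596854644088036146575776230891595486969390297326059928189571235550154263165464609121922164776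558409374092251790653642620077403250367169396481024492890652058501339819187108449778711829754814086115929555395767890023291786071340161382682244613010298651105361689774319925150885852688908910316431514417742456120815764792497833124619751710989275286977524868555538065138332248100868686728318885870138899716359809322286653423310882533360298924652052262676258977063754451717212913767410382861659340246347319143369374774105960447951457228795431868706085039629328813324200538766204179008366931534210634413247724693496274316103431422919438643422736843766811682952597308579232087584826794623966793913035761221708816785569932378593028830744520874204097522346646271593406221298313645850139054521339449118915509676614321945706988434593564128235619059568109895023858164616666646937066449123141654100738326196019101985815606791950845052695704422121840246393974041701200317998496345685833998868353487962969668278661048870566762415647571933393506874878260389417840721442893008963712602384776270819697001776509404680983789889639282096176531865767220540593495776163120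719597633685553770508101353568042970930453447298382199520586235360524843553371622559282592948313418984851562534812928824887970973686306601643578997182324864195150333813331696489159658730965822711463333219555022829820946467530706649098296738107803372105759962415630882569341995002701765330004907865626830352090157758963877493505535761303240900293017105463877899028517515674664973802330258750377781232307226424693856170000522872515151398654374895459450845835662512654710192014756090163650198158857050029833091514717900395470589602922579861628860919062332994685873610750431594805322406364461201390698738226414678444263536881399792301818235745687634605706144239445127665776274822978691752543008833628804758923618009749965273072778253599769034890101507719429492164261483687076822744795198295298148101350085285338873844735583459603146983650025893866054120977120480426229613480558333563923994059575527030602924145541033509276784709273778846888014578351795493383389409566721202549819621135597209152517256875546084671418185813104046816148660789723446999689477042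318089663460163505456897760830430065244680910314163682150246341273746477837048777332493933618339719617365635424499717814651896956085794106847591777444697055562348697772317816234268621166231376933047293237198030480897811384740635008545897597637710402769160394732815683052824272456075412971893912257878503713060724013431857595602094301953528597905278148434668049243130378891979519688106235641196771475523232715861357716609692154030062863174924891601362421040559132983883002223113935928515938594801090889845093088262468081231713336611343105181498348929591395710202224176471665991747577974768044658721363537500276009557214007083625366898989995480161440501704456846989874486863437484613864896340698548043307745009959457426152709696261499520020197283183285655561295246931089236675789132928371888144842253508532800140837722842680343375274037450631102580661040474377188981180098057652421792325937360758356526776038222969913852603819148957728108376871928824815007056658006786313784142328452285423325015346873901707629961213821860112237954079608990081536084286552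186994576974659646698352024776738380754956903369526680988398485386520993771190760423086578255094905166940237411745904201086586650524648010928090623718275947653250181995959271520393331130709461692119142202181632481381470279446733734532009600514788201805392084630669009259460497059946045201498399578488500236892648597652863768950144500092568723703151636058458273248015332849683857994380327939216535606139701025383047620510238030705588296308503546442539745524469181713685577924253623503134592496588119405807000254520144112071091355049031481152568262268196306318856022846290282530385327928311377161478995750658140789195485418123452960889064656850912055995244834180273614475353202071517747962803755659765411055392724681413325368498914246247101339180531152006728067033110703607964629339394483253095911561872665905508737364862604573379348480325965511315793410945849727993642223942886087683577623442136906580307336673560838205150274716764315736064699966937078927299782395232797079032954915510279091769482452397043370263202970801903934483724839682252373076882019708747412463858478341824011670499648732960018974590214080512952236326780928)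

noncomputable def rc12 : Nat := (nat_lit 39051141310482445353063163452024302405506283470790078683917729024369051200904937781970919682783659483831119777212899398955375106911131458609794668946054459014135618594029873015524307550521869638447273678659149908276864156364675717366475196660140386907342282405686221324032089479368474943766581421751932042795060993299467131062188592043892776255866121020355305415464062429804322340544165908350723438304572940382985295023220943120697002117236637694632528054266889949462118197578367049735019810091049713617571401180961413198754816430692780107955489740738844565103777335070519399840830292782241505257140457922220504932061366923952936113775115126836109490557059152826964848397691545649619968711380630935044615135250975493804442460247927193033193848428013298189018108360375430560452280236697098182642128254766960329955590850101817594200370843112556107634420927665789401069065318437523456971809946716898455524281825416988861789620379721843036381958857325432945729630870638843743860131728620941840322974457761760573653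496797376580434443847927782203504106258178554965644701805985482479023276368835282378267890270276834071239945341187133294944411180694050358987826689831572576784513957458272151317559148358087032526955855502922327365482001091515869455150937481097194129304184192538876332488037667430740070462821679254438550455514604314214285822299437759469450394619560805950670926607724556780049294441566985884438313824693210124766809806791163578976538483376578066567595192415298705164509109279613241472200350276771376825027126726590876079329355521214554204874016839956305034495587394661830931129458650045053659436839274216303441090507380872758313514045801955972145491368300883424902100837771094175672236026840566326171510013349456257826475313544755674729373221553240213056972273204025882615357733100073693959419207015181415057942063626497282244616618813532941958422259577876065356212187426493150138106754656611822271786007841373952438975291205664823824758040487268482509433952904515735798221824313644207786570918937823385974486879347003386761867332001709032825242220180089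654976389822118572001135181652375613417020521806039213521460694024813491027997408656434170238282081267232918955880459071848310285828437035172468509973811982391115505188397295321016838088559722738716190177357284200383927818030085606057731877417880702319995304005686787484601090091408237985365273473531877055606010533580954658995691969872609913280445791231764238302820894739621899258242364555614509251225936395339527353830252161938959854850836227755217349125726875357233871829703923456862690994948432268516149470062199469510031441724340614498255208982504126397186963452511741787465302824146753978030144823206718442930153516154655972742307414362951035096284619295154034072896243381187656542686448834160538644135769739120965637527813764473797910505553770361511530098173628722975351304269375882515828228746618174368363878988488522932757090228528848033697109528135485650331816549635777033964179291626006131193852188550130381858153863825702219117307279884603697139225638301896577206001034780715834139796487942830469096383035264233156944377992110317035150890806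993505930748586907994426654007411959429527042686888730537527417924914198794411317385431251554248500201966097769539873981577548663101431849292655337437998024326367952506931764285689700672987021646934840015953625645911995921927346292517255396852814713100256519715346145969636371009089580761397391849949354299122924483727283380369718059809296404231058802654389734434584922593225292120246585634573317144384893029445723873927024018131577193501559863907325437407455754920287187949539923973047505200043605426589286900731368851575342599258288095123640870739035066853797255399361958062334118654843792319834333468293170471912810238231468127283058523956059034146559353094426743361640212504929379151286204836777685441536493679756226470142764444214769642670707381420902019547738144337184689819113205624416782329743479293965639904353970468026751355682702715820831818372711093100135366391665829444633897396160171223781960022956786880300427288746024936781029795624668337447834231118482823179913360561220510388655277073498419964708821451647220335677929941903723929466355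312966917883951528020550306462460392418403407256380219163619458113940569533906443434742826842134380702651711063652508610357161989089760563125008142263293108780184768069409233032359017052450493892174189340071418266795923459000413196951785586875406312358212871551044262612965830077698408235617621044327400417807897147664853537007410452703101732843673516292198175552321920815500506405439246396418921007047850815210871541172524789960140999254026248441803572999582544943340362660944083940184154817195016863978414465394587619078366650186685060158090136332039960084759223874193513931025028245107195063379249131878260561076999327439644391193589471848471285848232487586082256486885992919945492726780519421840323875657726818787260866427171096408655225835836497513614247358380001519316794744167622715428848730096536007531802359354303391671006233120422519982140981752892175478582632509551366642197892650700715104390792360149020491751039575335278231628276997435396598120030074247705222884742484081400772406514046456255053774855167000777495520761223165906306268206365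008216785587254281986320174143076749395176135691712115021896765171495898096173143975737188867238584359261027821464086474713043768853709019341443180504798349575718019637628210457301419293544454709086561017271615496766625405455155036729376686711949910872626089667390737680946414966594480817570705007741978057365850582922196963180356125187377034574002625496669617257929229954210983048291432341510113888520532275239882577596237833053348362193023246124321420157778648545135325338468987426522508984322385950762370754014498182469916727285605145560384728174224857684209234121763627535629109129891584608504720685339206447582691631310320406043869935270485546767429591870143598178376435162768654470787090900927034179693038919974273137958914068703967913638706809315775948862660968982622939777237379093252585029186494555315035733551842859104489671532224424029192613587348389811574604440579658532917811510921517834854820000450930594715019921840089993528491013187250142431457413454403137509500262908116587613496814940401774479566066082624463633673670383958399456354611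723623810496334573153834258345364910239313439156452698802273473252270204231978529421643179743477700109270531232782398232028726977506610063687781405603330902874416914846408610151789596996716547450534979680366398802572277897436783559239987444341575615780609198306286636426020148186991420157504456517384487237084183114056592444948214482050596628779615214165401665243113095254355442316679077183187205401155842881294755274169101880202703009426493630338989594671446387809884880722691425551946729469926302158831183632400785947932045220930011188316980659930291937304648922764220840177715757955405913037491226556934352513526725354407349556676037107294323211242998443520598437427753851156015160170672936914358040586547165824605152847323554820911268518246164925203307282560615866334861967845032119554038563583660030717385541908403014924195037094574514145925150319065449025607980630102855326834352684830619541508252380960739267074332154313008869178853784171923703320389800829285674319767680304660892804057835257784065388872659892882676977480848812373716573476737718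976573115106193182083510539494629244866222911982569739313489531649234279829719863091174686257942279578245088578650010033949527139494005120602710882253845757432025541959977494904091402006379231064114524052403637257515583877508889187597123021837560898269802667423856944663611286579424276445705223168998264827381034454339628149571914850866740290687696436508098920707251796918409170097722821957792664290601532943060802870605769859393223698485842161209001047257813546544892806596852824569173742185826485522151025921644391857056099321961124814499534790485551982006130671958712121080720261290308549772006891651995491312370710201975931091185765199654958301204728666045085390983909816278915151237847057046152941147618682974967560028784412202212615195177677843870355129918423906815178394419923463983774365299963489483547255944957811888846513221424668905575848274714328825638460350451027584173509713326064668321274036350565817558169420973088637947378961297516186979986284461649061654971654953823857530809194052034472068483936063961032972663213135486679787500361290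120208712709939279163480819162888444188384021648548677266714327605897445674681197918748972475722362511334224263771472060471480271718410658854518235225947705753543091753085964162043347019546786073846873038291001816069331074429443088050425895761486815790304659330507003816083509259698222941024331145071502686703149182607932779949678745253042236682314613256161064763931673050533942066044847224909070849887739396602404194265355542066448318799806642584015890905859489831196024752577719801516198069463382783124548948522178646989487393162406214831289759173465930965092193104851263031924657668326955530250500660172481789032554938525359083747185964695105237012837071959324179233833065401536460137413210827797195590014516443050570588402049972199009105221286679063309712227529103939529978658737323018280130568440515769199013344048000159101887433100699418628776186193771679578199646020114911966727809831696539776837651665385570376034846560324983831499038876565856873426777618399794504567958273447949992766052992918073114729664318924260857819076905163458057384998752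849551879195989376938163670673714234067670231008137786756678218767983373638035297757795749373135541185468823815785504959437947519880655058666860481375557103477310021106359672918209805440414611150906412256909540242647905265102635686316683792805554120538417085251199636937659287124568193985100712325836263944532199195817549818462140818207961699849560308197915062986492487046738183017894595049987239967380921750340303269338527495125141684585462007248886182855999903851622482926004189653005113283113957036079455150950988729502835733044798554174684796184459937093786297672030312401380098976216470387659173436811571803678519311061802716295563823267895053992716507951912738398995589032873294295806162866892299932049028017209249932034645951827101196770042862839561203246047008987420781088650744572682977232877606352414171870543083099973103372696099919197029366762868712877790899017437796548604505246098142804060452411376311167318464349325597029544266493469158528817665362491490601936141832912561005481362442309440824473110847499964618060641829066440757887989096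081590706824095396239574921144376846807444155890783164696020240544807057519324474357215531096310083643203016319234960758471611932810067496868851103082648456038095425252592051131063207874497578941245407813588738509894009137210906293042588080756480065073671948114050220299813904009838044842961622960846262152044165673116418791503137272308242772453184144915505416306270121091352156510107051502009086236861529314730343364916737444677246019037510532184588326655508239193284520277399572357009581135749519490709031553920430506054678074315975157601985317835215511997092563115924741440631583869635247390935334279647606763795983068387611935398731693859001512116344048827190010253859395666068202014617033931927375137967646481485307620370160246049504286139744214916003392971147462158374903043935224409713524681145673518320913870883305829859501026152425380375468858785554682650058654451929041388229220023587768326765726460090812395264787284350531271417417970388022144690403560421742359793143090946403989290034750577045160729555394813192373151866176697106946837335397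131760180947296244666337616697196229102016476665078429787635226697900826307237763907787040065662236819934024551101077418547393952390448544391933332320475590722735456421115849846201890875929098945698086546452939663398575467080505138646031994561838367307608843562673563153402407227795473486818512969257596091608464555838329413908984412571400620870111750823674964246576621961386039383347395580636949397724219837481251323165941920240326607482156470129951654285779577629129915878517341208267223135051157774633881762964588498605091780925438635363809400275805725910556165288485714914635314154129399991725062481893253948904061153697236972957249574588450736343885278870818849328527104866035327157350403841424999949028438129595873655005018327025013347080913938278310872166715094686561136838673211307214063183595048396968164024974896906453343501125286729353224827196288982288659717861754090704917001247610695011706010399190777191573853491450429263504576245237106384667678378683412481686096279877603621757837878235185161312375504772398398268562703693800799804782059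402546183737372140833148051643961784551855232328587645112064323799207433510197940161592591905968883891005040931526727149352506725367976228717611565156595234974404977737396026629437093526235921930474610601292824207684805014992540919837477923749159499806358535080190948810750244470835416778300666429052175388131658053386642170711581743916228831748561236101730242589362303674297746721918156914523343451437994286393451704715821146417957464990192938642376882689754303563106970146321985321297670784156037508776885234515420154202371110976012581634532384152718203072040796743891919158833439620728046455621997536156835272781622787969994690975217458998139406919240150704385253989222147063876934498114802021457914392610297912913839018236622963069226456004398810836036134757301917680398257489536641693752586083255090784796298436153473189014596908295041868511251226294239883129329628374952963175956767977065042273535193503979878396508951662910758765315527445841031196482819306574860150727203437788341459212057485509645708788660232510807760985143457681250416721997726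462776054967501388972868118635109335735549219171628321954877529455585852017978679541421890608750095977045403166970565077921598515174033248961001770956535174310486722390036997475840151776919181854301089796763804056208755739523886653614869276015798883377839709870840382414386017220107948064028706442072563487297551771059104831432476225289479539732679050700394428012167052416865487637292584345045171356167395455218656943838120164435684611370576368030770283089329686507392402542106682106131838051711975772553463035170942054957499120420093560171989456544857667390799132224097357743163994311961582072836554181774809736631464216646666779174652689875077456423413810793382371817261898941281404032192680574444966569733358472902441870812590234932319328862587391170965304339515304772192855436190201194408834562154306877319531955960839306975987265021078168039751696579707349289300721922659660219426584960533193513095039025571049922322789446870353061106631024654594035773364668567705855092282266143267287305120193353858114389034468496830180400367001282974917039154358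450360290604521262121719905074144879465626563617408689406711986588063543226417804876654615595983081151802487892761483889770294133442605262659588710721255741088100093881639358934418943296641883006657586827119432261002187124977308026137938805611324715874007334042722750866625644962042032870718145185086828046911446880916329026356452564948790827267084644481193840736662976676023099683387528142456431982384901298417974984538244149052529049554137114690774534147601891947938909750133104150197914509859593443580805979134845382415980098400440062046472134853521586440710788913855527861120654326406100312753117274638761857234837568443731169062057667544851118328847975200390936362188686131354798084348253022920393858218943038208055226979933358603327624014234055882868361906802298135769112883577844943220297109688053714106096016316127532383879426253356655241816724110613403457705354283868508325912232381052395694999392785803482865743228182006097253625004032892600777038613539406096171410903150202486820931246462720321471896525192218856164446370861139605428699744291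894603114098556389807057835430279173168542914959628857989771782193064400929920301463902953446024649600087714386557838523767327388846926499973505414777391231058970596711815330616532638348217927601888675655391217379272735272946809421352973011243983399239105753989893800893184381508483906647851579692943866152010873452193491033315704667834530437836297896210041939505163174397060897554432361226629099858028725204101312376206539007490400053244107390372302617585553463115708351528465133140961058880647227081277754673623557949655117957109958627244353310730077312712299488031282165421972613695115081192099780080580954356656169833386191547143276865005642357335402021654681122472807490232305624357860299602472707480737069834748861301043323616725007390474878348180125738587758164745171276701235268723978452837409536679864643436216559451714344248331395992239533871187156814873927099510437646323643912544251370455948493053306757646511631542823485433270918725636866855191775619714363381834884399536642121701849497272748242377601944155302773748811224853142301755479573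079946237830778016287774339533898027382866798660683482875899759685566228119320798034704529051321902162169280047451268085158878969077607622674744518433484250095835746322664287055349122255204875528626039196334650220784337699260988721116106278608333974520537602132982396609170998510587409579780099225686247260311063895714257767072737114316551778743972302815270892504565547576612354515208787168271855592768060115538146227444472493205549936011650293454722997590075338788924073964528946455189854879624012893571563870845366779400481621659923506930808063665456557575583738567329044041457191632487856566178612379553880531214691893513889927317292144374702882049250597853665559322316949256753924729026911055319696766276445843893381809619755189172545621777215367409389797744455607075948156906174156015184786635399724169887571939767966299650845955261504454167710432515062601444938883783434700638492351897032715553531110420379640631123687337941804858085089180096673466299125953880508846105267432596258141034197687100835664688329026199642608100531310752975793012545230937648176522858392983651461922465090629512273062562377151567445966129725440)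

noncomputable def rc13 : Nat := (nat_lit 39086830494962273681770777605680976357686184904315325670823598436335874821770822250360616362310929507179848191894939186531776980767729794636384419032737747951196572176470547979240512900151384083456508631865610961170718736320110552378153820450981546197314785724661266312963541829581878807874908148478486412060362521190589829557516652140479716653647138275721687378068413503785859667158463324087204010929705285721830256727648543648117815643440708086633007592245337197045464857661918839489375270584990529153733341687051918165349222719980726032122996440124870087180725972326504642749879176290299082422657184955332253923084765016424117731427810756952471762758505405128976915846960757814342879858795743102288605103323215585745949954150687152461365575472844504185997434078647953907737573680464771671513067293795809714655785965707254076391649358506192625631853680056125766797103208039052488832649694743608275199807663526817824461532408679328440595845430611075055182578200098952835774248171818619511946648826307597918167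304233349116164633086159410314015060107841851496268682264310294148606613038969098849191308694625819368267289100246835365555637601350897389209330542170961422185850127409635966662747940893889712272280751579943236831264591304054149788968500039098408711710988861138300224285291440207043183975016457129843268608876235057593284079257759248179903306983474422141935643259721228518496020765843398289305687935279336538875885457907050348410417500711693142012714949625971405768243524637781518680452049841897005330665443310233918530888294318915813604091081401486224229557321634223819174361445328041361656906855608946203625964369596248852469980645230905710043586357896648659764585910333911756799423187379961613924833450326966299179255797106202313362608975031033560235740823596111180946937870336326249654740242937130072581127760592070366151728886973874973477813380593497963969341119481510786423382543316169020635224533520841746289812735547692416969021916571632273991334585335124972300773350756116795676765119774974053768096324286098850654830482837947120678831966789786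572592940053487446529682063014254224892966962341963804061842156026407981479945853429632127128357766680618309958570171994105353979089228630657238613823313209466412805282665332399968309638869003122391757218873771166105059272503369614780033509678055913541599070800977748198008536412483822388147744645200804071992804608135488279600835665766548271585684733846720798282387122974319893143961413355815698141625770919128673123014323913891972115377974282435356510327288249758354651409786195233134074048021374179149110127768783123197218384154980240324103493324346632468618379452076453507165551566306754870018834236734137624004265600979216041030173730407642047863973025905087850511714888035897244333536622869723445007918947332148126720570175244974350715696327147554745641588544345505424682490992929311978029756919040748082292785351682401933602059956282797185084227756485000820619687333309370971791010897116973736043297706949229535129280641134522589524154334015137721299204453222888703951761660101510280353537677714039556727226709662039511609735997560494455671806037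876918931205613997401664688144377518561971585042330272618975151714669770047208907945736237569024431169677448812817121327844630298836381969783747054234856130034788833860410399005709510005983272115351258694977322510227857975744329060866184939182968721463505831707336477999678769503058338593065066528994416956443332922285264761059653321857407261852947649515917762452684246259307745161617071739686290004950683717467110677214259218410779843496356108847892351351950623891122009668610015078850518214947628902739086156245098077160182957939960327465737471118675263304189350560602016836098841058301461705025305654202920656752866185266712148710032996642764000552236690732457131778148194737142188986272379702776010895048582274373263868005824900227236020051621135979867144918568768767641608435732069654388261020144746027449226103780791387781063039873530701580589901343886411520626587330391765204444334079550500271513439699871539349179485424528748946083950386850231065539960705210842723574590616390321028332736593948897237480448076244462827517165473000933030861265115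056213878953072552573460222858577204117425724140273437626322406177800444314213291029747119272421729190869050038686963463656581698919009568876874585389021835292685622341989360693722394988926843654725521657216343531169651186466928848001883396077229143315667311115306843944010979951777041623341721857278843381977906320186724768810135120466963165521641465628449300663357034555218896157569885030500464440442355703418131845670149067174454102780966010865968087782627740137415190187612778140251438672802054280330401898235392174076251449009227839559653943354313288372358251304834423787965767038599825606219270434389501215090394399216785186084490238370502223897827740467510525839079855417163621482346847626635775847805932928674544119284874632110964953995975792615778299530620967939402336916632782905928374080465821376455993030033832293776202104141033886896507818076936554852452923652424587777565129226775237087690510140463326226919340348354189532629877119508845877201225758179123610396019272468538422096013041843391994467167928623507140458084006306920319779672029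547635977168409722908695455755759301163706066194175678364839909850821398149688205891144661681784201244307517275122317155019367627401782998101621251280625689782206113515656910280453243382024904454978625126973863130888857911801937786583173140477223875039950103071031642426381939778718999580766290617419640305144759377964653821589670149960128535145283220800128267457931004062671754215998541760702580952488912019257813665326623628006085549021536724780862184355697168195903486290541461638649225257511027298389364655294335088153172744475079400908048709681649001189630148243189249052028402863004640018954841338896691161869688081567962832981838405214526997710639969112966888777787706922362010297335224498174895703528388704436166861346537815908698847502124137585217660226670498469030882506961075019521597481135852141599258692898738608162324207823287746595250528436216360673279489375643738152435435385000489234139253706092730821987553571725889534390524481402204820051419717235439211786351909596790625158646843295741701831952483437579101490671313396886095525594936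451772702364121875252398876170295409606780567228325400308526697539029385834168845062244424772200334852386986168379367302492163535276288441778481113133432444908139492412571264282111405599119835582908737576080203887436185670522356126822613190490452910973500654432932048456123615303644941559025131555443304437305272137443167842514289002135568382228883419039334930879823748026157084984068409089980167824817805319768970653953123650755612407615904544019901676727360370070610298091994774323298404980135485947578633487755307319318482829118533230359957224409416982600501857613215529761957431367309336488574595848889432595407093549329333890041282603032420067016365366902265769402200587788079511140824835671030354143496966919842462103398119395242466813703093777495907574555199577771926497880769780928175173376726148195154664544091750835135485409673629503162647882559181023467261033855287868599687846110607022389566432414994544614815772660948263250732410285093284039309046721702300574227396052423213785144107910273971171873310799452239903858772579777521666071525913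417814397468650069047454334854072947521847245746361620590234261825743904586914755852258619841662460279487399653764992948316800838663771475136139646520754023740607867349716922830808812880629445063331919697939912826845727735983053977271411066415670745981052384704713701879685329981374304383835539367269844070196293339329849609393136136224350993434710976023368755303604468957946821179967021451594362981726177072542413230012760355821475440335812616461065446350993665402674286254561648783305451625931843820031092409861298464153831890636603408453591825442199089810234672666617636207640839921308682744561813128429852862226020787505994475817159533692738694249725825945953829834201480589790954625595668298622882125574355207518833687884520426830200365740873133537937811124276322298623805364464890022439973874307425862404299645552879507217809485889340337467831167922812186786790814045773703707111891416198915680269511903258392703456888835610075621853693828238025830343843262036471882775207778871118648323539598929984004744027451497297197606222503391630109713513992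713559299517864971410496503533818093732848203405810842883357380843760676114375753515454777968188052750481939740475591375921052447724089101060460115673059404124512177908770653502229292943181120079360311143283150054042176420514213823459124959053128012872676009233440861875049700527015786441933749770893170414753014452509956725992473898914446723236009439386617102610673032191729230452466687207514409667761897049874753645877056270199569145224624671425262160804675834979352862276300342717469699223307188419949870625246406824550649071245904408690095630899387749677323380750594924297466683966177544894944759678512569418353604207773762231903635126974102283437399837730274239823945706872307351715334941922184339124547657227244624479945915802819583056056884445894157882065786761838963029944895502932130373921928121289015198288282277524697577825339215670758296518256211200630117720258888900028903574565863260301903113436891380261424488185327340279009488923105565936397804079778885555815419707063917114170031978372152041569784935241821806110025910620392329167380603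120590131421123969364859824310705720595959518893392021652915515014149091194410140858841182576211926858435800774971215693645255985630637512104697940176415968324584432558765736311928785988435070856066826595922535920267722029438828048063194365273693123531498396199780185954144391689512644840467336231868022137027806894759143891683816264780411964493379295217762926878846193735907044169740805654436802792572329946963203555436964266081581014439032846567687466395560361263663947850267978859963406357739695446791156892987547869142879263561270738505992682353233765629205835381477954017014214043117511141634392761928234849965843598435745196851153037855648967718397133736698689628361678092781250842811330331380027610633560494834021922730078290196828928030364692957638520564124544558392224275620654884445982838839799226788242508436615620347934192875803695325270293603581993201175279327893603126148194192620813884332481381563647336165240238156544344851049951304349578593304277852845588857018929918464383980232685421573961121973555981911791082912116699897467799249512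857856907081464969082430663154013480462194362872448458252378268891982407198087745599135074872065121931176755775061650696840901873384161925257414115288308410953819263690822137314945636459502837937116591755898402912119631677398028667422000135616315965537216340553799455456181516949554514830985700486217563101326898864055873483305629538291205315322730843506843480810826480126535573116005015046407677112404433801291238813196766955510635035819106466600945440657781301489248490773704797024805680415044922541886870455765785987867938705010817236812271490832306454615604845866367519954682953490521310735904959827595583829480597363388190532169910541160118950446936177542647140259195154555720584888037880718994296120456568373132775491156002122768392299700199944104941062069459743389347861759200661481607817981532253561593959435442712783341244705570703831795686766130662905919281620344632234443066728452556408905428044862780109013651911397458624259159803819666604351131774584251071089283935527978199161546898769519119501726502775947643001044926287331967415709590708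998542810976549099177221943716878400953905514948238129509778480210819567018096958357805974295781842117830151959479183570475807284112611440677507261414624226443867410527276437145931659498565903601556406916099420229339750361266763348333107548374409101737222255758190808288120121260791981418276333317260798499454491040690031862700591689671499842543127495350225240217973426624976197668367787926295168858284820381946720552436422595971645741862507546113981990313474711128513674769591316998041703389773655030056281506743196811042807567834328953354516050355777243177274432470408256947911746875590062634036197439484387277232339997144611957076517512795553531289592019515470972357001090897263002558438934308858760451221075663514332167527643482486801286288993576710142658601211451413702317075406988083802883579218961331709705064172152171820736994401128738368789446437146134504534220089168009813111407396854727155239917156253911537277280934663921574585182687411851239136526221189805090609477877792728255392008511769196903981795566410980673998287437860842014771760362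515559059184393248357089876496268362524081762220758649293798507783534382510030418412612511828885306227542994754967133449260111970332268179177011235179188093202012629364639713490587088194025518701002911903305625447826998298940109474412269948355470148432998168665252537769692078075055679618005974653358371390307319442625342783700217871554684369029046238544667956276661520628913159024377405086362452249807832757261114184127037058083491102591114963727668059875456195998430217399087024998817933242131358393021400036669278298500458645717779980587789906312938425786303734313373361778433373241283493841660332627417901250909777209507963697001072934053102147073336489369767829915680149164880159560116299283813198827780817989070961620924259215770897259318783215627106612286523498079389080266456714182299204991724069284478317200296085560619784473503967869343231172187244313335068485728888944368423108863100216603318717992211857393564332187354757555549309430867194953686150253225810609590155788237371256871377645513212877829544624014223191236417805470140778338979982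429963737424318860809272193310172134998054764792171471804755854048506436545598205851632329371103255225003955933557380813250960682980918820187718936370077283275281957582450414802891067786978263711793538560163529324844683560537789736277017528369236125615553445718976759984905507533244254208309293493525162566190370596124066984292386752332074431235349992905141620454877036726829656692285510066936531791493436210134026971151299190472203835546671054166882852808404641350339945067128657394622320034746382647759818437608150148463076602798482168440831822764959375016346378468687957527121975397106603411167990987279381494502445748302122692878043441223687044619058312350526186667920742739761197285486482908136354609806684417057921412510914054582518862152733218488148706311123398636449966524979997149391197636413621564533248363560425015613077953418662465357548548564466451780202936558956121801230887094938665886367370334431187719988874814957446652389918750511860741665989354381421794719011584023087371940971606881291623778413961902925057154999759917429220197737311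668510319999277409562982327777517676987664507385486040122717350613739217570708015186973242153092234859307981357815216646693167348619264724959053303972837703393898474339868957764051731951717671018162069562663977766795371145665738271763196988760115189610721548749657787590098742236635831775572648630408915668263434031434709807286088948250370680104040205739525395731961224719459104720845758532828742956889756398629625471355674148926487447485643566359125260569796549560925984775082692629929830567596992880197754982355551127002605061112613503772265506429654517229291396811881934005516629253633189452954825190947498344750273727769228591445593001364846951193891843397503518371870489113012817783167286247756065727738790287437235076348796058405563528467421505702512581335716862022616608770437331019735813683796667068084755416694733838304416560747934201699758773906606109881589881330239224959722690244376123453361991578056444949755113268712819451697225897760748425500289780551553141070656446053916197324802298726660561985518744113804143789164110584480547435031309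384693536595931249571585558689806588260866048209922311306592207905435137824658332126389799369442049598420811888244718178030016209102173663700884078452980140518088404507838965005238437883121167055503690541200743764084771950088691601307535545204526125414796609294572748591830511063102918526459833109092813021075446682932539051823883679300321270111464724189230777356921933583133355253797558953987242359932060827064338253000115048874052094437262766891194660210540210981763836238877998722123305705147526126446321537770641173563302650119959669394338997938755590912322077613426901538765207511599048432101011458912168994617661671234956037604012217209333022091906940982291130536963774291458172585127493912586942620972922143203712361720251658751934354885612776015419436373912598917110424722379708524864733766286453959432694577761487915182251548671423028834488265690657224585063509512523412699913644635774518219691838664536477748845666898369294387111189460871128812787036526611909118053466869676752210177979093604170422261833433800546219339094188420533771354165600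535371693154571757039633320305878786360908111171340484292822466849602170723668018579998015458093784512319492885721738967681943736590227682685677420219121034866915085038316155903032057644188974937275351595634088420189128378520069653684438228387339409027019237443340169140657593122348945433243760888228520735187097260117950952700083451712742798996226601580195739450575264074824331276184086807251938537999086980431609459622392306792195922483940360011641139232831144317175055473852279209823209477150865029154732614027051031803432505817531558488312634240655165757676368122674785403500800784875033806119660440147595614162096729459123859162975941667584693929141316450556003238525194372877063513096950394040863393269461127246339033420705849209884445026658073619259899149489257178669426541016564658652635431594230405721859513298583109195550423027693973076312746447032954389813016342127014730281355383529213569602951909974781747864669013981132283452838240448152582518702104106196416730898129534718726341118816193545014380665648408397072945867739330910402453603015991966499902924982571649964157760176640151781972725710649748429868961366016)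

noncomputable def rc14 : Nat := (nat_lit 39122081244534821986307544792874994121555774867376260040545751675565385996293413381754113373021901297147457871075363700173663795991807073488770814924659662181636609984938337594307719693087996503646807095508140037520909169147209088881024170929773918726347229527462040382637266011541098990305054278149428419817446244951476850039824392373011395680729884171075333799358715136017145811694866874942577280261873423709561081062733915425103757900954414942705133087536202650728281584859991338057141503607175474319351378428676189208595245161492400433974797929626533240833892350712245792413726766014797956223478159876979744703402622173820339435876997908874063657761255125056307791022307717119706973674314307904304610315996609455391520204178358068630095826844588626860706129008029910751366707349563332836332313824112419133850147603977487427442468978008008288082711535672408005684909632419245258505788466751348864938904635181952125957732113784693893826854431700042244508366405874564522484366530698491704287702431504232533832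832358812204839383508730576242067606669818189353726448705621478172395062535037407134241410805959056122593241596382579968913023101918904788025554556898427140302900793939715246311644989762534357145374876548818089981664289355442904161228556936635905892493092084139561974440506454878360618241265615778773171980341993997588876451675329132983891539930230064853360705766535715573592424032442683224078496773469079375142662456721137506745014956213268409528025067856400398556143441836755689281161488300282036100492821448780295675042763532432466303785908797676498778284598079989445561373924521754314209141592471181986694093044971791531409210134598123565631048202129530983640413765070981397323965739111687068091666685522072335049470258866598277346617069629231436931381714004484797912094041327432829772636778611160366843910835930014410492904700488443250053143087337360599537946577890928259237569921826253030950356857851830386590952511228557301606051329892268368560354609538389492910060334353603648708681947433332084606888802201748801886887430640804830066778638513056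162598150605814810278133219916576639752606585608597553491051090140675476029364416066040222204143865777396016469321268095002993390805444839761744293318142757478639130063383172732926666189504439366867182656682662898763237264912394207401271229697907069936686865330005761533597101715601379287548125850583171131639140145065863991566563816225184659515909439180231212110312358579868435621349054968397332019878690038807028428465593106261995692154992503836279605482507188252703211667599095809355875891552652785889336367383736975215061941599851543588159264508805948434067793541502097791819826286686424875769396235335708316689448961396256522815174461284639310471378429774007657331434436795928706297402977652304592923506576971495109872034840336387875077776938436176671797503038803496236553953671658901819441337936829933458516077357785860666885539716346280849620486475459945362309538380173618709703907470744956423399047571563303826741788616791568361321948607836893918006618427688326459498036009288409369602623133445013483828280005305103008622315139948862537258282663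478246767133130948264651116886008597369069342719756222936221266960911317577255427150535253214619900313651371735093339952955556947397470531666342573094740415431705973840637134984240398946561839486654826904252687257841275849480459123166026656727285526085199380479785234670536939090934856823274767191703540129847499471850712885501130443802668588703093976756710080896886694338428712483769329992819934833892959459353812665094937982834132734906934222613588428988716367074475507459812657472648185659037168374938587641199074057370880279306561757088664137864642099138660351329560430138389600669582390827202044613654110925064841786416058173481447640636008096513299301368972448942716823042279651687004620880140675118422216056521742259597055414512031221598541401181645572557117770276347823229964952521862406180956324391845709157846401465662165867450110262748186814826680062793714302751961749119038753330018719565895183880286685042596308577130515412020615334242010673214053909052227538742962074030966629899743485103463150008161685334284267696400690660405589022741685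656432430982156555734826180963847919215156315562328408278724651033462776387176789998536246673159835820133905054353012052429386110482076144553074574853935914739744791088309687855792920920284212311848486886469864528504220343143693815867076677031234032079846629635837911257762986061990837055517396496154172250029883684483190017384865015667011752289176809635790134473856014477237985811156980437025690229896306195180034230668257431079275010551678458543424666002518968833487038490094029701307682385843899928320500970392397864457059481040237439262156230170872789587083587193325799255527528497001381083401604817197489288281080677344166222372416443621062756192124737864136911510290956103706364153970345628647048724140848764786734793075427393244448728787876025089976365696355057910781689255427085410634196558326518480301840623418218258541383469484844632987643303136818926339525622427410355428000281742688711200778574993706868305156635934241312294115856569397282020754021990568029189116448295628679462625582759959364020770229805940253752428097505433381643101433349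449698530554543793965087639716863128283182393385413489542229020939837345188430526850349144864263271591568554875123981891985825244470872507312067541409935190900495223862369467995452300755666373511151729411483476569309816123036409979569198939188398791731069306986248014343015851342344266855387930215403452469616915273292291323089291234975465482639792170114011376394324538452270435493906888555611619932123814182760008470129081859326325486363869417930647691841800420284933014004214031021534131820086974667696550452719872998289489401474952718814520131196256839091881988620478098830753597703382128020954153556820413942632159874022766421036584905114651644206483258684790450033493574468837494364223220284624751688569177333137777058555640659371757623371351033554291412509748547756612197296675163223784201393870134934307117605940218795717450883865728749525947294623170757141971542730416719608019515447882615904387837844756374561166347352423526430182334984987603964540526320925848090600329735577147094687551697812156977615106030190843055657926660242538573062986210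502894685955095367972291870949083807989686616981955797216319468586238777785572826122171381793920527954741534475411763155197220425041809095567349268130293926880083530024797834027390595475834128180450131734786352745977493582000926276828442580888311242900605299833876346301938990296285561764127358119005578477933092403612186537942450855447283624256488197943646256647125477279406885286067383638560539097448132727932189167874503699827360762146174908007329039826392773870211980793729001588859939302865876854100809702550168754491604545998312582864819718445793637269520560384926664663983367676934607232771583220733931738481095244694673398483201253087244929533393280800280441776528490868309722954195039034337640262944063695869453467963311616529329116175897169231127456126067386056766237239618576039209484283342634536276082621466533247443856458125788415756723897544175029283444060963096197481430495482473015132272601304145484059015537421128873086156235671932929109821182353245159150773962534715461838393574276562911809075625120842213308414341113235267889301761146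414814110381845266996292856118792128505022186066831974830872024261969249007271918124794777099569051879238926983257960292726784204572715753558471548402789706584752099162508754146089907306672917154911328720191558053764901366904906387503260926453379282493419923115454089310831261303580819005673599089323204972738700945015464731513470510449262690937406409576968575873721705513846959795733144798019166805353862422889651333973905530228575006375613164253485963691865600377717768239428919443332652498624485982434449349383948569700458715573800823387699548277416472492482939100464941527169494600783647492458649750971175406927820488028533147759518036179661358057483372097338537517435665330865052264801804378867226454990196032892844766472747968748921797327831569747378932322835753568848477871066210661865378124064851781828014171412216788450791258480076714941611284340623947606309433673739690754774716921046700522409924250370390755618551688165367114061702361025905990692559097296366007994234929199669532675308334912750952284150145108930726803016445681931107845616313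049485540498031544571288636958571498046713867857180483238241471347934706328629089719166334106368915737852097142418506126314431309115828642009185695222508136575373298157683926918504843591916416270933890423135974106184194969006517113766610255625401281230686954230788327228887500499233642109994275198621440084226008148498651104162276760218574223504494163708915817498741414698366646531817875845066643073152658891415427606916231297381470463741151213208621138675429853303673878841795131938876059187522603402135146827195763378789834039675596156272310170916220701947921221162912663917144209760558865797097585700216438083355331915936693320182537197946968077226507028554435619378044476802243727621331356926629836306743266390536500820467909048178871901498840667185180030220852037763167574959782853003097805629560324737750536305631709483223864139659206980281247672923558492304323947206250056676625359663522615250359534484273547989437688499063960666671023808860354907647543945179413488272714806484784993394940227247018463146926055277820463453878437245005405472861797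125964050039785576100145510287397909970691181936386244715670525143222161803586780613542102427679356491441575190445149735188684388187448392115763063900640119421514844735874639359764243681204225828644702823393746866157276523762840554500843083876191959773474610354874127890253433664200935856791120972655848259287120093919884669254427202865188482570319298603995352934208661908881233385503531363959307462811874954359486382708719530693181214391592051465795425971975597741409265118919743423077580460489788535723007260227744946411637391381466559775247240680808080857098266408019807700876294597657337396663108946764296248620577454541155992700479376374005041675333315658968739927802220268704624327556482650105668115185014084193790031041502901330547969488210759149645399663513056598906587849809070607581896032182774336554486568852477462249631632189185252682442775839899895100596560156695739710203274807703253971184606956933002389092054587224925602635003949143902087159181496847950370809171190359414097748752789082812548354050710439329760090894773566615777862559969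006632425321106506521620913809011863753282048110770509606499675698590933349344878197627362031090146896585527533019334387319318730008566590217947110098459269415678367915663161206514392055042937139012715021824999493857399633775367392761722170039783881796107921862937163461943628405215354708636738184410493841169696173302813517654026167610693391098104512578229329952119876570791418518368299280210616654886844400242151900845232093320481578280977979325650157444158412165661837464628083315808240475774578143012518070283504067459554443415962410606866660967327629899862689875504538778448085801840294134633475621186436979775510588166086233376046517341523904014194634782255617784309552751589175040074953673527225872987347641108355929655780132966232626928669652937125141322163353604697797830859020422997214347279076435315045410962160871260839515815226953530677333608439525136173252129967631405341198768108856540755007857749259115379452134189800084018506443744441964489509219505389237476983218418472334459530283728088630851793728736049823615250257854704437355965038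913938111111890612618518229080587998753762552635090712394456211029549120562780968211045600303108872027821715389707909764521073228801395405852550942491120733401075005945384521371312721833919055658349884061443060026493471039821344818185222272473956550489009811100421771636489947637076739647259692073511828966862520804049360898812502744671623835116076430955572356657572044694980475880723207624267907168337759388807382301210331018488806525851602969905745705803957099091388045369001296077647317612605081548055399031958510282835671842375818131226890092638236639578352528884554022206339173178165462714452983056607839487412306639429407820358301850203210118760615224603866944482439566476268096239371691707439999977282209063683066628597531671688724297864586717546334193323626461280294015802306337726017595438303017697082467842056066675133881474655475874085462449070947028929890478490504379262527897485329038798195628286383951542588410749809090478691233063526316285046173581553997907726488780109696323716472205257883826622557422159128327580567923125139931155336562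390913314182710156590296353958352330682459695887994737361380616369985467620105516473052351778032667119668621818876274332733552623239367962246285776118518905452737235367820415628588089489379914468658720771615966237418130067555028660554321769967309432503260031391545740895919333921030887135295916431033366079989646708558363509803591644804755283918718536795334938824078332927451099192463031997572367315321417661995171507839326009097408326849499318206356983677807855159893274043260676126425151387063636726772439832575163142423084758045950231866643043540995567017885818190462722067070209675182495647793165396487051061982959556092523199618421753819822998990307412850526872334789695094129680560159204646172351434001048848703301390111925286537476605864868007277505953386250945672289743900648508690299705982896419859518897894135812618000806844036134164163159539748261400515146089487892076374918625794581948802002245508350102526051468866764941262094092091393494265544103585368590921650415000325893017462083237325985229100075715366683634899633252620456615994516276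004246148609820654071548060982874269118617130377476387282931086933407394825359865377434602033881153838653748957532813308058412191776829662931186495836896872015559793482799281030303069825417453177206779930412596493557915855731701669843817380811687304472708846179938463461225033359110017558110810849434419984993433961194486406845474311368729875776097812603140632377535996543816826002584798785750281058981646269046784594974478374222018703322707769676710772444227525541650311030135684366833358721421925180340953909889493595718602777629190281644283335291335226351444797654527008339948196357922928773744940505948201844883644468454874639389916902700832734676054959055464465562386220079126546140938733936631936557819340481624765266111333177606512143667076666966596825044258363462949371313702152442050547846576650395633343373660608546766241480589160547049158811742078952607352666236447627153195985096988305615508317261261438998389691039879862629123558768023572304077193448302377191552361238809081294148895697359363657276580816430864813328805515460947942752032699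126875440588076935083302437488900195949500434700399929650258739798727068287528123188356857952307240701777896741174889595896744075922168388401918199117751505235977945332355671231540276873851465020633473676181511197597085377089058209461893844307614499975340234612717205638258271545795273882990007265035974251372255998317704083964730699229580291317752493366893192943557726152903359446903489529025775276533174722543702596090683981596208691394125552000292692504060424415434456858483405863552488149312628059428128257653687537629183199181122815517385140622121619331163810165959079043414495529002230147897012447038841460343536356941656108672305523132874479682077222439310640905613037090312252029006004047293517201054894888198840902500610086826147409367951311548810081469947790291315562824566024746158692766272858937918329058034088708441292496188751074131635851399248984823802154972017319042372205269836506944250347211874136101286546255206459200169931651717949931682235883681444371644139690295514257304972149826034534931588592537731145083361282192200354033023392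335097464428574788772629435866300727714672611774502222467414378090299274639378227425180566411731328718106486668750011804174201777639597410353909198745960556894985570666839165499838179317334033855145221241240611166823593288420115067084881623496936803957711666955303631773291011736289435774918539408392745262257917795283343112413838691686971875683217956976390815486225417760872659097236859039893780241568478037326121242211316151642511231389938632791252699636465539977013352338506204271202830816443543429567424743964746673155656101148130441314776763760168104931446206829315925882780311264773615858775715624732682702626295707652503758743332793127207719884603193323723278932844559711439512839866033699460115145998191714892395367997999394341974501927649301524737708204489624059410130022192623631968237113966319103318321103236898101256425534362972039196354209498422117957657675351764231464681749259125810686616236186048761251662418360280428082015324976510881375422793148873024884624446335361645024008401123972156952518906185611593747591340995050915514915872527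837203571298049635107313660352519300736726711171886972574344825210477786159213721057369894107810409275002400621226113538555416311773908424680598277951429656332837138937171997352928600668282903810014521012118732353175043769426270422014279345624543905994712549318717549827053731447625071704394382964109928197484092683492014255970417751743964547245202534778718802299239631619588088370959396897468808933883034214512673381706162114799510752271091466203873250364444517415175760632106839048164081508887200129137805973916830440024002429019360565590478987712028453548137531749665457201821715650578599051792097154031743617512508495188468198178340815334628883855348342885179650127912064268008745632761061561153796545246526385935515593336520642926770990134935277380005938012239351290995957482143608085320002485223117379914581592172067778529310210463082189624864896943726245476650963390217134375446744080239060351065461198493157379653492971806827399975562575544592659901240491392860984294464351510917338087366440661358895095341936776544152834390527717523669090106308082680057857349908859520371344412756955312671545834674185442062540071763968)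

noncomputable def rc15 : Nat := (nat_lit 39156896621914569629874596719661457907426792354278644222220417389354199051826525884423225864757517391318255786368873691179789084299561670678774107007699409315470746712059417266523220081529479942215452126499597556592246961302929757591333396028035249828406847545589675097345164776665329965057889364281066298467952802799492327749745744552878517103613112011197079690802249725703265228534574010523726223956062229759066368815708800653822386112477651297548512325433511287079418828613285724625451449890930137416275959107496296330229121121903174272422689458688098462318702531893099660268807264920654141607282665209909139972597895716224553387227745626287889822398115633180404994461576485469885581551936944983439075603410349698877273069500208253845677154711001492588709527000421987931542822881164352604306843241683470072370886796520662680182855012783657180491161301301081136373223300355603231944835419563989875412856442359534490256452988499147540730099219113806888023730326100724223906240415763459924595132838044940327196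713586415534747860105017259330155460498087702434019473166528150008057853263716035657809476009812922377785326800313475923971984084474207799410056593134807970913100222582736893581818310233698497080961763273019837560875092205289889168501818702988728163334980647923899631364925166562316647695986798466284925726301700662820061803418312366397758991540713421555181963696132265178569183469231870471387124150443710103017748207680766005146737672119959841186854623964198781848246771513734798820488788279723428436895173503693984226691714208954944151625557808244189381606309527412046991887013800802285049044985188215629499784646902691762851001666703708693301112964150079816440012715501531993957286754589379387638116110363997485635434012020905711451830735849763214525170059458968111464414155108854247504026348145535445901176442469484550944895102755280411403956403339522608252353653961136882226346417467890734426658756377590372335738361520231158412676344876963126202926576374526825007500800504469219408404622736437885338450563817504365117749287192951499259586292651580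304336993599512666936817079299044627092212352342075198437346389364598144833858695386285865282996844262822119917055346000539949155735535469945755582270718604002023422617041424609324564132467174880523159166467558810970821285505182137199739192358298191308363769485918711412322601719248593776559281057543480612997760516306738852907741390300848543067747656513149151309621201697867423855772269957851048922125496292860279235219772740222227665770937367011203449688805200381266585709219431859147017530026160495881997993818619019280155727429174175269604290947290985576719301498077545938093342581343154972374876702657041252416365189401019346203550992320411307159077796746495756197677469695978556717679149537680047616680926373588455232270935224367933555167376054730214321316422913774185829075842816363717204293992678911969292137227226441086660884966627435763133273603912718097731455889390207610177363333041250873270123107175500628212598093673418007698212576189123593046993704515387483421388286029797296627339830690696796729917490069278073202984918323072419911244962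777348461867662109994606228260571441626915509412235408998744164809478930067704468703180961077754260700827022176706993115053890430667329877385663523561499089791567947963624098698986523109482143179606862551100926359572664303552099262672405100380839780665557428915470211639411470834724457762616684914952586944478480745146721322794521882370631896826574957231753076802552396797646262244490923278851681683217366369268135946177617864632626159045453006021974951059511570734918685000640116954394239895103196942956695678801072885564776886202408026251688182496115558380082607757011379682835774125456153740926814673047689259883474084205695482966122478277701823850682647957489539715408539561595330247777790259512796119013725514166554975202800288406484451019152420691068321476842992710172106971484278682541734546272342216124396894125855856366092993804453653771100049202180100435867152922610168989488560311658715128823663618429213287489495519905312405713977815438407233395719079673703846666521959775742905390837421624003257863658553239115994638375387861046083734128876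913207961618280636947345448780135946938590461817734749160276940119379036746277017533338245441786651663642256303426252565792277395957946856753316776633774736620287996253707718616334132551471978440965368925297577799819630989875520439013609126259738911480755893345924587840350707953023654441055079808030646196571327506790054340621324548243526980117602067816838087453775723012019557345758729541519383187166099392344856328795739788658100131634723165160362560393813453314373739741362110163723913607889029632225327266380717429292752666188861370237459556689238678241518862331106410128527612439556234221928944455564688407577846549286652465065165808366456138366031764245732011422337977124979834350425056588407444662663431308636249676933665331315096701491187290893788029074431211727334966335135743596736959915753036757249130858028021248993526050774022869781915757311564654504719974987749349392630820460913971167342235652976180136738438359871478265436854762991212346431853650090872802657072002154587969753082375459791825117622335157563655244214806525278443132216961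848222515692404484285844074617401251216249337794142154195029672436802917561649947592700565907148804038717908994771828593621846706023536547181709670957346725648092545797347500046096721997429060445837901496456719027094133277660412152809203066444535952880473169755575205849149471746137135118468273815505264689531510074329438817831263410633667778804180129245177422212456141187554936285375350667908188221949602712196317825973090109040067939617616908304490046526576614543933504748002059131783761362031440054157329153467415648861709472261026260682919913122328496337883434935597897442656267124409124538170109978756731454942726442596115773013447539839301543612879623883177416761230976302743560452508521738754993309179004795296833122829549200049125338890114640720433448420652198012924075811083617288839240373911742120255874945608477362474067425236799361877784385099608036798031359528088991638547864603995489164931507579103248821760669115948032368471354949768629381198703224292336645962520339092969875110200837973078205040073666315790955084096646259210738487695421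308381859608447754313256538808655456067547890412601685450857845663603325794268390849611603287783746946444193110343157370283597187321422232671110191557733723567032088805241110336420060582769840832904851107067340947109797256276889492084556855749315056200439922286049153015140597351093438720556669100739005528341891577516300870617349206538108049332756210180091712935026962812560809113470385602851361492606163498823626046232725235044168249790548590916740588820550916106361353041641484698121670467366983353917468275066651203267042187610422145942529551609064156444884845315370596253379201909743237691900656068912990295422692608537137917574871138319069578434331603455145298737848753731657133753152362474697159332669096232586108062519924524676070963885247952974418197710971513926581410753593601565331728983075920729734875461490137894191054899639759028613928787257835941426886192111546806579748076197835274469321279742817072011604884143650699257755938891086995317003864037733804242919302498331151486711571832803617149948074903849311476045896555968371514778109537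333568575756073423445482934179860392829943942103686111846674736943257124624928270625438624356792916414962846482479067173046753391675704717916302675495178669898660279809288373603981610486546938574430403893168974173604495513678715147958800377789997422745109789284513096183844623095358644233731037563663576704405636883650916294642815758487065317979270291090240199147683918900125695311872976408838255595019484806553549754787815717880685199254251030425523200755998713780300687531992601036922264807383016079237410316227411424552832037782674858255413246530514526738086540385030702889774330852665264530780845282662984359109230893398806476927320585541548176559748927948585407985302985731839965014563619287244617216663953652310664199815746160811113044822549498996378725676146099459420380027502104685161322486504679964690808480728851531389195832205487022740340136001704827557945459628238610819131221585271428028984987325062794150763061723171750322151654096808411720234034341284811088215635948552052226673156927650827241832418536806186914115727084317360059404484942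050532965502129421829380229096913656282506496663472182523179816676826527035415470118385709624004241693042074936392518133744526467306045889667032713571369155082792615407497941074768660477643099413256507469040023389095046854163703716982634455835992116979758752097862889463266345879536258158674827619956200524077907769747583953219677059919384460133687424247858298273073427431685732710633106802611539079582454088672158096521718498364248211885007088775311618714338576529630087065038519093980735597050420385693380156000950261142979898074904064856922618972891187840937157152641049691728184707693708251669176740823092746022055665851194443790834235913823135978381486386333000943819956023005951974449523650243236169642791243382271075372530310288060078366307962045118747282698701407478523085235745336601252090832293116023173074107547738229080952771957402910300898869885346596007458297886565871786837030017564941105583001358694809858035513859003851778468293274116670135410002638861560274701484027536897066757593907400023923169750795867664545900153998094636754955189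812523052720907461586729770550835163929647551835313517017430337416060958942633793781254962652369088550980536762731676733099547978072199372883025902751102542998060051703637924636654811500163246659769796131936644757386639266570569879737569060141589752238365738590643016641891078295353809340776292075962394204202270794569714355621267530973413516938893462259985937116577810296734828334457344658716470849400496519936557635145144242341215495916057716853507670328901816621805942000736857085634321388965778948004339503729039383766496680172368468138421992581019398376797596747788075813389097447174847954181256242781949114026120315788502387446674888811746948670294368008265540257351779179505371472889973973449736513702138785108345150726269067181439376687083185934033117117192356278020749579963175522983423010317702058745074351424003851785099272471755610764331494787575772430772853199686958054319563636759630029875060946067835204307508377611774322998382228051845877506097437278618394146870338349568549339616230413134798192674947215381999222837632627983554630181190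949544602083318181198505250153642293403023923954904498181465100604632973299057909697043798429405634689031971777173332312101943576635621160981290381489879522543083859459771406856226551076863084699716405321677003055711419230166713781994226572168698947929459711614833006528720708508044749334187092439731651157275802246390415361429845162767999814981002563539415913454398090126838368862716151400786653290694060500871584257586824220858655285468725856908185934912092106554285658131809031352540582460355173826520432700830062365240031411832667290348797144229429605910180263973164440196260568933404088587858540889228272641620729770745022776772827528238635260503512681153752987234645555014843737635770179156874746603303240182082512692090847136234632780654320732088866916131770616335933575685438761794745588114934349825171140541586013281305974648827383608710842860964660587775080416658565466331211614466482147832384127251664274607251095245333413026109838586580260757074468992307905940729126005885065829277534529102147947911687171667780766647865411651867597392475721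524691709403109308693094193837503413041839986235742390361589611407634579794607067969921317468472790310678997570869466648063542440308105171837357558084339014839887890519174526388922660369540237807949201236029359694099142310463379055390475722934763696281970749397043194125475942784129282467838449341180339374576117196789431563428370872207974330916379999216061149707665578766072344238973889825767920458505185767068158395142566434598947559464166753126526593099107887004561388535328262509761772787624802596014917634652098730413711247292869709524235435164746280348453369986818774412401072607813011864759604175176573726374080246253436478075702229266600667876336883390169994157488166822373203052399681902261254788134925425226835854509961807303097754328223230047360766306243342692075200177498387262208417775709754007581256187442998381090653988859459144989632956485085675997740044713038707473726911024981697596602933054782877298325787360685978558420576843313372109561013761632681795773941948344780440097253874917521961629426190431514497547621806218062174963043504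784708530961211290998077401348157303077265291730846904122248295407368081864793801136720491285907010281568887993103791969562031710305629758756777143879969564221347330902535839608431309592584083249870029758201859509247799193314010582956329506895514982585946306489823359756810288504959447099645353051554498678833723141571514704993291968297373863627387562371418294767238109394225394593238735123973584104196388649135715843796611275867129582205635839071816022625656851100770665690346823727673062477172454041953350151515658185283067380692267396995039191917387504424900569262617015129511238125512432629430522668674546628974811591043881834365093558826870102429793438349260491520618417404645267485554167945023757811594380259898712027569389169931471153438966253914850446911800472015167817058530677828254258672859243588552049220795903611062254389533752889430725431806484732261236275098234917246695031811738611590176040143201074792747676765667150095422101425606666600157266220149867777050913187159162084475278297827876650917865601966686521845128880673803898550920644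517010795586720323490803837290323188890097877463895482537609968300301717067128017799937810477315137651826497572427981445024844188490099741884595846246148100712814969459479058251027738622251152030287621324965900961685196270851620079454782708591313206101274811839123539692242199211996230169812328998025981260431598370487679577235814182874297389692809340186154760606020407378808755067264638298731484133264531366246260204390421088995209037780037215718738353093629639101995767732699154942044281862688995942355712606988665848880633253011323513971584478612338965209507301024618776642198233490116714026670668028299687665037936986620456750804238018592425702739162597091129749746305415184149685215508831487400364324683748316703937924875233253096625743063397505578584094239018270024338532571665051670480617173999588260172192530336965626827182860847098478123349575489284932538643162277786756511442483490203021100580072029503557121771373028802076641861720754915273343048065620064724922714508399201534016122918579625020524549576247994221965536426958275676054641911724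934569670429716642316898362417183819058366924803360465384809000691757991447874161419001251799080956080038583707770824361361160726502171970585306172798782220592602317114444674294968392821425726194751056616771052370179686333391882331387232381875034893215450184223369203333961649574702072572442723416468136195437033119174505091954005054474859658617523111218552953976371607648427278912485436181892933063464407861259823763735426040739501911160004371203802447712237625078137831957372601940090446920766615416601134367623971381810896263803151306690485955371472362837845676197831468087238467068499279508352799451861553505147555160342082278380561185751865755508224183362964463440033102376717595307678060835883810167504861568492912927748608446803512422277715986207874655978066988688282290533676362430568445925485202109824217016536623004622356601961129109217939497611394755344406682293184476239849945205597405939153117993223935010792339856061623376920879283386985628070750513874312453914572181506283565872706521818848006571164109570326626220827810703003884946430245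680728071257724169833742100952417603240026248120121439206783332328254791538133511728350551113476107563345651109629737227776328085830237780979152846221324803342932218122437429032606974444122367468451449937134686012234514969136609887921966347181130185464003210137189391597578850478883016518410803240573600220299768889896839651405954668370347992490177707873860311945034889425711093006851509833421581550378753889855241979290516502140467654982695175792354758474434793855604427591181467144248053529830964900566056477508965297823616962821243776503699995530225799160496476958385160038551548040522672919031472712911705434671496111868520975606900451111990998460040771134188282359030540726187842358074687758793449850076990718949814109677524705708207249929783362926705275813045642079590273143756416960136713978650275846764720833017874613755327374361053845250431402048789872337619623290077179791560430903297064771482239614462852282581323366841381487042672827135777079715545973336656134320192472248435858608783376796114741287460901950141163196723194661124426039285595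548653666503345336859238245422866816196687731208486156538211804364832877964482488892547729335071115842104772750742147108916393049966228755557330164169109450000444481319417577706153214130112334490053733777357906993868206784669573843178516600970123791027961334874222259278421161671516888413583365437120204895082091897858404060349920912957443307054498392139509600096124009040796111482241919816307848771312908184680301319074869988376965590601269206689057966289999361464452867586325412120308698873047455574259538117697637064190550110386487787536527970070663953852410870862958050634818982439618853187414228361051556394566096948605473119542303684263416765383927536742857142957938157811361244636445893919549853945928714092218764092776584397041564838867659798922969317325841008629775912398031026109487074983365233433432449713042382854640929662925545695387477990883581704075163350332957522208934319603468448474905024824341055836178969717826150717045135681889130672875707269836869003025376266013716284510274078600941446532640344671491554836270296410294564295534736739301629913721240653064160730625955478137585629522777324073021697691746304)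

noncomputable def rc16 : Nat := (nat_lit 39191284205450922240842384542708326299090646379792645891846452526753889071010080252976743091950806769761390293485164523488952665922420203025507326278455214118528323163514799232554213102247394048816858146280163061641306533470867858922019330092930187419092370269299268263299082095916032630827957688035535328306531784726425884020375539992080980972768886752613000944687252808477289981748067194141338500243020483436471005926496930927240160646272416851229488562583972439901342357698366232422536685972680250481698838540854295874115795997487336301866031337313703916225749943419048080912874377834127165953039223269394967791670303992311396310170378964369335278495270793054929974397275074791429033035155477236002849377560988896543630547019779177290010764948089521308850697370601987538032539426731566004042759210050449123823188952235880212521246514882429938531268048259660964141214477617804475989511833014229268799670798100495357390877020042343849431508216978512656015675618018312463691351340349854283634533120716260173481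969708162175981523550583736432288846858245942000114477758923161560808734198182372676673913855375739019900449652494447871050469116793494389296002019183948970495414750048584959329818248562682145918813698541043314455436071677702509159501075134643550604113957318848832086074941121490895885229831119101361335123899438019394519101669317224906019603007070049198973493060951079945374305022864074888718914235684474405614199929132188364327132370731858110001137055483432315334681890626976084510573268192077707969904978624668061266463336172561234287634320894693994492681174549706446383305642761533625265597652287614647233383455668481207001471616697739953606423511469646536711638502694808052511197202482048054434659934984895295028711155879536834116379573593156152623899232787639575186875486974952612063529414710153086504721845290295052686656194403300390758870573895728247159603994106802402068270270492527279265804711884128600364232969151327930247879596500919931641733186761391813231796620708952825013265428772001084861468629244911692298103721227466451506928420150954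146071466701515969860690244274556993831542328508402691011809619768182899482834322292238078403154635868839851522879479009088503538947478175460359015627588359274250217090889700930333992797572606766387830695561627930036278035825907091823252718567618532477380192295854951584415824952456051682298258130513078642172204211873583994312363067782549511012470121225583096680130012637247927309854823973541445659399190414035307942125521372797808396091847435032132892313334336897633259306507749679142710346627290857151954706364214811107160184287521049688590371906252678462574528195493077538939744084148061374836229138644949215700352702158305087302026229533702698350882296397665985605131049316229927932897508871353841195110577794539459420606322200400747399221280642229966256618334568387365405810728164352339165248462239096677586597471075686178085268122207417923433642468374359376434423571545693743084146372314565216654687946086170580308030082852521676980339616746958643650038656033959042018022022173237078828843396112383011364706712000177385954718587943239191828463646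844070145442673177573802830807178005259270395715277205476119236184143181125378468797038083316806042825921846600910730455129095916767980021765724290315057067206035269050313591061042815373336564520245858193162706888156894022427136524767571927651955767494762028093898813497190962450007231951249796001860553700273323736319418642784319427806041524749496421704188338843469164095889221965155922842599485174054891858441410784445576753182171115729832714992026833711839298275263618978407830437388375402364271484938002470079674116956010556845401878707684935375126013142761070598838948550664427045305585971811684903897856965292274956241620231585241751250696868157705936701921490137271417013409324533433474050255109255431045878631455311681587615494868443776201928769381840055514297335239150550497341277446719743105097997410179797885277133568394044748712496488482699183238286701845155115283481871982759365999398044581279934410996965562859704265124442796102243337047133510633402597108225820577257731990559424841201436814254246842395911588882522573037860241051839652002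005631290367485936915822052503028189940467133533752330936539303016354504556679889726694635402588274660397657764843711795130030370924856514329910155248093776834277835961480981629166356469854621832644253719939211107082072868589991340953068967935190277617298840196663865385576110855637570712705832035760353024509302696861085365705527722448902551213777968279653724497990929555569022508923896674526411170758123639043863245628841635606478028625730744722061662394820958923200164304988951723438636723847272934913403115971460863073148157540743112005728713173656182776954952326663128063704674191920316803898334284517834764237193955237790785827295465492051014581083514003793285863213959298778379169015108152157285564024678109441044476665095962308538878956125723803862738258735297331732396748734943116437813402734793445124271052649044986246590408588344578861903574238017977942080461983452420778459746030701430291163825269961103754085198998258612388851587536455362130641466720225246118166982725516122539861707480259738701103091856257013379762418010018206327294431799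027813846477152852091268505877462001346103473547392510022844891102567140859124967572216792136602060354982435364850634442103428983125284105076190834492409844968270067983098139661408307370655089349813223543611706818469115817130064682801710694034997066880204481419819483330730880331386008479652787782747152265224977419728203197892370349150185938597413648773829598719166764603736199936802458952947221904218493134289611011330608471193530870270793416556072559528426551670057258125093331732054398535925162355633596856850185937847293697634599406478409382464876988799645901760282723892943909803738801792071593221885417896189488578104438665454661639088409022279016044838341445036165676444369987847969572063599468437095377271198783762716050264860902901420001586538195076142003664446158925576474733779872374715233863936894197415801047825676278890979415181998287508288770623125347718504765816385270097829525974538032991819256398517789997882700094237400556216763452860229692509478076305759563079949481533658263238298502594082100291659553764814753754988560419582244570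693110693909723138291450360867663951858688378443952395702294612292756909781654729537103230710755408509129528469366793424859139693741913179473571742110683822326884198162051399040236105744676324275575508703281834838504707381634826915960902383809067232381806657446486829244397163841728343242453939543121871664513264377010541234130206683292465230626447987485535072885405379452350659308428608946952050957064128988630311206295482808327434732746858442393226440578446684722381623551212957837757579303266388320140683734436580208498616549047318674436196164800267799416928868318377987895266859123569809339331638265744088504960506422124915955490617975281496755664059514618251183279644111537493557273688689661659003073522647738774539815497412838321370059861558510214462061838102347339003756546538869128480014345881850499536746457096997075588843898381941974140523556985762224228603729190289996040646500975906275389490075403727381267312304424664509192688950534227134751003760962601403806962705615850958234114112066538985842134523270140755675746897276006105834702623074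057652014598003471240818486476610300192941297579511755467929795426268015079045487888221403415572030188016132842609046777182422586023331251962144319744988832007787116822408901807646988405097418801798875834069911887060360236134254900021767464646095444147195344957228377650001838281240878628763269380105197280506175727666384211285987400607629251433248099694818180342108102834079414528018980048071666634097308717537216950506354490811641056250875147995700648458651962700901895334344410330593144452558372532291190003498526409720344915494268984174100767192135598739170772305672231433215310937367837353569427770909460530862442456752893716052789774987811487644232442769615554515937578816377026266664598995496764009649186989346578615671222120594209827605563172795998213020781671825393426022424806012057602160842671264607784046215484202639350257772318436454960222802111525055536407592805287816215071144982356416621036011876322993218878102245741092612973163079274134007594380345419924077152773944259786937563240283267645886533495155199023532686159955221604735674215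328529604557840659450480164678941779040452925032669965085638040564622750192006769265375982792463017422230220336793592395178705014396575439176811201963989657600829771705701414020869159158467550853437896212031354295713160272265017141765796457377616127366147262607928594008489077547478808651679107984285763816905012013280205296864908726233876798513556381812903378089314472674115228732063017601677837390102187516329002127278345954918025644621421640075435507993189306546499659441289319540523067644907531569431323155432194679971087629484530417649173780720416689180939929694372030322532173427858796825901943761050802975644121916633769058728923930768485738150345916725117835385932967072673158851008536418567402201885104632442018294604183078980679507854740846380058551353904676073279719965747590210937470296221989924136466361479110123622827485734416201914392662258788996474778640333765624393880323006838518008236039090087276804678596449032183060661525080914800891765875327359735642052353686790043925861563563172891615351775944784096229537906805869130886779735454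797203962896061546906706296547791727722811609578359756525282226276682674359697737860523563966676092471967021403806510915633557313592606667110741402741085268475522304086943542840988094441242063437341164633046598523205544952516112820857883807665040294286567384959031585281822139220417488649549839242533135830981856982101000617218723125095166893921851280231744963892730506299196502666311530380765328774331892457994113555552422988411428206848681410447205844485599908738471927707659670092659473684483511793867970995091086376166788848944432206616177669622213992329515111045561662553223284775891169880616103066988035189325549902146302922614154696947598491006622867285975247002111071545385823312539003917131448958526241747025394875544712038412895341188990601835644094128660167030099383020349160465594552235603046395087335595549135586183713684926321286279337341049332762458634775697894740484564989664028396752792977925000930937793264311371310363858993284419053674894162884387110404751922720035487473811898179622077819609938850014477741899607242859535089462052751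694604378564705614348674079273919014262048560075654364555504739103794541052496899044186041334072597740456051809268326371364716837833228823044730815254646113738533822697782357662402153867528776789187798448476954693299899633553860903207296395196671076867436527129626300428402280794415993661937747275834506829543828821102522347826509563475699932488116063024857895875925251892091879228406136280204809297233731411420158490494358300944004361094467525285655925951624622864220398552790342892682373658366144675894691436044408445893475891680718275290449123901408642878045158758791279490308802578352089345597830650015411386478469510778640071392618934268677869619336366754850498155942335761398999424244361848000961543003221233026048134653589866686036201267576041531458646495494140641807504316925612869514567427170665620759329384922053704717925837700211321046158227375159176800043608260621405804614186492363312907153277633297425403271453267045703227935839202553129832759860098475641040522724336546241867615329061959740989693277200127824567416582737800833926355175315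741490116527972233254282192379378487882925777615733437320351056024428822670393104466739732720197097443228634484457707885360679851911595870835661900285581016932562438380973186978742646821750517097433071378806418838368501206281901709155707927909833571787670180829736236497422509142703380601627086438445527755594361874428764669670715758504329355592221230106094016312039898607579057303801764544615990651757811003012556827447327445456599158100513889545903635020885290749696047974903718410313487218559845528524130836428313392958159296275183524895983213910990913786660933286795572657282874210296706801004352848294700480448410894402855585186881165871536257574811844858638241706260971945791494476780105935411807312617559959936169492632544464327976869472291233844876635249976552673327325019343047793375878986566820425096838004359500114495199486434434544589874598529599100514180621111507682851131371345641521736403012505263689267922561998782605900020005560258549015824845998512190441575159904494658670862614597936578252553419655040459882191449063436189227286348889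574955929894657411032776192816345784190917531837229321958705658478546699656526338921949261222306315677024682726231276955313834978572963107893941833011567386247097312911048904683524139489761920737325484249787724092607053496532767612047566783693521541855867369072915407331154520213620398066258983855757712675576570758194118819285575401482593351205551933393830201288671609369870360416785946484039223088576367233616149753505986141259800825202895739618573354969900878681546493021467636324287019829538462535599273661655446016358765912248837893822767691488804809587694023826946345293518621968795645114700190242939375803053041556128273298359157969985592718503394798653308451801423301445758173414515155286638799664783270098579526956654341834317046427748715323284013783932104145703159223643392168788489132076988747374004915210467843451554669122471433508985148004455886946318287837273146307392685063323554705057138266872677648653876935415800697922824556602915991117649224329872035993470847991324085735094854526938417113479717005747398739475340224971417533366075578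937427119014475572703302055094903281419843031386542273502244654576325976704826205569802701506347562903055228119189194501110209852687248842880019904488964807608079409459125190766418430537634317002820537166172247570254344841878922165095832346816575500162188446682666106595140754750778646103279593286698580058379893976524821710935176993330436211633690486023424676544067769951339846491756746057902971733296669738134329471902451587025441614034993355692591547348231394772970191875095542956509486824306709538174524969840705482003658263441524537951724816927035620280975803127989885506912666124221529552488302408116703818020517795125902650138099475106293279354133740545476563442699806966892868612384302704171539126706840133718172822900274261149649775309567944386608508749695422604408233225637157112967015481007852013024069198038035732997642379974306905131725136423489875111260108576976728981619616889484836590014778585150939571868070309537232418161553439850813749786734841275331481773847103620086578115491570821035961798998782028038327486972071401486879067052204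465019198690616127938943649088572149894910342109074595672686523416112642709999149000585264654422096507125405399470625302711356030683681095582812613878375835422181289907846847287835574521645090306286743990115448967056214803521834282323570131179604744339693401904337672101418215523089474359280565918652601865336563440519259964615038784295487369760202788767431131227095215065807746704031809811945284571970433844806760733904786677941190515911786090502248433023444955358283825062299119809534200039587376104322652220504133002571401780736693635287458091781164033150362032330222130219916600061052474188025142630725630205421766533456280263443080650886690204321781695797002094995712869883051788041847413174967058154450023738886539186331915732174171286154861459110423591515112936403800780012062050835257611884794415787613484938455588721046435230801976512050303230681343926115193410623058526636856302746167339312069075847058359532986012420072741193299371453077972616909045868301722567364225584280888830012091680584795196224726060956667207668966222896975913944613997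338400389839345421722364807160437364445424353686624111254941446770165695449386177371205466101771777221181172831946510770075637400755173249211950875139084455236558243096233690893429930405875751812260022098609098151758674172196240877850849736580144259801688778311436137188047429949720491545195980510505093739038422967680631926355911249047190351871969735047742056053827294570384490957208952369546246759522859328658259536790084199833403183055046980146682616939417443137365982233250811558735330805035813813320445961165665946677052371676549838721372138195165190462399690653021222745765381712528969219962597707997478565945911456230763335099652855925039930572370528122765748002617382241805986401932766871473766051168601099526955197650705954674390463285748090111664201994038481613252753893081534424091927845349427564256260296698917064379285007656905444533137109541092091983548402732934386126381936311352015584859973773926761537752791323993581603663624567030539028346837067654152799648814452035111746460497964345791169164230351596003329230118143581759960514985888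338508001712568474698449819511717996880218393644936892458727166121817859784290574364227086126120395298916977002606731770975786270919040657705368048106951492118212814288827652814624840360714246401331134325711492049357733995536042470871390744052820210349327400425552179013979812762187764262297456913979619010022799213756723311640713936230111023126283770036733906460736095628647382709410230593479542882113732818331396628316448354971162478062994626777063137096420075722487297467580462274657598234023054358468160818795901547677492565369631270475467862766576363896509859743470035045285053687637359877882215359961521462846307957463739716147548375988820940585420221479206929233876468188823480868063803309573444293739687224762659647967633706795240020190114829639464300447886623570384211163816148616550374325884651413452205958461554604018926750617486456291029444475010484070926544747690418710897430672367174511869244796724260240217849753178335235072970299407647738622168762255328194500046309529579346870642177358622296837997229381966898205171389831208243739437474217071619791674928078335072744600734658026402994803945048812752451829497856)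

noncomputable def rc17 : Nat := (nat_lit 39225249923296222779620600753381372496551460678211399652544952543555566610017326899447546136538547250134881346466728654334929905850992196054404355372427825323185145072245846116456540863593440213353756382015432563683056837363539461996692765436816189767173767646951378257696948663812123509154019524699386035007669828062128767312590004353396965468539085930292682214574187840376401131141289036762695123388408339662767090685995964567054832481894320465499793989625096773086273023501319615400232726562819688572606701950166347324358187592701754470578124484708845360302202157293875924123526552697510398107313307616580355787574591501604344331005150713372101490359653248519185170556540317237086398177625986181475803667442446517254269844955986803470119980939436825061249041010893632292020065352962598174694177104380742595900143423593244049019649620947002466552351633522032205581278227976011906626063031865883584866123944345307426491302105656310865389866027637970408204042890801039556539707601981651023908056366607251018513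291975272248887704196238820714945175448666992734202628212324797316305160860546799763697198038693679759070916034924562237452731665502426358370242565927099774893620694639914614233582686299540160274195401092117350644845343319375455282876124371129074268048335786414125668849204735793159250568706227277486327867412414296015140695876168247043329545847490461929542878136816103475142350264716617926499034998685934306816424541952119846412528799315731815869743186671557613777999248956925290201690215616825564467348207261282731370804026412513216344686994271856730764069865046762410503464236196803877545272103891632619889665665447460857273567463509767581831475043993872390891598012302294828871709279698577338501319021136479589432777311200412709930652514208718206190214708136889544618730715732993429379484081340743777932998374071549263370038659031875970756964633571936975322460639940288255690038380530009698184554749550754047379524899789451719067154196910411186361201659577145906224520785869029286842094395067271917413114645826971576568599558266641461352009561247920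722476043805776724595172064976467047523921384280551233628543039871195716517267544276488490828802647234426259504812535800069863684206700450319523190354031007854725604088545608974630459005869390975961282003023505023655944579143010008811363079499252829883663727978430908787937970942670419158103881424648682607903824694499934076421382079710461042836556340218523774745392864831697302684526517323328856037877888471087035595090548315870593400096390633895572088571671996332265670110024604861151819609702992136273360945996505057003868498517907529586205810165458632936330573054492600523692653213538764792687327775221054910468391326896839744931634749466440989946248063977923714113598982421688101783035347751319140775967974071385926505091578061522552007561282190732364138634484055860674390480478126197165709561485030333365588653809987149509536207103360218399061997421884039311537846270291852664770573358889965885227591930473396246215943255951210563467509023365867359239403605718890455717376737338395598801080132251343959836654181086366905948045573319909643051990456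473916482497114582345804152414960590526171077235204984939628547868697347298325433189831957902501355578928025641450489371097589087162889894391480970833620267591788128309421516065947468400990701709106443711069461519438934600665449984965389988508857038009966990230736954921249449564892171118746659128620574408140856524282679912097832731894158495544083941631780902492691095068044193931392195886787845200875924896680206193670443662783086366863542524289767086492591873174276047414137458513235395002914635647630526146841726085673315148897896661912046864496559863909259891291932687288546722697777247250203668149533098275159205410560507712844538505328784932554618772313739558636512943795140710522748812948015577599180847762728430225398129437116071305644833180594146335646895063691240917742404654874056339215585502239062938373411477762041237665172764198736868557117771863058246104206722220611646286529741362665851461308935176020537040455933939521833951287490696453499666876845345561176596816545363933933798720701281465075038456476301095216734636587427842988011949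893804997948384741095880653351603351272602798821989213818498855267370849498860737880787604438667409478324154797302182942114015000946705456710538848449042552683772310878423477885964927936225519691856120379673577209223491249792636213982233542936720248043539636317613422288088177611907563711930897294073900688371090413362721672909442789943695114175774409450121612015378054091539090480512859627511262033894759243145572155603347957670084952973587489786216193097666405523700950145155287857580288194256509540685199351824966579614051487651304048801853198470441197932143380125835711231830592320706075539253814305480542351671875876635587926160668811397077712437865976800103714335989402576192146626875874723042588889397641648001064485499141363813963447614370960123053488636336595301794246326868342730075460696997388623753972070196043951690957198044715752215451885884502520394454578036573805900675269145551567306390128104715431826871102332114903012423099164347669161832098403795059190159977205375714381862774203155850322471846673395328593349942560055916140060327477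271439780952682221957665424560266630299546949105170848645422672755812265796117799467117658150271261227160904354231687654215589817509143084065261363421430326477357243896712970444135441485107189920813443821410149515788465743914553970305694962527482623872701644165620421644179094756780088719323132134063919415357002667861201550007879220350544195507942447224769785650278016326225641089637475826493577218917902744375283943202070278680346122741235577788879293188437997705507059644439515669711731163417681411473568010243530487710494501360874866394288065199895448005488894820212640613995986592334103534792752715426234666369325354182430019249063098477191363814055153504726554424173760077222569529297119365373707005779891942072025081054405761222573306108621752936402683663225742196772179752274712197023949147714117482257778942907558559843368402410628771275470179659312028171415012917783489490957590557469972130139360612228491109054759791019635166943842307691020995220154317897779395976660049211692992064432021680877701449149603423118226580746502093291659467527818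206769054820459354981847439639658705646776062020063889950976090565398933436861146562629427375720514296566213441548523160134878695111275710541018821145392768891617213044627231386058515525011029113629958785241496232745651967520456850041338105818107728208579209928938093363071160157036576548181854675701594381499647494521684149949232218376472569882591977541058841937457526016135342002058913350703624673244451920678227517924616858191072407697409068546875246418752880597945656918521141579149722551466478309863931186440291479042686121534570253269861571885918193546629098564749094789028418274764470659991772446575914568670489831139732290702577210429633470141193045629732161288127144346027231641238800373567019176375856186405313832294057082457125574428818179086869553940234122692429291793272843241471038770425755660588070016712702147691927916551290060983221764341118844814212964205768085908286553145066569681945397190678701641694442922709247095750407602643887232009043364956923009917825914394140782120554937937629738933569246860840888331082854820252944017965438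643800165347021216525814153019459263312312238573802397191682697766268534227351212453162354647098591431178706743121065028383035599626154818994814082085644956675050548914523897525737269696630041905837227428770703284668666954680083301224448734433378951266488809845516066148885761050874012220882957375670492826567332518811238041646108273043205603289874376118246757165758583064427103666085753173212012459975359127750984845980211457115227776444053811237712320939778832945269042845259772972554592072796766578567060441279734419416806814604819052606661546231544539488101127148901794021692367694256737404671754776707601682682111044943315380197819167068897958066937300255036556917877732056773873670829300962489657423291035366791837000317173258377360235150118168738858863693383309558957199785305952257111100235139662880670442725449549920587146279398536609721764205209940752059478139303478112873137943420517635995947981006079422416880289484941358248132613229688927147726537918645892713014441594883801670379193832820505575605480704130946864193634410251206436744151168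580914971223733899264821468285258676083081005926395068771186046346198466461163809367288111300464234418530028688869747818325663682170709695893329615879775655995229596151963235671998069386190074056960564358375155472058239438025173403427091175658418052595425309289074259898141360838280940556703297689859041458092930629041962247450909492648918679495046539948637029662551853457456863120403674904836522030850425478614899838693653653315352936729980484718927061630448096829096469357875484074207107911935470786894641413367505956392249388866910246632969897167244200164439146289944529823029359050739932156951417694455232916350118584069891894027009201872229159520547195644598069516647916512324440821437828047727339717988082130326402459473514819427988127412870984151015201392542956924034983696692162318127093051525389019464158408792830540703578609193064407391219065734379889956784681356072286863992006378606717473064317318871793486138190369723131278565949817923145054754524419953995561646740941184926336957934648952713487699073675051416902842414288134482720407855890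723017108989229265943059197730670825787250749226354165984070710993645411711915138004109676528224103538214341367490058518686969867872123946940008959749991603402422739116315647134223877774821753970675808436349914637265170538680476611943100279647436284657729044054680955393771738441789933079205034659938986464879271335206391295871363511866420360301981005833508727243101097153203794727621415635645876175468606279062608110872520313255720212268986286515245092172157327525779648582066034054928625129805720474508699224956363431801842728657531821713420992253032679963160129934637673213074600011934123501097168854449347540389847226768368061091036934601363149609001772635219368913972027041901463279423791736684207080572982846435884149953931117299981050612601626542051115519273116618485430402287867485247932824353035062713590743940485913949552274220979355430478558521206828577912997753515398172163782174900471390830501814311387764658198536419750065996411684308153271387968775674818621409712273660100362991628994814886401749202722076774566486636963943550918721110166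355326065088940053945807029135815348368470450888874942404713017997823509180857143307126011858544365095023358000721314121178078344612898330113888418733589361620160496879066424906286211694396378249501337066793380223676102063012931348383198192921280020253784694354418293744657745206810384927613441303141052996731874060582699490727053165926755809571624719833931945452692971792864011402741587324633638054189738473736311294407006256095237448015389997022329117880039952327421398651176459491761910669515626519201141832578551410689477888242984843407786908379266548064637800907190424013763749432008550499302139106230860544936321686334081013187187063058419395523960834972709504724060417575825579340601097044889590644906021163002246523547193387895269512270774783465335469415163247581716606813795377311544373616727958142390495103005060645179224129594618112293704084108817093195091518761064396887937682943659125674041876668947961944519063780789850988028181191597224073927324428560434084465874932005003013091314379125374719096361063242943763900973320774140182330501272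347837806033435057840156357325440182616659192915800291738865874985745542706711552425533165808140165519413773983893955388807737859339064387868457677852509234317374554431926330242220412168350716088599405984513957440802081480699233422822250533498226960151994744932433248875822708966038344557267763971695833071027664173254018127354598043989901726119535616389501993468520864490209278797543396148537447654687275831672465934233520493804373875469625067895073357830665860130125845245602153046738092363140318090274271791914149485422386262243660975632327664511111102033421059451413996640714838832085407497268363159038771406867045680998887130804533678552984833424312478575131757809603277813301727914756258485949942225856924848950505538016346276108908866149831031954229411490888426195355727433074566132589363660267223748969520652419769049608316558689600470403124902527257144671174302054556690759788895206976586934880862892842174137502146096962545613732085814989062031428129365534673012169951846356573064077783038722110152944843687657536938768695024401900415397776021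571142543497430006355087165611227703227504032776968318742435292377989667120303001173991341505196044457960810415142977601372978802872817240008893006356126168493429744546906955764456364000889679906524353763039099197103313963456203342527454888107141346623320866100714188063253175851583493045103044015317639823867287662570086602471079855775376399633357089744398089077819919529948308993292240409302431241988819729395759386585805242743430484399407096562408081559582480224195236105202679765925167701396234992808766761711124634333982170198655650938921781572475716729787872504042332819880979632843436570012899397915723484504549660647971621511811753658363344391782497495102915637893151818183485562965886227816863318944024066902593656753620616059981556325755908505624396955081536023141520265096046059682224320838899701466263652173798030505821349793888606641646694699755840592561657495474071702144634239280048907327943379812908031370305109746720537823720853598824469798843356849349438115187137354716013369846057133873980963658771230480616045359045563915730625664112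389052688117815308039725220673936794541723087097735780846166939228796162895035264455709434384427662710244120824440854613127562820831013632563615858162213510572600293758565721910298070642575290430763107756544679384630749446313391086741740339507075856376776766121996638441024610578275421294870226949859963683503748236744753636926340547273569510060143933077942250244242377183676467421235154479045573637685070840590634201633101280534542864396656073416831126994709764285294713963364163487292746328345492010130791269914699931057327835413015841354055175168196307466286486351218848904832705954522947581714248714020520860101262771948795426966257688768018957551017265092546258704762867977516489163102081788876737013466384876687352092687403498024613696991086320614273781939757194990279912896133377857203955710271531284691204528885475309553975035226311013652642176523028727384677630438673068011647698819058453433915305683255496083666983969622413546369006455013415213242820168809413151932946581997022602749440886474419887448591812258810190014197261168626407590520430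732315680901705167318623734262898131831893084011526102542806137551409140845462672915128104457374048992636307697883451534596052607656766406579546081740230856075019586756255751630211152285900343542504484902978970447856264483748806583078448475239151517837772765665215914306543942103198068727570500445863460306525419231416335895240322806002958294279288049169477847975884569166106849801596233457362594703599764685262284882301017975866192744406966637489148533617721545748127221031125843445092731748304003338543239137050636982136591449744505202611105942995604480708372445506980025263839474188078264387176343736297311507539409134416715939834509052265625743669519411803673529266029757583222928252396530145391176209179890530612242908358521239300444366936727063121396717825050196148277308406242279304809783852004642175377594713370276665596935961623717401814763927772108230510976818186683455314632958716552185542102228483306720584059361915088901378986409941652417241238501026735395576041591477106157466667283710445959465700765082366584531153766006807793105185898713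157728987327276556254241659652425011829817429357516442822519590956792715577240654882689095126527761480660727794914519990778001543051568767553557045449326640311916695362661591044082635219128601879222005482479654446774087375767069008712129085057158949788840064781691286923445950582156417859885281372363393622054364312683530896119902110434208852677129192236096066389862024969196791874260506725442692125034742943848383253571419947029535691555232540122904189448071239291296849419550853819733939190785897956979969608977520816806852157780638082765183254481684000963371243093001569998214441643391665743115314197650472378065767465942935543501578766035395813234759888505679232574501983354039327950611091537960345894568874833720543468311107731323540195201058943289933429774123666976379878712685738339275470845930122951570894697404044984944786714728746575288458238125279242939054596725706900487515829346979043894006993627270403640583879257093717267701075102624800140578154428554582573833216383706374622839119605026327541740294195285158293103763033695169445148988365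207284250784877155506110045664583547581450299756492703738644824334767321727101523887979171345950389349453348872115474289619203459287356054485968372405184610401761191695572159183343153040375202625533181403014194888478041028724091985975536431218622931613666855802549377387552423060204047600339605304879489280150604839252259832139577189691792121005526021987669055704241631621175957512145638269393302299303940150311242938110351736448348083690169584485324220200027931432715949837699537133844072767515120010022598013560678511534867265699921320748083421170961226550407108288488153104515319691365320177680239659630050305301242284422391679592922005399746220592368046332006074377081744109125727508807816302413266285810801176793875442362365872025390717162436028957983419978822683607066678421724434315214456566814327250462931075824844112510431050014296141536088965226789100997791911997086999188055403645595926449147185769766491298356106122932552079002348563965248978802438021511073441626444903833579769704394314236548899717973557064687142166529283538776368497871032543745869212180401259609130622201103215337209615484096250209041818121666560)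

noncomputable def rc18 : Nat := (nat_lit 39258798508741264513279891640163964184096381564583856394363162711775539286513553196976349197328196674407769535113602564454029071177412488904164019458070585553666577810339164477338887729848088871048675205524595203554124719545453712566818642850301050716727860069763054278271825457679310876833135791239222013397982129434928940253732111607699359221110668751287822629431357391880806197534498871171528888696856414500907941663106394449123832382800377984070721324797981881379713763693681264849307314665457626816323160200864393702568212861964647782809983794490405851397817558377530089802731302885457506201564361259208072671674680947160152443034508888394893223267155519182473339269554228898020590058630655695867782614655750002284532205324803930464725793924972300053871316349041736167792696785868361684567093381394391314814328292815824897307605861235993471961326763809449839116748964009350196623137692706924907231051046419297742409508769146236369246802976794949557730585269555964135879050365666399911427910576723449355178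668371192579587774500591053613826907080071751205826333834280320191407692526683408843576732357107976213540919729001743066128747984026805459863646187294225465812721148083791299306260896268225375336244579467520316348650080561815356326249380865052661559265443906299487272456979279205302165802196818725585382369026979162958202482395517992794691458480087732607719757595991339141403507427715054966014971377458322970021041258730413176777981844006569950551174652712890002500203809697680302386204127971333959943562322504960628866439920503238353815800324795259213097655898216886766642126555856671367976080096061615173722088929265723885479197657545581392407439866174083082760910431396658215081003760944022331235743931592218704952348595507784109491904136515373318472375164718053296227565875661735246026274413285966310194851949290959410493476309643645099191704239913864592621437366566800236478184974989379207572993477526512623832856647586457950816415575746827086434971133510477633015897107819107188917905819216781498429116234653733667167118822981100530202147233234798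163706512308041020748574365724933945157890917392884120523045650029849592681174551829647173822530602669892486102363004063947662536885164566523487073874768656635515159700057078064995779838334834894396779776116178701291804051021016583448991499346016939140134661619880052797860550144931921304892650504783969528386766401087581158246379634080683573551370764963787871149483722537006847700367170474794759520819755040548261232283170455665860605948829353368115142152125522560027647705427044042131019663928644352173276017801624609311952110929756628430162513577774298901107894809302046615491964337272349355173771063151874862304999871240333418296613321549392336528176935557965287157311601753312002112976695762127701045325760694272499516289015687279991306676238851507760487098804837674402863191591473974954171709841691294039430042321801638774282555275165621188818535479017610736834740359267879719411557614414063345705936767192945082176605524624019752564341144638830771438068621214476922726346172291471100408381082276996349336659739193933181361091151781128869257514994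294610337943998023390131979806717480276660313334914473948472078295230431500503262568628538518838382272458627317532262802350457685774542142019971349441077214304003314179891424625567234995118579986788080806374206052618293653356361818862581580372215206780352785479727345992730169561981513427951885052924039334793984971266497666471248512046405336902501777557256958212846560118678240969233934900932516721455158695170860488170523087898779817798067036210728265108914110248482917146654997599411579646588347271097894490073790945382521627923129549406464037498399618710788071112935317616628581856933252575949429960432448981594115287374298246528295605741105878281838217872947610719852230185385367096585297741734614235441686399992531220056813519721738796465296106506979270592423770962261598308450893691244729261894747597032815442840652412062040966740831522963288839489611047275584729616023199278008355543507259818306522851749086451499956141882709100740418083807039849237730240440168133570420321609711011339654700414025702935011773840291348745445137240737401278354000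583128711826532999122703979585365124372815129055802950377772644659996832842880498025318860189688554686898929313162261392645560433327448896135173353195319509507412833883114884153920429772727989870989776034848521481774443169872057804947394029459467493485682376602123686257888708784891133691004159560711913321047565482030924254294340085672555332881599442326304901067138892814757432915129477570051513982602217409192374835846399519240610108056650350811643229015089507589116589802477852207512979830232164612704778489648760571394177045280046248677942901084276582450668954161514095374783436805650018643777573473132739358878033196231946118479142115336338684954352566122211832227959108209992732513921507741778656234824878119582084966003655599902126709096520585228257915889741809864370296108069741135616115749382449917267464150583339252215782058105989867156009729894636801936151802403772002252779421075506199331570545701630827503661276660991487999043265241488038619987537023615690542823984498778168467483049087487148480999181600148076575913591169529726407733532868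062655284736851748214122339621856583361875202460358328887966656504470990524749543724092260796691215191059456326449775994880584263161455936422590496283885321688491415567171761146544488543718888928470523794999371537192612207223437004922627931051540738877841939009097846133418105594703802780860074806333294763110910851998675118193548663162786142372128275714854830461320762669869358520299325370357106288870583596186050023268166799184795660166375838788198959082395251208164177951677800772676372347299052193383329128250306953590584658024072185266638930259004094416868594971987830343134782688499932898284306662208027899401895294165493076022401197702850170517983583067814518133515746368985197923485450900154051543877101961734750160503876981470609578340675159301797332587632699924093282844390234563186840943814111764512331866106450127407897905486025744679232356003707211916213739506408309634371126258410353388855235642884210127935539380637652514198868715404598969940922900452926357702244607834522539775490433487703848794286184311719975915858443912635013884371417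135582003933515098649428339406184019542775616421377238309725673040001163434422861031733391565626276352145798138985683081944887992725201931314127941231511123471420554163812577534465859149162124007250888244135341349933455647995231424560667081449707154698651791330669885273939345366034578186863045047625730742634285168874409640651990341242847179827501032336389038797101201136226669140763967506558603042739050058710080803546963757252001998487344614667089199522593149145031232246401392003114328130858610862061178021307897013162321875355294288485679306327674132089354668250062551204243501094498047263239110534843941742891664872434836793752983848283885050385226429612717426494821606033589684661644704413013168571087833254886973304022393540464662939510570091171850081367037144180053670660269079495413424189200686848328761324791049801632795310616986856595193218316815553379432357804790666861622299891533462161269425434127005075324251129528776213969916795401372036652912619509770007196476729492055292024968324836957532956409080748088326968224511528257513910346509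011628606464804709792938056924002977446343846540404759352940288540465951315008165091024875678152289908196945515084544249397212049357072192257497870320879970076648492278401016873365820707985475158794263699291051401130614306065734986150767590044525871943327380909498529739324364285110645113138803701279953444300230962505329745641930024766661186572098721283462022177372522817287207639384609026655857748880938298824985325409058293570500487714349701207402263115189196349182873296200986908254889196468736219481106232696972093295895497220346626149953750162996669455869048535493953289639099002515167634556763381061623779331572154181243715712423588292002204861200951663234559604689143366867427929684974633645897575504392565729748324665178125164674744213695184848944495455277314384762039509213444813987188832821421224023151118853666080083509829697896701452604544407256110299588344035311296113029902479937986284597935446704491889509845965638707543300739013497929058664997427115781004274153771637775530268152892995724991707557326080434013513701088013239693635033010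636680664175884955490673083259666799846023604844994688515075248211138534821182507050487552472008612199960006491421131582413728016389181001474269136754392657277045804185578399985518820915652278980960870918227002631436445710711885274018585072252500188749833444839310638208965983633970433305170135391489075846935126852870269770412739306601891330839759477219498858472057383073182067188384372496098671573233412726803450138292710395613232223318218507635627338543341758157725761437887147801642544556597766552271756776202023503069149710896789631772047351636274861395459341705778999524802939309766648542205488521064197775569600796736127731834110808399099565686334138456569155338404298610983064425162495658704109076596875954091929894389179004727770532023080762868583097859597268612731812761125650905145191729019568385140521856332004482382980743793889910763653797099419708005297993965007679136693382460372919867369631987500420645422648054270148720016366177715453130501666732477643813701654451538816972856837673794502963222748657556514944906058101328103176763020771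852589187034739484265273939861758630320566808062877398338643994158996569035708690615213083584370870973310525326055565674540976073772304060438480330308941156242853574734576057544676052775426796211972537799009149631493375906579815697943478483693428976352350629312973096530083555984711255511927198385717159941741487458197849400819879166863368258830545588812933502814132045708934337976124347633757064871708027723666662307305919102644986594827065936210840952220066915352156920399524376010448236548554991622860506269453250083250876792177010468470311307505519777067174871091062398501770338803739029482764556837212775620421785904606877066109547056195239451480361877723770630191713191482804260919301057110068744450543708355436310793067266488822916617660788624873510262579904219588406488930038292754129978716838145065115799598325550231286321668581870878041636317362054961533769817343764092556038056734627351259681981957509137747839016912618656925572938176479885304537244089428962025019235507242250052259822525532282802680588814165507968321962312274111228787754106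915578274128074582052999963761056478935047455422047842530932129539798790755250412585787343264129810864680075342247287322901128851375090807251170681034373419097471749915580158783151615214620563922281191134701369643859112673846853782924646316817747291627303194060198303077162950389355407882832621742286341497912776682201874171656513691323662465444569733515626126243071155978275335525304939935333701652262195436595305046650557543174688865964995234442161813581361003295938862565426296133791929601937941392959577816057343996516859925798314412349672877963062147996524220012331291587094411636288306186340408432170648051960737285182871787169587797327356316523696963535841980448851421634409527097015645318468873399658552819166268436115304492617122550151202641102088952595561242316079952102600638896504655431711822412243132221692573963955218179248795543866877928380611370094093608660137141623968433091628975881110029769232334964371015110304190543210756349928033216347864645643547516587345284571288531445539946502235503502852378797159569238417041407446497772561404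499619383602310200879864152502177085654982756832021281371809313871805482594829673989345151081360925839777487178870714589944928111346144159157478620888224704123324893512008432954108054500336053824246951574478362151511460129257812395923272124724920517732160213308277970371745909497554180274645736066151205377554689043395984197350816326287822522739619530777990476932338582425339703811139931148078429550085469177376351404008214751186905959034089707337767564891217047338919398365155556344429146462210408709711546058296194832234475706651733729330972147499772460273112739499221607813027979401898622352530731998426941390339605275936358170877520657359381090534094722710929978041132745951080593999132008525858471357886660769308742801859971853364151039607364414640236334864500713531338591120291366953167453511507088094670421712074637698707980315645917900605196554475729116982931815630739926460348596818423240414824161128345117916843074710137848692429192172562097804033715282024627173769923717062460170387353050802283559878230444156179132010918874898332222389714459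477942297791421617575420511032997102648846307022532955438712247095033094487316016009582068129357084453326200120791362422202840012275815369804767526267846760162585569300071042220329277869634777927069453279385686534417300109982939645613014598244773915444269278929252390845156970388636915080056199832792752787137264416768329698713193565388641598948017756823961808267652136436602853691775557850098589431265785682255906171533856355637574705808492611448139338014206380056706253647945746553266229073732545413106581820612045719448458761549942032544674460094230705155314222440266373136054661595132400460104659407924965104977163456317522553771556933679265054131115214639658815111172847252029164240746946964483834020298686493903650896695611184277350314301015725606615940591083409620964270073736559419364232427312797635703738514981885847635740001336911436542130939596464128195947742380334716133823771878502570463814602824843872417001521084076613995813200622242844835090224878508094591080472220703347632913149960239357571115753523863732855186832781473489210491128635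464788153003538658275813393764775337437681661881484673508429386563229131972671303434350870984845256666898301196861899383098705235118515275109426646531032938955624628851512035506920207712664672691397571728396877258774812169269554831234970126992865091460241613583847437054729702571462265440954224201452312300999111637561747367376510704338652081434042195871523855422043181059358069019013450707725924848791913542904823864066753161503222304468497898235207017124039272429262898751368014001346107473209583317275117453596595902114067303282455279732002818509058332011994121097371373624201208939045084563124832484164548440778399186108123859198919322706832181122936313853652790393488971492782779886746396068857957977441413831833869396947972876261803678095340512888100916351491722069929238612718830337526336586440653929308375087033790978782726163274953833151189202817006155267978374923172916567882921202429235711610041316306086597137295950420223833458734052107566909926934338688460422383187123403027876668789591505025062205288454076991837646461760681156244460739095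814913705392868481956463670795375378660710848711218704692903156876869064261741576048462776998728002899237030927563009655235803970918815986030410632849316234262328852747977741224046961014067956358199628912090927429511000045975252162908450791766917096769304892282186423172457882674804259341723087321919516348342140608626260498381866183544285253815538681754193921153990792972922777799048713153703371431870620861877029593397165379220639248596403026558712196183575574864777462820488962888616155420474756307851622331069044065045369950991485600443395155761004393994804600968699950372587894524999686641596302236092233883965858053028650417708462174940725114616715758981355446114058601080369962833835991164328955475399465002675938257514873574947655783102162351497798699109985098141903027621348288992987164428987886642223875355191996711235835151181969669532823060083363755418484695595073735322846257569172775006425459379231448274678101038290272964294381639114815892491361141127581055440589921509409450039993792595478849421882910843224791778605658015358644717999894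149654789686214803241844878013836865596790228590310986920502998677059553975842841074247786180781145619820957747597568319230924292774843012199001988775120120878433692520878783054043026243057097149540745137978918075047586887412138132308664722051272701892523732147305096561172380492647551310585883109075133425616709259060716275463921820249776725598724533733745840632006018493076437642372833349020859983555762150888808544132625809884099283037170427001180560957695413222731432527277322661472687307562736812663695785040264405072052887222402151212735936318050236536830087196789626743657366214100829413164279430695945760241477731876278953150971525493790487171579267694334208844021281465872465105536017769986768981918907744216982002647067476750085883121855932365330173446705983191917376046025158914110613881986209870167530262156760264816672606769138260988261183943126920018560868953353653808909823426344298452207131597230501233035951750453704259578482307391462256912421169168399155887556131142517098774232497991752319830433066025418156434497493341356450764136636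299352127124219246059482788426315650213141212080529795487228829215113789920009853086803705926441763314283398247580283786656952549099184451341235307839053719599155274337610792557343030443319363175347129108790499797199723588007087783739696473472306084116419762943884228938355360724218217688685280685042383692425348419634172514327954280847121135402275772790392801191883284054305176462855859938346754838431432648112624183878484053344203703525884827933743028139045148818892364516134797494399111036305805706497208699215097509220718512320554023254418706464232722422274558081140076502276487860631411036253532087877400067622405641810781226079710755465643400777518657032145555547445280341217534853061477211305810054809397391539816984218542443102107491881351504506876083344368112277558298833390421469914945566953965503584545077236996347568917694920713171143058167371161593496178667871673258925881467781984589748335545724929917219576345543774873163995364359576078125773257891084645781425350604697055554291659234586721462105425687723160149824549995230827025384803511857970927226226478472746895663882671912803957353235891510485268068518854656)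

noncomputable def rc19 : Nat := (nat_lit 39291933086204497573892858541178585609668688172202251203269801767188680955348404968003497366274352045346316609308882106832683472551227481514276109331277417955719039499994228726338739551368567345959089113304991465097154206916458060490333661483474511328338347772523076403985253365006407130454059483618202240053966666315826349236885982887925478094613395513357682436409607613999503068915621746331669602552330033977495409109269326074572549420321800316787810014362435975568060084103567438446412612034746480804854293267777228325094484569376306462384217065789128016898802957584093692159046181492252479304230968440173410049283952088155349877139564875778686390739467521034719459606236833287190264808764702669033514757279597605156460631839540202555397588680711419692148907812471222751215528193635817848282249635163173072536358839270403074743291118062605233727039619498231992455812296632564614287757945317441177111430785452804447086554392782063931931393256746753807610585492927349040216154062896303822766743348440418252647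420161277483353891625628381738656866876931313433159199926692186766748514798226245853330003676367178647792321675214584279224422768763350268487584249450527135120426680644686850423012281586108808580266964480258496746916634125705624787139664216152929077229071858936282913470931946354901750855484341793543567220901032873936321115445171606050052866645277418106995665261583947773773008055962016867665134689398951656729871479762230609848163914241212069821323348427432099515084176576708503852041029878079436513734969954654165698930928037411079046896996826187348240760848700414042340535291462505320674416658234560511858711976724942912216147951116051120503666038516086550696098182379321833556465050214614869503984601136783357665406284136227133781195105979365050263555320431775428697258206091174945646710574442734197029988825769482865759286107705326252709763534383852459226607808718872277145413806047201521316389211530425392464565958146201501111526234186838959587557766802176580361586887311225619355456779918960027604666148409547383976936556139027202263797976698277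882678492084952709830339509311086648186933213870251199649880734656485431056151016334461225273639130912811562876440686359322103358110490311702287261540021497551399854558747532363498886479666185134215164779203002157073487009955045244833615897507885207515770089413750296403725795194846855101354183466490112177149838177620898329175159046749110908479705998529192591435814031749280299014671657252710264823810612814465965579771595095275826248551227788986257516437111172719930950352508592802657006492795581673458050477776149356856957218739692147873840961274069936386134718922783184994003540582365557294565064678245773507919963928950060778220298702259775928198885816195764976719191315904119780847849367910246850952073636072510601433037103011677723808677259000413805672535417878253355832582058140064083565152908353318654866727236266299437618809589438786950855881622188976117608025689473923951873892943081762491940583863922331260298990179374754297510707369230512356404981190978162974868232441825044767146029619667233941454076727199584569443345340779752367255100665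140740625831402837846519815187361515189391687404210997497646065638766340578074645137047470803502768250621353584553426096920431957059229876389078020547346106922787433785521536063285271930702942286690241687062003563582256835294619938511625829156485599734738281639885118345962019775402593441826354706063068366363652568487319645352135946132372918617863287617867400289086609292351721845000987671584894431008763816860994031277214922945407956356452623330853784372570950361646741420291831409160622181485762487289020014983960675118940098396329218813590705667478278082711688100535591306464572190094034834897588660674529157918126857504692615125168491005213474271939023572146026400317968036866804714372200171715829322656057893160369346025705076457710182745382286799172579435118506806906129376934902587087492691854665237237495354357737457414861870786995310019718270102761795440937499384285990995720914292298014996241694507634545006274762849228519250104294751736725245365957028922376727432933563954487273759187320511903889849742725344955171397846215459388687567771093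043178959254505539040876038456914544678255746712589402160534968314469802415679813752589127978938143065794125258733443573972526538216997215529903238092981591975790133704653351870412734223236960599057476046377437445378479932224928083934042881978771430516414912142906250246112559496115162627824188656368217187859547816341731380268941369894044634964394861662350930455030553314343355421189156754813307357616250926226404724543738719805513209693171614551916835159836553369502642857730702405860625685009900127711306715977985112807933164695494118922632645200740398943015741106146477501937093805066825608408164181175440455187016252493763324644145588383396071225277673387602387973966068509220105428266184392899928775552431587266352967000576763161081369509585138608303232676659783015254308383351337039066697360977384376104204251616903460958440151469494328681340825432800600155782204088375072959324582113950227120015464357850172741497125386025042696067183649904282139162940498020346198056698195274936696674464251344162176601734169829963782318578444182564082401190330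072960239297343027072217831994913102726292841328124059761132778841750760035375445440278884585226759950330204622157336078105351646569509598620642230746704166204971596784694137103066922985182069995544104133366713763198279006253107569743353859621076440790594705489887389400091759908750654499069740608339579258384731664951010734828724868692460884614891630430985919063139157001643061277931340394915897499983908282166506672559298077607087900992031185992058297390294441280431069811630682345596605492092923421137767904880877759242128578973906214878480502715718185531027351856279398844126339685957858894422537877011766428440282400215089555291869288008404148091329705119265218539288925078725298872913666769003267850969115825297462386584226202196646702167392826832382440198773523531405648556852261471994057109656934209279519641736246952766811122452122554332636371004055109035977468599605710710328798783681891493324369095568071709858811520156155716506853324853669951011937518046556526469588614998632705714741440389885781100684250625195295397616291254616090135460176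046485634642026792802568198996620891191540238644804896929002021772073008011938079359761613913005969730363767055845697632827138239657061978438834797327673932122964092535512669330133195573560508428069429110981185756793037680710543417366354582520362852311180905182836410817869739708294564027885879696848503032670436559785209676588270681944774485195720933941064348504787739636500561300460064579401599155419118485671267706389543740876885562975376482886913683880082038844538134450039626554799874253437624529647781806268244262231110743567544127776810535455749880938889385051125943623458586521617079097039359043672952548446499787339656909303970867815222621621995794336700461579194055366663319817653337072397097531908500427013904116902860438349626755122279995271227747475972351105468587748520796029386656441529818988423957306300558461157406100691566399132087847996660830250119245767689991639993403139900819428472174546632203269841875651756970859889513808150717713905095460594728870790125719200473211780709718713521714610661444217695657982292945229352639260875328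400057425039496959819460415344665372638428873715645589522463903856558960710241416666639487174635834659427017877578779690334572619960148328262915126741501727170711206916315502331835743890345038102910494714089860042081282659419564623312958756019025188509191046641592994865513405542782823658386759600189197394136335604967940199802120031081185715319698463044017279810260873292960686498892876574259623597918823185246863234629306948120015377395283161803771295483225338844927306380497484583235094520444048875294716101102087278303903954701780945632703527997692373827210457136833136637400259450306726849381067599933688502495056807264851104046858810978689589550590549867213882877036487279951096409881462505758522734881298601750254166394068692552639168207040112008384849290334109163428285019501547838185267489915341690205460395812399466218693490892108912898511205494000458403396645024433390102284073601592195965809573034829647640918400830756847633130289741284217708089904125000722795789628097615105960636599172758738243273864755157556770366606673884286129965038789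674064491921679081387082086279153228359530072256012500161829880369822289518878381974231749310723466480409898852132555221555959951855358641039726446362815439491021010387566573235457948450908088700407482724170147936190398908573320775264624584261044128556861736531236339298657827426115563417987255805683162725201819668254714999821413506513457323425577082987126958608776916854923049322653769218209819492868731478810297790616566623834326913620002798381348549530347310141662736033945887590915884385726728635079142087880384914613068981564049608705981649852679560343043763985439800781030030235374046804438448917078353849875344009773385311086365452327652330344560694712887119037294483486802415963819084773920313015609937266543321793592268867523278535812595910734607870417184672119701899958738010272004969366798719704190802401470175983349611331769836042608973566172041365162390002100151014849056259584644373473990875648164618014562311010960047062362309425635997243630328622882925660196123562970494462005926533007623800799045365076164529023124492291730421453687278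857961258810932772644232276957444478148643965462181212266359810736108492916101757419968485790268075729777721661943747678712345565084727524595204845471114195496485106765061657051489664553780451905175217854711700312519576440332596211114545825921308630173551132066827677597195374016592331977825340522086352431050554897279221874650086348747724982476743062254927488889546109798726229843658812688403098227204844346438733906477311769124734674449854371661411242312388835481894049494052210384868189607952614668232489142633721268754496880421556349634932646574002697590547100743658639322066185788397239540812875477451662368488336944763934261158921077762920930302113442752775495999936810846074134261373003327488183898751510630059015619796807706649605639437722913541249791578074170844499651478951012741075457037900416442879367347469507597988609339667926524247432831621399441586811368877501633500474441566594551772271328486370380861527325364836159300016912682011420359958928506945308357580821989600074200041542187808736404974585284765670300658719030652447492052353367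975175984547662635260341242666997367957144275161699841803319577420075908994221054303010352897831485784667811872199543616391620838134172342433945486749028058609649244319938475505053268415226945742760145994986881327327632121034284058632162238199635784606060783726384421910023737979494557617224427145063224566655497341932929786851094978405927748391601224733643912106904234968236749068835201016097289763016046908337767546605646671297076662470668584497419673294723936461717794800662426557322333308341705743028617717190956646208920275247461956740965917341290632863370992652184214233281337391178141314445281195478791939953874050248570777945059653633525131834381423323262975832656417813723415540496932827977019867112363762542869509141971532295439202165913871924859719322284175265381634855763466031747623681994121788819473094130128818538727456913518381156526658987374458992349568666496696230244679079657252658449472163477498199049926347020434484381229978726605153219680341508634929727767363032811013474919730840289745297016622902516489086065374804796260860485856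361380347410143432203555080466968622666375607814453188247645532380440925037676927235656386804899698412608304091496063325512090581011281352620050250401269564242092234430770273596829716113187887662104416839920727394824036719024571036234428953481500787014946498927810664765417938233344707970489486644666869507013579757990175125141405640922799529372119098770707621556136580908799639186417459639292172061231794259925761505982771538776361807043382389229658088031749411319077493183857833908443744758594215200484149870341059780907369215976852063641189611169794021220072707417403761421952156114909031856206287787011910527283614540418593163379933078724121393462065814329664129270823433768466193654905226149962433646227816803356588729181171397529548789949641259087115952119993787150051036406762579611401002351716373042139244552206469744575908899961637466532574727897285506849224960109466890507451942868384253469467236988320929864102831251637363603256470641319389559053726354101678054576578948684301696840935464484164353130782555141510326755034086325292053232717061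651115867055556305535677862787064319632598303536295470824691097769489518729763076100156289186976679024785008286875738426924472914840239898976658557190795118278327834709749769573584175953348984389778351764576195540223093811514708210910638182389929904683926248933142265068819920595222432095169724479058801099958801473858259515165244325664683428975233439009009189595830395585154421348550162302329548748446549180324767374478690303495300077073561997135602425377479857580965780529579884368981035165816145608681712079377906456297196978567894921655687299778824688260677397184177122788027540756123064491450339085072279179937577600151320042740487750317185996101240094460373303093774818028311750318030181365885994825739523877009307066418500825445030891605897666530751569745361097148150993699860282528120101027658591508649371554001672347329755042526416850810837620950360763095190967318011416733578228943842817220646222234473374650450161535970794376681327000557036425903324780126115490115187046988023037995397514426452170791671563534141118580611044803786621178538219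026254907390712748394457894639264695371102826388201904438567446032487012089509832344777755458341679613495576466769540533405477447304909301454642164811944725806622032583231566841874987075459386465666931903432745276086874532761645858930162611497095871326782539993655445424663993126030645333785325699254700711808306361688506000389781360788731268984619914251394141883421596837101317673264551448453292033418739983996830677575302477029705214649722404669358105595144922776593086839043061006901671996043523324385333670615493043308207121508837419818106586017253423101369202266950167526163272734396797652183778320388278451863338129495162465724827226064954834807257963011119137226390383148430541576745465560652970603913429800643139590672684979775730874031463634262523648781649025032560368017464463145466846682792144192859428399721967171131649909251115556944652716702237213908097739011190389080859076244691367432845958498406009647038018977403628189444346918856119471457205518342633274316288216627841189853732964019870844125289448276997137001909112026624670884814212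694980902151199238110352914521429200258265782750698016772028737432043850681231772062922232362927985797297523614537504827012858822705762930930504483416701448989399349363882659084889817791908475100399176689940980478943018319136514062859183396323620664876488711712570816795627464025035247071721657400888606888789281916043440892661350170334999595344733124385152548015490535081736588303365137697613988403579404936475381524161515282225052793952697381271178210267002217712822444481834296996941329505269753452227150686479638895479499989133485730438503744272091148898047611067024339379880392154130019517503645841334752135491129900114768633128167939877379197031149645976500707430667335861215844924839666185620333109350971836840893832246196486814922580170524607008540335169272134833821859736096860853178016705604458784688479069906468491022606144081893505437277447580427413891851736831670649181246959057226594324846291034027036458412730804861994468274356712299341452110828094718305035999762086255538488530855385377186076621023889718158893333876143508006782362636495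406079727883367455059885370629405787022910745462215487531636028138343831533539490634850602502487726084960104510064155441256367868641869605227439470045296268862798226493477757453866108883989772581943747472097764461272745736159320991347580780342678548886229243013002646965645591222069390867329943605590905391668235974434722852610916016358535131954269185677949744733878783499906790736250956676291508611985029179210817126010099164100444307928169006720396953879488724473799192661911942244955990601220730993622401333896439974543024587979581671669426907207718624291737612788887221661602632188340955994383590030788595515507304532528496566337092124089058873021552353061387333438357637681791340313249953155494404110553115578116007086307536195692532323766122737014741489161916251250394974795570302219353647971814308149797209218279237083872682012585071990192723429773451062309898236444109638820212046125395012459249378168046088365428768445884001370518954565991873037528649741239062557187474332934107561298143638364036017223607815286449125760966554993909503479589337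520579492391983071486278184469404959671685837153020550555876764488713697820075960983504452296287490339358017453984694121040926665836318369505483477007495434549376677395318373795694156929683046270470933616278586956681054374225951929610975312212642822488435140350061803776705017017256551795665090882378240935272760575106938894662407698824017616654617527605574794623816481529400834210528277107624648014611836088335433255379854231330564063226675529897021559663476888328344225255975252503557111119213551777698392023048207849276417219641351342590443030530752249680367572055487446342635575236944586532089912293942449028970278415570852480425487105863081294513150075978244154195107927893415095529807479783848664229265689030556920739413036588278616291047164711946843821092774966736149546379730101078571030710476973214617098010285276474172182500925366963544204440803523193975094617514952220841398837213660932865757748215874547735523724804985597272563988738012270317920724021975174689352085228319154980280475126451283674559168377522432383267178628405616114025027283964803032997991878685760747419599802715499784733530950049258970616002772992)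

noncomputable def rc20 : Nat := (nat_lit 39324655107903464586823909617337636956342245149509168533927934624215308378804477343419942087026606993537825749113897955260456038940090908748192567624147713986470102376749389994137529957354179791466424428638266787767337359960137135275674720099921819621287077773866830006083727011634183444941070849257008210366857802610890746739092552388421266718361817823921765584700809390198563388182446513571200966664603056157929119991031897092849901424317640847967006391746181598169773027320031494302517621656768901237395926291137364874023785624496684475925486596253760289638714235004287560797771229686160061665872873451362891501117730726646950755863148425376654800151050856201065661169061266996551073128361644303930673849553809768763967666629790330885926670467216009634295066684188348590623702153590275922025056632775308298753828475611898570242090863222160061491859280107665936099053011562124033906824531094522785237000369113542734393665866423107099653072338634927502401565068081483566853646264418333518998593698900111101178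138480552458005532163654865444369618205542383753219746452630204744623126342782677001644714673634655436865145039761908638517732231152048397335956037501746691933001649633944545523512998969945062359153124776036678598747278436557809617539341006762550653655948726475433025116027708777538814535955659096585142757362557195704864583887711197734931971312495244847320517568462869746800409993847716045471751367931613331181659043014817425398189499003077465918705913989158607467618348399992816052958267686100104285527577030836084878326622111786521085257115764719366713427849224593756650275239477824273499659336117108137204919057779573628477675935439104642637073022033948936536057120914481750015170059112391829443653233479892863204625665891369613188000504796336666215188326719174233646447548847346538239066178627057501906140633618114688485400525891386517451810268303170116346620524036200907601352086336477080026494301290141785418543089794320421148074967965586865585786815962565538908234386126550638613412920600944808491821111434679105972861166926707531218727551106053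876490310137213958120647360343575467684190791545371276422339719010323412765258401772587881091302891907028520248426829931760388322530445199839467910465572022733122862853688556129182678392840891238606121274164314985029647483316581903072136144727331885748091403949080321374145837925996875289033924803190129280019571776376312952414350129756444869416388649615622437997527786563832956987940281826763419247480370484692599309190250447363416555420158783860497880884403425891737180010055423671729943752172736925503901257690921540222127870235445876994272667745696525401341218233522657629788776733905593909185948553833451824681571466821846386253541540094968320229539163947379869758032884284015379800081147271381146075666350717181353496620091412683574439986687673062169091072699499077914798910699684486056979677902580131377673598716516045393570227015974277843098728420526249934728108625258008008718127805096808102810552803765582586721775664589059559496462085774749646733610593558905394093232095720878939317035617859773436676374050245594377986954962174202590920042278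407114153902998086108204925853023259603119855042855721338197107949603087661918929199733941579273704736059081478141883087461332259470928956836743734244513159945784151995756290944889675774557487054447887442309103807809760565293189013143569133623613650531406758977754026398003093468031188730715014368954863808607677061082129903711167658733786097129547937781940427950820442368510558080581954808672646689916103894537270925930827103174552561444670780828450219258438603286080174098872870725023560679342852645390021362917838397192227857656687578379780494608836032803300598908469747920483503402380085510772406617304558271322981561023520604412536736657224685672053106823117074674211133090164111108194411966372133762522518765731131620937022983923352161042135792598157908937010097237150761098253991802599362615050077675353033776064676275056693513742884772163872511214756553946466905897544254221989072616467712431040066806284362351407770464132087803394921560589255269830253055237078086083643143073082981650067502395715025489292134918627896400689862606783744290563619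085956288947749748116165060241530680793284075269036480930378780475080859546744581121718106852828234777817394629223432258700285070729588647035049585694557975713558715917378759928253141271821820639874380928472318712093617617714261293194597158764654354743942395598845790594389866508890328192437327149090581309584677231768224732908676436747314209091439369199936047571317068639982936343807815204152352067069664409138417062262547092466452863618354714052246245405271166654480812362555987544868972514450582483790158244605229984621553582986731276411572604222879829038074937387622722828685752479981259368577143126193865271999563525196964699934281484988657605656596403511390427802792408031985000465668570869321434888933773980700444571658883058116970632336928053201739604454556627307845593816844647597016820469056587770218795642087797942861272604520561040063081709831941316277651577498963263237676688488131475108465430921268209024217394231100974680585633209311526198705216372185961107861853433238959666216708480520004541889309634215177913008558322594904810818704844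906597905884383214026741794255545331629462478579614062144751015656533803079489026289118416127765776493593187321022219005710579932263225806038701920381248903927522256185001404921722316762812845165470546155964769796265793919949673668595655991616957717122515251247510719551729436573731766613244363392954113688355114965625041739384935660769485116301255082317319769176283508861736778472561481299591118418593175927079042404979691927569267040571402324984572179419511490419429283661281446171581531617599749738097533063590719458635800091759496800527679328338209642210530777896007561979672927019619025506954223792683880284894016204655736232192405439301352397467241080258538673667888295380990192192694916638916474050513988640511497643346533595604287848021556824184219086549641043813336691034559241062642461834104940724797381877643968226030154116676477651533428116162678307496128553057063320025579178640241317951410628121674464152999204614269634245641317204242836176443059843584746896191092787651987470787536024567226733833707745574156982514183958050180834412207341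686085991268167245254810980671221580262494177155828111744936714102749200709940468532014189066052870796312635765259317927461389147798525376300887985401151987380267698885540011993808547616751578320490859248727976030584453787942571216298042783228534232805634389422425607560040431428858519686703695648038463253471941190981236268790729692143821302194636339851445965847254999875624570665241721349895636605446707013019107162323552551303101740505568757698038936671668331515984166768159956469236601207844171442944271629379159901655140753550474715736325378122004609982698345893069674591242535230572931071225263313859093062327770456657514545760158335971665471012636079250090300530754453719819778832896267043691584303318074593591445881708251523235864470943810130320664567472705249375600719220640416639511466009303782091722078865853014519733805281440937639236830831802454805361781563289757839327573508252232084227215524481343562276258766292237713018013038865738249763454697142946198486074135663575582064822854837886837566541828441646034673788004537569109009025143349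471511863697851067999374753797792954292166434703614312527000910661720986830571075848496305131098127340718201541841884097254149771393889238532796327228327813549104384392621649071047900580256956804937523897772561903122856061468670132163025444831517136279057847819507036857292589976496653152081102121379004197457382905216490601248541686270291985102593569963893903685975581433703065077590912040597294536324021679368538786149837983353909745438872469664416836259580983050631090422868190022249276214262956543443089450147799610849653238810586954750294489390895936434133298093428780880525518276697760498831016735295162058351571478004048793012285749093811817370964246435708938084672764189101405329280856808559198225027870214718388565422519588813851426590282253458701061903083997641256867474661709604521992372538824721050797140533033085681455348120778494998221747664878678091485278902849820759229687778269845160746494775361428124531222371956181420357956453287015177772034329558181403746934532703577222912201300583316105601365719768158156922523346182709795632615546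308782999358192564614318945317032896533141482164976037206561185180667075850407381409777866750575561675963210225511475005083263290188780019042525652687810373486805853701752935846703656803258673573777219279321930922907832272836231618384925929019058220427747300155759955989198437718690847721204560898940682990249608849322303217563066796619725784917420271385196490574022965396130106853022466769285474089362373995329310526079177868552878774943025597255357403447209776590529334375729637582785132268208202601559654160810763782380319804931903877633632286377972601801101034472067376126300242377442174677169484002800656793290563483151089259028766935105203549211989580900226372515276741656456468897238630942506143608074784669595563503332137580871591650546790573627166183731574957716925856867848918004376944953893549740644163113400465392796148883950227303667697743089278987937996440937223373713150430856121154924647729792179348169181358488817976145294737443956394411515320052622554345400728555925404109819589349897230633460072503775055300036267131345054666435444171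789284349390525259995574923825863459683779912214405880426881441427466422966935566356269855954738896328043728914787555694462188368664054124788922178492030476815237060863622804008421870477388530873959620154919570969589826512053567954940957661098963242868003707577120956150347711979706019560733360143721548947004268659418186613428202269904679346361736440810571585917323757383779366052950087545519533345659681239404982229048316350294258778567411136941811727422340478078634067126239132628182327395880370752261116536651800176430487913644965071259240252532842106265087106802244942907528734816359109280546408504709434879850847487767519170323730598562823119006367144780944230156889549765601038278185823941541391172262769782231333830615500214883734748993663890618990151487384048935290985653673420529197550761048915341166775322648436510597056487707673680777130208409467205019899605412229271941727095834782506576638484187606446326355884963244197470362067022541932408811083680680295416765955100394782748751245198300065032547547326461360558962179528971792344629070484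580910841629397429228170067622337987226415655063495454603051500253379588587159267172357681060011978194653323951288848925992274082662376337863825023972175614564912800075495154609237504596959507307621874321744520475991869362452941981374755184584351706011775457386356980734470210051473836612972194298222503419683893643866789173320045738907520084390808534412583602541792402698671502210823548958215384421022430846142361033743807697927221183206840993312044263108547211891580490330518082753557223355110311370575325248291361216542067653407592832801138959531117232803093505874638837099265057882869376488313235842748335950536856917122588184162643810459718648220691284523431621849596323276933833422923616592848771842980342688704301182208541371088104279429644655246469120797091379211873451428786735297541695674479411482355643562739936189116804424889764827992276575240601532128112098520632702561004303740973541798111135941785173681698514688245250602785789984536731846065350943687108672201665756822723133242613089373335518775670991488070963044077361914915820122746224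416078567881829983979889605495856089428045357607474612785044112628852533246691595108288394313120546990892988045471830677743362193372423470114428419588725129631710774970429633155741522048350236839159696236461255739235995731280151803974965879696090356659584612911333130332208653195545452821362980384497806168367239281602915397968578113993112347477003006107519503014909612935049848599255354842854067917551168811819315360111126836157695394914783324504572102536321601956520614773064779903322096471856908752578055335125169434615151444198601581007556639988296762280657543974068306128453539270191438725208523488879442592128470323559066812854126744581678786843732740784400254490701635107082252585628001756662003366714304485018333522775269637688838558060932136970661758612515937671727758218372034946647422235134965255775979420931088576449481778293681451495914103837143784371187714161001570978080072442219247162111260040336904727917183016247290844165374933414242293487443005570520601851324110446770925437159243152864860136901410110465865662918197480101149837687551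126716739536097248236019350461504677969199538041184096829712388910459365776001951398486834514067179180203477297216182713384427596366461499343166735093745914355461770020919703012385813882816258202068014867745560519359460395713251735173544597161644224492824926865836207049319891338193341457767884332410286931872412355703748968461735279221372159347951929064449331322248604227811650844637403009748960719720262684448418134637436072431120507270223276367494976473262173996740488461157181106289282048668977634828895970622070878882199802947103218911684910519867077829010827925510667505557208783917442284681466787189817707994166141119458620101073408107164307582239845417692822643729971407694705312491438749966283357369568795419805149940747370357254985553807191795078870567074741366622526525367652630804023774644407472268124720755511387942188260551038939263811844219801825460331526662411645410401417952249926921185990197782088955938382154938595856500840880961199699327119302230552948267814745098099102670757276573881489471367132710071276874955348893551684539096625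976139709405651295460766189123288071496999103771818214470680583884897424778471628936467598302237164712754131286805302026047639090307224521717377228996281555305262791509783896146703945725204839453808088294067893453343178777539452115565643136096681382154906773093906345368940758836617211988104136732160113935135722960811264804491944201870305052363517352928062752676865595323842606882862403404848822659126447637733566372620014014850380419486054693623378131682593394033684397804104643987956077669224201439233560149608478207275925629547476427064654649616260686880399346821161937101497112527670759591619780011445561177748349978033985507807052437711014275446490446536451108688273793510232298235679557113251102836008826270231460070793393019593595651454537653448073496901037549218376504896233119873169389735775393958913229521376679046460732093992186755609950491914883921982906841789591762438403537440967624164443241558640530646754594264652331205010033514710612136317953993055152093834838943122020694592137299711777048775558206206225565074997601584548960636883705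953546211651990013720794031718502557516611412210663282266072283107542038350102208459358640843615418627283632956051582424553879844740901214967991145666641871348888945002404471285089499410483697649119688779916392636500492084408432904168241373727431764859353477952069478392794407251984467518511558628911179272604650011152743330606392252511109194881226559903333703109029989785843434904568425862573779025934870390155151030120387035848894557415848906290152054610127380711778482692968256585685439841000967588961388925591600613519306626569962368911843048492077687355370113031082384333147471942077165723611346566961139973614961275664509177726156444970892120038728368956739021932286547883169555179500673364212673451138404042944251614927685956654886312020990431843070577751652767490808619964082870490881708887431961252120288601769770415812226886534155476646888101155750228472116270514778211095455305359780527354060246626444025734962003781340510427049749764668468318657241735595532330479625746186859049598030585794767235565387590359605358349673810542724596727608343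168066300690054875393937615605412585185522369417177529158399552472578798418596587880732756839382383307208249829286124695716055786006691031914107802009492269445994798530714569724246025960704038344856752113947320605328715455327503710701593644908586663143424697593940614770558684859663121348327330312765542633490234283348785553158451207809719473626491082609288774091672744776023829892145309449249571782485810865046190072631607407504045030647678694571948158619664541059510254941281764355843274366788030697320897173584850130558368814054011869390074974625568169334128982050556188923102857770566292970929902213925781077917329352029181298242722115267894682466654631757038668553689284668129903787300807897013198481548977290364998163712796551119945389286248898946506127322286623537692276100193337825365532872102787245341146628973363937965640281570918679405690914791585417064896214719681394342326870134102245076930592811212834157112045401004233715195834531758058294191014231621836767150046372361883997493776161159504229326654577309008436124796211170364012028725245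157052895524314626074215898950612927417905112581826265400543026114011588855972389310639540959864562568213747606680537937073720623035191409221457498792018575997272953522586895508002653656192566273447993330992074458062404594261722452090295128404010085135572059768124357259875415200230574583099309454297568589528618183914417223114126855185498553323599155716569804477185583295460916601791139549852434022380482463819822052898466115196634349867593401687249288583945244782135402927627208541171995889564631175396906618371834695347084518031546699949693356201747486435946035003430678610356010946404381909500780974978121821950785508572898279549127989601331703601706602216417811258493386613996344235571614694576007585107671593632606609460430857671725981595821835671265509874044107423633535344790880544177768848876033351023958352369582263083772044599151221335070612903040483129192505305171917199234697544658089215883267590515267405049364361221657518290653105322583678663536118527527887329582543273877969827040790970596248121291069068043827637191627443313008294676350655478196674007102239679159070632467989208996662367086640427824827634548736)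

noncomputable def rc21 : Nat := (nat_lit 39356968032838427375427767396542182731568558356018764155490959031322803267178122011288962092648526577639462282327526181678972765486082083171457585422557989411607351038165548256451648010873533943629147814662626954014074289501036162098333933419319541923912054312363247218362118379397738755905019761121944608721070412649704834231909451382296709240850714501924326555731419979359885155613826286060041093227718107443834646658230170884946505476703394443575188201134881760625293856015367031054851059909509815947764487303360420766045426653825759148631732459520354964048890573130064103489193684101930726867152141832998345273655454696858931243402221453257915783752837846044808475932286885580171739652210334160637968677873402442658742822377331508361432869964880664805618605797551133101941233413156066131690743672260459423870858817762129177190870493621628016691586133544337363490642159817883963525042825605999628590911713435615327011116113664486817893999773368830133433763949065279834824086699284929966142842050309327467852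205987678524897180919969279327538477172396365987852552052847773138187708592607934165081399601071313632307773577669084610631543137871942802160186517636161181686303634355161167059931388582861475080317333723154366098374345951031661400385730847208625054415001589363140506978684795486146469518498354175326429147599219655790978510382319558915175061567660085065427914195432128303415573970029757012540918348404961097758054261458338890268117749784163092635114662269468451544363035623301779567332107093464158249380184544309286730416687512383462551335901552762971036007547234811652723773673348627863026015045118016322850367311183099297112378512252009928119087216708356207675795254171652751649255811109003263336966928183954318566012549501219965325362126441818390548303256076204367235462132832440244431589240072107567426128821648214023447612679492128433640685188333411112209808275217020848735376860334842166963023824255634599034442774588563540672585542227758299605278074589095126621215683761824320998373907298555610280714496021384099587404310400176432128816618569988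857106799158689290233319546146527605630367946068197534655006550823405685406482274768692940501214108876771375911878049810618837676846711766310924640053142881174027004783690707594077027041402813244249167842141823419667154366077568417123595730824253349912856589300074526277362945174453723887645962697394270258505830570702232989376916756182238108757756583229270422447699854523274837314887554149718933611659985633553804341213677507608112757151682453430474023696616110187873885898417473555576948279359907352353167179129284700716342015547592532051610633201106391121200435923699855809265719308680353597334436968932998545068604007386368937624266119244469106056460195628086150136387605507216112673849408467166206884120720282517715340569410291541550956531923728409906099769891190386377071835404622599214610879892141418175467983712405120271748374814714092476423883358446573419083492071360932277734345207143926114370325181281962595963602754495002912469894746332565517085581787109216037278115799680696743184959945309842048135973841260787936763265827554813689865370516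049681835697165339786776633476438695079692294418001660677570435607433035021140349995356756931749584013222487876919809472467504021840263681758463796744731796453157116583759411320514788832885421168242680924244818918186436860762911134736202132082346897784099298911051957409432187037408508547917558588978682219956061190184212582973609684908971981423181022779481758186796306622234940838719697987643994521554826528937888755065948452810860476737857991108454804527418587261783640888230128164924592663651540005219400347513004415463858807155373867952044088534017791016109967385691696971265620676278154746507211335483812465976363393323770192470279795941806149443767199026128858549307088639938785525567080727621663841752858071057286785003904374038518849447539947466122137314347165890291008205665396247133917677584733054857874100838959549563934852140179908269488868289196286629068603298623547273012710604238014643319432569728325279588513893503337304551368341104295318840885089346610725102907589857943740719746581651080434394726919202147172105154640742426483758804420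062555866353024042606147891261535957418783151570697465982431649326221370002283956026385637059486930195123339850867332059430119277921281383346332887115894828541568104644390065053773754105422315290485145198685373751801366650623641359541958021589735324617706239197988593527425683542512844200749941925523821843307887105144479718449456321920812337931904548476368767263365504659314151829391423243236150499861931569027975866169439097579658268752276080684456260366562626214816194331824825312546229359837653808773363236149349224041600051696986515774083894678585567184724699346638223544208724212609048473862890381213795811415113604916344996735385710337959603802561370261986258765699628875223916038432463897465163867398434129067253807488881565832362037403254846792697371954951399991286931297038195463387876413610914603196979332386407711801709804961127474059588784441011319704121221675495522663428049227778405086440749884005074927033925497659626210508962046525181401282458096573299420462717029182454039701147066409946123132299244540616871255882655853393712266005937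669178551714978390331123392576485671718232288925787042917800464951000651021317194636789562040265649138157719801273234985633273830798566696559848786680673367200623851406346692325208259110788548977231581375960864062562312298109562588512247939951888701825610107643391777034057299745654485258140123535651655348863222528592807834368896033027364783882377677359764937346629247315855940736257345048462006212720877767368006881670407082404001381224397037453960869536994287342125010951701939106571231044468246370773376711685951174967078841027098522250463424430345417392144163633654918105078174799998631644654086749220739916599722497040472724771361435163270087549598929730815336869994426786414111215717741241568661451740900452056870212328474586004966972278898121364997279439434198168204189104042250310659913689129277751876035168994390259987394417373465216788238969240175969166068929989207058245086857297371112779807436261679562542484935085083988406667578826949267669462290964449812010161026399237202630431409460261039646769719525003040685428345005436311980250405175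738099666569661752761803807068492648365134806312984002776514381671638001825485561084533134059623513569735136098823325104248386297441218057302942749713536474510427434692884026659397154719587249354195561198910601178854083397313988333705479268289248935276770860003734227381089757680227888036306395033562276263209846099156269808640023522938350698206575869880864635135178135930865029407980196130838851802220364799883551526742394400519443244949913671983976417450253254289726090950709976806762091092109563956601064000080367087224060688546413207100460979158127611805403756537748725845293125465466804627018354429629501582396387816942470594046587949396856427018198390230019658337222160514663698974471613338674566620798165706676345484445101568940643600959838543933312809002560415070898612209809329277270703651181664243857217601200613183003124830570978344507328696749939167569917009641523441039828239647444073489829776045582417756090465245724596320805173046805049458392867161649541280376244036681289877569099290989270056145410272383678615495017879681697097626718455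073117134128397320946870449813694290903465034063859597053508032023220413566628179911707296968133855806508211275005388592850982597210204056292199548323696105800805095581459357492410277142348601450251843918181411908850291014020888118041183281902420468758625235233892621002369354220833612002615843268460497853326870265016163781844889296370360223340240283347303278181548583391741445845632589453209117352209776060518334782838890981103547052669164024954337485698997224614146388929144439443473720952047903438381934937154258635825694849506303820804778325291749554799451767511734045514168849621714604264804414240819435105532706893698522717830977648757326968048034039948887752977518976355935910878236930815578480842824783534394027437532571122820668874452766833926582686179140143598048181856851790593231534543391649351692288876046602657085444901905026607000923029172842595629398792279443584515969027291093803722297320290274204218120294932367624365458653920960418870594393763398402325285763695927154168884820168970761798350873764177824046904726617796125168325326286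717040661308705773202992152818413807097944171565345619984981104980169643073576314697434301342107339534859190406457814781924987222251284713249758147756402520856082839091327518481761321177898828047285481201620388175218918962062010761745088001157305403335275644831961751366338134358932854506408699032304293749023438258033219565537204522416907186979266703260849802028282523681870236985453389012561165108609622630876590209716671653113326936625024893922748539595968322109110150775004463434712334123565650748496115393700343682981368665400608674460368605358279944862130061317234759654443130127898118886799304488387181575581981655842030496733382421815406777460970267672952854658595506340483089826326603327211365919404638280477057369935636591012541018645542189542121774487957976478645717614682695233395826078275015225450841515241153780909782509139307801918526636498461898933138086396308059752214501323725593507485855510305305130613596789668867248088873647799172214245247151569389618876609917393998912310827392505926156720557213932704290976913473499137758069417181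475030827764206825989386370893783312757404283544576817670274783454906919529127554830239898640394736284138701860366046791399004237641401704880251282538809498849032500135144430008748602046870754855210265195955459718860782586240130931541629303711626061613041263219013665040229170675645849594975958338209415748346126775799300679470812202777522395122396662869802001262129922161207062493381688850316085098348228726969143751014566680664359034434934445912483595420170148533771532742484830806280625539360826536775614660012584984929963700159612588459624457871771077741480006609496230741958312196644221307087351727232107209597404570823436080700763991865699466212479299516901512759013221138722832613024141530777995278404388161574107470719669189784263424766179423309150874807320658500284102040710100143030684131599342741824317459219508058748712507531369048752269952856249610072649931247019450467261829192704007540864025378416085083748975087365591625288548506611820972676652573345688862996710310715585381425735506381231026174883821165028945920625458569870347000011303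776372654250309741140943377979511896965569913454329695038463316730677505662286595844987448505829973168350149377816540853046632785540049998280902776104066570947818195591791761209155633708653405300798784815012256918297696455086558701272054609132976501318415639165400340859964762019889533089682790534569427809465213551958614173335842904831742802231875204508378098283503874165912795772952738346282135815560330363175744482078016209108528177302527256186864812329263254210274668354496373285526438553245639824207741774331683505656399228392195753975134682553960201613132572424935431088807728571549873617372398483491194344877014133460618651206424376603732241638507101048796786944871399948277530254011964927419781435634014682448696109214087848444754942218351088767006214262875521712611872737381576981745857891117057306694519095120755033298783217132804798124415622217859329608137745490776995615370754280477647678291229005367792486791857983072624582675221802094060109568491890665565126032250938626273796505363002656243657665610363031215088808249237810848670235252127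713706320767881469882900008303317033365531056564355252407392214496138404850107084646480123929806930626004172336048091184575800692299121048468893534672898754475662400067459530467318107044004313519169908704348017428260277498578936544606033643073149543596090226995181496599209735836971169178390984855044605629360626804044515275810433871199507443866339023021040054562637018769802408718986667006088393421876127537958420983922195760850291472620652282251562678084875259015741611196743830485201302691082342311639020420489817090777865653644347495895812391646927185152963833775781658663664938326827587971744955954033577944773775089878809727703488477545644543267693064155571585937772575198438565903510985403251240602468938532182359662353973775931381851365302483065569555271839142721002041919609772297158844647421292593872173297847788153193234086107096248048933949628894293644548717754265554332167742039087418928419378198473379705098185427760457436685867245205018044997616341723872862249049924123909319273076757029582914101115817046424507327536167358221072286251261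122612040827754839142955270844064798202937416709300329294299629979229902500292069335958938506191178985789975451405217367427448908187283003602363875741159761291440395778618778174094263093169294603903860924306326322741814501879231477871954457254119555942789300551166407580621960144140636869793776592805932950542124695255692270171627220277510013070503513098024242396478260369279426769351506344071824731541354732628129975763917367697503856720955282358370925298518070122166710549829813499200208490382789303654090737707979473202913832389839948171270307079350441011034717386755722554997234070517721504197272515877700689500735921490796307279272689487728471494355510901408365622382898179755527111636295689512909368698420602864720679303277516174855001771211954021859384939033958452970434196894179371998663300683723090300726781280582918599444639981966830676471675706099506276091843169622831450613163059518803560064967591834664362058530542359205460193579451240627270262876529496456428320007003196448044567483005024154052170193509447122270097805488676903348179123447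519150214662949137936956388245836638984427997590458314190849518928114603684819007192618708146627380716081606130303874539007649832348720945318561820344821461752758310767161286775313982764023266508206614590778867031204628631496989977729104405807551127035997203756556517931487087289717959583105184422951329375983953219396833364125277933671827327181726082886532836656314298628604022230922983811708397430722302764187016933850477926048194562542525797967280666328142454994118404262724377128188254544115589166395563073707162625229813408714276017039963699052416288903532709813764915733212350020709848635893129366117335680181202140972012790823252774999735162874351767936020923635886919395784991530478616490546523022562364660929728504757984155048520598766123297449267823001603274901888678940083259128257318913594551246010017384948293123959258171017463046573506179394839179590954946827145901224458981581911699485384970227202461019921417825950215007885887361922998988810792392184371288984084560406390510942509811140978401340424415753911377389681947924172296999207551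634784966269471115066109388754137791803691281633118505132744667260959138368224540231174790908769686493311612388720273791301895901695485331953916396961777590604677469863985128432217282827932630230123253366370518042397352614715132045736661976206160142354089741294272708582944868885391195590946870118415397474103750645967560743751009281249011627277390704581335840473323640632235319372360209704045587641723934000751956492756216628925306471443656223464222889438520341228159876697695428674873453141338524499662108752280116516439794277086691147865238515895838974057697364562595583563232021898902990522109333435336630843106679622069008311572737254887420392764268109093143004008059295171827337655767437877087482189385793520305648007828705016767473595301559820498862677233630715253715317096868941149566742110225100973989066782074577201617480059348696220080351689144142683980352877804378181775910408971990867205959375633248128217447054337996977262418770433799042906989208229231850881942951859254129715873692429751758379880059986289951728231110665612825135186368933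223868254806831754390417102295899573507582640872691447030478358562356480872516311373375497174064635399808288238231271104302696766809586258172665188804651367032870519643729883842781869314443589485993187163507378075359361341936771403265261428845952505212404812489123202346898972560500972237078730477886419421657837517664170209619059740969752303443673395049168902466032624583377798534026326806092243444584516570200828952977719729437090455542675895627340628535995326670336527477160406490819406279286267915224500486109859301046631982417042694171109334219861200059342137274533934021070093839576745722564665413038286302125728199335955724553354952769058553385987586157745337315149241502980525132731075979098277980664020644854817422674397687937746592544347908101614791609016829706028370892221211833271586439350587414580537619870321246712534172512253071055863631562378423799494648722472074209180994448823907781920156661296476667082388682047767577104442497468021191340779879356675499293931444362824903998704905374209869881590951125695552586598334362825339611747550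595376426332269920227508851081634981852779210776153124539147278301645876167729673862769222208952830004139033922583061201483112670023429145965464637743439819642198112605203621449191122029001251005367602256005198896154950846906899548725490255707779379917650932180282632677460537223983076459260407513916008536180300297933991314599028650475731277756321673902067537195179971024836280301540920422692409744136003782316219556638022373032923589314956913146331942246852656502103397218448903112991434986178759836668561078425593904738426594245246910634807486654270547568009067192035255206563306383973393857957195360590880674793012473694368413307150318269182727534569177030799455615808148663762477501202617857202656393985009449260436119692885033015823300452681120309302151813647120273729121953569332297028405503420003041208703887467329871732247251206175966206584177807404636947709745756529302782777178883895829964278613334969917783052483547621289387793764298467971411827982393155196345709393334421265680682410655909687978711016922646180252756274488455320693949460901572105366430412128240913679185417879166024768425197456323165200888486690816)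

noncomputable def rc22 : Nat := (nat_lit 39388876307728646220341118525348684701660058247524380243735979846588116244706630972218320378679434976125815622037220739094365110453247816291408305840924582396847891217370281083895881006208540405978906185748450157006790236211802744790725465433383297365560210703970764772430533556280430996596215159058655677475585841844917635331361684651539771405361274712581176943233279091323357942645017799410941094181713700772178454029918428413224341179287642045018867868350616033884539858537220240215069694797162953369825691552802451331459894561374183058304075574586214495653577632232768253278951764945188224372276665246484966582155999296313001457756960245436144819767811921944189249282721836235024832964839539612750691996310192832789473970638609072312491287114413861805139541977417175022192734758831182835286391327686230101021349442658946933058619956682732215311591038410665660261307303870418408978002023748176267320959749582449126928969104707092231358054250139758080584092587987815283443116273460104705306708008318039590039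484020269142398538559126433902228623718153915404399125522641665948307299701306454588866095551247945266371227267533220615962239336942795238896155225049047152959459435306987549856144100707434822109697863780521140098337025223710523201998979513268277071576267649006840077710119740522717932951427978868430154268528983783212054438294717886641793716114014868689157913917339238321735494057948333541220537902045322106051882871493334311781962632369405949541707810862604722142260245974334446246816367993432859438686586808851708220594209231256154551400925703228484761651070563252769208820891051479812334607160723781440166605425718702648136550826992714674610051323451016233777264976907763605914698940315275470640560720254766383825152390049027790851646778320167070341934356303059371382279882128159238712174756199196934926539559420452294888800655437034480066092873296637543753419400747910569034284568731355475422363548401550166734424270423315464333812048032015167004896750007795263135394572837339592479896594889919469321361888336085327381152197973314976513724314696612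108015087629801170153639529920281854495327215614253873498515608456344503686989549648888690829480232870907846074361714040647576566758771953781726400345156619563160661154809102116077813959311627371390444595872754161266969039023196723745315066847884371935317549787975633605963474939429439907699448854038594715638981292727805213436718518772707443391937092218053119905460241256899477548321541655319312475106549429847095554405154554821867878999465517203930703448538624565330282871432785702996520309638148560139577200090144486618908548543233132587584869160066818151147568663459957787600766865705373630506906414573850272712140743218550693440690217808314632706801488431935533885395573404654601438952295284265899053710832870913603879815576536283761076152840448135034388402100698509055942935900817014508353615078296566460509559435643774183011047843831632770362859407908807776230111228334461967562956122165711719903385356053359430534009474442411787436628174878526470890030188309273800713454435822041487882980433881592494020888396712769112094916493691562082568922974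611493651831204029411591389159159522859279270880647514981868787824490549530971290509469558903977538969912113155847158462742098808359434788858470605104840066105735201585322857992510733403978553602438946119674604415544684006187833713467078995825968743550945366570046818903516329873817182936976516922536658158109057703784030189137029786766483897492467317329527910294744222979387638103484945650498869298416616815846482732297452998590304650027125434395793998452030452066818029434766372936922922069825740894003236676765940158730540008801054182019927705547478160261527096359039977063716644385176307667262655476463237344023455329184739428963179076289706856600804867360156234556555769887120950260566994625676239052648565924090153656096645924006951412357305321381346427374610611086811892421125012239036087678670416982049910701283438312338004495081570434193865106709753920931702055866940118799085101260101817015377205172039656172057158152378404501131971247643383921893253281782232302633520737032011403615711773800110902292317440361395592742599983810804214012966037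179623431159083361547877521814798893134801653262788440711395408550514482926407110788437287332842901640122688735699600350004376012766950622466666587690526534729229198397732853035084628970836915378506923147094362359919765957772065488173642494044392368647877615927763575041281173905031416844261061940798618798399007352782257792107020079516156843786322657995990955534474816332157743084638284820327491218717276572890055973810378061672999105252599359078839328847894050611138458275714493467807734455981014983886316794479522398646276618031741761290877507626264378194428980444212148837288870640937535280316358298762982073554418727569439523642842465122103352606943381762195486331222828890842933079997830054076906436454370500620675849088396129676104641504853256672221669087474680154115010249714445652781127299861231099074530230741703893321915925567303320943811610654109587738854780552307428900823022343970107365899648921950159244172350480262182643392825826159020826595175703872766666698672151862415649845406023912745704553394917961512586641148791146695000669371425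711299895851876116594274913557864752327008032996967073597406247007010080834956016478471587542768229613622742771848721118360324519158397853289916099300055488998911490389569395838828992153950022423182306011914427768314998706877320639375556243870673982151334845385299054949204093698328129786035330574333467438603730813442266345508014347376218216072364344663868418609388046367344376888347148343421551041834751641003741809789766499304010575665726834106084072401447105427754114880231653196458398540924311350441003986867354530147689813864978535542906501397019220247719417737415315900976701225570730321748709476451144493243500441560318438769664101861980694750364175466981737928615884643319252390755848284792169990885800031049521517981105232323332704613139590152858813217337077836499254548168739197829853960311807644631196674678411908639338210709933494833798414163417703510999583331084549356128380648759570896130394376335789708035398795116033298207857564106957538363276347219364755816971826659780723692117394704779170566635290891538154400144070246705883276612619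802887027063003990549870435319298501710206093051882876542509228215498814576859287101228866862521505225454471092367445994443564011179138917414126101483065319857590023219741515491072810430231010562897810436784138364254359652813653391394142036663155402010693691299124378669072476474285929006634780814692526938000625845206425801291347460477709247268113276922780437607771596141637939485678523771810211966300409508606096376245583156343517870712989734734167799616230061639938904885809762368313547564574339263312088849967548355745421381132886183413604541883001007931348150526633815326858189451574800980422171753714852752988100572466873780932817530973125766512472147077541018702587643277317624336058235559912188893008151912889412463585622219640015595272265960874836046318241367408298711439363871351527132689494820232565604299124168241742238222850484885682702215609235086372685810887738916122811628215743055938242627105126068180409223950708602930583161555490058716001593662189173778641771024496784630303190472851161286182777127437517526232312112054530274159061472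921527756927316589372524933474684965996503233083425574787808564848678449019539615842277249939253143661142798428408012358330787642692772183962023311793159026967632411563458179461987427175797917244167386702576032955651732558639241138546067257073465064129541346506955430694074169734565576056288423188235390696557528259739569092132063252565862331551311277859318305327977892601856593026315723365418472461591438518220728131168210159110982556325254510975561620550549779913405060171039617396614840488104914337062258337628759226888813205893593358443872019796058828231546156929883669444116141091726724683312377075131935637530891435173379217343004991207664203848600490766974480146187693434112531560067688315206474227125661419143752041073006584341823867822009701477142607559065720360123674572416878481296399506669859667077312993416658808365884990261887432930321397507757481259302547380693932748667502419837107299621577748497421856060820059249351636738757200602724463266467555028677158045228568200807648139142029650844979312327921274391266490648981172041667865659686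661905497771704819060281334827469165009894793483603163590401259020656165405908630386332261598083674089756408941340856302832059690998116150144542698853198290928296431448269358294510481606129317698837794094118556872788746233803332085318542951775309667573969294183411864399652488626369505243550761926338223032201951502078633086715314846218982574356364016577168330390727873515655244180749546049075040446179008049307914740125511412234015687876447633049477857190410365290050866879217859741654602585226428466061149016748137020383274229649541352157426286486907451696245063246677523787266984432845937939438738150871151737040060406612791914948845058571016108464421972571392286860312354568634701974086633390904388484516131587746213709854358931723043985349539683145965828676751924610003644827043985135141817718920610488976065013177884502153414812311301299008835185215843893594176063176790789261319700564432659984928989819347056466622410260619967604526263295015831316546725604295474402224770892694561832637990834695533980594596674544991942393038145883031319694390960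107249277237189566314220597278141659262668785531420897456562265610694695765158950303747088313410730578548490368469694017487014182605057724333300202485920243120480629541360264310220519532492959408995235060579722319204018285411447639670737074119211466896604338282779703248720241553114937070041644113642209456279959969554254431321645451386289759503619292768133485732567639021271320498010036167266992273951059193933801753171481172292628736051800549458464991552651482757658253634669583939306930427050585201064089376235988797682749988825582655108019889041179785944267144881863147660067250461720194745364240938040672105113800792515723054017214249173899907142401088003801262671548160558780352670900709672295456999533113408304251553191225632074442155120742106889489107367386174360154081165136056351885518753391075416369837454801028399574621070969873455845767635632308236744217967879411553562921662090157218702482626688772956250224571191278914030447009321197349576762714631607234669470216390614870105638076369080613102273831400219254463626209638766972859123839239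461695669025639888584798932242876009390140413046818397053417596445832138091851493090276641710580221314958136085266921972389473357769379425540615880928236596393191534818487473508316593629323821527817269694003490046634653055317831448257018650877076985529082961989541325094608926276730248223134767299784766975759241589243653663018743884524076840825136864346206122859925454966683174198041884787660728349184129549481611734093637830640210661722908314262567477149961032375977546848069238172320199276354108738094782811573532635735710878689671661830117053608743883496306663132777424340441736781726083225996159222237151797454054707480041052651641828709903608297290852989067246761496527894956380419513933694769704184873068551465423709909893133520950020920733557454424988824439749840838253235271050822457931999769973127827137858657988812044770662398928393595563046088091457462635903648267770037550579647455054631944125407011033139196061851462287391954932554352605844010862168903094322462011577118877057190482737543191808843997876491203413465363242753557109037509327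914567876416917720927541931230302677846768207255820093886418581035342593375204323407459066762950425089003882936164801706256811625131884436456033535370697534398192070268104790150687090886104901829126696189146984502945157309206348519893901317319346159965059613429246635033017359918260120678755503984327457679662478250936238443096750826584205044067932291656028429122498148337389846315833257925447659857240861159052701560551191919536488716309591111600888288529366415141974242945496770018867156840432798657585990877690648530417673260918178723902775758597345756518297394945125599343010925729497504524641120914067648973687388084757346628283990047874053637113161039509597160677275959221569061017242440481989939469077599297533297116005839153865353441868683389199596398140138704992821913128705362222632968955083287757255301655380376566999956586455252645988779933532373466838167941376507867434156028789887790610950574358839654507274246676012607952285105374096348593746350581435931022119585681497063079424963115965375087684272187563889182109417464528334011242546223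775528175311823371532872768625938262935201341560318035453053965727194842436154273191174626300484522417949238570985584141341650499896666215578862875127624133923579245842077736961001708621803562138069846303754009207072918873915003908440764436539493377228205153367754606920051607902170623966571184100548122709774322737340152971779430468881842241088893081971477964043743133485467313163027261150280412434707254359817137079759759593595983446642481488284570739784869622343636765055020767930604237460217956614001434500973705064231151417389636735002207657762584932400061316274132131350189784175190842603825353483995944227502532365017928578033447599414842134726706019423106543087418349320569500180845242498372535775072724217740072965027869615820117782235274095113032327514200770959851470105641078892791958588103221465650441941343119863587890328726265390861166203232713755966002938451479229487645911509486252139307406407618396412330863866038528751472457179907493013042967414125602036326516659967702207511835248486119545264176548506738415183110037244331634485055517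544919247232554692538259001517916738473634348720063679818902913892411929502138545781419104346427304300105095930724302841087373999113031097419603586506635385990085623675222806499916396171313689779021814028743563180600233609815714455322766109522794660360023355890163569180436084179027131229159755578562694702457960360247028589659177008063853820979074948620507033776281350944785332345134720698540389171121086164539345223985144915652260715578381845261472881995257517183839503222335897925392342091062987008667435581749427091126838906102720427011490985334813999074687079779327421730693553855990553798316328805820230317709860470586454537763639334490573824658414153669397948703544498249823440697099486769669119800344970165405656971239373894344267994759962532795789326582440992637340745121254714542426960812290934602580332464515352762868575826871616828530727932845631574092548983130533024725202172225974923887897511027317931655732017752713702683437483198694312826914207238383385656440754846111658752477398347581769229925991149980361719973027267163016802225586627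684715244229552948608317255547278652668719739156523477911950809436667396348811108372818859612826004401849717352051540750995531381254930234463756251049637013262090987894349040038806245013289914703231672946459539709754778220815404401311726578900311081857320639710839169392355508336613586274708142568758568213236473864935547799883606685500570113681406586579532860560346341999617220151702970428742769627822883741466106467164506323736526420566657710445777274315810744486279508564628620748738639878251899594645668973523226524141640307368777146579382635826007788550266678398038699086958028410700467014003625420491458762338562814658522287120670149396465638054045023452876757866466801022604215497412059111728913606968148126928256411390164869583114358016500963147283975335809671269458673036380818495164556119781931395238978781011790020887965381452779956880191854913510310591201205042614851551386870598449769414392864538383797386951466676178572319437989450992960967340136392780510963596282286881485187690087145508887645097929884248746629985747130060881889983712046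446419631712872334692339585108017228732637388561559522643799259587560192264246420976642958151083109484348868914879214695054481889434870893895922051094362057765516839295605003363096090396889877720499319298762607967759675714902801675083889041261376473918340555470506145801032873510791463887636101696987933413717525638909230798500181145201818508211728718740185771791552002231973029683033932003255009390880868690754182035786848900845466588553693007455484714094673609820957858717722315080492881379788229080732033840250591468293959274281690843498356579550977998106567295598659356029856085980976469687947487772058801352793634888034661226462732373704254026272730284677781887267235947441058121268329982485506324640845530164006113008922681266828880312138440878754943162102884201484810961706461393400435611817949967471548913485679300087677910054739696768910008841533287026420543676322820190088238423499601808411204879722148376801832760091811062804624161870363221397569364005575495655744480877931014576032675056715624571132942412333072603589374756440669027916727950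793977911177789002591574843390503127789969161290901546602109735575781215440070567184997496407409236875994745080544992586956288342612206613121464268327831488597551612526636878396218778730533838928229959935211930695462595157827626775406546290212916010251288379257423495192706472272754933991426951386839079716952688781408693938404310748505485829865191222561121868417508811605632934743005041902423580289436004785987988734879981868111940978690774018043981668418765683896460411077088326020773172124672197377976876629548448289370484035112219373086858527890458115282488676911399774695002248011637306345462415456786258049002675863337084258176161842463480855321750379023486143848239321347585149318206301181591125930225353068401581075816635396558115095931125234925354966776972370797504660905235611978504030257582893358076106171607352742963590314119591045096030153524906775486916647742463282629164792077886994229477739657449936938903446381113717432297237483815339961033898551882124686100939686067849998874646367276856577769825269089714509966014665497932376882612319577658271750436499846328285577638669976165918848612284671215469989692702720)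

noncomputable def rc23 : Nat := (nat_lit 39420386758555598367540221694535622135095052234342038258877914153186474419042725300284201394388544951530284047810392414994203872225633807430589144251814020617741969548795378997971161928721743149481268726748601255412767392995641170469953165115967004900400940973442087566665232215984989514548513758224116082323793081037633535615788412349116354894107960980501037858733510142212341406235367443412445082491937348404290769698513999993911296404961299781739234234370360001964524554477113078923662781482694474289545429158419857913608029761946769000421031203052946196901737786546631547995287482369830627775125865679364044238558331908361763324517570525249187971928398583567677363615971533794328129419016304702298677960857979962160560901076211596249809096354984414386326138399894985595242925798282235612938605929367545563296204810363707135435901584692634554589088965271343676716908616437953318310674191563130335204219697673579342379154656607109398605277998831459812548187698474624046593797523304029975673050147319366610290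283689000889621475848771280148882220367013473585391981629856859047493839655769424278819412737601752417334745286390985956410123140435482525868253487321077113800876204389711233197171117388094496268995683313135502260535381841490444064814028531145334397169225667970309517210774450303126100311408216772516024867361318058845553844343529217067620554234393624530399130224069358164852314505479891442310250535426834862058355967572083453777660748202622613063208835013487917845716782681111410487654158110649864216084710771368282233824575156945229995988591827857150343864323094625579738177641159044869883639985617699724508997885709102517290646675606400919642148753796938844418535684040072137784406261869793058777087124569038917846153830943823809640058641833295766710351178230703698060280041460212578452104794997339482335674310811135252806603290803910339928065619737329797127376852120679234945776450128730193027596978840754581314118811779885866868899530763491432285697885317489320934766407624745869699754806128617359774347799010391157396586699425865581610223457327505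048600595082801798905461036099678253601361848758510900092813684951847090967598550149323957973106669159958114853090852215473900718550745199655110421597770587097951641718403342392155084042597606497294072250449300206034708905055639491783415566748030518783711741225680100758124304028124032606117704849452539315183185480462275398999234994529471061098963301300031529884789665978031560557443200538016450145428154786589930044478114194730018846345135067089603165006526092807803150954121102443525039172065910357642204365516261941424409380382459174967865266333503132240683745146155570706292969272199624214293269861769496379872770660349493635191752363601294096489566874851338836343437225919576736312136061206273945656346355568434148308227589923590509011881729336854041223027397146721655034428109914448980734168673302025593484350071189849267055003674447320606159838820155685213636615835247535211837012950625905937772363487391392028186334747466824717919944925679860661112778634411782248582077232546631863888533280353389973075193191538919793738584135769930108966229700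705472042593788564998601992251535817334457358305700870874238382727779939495368685682668920585602553905053689313184367378952909157321615758539613368223028752872605034706792073296061252898895432810380108125697560557496858956801068156391410385066953863598714576795214643377335647332516939705830502100131218283601250032533829689906609155036071545754310904967839641772259919208497917422404501295385955277573618528862154079713258307598557627126549230380717215396125611874345548454612906858196636875677155447204913522469830908642716646787848542650564174938471630484947011100493176813411032722143948211116056637328458928511774950019682651241312120153052296201973001239650285211504011384321203798358690441912063513696250035432462700605588161859483240475257061073299879674788920943439910389720605456950056908756692367981676704044215106335004499081290967266652428030770381268810700077847762038192832466652586662028143722845238203702542360197467174160220406996615887693509699512231699233078167940644585084369458636471354677924818885566899406485705266643808071798474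120776105601269749058633414430643234020565976214914989807293170049669868986437358182470247054767980683607643789839863094507842721418013122848099382618609272928329297708061303518149492691582483388806969630137380161962291993043584594364723901766322516016037361899576568060647617752978827855642230225047329265580313493063187512941430998834032512170776811330340945904192716706582472772307705937791177410784066072606913835505422299100938537970417351932642821667687875545520451274625207403739624125221257389000805533177167990160338044717071101701542509879250046329514113447624474303622751702435446964884776077573254396151005649947084282589376732141854582360065210041772740084282725255626958968054253850499520360753754635580813753736183005440452840827159371264576104024448414145289070332139620291137311312039624838663302843284254030149231771089724843835906167453284299702309543047361999476307520953635763890460081229496718197015187213965026580890518624595189548632804116981206421485768140775776466533404326009757321879040409947640581719858744437819345677742477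746787043337068359259601828730555391168468623157207638249869280985477139295164946880242091671854627249341402978012339263418091354891302029627176693097986663317009330621531819522463936280601320075075797168803863610491836872505989769301098110672523379506282895585661276122451182650360128279777453955763996391596605921117700709508058141105123285729595860456556836280007768171446202209702141110476682588526642682975483075100942821645502029199793068450318161184849686753757991943688343553669323068943471608933723483003787798823056677052992882102568915715328656823860777268321500470115063385292283187146354588591368638703849530887720079983307562686751166151270166474750937998021844556938510008571866849463650202080472702101884830313482128442819797722926996449743126441951691325547672913933968094028722171616768627643789844468446208937307408446793726009189122380267876933160471185588299144010725756266484775288969602371750954916218367123266272607238250530526079422275134911716789874808352950981103207251021687714656349150166716993778098495343649514060943346338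165163383392440906925560527489833683838304107999864014489485320590046542000159576036497318586285006786513953155498943552103408455997928103368938378743355268368293976742236485540632840806083805543362824607219001154793130250491562749380492949799422521021968223699325898057884094308233780709709113509395496053248414358257297176373039099716196401615264006265491796906089138322228714119885231790916616185974898975198846354604113135039776243330102631712738094465687664154572039924265457281671591559231769030656025612873924692764895137058206131527548633613643494802667172126850692722738353889097614191172541875387221189596234484701675233568212316337817174724955807889868549484638573553322469211860472013369693435950541916017370919185700142188536603720255166220169607029013810849621394205915417958868051967659802157317088994503906715409874666731702494015322896076120274177562913809056901669700172628886120361851233575858621185094405807981966345184067812277760786847259143116909354580638162278150285833593503115103954448476400409576824780709015349332502044081938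901209377312705647842294864111384117737377261451882003563326380463089076521102073122625030310695700196350459885803946427443797490129501160018260529351942128996692864335909901472295709140128610682924923335549435604512267933862179303288324127182459766222755882662706594056711288714759136242499498144981282601843766185927147696137395417946549556011554838401389770238722373668322571133739648664473838966866122771526934885774511580151119799061907201855885455699479839218461894876215833763110216920442906678743678601651359739128108481398650114483011044100149759026008649235269748025490582881264684469477511069693967989084578544984625059257107829949993777843739143582618217567219277275763658031424555760492196072746588913386680069648823535030984746520921884336307738218329723720229547666116968977847221507323185808279317805575125338224588426163819608537098522985737226977763849237622515923498336451322924997425363784239808617163493921966766301427308781122741510167508703241530709555000028444980677314453090428597603337920844595954014500998799384737621531232532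750602594167929609939556798020977720000820438067693142475104804097247441612356189970583539670881772821758549919432963947086784246849187454840121096487838317079637530968363774138652508677293692358419518422120158319746462496417097217676564018652410092309600325472628549610457922758180899715739563733440593611199208093921950770763390515688499574839803075620897638377973380591907746370142738430679951592847727929658839709453386927672296635398323737910415990678269102812264074794234609618105684850185492731030582677352701778390400793081018368242395069361652903296741661832905905156984611634437721736677048027998397795502427175816123955851580696123188900065861189181354786411443917201024164370945524971712427169287590358160583207831379520610569101212454389489157682550297438429746720925937886200564471356659113537072249992934264099591702529189704573614324020875205944088734427261188808982687864439075516729725762971600754984669309952366453006713342062513330756791909716178413271465639591214003857122025336141169743733306085458453826814377670352763517172943590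174614880045445359597012362951246894080664446320552657900931280952978000715353947452634512653618656712033661968177162784039835100928850629073930699156627632271787877368235932419753473611280172169546312475477875065744648617731254902596082348278912171080994520082544070682989226624944263129669725489870198534852509500989735037742991068639645245450717733486508287242003466517408989682136084920722912421912442396598898255912726845289815545522428284894520631680982242409678187857923001918137262986143058242594564882263979873013511084819166083965125085062333951316847133501520248363276412599143461423781346749970583408988013964317539455893724774468016790030795720991915443128825689638454854406309182078640856973494815446996447462074574403720876663377970961327825342665645547212146743840608084780035786644258253787423965201767888513536766427145450177429344168659767548147481301692038995823554519432630291746877864823874136679177694391410121574271588653970262333557175534208549751406845869977787249574276794690587324855649742483560518891491519738563076027145121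709716773411406346569804722785393134706790981233922569399422398008551075769131023397881065049076537410200511610940609311493535132744166709052698417881180275199281816945765697230289348162657192557402979036072608711205905269119976720643120476568249279219179294607260982106656717531204768506185100687019386380477107065489457486482677075916209519965440661027030008250680553101719602090734951602689787926024135844982817246053119812330458692352091302325924663569969223372520769851614042243567022992226009468396340902478104498962656243071050120818583940969282335901581387799181959166733613804078287654544608608728838305368348198190127116349110906611221135335980941536033991054741312724421749638962641698364444960413263344880224660527940880397797447157255961037149813012455130926250209975009762014626417263822981139455390641548304139083824504312062848049350126698272849555965920835039899672565757234576520735186036179116025165955175350112785612614521134395079301831301178436203624306631054626597399653421987389977954622142129743310278609521196583989114144848946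913611600239320060564717586729195370054414612567178210842950790557017853908281732277942480323162151559653213755083227902257139517901935917686434066961670367624992379354525364073958008447224235501666438549153322922594582856670815547480834902464467365783984597829110987533971608493617202559129684479162602828583364575229503316039222072696434626659291384758608403980106085459220857284212828347328182571814048658877020402797614317953549957741175098128708758057753288709720568469154599787415753674107341214128390747147092445844756725855178826346693818495484492702603703479582918816135951801481602579736053813302449045471744387748538728893888607774397029305584917912178541207605616858414521602823230004578770059776205438935646830885897124730252196616726346169108639430026976680317003082919994170852062812712626559163231667628719218558334867660792258142104582138408472568307271220657804035746991313870067773207161115675964239020766727661640818737292536450954936675687530845003322334835445108855888301510618173285295524269761008328151495085891667848750950682100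754341108543536298684409043835740852019639574200086785617075370479545597782227680841084787959465455821102972204933954834982315323396946147735648084553916514030183338573146592518003630554151615625346634897282829521815762503700116240299881797007457255320299300694705860203183792001140378955865059868118283649862223865000881593284555615566865737654325220116748326398569595103351126522413834187981565153690881217082583533612097189939704335096695883213140311495459267775801879067585781553738712583197628791518265849708803649334465690470085882160908597168547533441978869212539912147946946436242333469209380836309837209841141428909954685098807646782146759038549513605867074120514743795695243894408729226043548503583152727768144674793194606059224965096639691724539857217087869701397626434451294888236313752678237056784290424943098958499163687480151904706507382576961401664228001958684674636536757665786219673166674864965081634611686133617517809508018499510625243082899337938243364783246930120017873441953040639507625553419668283200477588454425761654140242709053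234699718059276175850755370360855621171678390749114938698481473363211430395225340418770793088349740380936976193673051735138781451961857663222974339034798486411891279862650192253037460065742397922533449836463062271816681427753012943991624802497271879891097276079506408891757717419136523650705414711864524425966416806044326400231596486063035276058531222310826224203367926644511207776837670041599490800815321491147185521461248426514268109284487173330365161822023366733520502271591271693193081862283851347920906014772153097896746771184228010082557828243714481714020518092411168569626930453429633702010715058407222412909396779645680604800263204710327468697009439036929985637812658313708312783478250762996780039141831056097378775109340983017932342572316917522672775956020741220113214305039922452291782284417076903654823896617250105159873440434039425017377716505880124483384824450281480122451190191035832248633784865556104276002287858798398945704310087054757301852211798038260328611395001026106836649752891213207689714664551589356242048951361205215643670283178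450062172868662238575275748845225107551521936051977096068396808739194293120258130625752805515919573522170333603805021206098048465398325934216901574063302279193608270192952267323494701763275192233951995395787142167919202525224347147997887284634434801470980642684100115739606779440592291590042201909392401537700589901122498462289040773872502330715929585480214043823879773396087537742736814628613160310827525099046578564743891108437318805092793053906407198093881286975332306400535872845078684362819973274208340105113711826140256541151228927252317711958095510698453777275618499554637037391746216120632055105290280520948900710324031832552649948727185745609616621000942461079055099521482313848806841785361770614706054312140686039950034411806577126782682835057552843359603122230622211168429344513911100513435379477301183456644874803742283166158819799161626140451113369216925243231770532549773968174008455531767634163127628927283184027593571147987143344789511682413726620434491207691046503711900634538505491113939584033114017331330473176596699737735030611387760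960413744460537767582575665773802986066644635823981410764105765632976284812397982395778097245235935092230028949577257857298662784002082847377226666214269806620783449127966597971575249090884177513992556654138604337999094322426157806041090130440509130916803213257722689224644936742149368524427384911318290292312293332377081452518948585450382572155231299005952465909855648853671038474061177428001182301529094192245442600809478734547611941762893531921914513583659992325498356805168509959755038139692967074232164400749732288743177615436580942762115153632445743064767437395639456871171670893542543551210307146141386548248839493220087940371383533413661364608430524945670719990193388814050051348148759186869057778848710127642565492834867696528147695046130646882608499179710122570354174041491624374208851763394319091077537559434202767893735325424230428491592266855991750728291311112611896792732361576737537516706328673163999775934888780736193991648189309032984195488482157934629150882383276512750235295712009156807971375690903121117321747900732645485114265520599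659218803171725263519531055847553438887572078474141050251414843508558154326071770362173381554023787212343295515302181400084270939883095150703957720827729799949216171523599016116393567601463731982135909656445203725916517114597228579985656213545576880053561542951846865019700757009555366064559293327092460689430813783494932747733697655753907942006929631338267563556044929390506955650071205308824655797341155417542161014527787394593211854205951320953680063138252574160532884196958795750146657788556585838872408333870749430226065811913581434651266299661652435427996928096025679116649303443347740943503587511078789180544936590244500923845212227319208778077297708254185220895707328563541616737026502288570226690270150575560812523932306498544462207794225699715893848768612616213326346691644839237385582145456857306268452795321820722261640196330282707739406012787342975512882747014234583503018284668894416493423773292507860670332574895226758296069557710197225607966333638819023600174347541852602933121943030160733023981991219180920828214968756631152138193463006665729119361342538558514725344734499526533666527759315503117369579485003776)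

noncomputable def rc24 : Nat := (nat_lit 39451502235503504000161467474664261439513459793322391033085593492252167796964268448729206932905358077107544078747659231544396929685474217632456866701772736642711982166647602921401774091739617934625496316887034727024876365563164255380705090769875311742462426143094361384587471278485697185064073062800964915419299496443704083279116559285455875916089122624222717401919243362053637375392277116740547053249637469215735279491693981573024119488799810606466322301309505467704135797257450214354451976418316326565731422870275579381504941214045300937116155249611277882437137424175489728198599588900921861622134246924329968525103255375161845952482890008481158054785856567849811677648516242022992467284844327874084345126025416091326904096083672212083883590548143192432622257307601255308476957193008480042787909840914598428465720053571381713924415556672906569876246502611096121147758939498941345900815586954980039241734758475488149973226626993174119705723219079085542049858659421240742768011175360144894792023121198631151597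225078148109133263437237022419838160244464276949426679050759348778188384221786673015476756671041445841527442394605231003665457308723136294733989631790928818251766205074073784533310305909442335905698610564707392589694122507563835825220419193907066066629359782981585592195397490410283015625559887943578118719130472627172673430242177505843173709097594395776764626883765566119419261183492584367380045350758961881470539065617037353874420313056682996969252196722218518380406795100592237849126496519480258984728129923778984059886737698847183374269416258521331484397204079090598657213093685077568361839257370939711932386089783749199607095001910107469012253659530698684720888394379926118724472739648898190454253946869858815607628472742998741599751446927527944253703181144532305890113284029625177859438538870415566945415540115125394900238313976514433053862387850093257327765699966706619282158388649292098636349257305689140730559926845171101961934145582171069211899785000170048031231856114180530587240764347392171358842708406447441194083943577719918505466082626349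558662578200096152513190358906919955638495505827539141625766261179050987474104062625993603180667120559534510681209200379711061109039686165698494190454334952527804316171386588830722463024454002535955814902068869585243823128506534013096110907437291051007244925853947055789293310826918792947306684454316843960167140176155410119664640964628983245944280039537220524463951093622312152495712421718697461823134210306103024676245112852424480013453190677449755942119451751670551380179514082000687355116063951115454272432535786880728882196178333331861149901344553582439969381231457160656484821279221278865407386113910468107913826898053576341500345615755621388633039548289919799914508848529808191523139344002649973841851976764366454984283498760649492035734205295927757241118419722582849643563382135600161125341743134671746556264943603862002193991812627250257456381141844191289657854431265358506465702802596230741130605309951556432583285613825714176738398676359424337454347078466341886459548145198667567434132169531316616595271515098762273449244388319810078667130846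154480581474971165006149197299773058001554118420117601830922235566932868693541177199264603327515912115630232819828664096698005564625287551838711203857310929458811948338854107574297510201727920208747079362327107579884522076730900256667635450051471520444415022835821129907442743088474697928859215512077387822013864904135458264606896175203788589343943799208330776118485574245180394378034377520656338040234791148056704727882622664796160623436702258615363090446079646111703946003182943111348018333122211986821124100141586464554633945318369321259273584496092996679349260762925331858961511592643329978724744712628548589796631185322878935917984567444952434231823807370706621497409375159151964958624930165834005272488340982030141038864214577189160025533644200606919590197392786051920308610455814141908714010514450479592984677356959285019553242006447611564214748465795500423999208169137306229950747606137898593664199851797345227074365416592888329190542081019138162552508862743786818498762360966591187906803276179361173524623804680797944793854855566754215975603979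059325380974660006593663617858129456585382819127282354030921521696899417313280522693766198080530953565305357911007452604896803566656936773613458286867652351713246118077135821064323424353061355615995058408977717935629243231715834653256453214242784817761800017033706956095174011264894932455733097996067182211121844370898079876705816847219904032644769690931919910979646212730988985359063926151008597761028495447458810596360184038307596337148975222188770454579475310976324213566333404212040843657172914986381448959559159085211333363469454291078116824968021224017376242969715733267673076758179044674888878146562491624965745213118840589461044865088066506924284431431111905963423602650196160475028210177954156386364520203156202406282111285785231409467211043472176098295438837923557441059782674562805509270205098340790455752631669785916810505775218922597830467628458672886018905557196503018977915106760901639019531296622771148490771881186902934042286919979873717164638826958962250375097900169593602116096053390374583536182538745671518800301030202350373500995091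555468210135583438047843688716343966164749784772458904836372824620679966614822119192045109177483516329214775095870367055757834336376322435414684151460078312390463750001969512750826506703409465442705470259933115927486196629824203853800688996206815777663048849562062465656800135979702428184727118493992333822458122841638543831324898161556184831836041485069549688333440372986413074290516578456478953595113512003365969076936397408149941194146096931291520928120573679882336455266795960690092592014326159055272306972728848625855756319473138924303606693873885943332196871551301454203967798373770074586828726161951075698779325505901356641955129598449112973162686903551366114660039714097063888003290353435472555519672389355406402015524227805257419511156382993776475942751494142986879573617778869315057634273517811250025544253697349122142240872047320003926310732814412439311178834833496349652694374341742226504268828452688633423275274691613197249519917816569052826182365210016104141309370917981907741689681021284566060609493221299073830278477634021405047356876900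128705699538969894098399388050560750587140309365601793580707947648372102080358273081827591499810364818011712735844284256408856856459331935075899272389350347247421159195094692338088128483161054429259274079594111005444997477558762598094060086760049336031359144225492480220294479284957341420324837447149728576351886738630366752263320236325719032132297137031902051667231024881851923207292927581570251419394005635271508483705549288978992535757449829448340351098409156341449369794054249109779626470887984072612376215483481983549571125700134224809110716003082830720342511366457560427711317045033977143508176497204630324806301508197161524657676478752724907204844517363841396682613531453048229313364695763478653436707837107965085210403731568860837251472612317307837095224954537959940133811144381712891559827552787054812119630201037710417204449932548125704419036173413764328785115004815706762364379938408628717520465679355625157681814166475719218004443325034068575523083475464225274895184359602123317454565184433820367941911060367471485013861858195391652141685629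910840591590254653041205659847428202867413928216631041599164843661615753645647574090754303937317054069983116227330275349200168029453938081981544381404432507961661188296673684237706993387444636838964076282472545727308226302492669677139667049195401814357944947478445954634111912452779848034476067669963125619514079367464712292520549133246160669819128940724266479179448007263194129494799196986869227881974144494993555343813984947743534199505676269859752636484737311447497439777271359845952426835978485591624944550398313654515470518852713541968536913477569000247660013112673023770289236760386057429700807745373758987040303635481467148503706202730434617941072285718095733540204390790036758784142739900779205483661632592974027835970770350015590866216253382924234228303689482505948007842263108291455014280323238448831021406639915790653506857548054212788954166688688206450997296078300124437378060049769986372187550856065234554810281691334410584402108645628206034538654279084027314260112687234211539885556547542346245110354662867386764105914870994276205468992115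053348166101106491979496192157988406408881554214028488841471133837844438864262134095920976062807906692589930347106210011001325374352656449432171900584628783801692109687045925806605411416526108187543375762867036870319803413044791957508258901688929322581358129827288142316978146029262136063373774017053797942228958293554151483673726290026518394048727707490627028705769816616231916532840273404296601922716403420430381573508674550743633607741297252846490704217908474266988593044312776718828706558111017134587703711578610999469400947292148057722088058761370380113307934744369244009884410791998724091405324446213885020847759235079318833846005152471351464832721409368400529159907806392082580664905839040964612662741107253202022705566616527904289852681916918406819408762182802353268982860557812433057903162515878475766124973003173475174655737459736419861608504348235688790551235288626630039776174919412204796574120670809559230354674660789220412071880785903823549385329626375028155879783693890583822279207377906130035427479883381546653021880023646784577637302004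150272934296861491912016284364738791507243973076728258959524030942848146170913772410244060935096427323006143421278127029567440835580526824224858509437131305450157398537787448517374414826766021879969462015295380422726240498205928311342043847672789831807628426810465461814841372006431463605986504229859080379597587226744057291156092544593227156269843777278385737832346756452765121853244297647450301200457059112566714959974155301773085031002599816510801415893375479510886897454504134997685212358900440967342091334682389690166926006516227877673947475951258227219130669785273008128958327822838995539534258606416884718362277009901734084148703369746911625207791974137912341671411622211212005376232493995718443265819586036777632012919369546800431042066960165608332026228214948253332003094698982096606273849435980935434463743693441842780664390137495024488538185001699959080848514045721418707743087523981637167646330974671228708880989956490887675809804924730914173513162825756030394236638566210631740539476271322193564191165258632303127186116116132523668457144586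612169953058225023111132447566956823452923873702394267376843367304161625530595131674311067800354337742408219815907598531586011210824311316188136407910412145179988537459788389702843260707233180416039296362933661976650914179016540593771099490190528528621549509141246616925545280517410240218135506007013487994561578392999494674192647921070118603350606302274878490866545313122635093276931331531488071315508624689750118965611832579989094794626328504784113837782159174727722032730246407964825299881490869859782724739725477420131435561339894954534007001839985479100131417593821538865286436089509791077405264667130845853293264675979653135194535632648625508263819428013474132384693637499208677469064266533139568859320683048620972601976542034143529845605249257867946678572107762597461994770678550644081540156539406629569196415621710039251320497426345478599622155576434254053173301076981991378279530117303434367654566089399677533544806867533663512778916649308353549677030234619858694772291681366061724389024846832520765925524400519282034096649995337719122684801141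130762472611193758764886302087187752228776816536267396554081242640958576937798315981108104546112825830150329541049968498974592419832008895179397274156670283914473243439712956940605597412315586041671252829328560518402550310719899491363442959897384939599683088657931824301992271466722190478009551378643329829081908467016223290574252391209783182632708284378302695049901602562387695369194917834758209659361118297486584472324981858090466236405491669300703128009460961491740503042270050298823599908477700938760889849923888227783742789009159750151932927779203390736560845034810573253627110193448195102499272807097739404408621422360190071151241909244014621503357844975963157081937878535027292377373652879984320502989502012923842199346686238630911554086856493072634726809124945168133319762587852189047611888629813766570449034295524320775824992278213147306387125432338173496223793953488354836256883836737123914480813216486525395926153718082066221631098519471568081285145085722945288645436227347204147455814773715866645333680445865298074535753327799125190011763356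064781613815963025514327757631071066851780224792146945516870485009586759977501689156746283061405190588432530558548563748955365873657515991005726152344687188757111935211114376788151281894080321108517925170598080928720775319149749557071046020349498090816135428788376329501306701216465566242321959139152331620513809501211831001871196328513486341717710642173978276666592030653950180653531591220882603537847866988270697193420070122561378691124312742922815527322621703041439407661181431734353786906803830793254268785046304812233380458247557968107791058222682274551492884302801904816055617889702787329089926138493006881205785027654905362187919587622411738917290128831745566199513825771772836378468250214081858869526959886926297592810119433022327633572810081848137260963519915861194547324032458629890730698618056507822665908707585570055409292730522005674975789651173868927258208913756464197158046687655515947707641449045982353472575349388946586405880195304519923597451506358660934027527202828045654797410255705284711435445802461694427819273937182786461003857279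545479260082128908470717721756203386112200534466007447312105411951546464069246514925132435356008915787575121545804340716501111564510955623423768484054193277499724087722564674173605548410911023403127725137865671945280386567374540238226936026742132315937060352786946738580480633570098143583522401113810000187039979210851231109519789818771432532649397139364175854821182060809212424610751880207256200689916282434233894079631775982672701180687970684183776566909192783526204309996083508239441903769520672135499759429851451675215001380364442713458162803462394100606584557180210778913284130517506916733654974642764909186529121855016536648020950564641188252487977784055027852279339644324540476963354258534532636826950520907987532401459713211372036874205814656860507954348680352770261618214130077026696809933149082073530221566050052787372153324238135354389918038877696059306470930224933688213050389064163256480868873225643146645292394394046340838287470637454891054968208156307893778600825289564809947105585579258810066676408331290588726953822368054669311804692992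279601992373089222817433705742655033919671327711561994311657525225176318852324994614870032873131708372880171852053873918626083555516013508749461469744840052987031805402220213986855586238324552255523251349958871010649230058717399970835314526685645839758220713087775928437245224921461511104420038305095441620483138856104050511866251860875164507800994687035770308271591330288141979959399481711247201008128495342696963398879083049604382601680329772665296109974756159469286053177460310508593755904379046390405573748573390357825385733617104568286316903361839794021696539541409381470307993971835183290590710379748808383912295181240647739651495806269696549149323642365067547374313850510104046864060301659652663806831592012161627633360950601786265731367437881676322492676927517233297260836481722643516827860469606291426946394829645193076017844029504260055213243299217563079688340060464169223476516631056378086047919815469276441534092534471199186107629273110647332053282664642800782205396710298814542300617110995242663334653643776465354370826453392006638623789135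188201019636380989789908282309233292548405502299992050143485543503112842300966968391373081114560655773555364956869104196262993186056969392196850360827224596161257850877021518927082202442562086427360336531155934805344101836763208005187151535564546083795912529010072989046125089419192610819783194079047770017756276936070805995413580999626168786200368971338403079783567770241419754314182330699504003938247812089182067298166068798231974878147043164237896306779381387754927083665779142131579676594288086911257518476076041122913138199373985929661612075158814325585563532971692420294824499103739099239997449763255948613210014396599978440117275489216845422812761233435490629616860203234024214942919541144990135601795638464173296178573784490664385577012516337165392429829572839929053928767435927140375896660651006125868423692255255181206021811062134788296500875023375365155825672801745360402065146423884094614529468349927442099753243576554261202801946173359403036281163903293189138126183034362691569116986548058282720531851296256177620140240904794332523051068686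069008450343469640373125182442198273923242903880909153685525833633365298039489953756162424824490595044650753556538427686937163298746127258997090640179494081887969682253704472708289774195851849037404525988998834086613348547090153391423938856240093965722343563640311884098418479600388143030505088124926229275918126047408803566953199234331994010321150090524828378830913271446976081199051187363430370075267708582195953025747562613581304171888649784240885423805424199296808787587625901203862724778941628281074687219917427061137639650598896139517331595467831901720218857038047528329884786189097960871472430328679806166371655560890453515890054799137360012663305397352536735867941293468559772179535661051911783293373488608682101244790613473905647294668949784480857094039188442151110894513358979454718665964663500413148077571551818193042965613362482453854280211776203141384111514733563903717692997554126189034915254150240499645590409339893347788094326261390765667451936813481141086893056488442000989461558744431944418177475371423366985123970856522351449606902133875126984799231131567517634309007383643968428499260191749176037907961479168)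

noncomputable def rc25 : Nat := (nat_lit 39482225251086909673755272849541728805619848302633739624195974058387232222068392226332644548672038782136860843559593845584766036312393581297729673127002039366751011352685484745778655584938276465719295702293714041178742404925117911614228115629533699711899466369541478470107107116511929609993272260798750179131899625477146586318105743149355757910051853240993866139319091667645091689732144657468677612824617108067335615448718810752402121586348085163974362530653570459805891438334140831255783858614778072273884673515642163982377473468847784345451861173914458039459038824804857619464214070819988065775131289250642624497714449280038313679816088061300687368329852614323900286204690396541287800591290707916105701415417441257532922172037531197057198944448463513818463784966045749279749911292931100478630558880925701262390677420404568480630080163421577893019945058243524206107911137103397503648492063990769375624108199220216383146753113289051580499087740955941114961965640985744687780929371780084279078351801609743523795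233563625346190562904100170772126856214427588291356906683852039678753020695644073039983357590960893063844740190858554847671969237714314857493494455625798392480982711770610578625188904348846306024981170020695244860645252442434493341246250392617445100594734025618359463579776043937543085127146380176004176113625412712974228172912683004177204060303517882401803738230682575742578283725776461639690922373736215931040796607494941383970917850470945679493976274174831403626298224464515518556925959871540044968524413343292735926859343380541478724342622939857058130450883953781610844916764630090988305450871714298481975549857247619920195958142284313106628329304674469605684932123970429860444895093739215056008960668664344940000731992057338011911257875159765505257849297244711148707455715021150252570838956972192191748099127293896718180249265554405303308115327361107770436280138152120021388591446939370779076999784300117351825722020389098382585384327702448426947297488047478300785189561810529002124687607041963528188768271132430410653847514822006223603831847856542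499661637443459614649287256456413230961750960238814599859514934331379410052630052938196989364477102421390032796544477879238844190298669430526036796578828479732755560737781257072909442798619704857941654808374517978538311836677843323435818249016370075267152624259512308969333765173883393171478823560872257863917567389013398819261124763615907380633665663845592323344268132399187719015022420706852727757192336194994415559790772066492814568814238326384839785007328514423697698116895394150544510245393250463739717152254000982167229859239324107248886753592571272594587167318010098345488437162374719554044321451107174237657285933087239687436216447983395514717558389770038931181086344822870322136783803515869120754189396353295510426602846570003343012165133097661039736820296589023294010906845538905264360913530952344959373852906356763322098371763233876541249649641457857971130788474550613771959335111241193405718429185381186289865998986034286085598184287913189733386471145029781038920850113808508346186640371361530313902411816107300316711032734861837817931816074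650684048551040780359879109314460837806807318738398731274797726390140149792792009072992812275492510505356534851626159075800455779986631352595034062791356417350938422335996314099291111629784271668409615452784345056246861051363079822197744629983213087807862408657585502248985852714319799084204470145647711924916489712088828338597383414575694764624006675855854639219544451016963808989762451184995926687158248399886101320633215589910262370694095446195973728860577265190342131577971958908879053773190061654062153993345437106641860296259525014633350262493921006332840756012543329504873235259218420544390463716558004001149167548028703380280595103202629160163850874169355909345790127412036419388696594149390814271311446984116200299136162946397109763310865731956665750613357220914524618799482467152914289852034931075539636691734734587330486709515961229033434350566407923611762446376710220878318216564878659362038773717536591536201541858649138350123047644793887667026925519533435255552717046337217836888528926867742782110873121990984070842620025050038819090812678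130458556812305790162373907095751942235791093360258719129488928857216579664448606999634511280755429901578882075065681551675604640136645632245879339119070867779749697888447471368938151466515620913862297490271056085616116527946596416538104907188166643450552307264077638487555910209996886839957125542013226703167708319217944723895534394217804183698419656711672705625437820713767660009928526615506515526948924827093220698290978866982632805742787358228041778261983581424651629373013633490742937531614854993904149633957180288370833201035689808268780850150828412206223462456039674617657377837559787825771036080599777685272200176646565294945850495714926187336752659409936636822846443732917366986225789750541009984432133505532216013127079132763937476227060132385940172933194611053595318905998889929681690567970941540980634189133622171047698894154743959173565332828955421384436076136850809149833353136597445878288425429021387228047351650822906661071915776041828729503317553111537534544926041288493274583588400570371333174671705259421401635980576007287252473625157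847789806292077782658288908411444143899861736902203151367876328499287629570372655885848414947414345875456161185451580813143646983206226775713478910524249773200798892006203828676437741763344440888273310847405717275990419532550831996276082682551462323826974963702226033079782032308315509554862188232246623765466443546112662587435442087213318225446023747990464927964718467885255796042628290233160115552184237746147984984748567278191067810618271067448756627309057026977068319434294425709584391058719661251227553110466127887396564740534165245173298549433426233421440701552181642960690626197841896376087357898451685036735229149063657195394209821664540106456651667311804260154884198142147071129548419858049529835569941587494619814682807750336267206762948190080964707953177456175773550798310258430536790425208761445668435297717750556559931898668268372805789351521658388211041586384935206530951397295013992387906724156431569730535434761565976422376089840904368049673428403302320104545976236947449975098709486960031799458623024275606918270799528629298359453672661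923359052872385341956559727160802207760715677788579106300209406232666339370876221750241207262594358704649634026243057334873654715139507052234089345217419708989224249266266083339299174222559787833154823648479565002507651107289176934836719191894691506071053420837266016174976926517286671696649877949310542778788586221903475255234650721989565936756500140766751978774780670573321075505030302953422030941512597198549575360919678387440533641473232627687233361954932587360073917951125741234581682610970354692165199554380549615006688034083817115602964362915666276617083810051774237860269001092084500944977262643242026079277582041603148535621935112234789897020946176139855303638451384835137800230664613387453609680132133695690785083881750206933156407468242514787240069504231488735986217763777622104561838699811942145192106966766100685430078899067740087157615180408900373497085978953399076492662173351515412755053877879727864511750498265824532274259873686086915480918615135629052699611915058608797788909830494749303504478348445325719343634235640832682737800883654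180312149656489035808526221669129547463322379179531490374564377766497341742175838658610017574097688857162939773306968294657048371887805438437478545337553983040243891927899842376247646632596167928438695315285371859080247367582883555512933386507455223481368874717264474021868133189787088018906602097928534827946510756262652998390189167869530104050146854779434003888347291230973941324527174146642539475235493468217832182153998407429817774713253872061984197675892347599589853975270110360520358383868191692287242087264674136812016447928580045577695768168425918038605856047607929890770874715386189964284624478179095648240581856240375388008311862672436945776200759071261268243677594242452130461082179213606969034823868899714957075491365835305845684145003828753470269000911829132302776461569302007592815573341168462757149920173856837386190206014043184862910564510451774572125653536608125807267246594990295836967980138829456170325274018004022838951130665527275374256458605913313475528457708810886929049309329409407722808358630662892400736546612231219876729550171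674710387429783519158923636876799107157747148657544585391076519630573120628131667111494659616443728448532915592423017311211914457278932796358581628224592178481723991219373291602469893238935375241727471836466630589827105587144805337830008204373971493132646995204148490754311483694642019496033470421471614157483517718101270529991402680367568162863901902285376265210474016767894512568415325666234178155478583949962772705650334146963535116684249944347960859495155675054506375357373021320110499385585716475280983876336686699492007077166917847042125234994587878845616938450584503253462505973222473681524387974218565275562441699456783741716619876646893600423978493014145363821771970225434939929917998066047482907942880844267054239578717691118738992538932054885006630061714178731036740686276514590503369326588947817527840949458397866866153482983621322885021935243727586461439276791683339379494469809482014208740680253848828167380933243508199575746276521134174879290852131763842815826436382389040409670234409542614304993217597856020411081480742419278860374474921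051878483984908175913707281118080953283038104318923717506859173564458755114676951787280592209845783250865450967896955963074904585429179886805763468277950531379968500684001559349353530934626147748984556931530488416726835862901222423150198302778566868792357165792248641839016915906499092080099015130903127973916670083646166030280629624512428662266208522977352891728107961111707966368405407176999437958690345987512538260346605726383137879014595917623909808008684335216100343354916758603760572399551914323263529179310614052980368573402683248002659975078829864421908076225016489137188966990490778075792119936954238629680807393722844790466011676709284237941566811540582185071255318029364268026891096614847631950114319231171853131025103983078680003933076176679547447360111536238889214023742366998907056182005336850694744469749466811897658784473782557807899934976481839167948947693555263100246015732901729604263768075099145392867665827188545233069899598701354110767329739789427372061196368056430871998121739729924406340920675048651461330413843821280957322711937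421388186072316633348154489413054491375719017292586645852421831102469148209574020732039769007329008344024736097429319760008499601361124962760422881604627526388550720619061690896131757850956881118766169332762935433816899549102053655515331568419139776309759628732513386193426052192875085382398044779164219563073030917636987435790564925427290797555937512359320769326401509679329350329661964282662794794824344598280549724810581957525215414449485032099347922083555028413070022456844515866370895928187884290152778224455197115391189045881937634349590105271808765888650101650825244305339199049965511487270857674964979880031075525486387883662584404654863124938334209924244112814768700364054616481270030894496121721741832085824467422139516312004262007563750075017065872690689892862743227921122608084207395867222777666980015673838036107704994381889419593144015347299226463126790141130918167005110130224434582898943703232344802466812975224334212384869499341428004787687328504412492023658116357735114950704629986596881332587235434891277821363178836399554703654860222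485016331543726714937311502817339693088005264937520137556449843734956128200548215273528560435815413475544614083574285722806833182355142631830418691679323885991820598603744135588095383719694818156954314909037177239960922312664164964519395450197712260789053957417961996423425758130628025954461031831477251215428989582698443908134335869245576471702110557210546040763153893884754673503952182081727471397453223067352831089658385046588198812106548968720186214157761946551875496233889308305464231952253757557211959601172359442476942182893433774603126465285720039355074513604540078815268892995142668636569111793826525823845007339974477839297597230715583726901348741553162696243243682601547969045693513034725526578328593702206773125250173282574290659252001535567962614024765002242118934470085909630743221941457821174196926131312925943997735596270037035872011818055771388535091342495531431216690578899802962918446123609493639175461590623782917576160140556825454925063345970577159648447068268043002863927987730079019798291740667973610538446488181332529956647821069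999775787285341957388951538320213763075556694760468095598197253103601139221940728822268904584248162043465543223562674728540407291567644500851507638409673930123847452485967796275624290736146867084770578546832861885131776600240428189637560605456102202829398286595797094411490188157407203528930746635636303221605626914241182937307533014402395003333294302947734344701091821274029180660275667723171655398183651229057886474615758587881778382419929448572898424067499072183676632975878106156473545743520217256688672697513881273533803402417560258686651355031821177955488303701628663487589191671178111505562414037064331971652641224596843519180106852374506336493578553121594245517211984715047691453708435625891961343284247683895871429292308844214716286437720870906351026299188082263971378751889677413712451650740443219615240717177535904003202406611390058814151878585723171264495018304021272887304049878352171251394636057378958877632337433806216937079237227747942713275907626685333046247799558595226152687152106138889742607032479529335227139036258949762890527260568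641500788827555597183166580550472992682022086661024270788194554926387096111547103516301068687053838960314488979261470560459458056155774896243854705480202207041836840819771049278286263462624286922005110566563148013673204843945077457550941553602018598830182122255281087144023787263618998165082988615466702360885676578164564970763443802047411384418927603467345341444191084371007338018994887260133218141779015039969851463660536833584420314722721842288803461447571111031696442398684811331910887583028028355898235957841640610255401089192642383982750867955238013010455972497320265938618091750930743953828574630289977828296570400642745073944572280117147148534095255626287856170882232982091040028541564588071100053187694581424686691917537500784013543604432365785250785190546366420582478235166616249354494735540235273959054232396203092388234560509298872312715155890377774435193843861116557941692313338545403261110835608294606831617695175208656652198025206316582317256386401064339175808315268704084806176943810263304135442179489477356333929349939044170430689565492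702655988375137612640440804596034806617745943300094485677053639980214185490013807579755198892754360405337807268779040884028684204113893811762408949365447698522234836391427362101701623647862653391619651656085814970335800656732656355394020217701238649947642706632098341096685563282472371188787409384838151624572726404660346775041083973976083240285873169479283732153509862701285553556351242932984120885787907599503163832401930755645643858430322975003349474806233697576719493618085624859564421005342004667706004068182222318044701280867774058479304055265757593054692363061523139001603373656459331520715426557874864989148745340718242887168710343332196576256850793147670612957968634051903922199189353535256152197436151846657514544659758637175649780900206603581785714442149740394032489382701718330157226489095390339216535757407748541461378566673597999513098529816297285239091106144837994481057099691973307853137891331330129894249127201275351055653480914589986436034481607971554192935362611903420369758983146092089970347524141921665053374741833890175626482194624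540482620040765891220713902115858665387676491423924835995446722389371309407248804524507189119864196164660375204465547856443115986065509125299972198010290386141299934418603023931046403231365012103940064737178914254736965503270275788171535972397179721383637144538271980443836338663119630874488599186790300387052119397196737248069309866688323392210133587458767359130255444119281318861970922793076535799126890833263016783165423038968925238301770071757956354004805749853450065278946859785668828630126288146683394455500755318287224938962006316833729258696206951820714090666955135673247230427588925113297123759945653851688859028202410632232565378813285653938831879022370126324136050192355215567213517912521886827963058649382985191407680307842231089537618530716713008341102978285489989182742639983952791676047729155179741421249980583540789205999922539649119838165300072695741490638610983913559818803360067814606810032381305775375200916591484206792813392457635817927266693399862547851972615655188691568086722177002037553292219371222060762121123736304646295992716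866249135288739549169044321023047846527729510267220150266128104103331021201834006429027835551723742678660487722834203111889691488477824331005772476107380612167975966050676372644097978483373882744187950550761392997554106266212327395791425742782561353641946336765607084629886471049368092877151940439837151968010846751817589282565024381353665670473652540492856280687445895624144598053442493352958615537253036895432728583473208954277556000618355435583257387272587311164808352031216537103828510516104538541457427249525330348486229967941652820796091518124296881270911211521826600072042447636228468175458682858384735062792018212759184167364284614822304784723952764899057050237295601417600143624272519848370063480577139846086654301952217171079871327585978777773851760788402996253268103159814436906822527412242883704529548059425353480022473194109181489037513885715427133543864688832742405811354058504947682544708742850382961182810519835091317089754187052208393238544695773501767338483734435894508344693671483910542819126610395702972917467772583248275098907032187944290467608560625808274176466306792540181833998834873699391691184341516288)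

noncomputable def rc26 : Nat := (nat_lit 39512558502582906439538812604742741943125254596640381787289725112169175095430756325663073060998880543161123815926936757552617516305864063084154747408795463043658875381443945084277151862859975840619759746203274453243488307406329007683385650003171798070268476071932038821679352425780185896680072120691439431058261886801272787430294680125825589288610297765216328653906688683206508919533330905680257256716036461307835903923373862740663302160757617028890732974472355056345834091120854578912443976886282324278831651888817814402807867368034138205456375410811255108433711506757613495140150671412251421501013666674243275336545984500574445564789832180888170822907646794477765317706111110827681543263455119196572041314591509217398320405705587421356039955090082950190022954491161131276570530433891241395535560127338240822254948789353270234248209025940966016058259938784505068993094068555998526698012170051352503765439489087805133573411866761386734663093733653277727052596144672825345611220714176136086819979471343979007790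383824797298875898245014798784493878499344548892735722531924090914380825381073676636730699848336542014416088016432953045578564667846995322437492715049290672605531452589681842730465101083098845158237986830077225878671669115733966725083261769035434922223439627637437101312699851121874336519992481528933032827168828153557563969044528959025916710142426878660314065242322905389781015923082591951602097261431043516450307885766397434058269771815514023649239682814277058085315841071519372504482724124299490156417912520221206262135549756633982109364462580706792336795772533231985058199636176382235510922749170907731400259049395413195972681611478527644688720855648563402598609038682643103919734555568875856700040408007659232025540029605145313131393558971233219202647119185076811227981065688402739178668797667797141450840445453660815201279091252396866397910481243276584187707387505205915602764825536181789152275171108896780724606457225863390064614098845190432305535353249282310507419665849411053111444900400647617053593615484779798917341875669056954552194382466489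589982274816083191567154817443884707746103453781362183665919278425611574873820697050678580395349378377063652843908669118420901549098121557599555526598186757023773661387692155683986713387154171405939082054916813713792854618861155893210039138224873331616428517013063141204493847882532754171282681720806656702200541483312886750537881875197683761878873842709505773623389676300790725237229933778537742275455440939153069886829648219555995276299043983001661658485792423029841095949994652671822212567701900434889839452656782288391642950963034254890914814853656201487264590445300294354120450782654180808532709881250036835147610273560790027889060849428158002038445942130658265999867874003005152446803205231710228691875757642800518413613000514506260422373676077224424714920922396806598034279186294720207495580370712223503784587257611946850909052499391075888430323730892766147665084165938068414835849375830451561708932598902320040089247974279212679999316519254990334446068559502561427983444394878642202978456981366857517288471569892945517476120304412837489665420574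721478838211475116114901713704396119572422885842495645627879448303568295386293784977242826598720236302161300665704932957613296013686469845138184488619998243729814204653005102136588887149835320541635646030686164207584339659671002867958772557951432288901444833182417919673871800527224355864448658351869276414151635020387781257720671796895117070932842190803070911158457907979947907392488373137180861630724340197602321466878148488179100947878607111918709418115225114359568753157543453311069049993262379729604068214578583647675878985612819993766843705701359677016586595082657513592501625992607664545354217244105111299742705464859022825169264895560567497001672898090956931578836716671499474684645007772205607032395655745950753604612845926873623480767848974191761803828183629671288296721463410939710416913530365062594383363697783679138303818243186041071379423129813217413887173179278747560925164839614149450697578991083010530112671611388793785295415585985343348149743405412766402346122231567223829257333289973297341304947283580273454361186825777138496414717470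512296385222375241226614435174070496677904473107377808514655704176244549626101283760950583805577112508322732768421565883469801606063628781489996880732102658963788458688604106210277846887872903768646484217816460464920897212855832585776186742728857092698291285803165823643111793253077439452974946480546814141671971302809404887009901614291034836501620697603982305048520770209199710535494475571495247715372964587201241166550828639422552431622051199249270299392869772897472364178485058187958716760809762019982235696777053723118996172435393136333572599792927544902747872246423017704363202838269510890532959956672710091155319725234353631977016225092684795998199805247324905196976712559183678603842613744890031838503237802372028475520871443276489765256067489079910015700486412815757260523763155169525609478054707664885274052904944067629383762960477803476122853175905149630503767893305793428883921141439953311803749005868604155888925282592184964431184706079276402392745077664762060566143965385961589526263039041530703063749794244415772003260363197724448888051588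391734552331258969400117463748363130045092602174767221959965660418895341648067842179692033091433650618118733587896612421174188639047838322941869853349158735550358523999261074761948987132052568429612441728302837178815020186827434774040961186965843902424891998649255593473181542888472687267433093505696469316329798968398804477753050731389424252063617891774388049738318814391404498521158432028119699907910571585083928445842183320645973970855060452189563081035225283617547651051557825477875117917121355812546374560539919844315319067610972748387078096714557467735961797607877238170408696004806435265963884410523514146439428495415168854082805846847696307170716446635207383529383025735817540888962597477780165620921900302640429933379442706063513873142012289698219191617858759630765922538670606785424280792649183558945909106628992585721207973408471317892758277953687773399314292218197710209127868344804169871275266568921757860371456184636396254169037306080060443773188966043828901614813033550150971868765411451591607369445801519015707687919478877610002096489838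517014628086798797432423991577740559521073586945305021002765470781680954007046335658380060566438212076094192042212683159939859864233096561125701250146200994119265617664654705917659123013694152804988843571405069026911245843362238057552716792758957797228004278662354450873489583773493793526825456583559250763373888534025788552923343063879703319094374927621048538810332793058926041683628335163182952415860203121671301914362496620742047480221572972129670284824207597618615179206786967565953196222162946920838314948417586892600970868538454260928758143917314019429923005054155840651954618643663810381738353029715884573382881510852142608395471260339669180906454560547963102339183327601895717168786752109258621013818224375509039852956747723363612317081421572430532196845651144765427350599755070917903470096611788675175674073139417301159832218765997846824222589973541548917307604587889348823973166108783754803835699699913327849404477189828116931214858543437426376561777850507959582417281694451857675432366195451072955789743176202632113749719529019170928655100650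174317925256606766424823192170581381292042471712319686704685190685189246321979931450252862240726088877029349763681883026164813680261065066003043176641780125028461016866874636927121447838948687948367759971769527353046064853904229320230863995807532424439530756689026252362940273768613182902575562503397769682309307067248181692798963457717700929471821217616034814988177826775617244346894980825315801815390876079839529073930253402975267961136457612956207615296670948606776192471551918966846505926581192668377074994548351337656179442096935026883491347465590041098375027426963569722538365108851034324174985050328781916085344963576933289633774950961896075570864588988042015328680796889397550438803652332150443090077730976294836301018589779277646165693191081178758170501628560818798174016830945503358835033561702141515358098643348492993507824344623975611976174908445633776025583283323310842648852865120548539163116518606267495534344212094503719383618311450831211465394070900727766667380953880278574860771836482870260628591870029991742083712322327437149443814966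618835759454331218030653487847058697917381793582125202706686580968220481534299330327122053248017374560139917398904804541683150984814975338846061413429542039247856010848589821281822931854161752818544859936410160313453311278065360819733211219608397893236882572275478632563137459389973917624906555240374891877373471730750744467463142444582666391398413225614422127789356429670902600915848713921997653374646254854529064540526973486184823052340325510506520181356546375973478160688683277422534328895265870171671560096761391568860980293884872710464931829059539181094260314908557292631012908791424379167041109055111845999579261655462690027684303781568389240791985161618115717312792670392219739659766114573423731272345693208490242370471727594609736314846380993155951720360016921913708615599589045147166767954010643604031826821252500933954667440458389593104502861496456659763776523167192984624186290218263104476124112181177596529355473084556288945069384106950087585529657117236618448549387591519073986015658276935326569263932081704648799923180513002679770461508218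818112169615916073208850729019495532044590610812819576947545772383606677897052936988401305789287031420141737779584340481145272235961484212323415537366521789075522332231979426181448782400891334998872684968276147057880857496009844079814473969860606645597352643975802051694174107401350496467639794352899066361158484086524986647282762208835924210575121415748956703492206731200380196191234592762111840309599280776095972922645407282190130170292925979590257885872838742555313647599234142437547014479705690082522677105199091614484506429763234589206885213487148266005352599056661088671347767555961761519519689438469545302713111064398698689182693241628081021040413150266000407276450061033349033376955971533167114244932149682364535016002525671212950039609662079845843918016506258467246910003337047545507075123805179375291167937100329349661764983634575844957339319702274970553185653404226721916660536634238233853887373330350791625081707598928688366637400644770886201572213196726329194785966122875711040654993472515091313841563660406111895763436209332116570464330443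834436984013863651480798041503148817389031322962630090709466608070992935312264781185162244063073415858963502962615356406117836895914592336953498182084971758776271728976163653851966744233447527645513069728155170031142932069712468128382255053156554340742816922910712366027853972998925356685126838780201629525735046165762219208426359192903595093979204400843118972168892027148023663124335050596345953913509620807010124101297428304910909975247854630426914878008642596061616624206062096475711249520587680659395599812997977950790628138218952785237475593738729179517935593255135561125822655535968493382962435360886354595143477790850886938249908844975742114898560244286800939846580383154606187649650407737153122303103705824211518480320503976289608842640505902946018098173779580175094652956640165041275954280871733590753523888256992803567954777289556026065999470733910096337355763339413354085940186375096738762243532029010085901913796289290569109274739758821896749214451542575429965673045425719552558209381386026167520772780140261005130147229386327244155372482731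025912677365310410446710740018725327201762203090994702195199661163247692407261987367552466950146553141791669496691382714847259860279708052901001926863973393766842500771043837677377679351190177010819420806681160255727997524490057532678530785535403777113922211161929463798070310142513616589073977878598131302668647094153216713888443365114380957949001971074802069686253238001157669117140513580067447102890559076320785727674129224831225903531587399086589143917373653541942735097570558859499006131192960980663969930094936767791569294519204545751590226150590870726874629412209843886385745360933096767645935640182160566499917294354259981887520245075158832779496279845535652393933353846640978432817672817606467100028826461805608775083166711992904184986567761440210761386960788319118781739488984880076331460992529384662974786397831320214001439807209558291514387484258879685358832395216441659871450541626145837220255742678317157497492780736706712444210669715259583144753971514834019073601882564030250713704115990463763707291609248146347298159695136374263243030609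728264724861250685084740196474281062345597616477762401124934019246354813742695803271324197069912644973504371730051074729958575381516076569296438170079304555037932323555683465809704618538028450383526377275591009567251961741631428157112025728963229998554883777367132691319811520295931777216519874778529616861353450559357271327466205582441770124133990809582046967506939130713042046300459618858910833745118387502586315721008374650376762603470284396643248533554690836244948935081835373654234936825821442254783727260612572172955001270281270342907638573254447643609457675411272132644209163745999022849205664794683663669012611328290540500489702233160275855436616111068096734889403017922131796822074100351335934820100788811299347406663650793655874480529763960964197299600207869952448648755906470056338461860207370076542241680940005046208839831878312622530558922722424606583472838700940246735683373928984245929978617104810270298568338724177915520675187081675003518390341968051534082719515988923268690107600616960996723646917798987154201392388718444648362370479670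618725253923289239159581336220301703570329031833703749724063451591234878802380832200233896571317770725700522281492703766395039588684770484750238350286840489292496682915035572414936149542560723821377420186778578262938298507963529645718406557166197528125441083336319491626565155459190856755300290944397908198684774253795222047146751140145811916105740482345753528722515583675686998046943758883549979852572461776499358529224776045982138228223487061353887449546577927532391093275369671146739792254456928945534977996350813925733018667354296593735762274147614402102034783981816403453075722215716282011381681226582036003343186278492689132299026587737158200271907610426418865235466937203878486027109288647190629304772440981175073241608583690630665420437424106929934208357452275454273297549194815968788197477219541921153862610356260177775779529122157978166081546224183184041785825088889740433176497471634941931603331327008676120177010669752572216285127297914795037486809834103721884139545260139156761909312439893750832400132254573948890024768048710707550358062082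739389899124934528184478895665862406078544996383631135134712169530640608185281940614737309419613938400594750378531744078195470889323369370846289837810208571015276655445353149637183439596438717899678616427583485903560680668099112261450098755276467656380569904663310105159835868020512612588708773382329497327394276713552451602760425948294449478548762460096902536679826236903180034825618951494294595218832427041167442097392422509929275930408999558855408329646490873063152394741526519912772791894776857270060641572275851240683796818722717185041454012463520390571910431674464020135974151368287810037292906850748217304756775582126457611248289893684840750943155009199763346692544992142884880562093475581783018533248496204220084106267134203850495437666488965548467947967321630322197082155401100823621751889637058804620979286694299220925535908380622302583321114882309640575814353318266194215069914187002866069993999412496954446366315044450772163091106955319105287488857178015620625561816925948865420690911707140345559088648127407307595672956024775608580287016117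370650828380725433253041288822612996380731278221493364785001750515788632175090803771807891421735555047654211838536801042311998695566585565760229020672643195414845070314819784490456516959464524455777956023275172621567892058119434200387758253903789484910020256649172039520771232681470678915048673962529629996155513067281133666407760841201635727824044911301125889295122973470261839775438584984977692204603363404758877406548653239132033693817075352832675308827090065333018960719251611807479823662799597061908079205215589944550557223863295554305564722445735297472705968936687823862859210401610101511373352501250405954096729585605232537156573117344725641602795599679068935631111079142834817811273276803594644398735223775729160711576800901949141941918381895437169224542834532707499090044480658838536090131781700892130642864826660822328082686856398948982417894162106459492998840576776749965289115617646316628879014776072128352556837071714291493675046489615970960952776323519236976768085281081939293890141061517698170498885965746409820815463875361965458150445274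726996744102013861544647542952184154218466861161252420546743475052733635518465500110039916460853687275511550097754988072609041306834870830998730290117511886836522599429723893926530283234494243978421069103236646438131929504316390783028372329546674898158092985797282650893068704212601396308297277587329169632586699528989853787421812940351675231955209531851958309869435072875150232734199167647234316166455770965081661672079181874873769065191554433670046344723644856035622970731239464409443515657142686823475553253924925636920605377686110003103113098507786250927184618869456489071414189073586038501488721193522699754096620201108545722225090101276946581641372031548084706296818050595999431009429656000754242412383601147016309268171975703462632108578942168596380654546673648683837783304959730817993458180922602103817428445624124480612764707390766432780904706033620455402916678806952390491690222064045862320723805237687840230367534590940928238076405929140974001123276956737722814517595975358878011516461943823564479328823550130360479397903173101551959284612936230252848014714688707033778462051634786040684128733023093648084624224550912)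

noncomputable def rc27 : Nat := (nat_lit 39542506975923668920685252408454105082585940213344609473870134484777134055554567496554742174946794625949035560803117370696009684586565548719994867353281861483312406487798413502523444658444139671881222965244032939835329046645881901468838955999810162068505853554431171096058928388356337849093940405288424336616233762456160323021971464103084764906382076698399743062056705913345786693571752009595882207078670370001603807595885718740573734410958360956564468275443175977469583900833592520984798133480705680945935532645754760036158161364454422549507368396622068114356195459364099101148945595627262189456243981521529124825080072357006588226554589808217513669473129837821007360179350963822335964815864461659187644051080628082712343620409288984965239813203231546109987292620701596829162664393104774861496130408160803489683282734580468561160376483439500947221618948597237663548446694866000174910697492957866391354176744313261126544756212032732345091524303479157572136832788573655079237450674525376018222029559645488124645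521756325598668469146633941797395929989384865514663502745462374138287688966164086829899808612499432710411582337364633029840862558903998035740227283748584378017205398935950991480107980521864111761302906626260667558111643214732946934187241240720410051278431644144567817995519200878485958459206667534995965945624710863406928397832270170994069652567385318398827802562230658962660189532268162903593772627706136663509061681278740447972553112581844732491740611028877335919795380579625071950161461957263853464230936678294223011415712331719244104594690696909039513713193383475906633254763447018281235618088449175118751933256373096502894512083696804670108440351240222872929554102168222759903640912713312521373632188258957589203189483609308436194508077151141433569087952812731519775309646513445035154444995971129060482660580075985468923742251423354320034738253042699603575548792011084206745504653971672566895586892151462826932538669047977020843965365023329994494623399710316216769174734211608617797159432222032570752101283876460068871170153456437024703626202213964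464861611304297368572063615477495117671310357067334580203185300958674394173910240210625856284823375365727426121862379612420782747829212166307423452401490446621316153174587003037638815129928868116907456470108842190303938567817259283644880007077237558318056979865388055175548087447302793931383815193786229169891759977409356649338358299160696840966692042872677263384629895303686938534111320415073661134001869226486428583922578663060435373185879395657707648646379155436813416321313009835157219753035654683533469989476122834691459416668661196956139359009891953178959844494706183491247817309351474850714455233318740054049793228319511758700061600564419369961203678769788357698292779099822484509359070169682136081262044221370867737329579850737543029694451667747746277258448061893064999324576181918481076731027005732047629876328897497824839140713255579367015341071086855121728554882550543772430518408674209058891167171187512030142418224291148566803566410983617352017819516252499297523634515961831005520619966830122058680647161593608652983127194809618064079538452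500491665848119142822697500026861737465429339868204807337146631122790969097374729093578972714901344707074989927777266821765625498343343272106490326485345101626104951381881380991629668033267577339820932428138241674265726086401797026149363425807522043780258253576277411689234664988909957623609758887751462642891372014750028210706382330779574855815323052464962445309199961784877530209847149193450923543107508576502272822717374969096458757258492445191703678502123407800038952134704897503568408033740535971116312890483159490901952272918984582362292251930820816367427852951908983789167111229701287694368300765794076329568930837023159686456805294637133602094751185035033130184025215491223835091281490686798604050341042883372796220295047234310064814944709409485810910409351099486788393481747866249615819388467701382107708406502351471143302159879529011151780691214544002012555724444092983087206495059407859707368382689504841601838861385283155665752708428884428274592865768843403094188010099142621519731407114521514003980084012050509237290366970864469951691267670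066634390462961567210870947785330480007610518857270484801603027251538452952102589525290735965346047935306869663773511928009016505781843673532684460541306287272686849565157849986769833276485553616299217517270832309687722298749135839225879754938701353099238645600057501324250531119543791758242482217533201186600425733058333900912462545803158890263229481123648669400674484387057530973128849361859686214070410742896360136798415742491145855538148870244823478993692129366136958396434552697924383622952160166221167243851837829237310386818908801209422185144470586428314860401686716134377367571159575188738712999258523581464760683786546801249802552398401807971591850477226083132511296704156670695695148508543869761960189274290796638163702411444691566056604664833300137614961366412687772402554893144768909172530597756880146866741471026611539202891575728743359427867922134885509074768516721420607933587806666684295251411937602729861615371577426782126330827311809308494329604931071341964895128628796460694416713025858094336145933581730404773810692205736141894101480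429284163396902558507119808676197859094035203664996405956813208244390011282294003609422128927869907027498993450480816885919072286119366242423293953092667973612824642675379706965655768704959666282561386680395306700462337317023264679888928427508475195384821279319646289020948457153942093185917133440819430479837112184632916014403622374175266432429566402155821709678614170464752883960981193210661378296716244849701914907576435365084734077886409795062433317417518163769535432403100060316758754937581986607576421263482339491101268280570199403932875703362985907570491934589645513824976403702302549833318162321787611859258006152875625218223750998894448569416781933685304257356959235487930558643576209030986182779181425978941996410606845933007530533522498913293271989955566602405721314034403719884726159334354747301903984061105818836156209543661827185645075723754563914649981393255434916515307196715505536873639556724890078636168757363564425822027686271053471202072963462121743121457786314699620468740933861898418304574766679111943820906038383283492518402834008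233431638113014814705947340732412147765752499384047783756465281924194270636691475990946012852471060359424238865239921319001506963867593307243824275244996231495108975204868723247099377116195286647805281654716858177427152929717805609893171587453720486020887596675154129473298727143010071172793774740767043373170954548630679494237043098944729617062180226471168005252086459923607605328258097906522393975440963737043905475356446972590878832666995442826152111627402550294826920805516415541476410529218007473628035365389813564800109902936094025609960889252657832682160926928591715649890069543239945841435994840356790983881723632392903819801600905873183797858360672277290156747070420833544307158652255815225931979468410181716609274118084578021063714311435048396833064364379436059324232805867208862195585667669003760785738815064875372730056769391262792444232929959066962333620513105443504898156208614853276280778183823304842007210983094800950127034734325779484043536044497230144829199332911982588125394604771476530071238648708252001558660491914782919374755768284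459282437826524198306028945955973214954862295260537008409241964817718276222132635569303297937278445598454712954065138722799754223131461960534330289461010100707437999290820231526303421698248563163527263865840947326355072129614698335215833568539037922060631009687294545192667386396976323602516769815083897141495276392684117821315609116634053202600256200794465044719024741354431762264397793212801535512922883153942674924589502683249438851109358924032819879272431887921540812780965749332495595143980035579575974844318172696069195193916652937594604833199466070281473979620357465108901992144498657574311171120747769584842034046425967149487272371494953981297231982889857469003555290539009783287122759045534780505538417865192774769624584188279477829345986761245795688414571586455557516058854812837024687081796087903413458761123147535519854567074446825804723663926546208498837483016239751331484216386117115418225785053641832576128394633205611196142391435667712644784154706805620229666720987575997655746736771562189038505695671027863078971102689796747361373769536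282498629079610298910401747227714417606311572094543969534112958465807577689444256676448813261922230124779003611285639240892647131908569874569837831076465766772293286569080906498404816053530513860498885541016450946482834938095304982886843022433569446934786127217354268958119201651410979901520766572812935556104187628828944355348771366320806155085164268023346787856204186810691025253923415744012986439440817790306553563683329682460945946282551711897101168702632860445188530746177351635815038361748585547513001480814303997198561434381085958071196435606780496973314930337309821799639335367036902345988731843392610785301489762015794923969913404872723833225383799595031206289988510567278175168843006248047171525852032124141462654505987926015569281231989869591259755641985258731530493618464223342573257267036697058225987511050769281174632061560004614589315735785619591671772410641742087820717917585837595383930730559781407682917932119434895512142880357807932013007446719687513881782960124102891555369409105279928996646458175953608389375648699485164636590258076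075434032418511723595872565761469369005232179811413253450827726503059801940484329041342983757200491155388565375345971895856104939548068135513345683530341628298639434431724153921787980652493478675303201312211285998754492640847534937695367388144605207640382677209533957724164129646381039097043726655718999516854180359001435173674633719252313164796135883476310045281450576532180437119883774527442369346270101096013576110117128183362360539366974449717063474441381529345403611847215122438611630986516561279738627814854807942576794802678807567342054712783402814543426639065484565613178302786722234417276371004289413335661638821468279015223684943574194279343871531583665158158863956565290924670553979749212489318633176437821561536692515928402083234461267658098111712349993136265276868185925986685373096576773452244230477918366772169048101027436422399711007835772355474930690855993635287859501140421209559793390654326539878489640626086532981223751333557776886997542512033651032405748631255549053918295767775415559680347362671295213639619159471075852050969295704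184700096737292190554169322957355396045216023022512789321419707417467421288326355414232258710746392301875429931247567598741738371690352289777985963882767189631627726230870372151441171884844379225374366876893835572982661314974694089714799340881278283268301807375501448480519899683840339340386248186372093903951250318326923060319919929148901311087316299307546299460987144426837068117159640553569317156610086495401781261745006572362515155491129806378525242202926638340905517290222488584101663088923347840898337935980952381022067544349221371231258696265711558111034041954243628417810927040399244203674312359605294446848572092346732363676990513896280140058106662668566936304431649785315338115589712608421775905864214475179278546909771693879350514457429805592699348403021879442960851769270015105450706661407933421486147110131523419510456534895609975182919687192467885909294964371635169410625376059491060724543663025444736425875393289289356395264280375626644508224561972859461431641589568672108237473325559412772378116040781296676400725883975151795909053020851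747349678586238020563063824214679791010099952097877480907371880388116183240268413014123491655500743684870282721029489787679588090053704106644195301373024508035117168464732812289049392911616780599090782608566821791919625289520710099627081759595248775139651101801438536784392655589244217967471550357738038203418445115601055216228567364638143333427446559560017336492245253812871317750807006253907279058997554254513881641933990313982238132233328223599267067232032246518545751923943275681453537072852130402785586605471022004469406202359019525012047646815696238918918197764441596759156508498182111569288503151353624904385912925248368559598996583959942319153009663920125874019959130192771489455926582548598893024497348088720417102502162208027766624239931578530177716856908770375462103276197951173291905759397544444133895003458703962122802757705341591094238817735839585251061512964499505046587277727535474026413202696006685350617471402872601446827570615682295257579554313334317082328413996720873181597244193164096643458800098900451584087571458707608346118908745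734958275183724408763674399666862665567298761713475890236070344537768454384000899083223067743945895880082755879346336290819088800733536537006769973611348761758617075518817563767139514289213753366405048568085917909906606921606889232730990649114064425415778388506334361579618930449748442034151324567700619217862179124325003052141622984279934741642898478705470622493993440850020259048509424424670864388681264444787291140844716635075600526336635429485663901553763991826094206087283565660600205434183917021033435157422039743346373285199419487431834973886985273826915366889110583250280190986127271854160679665948333090583878481203424328069409369008038946256840677894158334167524534724471169329201829641361496173897095063165381324251912408417722515313112915838579002713732130801261814176546211049592533240080514936341112138299700532273422242638475038218419365422474542295069580081291988792414898705192801268570635124740089254192768688912511201493455377258010916892220998279301247882253211313721296435052968633725473379907601735507726330795572875215019945778440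499426595247062113307908919741489819845846826079367068279771001208938035006826690345452189674178107000420940062207888070033538489783075236600099799830672014791217174453557531309228692656808404280192181936324645239608891938951839159746957786507570543563705198994919245116714070063819487270509064144545207119906527062157909043990341891213418662934423620352852277911346313906981348510143282052609524899066063164683596552460722851275727624125473163557263517239748783601846890751336281154504442121721257863257892426770000508278180754596591691849137424935503162735538619292060829374012584813393184558611644139021961452309352366398449681437064800088775021403952987780162008706825109339125090049376382694191162461835948720080842459413103133795541011905395455386174965805253481095886959331665354794972935900997753532932281483788533343910796311678829071700476508845019136995477339005322240310354270667913182337566409067773530936468659840083259664234297266575247747007911748528241563206133476932142261758537783776300350051166458085557226903196542808191657464769805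218498527728392909457835300481809094414339179066961136465939274856491745263843391401559656376031190865154120614688874602194910597227382767913321699800799162049563958865759162364259622412978236817400435533452700674037042594422817673185926499397436624757916004437790410198500543541544363506881613757939575812821850822753377032031107064293819527598411930100822647204317315605000687838929930601087527839413743434467476201474897579184463266929276701672851919337288821141414485911913014354557382906653641503057682962446983994361811651379617352666549176891630118802503818978211950891503919138596645682968026273410720521795072266824116951959126170606398352754805097993895646751881462099157783933685415150087125053346471576229073249172549435715106870093324305003801182774898203058526746320057932849939241218777797750587832403161057150058475725350490243283558643853877272864699025409035424428327249888857193965531217411884850043971545239270978700607662334681358945041535241109577103590290569109028605026940321330585477270786410620896777963563790328133729553707061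317032145315659520442826290767005554052289555787349593414279100941044393325607958229134143390063021673069770621258032387309167226219168078396512540056351442390367559452746041790037868535951480835221481628918523073568331626203384673841070968511677302514330779789813844715806374854626620964012286655153450526350820869902635589332782312734432521216266919540502388695963041467222297649995627170641059756269320854149812969475707503459323932178912231650643650908219415985427527681937670845720945282180020708573352311384529539258225736071934479643359115792006876167343188889213184092223859133335759356479484426574241934976219687455527976728763791766213755359538425068155067185376710961645683545396536022418979949372707560589818266068028665262014693744627199935910416804493989475624455736525120007015180060079214336311467233729628288830200168926835575849228657147276273074669901870373126988049629751762266878371807768374120982945697438297131358438542483470010941574266934314813940749470386435636055138601312024986368190455231966656622340186088160179935357271863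359091968697832709349527057197206784312574068498307803860265207355950916399431247357960932395804974995272218142467006602607765753771449816834346212193427810183151868925028028856501222141665588885201979039045199001794140556718350215814882905173777614821681463681911585743853796153765308009076554987947344838926430445378753369878291426284498678989007633124020156234982701612014931727931211777491776105441122479490545249722306986920540269870659954896603235085676759928138111077805126318885683623757356720111880411014957244857041536016048052636805261310366716356042901446769983336056240984445045422636326870514708755934471969449856801871953825336257969130221694568702484674054211495903918469159660068564851484693982702911531114472014814577955610557487348676915703690751092430663280641487248416866374593145953097100372795774309144779194289930213557236846873612871593536232767788174869765031481275622241047705229316869733217518391986741313648771815970154891883383948729213040590916298458098266424625137292376974687380056329201821015121706744703421094610313345832284781372090030560993952659457244473102810323550651452141346086103023616)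

noncomputable def rc28 : Nat := (nat_lit 39572075750082882320133411861237756626109524574795744824416810699522159100251012572983406029734258254564530639440102108965783349675736411498805973102873852694819971835145804329083313956415731300388201797183973089068515276746294029160265324909726116671302098386964793575122763807679160548771571273468863794058282566001370472772986049387179842276736012973298106586100664091198421536690047931587527857247069281144581282820785210166256531744321290811048326855626758338808348885143248348940747897756189822899166972895092070939726095614214098734917327725177199210934244069862957954380831796632321056046290227609334402285160596735172363818503691451769223136348194420687434717742219519998346170891657636562161766476998490856494727065587088399338998777080818700849701285378666489743364394590059778784594787445338330692397874716120023813492267913140294034674586781785902339199588857013942398484300981332805664212934080754914359364444005157167844874177132191219651034264852291921931157226688285079167914803609594785309978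156423989651428938950116380477475380103823794577809445672844029567543512911969800896021679626834985903028105683904450708827882268976343286209156401033151280971275772708213664737640690516868492995856346106515788396397116663396361428714332890915191099216637781447240805557527607514964167033662811714620059592944969857919413262517163132409673626606448800594016115186510283735489779589519320679694241653848970929191328247095765867018909626512374158538592334742728400146863912084064893582992862874876203376278943986916111118182989212757782553384864084475428464202554357773918793707331606312015491657786244932592644092899670073421470336239978122179088655409914552470223723399952062922723797462515885886322853746711212264954023321634294434780793261804299704967408917140103884855140658188968665731603368215753237474085757095019781121436913754345875110729231470369495332459039366961284533823644894614794964069878237026821447422864623413472463477817641239129519936675850844910274302186122915964848677561350773243145907165364295250093716310006346913178160354075178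989890087394115037383324594147423570676339444351868861386920980989521345492182967439093949000105881332349355002423446639555144478946728331538216239411691684477224324178545640726570987332912301777645213350932154552514644602777341742974150856649677199172904809005616748650158600449178121474042495914799316463774029455076614802314061621412651550362789052662098839118292920076698319213502647739699373231756277058615287811210653165001989123669611149778267876548200339941990915983021157352796880901199320017834057606340409454467261579974349645219195689153425218625999998653571375077442914236340418488170344915243045857943910436287927638105729918278807435248667394190496369573365871213570978650027781863822864435737354511883017888239454609297361432960140575742801461000937504252156449094743465146184784517013413365852596542284472407266209217279960021911657600892013088518302153091069087679052044058145674413573570185774673105385725914808710604020371340652751576270762927598204822637929213464365380438856362996191260021690088571310139673616690595654757810472611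282150252501875026935604481546776208658622717939553023812642360603643772805588667280620487368377719330762466257347833895751803658397053803932300106527223927239071281602994136380772065003201905621773353802066610826485660641374526379817684939649001703826654947913257495450552200021193370468923900758572071554696641904145240799707523969216867374268912421499457466598363802160259925375317674413689035412736263213226542574543925929170954102017279243818884586112095739353533741945006287491191580634242512612941340322631413512129023976733306471832260082635641485579757212065389593622348522911065635059345428722056613496130039248116831482337806216663810635277937979826691407894330948192904907354010070921712739357292205467430458179956000410488456009083872313037284608603003875540407499025683866158078330230283713116341533530470999714370437625579564579069744535760487537853655196712286539029902947079004698108918932639599834378836316219871441627187475028086255899216761589486869426998426542632598836888638871792825436836456835022953328792250480842199339747279502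047507253734675440473631206325797759103758185639978271519716919978871091925927022607472206766112520331172779887262855934046756976989737032262343848885353705806256005382934899334017692964137722525740258653820782507860471076184159871248085585124779151132872733812540287174183356489462964710543930416556305121443275266623234899450475162221261452918191914908880732516187489711843427165735041358131076847991597177729688495130186482708083822372556197904851182689854962576046557957227575561447164900368840987482568793441515284548145299084430894260798436964408706439528453470124508121334276565625514081261537076119773376224329080876945228792139928927511676926001655756541518887867502458301528562632647082200891871206429702868474011175566943184490182673397162597466857284661798634860243184012525697559016469416863883848933034868155058394639173785759369250078249241067510832214123951722660090104865755244225776390443544607194266710960272178568169874978100012076232071205918685053715692406325175518086992157985905642634441354429193630920285960604717960531789980905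298466147954044938643411278592136054684149472673329506542242956389231098546228509611151102049894782387462686626698442192618739925392026043295889302051440383329753803912012620607661955311455716981297683249909646524380896402600605924277615320091331522603637274563148076148252552292596643991378874927839888728927193696265765754359877630414266043752911215065933497609940632462051227713209142701140777921948482798792277053340245803574777449703344463385674355703214956928363653684262884796495565362739240724808787922266024627448238818193915695195041703433246209861285403631747070062579737356185314001389198496439495955857057587774074594562459344985225495555490004459672479991951690965038190099294021064566283157302960449766574244524424731440499806648592151661100287195222254277801545499956709657113355331666637731442607934654409129997898807405751542462958074923402296343574923666942277376893148475434641112019528842445259906992821687320439483553458707772560378784441669078630705823997594275416454630567279861661123581919444271115789571463034253314651406383960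962847115152831674098232177007987463322136533173446505367736547910211770801172569864782535914338423590431246969078447251071706404713404002417056990945908684978228156340613089395337483124495594575452895569942659127127964064586455582120429915350746807810593271041114366111136001143124743809410304119829444878601344771477758051371356826608519776986204543585333689846995377682786725494363686397587664730857563088265247698358953197694600160295259993429824500274713255268391586607727597273143616126118340139687987599262678931518038138047910813182726831548760142714156132398970425438691326192563686488865271511974869709021641826111446066758570159290803614301321428419233082120119349638785729998449025911070361470739162123275874564475552413386341350021543229912394538993444186829715160503152723440381968616463770108022572042288109162514528200721358917330043955484746289453494750756142189525328862153668500014212665988901506884677321932546956923972316279816355968901676906134548756202270192348237625250627902098558468016487410846995962048240708991536990385883246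076136732826638876441133316882103982741020968934920894231057468316874338485414238901247787680424992470265591158033186841887918714272610792314405152132572957533340301357558815858309361230712163449512799092849986129205777286063128944736694728826887200878602640243597268738989697884788576379030493174248976785860133048345290805735700194849558074803025537146004436058281357984317233644931401312058421852267392694841613928090146371539926703934180513751328918939751323496837894773256446299770601317814177163640607814592488693363541872297302160733176914738194125097862581107162262304589794800539009168473887713726664768851838711404210779375723966030723417856861229531888354961872999064098324591837098269380646318695762594836435862970645447737363130500212499865141262993972753625267845495063524123216746506175217522011419176355546992852187674727718838127634519382095097156239094592119514293155912158993504432069316316453097608643236385900520566585086420159824554244535063109277053231772244354009043627013893244692721022168322322976419907599113235325402336345251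667757112876606966238645373982677998535961919537606407302148655252277210663691752682435763833941260166136626314154343657624259106370239360125274899583254122858576544320216878947219842562725649088255994454892500741564690067951861654397830138545004916830911994357188608175155789687697592749963785320261067674217595244823246647852951182959502563276906655127504929737114264576408448882600978025971286483702924839309150024184794737519317560852985149472159214024022974735774996278803502474059804141563310991997291863134932446662462926714131969615268607239393831206182677629901029154887669808014758352277435789386432575639770652929907198406922694458453645040808656708831614420147620366048488476665825841074739725599672299723337758451719691419808053158631564417810152593311537649916710199270841951138728676698704223330242920974089417888505617504843330360831380894737204967248544054799829372591681032789502189808816785426316193350795883075872185195566098600878750515702626050701070848138015289246593959414001307602384703201529318737823074447005318314764077800801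213533325166647239117560636183045620537046536511985129533009175722807512806974393742530052909531060887536804604823706165571602360053347622816910144634415606121723529744356618082362460003094154565116831101963606013579902194915917442314908159644248754661590155154060387721975698261431628608751714431306489278894446305670644028431928853097823521665745595216356275211222402558422432076386196168360074073470584418544922187256312775159478177353076702075057945991015133027280552323208668949996319325086340591331037689430899073276761053148396009414780546087524535715479810401239980514532994655060520137129242176524677097659216261673005465673598005803813816851665601412644867371584978762683112196736092456448320670680323088854619049513186436576257629230316520752747382165038250066924275173488450121346058393657187529821107157032379651455941732746503620787391982537869023109557170628857300501031613844792044888800698482764788836830954126934640885192291042577404623942464968144741810072083728633906175348278466947929542581835803492995317446878737688536474370615593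318603751066497026938112743223157836372605137564196748878484883051907714983092931499191895887042797871205731213605299549706863795080784914701602882781101764984066518945915192119871294965685046276796502940312369918665308120153655130344868170070280074870637857633251831058255844681622273176658411045628176795543103057059964957114416572465039160000115748147988740550046920459844047284324793567955301942309193130416459812998578280246055514783956033664400002662209976263111353054513956152792320048630924346703861136072951746100035535130922324447508026839603342203008922712645737688666759134072653494240119720487870343603957601774446009856079917038578687399961094712861990034958492400070246893030893130477222059145734918372781286765588050437317482921960814719689499989670630623751519584551943945907647700770157353244363776153276159405706534014162608229553975359920317069949703282269225988616642816561090689429089220719697142283708026240540552536826453927807677679050302405841420481014987164137477047396566986410523300625582019075655569596559199947023584189747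113697952426395641823088890637959925853044698959103528630793722205702563656427570756980765490257038415884889075377442666281914387046565559526654247722884112524050035819590027663785805743271583630313951668057319438495347312548483150703668496654512980662529696219065065476948392563196035976492999366874625399470816992269262908783017684997164306060791840412143021590719963606111594919082483365381256450398109367892608834200225281310656862481555746802238062073130246059861531346680253224490405003403839165551524806058448912757676114437898951042649105242259173057179464981546556395357433113732402288405934400560312754912670056721088878508828048186762797436787418327544078719427364340515022636851677722363287903638044602923325510595146009924757382883591368677904571852457474829197855253987744700645581592151805778041625236564308527017525711163800878511589267201066138907849521129719931646062782430872245232742347868222562083212980661508087949883609352571714875788859248165936345348688804705609469644684371112239763187921152355371278353515458303502822267755518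348136775464468664323221169006803785961434928899143292079542335219705305857465900923230279892208892101779738322472796138635023762897886894835513007615960276911731883685713859341516092754003837180829428011296833235772838252338941522023060259679837137889326820775141509371262516868733458810672462258741101084671829844119616322692276548754881330858524675428828563383132886325490551551270281016070119604215437574546666387433965910756003312709842484610366612792796335306676315155031552519814780734011170096250801715214366032605887431393500432923592244486923041745466592669677063401825610789435415778079780318508948221765475852378036168626201151015293009032650912903697873968647553381399880052328645482143522474211787403969929379081185802877603345175046862793538740564182440095246576908640183130371218839296325574631098998248175032956225561627042504158667433327456387683587047067897561627747326960633960722019950604067031971797052163974487392391844711866044674681093650126593127233628971298382087889365374300010043856629974376082508685540158111020257461354609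843314384877587584858862157741122480310483365606110912106014824097436956387012876183925816882120789899931693711066220994448549735017265776710187768674984128523351880205994927887454080519143076168794080351148378805972437633428090632171406814823626351899504594170592584075117378502919826208447280476572307985597221167696569654571079848539665562406538511287991484424363898008802196268990634293932125595003178473059009642856939342659747582694177895388174518061856981068828029408183604629998777272529855684156209555578181435595584221863407709425394356016830506958365100465957019619331257526060863984875830753593161092126659111986643205463349201033915951747900163133677589656527724776067753333365614446667772164417625073842525033528826968956091427109458862606276823180799809199562162733794670866719937694451937961371193709998308124582525937152214793215956743124676124822316984832886259129748897825997086389263000018618781704267402976618855069109687925077580684194841328866119127911574755657050375957465428790069324631720563659694564584627296052668163508026830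125850139970489932764018937362185418193382041349547503330090312739678127535375359822324746977891216479357941189859016167299685900588884933283140030619115504338884233133128171410254531972460787743960638382710496327561214139974150477853783628719740058359875337272122771052506966596826144113814670546262597760059455402221677406902554858147043681838275173994667144626309377163626005130519411876769788449410123053861962109706341298038914541378900786308992983878489132769259347749841107492661321166957845219697592536583073922143264463527975034210150919753682952852150594460069499285035640624748705278502117059478980271716968639584364634960622948905750209501291275236666988859019439365553502451332454281200907064820760218795555503795873318765506618517805851756242868377443363524562906875425078973483762082577092134531930942780461563042469225772071976141990597238399790291423808538522474760479342686972488254441194470921069354845875417543937275394144003751625934578404345442553406164160449320885293024917234058391484121781732785224858030545250171245742679279018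933990562023558816999160621083589251262406575457706182021502934268092808453826304952674572330179667332121414018862906694973025673347092154063343866745342089544032389700238503782051248237160851643480056255862999980157686572855280779164985610022778497981148016277705632481130313648107264197478531521486981606302919243955334608782320835180342032572558904497364524349342542228137518214056408163593878427303500129668825951585583972311020001935195304460658111602445020265894749323796112394541050621954140346219843592407343658924907362750438907031382334096997087968735974660284261427903635173388158954310519861244891747425467999653254077721151246204845922936025490994677031878609040168677938542537810046757183908587273920225030220178429755712817490465763740663196445006746126596532298332825425722914412012678180168162447044503476418953786918317138277854901138638645424509677298645862099423319673951466221744313828450556291652432183055183651335319285767814241302344800453424141241879406119194431950495640699996683201196736140581281482118987539241314668647405187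173944148843243027532368073950992795196666760397525379680995320155864657034254597168593265865042858702091938824988632196406866434014100494064250232812670421387673011844086237973251298883476677242018471348624604049512952871210618187357239559250919621694892901320755052575123665237159370237013094423958889880938576576614025049006545172003191038799857421093352719899775680213635427015923812801703579577015413573091477492076806579641216645115074719924480211802668731445685856676461859252853745986821445699135998776868241556874737387832878759534538538658886862086097891180574964612789865690326305312237711672876818411921379512691407053732856124982452527428124732462893994127363141397275999879654067028400103716189795013578153306634358708160491162902303249955805484881314502371591763360837668065563497568871817498329774560694253795759488868691422602505856679634535364812960565920068776183945632537493614324041863573041752503247658498404928888006686098959701094551138462495569051845273898667658858071317221855575591378810443590345234799400239938824627131428741027469621224383611578180290199805989554918684865529989594241254858292199424)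

noncomputable def rc29 : Nat := (nat_lit 39601268938823666848466690807928568624743997021611047475226649287318024229290340472213585150380020343770819389642046314203389407020744938525930830447299878094488953713706246481052353199531630273188077081107779077197678986813378712981614151495144180744878662556423536871738072334770527704981687338842913916948680671212174008238366900196642860281980446377344602656131420263175745829350237655564514882954464055469475249697638301712172868201201770546977333716639409685854179023167285257032058161169279547400858895533370854240748707937373991106992484173770042412110636014446629761932737625249141042330948029342202152115263951746862820200895538041089686298387797121006293519175561388599174014087185971017798508360686384625789517413460117785023654977726914473545039486150098654636156562665032889795268384124628578354804787336905566055186884901004257268974498889028310450430370439158590112762832359552393768112628433015064053137600613019165870503844980257156399441119614275994063068750632607277017840282843365239028164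810678267298421996919482650210424189308560587873656266010255132285024549426521596599222226446845637285764546319066755506737827447259504662121516789705162212763038565351871995181099243428630918498665492505911021319382313078305189662417039317628388827085947333619736375158533754026896675926819040048389071900879569366437332231672280611079198169273075740649499330380687218367376596505807768976015141333671795704641259089708638447464498681485229533926558914234903629738500061137050774149045849791133941892980091850735736821180254686720493198580885367158704525876468170638162191572078805359003170528752180766254027504770685566159770690012134849578687206325221512573609019170065744523049974082500228629779981477547406188982215783265188824972551389389618074007566749461759310215502244114425765124559917725856746722348061369884887341103784039910674113593003860435976689160493863751521206592052640628830726755133400539500845205841944716938086321085289341307258366598057668804059108930332692287981691818977067003898059708313783429113753941236097048163907318860300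263672979768424346456565812788457780899014109799638538396930435739831111665654859879671190207970500069846552221627429252227190363753064750280498226985325107078163501816186417955318305117407880204359942202875461494640353186730678899735304159920705776988054618837693781938616384734649695102976465751026988481007346016222150599788979039875980774376566465319970554482192009038285848566415560838483735882188228588941535835986149911374212941644839365932740257767324650839172280507255673917707323988057467757353164462492575017361075561347462371657673261164583249941976150615679891414957209921908177227291050269979486371418701802997331928396932776352056786461308030041527095708303371495161456790393756148803384071715185363037121328430193534552863034963927441076861918544748864964751425913193952616158405990621345723609717559446306295630930063717339985772902299054881909908718118814134022598283300934161402949352775013826179721394868763168588974299117941288255498203936035679187050320533113115321247615271710487795843522242590034200786711133348781922595824587836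144571647179583003410912215832004951761346893064622480175444179634715850595177819521101145209412254909638701263432017069204039993686972666936075713880412552843200351599740860608269045990587347803999961003594085379589575141808943179798412635186441675774787758398948907415748481669234821842181890652771470840754186654463155328939086871181810310383168879978624724616528376725877918603186671103309269112496447723936422133949648017281115233040818093910599172166009304059172215136220295681409703369184310013562650153974652481521644448046658320969029260702941325405326695780470711332492977035910921812875159530718810309040293706170843272747776093342072587559725789671346683218315248588100323549233105043195258015476627404897630747570477015136688912647193208737863039259087391698960836716008616135188988130014129857994344119719303077548371249758487334168268023893032972800554511150220369378978504702795998622176694329469627219129125362471443960240551549363239555700794770766702618826179015283365013861892558409435861285789657937771980948587429561109014600184402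427532321321405177960005647718836305593071965896529534984191270989603859753179117873025796380266609892299369480982890724742837095818706798751026423225985847266089104755429174139623148137552912956342197096710245128824266188444933152479799426942676265994024284083541043256371164254723257790201978918020116792379221075391345888555758733949469850515220980340786382892640108590428173254899437401611813243642844285284267952321461554299886497727158498569974248258296567167760514914627270883563876344167366023168911807942691376992340525950153922081078786083026088252583490132231789330528275938983143432273957248966390073786457235836474448100756140543720361730745721029399724241860544982449857144816143216139159390607046964562624825229083971248860449905817761167153364005855867965560985117773650369456536794855672139152281164981814575569898780444177148718673775074805483270838458395138620363760911314668342338377392239549098112263844218904220198191798200254882156617761785675733514139838043915681188563558147490250066329596221164092726930785176108926760345595808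714728702400369038973091560357219904632914775452315297065339265977448840490847155493603897880555417553982752325344162296137537153901819956198724090679404097767796126844543476580525331141160893333194542054663520292304738004658832357358688158800071480375683944870837564907204001220721129537505424191503103206208874480480272229846528664703009156184195342997086394633438213905402922450730501341443671549384142393664887620593381758915052458981485271952001552956007855201194912746060993163730693190274188238935285076755440090783193697111381565712999188238357904470421382803804232828095686719055592916185243591117973826362625069961221223961515439816754131130956522367822895429095667816995624791428974982292505440327497196185677471964425443115256070004053049579529663629959201072246257991162916140950189393294399778804152978664690264918078370072068476642674389795903133739239514826344121037049843964286654211632452642115300053428710316073705393406859873794718646555174619542456287773417974996382588021166751504283906285657104122106682812990054094625304000918259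577930286984353385969465392754634954699744391419298796591396352187342885717306008523098909483329391525572899666698774008268066568161372937708253969863312601914812478202078429066607874111653995439183419939044172740506698357116719064800405369059163234540874854646481711276909590294826383779270058350204728073755476100279437269745923286295056671486442525887092706117768792870487195240628073412260991194434256844387906655200276342391457222169869053602211703430151274344061908165055853053375367054370290080627208215701279783677929803741807875667030108746980009004736158817067175707494896676120123151385206335079537755671862431711165477468616968524357770738767778682371248734811654525147433152260762273602706767545348591250501405180687287120781204091727285527225777904563334835650734575920610175344032034998632215048119269845464631414800800751577609137322334370632440553239885450216349311689290098204827093682861956606705184548155340267416520137856814070138549621647189714546381108574257206706082986352443809950553121048561403495518691447245558115753246494600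148124214223398932274140511043118272330350040800402970078726792655397330150124284669086380926386916649705175873643538340908862702712284199109916867393340469896770877060228494534782855727063596701503895447920204159730174868527127485208345729626810214914185747019814314633735342777325563142040386483839796477943481036814940994143999983320037820729890814295698661563597713544708213357638531797007708279820309105547008182589086256071257436362563754638513982523861559596970718053892949176254507415869828473290543942778121502656059271150340618640076974180286076503411770059385676981571422674748550362618999947884068600913640553210897221833524951428535807709750191366940537131560146669075079522946242077882207709879842773385253702081578186917526058275124079623862885245810828138101457717300470891103200930476693348671656540143386207106485767511175190083881812293540185731405646331148869867104604401300330713568787377854153518612030619928193490421079671612013737522322411126201543969686673417657328318266523060662723377827691965337803553481167559570292949595322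543685266372739535487453558730687906929095983499675447263005526380735778621501872621603187720504323906295380026728516530275643792917343710042281531046577763174399621521863100969859711302677415183393726783430353607876631199427395587659554782277002927191001446628913825690580588227800957751193367438845859322854757540053477956984306909732162124544140517031994829066162173574931298151406364468890606237479015161986425826013353124409609529321833847453810479727375273895988970484490554507887102083826758820135045941110754800733327276585102067272363593554065634956615826131142469969998338869286336880248490925285413076784624591211278832216253924928457608741857203534700611802266275399027683754301624174743258164129767782496549781132539742458037680835011540515796785301758916537951548477339498344422721015280286093377959679495925020408278296010201063648575525106803366605371635865664273170021987667802262001428113412343811876522674669948100047331438942681886908736178584018847231065873930982254216993300136956449451830660936655022851543268806482108052097503838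082578696851353054507283234089270078408000812577079974829834249022780212381285839941636510489815332461720975270461361845019362721123203566272532746500647898294785776992958212792822387983440526720835086000364012806916301081902345477353034662269864380835273278125489115016359220767073659723391792789296980156147476770401444734282952027977604157535349592604815090632803502809160594433089230477009689169885959853905277829158877460721665640856740076907852185254345304103243690207572754896396863530828725799224035353711609607323807032144564915695356828175264973552419032960715846113486708394746376162690388482523444551043648424201978227262952061111633096922254532375476440374301601248418429814319818885207500858410996795223899476606011807426947031689478915740479947666404056777689426174991305761016273682713369883516967269860790720617191959204151244652190755629810133635667652201952722051437505972900492950720241106350349291010297465600116428247965752427889568804493763445708846404946665271618158247412490048023232930134836100468544572427062042762442709640793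183391096933707743371188354406757716085412732242749133766349855410732122754460979366883394612402353555259301815852150840508877582596887072046211110671709533018542502330226616676765800513274902278357119661662486759622263273520100865818813412001776558219740339356624041539835435244173296025625598123411159329249111478726975261472790709742411897699399876472973611381700596493372740976356013894196079389220254218279137167074608899319133642099008334517937787171420483437586076849610131766118576900453888272335860008238347741332421286758541373374874006767619954746316354941168837937224149231683004952363145241367280394224923936558965457145391097391433791453634209335140538752432972668070656526592620926290126890930105182437315384710727272279844195098928770799608633983847433930788805377833705005742338906074229432841553657659968609335251835433739846504716083095935372661679035843808203252161248532680439917475134234523842112615611127835641235034383434390912407026405926098537588389620181738772995558726723354283585778917013445663104830087799236344754094285531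356001455537898354598866744049957024493351062603121646857667784536882228706506548689930871581834781479770476776258104262662922372414384345453898788367097323192821583761202521378921996630510312615725234374994074202820646304916220923366745080712664294630926925322422753223316223056961779172075275874488748444265675436213287437423721685174865808496736890606725142900545193559872324988395378480869935527570851652760473269288199279795151787280099974448850847315779735741008840431635049707973056165930354244642519381619581445606142975705153880911790972217636382407106322987144546361962181312534805260798103773281698908841633948294007722781076563230594742298528249203684445808073664504736961159622699189149049055085204543421421218201621615752404595108239881149950033142276674822684554364357256402584325704671935883583191695284895337665298155472223173213271847496286879150776607288010272721022213717145775073500344344936423049900772871797138344713572349937488290093010906061306582581085537138428709557807252897695514462846212535168050170137268342056003037728012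937233452916953027311492564729180298422039055449336513179046026007225946121087469219001090504209998446263804986168396211834681814561354029993891281487416594979288589678278571267746186560988818810612928385025160733154026678856775966440280430554307421597458219252209615893369758340009937275163824102747002183543606152237392928158583198802910734196520367395357546263829545642198152212640382317076652273978532007833200188014514854676905972772959026322187888777803813735176037441594323570983031499060190300276873507477088219704924081670955933181324227247748992340097581533644983615417690960005446763788368544142588819576799429631311898267897860585515054039780880936514172763245885261548353737931529910888526374358079818574514759512727503274005998083676715332180128654127820274692933119516359280035480790648872036439893284570397747920974991253905147528408289000659769683522732655755057920302299651654539275054568863339519059727598014316207088885556810324110066407603429347993240365751926237762823067104314948983338951389758196202502010471535669033142196794826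284207143802363839846457926587333403718115580666060342862273346453310916222352941459666016828803689012929701132740649357557381971868643389075654608079566636477159303484161277883111572479981153620479112304769831261176452323815238511579401871708915458519754123921756684207282316812673376111313406791594605829965136370947614303214190193678389983391233556766140839204627615749476645106159144068538025010963560757485594229684528039897836981014978336588188620222079371706359587703212244141085061303987748957625066915083306375233789766414632044698863226237305081705113492128695850342031347144029453719240285067627034322611838316625154977850622641916874890587729317272113890373104541225840778491136982346853363760735721134192032117267102803517957880188018126238572478107464075515527285824752353601936978502265805765973158788818804344728362219269753259048817573668629858220661346078116182075002620167245577553411648343644107661875525093928493919499749644808562306696508493638487528986056356804692463044022379275118270808047835707669539500230217778755794445437664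365907803818187439583425591623047869460078024190465629271505925889836380191893951431427066692222887178563243527258666479877143212156304549417504193896932068605832972084127920655090129360724941430673445796126077089289378555363702544921254725072449290273911282394140284138722681517783076782102965710452960001382761995574321529543455288141155668181076189337188135679445284980927252131107420369726061287695638760889016176662188431499342293610522320896476716655077823843662453816534630997908966855655795450915800553631442005975832644630893504293178773192678560538876888680825931268770852001153641728675973764519257291720032672210560540458664723356927225224864285617858972023623850969892094135624132477252342474947142810489070704041255754116778816950453708929771809569546663312209298876602712612594581264412559437128036753463954124227702987916208274839469697430130695858417051336490812994264359313518359409660572199883474129675227085761238059420914113295583503261744563674888580806702564953067408989583556696929156178847284576359801367834634705870583100221628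920389183011192704883152454432952696156348559873880944561768568254109829711746769555902281714958547988953405788701880132284676479005457185820884055769690015323818576734813995802847782967503477460919989440609172575577746703217513728713365317503260056158650414991573930571299953830639512723872746004777559568213789244803118269999871906676279745273907207030510897617853615831435590046251843453802543020265596527206592557962294840075835220811317428359294166484329859129927507008021206623202543759413737150332035436141694040701604624461667115490474061874483724596890983396216687525139724024247480039717084829863020849729541490523888264398717134833111520527906469723699898301481422191379711185304583532860446788995042065901632367834641589211351389680274549444920969836503680163785922656621816473495800013484083980041699121122646586485632101873902447258403187753397096750145667763541137787606414444115663767562322181021714616338921577289703695160427527036649417281770226140628907384814034152980533861398804126503528462025365361827545395213249404919391738375132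454059046625746188096127679464469763649397594838419560078720187243726465158192705704443061217373707510006247760601292291385159986990149802399512665339360212347055362455249906665271393887200600810736736087903925064962175466048264691304192677428192640726111743343855926990137168257989916463661169647152447254670574302190642005413243023894715377217768027294041196669824755463650688091669501437460535449886283289153598987994901842702256875005629838722094393303201984240760285397703165598914245538241599270804260819375718127497452145652001903239204080276133642606825196058487845834119067518135135242684247485530139684766304004703732863748392792222449678843130030824845962863565214158162145545468955727603194924762353083447620608811054427717805039146137003464760142175027907868955535893033637742291812538676493498421023654105805783812281619988749665105417145234407530174402884361007960118976432458294506486956643923229672037536800803968564661542816310691226705662745228048421538625611899538829079436291013993063242308537745105397192581207239602337544955642093747862104617990303810105044218480393604847456589672874214949750205298245632)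

noncomputable def rc30 : Nat := (nat_lit 39630088027653518938133405910913169297023831476556684576542451894591908524733418796149228214608702794793736002279751750030267718029610236628810020908719310284978905700798639532227441754377797981503813057196437533478951103958650675749781399836971096539421943562146020444465230669423686046201645070801529371706004062424915494569905498247655638548345197516668194026671618767201633193307105256531801316178967060193614594898298351582819699692531991380759516970436675536361131796822786732900677147665876654392617162533679176465267607405965792616190315951820070822788227309826860976879392342938928910334895682711311601830322304489458968679323427448992595358844534675805911160770560165575071516691108468213747565507119303467171405138154293862706456694868494410810112294209596852142624269577755127649417764923957674252521081455991771231584101132634488612598738361138821863242762052429777650292152509725671340714218180970817416267553944776702078325952438430937273163491394903630138598191773480304131860794950843205259745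622718817881639095140945584943277709343261199511144446642808000921824919541659335180504953099700361439100850605067481020254879286132041560151192206336887994843933315002569838559094651963648197485897206589338248068759532629637437184133320254508254635438523899282745172985684630166602130735361866129865648946749786069332379745429457208254952434201984491934929393501450156098589950800174006017632420962529989289074475638890912953686394259108362445209643167972623751039655865866649263522035677585789189720078773165680572876979698338536754793989095194094763755153672547380801736879224535248309883887064360856828291375937882645264690311632702143019195397547185477814827783278150471884474084512243479928435057681790146314322237229591037623002222971195113801267504416570603113086756030894437256811734389104367430648322686482340097702900618585572647760241867167667191900013155035020866164885374153975304335093872659058065985700935958465355588826142380716619679062596017818744725187154643493925715852831760461126668831040398286363624084235738814716935680730805686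207151841305661206711782350650862765146955829135681935022210304661410775258378310102935812983117459957822641070202866653608402478849971289489741145828438160513814851447693250975291326728391410448151179748868320413354276628420946866587313379906395535025533193555712016920839760497695994409796199067407050559525813735321335527609198812193858134812217706840096431502179162405342432377188719857307342489789327546547650746952528371513597273248870182237740637123099502755465354755282620433776711182322314155618516393055520496532993129456627195649330891260441075067697750599272679316610247623331541068689076184450805432076898581257415795691835557416614205595466674101919126841494042500054617025151825594575909415366188117338313450552834184352050318568161129601153514479727092766094661301959630856334770991742871114672669229434644255136606184561493300099025996822993616559011135471479243408744904170470689883030498574397429959948917251092172801526866968233267897754641481371353171537975695934007463377227971174716039642657066884706220623717723872393758588318004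644284091285897487273385105960741812034603071115923511144794287707784679058199181000372789245118493263250470409940922758864926026929073546041454243035071594990380029081267696668538863822222704480379281744863635370246397683512845259169746043493294814919558526840274569412209512616612362858112256316273186244674345756559952399774540605559826793301559451784046081184093993067856260030066727084320239592487759274242800264208266728661221797901446973446350718776604788638657407183685725736003171934954133486265742352483855434629829428828932519744626929299925593644911420793445622540792940244106970795539989690940606823932298030285294681078084689107914618784336332468656677102217872388462442332415044797620563187036744372822462798595225954501568839992838220874760037048586254038637682794068184400369903774187035713724373944807350606873742661844770617073134004781995645305379918227722600592559518135340928741728710025956150281763976243606671373277348927982629158659625825774446294855264847554931490539293631994555268850583615817360649951021951364124406722820615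670597803738482458134528191882499215125326510776685936613408416057377686306702137362894496831268505894628931372020756991051016100201189535403325506703190153476854014394730663091989660352596702137333357592488264197045306318988144862275045616173001554919055328268299856913770566522347594217259717253471551149730304223881446084457636623272493303120982814593721943620142498240435758170956132322811563505612651529582403719924533916806022977736181010908803777661370802088146125755337997603895160403977629883888625930949640699213165523483349550386175181626769326003364278513939969454527286061155466874744988133444540538950171412937675639298383361204159130617865529016215678176942243333431996091903560208178120739415895636138433897914408623876938320306557887865749111751946781391455183013412344569273517171519379983733453305534435862303682640267012328032484458748862046753384116514252364107132424326994056550578224569243432898237660000913064871868621165626257279706686965218509140655524396024867670187686963020199299040844561647413446044703820695618607707118708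194678353960958953395770741786691829703874135368779273372508395312262566364111656033046775392167322185909059799701326617709915521089631176601456995623466029888223523406641089938024016708041271131890995524223058964527007862572329222465422234782332933070955317196743459924921915074190259583493701026651413287473564636430724930868503952105035815290212836505928337386883250210175331968758950057430288590200250317295918329291757730761868222738473080758972246815535112199075025913332988122598271886110180214045111465053032374009037446306915589686352159625223637072746973308342328388571537600731349516364009172557527787674157122204803956032395676577685765586237398858107017334717247547811241497759693808500609624609528175839047103126573708984846148849424880226105680215296559789420859376968487694818381648213295565063229157186799862819334265310522755135760602086800645171361795415008518956622571284987774976445966226998241526233588699132668327890012523464690583884274192797716652489138947141136219714788166001624606301554323930056377345346022764534524400328988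318101854087276030761115961595215364726269153629869692371296646919562458772471684944220251176868951021598844686877114787623030428490872463027223890355737710636014931399761018065086891251549894993546915642138355201818208636050449984284186061192543864588627369286193450172043817837580249146669429213720968601221857238597554142038586183499475519201786368067076350778612824831419383522195074546578462363212868388944203730671235646370036789217645087061539964143455360146618324207602983699792463762627211178667194990975168050762101956105661878288804485538662045299083895414326463714023982480557861952492709763421239886608510446062239885584157964782330495507331560784297523091662976197036656063525681614988060984618574727630735544179709706947877248584354365101297558821742473318707387055126103499567864132614364571244582850789627743231561639163036012915090532823905794849904016050895747866094608539198527926014413300276130499034757819205260004164294486819170436168440226054931488419388612457790900866055747194450016486787634477108769928846431320642002158240273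839426113065149917391947345811800059949901793713057424649449826048175518666691454756594553396085017103135061237302076415843150140000708744884463848889129970894362815673251380858922407028687428684194199199918661145732713546421579132893599454479847340730595751045681245349359145116632956713175733364181634402077802716510119751618911602678998356165201192672017587882758677813122264300382213579633944286585185637371827172653398528601811277662165487509817604737581892553681234773831502961353885191820688032673208682861533162938172147570907828857100720155447459114496878660242246283126974878260900537896180977450530582484021834009373882176640927480351598296184172337875328081161721089582751076178924619190093047939494254741862512240641075369076131859417967868736000033113288711710846528912718562272690796791793321589550325890162886289792865910739488111988905832210755874855034044208900148770664122884565685281669053709956876002879120521488763597894421524067740681885988677648383238345540991530647752256322494701569741875745254592852763998740231091241000491744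766218739694956606842925692047336621947740930147562785953236212173681581875116941960269128000885616784259192939517486526009765888864979531054009054621168439790718510501061581867388743821981429161511833073048844863658949614751439973582494014950386089626587651414591710555930709367264989876845485321717203424534910673173688913723765990184817829808477924374438618409763869605462851235440868491514649188002424728037058826086030641722234262843602982188839640625172413967837480327846666042918481339594111545041147400529639304482190266681122800648299818334647506520520930153245953375044187537962554282049962203030671241059137580131932329306457869229947431227397469574148406787313663293978415321021893709197861886643030659311234279852559743846843814696804168217346209530696415510421159877260119572730173924006208399687430404229214257168399888330408110734042085932234548394008248002074907535925331179818439482372519606245969188572825000522138445832377842751517541077979717396561098635745630229949044682186152031732386083232885664233061940842609096623743271323519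703475412078288005483352257312589778002824135797173128875130570473403041340343895138602192728985061611311276867643277267584240784804435119255660588816534572804819406321548864638008877993688916386349249343665531667076768122299555882167778440536944842240655168927235453296506437895919711221647102082518242070287141979867481359045894104603116726639859025361956676586686094582696243997024332849764362329360837940562925754376989426842898004754874979377560847620878968057325473717872238361991960638289908313644590419192236214435602734334069807450086708738615391070957570360904891867422119692551045841038065254307721240054556420973180300969176682752757977578756485419846972243313348574754176634933130200496153200017322509524091687587714505269048701191609646086743318904911888395281533440279323705073095147543486841853925446667561909104055506726805178928113564780876101807936349587199444935730633977758234024980161238624466794177955373085052376849131324583908418501444804100376558269569903256220387379623440913197439364012747613398413707441901045301158700594990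145632935429644861140469366110299052362733368022926083999695770063732007527185348004999473878436417272880655933353007361421399449724278931659902711243146655291096637794276507310442656261854082471034232170362383814664218499887747331917926682311418859512110415279026273989089163173570387975800360513106517655471408231634030614519522204416114280688218064034334999914860730098812090110216683542859339753298564230627622577811065354801866882007105421888925277386311863619278587132156292974301500782289844481978073770958826111367394854895529158380309026541843045467736964844711851295193367039303960050601094849547893566054866392659973846657933851383593965821726808134645148012625669660887350276499514248373365608902412146119666261793378322968634701051803051707365262419402620988146471193234333486382063770273259845915091925216435134910510064197415709482157828294493587460499816450147990882665601833055681024444096294351954476651265967851892508592998789771262388978551848404425726595085652480561453557069863511498500806238594005624886110386494449422846705891576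256686612209766468932294277786012448963481328781047491492324890236398612544093182150792769969848087514398964446522733118408002721544336660582691106888414970767258630224197382064138813116179360792879262839880420174385086938136070614423956467374543593085162435865291579161711558054118020067674768890054254195642953676541447001323587382691975601620640321779662742571229019837297763816051750856173524589203353698149224340092275760535076028981581366577850986523768579313184462172392897539362568468902267903305240594652851994149336917395937362882354020983626447409663145476629141862700522980164236350537661553546915310706927687060987284941222785392553477027716730780108254132597239737185142006834407106457133403977297170921194854914657613687535618969511315589001408408171635727085293199516828870520454090560633864835437647195613126735862826444115735250466169559566674744733377201107017245607324383205451418191159965799385852084267720141649263739917817343093994539877980175543312284362800558271315755903366045070040212046243820282734613167143329477467001337251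852715730760216895129657703078062998375403394318099263040184078941728236343852621443491287794541222068600405135178178924932002873774722204329113553462063119913593558990568811912423374105529202269301401041001259200194886935660843144687114069731036177431616152777044440414158628303960848564275399388801377200210935403407068146237965061479645152522182235713186628260323474176359416821587811812067619211188440699252312565984595116417557880726810116677370803548800365521517847213069786019771814152055202831860584877373717706978452270291286222480650426027425325748766639977899557142299728341784566894415758971886926474969270842531456140666027911668890232087250851853353340852598820039109021623212218268225745650277931041967758058706423261411076415606415513886308422749792793251745997687687952750960798375572095724134589835482638819079140064668166027630376800578372155077970763853729314884265236843753234654771661211508472335828602713082954584144608108476684688481926566040267977928306990656484796694748985028521812893904490665987466224783956874053519196368704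279288919833620040709898439062335030579258072969852954929234576224468323163451621217783822194296125450909282798649177186624140259121858513882632225263953564561222653666283370724101324804291280290399555508960265808565022615538594035002182958730087161656631499895800089591047654695067567404736181297874683313453788326190380606701252241735202706408647220359871030049887385059282676385333348314169974979723608238488655444889003547093846395609190810385384879928165690585621452359169318054032924266589683622124885324753483640408321824899872053478813230823864099585364288203002694111607509270963624103419974239859099678737749787108157571409887019071690127480886576246082143205318567211794149480191280675306582423980552452248335777252017300542434824341046519579410399235526936874639256995076314211474623777989540130266435141868684041986136721718410306463188972811165990486445683599466508886893238593546435908896674995659982732449582734911837317570661192483104840574924709542577080728769489783542187278862900390092574960157100267382474741625367568775875997372289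108724574649834435193975795902347219174017347044904552397517551419976531647971147064371442405846793964354096134333522436901162666778045318167978736853499118671886816996711802126866744185918000506941490294729064883020549510058286949921816403201485670379331982441692358403889133375971134232276576693115584326398544002891516494756288390735693196523413066063048416455989001757344719623219121477219298110261231954875141671752661721891836108812634682127620781026655799137177774151153498193105698072897215150323537741984677194925349643889962450363476813119879652563664233254673869255214680024533891814614049430441418232199273116213035316988694145523039961075678667269477041310165298251817437905610162766903155538151253889878811482323624287687269790391338190290238703900897715088487857796621217135321310814480663867423685330973645070656100125271528225152857017268224933972138868324769415924048734467683932304081871046502890229254141333274971496472488171080545679908891338210693920854622123994388721657294804334115464570489252873941981772794695428808843028407503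010836291093623201156481962146762275311913527925896371768222239870567364508381079006538291476632169062915478376911653627880845772207212922481328762272962565608987494116707506750851209218082217958004399263619764898781680268327001069401509228631158639316831571876451332407425206844211029772038840317346266641419601642569925197920781662990649479678274357976252139192022026661548448499886140308756221987010389915433844103782373122898615064768105841766652337281183282384108330747745495904174444687553491492680573147544496101690368743709207025566803963438647501108850231962731565650023452204045765590564612395849354900352653087227920572430916305642131397678329632698372200871198591556208551557694946937866891005798269502997607656464963474526898720691199737559103194820182178816043906384196875764435074467223462463028031422389585355503742840718407728585161513552158583993595516375889796835615501799748745533290833137307995410666634790058095096721030840030848714086574662784432285953717225357380639479736580215242052670210670215124728988160929571005439731287074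231522201256970685600746536801767420782230931281532079475317364679190614226941069541414760391233288883214783475995920210884268311631366662806175003247840346778309676518236177307531683457854181732334036841726021586653566132432495201463634746137381453048552845988564769936248068215062358344150921191732362829809168792377131090294085264955192423934035899274415198624897464233444025282460088381612958850254223113833135234795998031520919546905643903226251041941257034983017737658340137456261290580566353503282386771589334649027490036879535266257147400762325226367726557273923096672172549989456915319280854581669862299734134408851988679506409570954625487173018076684331591279978269471294638437535114027623282008570807585076873403699853331282191441389215489562355037490033930384464870867493187817610353039874713579064514842915344510110714353246741831307530106357297285620938452053516841296316279521891958943422102973493348500671411573334127320979736032086489009548343249258411920306716466824613533169234752337181176220459717899997178996381231482173612011416700190084777499755273013121563831780568408681149854396105143389205439323308032)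

noncomputable def rc31 : Nat := (nat_lit 39658538082216164484061123439731636768530076970877130357498879754607985694575243670680257617312221879239929571644116300057450734232946909748382583754713189268457349899900805090318637132348532968371551725033255834809481654403282876057769720773824264757830491149850374657797297570720931063848368283716488786144101805547691688795647529563299894819180010801471472852418245374079957183818241744667774202367749607583748574350414379887093006404742834500944125192217518988623667398753141814658488771898598230383430659026584660589182266661360694445621092022039695526931301600859910040462938496523794926570688005550135104834469896168968900191746186003427471209658057347074228463396037194418356026474997787790649262744653984182875656380602954947722537296058700183932142695727957020654404384477079360528849403917043554711350407239758928813608598131685567086736490151942749804948804500908322995261719642172829356176673989009720486972165999172744138287190285023332440839976650312639681464300108188588748450413350304370075030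303799771939371362611698545874529234784412212589974033199592966986100059147333864723014635571612848315029341863519446495349755844352494978860942899469428306487562089482739001019596196740423816985960790204388659219570768114075213911044078616049396275412945130679831656613856115008883729483541460901813384893853360318481683168266901315698210810414587174044334670164722986304474555700019914765645014810859944878753548757153078793876196770880125886977891194027829908984913434631828629331450481789891943204479384960883532125359730293342149963666564821672833966461036596540521317314707092481992814667035250790993544566225353711841307308576962890890523751892822205646585911636012672790684850742754264693564224853554942794402278370489055182466329944639697748168828958389834470053729430136092504501959350849516195192726649103950841791436133827692224992369714418324134294614831358478540532413879013987921204403006902396126322771961635776261997448094404391101214355803638593127159684307770565284081892991837597100173238403259519701297851272452893056033270975777046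432818973484964383653464171559142909225633410573260989647424635122892099216770233068458565975693199586226390930702313805179996027573966153026221049295179996029048097453997723128605652516723590075757804604914101236478153634057328007866524560894606005011707179976253762689496434197635476798404883932054023344837247690848439544405661890681273183442093099079037337364584147107128471974331064631196627789784411821668028802232598378078477394105341512426238640716456597543282338419980945484051547540135926651369725836912019640968824335191911499938917093706862496188481221511905424962332026136514408866228135039313974395666261607378496604981481817137372260072129538764136768863752990025107819095122348303306767715156365957287092229026813715949856533655489427711713506432634645771784147296346104333943201109102187710191389259823773434666249805585956022878183945448777082853903359811735871077030896401292520399542882576660052937358786762303554499561227626692140746333374191619898537789829347257974053132358623627643783792191308674450871874858441965285938763886418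211963628456219285102574015872604756887186882712474747751708066107551416270671662756687608710930790567021037743934869306790393130574903143333943932017786994051551620005025131106452774208763045553815380637773217672329805214454030088879078153903630183151534005463904316600046338319085021493872878787557552095407706785186770025288042551846054031352864717179620157407993542421927919142601022458421862262278598406812336121291761019435582501219249588499040094513841241619259542960143838954483799939366631864969299239971140141719212197463801708808421505986686030265633994021234280611954011635633870959787830063359470619873199471212281124747470576512655461799641286803304601778993007936593710921584115794460245437553903312244898219530672008095630289313675781556836942017335600999117113086397227506118352077371581460538803672348266536859501179500888833709458656073114162994648004158629253361131649072456907963057178943976998824053973720525618155752566158357078621237231199992596988734479393023289811580134363592846456934877392403103461785670470715994291046263337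460529338422793413892512589776726721012712035118847227056439928340895215790652334574175648922713096692513349741253925809945205535818461031442796937082212125734112959157508089620081641025672136942526215610712425084226274769488280046621497446697291432853067529828062641450743226628529520722389918131049482994604674015777277163088995985477784886981348200287362385090057967227943274238604696802553690219042889642577897992179004921541499976648744900898236758417589975843759350282657609822014582411896092832531316545357499792921359943258049236312052506297196659345101174254643274218522596470793616401439674952129515448223597182757440987123085051439289882397676874168779858736328179412803771481551899853915080179902948229525047197881145167582954748425352513649087416278833288208741779723902781931176667086436554380741770483687201668994781065886307182218730286507850680381280876276367500501592611277352707340361968037157484090817916341442434986751058472128404215714595944195183497101074164083858186080381006325925712485141075912399698103536939651036927379026875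299163952709198047364433748378334655276707099073787644371335455325675029724055570018766425827637347687352268044495988945602352852368892590875978660902204237159069688563466908339200959412891779469089433804125497723767423480199386046522179410954288065983835012642561051655136346099421290636371835474778831660633527271198425334738143558351986078152978549304803184774822977449189427440732223518321454634370695241970700975557060633956705280338771233727571901475703928664139125169736842636192104567563443175035699205152462561101923352342904305112665560982662149336161712144097073428213176672749800304204704722159597918505093661713830682534646286323405961196915637225966087003263105358086236441367757723071534439576896254776648846626067704588356142418969550969942483231556435773812220468817468545136902331224903295602077014743681958696505106695737419675271814240416701270752868896387462896206249722060721911127903340866909309410960450714202373838865981599328083199457765132217659573839497490327770875392895082221219763512937653964842539554350661987221743670080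308236576492962977391912564992896024593690990830159981825061142787749358085879147047823780833505173885915009630566350774714668498972884158932693485171216899348313340817205865963201471288812233503164392008814507118107389390110859698773186315573689205087767805951370331352863681636336294099527402539199905936761842566791840186065968467527482962747135406234132427553441202898142660471878899431251119751146656746488241249651117834750323380173820801777152007873215996763674591163532375104131925898265509899663499005803199160486506047380054633446185584519458610183578613636855919541296028005453195363224661056095015282618969538838123197388773270593740245194348427725406765592758314092909291638390353624249517575772189888051837531306264319779000948890355380331995311496097840596830954434688038939319960891469688174144626312629788239308048423706337092528214441144940744995165966553052105435899421680483442876905722179061250708030047148911253375655165442135203246823645550979310917478789369590373292860281602161373033394904773074760855324548607889757063594210455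767675723214670992128325928528328060579690435639578407627591562785820026023387154082639849430574424704462431438042915422188683641538360775639833394900049657427797299147472186072590532691828720403981321443747692807514760636204980527612631622753903488058142237045355411174045350390302793796175741599262541807269552336874116319358036500407967685386816506249028446599004540172719489963571259979567101610885972807334357272380264188927416610767924875360128680250360713180867114086650618713528509364294760645301717292206183280537371908444094376298984784775050501748697740829675222064019827047347910906227666628728990340293942897491046050922499559417072931420486976300105623469478262199577595337236384552179828667479903089654116539971476351450183176899237042792408686416242147369795798579686191700101783041057453670466446986055356326664985202675292129998654920069528862623341173110420460994069514494317577685010355339769628312680358520664653037531684523516450731158028777482379953834014893455491041908277661084139836826236729164361058264569101796529185427341367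478455910640308274187009436611056722970425277678932940125965357044366831693389833060181601519888407866202107455536420669634159592805938931199202109937352746706319065091039427874492600168456070839717769849161634496571282216973382472512619089828835299179587511333471577811793090249367415147496024378491432788138223779278290518063976515200421617625625441246160839618637472630402472893621223235887439904738904229225364005040060567000361124200878995726017152422847013738394975878035823470905338629070358509847138756220704853903475957417732665024423915911871314487602147982961281901092985918962362643562289325273850737160422578721543635366479816340318090196033239401306153393610361447266532406786733091949840493807958129037962973377949279484453821421139632014944357919882430051423589945955080294550814468215479466125129815211074667823932406311568215289656302157811713905310946825716012646540530211312862733867185890775510019792297632259741808882214649021280830991606899319848595390320912970219961807448237936241139157864955772494045960398040419144049525614450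356413204358811244346727479031477902310403196796309122651329056065115387979048741353262136956480386809176973020325447532236724366744472423466547087751647677258733667613585194318760663948475594891514102222711672243766068396710876678652283581636579986633681622519547321133363991638542921413752930120171950588101376769658777635123054843966645312482404480338614023664893711587514629236089685129195125334608632635113759068496692991420706544577762304070043093326818056655196040973696223225408533343277460956607521913342631987380284074810500192369364232738825796411227689717678199045445273720420611708045485453548126812089350836988544797389938557868008357309316349987497468184810007290786585360998240423479869489659540288996608236596133420763470553420135037078438013135373590968503445689789601278166392482519372598549058363959096359712933288118743218630627965203116635509349107339542721176205160192144737829846128292577105465782178127701377524898971498100406878318937937620727619988167239908161079050539612254151595922392287053025140767277864333321412776186795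457561492770533465517743262968954451064032723894301262791168514371365249196276648222141465122155567857802111140016042794139342311543733090276351824853178039535556868876338785244492316272666916622592220835031228125196876223375144215002432906615557377723766210637428347605336796381767682463448976629057939893242251622102430142667535408643746342983312627543192840705388542989160096758526718933669490334080514438775801588483914382423384843882206123189998725254650901277435452486387275185783013343401189070059658478119097021834795928982636082925745323234540258640413229399651939228335062953787760524631166598118205565224551330185669472619161525922124291938391050101981744647456307045693081656316506695671250801736904557400230899721439339080557946782665947033858791395623361090648648952556795479576389672103924610846789984153289711000833061560672832423250346522609807334349009284691090823954063802467815233555477565041093219392778550360975577851475756420110784844453793443947945537059182969332658189177223079960589109953147429425157143295653606049259704246208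804810986170789706760047962505099281610884142186830030436483102012869532036392611117883872782086844873900717945559443738286404056493906857869157498596406987216011246432437789626213358866319652758528341498115685228713447320082752672039626105389735935900499378970176295971121174722118616747208237710448649442484327731247683595978995102713603600235352618957676173813419219416140943000345613566289965920165653008871260525856778979838580010928545217479971676900271701951984483545935088204429341827310066208206551235235812964808901340496239772085135520054919674263298796253942578281462531013502440870687948754983117667250313932517659566993507596761519294579638936910435856552123960300129101194203558695785110229687876556209392582997424689828245198647603382278409685091745183320468723689012483556799259884919079833824569204348165158380157026800302272892495237441940111448459234411008488122716124418214151732676164811170745709879975783847991055400647469519213685433058599111974758456421828955745173055506296422522066609168958375320446740357847499744850828315129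982757383346857257931680297754632919287046066071325762891845953766731761339632389862797818019947361665575103332280332460867562113518355795913043739068877947720380598453592267010616806199286641342711930478701861055509827997400638540624639134120881913184996965641966266334290837631778847498144143446496875772179356611738082209307258932287125758882179279493550828633463634349000213572433048065568877016686171071695632932280221134939849359649748591915258891829183987552072935285821295828520073844235949012868663857796283198915410896108902123144458154165587058419586539403921512342138356686154752444305058684158422705253306724184503737315027209075797756442870560417613331859934711728627194095330014704467391581612187004980263096069160192391766349334695852237263597385733155206537594023701424525221059155994634280734871675062464995720033409999405043097596686731606207746314829345618037910520260493770205254171351924448291710582733576901968754144457362914355349835209516731711238061457801896836020917639958089178118322766863292521279700395143971264951788277738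905901766214495763649601817144491537908365512118032715401678978749860227295858516436602156233753835162514239092701492663216866814704509892749997329589417061448154326117035343650093895575512598451971285447327111639455622973313317020489431082920501497959104181239705103481232848284602982798459621354285478664050693575006103339540000068817546264673455414562192726078926641631216031302527731155800854568631414076879746759617756134513191816300131898413368234209588373977326196996695153533168779103191954581737661407587360346289240780648120574839771335819440197263368057436890663547459661117527419156044473665264670540112091237424560859809493428043522103980516185183812596660689145841768280963512376620596030642668421307112937126752782598967070801702739284086897853808444307531808138497765283066330665388046337855916160706065676629479010632921203438470697348527681165743827970935638115766649671379991766851729999236675628219310221696333541681303129683445598524199535851345820863780830780451610026562827631714815376170131475059109888935474249087631826326242876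199288347505321896114046400653686816109423828620915040345164644132313490659773258224435536858925528707428420314304377911132297638427443678554603441359521002728894617724967654780075865366625560298324807326044539646575577140369964042479132458388977658655822854115395888023139132713135228190362214721203905330666075751618980371475576011450494131563701540431135503275228634489326511171066689677893862006529237110952875822502830877774119341866138313523554725968460196710469198005996272309917476964540066540989814012650116444217114324258318469717519222358149888431758741310062912989490268643493766935052380656965086373791325835608203254296890579515806233512801661355410982589060014024987975651332799681592364575002445873857397606732724794008083517457383013930444988427812582514490034537097977024697090507031534453425805464475318105876576544182042897521727943539034187757797784168358442181005538517369876973924436559563457903214155069988588619877160309498539002485134336379957749734258313541073158690779637039407307485388722429054360646651862569991351078091584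127640999207696142947620977686530959741795520124293847156453167370248634991188344754286571805694772582344996683557628853083577221505373972187447337436708983661874123415542834800356128552430267374869626168561290767412663948140886707307695307087152815311856127654205346867470689644008958524876641418332209248761046025006467804993049640575033974359936648583835065091448279053046968206757974161426853596436750883324262221027385162022445123633952873164402229647270967251924287357823374172481243512411133479254671796713684235631176008508139084689076661272850174661643653129052132274072989056751940289146890597012194259013033173490854443046632642221306651091289870400456516801682442662338648618743603549204478632776822924867311091066434328764599186962395492722860653797436251849574869211490413421372503490460639657672723401985106702206252639771905732520051927886059882233649551097296439329238479153209886466224083788142315383034842987881788086316603875994548307423038351149422132743727936770195738448457127123034524472883398293431880011212654101391168438069055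395424034652593267960865001794049649511908501913370248169494263053700196879239689378819639114012707758310860259826297184047029649864057963828031212339515699221006269067063296163524099691949668673138165261706909809781254602620115046940514951901890250004561084325487654351756657081168772137582538911510899508133526537351882202252634958111609864249689565781300680350980112874907101464189452193352065496296521251873945556135837439269676393135068522556756386581479121294059993130487357510392796459485110181705870483191620296618529049652913389193281355975458505503187801678223708739847150080153345374341688623350041024885659432698905100734377733151165545330982388184429753808122393898574036884018107623850264914700984812746662156804959134957233807508270352371715108962659498236550343000132248069394298390130875674114261788500644845811965448634896510678983134780335668122550213504321945857460134533774823040156857167355675983433499021896698072961825516872637779549828260378248795996332314195785693394242911528181283903258267996722961528232066767575649278032265071152404299601743480016338744908028615889249266324583009411347117116489728)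

noncomputable def rc32 : Nat := (nat_lit 39686624263333204662493053871426239991058401311425604815058708299175019163197663721774817235401498029109796868158076985454251423028265712693487270079535002919377789804401213406571344571854965777478647753619092430070744577625451742063254475318425822705008023223347709125014466248608484274081032301377034307991342101061236785629113819456939214602118179362022286440940263912283621745014922258262881288011630303432110983622452970174283722804924608947099757871902935608162658527238266374962655058682006033363817790541481746692867552946404872341040152970628146108982346747752931210745379374998092955791109984163693243555287497835414474803990738422511775751560881671215873184050687865849940593224897238246792560787584228581916971006113865271491234179024460143777890115311503739424547113354137090912390357996498412121619964732415268906549107653163379661020551845016684978313160938832081125621173066394233647389778806264822889592584416023243970273246755182413693385989025385413914934199067406929938958492961406876881417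119106665104569572318780146285055764301106124246810961955541610128927124189995130689933399880979953199009114661849893268383221834361624671102846745201807904376904578987294634974137887737051201276389346697928113348642301181923549892411065395075132441143971158451136810254408407887193385965486218348093131836640452629175932370034976473505471381076714799811284175806729543113628273411793953798602110681060912186209009323393308954926204979220065396212659396335705606755647233930339444425592354149712443015415130141469719365670013092835593454883485325445841848776343898440543124907617325689794480087418453731445220640132596578545360863037205164519868684624744954274607735599439717696176021636951434714875125693482659802449031271818205361241673776217145416016694360094761680965405378482449107263943104942647882745363679026463245054119233924120712122903124238919782076696183874208648410639375929408865805245364678752983890244957403632257597256552582319238314841511285220851168523566958694613063435929050616897343841206215631855614221872555236920096319739724811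384881670949825189753289894297321566238814117454643935465318360624942136391411396556985946363141178165715678429682835614607559607727103051892554442398371254781443983685243120349369518125688907047002695510857933401793901482399898463831884537046431349151850129172247698210129284959060264932123264561503212118922699433232850817414842724125667742088735433721828313543741838939028795007422741309561615913331281663516788646815638308333695295512139823238177017946708584721580048796089755940802193525561391633968602420910058534295793553910727850323150054917457883167345058852779902710055116927712634839549485080539412700165109504305083261086178350433633676167527830049849257100380427561416457220097387849107144377668915363584719769739726217116460885703935551814864677537110796913895192252746088138915077568474046886732604419320947088697498990271976986537755270891677738401321567357098809961922662269025966993711726392471519939160555584691750176907049542081058094132902531643903917576192439863065737069715218417306108126231583927675627954791714359491281675281066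437936739370161797086862971228226224786364962302365872779262929765956489734484838635984565574300362143110433519801971731368469978564798723668411296677286836669487575708612966263648239129440324285705930631063027672686464923221966650181862265103021591071592397547183182044157686410681516327980126695986098202559190330487551562272821003148567950150497603985024540118441380415088526799186031811241559047548168013123576864532316608968143001100933169140094739046277900800212483765497072675837096209972575191410243929110894740720319128174396096590618741091473972759803100845189093314727730470666012824578256869392997374047611934682097769155553651814400023678309073419817639820065320782697735672757000557215856543703420904008574643056367538804809227046214388765035989595657369986583235250086421116104227262940928119737101518974760718877108267167842693178191151257980780657536185949353697195709354503303628294982995031871379687074022430616396189909140982267749154046976660384177023008289115471877162389013808032617059061925905922517400159635003362457443946438267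224715810628718386526479479532564360530391170795500767426318917183006491719908400868305017643704810946878495035451157928682713097158214751092792173183223634682843063489430670460332584636169520910046437671066445785229129214316067407372265734086493526190494255519123139371469804124416862550789777157600082643297962866979075370597110951833087106533892435802712667686583847327428877933856750639514219373932243935946728394085822078003852595849821745562157358893139688837300802687616557241736638074978250410721971708502490772853287993214837108936446993478971742626386291203530406970977722211424801256666349576100842993413927537805533148119507000457398742767729552028746586238083478897348231227263387681608378262459397247540984787899791940186132345230756207973672921723874661351905248650501115103356614174886698994861970225349928423691574541126908341428374146676491708119374779939680000217606190033646898439863500077414657290348603602006162633227238797169063790015263831542661700466846673874575620708134043391803514187364745297553750495800608409956196312642732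333854043380114833462098603355465349416404805213069302995190854374867944496627632172697938212035862981809011412306423416591944839121196794731908770477970295851509747206560834711786972746715055214093837984716401974236261034066357504880490944138460533469882751674513733273707681297542210393285980799749339330794591348872569716499740599152771267386422431235815148356913378788942033978624642379723918138026009687961150733864059882235806132485522247836826614692675000488719065433843604755902011762706632307129025443819294898345793828889877735884446386014429004197029568978166442982668370032909452617384058627212047422873804468452432021152864106621929412385313330208784470865549594046563015515175125044143700057229162049639820991987790741838382348802707217475091026194097082288744955849916297055790777882138695372198455363900639274749214536491620351611215384131934657519086729138750420289863673083629413383192151668695441635565634789132607898934720966223652716815191079380013904883270407739934488041652644368684886887742429190648066679745729900299760241544746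095399527523790748512955329069953849504426875872813748193157561606708222658740295926519226325062151328744997248888748692368661345243297552654732134631861534949132877782836918246966152237423183085090970936362402104650287794767418071273552261526489223443468149078620233081629854735231984719602545909914695128186750533664758586800483641507197342519867185144667656450770506302818171610060796689620238748993474797320698103000879333442781440153650357892201201354660538016584037748959795250446122637639899118212103097196797214380557595922659489465734206517501315193560891245061721119044868865648548228850991181471689483190221416056458701455853078980911508570176766367487267929291497554691144594298735752815109408280196704092035429993201343372162171123888864442964933852669347315846928275154113289907187703117276719804295687966962424687632538161799734752984390364042507757067118388091806216802930226234837337508742088146506264239763189526486344946371812281734497814719978352057573025497791011581797312993941664866942069796525585716216141717146087160910811819884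107116221685369441146873580197397907870961694530637948219788812852846018049133511610102637387597006960123631124295453753714290291321763320533461766681594954417095522714008796866027044370704155110558358980184638713601155396467820089347045956322781672163783094685596378026902187900165250966726377189071640306870324897875682163407628633073677384295199344794822723820208580994952592871922436536113534355870507272360770270832979682666050046073016450872796531742512055099454032912965898942855359725475907422435407584294160294734052381302291259904453511630236581682065632171635221379551844522117327681511404157599137442774300893532872080758160614875595506751857487199479514608790174863817563521900377188011943757796541900201086515797574499963112904175138129509318467290106298100945652256597535715542110858455588185082129556375326533715517655009299298813220861861293065742235641332165121140344365132033487550677209332339688450237154563840206996306281280224031732008985335108817744586814794790859859582337891929743858718409476121092858726659550319480418274014094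488619261520931285780931243507810064524401290982654580765774928361455935575536821507953751644487483513718196089624796650423918653926523772891806894635104917989564918065530014032790839975672050461840414071593180277163027443314357108404550873569319467107616479339120418653544307327868524697176333780455278296467920089703891564164276741364838001997717703503492994722699213422659764163332085931421359047778842920577835408833898385785334816396424056341385718666876255290709149061335826260484896206229891459485390107523096736912180380187590104833120085022496041006817955074618733465810571282736831500624612784859551819991995370495816209589869731301830559817511128441298357994337653123013987821758690258796569588665588700186738627477962963274933320207417335644339472283408848482590536775975112687661772778984837862401373245511524585229123258530126738110160697789817068667674273236466396445778648116924640059617838078262858595857164825130968726365822297470644403862201205260046962757001717579840257169983683792887954807855934853786953343253867339857168673829655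551303756021434871114463580914175278716237411934086088315550492150798176707781070063002277744693329340334041133962095001884149847504427355827669005802734089476431608269593379015096807632477928394923223450377671851858653428227872471488951571698487820340574597038673295338952638349775237423299618241207305553161855688087275356445234389656068349745039958323124521335447115673523669902096394809506648788939161721141098456407132648571320563538420286404952251518725055193610526326298538898225370901493134619107473924249125012593466012259048356619349798751000166431916245906988331686567371512625963647718537204527820859875895990288501546813804994599615116411753618775211666197489193211458196501333701325981493334330234332884222633162523296970218277073842482530436896082038252282002730435059325357689157845193827625088762226966090720674561853938644703488628458652811043490986718970846487506963840739009398008439987483540980562507335142498348897500975739468869582365713591948518096222849762186479993956417243154475562625145038461004633160659337232182041398616631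079368930604319217630806092608800048898471915754150984005425164322943593618435465482210844412479946990131568383227079159352762024724604000237866006060534196615220482143176507523264327026416494718365474149666985979055770497701350058512655822901792025175807362065598246594936700634855211470299573317131674385647412200321905003951125325800013582324592219331008402810667072336945194053909385555673238706434727268364230304888546651671762109396906877747617272752709149334015421929188586539097798028792033085879699630020712701569531268245223779318437152046823636582948104222240480605648829313293391725994623173619854342472550342357510897185617887391159318610759289429766598386213765222934684150017998432538068824624227194356797645816273672991691648320511046977203704089053781610656460453078245957068788960783579133885928964736605082867752638409234796134175000843206602719490614826555741220321284065976484716056561492154519531493985590115676576086972110673939908647656952516528178659193688160661981663365541408106315584648410840132440975978998971334040876462328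850116969529603457238221603173390005977314979792052371812561531371392032769598666511526615062254280411922373635152888896291880915518571444541378790463206289673652231321268710571195147111854877476476773459454796805777580285838287800026565494427150057148355234930043967276949648816759794052224024447550052440437282695660475523895018347670721635299061141161950755537878709812880097638104665017075571070889801974578046219435998799637376719441240037566776387012816274280611218970255517919821659619191785288217587405180210970923394544121341842743599540385873183695817255761584263137222926581347067676756754750160181328091146230869759943907965251902633799453720702550205084229697776590767909076354403093314220126386574716243014995800514314332849149311379998312671741340963985437360112337847418245077400180247125094543587356373822347543853579174354729728036686821357714109635583282620561284429367721606019427484823365869676659934735954688924524628983465494585172365962890790775617244239924702023244663886615638488483403669976732229997555709555833237177979380406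884317493620770983554170563756105631899854212100392151869283711308687398571249494981943813825077161704891547472911910837003187794105081630898238751352944681114393756749901844751133181507834255645892834050784701959328139904536666495766488682164084079382883737305003470363546867084688448346398875103048288914185514677630157558486832133515116123588098720222347486475924269946829045998933723296361128976385417866341780602438098514967693482445890152728648221792198497609290512070219680173522602647135389356921560377839204283288799464048024201424501334408565959409496921951769248074454246526309266861758370286863354591531336147989326098039002354592511080121832930691447624566593817744361107657520760754356776097986519339010876031715519195807254061554028887944783966102607676012902748650982229444777117297925712194152923150586457476461343383030787087508427118796085796561160317867367389672140307451350011940475645613275075050778710080845505933404514905074676318393501472196384630038038241849202557759513305603624323968295788704790629042293707464992121093631701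690249352642212972670169426596372198431076999042978760824201997779642834011505420483611282981925409176769149283584067168433439528658349498298356115963129326667026397880123995140098218790693522430219050796197608189399439021242989720738463634988669395005126588186777990753480016429539492184315522723657136532627087285084302955047342187331192861670632146786459599942105830796658170389019860901720700214139229861889646570706189628321420122218117766944773670713586379812142067263509457296353113446785747433875250597193559271507835949879112147331463899205660298382776109895285037762617057310012940935594019232084591482427014459279784263604375555965746912228359974618830241631661053825275271548990743148864399515614745365123286675960522456539539904277925887019108759729215291915651091156240499682048222573954622896200756768686114904642379246940711132139207589175255448923232857486184235610476093946930260483978892021466321993050454733244936358469332306966301437487375576868985826159372405578749237412439008975801688613781834918001882808491563374399501027351786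040597481599526487423106277359368542507436857108946958188815215515717178110094615435496776975057776079877473434973508650309081142402046146149634663543958586884140469533907533000230492909173974256459097838647591427953192571342922649659945367871941979294058506665859802146231268602343757204456091574105008729796527396527605309691316563911711237987936740379290416841054707210715645933571463307208303659644929562275255028249685005893194038570074590468995155578084544315574165151880303674536791281124637076825543912899751841226159679019920937729234071630800058407057353415842478048478825936459178263598946071007175103263501029535561629073739367571900503911636557794209947644578715467629679908618127015936410798097814351833761389524940733231982495973515334836262110093186770437047957934836488196646736243549904190591926809842953684995847478887821604265635762083287499532586550573310801648505337118193020469866529591365549336250184429906778174945624918837083763194168228127204115486608493808186710129728242581614163362880222212173449815776614815169741698948577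505258412921819078824291692107362680278945882670548361167983110539437860348780044079754228507959747525848179263993180999990452362783239819357447100377661242482276450077219468562138487373745735008919804288696557095070953652505010628066079930349837398307817343733341346757567678905830596879679865661684599816333765487280170699135231073225969754365235518796712518610956939587544711465199353531370784655775760750993097363737791869419338897138862407784365639402350870448648402810954945815731451781311304710244041922526704290923527831703607383148118835282934297898704623308938959494666528499994022962251374181970325307701254170674025990359156710115123841456874708400198282269409474926482918948664086565760964615336850448250956840476530468055629028780462825889332335185769519217758924229947614185176150968857235489719694274850093538897928883472222211928190234987411537008054180194493456882627536018136714794551122735087914896579108618868812765647469236466259251133156661192919637298403115098880091623790013847467449620505385178125859280883994120945227759507170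539330401427460352865033857886344486479769947544216459657513099857618616380175017078402327180389433229270588523698793492508651984433901420286126359636849322885933185892789824497431219808504507919552760610055241868509537552308728835065248365265999837067444786671859542450956767380933218387492614912193956278920009314868586471832116349817038806828432045440839374755172034285702983233058280969269387249887663370960641286580133288414067629786505278201956752425461348881595046662524517241303028107873587883154488921140206407524190976730134692021319036825138394569771880184056178900393030868805366760711662132838291450696212310720836239049673952237988927308024240115314477072898219631856167255794366647859114812932763800377952935009843384346180693338789154156799769819060730784241972815717486167924739258505227681191985945111485045380590118268495817537174320153963988447313175422066244200353066414069136972017476678575471034808010936129594070984159391636867388353870089270457720508753278905639486796895289525903495837152950663179881900704014039214597439249326635901438880351714583753769071330442883992655076742455915645510163078578176)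

noncomputable def rc33 : Nat := (nat_lit 39714348488018738751708131904787809602814999184046000273406443954738846059584561349686955924281182112745816396408864197320791244847789749788804156868292128399078956389569450176395315291677808347745027204616697285134511853371595671161842171382593909524061426909775584511888402930688682361535369279159502060460322933586607096343555255248004542572371607379056865828499661045409925193121214480656226071999876504092318822978481696851587891531736204700465015029801297715368257682670510190956859445683756198369815416762483096990612797496008211311328033928006125727489865946045771528947206917758526196468426990787790304825161065743179508287640763327211263961208907293385591254539389876246837021393273714362042314963100153843599246700527544058917578700595116470685949555777474158899892632701726469973649960335806525704964989192689028735955290919879332215488872240530540582658815326451981605912336879481037459801373751441695392904835168947718842313272765660788995007931892697041201657811630834057856799782752008681073034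332611720131905308886132907944484240911093379666072117338408297857209011265178518502416845380328214978202708992182435018663952061913684693280145312299833130611958311321929004376917592017208124551773529233890987372276443180054910732211779563475426359944006088607703726540342371504331806947421693626428808274846353714021406916680737344514712586807631954187345641464751695408064275681417697574415680479834081259493109873783866280039102606662821049688202170048077431575156363857882873669426523061078813201359825118144903330951982947441872032657213134970769182463658644174890442663371600731539123345618762377632054146893690125943564155404929339325598527814338832969889142687637557233677906981669671489304997875126600514346821594115605105364178342368487705136635173417613932346517339127875868773514855677751025724271677773558630211283433298547619953226725151757061680182424656032338147762507062297714913623053387134341762225140043328687099431919144120287637514580309511174244707460954832696444441902153570419864497390384604555196433242010103436116288695363453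420605467530350027184081570568198171215810355214073957050635093836908226400126978081716751400055837635000646474753951010684494498651075654840397231883796254143761157154646388358948224025181586730953230233876806390543663890687854469011974372810026832516178075513708662644992868979495100534393216425108690306587949060300292527857332095507240617003469897409284452810239586484209791962485158084244377743612846388189516302267722120072330909750469978890774029287992133035499554795324271320830050444434851788585256156848407163806146298774586201452490851331280908959331806188415503419702961958426548444670584105144497925971661376536190416496704851626207371907296518564575235280914141424091244805451187781249051227399704456127443476123172287137393916687783050778936422733298772616631365817321304089440259461059252401674374986506796318458527105007300779833907074577023355242535621325608642688907812382803149867548840552789438665424690738589202461322847580674333564074801222557147446314372979319615040635054259087340091170483223636455335186384615924659674254201588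124323356750315052231226769012378958270284164453121613833620380226130559473330610243814704983746908112937349374359543587642671376381664189846924148030480654543652626193038880089309870563773820187755600425412581427319221586289191204805023733220000623305978595082747671330807928604516552718983524803149667161986901290285740844196053832011801930273202177383940459293294248149094312811615848610568528944458952759928101431965493504853080856984472326716415578995939562998346499118427554240465149155924195385030853086357762602979619320670018043389979586712737568479346613151792044493119847140571292727202141345839143827970171967535383144871357213546601929680694279311456017601461343433339811961983847753542075636038183645325465334086005672146992543468294298880611201668315705749550128197935380203279032640451477227260342472841894700764926718630490059506797221451953809268858349083993586809955120970804848235455709260274049370191344881843915786984843535943928396290451795505286672864661573490901995826727758554571570780315536909449583656944263658869193690934900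308865464487116902114194588611695395501126531211618497098444619951986125918935407155689803582155360443957084846104528730715565844355604069849453453428566608239479245699656160699684369833143239720518588653379731106137176945670813742929582694883739023576061346519282240598081028898984485276417502749503627207017752008593447546826555543958066315422310006131768636009312404232045629029873861671401681434251467812023659465243637684881336283931712981268609559215008934646525423942352257776968309674830203872601721653950148653956410120975881325421190510703590736196608099699675446743190963135809620368032510987326176814235868842296235949088304399274593862321246670846875807598765533970473554374311371524873097830696179511090109009140970752083134762543712091611399253349976450426687932676505699895382042333509954788236004707019471688765011514938063371242259501610227808391984228150526771900537166880486138604150480610484895940494609168875257975799444680650602107766128960985780648511088841117575744073391484709881872122069572787236508709316054994657538534545463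862343839183536413295310125107998369343010270352496426009488815984162163541604690190999743453963076979300078800880634350760518845283824395653011305086272878269928510274160202809956807935981120034097808724423199142052244025027837235385466146209508604375146288845949091692560525712149893769132932873004564589015715163242799088081212221953104017766919158573445496935278199472763791169980434454057674264661111557474879002755143394520335018264430833783021962949602910474331955362434328131252635905655659476106529759177530389414168506912082920145930814448629697874538972679152670298065185803464859030157117749709834828951970591826727989980698820397758324398069606502337542333145631726487097369720819231068575413027714941279982770169120367582109061919732652202837065680062190657400525984943705537949316690869385350705863793186605827664850394603875911345108629205310299456291658065003345307347606456981031099957419766218996893880830443251996236806158511911851875599447659876608234121790381874926654086708378177284391349756885252236665283115277995995972554392230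780478168339911301063822187709810240557526618581961891655047061898462029389520429705305662891425863976625197804169753928099520240252070141843841592800063326035582553557754991363777841044432664902230342691816623791353085973895882276828469859577824664488989380072328976830961900187093624657067959731550344314195270854248309901487457354100647509991215710230048250139176664627337350656388022844847184381811227441816965612473772533333189678659500514518847080932089578331504359993457456868084244116392400544706601177309338539735697382437252582885738812307513453440447319083282481984092016712403450537413093601350431844853750630078353014818278957691580504215794933650680081993358894997732666320045449414743210463590131178012231443724319948069209900490641179001064990001841728882583765126572568777775226243869912866005203110093315601757456479346678790511639687893502482338264078829865586908447116764172265197447697879887577427222210705404287782087663855818116563331326753359121400813985284478869281167665434869508554784037961426692153021431352358970739068210098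851074358630851446792581030994533757026340472575806935688177386874863745865494290553024313659202018091791084545412406884846563971073145757017064077818313656515913365514491526434000819016944418933008904705795509563181345063001486472898892396967865972286578475251931900332022465454955106240972329712155039348648851148423033373004591191093159878635573844912769307720364675799999503429503585423910454148184208565673978792313040183645574733806830514097809248655351018223270032351965621059624202208389152232666862071306572128401771624307851061556965825383720694272651693646637721735930283154955934985139478234126759655008006546317425263675047455388065636785402038235625942828622820379340009377952663191533568952112734404671114599426287229214654957006059518680349121908206106422893958886153053559829956902404686034161598244749561006626414090960545285058574251238231576802834570088774236041055300268746145756704375425025346882314441533213805417497368638539487536247701972439261096634493146118109766665904236987910153874923846220650111714933308410359529615489622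796812036477104046014080853422418622070320275624859609602448648197541514027088998130873861660065236935068072481820828143403752772342861614623813433547474965983837807065325459015390335953744620721526383428825299050063829452545239345571830561684520086597128421653580062130603326511504072810858063122458138822263458842979145909628203472219984829189107397784095477791921830950115079952024286118941281425868055068669685219230433988729955948948638009194967721695436782150862961047940396085489081516930872132442271359693681536057040576264440879090924759250618254904463098684068801604451766587123364244474115364643965618168492316129288524670583722092491879257144668446223051407916616379896152652404852714669730116921430889373564185623401435807828185083699733965007950275313129949264330195491378157644002961643875442176117569531719411807286547193335721798174067053413350275847686346902250280948546621125571105166858528056916733685005817379445136499136193179539966663285972564252509014205337865584214290650882258821588092424143369197981716342839024374678035037993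239885054806145101157452780655837054184594936381127652020788838046817825656261000716233086956803712673069142346824624599985476578079783645766599486717008199636045339494576132363624660979735699854792569989876508341073881880805091548804988420091151467077295639762206430263168720891976654379694868985963437696792839569498187673151947674091746761280227171403885709239823467667823090588476063015277190314400142577945430401282320694852266340059738638249030962455413854273141031134401937280361598461090121785909797651671767643139142185222583342150655856190594532738268439661513197266952209471469207124799122564221570042513465886756849967483274336528696103441887487382657430906708093599161563463766353229308336624078584029678432884888320984647160474909431709302384600952921040469207873136392322594743529581181883151944521325535272170913826990318376565113469811542596242703802662810623274480046892887458094930630960541509348351527337906337712592927566786735745886535597853087419143812159743298268156335866506206929316478775171437215642957334294443081404572816943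898995118674180862706737810971549095527380685495737174845092570868241725040510353532713562637093315671721792547848741115102868468334393894362011710352672831372583308125497758876433837698982247743137653686966287554865500493809400585561867763335187412080645157851991256448119123722201185940519224840106017973011909574410614862055352670552611990216379395125700573019784882337697562091822527425552362506643371816480549277681942239094368727701514896580354656650325931876751309340837884058737638107639036869796928261798886931558189935075476785032789516208112332667625019747207064525540559252602716267850525216477904106927874325115509941711963419758246758655991927154365480031783738322554682447289297176285461045432716073141955930171001903396171168097368330698897825690596887005736059948000115705222176923032907123248529989406727702766643840881928011232010589829429941262075920831042397051620307083788994152993500659257823111163532898871781736022639120256196460990849616278471842910093969884365781825019325068165204936566995956081595562468545009079314830492637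871779809355999882809282638152763126217077007155897878350015441819197560512762736456761073950080926359334872489175782935756660922028570917304357538104078778500281129479749017581605347431818233383337097826046429317409694059463632391436176687949860928592264279538729190054579587110788929830170981126712606961778028735535180930665414000400097407000916081040490873936443506626457180455761406973353409512943947776582993774779821968245037905585642858353803439876316738436267451990985888364790071209714867741590752622007362669920010643723261786725383457622679296409555359539187888937591093924872599001823646390188742265571844440095171112019949761219126151172258059052910563084822516583497197936919686924680052731114640483974219288640147910227110642664768420035362707207097595689723967264060189870121813267018353788164458620681098277217504012279530726240738070231303041438289317707573236219236934428758203388685493024222770093797298422033361221234890904642695773445019589568905560862034622059727134512078763247147742141026094158978991500192831993178727942973594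555687820242915526796793063751644983826425380681318478890334906142382272496792457221001578299485494495484971608218015114982644223335023604399757757143589819063177939014823074165781624400557240372825877364392768421690069550927213292906689335272903456300863016582764028528387861345154821203158487583497454452776205292763622808859004957500616429798668955231933883702343294125162124637744854421446753768213874258497433004331964488788043606770679862860266728941664791842631539384885181353625204082823830373564572912732378375993906806044122607195134899430655166713602293145993772869360853957954991178976137281513279459513171861594840738541017493629530949035334413673353232387649401280756071867432804315100165135774793423525199401484230261441823747375744864393821787071478786109309003010094577789032288628691662015391387271686595076088239264848420326703039197299935835376870467403611177340033454759956472534977790049243896298519494804613045099333337855944207284699447530425435573330535500302550683704003580338591602437361061454426437066010639090807681648012733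075573884081637202456960450061312223007635117762806789809552404474462102097140666206105803125114756412805029304516977043448195429260774534786967240278385932608258244728600970822738298944952249270679393634941859429979221631870265641092501838838314614541048761906462186404629974850678247625875818635442384029745813700194547558906333754098642510379461078579038652020329210204984447192098372872126369659229766417662578196248563936155558270831988894089452374313907096155432470042977555150298935090177190800942764359280772223534897454255531765395493214602320967616925801431151344612100085125412560385335615212306415063423110866203469401388408759103990845537850624962844635113387573486504962004845908594887150490651644670491755934066300266712673630264008065370827590519168659624235011611832464585884433152712390961504344547107438469197782165600318473711196610781908068366507609232712760293897553531220519337700191648499297143595276493230372044755050806436883342996815277959529745619011489768786806811898651184571545962825710834376979805088710397540917889982519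787477139582568661471574182130302097125443656336185265026430868297953076023640843473170569431011635794419551660895522350165966110551962624285685058522513734714682308802761522200357637968952744463600835334857714826644564859451745241037709983195212969502794867644312770086797582360197639152059736735832831790377608688291642570901416139343692355774263474941157299420561751390151302132810150726599099104826106777779848624268836084709065647294838677345148200693697524879994506957616123194651568430799524781780865203784211964798822078042358699031679705722882701436304695745497427126447751657113677587483270433865647430928383950734840773803534286282633622470477260205773499523640630745592946965340653231488994875395259304892920062703070708243204894975515271125330069387659870732580431378835509120364616355706952695225842650901299417496757944646401491806280819503181455143364640288238388946596567393615002480585764477690783234793926613147587907979237946216318650662106881054935620147655991415925842374796291123937098830793741048709876326308798823089973580340792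461138544016765539848074968791038276679800361116759617880180304566354992758324233095461296735147631799069707632023738952269467938979907215179577499939159156840836901903502049017408523615621400487690589580770645129021020360770529550613601874273631267051274829014991711645542064804835982955283831093536084170309539318176761805454090952068284263845193513683784536379545934352127616807647066689131023355708696309850469870233762962478790804679667210396581211765043737612248152065635150253715783139977599005944205721834733818631471701836014361407641420740369994886662795073107634089538678089115570589158700431190411031298293574357612683471928047345142945710967260167652484166943869794615535603617833477128618675700360933466036115433668300366862763302724878104105773733122121258729576327091110585668710541969793959456027728207078744830267613639403611262442398181769538987256681790192817794537997032220986975022512121050001735310916197303444584477255141760451759959421436566556401047954137960222382218856391726068631214589925045785010819246181241378823713341861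485823192087144759881055230240777435099009892397207249604415122641979479377281943382071478875827871084125533695837600012453202941830723137073989627323664269380006310967884439116924681352954328415929472562040160521348319918325594241218724004956709785102742856440607092140216322464464565767458751744764568329379300579692364130794284802450195654839420158141694198438211669593473791153522542379251152714884795459466067993618109110665239670518515219355820625530615289951913564988508977010583629933949164670999267912276677187498378639439463362515102905413547566253610052596510107815876155611522996390960924792464678531363627573254957902261487525157922512073899332404909576426678878011713470981311744796896774425176514604847227619979926750780080549975089766129107770625488828930366787647176856302605135390386491143266025341161075528023011382022346138574873655796898162781088601876987468683486458185516170268352166348914382530621011928047413826663136343528448019402719458133768594332321233409275346187447940865529167228950976351186598407423058692756565739896651289010136050432696755391188485060147029543609335092538328975854064575184896)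

noncomputable def rc34 : Nat := (nat_lit 39741714598853606586996389867276087513170503271089702904197384137644566344851342374530168523309556798330978984923629396675226509096416770037377986858826948753484600641271720825216072309553652485096923765854678120321960073514626413821688546944136488392384379018202212464416472443922284263858021894418604698828343609670503984610881314595617195584218044638250424587254439245858726164534733711267536912223581257890306834189531989972318836055914689809189791582166174246672067799425577726069643715313329869633617782849807072434627688998755233072754273875470799623903296265488855122106217093382599335785908478653184346640051782403237606518587922979573353036088205802094762803971158035314643229204336356924598873550712451089821522713867132340780086848650807623898139092393870753424403017351991333117348362249787923613426496211834701768458597504974512219650258157974942671945596952343876791259618340606584908295587593341789820049661239089673652653227483890864217802040645275499504250580771742390807240781039705600242453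430211539399338923961414239916283515607213043658111212927565439771518864138434942414596185604995332334118592463733234948236995055515294958287123886161031341201525698861707270576127217103380005196108019955631109639635534694831464049808756535373866498143823027071222504703930437621995211630149008032143140904269955633061650883256629267547367308112014336465147815312042339590348047573325571453990203656807913260311609440407530222329231133213896348735715373205232067574101883471842978206009046461739531142258592772917242022100944254082201225088173487273424873824541963827012327746410392258708530197838346650468154279958077748053263204805966398399700734054353277981032805412628619103235368835327707763815432803007664166747082746809049332728715673292628712148992773044807180618617041528495563340299650580429903611245670772607578452303834759141177764802794279016590927695552271045024792645402859477580690043341386153874627450127738451996282324240797650307683323631308811592456901621423884826332335491563224618258957449011958367108147454613461768688672803685081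021094797649517618149516369918193222885247974944243433207497399322248610515797931097071063259667410557407086692735546748488212771193942095987871064520016669099883300114424150742839546189195367009623502080965215384411013998248527283680666392186756244945582825309403362312036600824711880021464009907568418342265418854027732906325785962804028818320720241773480086875680943927490523331393332902024900705622441832126326416418643516964003486033265627599617068112497228250883909168578412825644315938877813332570521976018255379632054447978138501815703073446075136213479372317876914559308385043931703828332173882994599370100645392455937084637313355478338013513508891243402952219897656441832129849110134566631152330781866856709889239215672366466758843349804552513698934693386760301928472552608726188722761369752115038892827116795698133385571865722101213358480048325559733776462961103505878205683842998121972776961717133414911362666370246559889895669370595461778606847278771670826359475855752158988745950962148692324596419240432110139773005832631039644807407212546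901307046586773498771997030971833793176846481696368839811380892369165741465752767158002687408348017754618483654460860632574532999135846480533770547165935735408217369017424226679246584945108113160829073050211896265198456215857073403659485028832626527437139252667435469988075217410487481802697865285314263687561001666271733638345217516521898263849119754892364437537616460801277630138213960139414905834683975208794906891074150553759298093271383123230860685425654537864643735179535064897762866691839306743603902285547658264319463224966180907620977683399902378984415312781397901938138629844536811668540589000434523867552944693646461446377635380391272534052158531035395353423960565121230838017849349194554463823629891249098779144714997228303530584475886251394005423933777964969566552071334637961365201628752899952462885083765326599687097334354501010651556341087439629678137402995829242494558127177067577278744597261319283324443685350866567666888354531696360094116255195090341563824321909956735593639162691427682027966654002511790319192641591627741271145490420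109205018429123515914062891820075601401929728194091336718378718992470697016144040029771782306676297024393048118667162758944486056201123299620887802358542306554483544053020789862019581246006348857097214610413927838460046791405005036267139898492981440129334954088821987690596305981460676115762258586964063070488163732479742624892847095643584167406730990431285910521756118858937617056637184948236746418649492974479755343654725462972318354915318239376936184958970465302940599870823399566543349280450551933354592584676634925208196151995988794973942157503476370699921395800482717463966534230304572724644539368383166153063437592103950880133940548246819178507435678497234118940150207558564751658847941389933625277261791441153157626020146722973487141776896731604231890837630401505669902242400873150006544897708393183511073908459842065001585330577179021238103237052272334575631713605193798815305354290942003270898121989156508320678076329646282357877150141306305334189011088238479411751030732015882098526338455108869775876481333487589737495079622438299536303471431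118831263329811367475433996878402118341400908746398149449990135078601450293675828689343213984166369956154644595223235176531416800606557200231311665864585063418465805560338094501055890013634129607735895596461999807735108192210771002337010541409082087253937503814295630657302563681975455029538659447220146106308860989343369300465158733206428562626627245098438542893766498122357446866531089594487386679012284774608610916311217206721401259969210651933739172460058613869587651847440291871232924035335522611080178952455951892949972629951180503703082350292844656230115069591653360026726587936887817980580506875702593432314181394185425462582829231330342465094634082193927765692247930044059863424299075014841653346365906187797116222336305683928647395299097510749364000229234372698897890904809968709367437843624281102371712718205932114794128776549403246825450299622867330486440868619685110629299232948972152457820601970846114192601064734928370094226989586978642786953595114137592183580292848773982226975541346976444980350809466869830241706028763020974128332646749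919833734938079092610820516319997305039449985209217515152260372284645111412347335414326466456271376898477752310158501965264009742536289408448404848783626671014990659283125937067877305433263098953115387952093107613019933939156682634603491771188655086469439057750896856551190874153604484866584496431762422903814981945749696420166393500803444752928920994042534073785753423051909277689464644950316555476442633146087015280710142488020831503737461318937057668489031616949212636068256375474091466708091378537660018559010264165357651983664299189826048717069913734431294470286281015962350954792035537162483696094662920861473247667971007724573161321356920299505831241802097079404344288479075921384517331576505257624616674483551873838850208695298900242333699546430088607817596445541983356007100179604737923250290114768001111828353006673454395690183260249571140750141644408067567321303026005042437070872471226376173485701783085592470242328141572681555117880783999391350644136221161792488812548619677266475516952476681207052858096996086537246686862465550738297040770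272564514718092889725162835705531734029919580175257636153736014230236842700867720375076099261663879003277285001815179723355257895709167763425566462144690017918585530085344606130174188759286211668835165045522297737059010968837640160792519543902253423559192356129987492401020631890075865665355240790105244763761375384919003708311132583163437917652489906578570170386306694514267725576969380302303894721802621565205847269178640301082438916626910093766818448060946792602299785117433367195042289288347590880063030343461967268069448337997814794257191968041895136162137618783697772615443516908828534587192819673533606809463112538836687119657325218051392241375609853671079394876958518250573234383338860125731574812086700250245413847716405164942348544291486610662616375979296006852644631802764269825525307350523587161535566944941565064551247014117595711539124915151000215788611774687456299654158409844168409669488701888308795026972038900181009263180396277209549280193892638194332291282956195526587181664278710390380060057704346364066595408725502286588410251733745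534990575185500635219746469194898569899470855830111170780162965932916536848441564150756945937025430683052302477215565313142201674843761498012521551390642977405287366524348598769971845658358962082192588309236770199682361390652127155859682827635709930826131036098801699270787520811755666521872148158170622557910127825958238168738893220386473111039934235363006517552927777053963212591521410927916083864883599852167720284000927300281405808328198522357831608263812580108623530613075531921782403880404832112455303441288786273250784405682995081022689528002176452075230376932710564129186016731555982939728628533239806468229842556958546357401999417939110561399081107630013471928532204122488070184918809013236861525609500771520465030523366781451904624472409021467100847592604463113643290916729201436368017049358817864157937214142687634460549663410079863211830151118322949467679852318682219842638789596479335833887511895926791075238223519495287990222127222268432543561382343071205418604811602254900346698419886232509193865293623291009604567446475497077125035411281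269389698283832035480673750406469682255671010191460023830665378884265806988675727251071756868756215690778603211821063553153187526862525989445443794165454421208816922279604098088042103114601829450577407196425684137868395310235781474761412086493483969770152155110965249884174113617286328006546152999657270112859002052368394009565035550448175307463250723740042526601044808235153166972521108586430588222319793501253476383348174846152004920596970325544615117807147712053729756422087960532067430615284666608075973450930501830316442810205922795107673036953111335892892906237585505542665084594235400476918451681635410002196377659552531335742509384130688397787556303074574338086135897562433160738807719474706088588416803550800390107700372167995108330127555562324940469377487618082785558402882587567171768409579667185396984399485066847690631322253201382445468855075925402793894387798837036779075256337207304079425268409281539494124906916624279221139942802860992085475603716597640965196448273519082396721896071865721302123142406842604619618680260591018202197800915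741845110431537104507986107919399393678395571716607458891953497094988060337275501696849263616507250262624638357781450206287788307815801306854187215278596625272632302483600247297174795460070001968328700422653707041350937264089763504206243551279920405588816805580024136559433646759614504761929268056742511862098096899901666849065026531820574206386081844510265830606160419581290426020802396676448382041107399242439720240467081027956333502614866994293674073144174747980057079066891635284035680302156833792548309390306135764725700835998473073444923164813797474200463345893562943551512251062626355829693124225822214864574062734442645010346811094218090639201679979004340297253872938343376126088452669599992797846466910083232422464580973717070510080961519594617535097510440087035200027775087398408382368957363418223449568166277582662509703666681019697410097458201812152973745290277380896636733274414712082832500250367752276329266436235508248360385769372788144199070812492708628257921544156077853152544243534700479099594906785193767846307405051671462702896316390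851659452612108335365556422567398487306637224257499736389319064853931509298467632331923988140101313120228419178386520941040861331315868844440581613354745008570894820033977039725245914008563833413254386446510206143268514962033987010699619079234297888475900616770574007940907254777870857717792650711309641707050163948987785745214982179855224399109469535839083945072054612723388600947572962365126602207325779381932644155116631608935880460354446179214348220310836953768869267684296812503983013291962136966105116019479542160264604235950897002101830035492096471462427634792504251767637583316849250351671671104622529622245859428785725546526116128802550113109994120315684149111647959023605412052689672653138219280002496122894463326426396205590945233714633816739799928649981530942913400850587112171908526655653795660690432378286129241492677922040464776532954423238024162303975707966671066323473907374145172413326237727668532122708442977917508756719013215015863706087374931610190394682135960650241269678834408211777161259620663321512626237478131238741248131210011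308724403003474214928297023793688394391764156908691954157488017736472901461113881141359136599492368233484543735881142467637335352302084237849384053913024073021011858124184334397555116351510939238658299324080858424071885794200926086804804950885757310469138939755978233334257088989951870353915363001227280028804690459081817522250612648602617372648762443031273621754941269237341454266557117562395809856802395306979298518871171835579297367959284243545718616754139931025967766831459834691746212521458163639844343316135723863315140040626828481164898049309116268220485158846729085689507471494932339614324613339930684162216834138288554382517177427030656935319854848089632274715647038889365592928350685848369026211400474136575485955917954191638806828089553381265435828707527700171477862002125324624631644867892934625946286781189064632102448085879375933126795193061626173654014009735459703568044060419233461104997582969502823117760774522090667435857617572133935252390669569315404903314308387170836191171524056421989160200203171341524540674450188920829560777062421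606448695632313356794999956340770893925707078883708001712387925575119901431338826479006674655226978601234051353639285080691667129748910779289616323113055563873973649455042698305004890738737768993690685964969702308132175210989174195757855496651453924230381235651990173497025849915945702894303501727348449780458998549814281593083812923813120995985357985520543595253482073157772236318564619881735744455472256969122570425228551239048216460206559403240453299736526708978267797173489781599169853877087863212365628866922513271413535265513524502063516524022035934421186638262304201253460977151492238437612445265004631748102491811378098949070501439874500447657287112916372457768535305458561391844198170976495322461642419489261415045697452530862219939537732872459434253215558572208574536197610077731691036621630901641411026314971208109438463379067645490444681925178040554493370499660892898490114599996524805266858499850867590126819594255945048488485076884012822414960962890204344439245346348923052561647752132312248541672803306199461571089979147497007349814962118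605617284028304436698338784961280961009030002964141685490785277152974045929375258495253519147523828205672799486469123744095952975224969844620314777674513386296846750188474247053405207938572602603193747298483555271591648424243729403511015945910062041667698039553730578409407544454588062421344281790971778750645722505331712819221862072215263542007507202713557385592226412963474992671741894367528445048538257699246597895137804379021471169718082176668384978176833359077345449841312142706248929672065496576189008936740405959767759399999355911243474654888965472413951975374009934700245652759568459820385237452842962577956876218580479767682138466755922837195245021992198863366877193977816504432160922770703889966774976037394328623931000319969468478260178405941016138487114309495894770624275276105982607502884544065715309474392195666042752937429900885346173033611095185329175434183875767236175270128010646485706816332043521050965731192834414006151394668069941092254238709222084246333566213565990941133952504974109809571810244926963693094030849906239538485607544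879026400164218060529869816109206422649711551812865405523269246442568152360507100599172337084692909081658943370540422856640838276795253945031871126498221054123674993794088207574830224971211550473450587214769448597339169815965512853135164015483834618545170204420075489784998597761302522775222412498304928227615105861409220769474107356080931015051162212594462751788828325501393141027649369090101332591663106102069737853214401242859890283168189261719017948413732994378373695039805062694255063515629465136782435624623617221731037126657777922745720947439524106788388312410065195314724233515819419448847759058835456259435980484264916993704217244274699560772799787340693291901388842255135191831243212884348561248788664571891486660952392091515901793332423792363699969274604562167841549615695220301063043631351951703446676770962404798313030033834392436399170194905824478749732477586997841971632533543988394287194266263044051974585727522272302061514175863616597405144452526599462169893273544478933609189864359720067964820173832841041246062960130064334130992547627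428117477537888429349632901974860862414323502350326166890990934787340468464469819736628113231306344196946816426897568109507420352891597396944788590136997668160039589924163243116277590004724842885190049320446375991501778420580141087124082297054801582268020377663064202020223288580115453557186403160194831242410324226276916558541000785161135519712099535533898788295681875250395025748702395336658101931868672687040718295753901116199978216202332928936599717423145146304185984826093833945243237986532939083981215573966144721284195991158778059705224035874194399111620794623405046468813838989023112369449893300692014328537042495629304200880446404312089451202938271333723997637806267463044529363316643624548499221048959476273373859442404064998582515146250682003449356498572163633957856080675525728530082896018392243264839414073079608471645687469929394153442401826845209382474086827528279085859646217182917720093709821191789121950624429702684871065479420511294555348118815699391532145599737123052121226075698243068978995597306294595714630880001058887725641926445627027647401818805206618857756773055159036902838672035016486584870275907584)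

noncomputable def rc35 : Nat := (nat_lit 39768726069808065866017041664623820392610861722755540500014229561597364841113047171445489600754435881103911084891984250033394757323019264510412762693605615263616443563450333854356388386034136342383335088964161091762268845290463246123146368319426891257858102212089686868269519829637636955915734953878224126137704619072387133169439906324569370394128654318724327297662274859677344111011297704366441357735108398579011416029298858508792621040093746821815519960508246971035208162898679888020228781418240060728445040646752499876621472291083689024774651265000088015404781236703328854991112380724843044741878700433034689803664085849951877683043797234098856894499687476348600690499930022709952075413053858692855575105489177557199356667324397545656226380033707348803517060121322346934714736654032518417795164743064904714856133729581113798305770309194688441220914040206398280762144109372118482482026681976712925071968772276680083357735027220688691818002372882905076931498318839940599693721761901659994662636860034494163194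008197096030498009706702120691353767485647016692476055472317592799314280412955074801877453363070310199976384539990577260752346544330236932004485777986861337429213267682515820997013816551261539468347622760782012862931560605714353394050280316087362475179170675602884315615024590585201985336067908765976425689072855051378204908318402605355670167540343701591312077537507985704271943573490968271399159069115112037865131333000582023042190911214427288061998031833259038969343108525234021117641300720779245760423147646920798394231226432051938274064574709333299775435603526495677800539950574188146080232682794095351792132571885859377209310082959616329529710100677077849527529798083363615066859275859352336196323230828521380871686821101357593226627081919251531405770007452666959110352491432234947854798295678654381960964100996247185704435176290797107835860025175375770558380411712246529891505610604195466319211100828513411222791678741275384683503626802299450282290408345916225360835055569247545053005792830599552478502083350333261596026994629057009153113687136915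495644639973424775278693158992908705995413432265079113889558629122643701638579767305004997805516533078990143530686298326496990944282341400259140049162986488109772894961533388881714376075731999283794890740592880324666512972851887669657259662396197704681064736938821108062472918897822942764494955642728964102208302074148004378051158953445042063737412328445529731725456482907528543029413449046609974433175570081305373077343588658418383628141961589939189122919827834364007019916040744206102822430367482695536084669413754717161747074104895858655024209312305948787890049641008502192168030682673318599393440228774415298255631612040554194364563069882566088535926375578491462125223421954315870230069380548499906381878885706169041192423560438977019965270978102904646069778825520074769528984717031086760151953480518360767968227689032349350612599267594358428419775020801474497397067635446720386653945280274498360103189403448051328784931025694883427450074998462811240854458378104148867238642605966834547442505880998908609578049363921909979878765724936346147976770234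395011699454921474072074558320464636675422161869909941603333736525810144730480775239543089567484386029425405075751003613159247589221922401452165164014256230633258230855853139570130334136946369631603548085639630459231992182154952873742674420356579986953171277549751986753381717802175187674411654132993190532671026286812494841861391403299597764076240856195964974672452120338579192637793085127265969683813665251832482960784468938419200602955475841104740676719149542579241504516707619996289372327977300315083486558622139823730256967784898795417045069987136413651841291129605630038086734401357970744717265934957930471268303189387105985306233924338864129867253622885967817835999893604254762136079377435194316447018060280363524872307898397439519177406362029459333557738597964457304562020514363928422817524839209521942042786529596906826121332873897745456060717307570404097736489524381081135002275316818108774544645403167507487504860640833375851369058772691847138006969562148364327415510038274020136902180335323787811354472931261625944543266019793141262438456003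599547081382510140242560233033694956541669255621048817903977133477578965614784880135588343993928539513508982781501303501813099784400441506879814326017148466604255940385258937363465130509199521084338194734095494544982366213852014657700403626267329656129439330336760726076520762596021834669121096107363380457103272556815129755906688556707596924809176155015852143716840085771552134546038682174826137609053616342438671451290297594357876335175534328727305027379064265697841877944616784999510908942177924611388568669303873853561725232413219367514727864848935807940460942645036730325514255336571283618146488800898880808414343418233612865786780635694368741781298070662439233572445133334428598721214900685705598431451834293124114569588515290732766735928836748508007163085577745843496841467766571804111931909790795358290438255767693253357298405404688152356033739248168022679071372240346423979978521477356702853446812437259609115565887790508527801417714358661947303164679064013682124563049520515757528159827602759097266174032599347545950328040448454817694807379849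738057004776172325457194065130943546322523219101044165880963969640374512807221870680251284936754521429306544125255252848152806635421830350276648686186991368624333039032430604112856299790701668619419126840923646138860035257440335305378571943797283795502272133085848505385429708254691274993621998612697013666301524580228850076055821915704154349578026305307103837060478837738805802671304723827998235971468139070703622770151501577510457358348370576870091612939893978689389229858062606741547499731027470247285563952976418145414598982199665306808564125448226131284636392576021700394931044074897935837006940335163205883025539448045711433182622090041960305296953301728409270990579550388328126768896957136506499770411526394472045711902336822847335914836032529963288670737092521930401810089131535346647753168057393163281135839594171854194962586957737175476439528750210820341325274412882053729604330860187553203285291221539863629770946694780491271490323541808954863913468809423391752364546912110115958677244030786862468615896019377578819165229426040957845848962275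065205088625987664478053289993283438704568543706803668866943002874328488117460856008375519067238548979077281557260679012362067390555424060461443504813371250090620892562285218510491168226915573081588297050305818666557426734298519490045639264513850447948906768804023733229613554960066911224229688090217638694584036123536706601441024028487300727311225390699265467663081945404912967096300119275196196344112273884325885520326016387966718099101448518795481166470259609830348231789306779069267694395670991292657818823475611382145264149817811329425884407472914267976149674031037873470568179387270507687522416587867356656159333128813219398537611098811716635396892760600072364308792195749057962669371918262208126100707049663738294483163223483884096778747479713414680051523592737790430661650459554172653413130229331316362302261823425216145443890523538774151231551538694942190821182376927964247920158262972198895098810572849700296941094051689449389771880238084897671854189085792256820426267186288305425184373022050606304130433901242085691267561441389978243028481458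785835529106532248872726134201983525538072150675221564412688762490346694212999471709885183643130997713118790407482761904546543273298591039809052696577314468247475057750191189046886406909982803879063973772604560198199814877632909569964484943563775699273585129776983450966074985231784797785839338974573575527166824019235831144995784435119461882144183468247959911258438891005646878203437240299758552302803321161737746048093605973007996290323163442022638043111159334151223691200523229090241389110557108226731323979735971987716731840761848829386055546403712989373782528046790724298583957984888392587315877606887924370355694513813600944164118924800843748567194215401572853761412942512880860813431110794244697839721943239329985182100705774244593741101750718880757329553219417861324966533743051967524587265011248458544142036650394118743929835529930933605948278501527907584768062084399808077632935866382156071513880145923156789682019959914015799285211208393255178982376676227996818975661626962270456347594476815351334188521049946399534177524571490754797430701606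881212479705018453469450629404543528867401107478997114628208434273194931458920277766430417443931134821952684938286493131175938340085239897378186060980968119375635857609593303724542673578275494637937760701625917237374671162828655306159936058703921754899494678146228419850079357960478623316786611339331354159705141502216979466685886897025957496644089583520819270638145370826066574583078947363263335956876511562227719957957597072498048806875060224540863170912009815398324991617596354161956035202174932772459071984295093550121234235112647210694558572952810504994174819796368076145678097640786999415719662952477560743138223548216787784922392162182648234649843190961615667583778729264965984122750437718828870719962254745068007894158896111291884371538429884082738516369221387136679635534653095513612542008323417815635477131844313276077171707613082885167198059445018368558386442398355479509298865628124159902713435826841786733973478791842678749951856676445282993835914918904426032277005288598201193189764810760781291570170423014287472832055590956680101464170201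915164070958524045622481640967435463156023406701279721733473631201355467761364319726741867990883335923087085030765219166831329665354811370472671740048475354442378549082963202767645808620449427100783261157077488545695040704385987825634300203900219795243192567783705130424455549019590511474019222338492932115062231286940910096661734738364580987776311637888879693574808480889537044670745642467559159866917677797723755867290872286136409816289203010757074205367633198948261867760113788678844517793190439305898175697630881983299569432479966120455107785986184355514119441039701442476064812880294968916173646059300667287869307846332217077340858568935230680754182534889617295259425180942317777956794961173405429399476301416717075051015624989290315140012795652727089005717931050625120147054099527848583760001207126634567483171610551567568117391869139392577871006997206297108592822152324737945899638554989478912798923582217984709663719417389616911082301212698215521677656678995805643433764362261459369263571126259456551433584737163062982197924262253430682148367042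462264416349567811918079692587055275168964768467175135462020579609647274075296086760530751050768661513627111959321105525531519607282366641040324220649103984602244909629445049184833352147562585748089118963725760811193318809705869660792330055165236251245246544397597652874251225971289299525603687855259339728413608829012188062166131947666975963252037200002315734547881620746665222452975718614507577176003493965942538090780297342743769616051044039238343175920303432099320852793174804633886749895194539644597490721190092148952841646113915589669546534920617371251216803858388735367121103612269483808964340164552612688214499434214517890462099708590637853243375991015542928623823974810232969619372172813262694043037348390109359328124381253972987852144852296987964627734215262361085266947398656413816274311223300968831389871021767633226961777504085686948846755093065627254454957025730583107914184752182124622344263546638530187473903319894004389254757232478252112574947896437353594466307204694561928348130576187860493269413746279298989953937936555437860405696458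102706477978561621686250852156744534045880748798891783813045561197818577995333125790206978882215891838587437170217529817673756486886974224234469332553603794904066887915704118994683471253710935555988900951964294758324586287939428365692363761975600799593417724460552929760371639900272517338248315996316227640342623906545476020824797876975091071893454108554982225803227350015024411193514610270010959093431526769689339993703019435435828281491412788801085844710770141693283205790568592122273881903468034817529132138904562192641426754346648839578973639645108309670341402688883547272573132168259417690540133992132951638313378441029872446711675899905987844142307243348226948582238565091039649342502715012920821850999612870557068852569875848312939724691801716561133170523104905143667226701447630724614104286718741332256314599799808788551878222810568084597975760156220681858989266127072260096407711713581089450155165927018071462131070205779538980497510668752913964099874107500944332613911886976974801045955615249483745761045333849273882974964646997708907184871305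313136825060735662040732725499243212287164798760769530605294862965844148280912836535485279494659589642987503309344465095629862107471900978006901028565998842073925520262398523560976997920605933609501387562558972876333948769443050859754104064839024959255577988365162667855602211786491851984796629646506075981280453124274999761270286544645688459369798683741407483671516313855796066459326776064812841108581405304198542355639996176926443002623336183230514044341168242686220545652749785283251968928095723987112627885902568187281437339133138929415697927501313804949650411827900545666720303107714233027343153000919557291034084365248142074134354188148542197272540693272260745687244329310962634492138233216046396391532366728229201814126654689277434734545971977292246973586800254727093957022208982746062727645254998296537273460861729313339929556827655910236885578518373812630607328154838641740864852200228716648000749468147971808200315132011449568803592522542296592702844790671072394498710366267956035564883748116771703040897885065713174269639906271993636647387937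640801757954507679741518408889138027320595689681543770441290484540471579229034071062900498158776059179955735000443647287033970808835330811206120444211748418316120092703981003588007940651857427505626132608694271147274981803709101289436283880546804365764155151031152378330682168996653164609116823939307936213019179549030026000248572709600057659087199913399027709039566908157079947454198188757394095924284739297759798566034850164984761900243213911582413558579681779629698783068187781296231454238790922613617973178798309996643702106084085818041514683900739744131125976910059937864041551286673821892048875164021181453495219929143667096185790131283391676693936390572433050385374818409951519853792654431135656472469630738036399429028402980800507075719358231560540318686413671392180549368720704638655267476117156265044486177703221764291185060311418974801116598804105291888800960042620594773981218636473239930155269052354438621993530136248113928745494983048470388107813445901491297527330454300674350728134782138127177414617146881111658078170913979757748904671976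487417890367504897220735061161920026142134947698234689183957943145642570878620973306242416627036393550552828982772635337532274274128096312825160975310946175877289529322380294208382950713867500442837027194060587001622187979485662587911726255789463765881142481012269506505902788974510782433804052453731717146187733653913071032326108001950656775595371266052929339358348013857870070827976059817861157383404172461092394024373191729611707888433872562116028945487690088742624074301000424600468860458905509871168321103991222794105554587867925432593404127855824901569943568183704602477110042766084111877104101008525853088015279253286265284466305087316382669422454618061429555798713856731856143260112595002056267895590455524275578398938861777244344533046457138833439313179565560849449777303459871577292200336691434718488918899592381098583232484345748949607602873130631194140896403021289438692835058063381190265420150710510575029799121378347336776764345945200447822184207427557153815386719086595002511483488868549385888014721506818631859518278687431386440697558188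295107078366857989552618898488975105520875855865341102313659566358973507128961177481960483628837506651264644895898000284646932873970048161782247654540686896930893748687696109093611188125295726236945788103891708815920183376482415107790999892116479017973924678125448267654224075640029887459636485625371868404857726067289943434946214151050989699996132000751817220121950141998768095815281540451306451858331574803234251855465919414091965741071215391513313919685161113400834401888582886235274315999333739770750956973321412403314968709996636297523349560277797486334789090309568025118731740511036842780103539965887820745646751629822258560645000596944598579583755391048141392195402032041911452183203114887174763407819383241238413944373377770089028140937781173955164800722883329786721536881783871685430896792493500170168174865601514055984913957437443764550409798661809569186870684964001746931069311785000340484919610437206202137895151240394439913700409558019041096268086928549511663749881841950089172694014065795684827309375057724160095603099166122395933479309426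900996924322731949079947161179107666326107018998706774932611034008858156298564116164176540109724501959950111848172781193143722098498579122452254909851151829512985752383837139845311690618477362772655013310771363189564288193434263953908386242319391192438381827037553717276235398020451124006828636968676844477081023309281105575262156736427196388665541862202733405144839144051824126994755557471978832072389861032021642701624183589704814979043114458024835169132277294863764200820193008129967857688839665295395807270853941271230272944072733288851312893130798574070947866666858111583227332235496195622777491976665411227566117419955913673927879637868220728307502663438426160466511187895011558319550709838657698650754686641670128993811506632908826389230501905582292682619451428192936782429240941308005364530540957039231383082108236040538558682445605183735220900164682153475097973860595701058054929954076700989367203353364348155065017985781252585907021000141190922875891090895002744598930240132575517703665148782148204628991660375481064871771898042801844548823714514139065968215773457308304755134225734085104407320056884908846000103227392)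

noncomputable def rc36 : Nat := (nat_lit 39795390718664188517235822753199371461507413588241991031398682340616108607690726439085283038164753584008702998167844340731847499842704692962546577409320966449111524456500762257405320470645714983066764761215668281662557689037432686686989584725118954505796760996620634191076693274107913230559017780203819887615238405762186208937356053106866102896805804799140061078188044278089574724225985245282549319272847700186583464996624986236703756741030246904453959643914484976421730571086597186006549277059794068342702894906358588248972860121638563577608217784933338821402981037939338464174758169235785687489529032586594674222240128567424378230769403336537903617062550804680481129037784646320292548150887450627615447383611027385717447220143457512454190591175929590614652954565881584542623011536763791431910386553370701016615165297639340668724178559458941146647399005759917593670801860869668356862462733001032456723236995576907851994799694349137661007393383579156264428721860142061378693697243874910651557458337365164388317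038001371246695987210264521689419763558690762238718024156397058438924028978259939089669340149199933725929693963299278401291598611015524064816925180442324801726227932338936969364964764908275346293570418026840404107361578324795584761739664185501971974993685107816933917137960982702208756213520356797858529299254955263097020555579782911209411404207367925669393656683533626639755659069386453394374708474565308520357833040571043994367801249377372595100156876080562103806946211539966694673371154131974005670011205668245163924810910638300310022684478340668936232780347610943122100532840120438170194285430022312318873258419793393496294186636073260385000198160210569760738143949356079424732108526436047399483713262995636723486315844976121699684910778669923989899410774161948850677058549103135016190278718402568687389841105893520724870743924339112543960407482630909511613198322294572802041920830170487012751412812439684042064100571936289281237676077786489464087871422580681573842405592515639463719642658819379444689640452829244231878357676677747881212605875280675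008313951659521813838120941943390443670462617584832403420370209111654251528369200429294746573163306627681454055365565375454132555080448198253810393160731692535715279685533515802154627939134545431642256866549793045471555727352934041662257203587557931235229105296094120735086840764542011258423890832901994831561161826222280274916181719113668541169530875528267335549967759829632162298483206871830554262076180325669282910723856231972123412292078306380377532629819700687393208543708831855149210611973865999483538938469134934233348900096220849272118421675618790978076690597500745543938737590351765617630085688817206203825683974101082282573687833246848369862174270959282682015826693806142486564855572853257081128348360353161135377297511734457077017154285190855421195435706351676265561176152570222635984705373347586151154469401784715729900955599005476658010042667084738650194925746453987651259025300147303983014684224304286819259461589227027581723860738898336185002329117805067049371583150930291208465250470114783791833757397163528217757809426449531927518024214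344541913293813836967224912455468411886428457340837132821390325682359757579591331547329382277956795904051732763913124040235361203265059533637813024229409015822158574419585257476137690812198493552329066885159227242037425123131820233766911166744116945295374814182121362164113682762256993030492355430403977076653324700843559376497359252999222146252498623501150150866425476158979743467675450546910497309307247598671194157737481236836268732764343348359406573566005584082688114663113253567827498800659881002410076501606780475967355810106164617509738587333526015313063463484705235856835378075872356204706915879695190758651268242223573651576421850729491676308381636825168919376188600050439553732439079335967148698309952322646880689604913901224962034830358787481628673559356555244453054207243403219245258357280308755700290874100640541964674508987143143409447826674014195464432851280005008869928343302357269457953614264568420997694845777567864196438754440663124188375829198963717787449064187692961143338227713053768619846202831501498025908723853603440372938638261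031046954681459036887716922364812264621267052723379764377545113362935873250252119089114473646380185635640702648457398423601682300801596673267414276332372636398290523103267224794395336747313666926839451016035957886398008977821908156034313170162274194238645575697244482056378161090312295603478396506870162402090408143666898601442562917576152707554225320218995642005374039745038226523905253115935271704664679611843394011575116122293084952867625164917149959884519321097874962830914148918177064474354222519774299141278656657135524617060150519934588201343728006817231853216573764088061756978373794517704136534201768403709811036057104842235457679305529515064780937358434441727369166581571490857361095051088496296674272510783093745220148952267901211836385251989025622259023606099029796762452802648911355785379214172703237047625056419393364655990576371133842720728683515539139130111160455696590921987219806470696375558742774266621294594784851605631262148699844379705194587311073874879143427102905170907124649275973235344140576359946253463713691488748403712265749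213926200246613728480216206767257982248760234452075625342070697157789060908039829598689065699894408144215599985079384554869188410119974192731979259457029467107061726464289210070235833939183463693950359504458765240037219911382768574787488744283059832437598803534516711907403838869363146941919096364696431568585952027735811908505067487568291376104576097745612782226970783472549765862818608479628791214690567700603132079542974738161341349891573141363449010770394061092133222731066817477572916489666047810516202144880486561467671036752064663902625167279927026106492663867540869631904576160707258031883672181184833942521545561517866185916973848081488619076902707619712778092673304117871179610707079465909898856865966261341738380296350904561459827584257536291021084562189834376909052480268183830853335177153382644234441607112511017009260385196773990943105540540544889543714143610682525894224615309845750625214681881671064037276049659336449160647253805564095524110000619864928207493638149779076971232853957382443554927098848164699308251275283745028555738671479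293156072801128597140977593149882078826597832634872888848197751207834745694042676746517846157814738753643876593775637757935823458296173243629728407305675596248424582443780278338370133867901543625423731917152799783779315420369780424903758668955855057644606035416836997083369327614181630117607736057517136902840250310875903788144383408136978156319599352923007588135874320214148426945135221121577741084409951474861403347916389926930814841584120935844874481630397825075539543412733361805542453177694198578587853196334835112659272054217693807859763073360897911002414467890515447874545874466071408473386278967517772022836769070943177617823466236519498919017592786838616467219332639244976317382225785266677516747482369835374036325466325937463583777292551338384984294740349091141303191074247588100484230149267010581003452836494916905468977901833131018036923481059800029104941958750609027639259701312012960801986292158474650569540689644365296128067592705741307081564872646165454875769442705442419395531376044560278500334889587894405805349086828200930233494991353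000911683949310784785606752392093337213967979043742376469191231325525069881785670757895635633273383536028783642020931212376337816259900924548243189743818799892698934591203502781076388814523525675635166890423090102886291325305022932456055967850090459749990080302468588194389402048336304896724029435984245663577924263824040320310471748903456763026152777921762407417311977034304983907157779677323906444253612409198651180978623815561673805090097821151461281698016383184801539344297484097662709537585215698558667151467228796456380444886332577670154162458893652351312523145460287506486830351419405314819457358824482661800618011277295881985640374230299980557441993887774113796098699277004610436650864326399685533458094733445131576184966261714103941833526719586934746332247734109153720494892660580907459092455770426528223531991455373102495448733236845663392868749064810630536210298833460044893243566414479304341309750019063850427644442736659201255666700676908213327952513931383693099184997981742152695635153585784668602979218444965043303312251834808969072097114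606801332766075345687816036752450120124581050336046201373398526558686803760554868671938356627579008345855548734077979175941055216106816107750924364397271160658369981777037355703464173118828931958363341202360734409784903942953073390310171919868206180065100970095827350423162747031826308554150287762032185554918812442781024465843986160355741911502604375530276720401517152213349524166167863661022948578479061141140221104911923293884319693624440311133491600313212110895903141278306573205737814953671404613908095892201341568874792928458693685410539367678427531843178229872826746304243650869880638585510878262492535911947325838584022200402396154392020191075330997651013236908617806121803461327126658073496287261797500371272599344415063699157979430827654765042371084871038800650904449429963618490310714861568027933665353348786375314684708688227883067215235081240297051613162591760139819333473299459069482849519617854309449535874397907513933236314220406546367450268686668271327323379845300066798184692021050487994710467131317677960565695235992693945144844324715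158920317539770610692045190805596447108111953583707112101361468040024498338061587196341957474882425673641553304715752343381454474334342749425062883456011502347368888956397110774079382963435089361384621842749566882147317928571272238342623995422841963542393166959698961535635667752821562703908182969993149921746287682925021777516879729297577148482777557330375036574013772414856684327020239063389762021507757411845368519905252528454966951997733852374036262133038558817534958519962612765299284649656662705937664759238696076986944376778773721861352678758332587533623121283713753387395592291059738305512694619407656055674972462474925506932180967197799463025254853972665941947765545417823825855470360004808613780197536350484294933167012760420039455188931829667717538442579516476967957499661430071511351455345263156878989522838347826056832727656379920238688474173692553030137686613472122835797070881633574177145327940796706525301223445559811781736887682724087379620372572263139679306286072612079875950392328933534268356776969780339781734146860774630586154867040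890323286533166421013018407973038945663307889334658369733438060844873822222411772048787724022951648963012704366584895123626352594759499706778307661256635160018259139032269392092070344257549308789108371451483632656691215242834232224680136468755206777379207077805508662871024058483082778296540859517451410195458684672356333612664712975269950461205209719513071902430566776786126060546214152081578700417265955656791240946194556422185524698134791953830588151636915641891052065688553485212125400400679422091547608852498008306885966635081215068636826305523415647197211562332790580517667808082221905294287070778769402083875963040855809589033598248793001146309707220762776207898484012677553006734491074716125040696175012240386535519069574033091725651498660280610375005175862080297376015949040347577491046881491049578425586853981245055174635914869452902349100064996847324933343894334459563523947631670005026994892441551496820542233064128522820673959656063778884035295207970462853746443656170857380072122828307422568994669953589345470884342720061843518521092205104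787349392529023668347764518387427146304794267172162733907484890593659592159566444684071005863627070231345977643545233308481849613813912274852014255107105938759716529575830437741962538897252736352454944254927521302339380216048478824992396657718811538851731251396561791772268249154143844457097014955640131391046363534654492488316533606380080003812563773865832372925396364784141558002335088495298537135223207349299163703315368100795768967483007159663496836132417406565722832326507788406007637884383277313604079347298895818588906959744119126793807974556033781410237393023929423715047253662290941504448399110509104139961567850263535867922223325961114276713289865396150525762851830442523383484652134222475923964403244433379702673507555185990443651771989183526664717170799082953845766440377000394266058320853898453586842446975424527144011387126091975864980549790781600904714443012767633508514359422726798535400106636153069312603696419965726786942786618634455413186837247900252702601184350456958379443173055323609495942059332400468506421081936621860260011495813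866826299563221667639711936724826180073288115589633935048653910944535309865065368745242543122158516809320045696199733436519801137547366931985042006425637372772028874248936620096027255257691449642000011690551118944571701922274689461139506209030326291224119779475408331044368034977133275796059571409106610671454673072681899619915439749896240827758919702355864723126783328458609860734607455865650883740894186786946600633949410344157783203121408685946446500016499095284006064959116024297928577277715766666988259176659520109329675051067560405237081428169178470821503560737938255603689267764254775316018696987990405487599106236396885957396426900392008339221126263944972224579182744134817306118075642113641033067083791673328003877064737852549143630876744902434657524857359557808820683011280002433093381138464587151574106537102708128372868416166937014208089058580467902652698564569769934687778798577731018806688505117225772727634220073282252793527755560153121812457383919642586654455788637219051681647400394877102434532175886613153834133565791708235864888365180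471427225284412425377166628692656110387181839453600111112516396874442197333711375248394403740829215602731086767334050879790120859548201345362258560658406754020764073996507681647326824350213231495425672025321396400902673591998752397793085700561323204651460873286550687926637137808030520199469129717260332699708654036609378049612292371997076310463283092628589527324208815000195124371621606633254575574315266085260319642808331805447719733142705873419312723513847325993641330348110984192109048874252655295452355290300729667427035638140910429942793169400666634917509486325911159610914257295565350628018865066867674446489344769219511819719997622485138005696652244586492584859954769274990143305948964303860458944445173894359525498438429989049177403497730441435907606732435463991653555226180609224705606003302418167069796395211478788627502293694516848135649872248729135893599395872256199518652455453585800944291912338872525264243447471074188388680838879171677690384659648278167129223373174230394813178901468061899489502023032775060914058587658750922097693093160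447942236053404760931105631594141339950019767742498228279703967076523967272869862498789201521008524626528291819349312855940210896700849527662691940406716249914530644263427538332383563579389423590886832266935307687028482282140029774772818978322904832886098456878255757075001958237763037524634823356133087960128099598998389208506702484033035668235975059674472864622955723956206633635191681596450003713537117056567344385811220663741652048941866155821167770353349295165532036964144179668574317636061007152348340852169325156045830936263965172412709360578769518750267466882793127007472325192624611445789759264966140814710973661420544001756677958607702355162599009326051717074644847542440196430533461588017058389829941317628038190313132250222671161772289357298202482863254896167555631994237163802055450817905167341016703363907395717846560830922976903692595909587332876005894156785954160565743848454393473872432357755424757046083192833248258644596654147964928079781109139097133937545363192187886194474502866640642466251711709740092938607164302466344255226933771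444526676878694811917878142593029138510145645850367182867963323222923982575705362555683061827592997200970818902746321333801185407679587952487741376399842311289704961608288524502775995654071722819044380930821790288383408202454225209012268557571193093055763692901143377173863993423959727968937425827281731049452993306759151169948736549116821769721006840070897739343334101961863624482780667945022749910701429896070980372023118824959478853367836673929135143531278523860783199191903450659404740437477550287655142876274626043132098303226248168278995470605129453342462110404057088455378573708706497304505797262491848544028618144762188655672400359603797466862452302538777610884883860021292591663992410409135460797734411586864782847950117229959607604327388221974705703889048055784328295477934564092501940929399909269411309327883864516829018896249577594263972471599924533175733979776235793542828475326781408588396570964405004707260144741198857551334010341420909910904649898057251264403336256594600180566733392917961750331732778369915081564451642280827584742414094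844160453385541908426301893711725389076064062270776951801174834963281943566926673713628464302649841769173572193620841663456234385279744151326265709092791439669790931653375598671509071302012850873114531055098605253641014191100474359431955391650451579129330795545007924200322852293675944043620240390281478060134594615696813716982113536771346613186405691084877031447163616584814814676724795527759200991944826929890471455068078470247404451386404774430185675295402554821142103346250930381191427759584605398095509280241296915827148799818366466894334726852263051474534144820431640083830820080289855761447044987235637867900964771161966398899309078314522100801610274569926408828063099654834572173477546461281261138174956355705827628064449498724972991417932195077739300874421825183268538383399454706096775130241577403307511705413786407578768485987768374361152721205646393916281645724661222571685417404608566357334627210302281957056274997225228526309072593593816921185341325466575709735898015273576508574563777587864235477082825220029893620522061617315880104448041538922147020527837987819274010814943640809657126009457720712927607340924928)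

noncomputable def rc37 : Nat := (nat_lit 39821711401809790705482222966861905678449532595909706078391169917983230883173361902508421259123657311883049281981517508350828653013436628851239186406964489137556708282335200143162250830682882243443888614585650719748719239938608147750057130653069171030387488422855436847025947480212897207037792389601371762523284781648050544661601296644184896702618251203150262636790079524002393562191000822987623005691446269303147863823120013693876461173311283683988512313040953501394255015274203476049351498875352893865912428486769335460555661969090933029267455079101531056983675720148310009135685189801295285952475793683027176056834927021947655498730669905627980154361560871534422016401659047263518695311499780940220620832230328426946514058598701433120839424819580776773733272365483792329432632705049982086495586545122662667141763629176522438184636272704851444496968626186367215028997101125952451327498701945571753475774559504916160100539132275861259179091046400042204287070543064382642116836184869891859364628405312320214633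369156136151259075277315351829970284694007001207869277871765500055412500621089521858886293716381673244918953278470087742712910865040876879836843772953083303287964288410458156332841601822885164948684799703018848474864419104201175705491016138862888857203053719895237059379243685109541348366317986979830524229947623478009095904577306366826321658496180683219392571452698732807393243712911654661798755874666187880913365133357597009921102524466744568317175660042223211280082501497499185047307910626275129209577286358464216666434606265765606566750199592719890797407112791471534757751388965715323151647135409564619768593690610010922879160091572189828930259104962654518807597061740274074798602869123845890091106573164470779958415973413476139618542050640802844776706697544305103251429904709805309251773418501508001674274432920921890649732236076337676147011861153744876460011451362176647644400121549257547797124384035012908730631292514556411421812092418341611932701528224068319733958757484662466746545542793396078935767696751748718225024133785288613133362180019719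897140421727444527919966764626642833296104233900164680452647165706691441571000382663705273505924675272990805106917896759093005520637563502991740927521877552097114381927929075215655890761942240453899486580574900035893633669840841182503832303320879449957443328121248138766191778240084359400212750746452731512828402530001614406184018888915850697713878321996562906497635451233547235317173754072634949980289047382832066493413456044542751208716077184554207147403329146819712410327509255619340946816419901985839075095584580003047587874003583452433396226248220850364460145796898788727735449483213181285150033591100124300254727573382035132648181165977312754810809342633127345374023742389464523155092496666092084353608606665097805093148842919429273968803383652087443305582696568456142287054597545628695699167440264049665857995809178942573665026596545263689027011209213241705478103662236322097331106169865819045565620888001589061951932167647541645507019072920205445186908651295767856546126922156872914020541249579532368908279412548850251992120321339851397060315373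161757012004971012903905793956579285814162742459578384830841807348840223837953450343639707860832626630215635894838515296999072938682240730183859662495826890001113766486027613964006390834576825287396975131858356685726586212722176683146132945881411070998369697378999118455534757913855865863241886361758683755249398206708522995271859010210403107603071684044545368030996567115898926549170060165500495207601474677751714427115770160301725747901077530252580187828391189448235940376949697260050581484505937263827258025236756211407886416137260220667037132812457894710939977413707244907555521608114602595609481915221006429103955330484837508005881080967572068795530138903646189480397811999357290782889989385285605477602109956843097819547529643032082472450691230580192231844314877473323750745290848301400313246358701170808160447918602019518898090728611685767007722573795954455695324916064321546328886530264271694378701652547632260196881742365467713614398949987053791391234130570463657669680464979880460565074457391014551988558716029049153356012952354351340301653415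700084272111025852298990238289015038877804501782558037793497060856455129526225263900446824898300865597752975205374743497530815016303989174262843736638821679702937429144763807951410371091222074923781526929573281918025610401651040346347701826116627847161535117985007494809832192949425196318173896623407016045049271921697904678524573706036165205979529667578626503760299067323463792728479683408514806721384204633718176992487317922680113218520713583767034976966423942992636900823413430398813163418475480712397810664708855160195451531020775745360564575283591906914092232583210573280281069936022254433724760581476298440505615364747387552381898063631546630254686339672627480212710428103843516771360038287023110706314133147594509087282148551658394859300820410055056864131415333412539902379473500154452960626044954350042045625088480265582111073052027398754320828992670887202068950202024487506743156559066097782064143790862375711370079276207361778654965401417603800632932144145308513958641602675892967987501476684827776097447629831930554716663613224138572071109842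344770882230553987682005692686179649308309233727265703154685598271009076847123615837988138502830775079368034344039788707695118002249488040853691530076610493427124967614410944147001677640642947910031716812414716170761510978997535587804081702136569943120574460672243791751547026608774724157065964814038848367870296099567292629834406898957977134080307103100506785700949039632989485600906067286143750696721235871682430972511182200909197909460748139611388066632749916416651885619889442751802644260935114754360561566161614141445567700088845334063892598863270284761749945707175378451142526757070673874711614311412749169646757873579384413106832025209495589562775008738042207751207996777201644851795726059167860523412511787998643731321504660352519301902278289125993221581202926516029947840463441395766579368567223026431146594603773757554756782557869962862671759598911433898629878546740666632998563061971896767529724178751470065785911254478080107941541465541901420290807556252616205161864043745921638033053742810491108903498325418181777046457620700287449473203721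788935651816077389761563941485621676385917782536390764100113974011989372783325603835986265305293425071586345676754279712884544974792358717196837998687905339621897248709821157642325473335394072402564484700979802302182075166456257246726251389707064223010833298760639510330318665646511708432544810153671655588302774939784003209593425113870126343718031707941363792977632004156983216965642347004548571748252319700493415918258562986567423080741935692683936276618033890607467801291314984981786007363495358381578975009618305846969366675304273336901838419682980321699015086869135700369465674953533937421725775409008626516430801545784373652720758550241128321598956730633462793601265698597600031958497254523337601909404320490215230648304570328740823619263377334885725645900037483639093540564930914506757159503966457570342200569320629205052953589022688004600229219931704519703739499588065682941534619912806792758149616113806332973351217519997943535875636335617740006395022447516031608058545565251181589440704577375352633866458468582013334872142039684900089876778685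847630690265467819170312602475101883066870516457610605793239633814240883389816551818433291058825728199089076431031529591193229892192091097900425149220552406481514286235657564437162812662677914038685431291234336110462287165024622100003675499501897779367406065744959513765387315248903191573934715131785008902241266405510786345681588995243441810000625388197494599860697858083131712411624849068648015565702510517658577440714475604471549749590811622981939977113281576975546971418659576791697948930171245533201781567140857617050842336928385102324742454992409553726538373653087189851786392444110859732784532096246220842353892669424600946018389197543766790597318360402545460517210760242524988918802859068317738400973744517080094566356543038243535739463914051905064111127966531625375689097940288141174787948718060555651687038957983719128086494970986671045220039095895426274145231527780691758931896647883290802432509540647611273399773076140917909751853879487136257833754742512117385208961598984208334811576025307347798499221934061207973627234665455042419021069983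661107969846537370963676143364861298408348010990699340640508035531059386232077438709295458437973877608643431703275599497455205617986614597976521533515978093896335468503897389395481014408038137490982272889936977473288489237538301628741109777959502730688450368665358465623929755159825947016110779633448349788862502697946233994589251116375907176491620357949052349456403277225342943651807890463636247526171992327327214172256484313254834223605316739599171266865980336890010811411872067844829627351441677489864978005654494765629763275557397475344787757811192094992486371868681265036348055766821089124838567953065779377459343390944491477266359952559083005211750937925013373492972730643565380301283229851540072224038194336080042356938585674292962671122210796070879871144293598923057785482181520758291884663576105902122104218148118871660122672346651337693231821553234533488445680785070013103400887267000109893746312216125534686690256061076457015463204237331866559865462135714290710652688961197879817106887381186117009095265154096956209538915456432010978206398842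429651280811583273622136649099574274700080403916642727812961814900632871218611945946057355909713433933125013102150974773180467118444629853445443164891678157857239040596329911434326489965639819302594510902408158151870430275261552374182034145147687849620968308494307374209817968310345066616226563680584187605890166026503449173383445769651204805911095739969365032005552298292601237776820903039373202859222315149303137637136647464839532522103024829427422990197235753387602138760161227611819467119249473258285488312156276592623760836561409500819858745123961778485082061239969253624507716091554985939251999279911355792817178849966767308512563730236733898817176403137749743804140013325652449308748158817861794993110817880321767923470065793608195702154209001112387661894372426357980534498096579094495990587421961734282182852687588038227725833004853021389546045669357718472515866290578909032063466257905055622172762998752718024233936472517862091094543991073427272271720991052296466395521917332327329774442228420596815384450697837009162878943608351317120703416841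702542148012842640210082301523615391002599057220709135303978993592935063683119656644369312165751462337657712584292935491644400941682623542721810978443843755537457874878174148410302051923827688238148213258502870798800033458993628458297035556864447871119135351221321520090334040712737187817863717180326859273119227879598632132984202198359339380672948600286051407973956814449955476548344948336993882515617924644653648573846176197373857221979025298361007624297526841086412875994603279014191502821428802461937568162311726442178000213796361135770876759427795222410374022242444553792771195870669444347959876371582625306465130502406638255130721475197691230511773263425125728518418905549351174681631487488852314505612009636679968940868367347164877387568094015442754261380555330283525068232607150793377256492563147485648072191606563466216099364360563167088237478993052396180598715777790440247627785173103420493462249279044110429448956916457150746070138779500555538110860666402135556254334870450158824502419725457341273986863415399956512102483415072403872794150472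765840838501029128699219093221137327218361221892377803014116178274236780789386357720122723446435614157196925370507461539852618729013254951686814664568064287332636428526747761668634672006895528869878381855435402066535268298357203601830183922394141373697731365743618354650087327723463841941021007646083498176602206658202286725530197360256939687801014911213833444427293678394859350700210964982732655725944341012768221419588590378277191241388229960990555198864251549682262443570148126571316893541525021541871568081990643568422926297767606914035561458540615615464686670730928940087227284489428318025187997915832787818738151310423448540295499646117054266231814225085332680632976889220434341544350172642471933629807697783523057774365526753163286804495442898133724453137339988577984251887948186453530211964858945494780139554223962823936531371868518859626034711345432901737158134409831973227472897152785901035321529717583806231259389713922772889598776922171864857049890130766511318664408088614430172832025487107020802343559442490400085171531725181828905797965598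946557599447028590965817102631526142672112722585038957261122562711856247088473509362599039239093687247849170204042501419851377111463848943261224989480187620241507075982467109269202386724438154904712465980606493553499742031729068565012233019878803079519514558723962819277814347623581591842427322926462344078083225969364477122869304522668893378801416790718369235555207906970173324607817372985390785590479336200707066463382631514283886935650930411021520240768042286663090071558705379794458408442866976036239385345517716305757865049686320107018430391149253200056613839635692720987320911970383983534235320642888154541395407276075243365138480121680138454904311889273067165971302532364731988321896336951230237813510720613200386057457490034554720856726700255541154119303448931239513774781215418062005608381952907508920998219946977531548714580095722071892021257857896549198468388549315672477030385937120411368376037689002126441379268748814057142085927584780839164334671942167231646343175320122634202365391871691028661796458120686038514641556111090541756084985263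566726560856384782546680946059077495806398002790338570668656777033128374080699685379072253300814895250011673876021779208129036172682610873860097780577171726233414151480760609725278025198131909336820579590204672333167485181595878363463655036510752866579091130614494166881240997096845436541855937616890532686625019068497724177992460634589552148480578265467552670970185786765013591002116177809560143638096202372049354606596808709104729868548804769327042907281952167979506715008251759565424773893128457574203772293198643427737331540852840009679379498195620877878338250927462371726874769164158355231988943392037045721090605601157627266536616841879712801355981247458578990555905234288641903485273193908694215178350124437925256488421645885328033929555292659578160764476034185274250675413033168548551423822512419826100839904520467638682525924869326642843160053463408626803164826532734596259354946165766790981685220931923527350397170246571463759563255687107990584317079465741324143098380191537313367546446394256394651611945157758108730144937311395122684709888432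426151863662685309590066132574161785309912332979705201815803686163068408146507856930195990200774511362112007950076234316384636126568439503112794381036645713696136797932093179643838414654013980381567255628374744036518319028222859669964019034118516527047837760335025098780390845175440494987204620956309195866315061918953494616824574351042680691041000811447670778379456673084890761575313531991967258655115011120259036321984672483666875746996227263181574487205322867103215309545052106591549309610901648778394024737276409252526502304325198481322558087208568628938020056571348228382101838659679308641309112048936489124689249777911814799669198662801705557677516351959232761661767007987176161426746774737480778555445225637961112829874025826108760352641680256238464180876964990403406588257071425146122305581788373935321600093270197706652699475764210427703442449089955590766657509414859703429674328676767967641831952682911092198943360423160401299268677094189162743123209649322311177642094385748220647966297633587033946267811266177894987624301020917550717266987218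750275492608724393438862713355262961840236286824317467411394904793816410195868802482694328717794062806851272656835915013924479344836328746579264095727545775231187288423096471570777700379042638440380802006238009854199635814378875445141249634405183484570440700089846852292226902126247132881731725235374394047302670641419629998690313771995810800631296967098949697595284792426918756407615870193047833421203164257124270323026173455989112960163604444995042773489917410906073208378134848584488708862020489473185501260522598458667751345930932291076472762972845573283379808476569576259204356961405571778742779011694919211033557677953641573856643115771933466970469133647041414298028495730154310495600849058617386143744961585834554334028254428890627623107868152623443148354525601886242376771951652643850980706392792595514191022068389800038759692979964342166017068149518886800829321303559130977869391308635156150232643473389370462601809801794282224070491007136830738241176206712969792925387602000644717635142225061784584283985376048628893235668750266199962887291637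178816848944137085785497446887028569338105938172930420061944927635454238083130715757563671568565756641536384161503594842932857922871893229163541465453920416444936972196672732937851920794276116205768613233879304209367518552765240748961096596215915905701716407638489716734476860373452143398312781415063073715114719905536379500346083959563633280848222725141775679997956073040933255345402502565154237005752610485659298858130504566541503399877146587253041785615542560226833860923732499911263092162935863538225774946733796838612278096613193267595323429227590043704138633282064189589829657377631436699887068525189863913315105582264137624050333332976587415293717710174803598219042577041485820088396017712403376257664153929217907622225812873933705024186585976242199242310222273305053386303899222691135484657108170701600809274271902683263707787577557216230734033553934442033394386036743828980615963561769659973630367098552691061261281502783101738030256006947741027476649039913740527086286049018911862326564876881643303180257029197225915746818135189141176270226097346225672599873646931026830609942616372701175871186590858582700711982661632)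

noncomputable def rc38 : Nat := (nat_lit 39847689881641917084934273520375149502008565128931691005077680858367313207742085723638889881781472456020124437419256887412211678739012133099392944321767697104986996218769009984293071130051628799448390397066686967242996209945373171693140017111174842347792722297493183433235155072566452844545337248511403895287264256652346141936223762590393766625288338302097551947489374192993096993377704292333755097870913080678686832079828197638903988365411498594034889007933081326048635038661454201545198811593854986828832230692354570908011379762233271045537309796210639536428843005812627189795523277292048616213006296641274269774911137467221229523965676558169202318005033346212811020426439387421543342694801250452189527764670333743364430651215773909642524476820523822981108086024981260320649856965105369150256167942661759943979552474194176059578789819749276650700195354172864557714084037852975379670372110515270724682359869268487134585316257240147678468069824875269955920208160424556348797286184868040040983551373463513070689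579788788186456059555555174181615558720848807155041545773537693591640042334890574006194605248765688938303941835579608930203720210392484608319400476150523569504077776801868962101498162988801755709871410848567326216852695889966523693352833481954287259841585607199963010268054962973661945938140541491736200108201624293786655914762294118286668293536831428835235612072649188672952171744415680619272844880384193748373838644579722391422849041948731920358982096379724310838665488031073014868642714021634956375492305850161793885582237488020566301059962266108904137168049397840359505045900275608059830304024077359464221592833290433027784509857205552251720331102073790481904091599772323824343201171519041552657660408788440645714330260595586532575460076005592256239616436821980768176604955916904677022314488901139759645742570869801361998215183942028911087005234962946988982708565807897669027207007611792238396526385590507629946815002987587903192702707495268874814381126879009482981833642507288603163046961472076411611272407392717483524852362796959073611656303398287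053353101630825873595144854887806480075227795844396002103039733226126410313619718836370098818697983142395209240182965661431904207597953299079796444795941110450434955556102671461467217994574955471457778540824340040368066596897879596656533079888741434099047292557203636125724731493071736802266808102505341487123346593992108828614186171329693065980169924126629483720217969956794977331083766849417612537326364889843989816246284285447828598250269201168249852866225164500568209283199947024505165298124336421279259667193972100328534757201921189588412949513856654389101687517988143708419676562222231915379886532465557743936572853416997537999122777465329679588267794377174722298065949481128282325849499680476188079677585815103161483642319486370227193121368784885687775896830897360669814642583691446618275019525804142494185975662000024246928559494648120400973324469682091545369478674993593544227325539915113042931627397315125136443658597338866939530393822133994417866512969111940211543437028066931233269110415187802326847783902771683960831613545810535004869259933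423466397222026575522914404682417105992784469502765436740767180488501701832195479786869109672966671118720989660709365862134625699390944108281145775178833610775493980230338213588054550816657531875051164543503172285691926932302508145127001400092743572728755048809509964365380967289064562482057805822965142209632392970373359988467990167909154467347589514851354147745309873149477001355887559916268096375059010776271275650842057234212815494419319967933475954659470280453360175105654333022758638474619718003657953753795609802634637744216926203504786578355851407295136344427092591973974862811819336786254244503587169484187992228212149119847992491804480067952219443784538272477613202646657016808936228239040070697833857586456601098218534552993517148465995136284472716432235217620842873711519690347123064565467253466081918837815636919633354484174135792828655002250787187665799092231424158766385216613795520346605425059222732709600109177914416070863124191847660102349315073583140957315248286816896988161756068763553938872532729648232087007888482722188631420302601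660212121236792634234794419913993033505741635169340054199061364763397891040972511654920007216490019013253299338467889558490029484114923391326061055880417630928016553847976691689237556133540968682807467892401500787314804512927752130689993752798883199146258560103366832966559371272134452266671201226587329365082919491653631033795277263420008272701782310265580247202495719713922028292847188202099862405814982423487847834646299418636341295767500361088094743734830683046805922088597581414064676208077245214675045572574542893163766294559638098857083703717622320055228799519174169810005044318758818081399489168803070343064139370400889337742790752929456563918142760016019145416858985811299278381266961235007443780218158928732769001964217856183789276190099262588669822751664900725174222564577189826223401732823966327832672762088836298739821525366929274645421440800097346377338219394383024046913164759571388204153564949387043421506360748593029452303845221486914799065185360765496383806186617744251379054085530425801824824936179198006433053834636937016800720335328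118769554084253339716489916690909461767104468366006014738023422314244310267597331351547207400408957265342576280555297554129090047493323398759774339625372421639924999076527396781188016939078158206778352617610488555178367316724232995969619633082420790661715011925937978157651516332330053725002765339276774171224129025396156915974968610486589814096248772887624169846027351044043221528605790636841382453551081673390480262513106384639112516202004721072564914354921432514707557089813759719829137354022113303851351081957016338667632975707542496247693950713739835522458938825938064440464517784731141576652594021060017313882663344012198941608409173471943324021069691574861283111821316048196210462826619476017127490049236529024063476304623817818136231919104684864457916240263975589046641797549442920597651586437959106489281153917606851855177463764718060998082273781789686498413511584582401211964529592676434362639896985853380474510414525796935099741871765553941790171428284941932532368294070402634090596019992472218832873822456514957967146919192854007062222612868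803798797357325342811994840481891324152554902967287186122559277270309752639214467358764421078057882667540959976085016300582768318831655929982825150019825626957523689489828079674928022201068065337283557273478029134299944946059273239557674872567733397742764760942602081924856494692094548805855386367527847594212470614665043123775752385281993643554365853492282770033380748981488304075847557013436208172503731976640429046994046580087654629866334702156791114704174131704136109903029595041692187228056349181284057029105435590657713616759577002403275113080427380796539826141880585772690444478665103299662358017546455054979825332241645774549393717664525420804139188291805164800473415965412320721772071942593689372814949353387691739469720968586852964885385304449422859602128574842063091618789759867427613552998847523128686851472909209004104683131927954782060892216069460494405300022590994741257029109253714942615198413083199124822252417748563588729756209758068120227776526587109464925249531364091244242139340043574307867581366495942966698928112627749626735398284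547237235900513463182381440238953325377214387131626311148624808405636809386520998456494575842453868825822158952618127116466044139822584657889613637590635382999347616635738000521408105103901771118504367130748315849289829038526553544484800307455131703004330206608442555135320271333549080799792640553981164505244642149650218882279977475322699345234732438919158285069121346301884461757784689847734266283904646037307628651212270510776910801634623862622590523105747134227314250420507841134651549772572992246183551623884962125666026904105800351235813277169687719695545705394958379125978220366854100959415786991143578890352126424469437362595682728160722527011931121492928033270807665505425863553612327887515959449535091750550964577391370300071868396428256730049596136944956992552830260957482262348702975032721295452422994544070396821916523591286597344721496852401881946141039246539889847457870485903402912616925721074196835436473010255694699912507936036351940835503434538035181093677878592687456229516415095838410832929904196255974630797667523992133662581906823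223388072799484839539066284565081864381503783858303441674200648598458277113788686954574840899630076903725119227787869658350989857078563042893156264032344273071635177049798540479681971891794977455965771091401272113987796891666593631168919204839596166841973788725849996717973993317871097686151780265338715761997014079689110767348461356388965561524024080930808659406291406537622919740045235853571335023729556757570744807247729177211562932323920081735035687007511341750717055292334955946176258970012684482642926995394430892792677518859413717997870587286731198876998383539895774500884833199465527575582903407491578898850401964365786730720023800113499224452822459956266644236995166132698581876740563685662702005508186433320483022220301031646954816278403014143269966103319422259112203441457513022831432449691426282453642664336700457662404823894822532366581603686599903272078278982983418483802533079954832119914556153085323327438306687487878169090406776318956349229053500588549940793622399743990289437014339657152121217653381945680937371173870643636646681222873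346230762723070741911259077440318094767174623138864312650719278912995712898617940346681257365925433513688945315138783611167683792325709710790757949425233037425215465691919246655623598255542701093328192754928509600296579996901103149498687427795227489541367548040781275714198411595608572445824485597829084736240773916038581019799485160262347083498999405781344436502049552038100328996920954821546363120364836149090760202947032390738540881418862965009964920247420878442960482855809857175699512518584460766772118343792118262024742371656531765984592237878757086765192213805738341458093483446977114480250903318396386977540766371055001815180411391590431814844770407233065282167118335469843074335758918248745456069203769360066442991064651498391653882640334686660675289367622966905357485615175224746646317319911521452288528124326382791886097815195008343459051701818723787078260535439260888725075328157515214799998853294657050919311552094822108546704412970625120295720874797174185761851545483402997527485928472664759635009641364373107542552007306748997939532551021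859185392155146977964647044757763870765100522509058175253546221991511669729650731492404763657277626886052063414864912920514718788360203320488880109441536262276817217625610665309040155695024163397254235643056685791869500250370248973839468733131921695221875832249040303413296396043825700622421975505522365976090522800559662680479926083872084393896109278102460363727226442828268719747202462948945616417439086681327440590926306520104283447944587231248561750937159661201883277678777252234100040974425278557670554375668733701361250568758972608996011704774681598905815889838607213013409513935209726550276610126448614031427567621370896634755629152194354423176297263736284029138321652655398179342067389583694077295938372251530363238229602499727458027058834905045647534282792906927268708033444316194173732998674828014638359262201461958878868599310539581610271701632992401154322459359414073893618095987088399480621544349853543179291740105179981272383991170318623337830182557938857086758555629850981652143138174122957507962604463764876689136553851059581926092883792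089571012687222077842767003427417368977894950748722933654593625469654833971802266923920493910826829444816745130276339543583870432936328091217989228552996406403328165334059351411788257104260474852691827227939712413723834645611109460114342841634061736860238926489043770567086206991437337609642841413550112024923662586024888863626231743449227815510279533491191527333383940872124354333427442342989206688511467087032524540654392542336668769804183357482811100909120905722867306248444250012950798146090148580893651508096001880150483798030331569361446528353061370120607602868617507796359563184781599607146802693395064295108888811429202167862847681010859392494484165894152482065442806615396875872653221862462663984191976135697111389272329735579454872288638982982341658908581498014802188921061615036369338901530007186822271208665128547568701785650677372005368995432205207045787868027289540674178464938048110141615678991077877391760044821012231366119628559820089550782841121784843210394851338454374866884247921993463123741873969988265122954224949736750706286402001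032956013944834729018874615696544994849199159979421899467221810068949431947213100783573787331317006923111454440477985442445380410959262569003668952029801201202277109891495646937744238342017078180140664077550368261752761832006187946272895084370942581663022280874941627646381260554182132159282110684154594396950129647975554193087464364634969668877779832933475157594093749561464979531973207629433429456602166326418218635907263867577235069602419788594871540409180015985126525930955710346739240626575160502321418415867410365659728034091324620593155416080616229194930177556473126270773161220412210408690260081638472261776585193275538532582481511100471553604094449972562601011228450153264454014216512258422587814539201000150179344412490048453929883597634956919148064203432938275474318796968573487215234113631528992413498310658048452395411183699189871063499301546245715899605628913667806385838403066087369513097012180062475993705290148249855847544675555175009777837461284404672842249276913344437325970109227099683184829862155473894982183859182507342284920611142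993117959766684928534264312629551993880236259074549786232497035817332886952270094192456382597448441759914968577077541336360163731117892618676906491080103876814072362747246440755536124295578023094573654251741445809707783503899615783090795993646363439794122751345573209389679916551635601653855450176785749292370182349181760202079433657603563546180850141393791566882391487809619441644804851991319385808849311724230454477013471680850557915073171834178334711763290871295340950495772023144682336593731906205548638733002312159225190257038427933878464109276422002920979730185128722968829258555298150447264694597783731747286457076678527796338890856181269605556547582549159633283797930452162351626022807031561532708468809234904263177611640238645629267222552546814678765392302106338742225854756120281807170085731119136547485665598456847208456924941578296466026966295459384217417161512854056090121133426522744244629698498884259900717200543514472638617817470908193800048325711808603031702364745688320706973509647121092892063150226039837546147188027594340798516882204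582796731369091082511544141478254692681057930426881866731153596758280225141693408922483133448601141483753015189897595441811333228258537790123557880449740275158450142149400363798553397727871293186127564277011445197480242177303832547953985248356665003856190534890432558215962085150205469066776059197869082861001303126905711712183642814730246545429024208060803715981634127702847268453754131212091078053864642546527934662686748878450993612910014406808380881133859088228042635076737750117460490346883248090115526323296534456639980134432346754308669265947247663735286167097674596976739713668432335740882741144517755092481214501993296231683572900256432598421581311447421531373997066861683913252729444593493055848397447648051986621253331862875329000820221062809034076943036662311213189121231901658314480878485537962031838368035216027303765600643241673447360328500243479195482158410381954582905250061852257286283321779937054081535416695792939353583532865077121484134218094366260626707745679071177256935673981297745430700627052841831317051446304016502239384676904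770823670662168990678957104624060525232289244549478632109478655457630691480524053268549636112424420500320746687175409428425332045910378354648815970839714464128804430537340258237812295390826234077661328131721840144867756723461860626285895570178985358309702684558133560535430348152931559615007028191820855993815575307284374974510006682158661356765937569159824262775717996931323617396329074738736608796800564333731222942378981313773826853464333991398340890327322853207773853571925875292050930418947463893165763008032393535482511084096728275646126670700571297116959787613046820197070521817861469544943026456411489679395331819196553169188388834129371509866422525174663019296552927615699794131049581702743327829539422782943459948215773704968888139792891806493842523412774716235878855785795062219295624955819729701893879926894347235722769768000485740222081976225204360121564032158216349332658979352543976384378441420364705713635475045456299271499249820804278523917433836381664280040779086632292414719469814906281557256895575079665283385683903290670520339518529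708027362566845189030677225209446142363795778294617494067066283370709460284418049935189241641121107192032824443389421512573847468488842062300109809761873261485012177717539628327240150418312442890513568069360166837482782691528841850046067265107611379591780666640251818489304289387059821660351888269502593149574267016124841775177405105400802633843973228798381936235999487835856032128559907779174172280554045723062650994958114848185007576178746805531344507645772698212705073374001611261817559936188051244803006539175750497756974437469491982126607538755195312233899710603490738128417773408934489373191847500808358201589634738977170258796448642433566946875551329889983662824924304355514961523246066287609449660531212841827959796000229625185975134128070749729431594464210156419863565634022710851022661731157964731714959754381467827113099987151041857279172736026883216101864247289193952139260376852065547858529574792477427409670857463917633169169781576767007397973870141165083579698280086848932796104593124183030348255436212186408638398040944139909306158480485990143023209203508095436048964050278074562124238633021049809463913148841984)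

noncomputable def rc39 : Nat := (nat_lit 39873328889032807471257342025818634537673698118696624355547623343206493303352149028022104656810741175228737193159667036998742377735787373298259261645619194781882120463147116024752457079094726672076212906604991579930768713108401097272653751426852956051752174372007262158481470454640693049588351276775206063677921938874617420688003961905284692464279394201143861377411352167121977871439537808438685619725033959808937720126452438813037663090162981967226193408147145527546592210742474219052993913944934590690338945321377002418169303657636218164833505649508866344989686941542837193199031314632429845388066699449285052835125513878635750743575196082863346494729833177820316898436607532443026600621427193269199389400586003292298211174659276423572134154201464688208452445150873596185098729879524972005758081077458177231010960809889896389686943585433310041189507387900905714103155637567003608899407049950098828313496437752565735318322373638602443673237856607932459366648462048440881579592870336114253483775205413984308778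393756233432832388718073477390520937133497720128335420926010901669474091518796254657192322856197737166226810187275860175030029002172225098102872489409174823748045113305177818804380928759732550702685772987841174926229103155768619632234952731215355627268049080680390530326526137086598700063190663835534034010917800397469184248253151946083215972031522541835006011674851112408034594451161554522053203197439553203222970431130551272194966200257841579667798835203321860253151130988236057233433954966779435348639844849860588639455041687727264701804721321901526999234166076949060609762717973954272872819540489505256123232167961735416490381906503877656869978164372967676102819420153719572965604819802840758450512745993117729642014767677832705411866863607680797226980964552152996301614630739943968865291000758709069449493713586528998686560996557227540695153171584946244157937098221290932702490128188914466471350869373560405554836779340623193437055624155282948720648258989814732438141986493721673375189404519312758849105572767764141699736919015014520348231671002310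688754425066272208717339200749980403672370195533712950077341863666921962920727931502603826994411793514663759813384739771170422178159742747349237596512670930594176688075940399977959378205288783331189858113408902064094716757325880513495474783716314288726384655344990344009990533575451641596930809707021550121142961177532788119662602365660883946305236987162640062741331584651346115398716580518389382534643830812835797744780475383769297929299673873063927736043505759040030973465201263077770166380979466120957927439478711366592766826835471189593867317924656160036869033809025799988805332299765740316343055443279095929001814293109334674722960912110133433641616371523833184699712786035281142149473826744701417477348040616729337043390455511816722032438698844048401468501534435929041200742347730531922340484517736088697995454380983418475574363213658342909709614652929145739445004267206029296637378696325808415401961537932304060228859129261095600036399866964387945998017835384741905359590421219040693812422593367165221273849438156905615759373294203752743009022314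790586831269657459841067930345868200141034304970924132167601735166897191226826311918269207958005349008671977903147299650977430918408337667921298868745215974370403895479557164755412114404325713783497391474965553155598420411618775241807214084888670236167809755396961595780201328703928794269387174331873368414597040618546761900067432174534879926865683106897602339359400154540146045140181253780783159363452556498156340269654783974050603246933314260944958605701671690965169199197935745818633726693916115570977401251838509589535899472156764519399041191952875505408604943715041586919444504001264863561393531491706234751669523272841601339541934406963750757870124019645857980510331771972545093513561747928625863355761538177375286648038492770205584425583062210236161678565458945371899855197318128141056422497595146434392218034156335923447370652309140087259683778238878768881790523036034262585515252443954697548562103608681439094539799126952328129556598160532228473276651898049822449705361332104112552058151822780663224981984088606055783161464194053816340215925227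578900766900165650096127106165781985250668538860382581120672531911331760748558031534884974386958393173941853165067945874411208876247723715705060144129696160077617380531616973775273123758133670061749560202711767520094287460573004969397391363114899408936986351137694185177642610775998838065583336598713397796119795472673654163675681998007050765609035558909355040348050291390346607797038738721881717399528485375550522872145072795428628734035387438351618367639812173887858971894341897512409692575484702761820353491592452710158701846979545930051340615234940691762770432492569981545167637470847110241904537780934092460367420361975230192967515313182347158301131195416685590417370230831056365402118887926419412544360921312699494106156263142004099872226940109194258430177285912069509394597104893046594456523587334631417260430560084282466419687270682836455665247497886090158156471724285502822176432869110967273474968498346022985713601329486630148271682203079340205513616051152286048951821776529567797358415416630124554202719522387025757646028960431363994306868422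783033768556578344267314201777852095046916760497274186073535301771590851855797565331793448704579548508571070060465094582687311669635222652903469265169920323106243287497984417207239759158314729335476987262106702957611526640961652192665757294512981179146309906776747951291294205897938979649948631205498459083335976037962031598979566380988805120339439372816145150467702399744332592167321492936041091779072500654879923389419953776150506507593677027534129876001846296817316338219060695255722480838453216761949633358922246629936103458896816347736616883927616869200075344166932860476525249464896978137734510557705600086872707219543961226594818818830526223669527564932460283233150234974306299703920996696986680629254681107001524186992387282655685986293859417021442546945545020284184877456944555190284340237748215766978534446249124971867229628422080720430264174595646153895405858390054441760709987937025019645241796636718233091489949640836592161117298921681381650289146493739205208401460446787684581085590715809625005498488486056639468877849445572816998678756102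593716330490842526169708300148100264430868481112658833844153050820691881132927038014264800229899982788853137484157626174851020852059209913596970469198383919954994310966321724644782963394356262589997289977356967979247097013969121564928262761019127353109963904319279758638263509162063700581107303698070866715074645102754988094271173044176454087233685384063821823633536582509441836902482153385537476036167378408993020208500530143233739783499843503367045557010287643718539412581222354617182382769144758916110185706838572242735854973984353215425950333427368061942679107976098591946752792210246124862336790852533850327405199555935739009053473933812883344073173390455951563503077031894918217360938445839664713079975411132970644382713938800584831921285666181902195542503255538831991670952720025851595171375238141486279991183557670641880873652872416758398556963975067195567074659092645968658728127218090668515755261744900339996873252700103531421804554079855679300391320099765554413441559451647771482907108696125632599306876574069236952452278447555888724382868850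914759934374963212118633399745857582068105302150579817413874743362956291678131885249609639201640566059677317652472416921942712289250282073905631019551009320465671938280258606906125833440702273716790175131807877744410478517004259515826692221087523537233448428354565440432772340242914035516092782609587304793008679298179536546061266704040468832803838049867631745958477837717157756189631917190864207969371054620714703084732304520955269156358831319980781539784004654111680429095272998389307411671130728599869307080454974270792387241006132636405285654037247013058633211569142538959748019198723445535232105321294090684588686466599648163201615947389031239180658915690601579831052629412027970032304168221882601111639425548545995218921413310773450703602292933254847407736764654157098064982265500706471950582516072095109122130367646318883297912622905902024656035117557871975269138607662996570752118006278875184338739574316235622148386225512935503206504956356576106068590818812039547348936398403010204084707147441224165535294862551042376042590455693504244965879999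371610150835401175448546927399267140688267294842522748782426876381540564071713052630480918165523475165968246322432559626686152507691273561065630575127078633082569588947066848030854782104027964128452421346510917077830106499760764632312155151149830751059444270161511181022505675145905476114457013896069309900896473776854618708559104451015887772496735307870146574060846991747643688500699316920522603523096812739537991540460647108136282722806760387606692587099047678385661449052002316565214690354000520717080170164235762881202195737190558710864859054508697110282036755634394010217650813984630319081469183549390640076165771833492368002414632940513783932458489647954214078449752859978875016431147601629312272621165820997825654063082915770642138913493169489826632927509088316181338980626380259395248127210575293535485412500543049533334854362659843295374883896125030459818986424125218085458846119510661734608748102288356303659272530773839867621537891415814702894500484892714785472312922385795345527451986427490234394852031988742098111828728315457528741434361261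104852752149856829637343963330303598638012041596269664397701275683561119198181185796268642160848597890889440684907798505710665362553683313953462808362912577113148718935194867180092284641751169885099857900380396533677889482336838638944531860827540899179550685230635466211686166773682553603500300620358600529606906631902301940866088389319823894044834745830640068550306715238158269704131397019755364102030343842012497676237994606896075835214938005341920574704564126993547560738000778155361013984341993084540719267935938303503217438830132818393125618419461396469764591500834066178953074959937392820416837840165500505412558093068643486311247806883105681682662664383839262737312960987343509843496658922433350835011885886530727582494548987770460910824995163172741241304912835279157424573202733211171642166689263681490992143036439009950643622446976144160619434619118984897238075490973790369100109902927083619553834853372510163730387795789092906461459321438555603883741701837259202107985802042327919594979541028962202487042197017349010678566851436907484545684641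364042418218579114963359639700352938489366741833908632833277659012198382722079830390363808512333950183732391172440418890227649044666363141383191703750979916543748789922864412111108037660467222787410459523003668294829516101008640298858202750291201085522629481046096773247950792680139323071540723286459530988171740544269056865395084942886916164171129985780320247409862355606095450365175485941859079326042991590883007161034626852520166993725412704648855805846705730008880640779618291593566161313515965977889461024535796327177502634405329794958141193660343163879563307200947250902895727724827246158777472012558562394817898727688550470729584023283419222855073636391331639978250358300023875120780022593515358405073598996253229630164634709634368416225110582627142139871786304592190309487569333653996047212491371993954298767965576960198918571346149920492993378164352765650435096423179065364369056377356661319148036538168521876480768167686395631818536653171210605708735818551470776981795206972410809409559059051563889943178791335126846587507770808737912569868535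430150993093449134050875074103676930751162117769804041331549187134869749880639757639909308066038283662633184352241744604715438314832056945075961223264700753195414762612496900048100367045673576131614817352500750663725494447833739857261917997534921550248610981452687328037994296211875149156471650687714318094210916353291573036809198750725594877470392923270018931365325508075154033204583959585339103525956327691286351340483556183206575379198971808943229839555465293230495961987626469275516583953531464791309910257932792829834569750196530977567235072783569986421652547885236850109796597073148343620836484395543729614480778993440797085368637393384778594094258612793767889686974269420056858317848055262165135705988136254147268418835324968559167514673882297839079476882121857419040794130260768449555910770805916029210015000630575348744083936478134407518035992890399652133896422510055599677799804959586142483093458633495108297329580694937860364348320442807144992205077239436614956871686790126275268901555063658097227084356504400797375837447246769385912922064278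464123260784146556405147981418853900864658462031822420021192265285558186517889484266422520312020255795353873705743846182138201290300637108185274588019087112990478854870454502120103296112740118570608650620291017408641166660627343565778153703514527129626500055016221844137050464564149968139127305857541018791037833941541265646637790490130823674677359118667834880913639268613610296914640698095381268529988876181765737359817195698743438373948204193814148048798784581190639796901920408370938190014381543996722466679473763538578633946477956159774314101442543829198279237204266708593304947966690422922326296221537506324901861705061290747314954603471886721193221680908896964871352039663631508497234917058852644063196633088419488138704593585552559436021636186462064834552185380385461519242545862676237311872459061891004508130516942849130495391675100729216374616696224152672220238959760902254069138186856855608722323524938625189268454782307187368134242346063937904358695657439997970420948890486886506639000384940088738558765931264676702216788985132183723170054495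770570254783302777388251841354978794777526963994901350932981993920566233179458893039997929615897259329918436407345791118072296621475835491905269355423364068595471702187597998744385572218789984686098078709143294662855864115938817162937318965480357112105280471779887110790897674744845621740365224263099895544359405919861751464656591846116671296022094634077826697585719219746616749735392441821135323554591215925894581064251645028874586711880540420805755801300191841337587121895110640213217643615938123429883483923722557138459449118546124272894047374965633999149065247993255883519656573345192428962531055717505174352034249491976227897244095126637815046275345066763775634922122566206052950675090002064098505221602630468881500294108935316779941929217382130177643877691908963169181559552721145170067717864002368940439930042199875156620359900409492544118784030909370183305058705932162012818548153480613857297335896154282351151811688136736793286300366895042941529117694724879453987803181201108727116272469369553141062375668962103430430715926258372244278910492630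797441721769165296588587683124107232834567533608647486625952277064680515639749092942762877500174218298109803190347788906972572072347190292333927364878984453987629901676414483917951696189524582845999970235080756333722760996623740944071656231059284733651236684834474334595232803321715926182015880535395386970336109190309538411989276256536609310871258522414123327992343320097416036885221403514610011211888535526595711915586866138400915882048850478327554165162316237172488381163262787882674309898375907279465069438086644151466923095178916596126349169223142735770970824332579221027749335562700827266390517324976613108370488898957629863333189071065400409256068857891463891286800021830898689600505627609080708857057763080386378102699316752042730126494756180346148739285888645031738703201120185671902139938911826894775834072032667841812097429503038607085511224080035448210368650186002380269842416606314815630539863633935850653892875541689413235153604983600438231389168024993278340011746252033303078516325877856804227635957934054760070977831041384523253461220564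585699868689900956473653450318657278731826246245140527123539348313273625100719464465572617853600435437716204862237377215832573097088394517948829084933606148937692287573573318821705679762479666259738672390106055642623760186791155802882600582065907175048235750306993594064972210761857233829599764030051198993790962789094014346036348944543506366478522213955539158406693724602654394565270735248214819059304358629189933127634771594226036306479132552580356083558523971005377972086875927715044046432290406174150604783536414872333092090691615550697546383550017113321045616167841005777490805366378028965597583196449935168055097379108700340919688257475304625334974903001087418676015591909701111115366774943125609161822861455628586805273755223038252724441049458396082138799305984056525746082167213701557731686206321240924987579997217076157349325413534492083148156672257113139178209375851001482907888479134061752697731230411540117033607097002949443165045370245573643116289848646857186248446817220712863149128555088657517385409943871340640855023820354451631743160260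834483518784890153345231914218835748061368569565863901487375717877249649573230732741719244422238622974716249406158813613293048539765226616544104043035075807488179700500679816913045882868360978588024707681400484790112870989559423803650143942310418785823701855177379354125221807117054543668646812765166434169958538870164985067192092801543250558566901969430423523716676037586861856076323911619059492087579597597669949630450331282903477870448046388062658426253215483135663106703879345875052158736214309592776998279014095473368418192841170216465982119670833371727634008221891740160145403415491776088062632745077106699230544149717099259347763350144443320962810868987916683376871990657974718310608441840115174572303730848928748814168357917676923447384861357704199326286231848348884690752136908513828260658468186116978440789894328987637972441861439326359976787978924240033448128418289360878274833564068019024544517051885620215255632629295490568799231525950607451783019942792601278599587514488892082990902093857696996055545376802735472654165778447127361791947911057420540478767412725119418298933381533543277126171507461980713148838051840)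

noncomputable def rc40 : Nat := (nat_lit 39898630440241667704189116377720505248064661191722718852228611689532454485138364148259093801875730847266363771038052630979039302197280074906204538914487360821756104422577681471036696814624880321326494030290266704994709809948421054330167279065322817232523798481993371230502166329029793362882740587982098104167381970116080234969466671536372999008500795328690035454700941551229429443706845807039699484922385986820662029376942963275216702664618162770293718836977493942655010347237258736705918383388634785387590153903359834114672036350431710196118389850664152331908883997850323839277772817222450410378715614519329100834592602993975616127002563255472051660193917769603333826981209954270232523996409505668213254494549019583966935806987952222884016795184818743542956989394067334620230888600249467141472658834022656713701076792814079607630555002102006620554107213662912153417236934123050339302901605225444045548386850387365492294734743123043222060823769779662259563782923958730864397430014756190931085902810902957825319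370694351233607280196340778964843212553355119906823781504903520741302126075246146062331675968178735286524802145409787658762922830099054180463722037368313963126428807895979833405396053494265222385457879190746391661383556147455552266024713312402852242412500901199645357868897028017619501923827396515883690034341803870108372780767815028931431069450525762702923312741868957426625093201675595576571520572103249857994961489711101126328010177049708760539245652646250234790408561154950897399286939002410181271457232456428594697513950739476649095906743557082533561393350069829263056592848448931992136961082812312868205290875226114530055956819899856695759700759043655746204663707811550179294088795581681826501264440474014493199721316996641760741687638288576809978573152810342035052649904876180305824677505574463066181260756160215960670861025226227410177067784691746319215045739553854091533898236709094027165458681352084602732333627540697045223259404118931394006821721211443240896378213048149548000977343272175368332377486989155609792861483363269187556914010534623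441283612763921309339172900279002127212360174077791633205247504883206163179063752888568849498520116696588355176865003470163508423241762498374082141795526384858328014830277787327262609083827541066382208091655017942985604727974027085986421808432441331077306746540797092535419117608745169227303340462235983097435950839129408747734801032509323720831063977739396802372846195372743290830366835183137068776282125999916283063576065918217423974356473235274067645074339512534701481887104185846849679128781826215701914996771272081092855271647794133930092381792440350571366605298408649539958134195255430835872923884835945965226708956782146689939726283775341024646921521469997108082740824699459401527323870459972872360069124633531451823819013021745773636010073649190862276827391586783898910235287930853859569706902025606432129248161156099281559704892033329434196424481334696629674625749376640436472903009399898965856121237003552391148545101261159265344005292832406807951550039066554616296208573620211148283688663172624933797507736605597502500455444471167775802568585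491477862828126624937149235985365223508148153391799622558968509234625520252137477788671747738550163419822538302918427492252639642148304355946802171401006096957536751868259772466890342733672197329918567349217566344398831369025683397775859974379874964700043737873864614985471408460773308901339993152048170893327466050360839156792330682683511787587568976083580522959296234121224528981021637182198606828492040016230013194085660902831398695129971549581338611842769784946112442062839789331916640945445441126446323544822332660037822518553001420373582569796770747474966428236647887370019063570220174434939966423627446147010871519334063973718158316897536950211234986748254792703358895074938012924745529111497807730135955733989275845163202878565253293546494237853737898244160530589702650814500946163407175633830877637567243576852336952715815390040243741422906628417501539944637997262034544497274465453657058569984254924373752896150462576420404241437532025346871210271732626803370446959740242002853602516610232507182369890579233203458693792030757726053138027131860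625054167927532341021541360062059418613454184194493976926857008574686615755612998918015475795221527583204107207492981941502164685039815337423589246205374098146517341700775170167333761606284447550836714252412071092145647700669522858464579123961663350850343218994706270736307120827070117314693152408382864172420192265217125283726293502860648196252240491219166970006603634740193882580862081636560290771792695226358775973962249266176626180656976857094673119379105708475100377810877885811223045373787329708157411560974166043051966248528429098260366670955010031499292275061202163028398778172513694751511541969572896414717113980469541769552616115335837208705776777823933029478651903022640435304197095146868647166323196172571817317469911939180800438142613393499179844182379046807104418104240125906460101453480813188748248263889763987726869132843829507132820435179685373575251393036724834116923352991623340864770869360424009799304271850137784225981148509184207276022997828087927616171733256296707287635151814357902619741879119616490156669820367970942161410928153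143444138418939381475720543542510751041491958459272609067251623456105371460405430841102749095699385404361077108912221793327421198118297131799144912457511757553413009250305497366673250369249340768066947749965801637901191399784134409841269914866598018045088682153339478676645372177741370526668813241883147720741908773736528872902387554735865996615471544971708795461927574397415009185358999064545800792287657697865378326609138374047989107232008525516791865603942593778705060579630674777666697128838178856535354314773316233367047851483896029256273246843417553173361520241302470902673460199286589356280239758844435200020199939436967324473035994591831126492026655376686429738228596490897515514801603159984133814395835200476704929969675935677174456114478062361704004743884315441629225433847113541060913696234918088036888590640056988122933341700095600384499355239848510848211110374422829034693306862982848187447953877790672879730527971621879837723260350357533537169900940602733664405465461365838400604393565384494009733176288093511299826126684550929285655991845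545991629436788087479795735488008900410324739952454645384714449367526198482016162389880606302365547984771930478688077823161872201371102962165251479050875240301250670135074839759153841259657405868118867966030824312432729269419869808858674867536810416404634235340196704988685021865780309626129512881137699367861571666367194069707557643591210493017455050149038778408334645513895100559350301934996371529171716413517417424297600980706271162788380449434175442382301779926093461934680026642724185479005892922618021116490238402299899663723339733904233121994259928523090516182577482620137964924889631435972023833617937407572495554713398806033673003594020092930449691850172218507764408247543561335981032349243012133208500106684382636614166078755830480554809069791898554480155467491937610238293984116682410452204984349744775924103743888526334056663449624929522704772922368375708199887912487740376554677836969156090839715330553765873714291008281534841295435840573758610559895529168531200824354130477125810851521304596077878714987107136382594018049218193814530605861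363758847428505043874743199154477623802794367859439095948139176345614032632857043030350065611226075973210274239010762189957062009646772876261054373552361327315684649154737075152875958301935485835965775650589368874336758541739016223492735113212353945572810921073558375565523315873059713941878738175639979898320752454167360674497093732994426805761073966195344279725394989512513821016575831918414509491565375556529480851738536574671588586656027725448969859018445685107689869934950547047105706280978965041055417191772618981102894347086301911827963125789991937304811272728934079848552584234653713039458721827508486172923921256612361758338057475260941821027747045980492624958140682988572673383735432719160073797553651513016164509634235075003037394272239399363114526362704935980139203772928039752817389925539933823924627772636512291475331447519549254809563044709404178976114629447189675254631781220314579269459675889701362181520989726378872804584136775061214517295994249479134805048848171340736398973306282763310953017544238096093817142728641051067765738702606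562402187051509973056784433468721105080185411335318331373792374121380999004809223033744705361726904089004313326484072346921683110301700903462120779015429639820214803363521738583866847304125082099660603349836597788672929254568663828621653225036582725032616689529285428907980226668554720001791775007697618117560242582211437659174712832899141637105089537993462540677144639335483818758229787751465072493244636074151922277176951786102207307382015692205481932133014562683625446885470108716789170905794809855131961045184259487433163812617353219432974792019107929868373717626228809663542805196506599813917192368060758922570494556398279390971844439439198632188926518164595455528831599801452503890211085372003485718823059032179086035196871121856391877760066640616571290555841238001177868467750134199372200944638467955533855163373192901981233183911568080220919699280527536498399317003063365249706704439434622514340048510551405642952804878867548341459185347335286119798922763706946764847341300916690222647884540640315181544983004176036017489753457507676352388580228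517053453606823600501008679132976660772958053492015769875748887104029933462211927835243021481586303923245811554265592497212365278234690959829899106474138223192466855709198752506885132052033150417738738389544063266757075286230985618162236737154908226098494541704225007413307177444124231132508741622809060283206421499407737953798649282588812984277361052464261783938469149073221958641964639248916444289310525913018863050807622394467174098856538706822757844459866736657786284025582446139034609715450280697442560123503072468103087285178329196919691944286957488950995839600852288870131183344466658025360528069130786588908892813200170072529287259652285700038238512698679092526965846597035281813461562452944571537833272379876629952411401818055561969700293843910133696406180716676018919007293535036497141683850992830735152324879017831451981306857336226924688970764076130509394726296413601017239672161840663791068626170257854418410880098842739458870895228460729983489334275203396446608117319644804388037509837505497644461770408949281520811796557410030210815390196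269048093099907614740431735324528225213638474372180046870148633391971974495545585485375693286579968931563819139913300538545763665485814794334903615702192922979854295975260593688275789295685022198211230231823508042860889422415812113793835538770716443024610463136452801950429444619898526042338134502563849504785019634839977507934246012615635300671465895159898711850106345860455598406035069089580189182324935119448365088398048033739489076197991765580912188979387232222492919554998079137117401987001968536499758837507006844101931336428991269518073299840992281552450602532319273232396759456461188511715879403389916721455901601839137701048341847080678840205572765782007894960779983132982196564192788342689616403149259182253802282376024961745925469656997282422989969381161737227310176182425930118710150050163570248046363140660157825071694903252011497491265829213882368211107785992806316300046983564097382918971115280409600859368166416880266659846816145489627825230322499876967693344470465775018020169118252210407968240549253129575016097290364957758155780043093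305755357028822093426165820053408280413041360367620616363795404669763153967402101579716997954392132076311956028207408752218764756841424675841765184775268524756968498055388433419392487513336514190023435682984366555394100143738436969129090858783171290385908799423910490541865842390862705758600201123707299940100847557305381692565609421181507490401528419295364463031742431566655404325034108010730294784689610516318748855168183734860260239155563522896476012969352356968077294134720838584161994872759004022372321984067005762845038764135792616049006126756912838914352352393851905373533800685231175310770977826838080065188167023508663696028389508053696466697095489887909097769266551223150506355120932859874723348426904599224486708815939392070334971340276107196297003510047455945423430132083985065646483126423210165417351578485474279952443434039466497340917229119903077324575832733329746995757372200509674051256995218905541456698392340928669726252868894999989090296037893362502577476291389090854654852367634986110219258835442444032108380562082913927382707370198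013360852152797969526026910937753938057434696649176955428963189829225079309705924038024176656395870359117729881206250021451511664726032640991676880257739442479432080680282383702940806435068314705275937355323218201439746311909281544560092039408437739489520572275139902172297935145140483020031111851917272185074116999045439527127990763118780294409410297252196857566088512167148365142135588770881401499136457298075872120829368073826852368112629748525650462509789085202994830846261232600521714579647105069676816855135587769344624343395950398115278425869172427796261862674887880968776149058775874661114574949939046978626611540380240876552361547058115065659755759893811164137679448165810828874116845825116127489250588419629373722728148651707898568749730080036563588819252170986050745056798694769840636416439145541081610679259108908316472377205990686351613881524816398332864116257920913566266040460042926604819942744865515041023998044768969468990424847748455165653806428090252708160026894241855527647289535454732413314297776050519164243740652236545145551160164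104489017837520771546017947988711528585611882878842983828157675814482553565448412380675196291925420845918940351452116254673565209870294720061364357242931871007530442453921448191196831839460686927572273947875232712080987871644520029435348762737753781179316813404447951786472704726203847917024801386360369974282206659817064995007954740941347625794378558277569549463683648602003320285298523799882192924073903736629232069047539685788125090258839977401168388178327011326967788786491180823157260988305726046530464537678823646455946036202289287853573322719378508783556425985990284916313887945374459434643661582520820735117711081542978521482757493492798839769588161327570726240710781284202449812577259120271437221487111700862226021234759217157196610137339174684982193887868270739202008729583979369187207362787260546584631993525262547728406619184397782812885931143807208506586893540581692948375257349920236034926887763670293762860449717155004624349659855095872579597844979193657442988141298123759915870104019425388402194135291174624548449510270487656973158789741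258494180632237511257034595657155155942139164394292096266620012837571817208330746626445895213385183513524530909581807004454857396313578674118533942317047607713252060575092805996134942938873917172363055057010352528601421686956914721551106870191162895891799638768150298204827173561457420291157859825885670404827315501245534744092059014836476175781992468130209231116860635948125568586341570961215006047231182421309846108427734053364823805503043016088985033695858965080084206358476091419104018043933664412408703862950117501530313486516545705044335960508409884972372213535959451455978940655522965612379082768085449683596698543935947234596827860882023297033763730147848554837116091619948948200128230117443075595271708788570265296350067861848970387193864909614178704129645498159449150827921777235430868815160645607357346495325474564842033690840832918467273884615221375457659724457628228813345359059708858529282192132249390064501020255550960163130300587580563982293933094289401277462525913059122228846335298887177407096335165096432602204897070017038522457816008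114049636106373768129467708520545443676839757460036223182311008092804605260426712994381701233502720912962572490788348819033536393665786839811363738517843861759138220872668362522098704683138928764464363678944835630697125337176670397374831612070058574072770635184127250024727234068433235272920776310370009685379946768461932673090361047189614478787002581036545671397787044182245177289846661248251043223316822475553688905684090483760708210923090947529978271980010715175400775080228111023488834538433635592775552584742667003969853942737528246625833936866676367219362144623445829640740101710487754265713324871827966497961623932435365396295734405799099005277449700826661528315441253463758429793063473196633417553672911970742672437058162894382166455542394462019989533716088089298593473897222488086300816194395436248149893098387044227933447657736614228185654178962716864569241914396093018291793452651945069761863161981263914658151448160399555570930430896980043050831608718955371399676335318714937051690284143181816590640312815138529377469019415092303050855163311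598209469277423550924600703736595814750437238646532458972065566664891750372033227870497855817731145444521209831647324890240092587260780319238460885377681617864706161584826530665646141188198040064902119274237911435939300724861248304206119214346622179092761627472024523959039556606356355309017461379495312733118275106950925706897322529564181546950411771806802238863816636930757657352117712837368065047250954757330591204215841769883697735712102261502430550803046135588585388988422133897099266628101258903745657514102889912614900770795093398379624843050209133434622146810958042042226983675504137980022154266536816402569806985548406194107498784584941967410157090368489089385358513137240143277436449684098503300369237552970180707972994411075420939710403013536527349762022960992598378901729958803885482116403627601911949921281109690561294342014619870612147749830690403840466807125861916048323175781343899023979927847773227143524163623778993016209981417946319296264240438077420210568590448226936454565693104606729529664785788907883339933955072327985000014075283106085520405436215398860954659824080930573021512562539275983922387386105856)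

noncomputable def rc41 : Nat := (nat_lit 39923598577354832448437401032984033008255665392628440991714726899073423205099593895408956279534207958349649724639679863962333764953216538843893120926553830208648896218042267949374850144024211502796828115547434743478662863305892598198559387098978734802953939098379551704271172083684098008115996229418969831070759630843903208494934966363442983044036875780758634290858924963163095288887713459148370921696583920654340137012392289480254248374778898124835720098072387185198764931478487935279109135864659683995108315405855282096565399672269481349719445129273818804503140648551568604188063636855484156384023517172937026673154799681919603804013359002476466763688919955356777724367220571271567453277354949757865675264196266239969060717135844845476227298696742437225662554092594055617008400212639166220399731868328797286772796832923954203058877396622432201850413303681285416396579328769358844193014574067713127179909803720322977305044487223467017267331991526093055499119694694617877487201642327421421854086263245949143939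810630797516291143327750181448759352800425215458019445699914873853820422099640628793264498449662470926545595082288843342902503626110526709656846706963726144088545633333103188147300063623845370870985264539394455749164849500911011487053465258820644945891505619677880830624576723692168397392499598297596370459211022645525827937958626617821111613473167715976200621973634702116997019664839729711378313922388005792248820270221030289919317344848688675390072337911846660580887973627577712292539210919691633493577042328227478042241920349684309651751986753027299574727058116224569435511969351967159871335087572986147923499142588963503942301258161545571758944768933207558458337141295030115648717104605752733128871766441561447976644597713135226989061313048462472115002105536477781615154594323142002755215215276345990633585903330672831779292054453416723875820775088130769467291263065834209674678176921885848568245724667502514615386865422235645094018230323319635144727147699905890137739030947973556962344911737352405478520204498291101138069184731188256522922898093187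927205562948029797169068829619831419649438834865637342039544131617417257336446848465684192234997120928649837447482604763899570277140437325985691629797795025379244285163298636215196397570328892701538806430443743553960609110282698800727742656584714696795425113657418578176779882749634181686764818970223573629854852275391974497822876256551415265040190966520879337674269913298895679573118548365800862837998720679313497029695177243124211548888110069251902352770096340238489319144799693404665359506622836063858365604878899492763615869206983366853171554959007534337684018208334411317212307414300697202841677303453735337007031799792877273353895644974616620161279790348738813477389247554307479591525712350958963760018884432930603729952115358942562841121283873825035926014798723543137907249707463417127122723996411976367187380762326417005013181484711732344885411110492552928895617933610066272826400548163696952015337198447145938520018711842699945786874047553221686714479556943575300253316409702980587073999496349544640627831437362416877728350092334760056984702081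912882858705486687680141133819294240968011152324576201126240571539345768759636468301903940110453537357450292678807203051952965275587037856930526469481208220496768177554447480213412957455112285558625542223523541549509504757613471885958982127776382088559918650865557098116045233701679534528676682936438698381129697731075873051259897221113768708572504212488956557749894539601781105754273006314629385028327594560644655124746271572249852022016794991749448541003532506341735021886951858807434416519557280387393319489029702885154736089631106363738341591271416471876432898175583365075674614858989436270834987700027187172911629523067189207266493968186350514609822226046255075212153987651606118940275366705536566866868142846999899328101431009182404270576838469013797221609012594549723986634695383066513238648424917472366894579721601807397152987151848244711022682934182092132270397298193349332276425963320126624119219121348102941401939744989718421941155476852735387988734711023427587855066124352422851387894139440866937387794382694229180439910113453702295154851325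050057268646666621496240285941075076354592510919446752587036970721636534290935032105794260275877865194110824956502095834191814485793661973887824150998198171407623256919600202302607775426518463246192489926302024562458961327864173469190312691962110736727176818036404350024366851878488050389297772383153651079355513320021936035385837102597138085577388847098805038631905516123885999280059462813844289743566747993957609888765829576406356042810586210697275122064675459216128061138901728371720150077882475557391255421309967982442735621049054036803290648767977510234087529036691628990622848347864464840449450502622585313619322495031581147907195304690750465710656251007955739651668999055220671920221653456863590317621799077866533800469109775840878399513006339677569197974436996316881468302662958246075801895218672731320719577168009988332212118091040412662956689397594258220622990527066176363928991509407617408437734342775212746939634837053288635174214280861803080462241255220314359622239634229838436886061671480745918946390663549089653168392223108024429043726985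970970525515373723228149603994132939546400713307078763355619173716220347875220558082884743636176734335485130439103500809543909896170989168960250548898789683067265066390192112480937556109770798637627810805132904992360819501575205246107702610253149275841304741616391016056444633356976179765687203791603957845690302981924273003097773063399844524206314030781784775161191007079786189363409847052528894004121352600672378069722341252416148158882539868164591981020358439924203768272909223595073374199074526687973699523335232182708922686826902127674448414963352581217689208218687363652366444188466508963146845439624785203560228180472847123694570319720077831531441339478749784205708615606374028286910931800750844165381182410815332273382064915815578312179859938265231133039988111480005998247234517817469214386865294205441416007393175384825462984004016597108652689549661220780311674135190629509155622025733992092386635439684698212173677094867457383115304381030912836349407240487595921341570335628616820227603636260265675823525690231683994616377372745788655455006495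970476573964839671082747686874898019450499417571809119262852788202940945319837138697109428726455721144761905336643007642426247455220494464367583427444277859239642812518763276329131344244091032452309263762094069966915433926345262641474300129242198777208728847132989047147318354675533300676091189197312458753739734802565773653185938549479733468103785413376813476506543374818534214556580094090908733127168778978627442022736031864350882585176161868412819768272145105374083655453526408127750160583523226759979899412503425722319904052470959738429378482995786102393991217849026720364612299442241743501578601762136356915519272910903446328105256241148157025737427356293000685374110620728477499073968076333045616777046657271411491536804205272926961855410360356549030982658684797500792497047752195492751888989281143650495489714941609094202488640678195674923782299206548588687713515915136325505562851685127882339317936331214595529677760900878999604520698545263919631616613777260884777105496935651416587701064958973377238895686365597934585512159595402569857632183799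080824520997627013893034116738508684582845875818991913566080458663248528615600540139262514761273647588228074344446720839160838146618984387456750746032172026311122303086094067897875265683711315207992807675825548760135354110100933862137104450147504333962218204828762914581838052884572966137841836269832295214358935029768408631148752335390400176258786959407831145546931862775749025507125626573027591758547537757425485272592269197785012997006192557118753575175864278316478687128470153180723403989004174505613691901355645630836113326290254010779875023180308343800715859263308298342901807163748580601023795001420136370045447973511583655856733447416370274927178084494773910502725716554519995050318652268337057340810200956183312757172808683501924327949625717121779648384578178586190094473008299271793756404849412297801360864726517762587018895020378021737843932596739532808495623521328313615881223319872106983935827556735274542962727929912019515832098605156478680468138390443779148400014936264470639539051792044323021743534399890198473720333314329567224842060336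973423155339897871556068293952330220898300696071311005148326889968172667002881003440911074342104707641621958484446024070103947900496448417682038381224821376053360539755046423867901860932553259798957060625028004881751666385318986553973365403519846422778826405798639394916490634969534011253866858212100724398374638305638889967788325281747956814918378017517390174340845802574759851701045629423137696069331992274357361973956790211328364962284344363635913500063736829876825341492455766517104617567729876263346391556483468790493054407975793103808188127310560738481248998763272160320799524818970394541239392584808965053197424976435137776598790012375368035862658099838747779062110840073550751882093266793611173645675812233014181224855128647073614227240919496689438314330342575997953148479583098655224919410115451848130436346123277876761618350389504688567142525936855170694469776499891815331209199556345453643129818611386677545216539623815444849325453122734147172172835916349031826732617270218242701632738924469385374363859247094461245290431871285999356734348189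233232495508669022791415531355925272047826166755762169388213380052468560348833116182927881298311428385924422363426842870375909671939427137369814813400634281321437862730676842090488370204791562123329753236057094660297286280947177503750814089746267401130990118043661038669395039066559997606251605036249144890738726968595006569931621225437103618728135993614499436335743629976446658483983056195034794485327697574705914749006399765644764594892146226336828227666462759574341989286063306361180878946387690386606409664654088713956060870306884533302090146246165422807488849669683081757664643366344265595212263212872497088880255824216005714373341066829436692112021329384667425210123286963278207299410495539303048545672689027022233987723367487057202567712480934248679693452306016909475269013202337955007263295237507101770123154028630814525412305210579457136444952998664343888466087839087243022396398492984706480431387730999619712131338855072648347794798239337246527485198106892264583191204749898858239014341656755570515866781257157055861432616672602549641740137517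799212516333663048975518700170828757972024899258938441670064211632450312683734757136561442779960905195308524208868082834350817607966468769589747851383181735545994560867930951885569610560734126171832020897499533946804849939124857619389085937202404236352430764621209372714330236542767344959657311344066455682071952476932453497328268505095789208513215544737865481565768950686151863470573240016128136453917072830485099380687658823337881712945170065157046521510978948841847252266673288998826967418473755897322394802986842435925035698880456205967495009119902399291426787846018162122278595753330803406141435839176477582770157961669552000382779588095142529477321450446558625289868988190735203377762024455200063879944429834557914817694027037894787222820444180180342611028207680199213483034439471055705660881441031555157617669669009549729928784565402378423890755440083501054960815881699136333551881661361761091899282161948078357995103507863409058020197266671880710870917478004424774560381037926452713975008461753111645607957261322979156539527885695858652438232520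194348733972639824344618838809561843180466324467869952087844178366861928438427911711678454666468888001735559181372672557054809525094051625694697509417793255239743005592242959935597785215153210911220047579615666225360167278839819590487617069642750668474506931047826507921285394121040896007810876765013979592560046144287714820645328041986280256940781703886804335343093460544847517214647635268806922026913937853033095110452638235638415492266908777160761928280570841552458146053515621775072361887150593966827549109628797026989226326637320638924313307559540925961031993352453074243370352496213047039392289042318255557572706375776555899920563293157310718155144398871310499707121525211234096805110385658643414270406856309470300485493670477879569422553490396156098264977969144364693339713669764573869822526191950811168089276837223711635037573900842028192951798123782824374784176982864318523598104473487941942424599655231319021196915981920047958151928771286657542410801727879606112763041410222106933967271052670902421632926918759754219277071145214205697661857468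952021818918942294832403164692472817454806879766336006017477542116522671540857598825192125973158314676096017745181617253434614542244847171626715315599214516487050973454991570316024837263979760371220787160018373591934973157346138463123228576854129381095768567357817866638383243604157489680563129470373471469556368386500200013381455606045245505765970771803917091858225978949654776540640062788419901593173139869843645552055458046320247094950318865180414004119214201760272327922770781601160703302465228348664135826867802208886500761020186699872943599944583033465435534998052456433424174695066270971824626783895956691230630469552313054767108984747393485506855416109875977496249721861784772463004764443743412339378030521754700267367223090637216886530696483730154479865132859527999563828652342638704348242630545837374992258586680171846395703897119164243660627126570524124079665105009150873648887258278665794355617007308064546706420757839373745666451212883393223453546652488794314771598423405591414148474271674980209743260937121443070206425023777825255058348480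919150130417362372611839225189700787652227977939148840203745646095854499080191713973195975573076987746741588033575607832454572770693422991724825818798701878830669307696472154539788934487718176677247823293896168342334309203483856840639423394201247820051785148328093660030395636656974159863757868901743925692883360479731040612534659075944006483922966613489647335065499221083982475367786856879048700331369359051662526844596489634462597234483662017122927983866463429129976484970558109015563896115701077966566538043008283062126472787509053897231995094424880798214747567098402233079009843617843595623373945074653221853471201176150288035123872951878502662272252136864050407356992477663304422513929351709836204010805596073835592544445558182310601523782882529246515262985776221045255282138504517096394899279214893831664543772766896162960714673431761137825089088107024271745937577598430674216575246444926144721905639903043238125341657507375239856128841425611158447998023666546744653989259206376965476594636549849402341448732419054678105655371510830657119975046316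340388825710013621555149240202034555539341135353015574120178570774261195899241842553775607697004687525679692912441718941487803990556869473947445036635208820748806293521340278858111797360585974571551235083187724003482513515307441691382393964667633846140217213991052002059542916139217783563197203887221209907408238523379518499690533770611213701409986187930868717616673494570672568379412052387416925191432989524357434110215556879736955057792796638041367517839516815592921715852913095687870955520997618587158558969508878204810961495867621138945666075872020747590094112198516973586656840228576248309163765926960096725889658516039035165587846056128484628527547075429858584090087331385564655793847628968967896667435941601399710316705391726240795004502945972092678354057629942303392381300130615348078512705970374723502856206983105961883860632895971045785732304653846565478282101262059028865779128123962404032534865931836281669439604376893706339244633078610255120245650425454363105203162448243073631316958799386855719940710440931833438590290669486031578085291902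920263241886355040997519197439718142379760573969663389177859083467154581351653297084457824512907294460959540394432405664651832061990750896289679805258311756706845870548865901235551531989486205939495792990580501489548363629924873992110243593926229893839023811375864022001772988749420653306281760402141020330522196475008506229459207435212009387472409571159579687925568944344977702977731777640723657089983381576073576161831438511949159886549207549534622318575807249374209782456052245563553325884010275430045131291753630014828867932146959495389383217178196455283082536396147909689364462160876176100779323379720320132811428978674582302367376460540238776402802793098476535190717287147912118613520425951361062033162753641454342087702843169480779600034711331305314400690740371844912732988770900495711975500644234436953543922033646008388709289012732107929188867679877118152069169710611695946408160667300475605867281713753650953706933175739318759345414310416497267132310790424688920824855871647972581307600815619955792697769829255861258295156221872891374565604778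877946370907908156764566563343985435519923425771733818553443803545220279781394780979218339700939072974428745515787486314472690057555052618267142331764587567950487602990833705539941944728190943397210109331037298428048258599949113521282765981394567309354033845699134680803290620762269349111296037648748031948804977621927327799413763986462515044429287642122104973652549398890084384782536155915755302409503002500923862637807465794575367081796743816539178442275805125316667665658667996669231415597780417644222545181378675915328038937025205937444099629228543962439799409734375598603062586936857650733547490211430753318416972985622370431858176628503613722636971304855510305119511189177438085444919551521720968559371350862649489025020226309611300628654917767343202955440386635237094228981887356528809509051204373964685909692785123792225077422180349901060977870096187196654027324816034695747738466017792767198353140209787043193716892947840897230548224257687463084558597369236545406995900320179683139144029963966699270437897238802842090335547926255242607572394636898720045107956204939237408599542279762305239917588814772626857266149064704)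

noncomputable def rc42 : Nat := (nat_lit 39948239158189883199997448646199060664549309163599517881166130429692598725902619431277017423899344003092840512284038986474496651329676267993213467148824817890388588352396824024363975581166434116464696461216555276436717950350892843328925290721008035445751946775112257967705519113021135029744475844103498514248112262754598600562185325592901978905096790143320586304456355208598857061097449243667004109732302470087542482157011400406203051749529682143076522557102799113218404820085169737480562229513219861667398585947218541885113923124452406697014439293068440815400710093207730437345623819937865760325982185292988980201683896456642758388108254809800077578778457136011501019993202478453890395911381454429034022020756565276367417858556734626817482610558142245521583593070929021639934195457250014396628072799816340580325808586719693563422399121581419037417936002846575694576701627402491955827288132964462514199581368236891519633389401796581079137761136772943450766045460890166597687225698398821175584105174865629512155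023918118551347437496056097470098037494053173421278455372217046014273899081662244903008243079845478111813322202692688454084256816990688638265269929894699941468195663320702516903768869862957609090665060600933580942854468386992916113262205976436887216130998799704986281599775831546538368898193901954898158274995414754315526517134549427670290486814388115281398971281497098074562604943233667257324034909531032335278660543784865232749537050565487236264185294002900897967184968567490641879775669447743068389387709646945976546707398890585898044180963584521330139385129361646919276739023369761075689654772520500071554090461084300989732671917561561454418974796820325658285020299664705131359057580952340926861149852768198896548684260006629017850861229809589373304545599769012086388774353407192621129683384075442612173723976206622317897390196246900964314819041683501758123245105258689805836091012510937839337681275962534268570134660660878254007808280936559209185889875211805329993033575816132803558480012067151398423287079352279041830562981343282751725582694167520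468126617575600395613952704719502459718867057092659054063941086173071414029047622724429216799268621464749789406783946173122195225523982319006035281836100923547779439997485888475940147408762306838966273567851459128339172717574119926453864924522587817615333936400958504862861107160995346017674703762474435405038490018772222562552547018313150618724838192172045348505486046111747246482737894656193456614607000989832591448076396542967325600644855079870837301325275361996760348613559314044177508860936422808875318125574564784433850830950788841246972248748188237666178951393750035877732924574240478324653400532004221150138705364209293651157193949606223696073668499965646179660497150165341682904675373270269896602838651940161711507137948722853319956734983720649816545681562161193321323262117722545472033595718748234121723790788663959213090391584954544349085410057714638650945757720657754793304083188210160606159819000706234131590101265591386765531779614166536015575128272557756476904228762093262208586912352514973784351859256789675553259276910747108064688975349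881420235349967133100286056918863964089910813556036696953829904572985973363496774997524698491648457215499477081694923853690229438992816351781053694307096445273288232913516285656454004486709634784971307903166489059238018787381842611725007865822919208085573029724811292522761966809483361351035624478575334765870388229050979904991974857963313111352608400277498120912475438913103174462473137346876111927030942297147368710957470088547176951944500178015351262994098804598783682367116255389757392983122295203649680252899319660656123746277746151849565378043804283239167605248476691184493151533806385320946582638550143149940756867595865687336979735482588881040254950015125407903946538072979988509468464716888281347929746185691849961335154239540473445447950439949092384226366074818774739087717879195124229935927807688394367713319531902228670697176078151086036530505817538495016533920398029471330604608033858082696855017485501986751018195911693621115536419310539669965747414811518861547108318282433202151726042127307788464116596135003262790267238111526200414766215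076222103769910387917496434270552888105563172753909130296422042021066319506968286611890892647423035247103753568214040516201104171810629499472489570277688733213674563235506529088087960439365575706092187078275535610049661692763706495135238167328195341453063340323110987834837662187090155885911068145448844389403746734364391364782081625463383805195566722831373310394636367565699602626141812744476112550682411636699128561976109138684941455563301674701290819580178481860676994862522316302200930679976004274660279273428179948967137436690360400203647634056306686019075189590680551648735091623929893386224217262869729610028889904938409343403177290201157657778465491427596931146198662449542638325928950498447794789795276334671492908192197548960762368658197038160901455532937776211138712376033999537581721647872350813119495700534271562711745779226988725604490678361719410686452337806079821899310751341990127198321825079340830137422709752657538634741808679200310950305026806702807338637759489057419473244239688662660529602370979827612074981636028956388767243843074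631520775271383819792046746615009749667302257282748718709073424922470878018514087869670051865361585307661023707292524160114160224176695693074398375914344656022156823275734659032363690702944131031925264857261121225490401405994551018331812121775867064629505993056419140944083826698560477294397174803108751068625055969449640128294734900528633829666207164365600476612773735365788915982378903921921538430182022798821266583562903373971055216965772855800089804000601584213735689098149090536813538564953403957549977036061825177349616215430414234909893728700629109963362808652847871699254018824790339577743564145167248057375501478330989133846598852538829111163746075526871679494414580866225585073526995442636098327827410900954093784422531520631666272099454005079673514088716140641378821831388596402101414937349997778761965209231592525882746553665464324468739244207980466414750472813217888306810172076096953844504241357569377299981878069859512254819330063550348463709064008851004926341045992610590439128871826318568459602435545770415984136093293056955974571892532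057843674122959818069194183577368604708878058287547355516965644387448023225247133309694437225883074797038028734288158123288647857523858242839566354593968208791587231429134667719901474346756807792149397755479838411623636823020069359199486179306916817103870817022574895395265984590069220314802118549944339134873459228269238561716449001591076188075470629631296673285695757357354334612642232116860537204010905219563374405542734680125184122695331823559414484816392803486947178320189575615124766766431348800958197472377291633224009196372419954416832285108039686638244236347963069222745893416485600274085455327870326971788754334642366955719589610187015659673374602369205367149361854164426600625676938271881545121772756998965601580389287218423335234393361719134123088174291993133153593523368011101556440134617689196810741244571958559930004111692699213233783477278248758348652165171273847943084682878025066080765813819618201379701593106546885967546085299750830816320950346313120596852001698668527201257317430640062685884998089315444092980484149911365038367981105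377829018911475874373108026702434899398294800774144912944300524406097419073545417100606729443850373887819265707566233395627566581739503690709531491329596542693545999674996171141459394320643275475135265563990391340285060596163627334302513595578106386561559097215053843797652055707864472429391602532739190771916427733496223895543291543582020022129839533488434273288862695927380127453585389301432767360378192670878732816227622689479077614738386415056932285982299427007068081770065913899137548574132219160955458333455467826049117274968576212272446659143559492921528446562008833951129634787345064404903239048194376242945707259646635136684806492028601594423586147417559621326546825881055526626167284544936038625205719044229485808205746588568636262045988893068265974629954843412339029603807090676027057350988721264978676105590212952393762455617569694570257999758978142201132976311242598406739017278308124991218121046702729846878389908135539010559443845564954101803279368315957422705861396779172297839725122404502339889719527766482390408967328478093679062703218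151534299552940561548052211554723291484885334708100726991073627027437714346487381933586490019135371561604781814683928395696307228664716902533059552027508327926496016954985297355059329464827323143089931206796918764658404502766345208989368437123246451120726259424818236141546279558497407206874558981548798097948977284990426894348800839394753775312308582528587746034179044560501743479932582310469573823951653548611916172225964166483400692848569107095761646189973292663360110610109365515985202274824882713281345747351896955872338755472918989180563655716929858182623864111431761262979647475476797414331692265469439509777686785470315442401324634070310628169683317213292145824447604354496811191983723672993337700022335155281403093091935915255951986818621298010431136124049252693460995229679762714427506305302596033996600462199869460756322237891743126160649019710944979027104578729429233528270730746798486379962188874545205756325713682888641306806449242384349935631956454219849072291939341319730218227549809456749937663116038652726642062356861841890288959848746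314117649990625188644059561517573294075310878012698270478163823525514343185863283308930352647889637831657478330555632477672541340210593506440810318604406552008860196027688122343854592876553637720974934255915334577976475353247094182730676799485627349648658562718092667893142833928819924250329807930752250086914635575538745622894953711053616067774753097267987298320238725166252994185679901965353249481527475531006127892267485219536061348644522672683326895727113517502897658442539750035050873268348381425402271232940664030889982997554881419949886576336052934712398463918304874667665069859448323483574279489094973480437945227583349438481721498478514007495142500807991011643355043463229560922235880428990950457118007271875557422152273774010741589759904603738805016043752536295341587071484292210967883785455179245192886460725808965452093383444403299011214597616043331420644912855466556496721355329696629319555011832353291184672861983254357540621130050476801605211192805559274645513441377465008112914039762191361922554037008653541132802280295821958768379243703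917665353711821368732961380148103077376908804634368598438075611458499702178238461593018191301294036203144462260111948443912256763271363761680286277850506250333335792670042589333929832702669489270499373335650819704465538138234040968785477651318614256440889833249248368269337295105312277218218315205180468486493894018490219110580828253945673112282603695219869215895130312702986881219370299130507829211342234277309891141713899737338647661194684778913527622945345983731273591328604453588819004562162164067964863817263652841992244234987757793121685508764607211065884398110006531132738131120355508375071903006075592200043396126727499614445870389176057887159562360599245298578803272232030217612459065233550391316781977880657094574244293838488466437684272924385515149268215085075261784675328761966441238882277407290267494880844870502398801313823352865428390499041684884614712019429866947052335881301894484407844383302508576089558860089701604283250845209795292222311732702851808294691776930076911088590340561675053322061543519403858935894253624870643436627030305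916720108627558390270826333000312040644899868599630273174801547458789115749530642498285547648300954828086988859579432533409027607208246720843748958973680030646315542074278016431311514332630476200516280596162967804618480454454255983998277926291633228337093900295758981925046751049649696241069405149263611962496227928826362223931872758492045299809967511646344247611476789248090840334011527620851930293839565949014277177030976344164756481301083729357957021274006620182542149735963227954875432298245349504370399310673581367369402408723393658781901440918313394016618232013478417195462697838684278399030521449959038837429636995689492505981802867724681726646962996936959772360473671168526615324022894719283016654380015029669244071248532348167594535174063833951818210468776332695155180552301400368749224996697158291623189551887495338868136931833388594937462354883420808200470332609601012411027031346235663324695207433840416490816676090316915364257640015869722340284812782191683546187647876239278592358838104906798999760654450779398316329099437686633414268831888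331374707795889275014075565269857941705631878363712325226590855947969388464402903884632748985367616940257688150024706596687191077571608693142418661559010138281606996586267242904487466962428049632286948874460729778146897869596136348056759057283458691206019264948425967240319487281298134736734376115689235620852720624624001750784083926609306715988819011291577677842657806651661715674110888220229337678826493313999817337795849882380335044066840891013844423876865095199454574853485632219938065117018437639030008211305439604584291998095634535476574113330849312152864934333120608328393961536822217829628998786258513597568811069044750037571273969626121249267513556618228258215030940516669709060207364589433392292678993551797434593020616349832797646015169065758796637554975542626835546712662575481658652970577393040941980413919863245931542998224053961988884581026984973825068505821069613679920337828164138867572972908488808344722849283897847009569218882224603060947008009956989906583892518002448429243399378733101751043964688590015600223481501670586385916724562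846344351247905867694414387660707382753304464936188413355325531303737230588668485764083868053919218302099493160972828221173351841721533255586665873660316111503786718752058239631592392901866287781248195484797070963595086676224900417206643855969576891781628607540736963695396014636681889854869372894820419951348139954434218488038969059753563281941069356551494975249615007681906813644104022466935968681592364215969438700886916644412613096713096958903102869833225379312935240272657416839219170741421747313577756917310760252934795353002465455743567844729984275817744126849710813801817774616544788847525780135155424982373079504279664266962415707333622436596413494245380435498552686466616348356372301626118691911218934399115081577589484929456553941957670569678306902713792995614576185141884892603321265340047391313668656152900448842346602245110508596166805901139199111943111762425267728990689640256653709759215184277741463198190415031006862088600541504175036869373998191279001361740770354050889909684403849199832292765094055279610519905406156831383735057210164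436683523156423755113127881157483640572574968642935073467682381751806464488757248157964742936594468253409328166899743965508245999377669785518553895993508677502696274311864585819596855192873041923847415733802236538572274947370277848590526879408499875979234121426280569519305679245777520722090267234695279589196785908698241832201729873350101709553420594534232411380840358501208561902633298151414158075428551363928888984601994930626959029615993579637642921502849784058928896252970020197533751541055965950865390335877602303138466586358120284690415839474504930407719302423961494924517261007753185969384501614741625593189274893026959706731618193121621741565092219096121885121318063960964453813877589086571929334170926078028717098643176620835335962791188292193572510195165892528818806364848890798650627668122786874009324202698012080236121644378592145011934718940151549528606235087930936563938712920601284803522319093235596597543912300570841678177967873775099952913123684304979322569106907176927368191366034501779963347915136706406244048957245665146229962313040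781035853650773653968338184881490045165434752939577451697585314022472535729401047395758420615853715217389527958597193753423931006696303042933393800801858466225486823435699353009871214042474318969749032612546057163677143937818328468638392108457037854326497971422808235859515157366566051693425816714456109427645892538266966850854326182520280304114845645914098857029986618782020756430323885932172159083459153597950061110131144143996278328217412693431266593252629515383374036332273393005043742788928795880777450060567451606692667617627141031499126528532770086238080231704038593600671410237330560370136180650332943034582331045695131937747214764162050832036602295207675602152318444192707615449876963061725091665171233415518789431656018497951082449373484241202716063376542136488426123130104162386601135045715242677040997124411881005544646208957938216741728526686251073507673959355861216003622960483468278312496757373346659226821239312972970086160040260559858639708415697442051769750081925618897874936752134170408062946163401790784898865800357531436526911382028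776025556613142912959150628092851421787209740326518211767258514427715289229966530147493312264737781243485159691607242214955246278841380936480838357332885782100958676444761483706348882848926868916331215021652110884116684168078434467493757945579527726563143057045659994531269859921128970382393248145877542256232727577215468731058838920050650583445274809838226420892729873977340751356825792470586275830675864247114058851311554322270363748315098898918309268948982151866969957391557892256343743819446839351877257948753796583361313574009097206847454420371710767003745660481223793989686061745594389977613774180889001127998350799934856679410502830598489292713605496948940420750610517626831164693426195208202033488442951980601520325279444456675121431429927924800410403271478787555735433717042654243047549304831221781163050640183093098766313299280945350469375393669470822146991430274126003445109802450796760729237772287080388074092714201264348693649853411532627536467529369833216620203409876066029152291533456387303220438305087091251940871521486867827481065563988619478665506400752821675978255531754885020623250852464644287981797444157440)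

noncomputable def rc43 : Nat := (nat_lit 39972561067341869229110588914321280271969116551207449236429646142160991213010085925200333888011182213119392569538090155179321760496914549663191074127569923985793172455963167259354498405232115839880810269200169888420363741747309447104593504524520871326391545870677860438517578084351626775512871459894680711100705728164067562716168773401388783108488807858014819356678139795765771079670703598889301542490795040522527958491500468412148708078180398245902560489993595833874768701241196430798257359763577225407514087202467856645398776678464809566812722522403144559196709897717254213794227648361198351830692103477104894384420040330577242553132553300338466472258810209431256142235849503114303926058413947897812611600959871683208323881503593727308825036030539095246471094484779604100526907622021685929803276486202621086612475321286076180395927586038988921554204011910262680941578100537582221884301825602288110463412264379949006506659564802567251626456184537055076930244563026883743979489216850493835307429415280242893228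969236970373569109825282573801758913534063944512992483169048874449918969372270172444148304542132133631070815425061011379617978457360095411065261546121904531712073701708945437049226640192349344825595077231021338443258977228977206349420229883688970170154011866947821992350613906645583131034571514345544862336728699563652707562419225945493857262992510829614429527744843692117247889490211947936200716812892980274584853074440155382506540538905591432474414227103723150825637430679663117636992875363407677294701272776063872706887170439416446378440216458074686504562779589800409070251801982481147742455929834254901178459873780667464762671135885870003886089610455191613751561072927565236679803151781834231358780484307814307165192853828893022714037232184720288088178978719999247136547811237816220235024282671878049340470693279848676789263638906832242464786659486421603197498561455091026367193028443880840667700985538460350995414651008343197698887761670945804044108369802547189599674647547410414689264120241952912399891189248657323913593752711619961433348140286274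038604403612028595001662553722491333045531659765537312507726641434084190219724366114749025748802269671407186282600836298215358039200975822431489497804526248769099312311894300677689158938988559193230755879237927044061101099251298003394696493753547649099937222837159671713271340213513369818926545313418199908835246303965680001075880548779684167413440037185113942653982318991746478011961860906350416731452860869296187409292605503691600205282741897653401786883514470092180125575439130451619542095181177927907199388094020381120510478319814230645601906748209241490412681887054432725744036679316160497289484029217735349743164747127554081123848289659677438963449457983498583739541525534946661757547311306590413054473138632867308830935060391357855904881232649562492968616393808149551594749521986940305536753144718130000862220597434635421352303268843088169125675697841369673406860599697315475656442811755346382569909328821840656234993634068840637182573638763938311405584612306300750424597242400003939281910992162725509802111781282969829643314707543520703503105200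121754092239203131548257350430609218942932134261355045206186165163635339289103764688786329432338367655191248533512556411990549058534200279840617753078282637407572453876265331489852067916137295948535062482148936391075108325111881975514137777118557747284406780365106729062286071426277192532538197305600028386501257291203212975090328424313707968021486315784998824526246715921044585953138173313317337037955343408056601230776703636940473636426421039937662117075795456617132674164671959647429768772847771905465724813762326192346303140258223938601780369605713945578764027203713982996174189562791375613002785613950919076149967621589528943374586965307357414996696205401772366668014736223826406885887336482305021269665988190340057771733387362114179631569850636531527119501518165022355527653870142718270214701434162821022012340227007498103338960124802588012645347985690547835436418339487835192146000386865847605497499593170692171489844275492439110031407592201274420530190573268687843257853135567079115572193355913710205386171235667841162799442583468762017462246464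832174500261488537377705777357744019336880149705955662250524170197500136855618087564680874565770037138437469087554764844119384031418376193244023855811180891123019783834277623895858558846894147582900740103632511614921027974525991304483974035202928780361776222364370599865612213757891762039558839524875425193428167679335865533371226230180295922274583559585555752543706884691978187240801103257137233578594739953940347569246817681983053258824900763630520376412078660374304981337167326439496996428349262682162860484907655804590806710984169917661503736461616844753335622051530866507229651771500584473444105450932626935301679521401790112546382210356176103328209525747665445399400683288944969026964650665593516223561718816792834515817238000724103678148044758353148781023481246096107070781294869293916861698734498571606138152720735086337178708251289713553150639820140639912422222430578655734825819899813546202400027612311045593368064304231822808332282874985439208298947667996181302520384959268128136222709976533755774961783076689582426083775259194088697148773485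835368276553617270328866203593690683721818418702649274557381536305095415365964000107997869094289464371819000001365446531777171466652831052976795812259422385204259243867984671730439515488687312364108791217562719993506777222323878921280627849524117431647494258140128719471377047447494079169403657376810724510809459051200428113586001408594497758328381093940820601850681887191029159481215767965944043570221212681578838578496578025894680548882467044575474672050361699345316442825124616049208949438255983305164710455735588127734754738050011272881895660829102196873631471898074190647433184425440055997665438383621403880691563268840108031794486181798672292302408522500900178551722767279521256352237995674547623766441829871878138238873141029870009814745294659973283586870019204089196799200214853595334949783429875759677545559750447484107067401847177651396528043951212757920608628010086626470923433844975425259393961635686002458473996156148226539759457818877972330826323619952981431060820810183836838293612956559311058894486710959524287255857349321752297820974834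896240345250028087470493856736043901025415363148840585801900472732637515375186664526678434083810221543640404670721208483439669184233162356019913199792111968026140077355029880610699224938482498159620290970786294189326454418358932905469689974536139226018882723674435387350781087974700904429171394929958931903884993497839825961450483222995584549285251365897631110166933071088013384580693304546542358409425820766530240839961687431276475590561928596372288192653365749236279336304021801195847584461487321596092202136687659668729295921239331914501470541640749026360221635416703989311484509783781658488616833741335984716080323290590843227128448575274218479818022057274258264758885914670165219812457057108646735136386560271828828114590883243805688520235563178597649514558183121740224402540289876447038433591242487201373303313984672099369600396131217128615549213684540515946895176374475786802071707692945796702012153032775098405377963716859333191427771124354774538444937606982161053045818184664171510074574311425534834744431876443570531453433129168233056124178639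005020486787070548586753489891440274082895264535453843780435621358601832995322485703712610935005808977330724022860883754548615578876073909522807640288160422584183051977619681870349268614941722872684755301239186015363403090881674876743879517908838159898656936827058753734902069289032281060858826170197638830967425331468474451843416312413085800112798739796212267262233076544006464188003604356860797716456620565666606735028246540926624762496613973062299146132007456213355797794902372282794220639888588150307129352631957085777091414902111854095223710851914791301423166150533226187833412580480752569353096341012496479954214057972049344920851059154599066533935175923810523206151876169188991570980872401648357881507536215124572795708142862355644111135756271971729910490429117097293683017851456214053407756961429502790341710006195982714222376679863139708727570820218416572156578928409841866955000144600925038360916831239010632994874575236942702386291742209830451815968485422825878877452128770209479700854693968346715950945735700854470263195592593366232280629933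837874199942524043423355442525570315592246984241555059800861801018398695368925828205989722484383661652025765584148407924472249290894456956521002674232691356190014002976286117711774484035351359293025120241246150762578585672752942060553667117340663937988675215217384371170144604354107219395889699308068599726594422244407519591990994714274486247361352015083305785983204757217697813092636508122314728577504701421608174246106520935739704530245538599094119485238214403254428958578169821633990411376034112073857045767413572570919289956862881786681997649399732075830385639994213054855204253127829030663953501093099758219769599605697490149942317566731101317494664622335768896513092353969249077353337573053679582456399817408115647995223629020432005620788500730148566322819461404640328242124817071338975038287977323510076428054832777160240521194101311073312933888804651471817188066759554440522833391983580364272833870410965793908890448019712577508431242181361275331896752162826334610055387702000088443480263007900372261560621564319614330511633903870254933706392320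532965437331149197463201167176399415378810985203275729470539274303369631625824788221663409804563531367950352549528086699490677863210180595062137218600476679424330075696265653327054517678253342657296144185162387447729526527652100376780771180169850679656875780725823528160731308399367866147791761178216541158723008380868334960184975242992734670452111404629700702630938960057847315256068264593015257689254635215949157235801231489172679097803466928233264578073574511198022193120622053065343867681944121848552475369092785510669094054392984519987162478899119978070346750704303706546527301798114730545233095379500423968861587275577500499597183396677844993336491894354439037322582014358623127622543178555204124920947482622006672151072283189730051821994149156616423595700357795831014642724781697054295299155615160409776573795090128057171077411567354332663872028468207840021600293416414930257892950830728541209598358065080410977957997691262433971385272844365489227272680534109745293281671461488917028873797057183353255078216948009052814360730982568674476429426972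455255003493698305121250454486964942000587398271202132184856301068745992961129482056085372563416928524444662900980649770089761836710764928095278372811326236825211943359029249843962041908895096548735041437598278331557609724948480217080169965221878883234383162470978603692971616351342441233576542417133941525740774183733699858911475157324130375707187788519068604044161922972659396668639884299724127420284612882027010728881417849737406884188105093825701298065440178844030077883360918150319462379704065726482122112016569565512585547170337091575343168971790363824665163538379964104904199189102522503448879735387137188383000484539193191556796420699007086827237687412699408677934604464817290529540078381702140245257075084591070123355796977110680610055676697455487582123583630471018671114613604623320546745099650914736737761136355979421256648382970574841691739740450256231695001305345627407480230223415032681616486864710118846797055429236998230421697836888226977589619221690174286875719928086722567577258941593597483994440093446186995124239619004159222501416150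492763900820790492225289496509217525414261448737529366607294405656471737831577610034356537104252706869104399860512823418912889983226113758396233128250813253345182126447197166545185144591180737220424578271210168118948631779379690170725470800123858006460750025895691810924908642612393591862033986777454748248678232459198865153592923391597915959398937437457839510269792263380542395301624535944642269290260282227550604889642146725254332103196575287569324130245456766601478432900796395965775816248447901889683800097772199378011269469385745118534056250824593772031957949231069426431329054388893743899578915846370585141501333550920157099065013277878358376995038009178988541199896427881425126731316323085382436283898359969846244854642572085782260986116458445932871370963939610783599472760183470724570720010621231973885854140568479637970500589584172041976305971413454012710823775158378672704861571304013890822300182182209835502762960861369194681282717564346445073694271768709591147116758283098298247667217916881511326268674884447533776566193295790015050553594529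280034322278325254352541587583915108331941077033998295910753633182692104776265792134772916046569903433297838682159304644772100296463178876966914664803198452259697539413432982638324165034786135205844102970069426588227535430889851307518742821258978787189783622383215696853631056846700682441852089901930226505113595916124031061012906634612458607486807080427248605936602882353824848840110651290402549737002892077310164944387466480319961339339435330806477580419550330661226306305861250857890508012123398511112454015781193195359592285658036606875749331889242988982479437628160341981542006011017785427485398343888340960715232270293947360376488086619348917707586093364031899104275297359265273539685772404430076369878476125760681520144270264564033938876232346604712376747810868309216256988174209869915984830837461854896606731275175770798618210420015757832103210327346646630450983302562098103420611686896649076254634429934498316212618432326415904460551344734519104716650837748270491075154508861069236140002873771002144746777246052579720654076602326487416873287298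678757023663173267093700884755630576252191544108113884655783170767458184426901946448699903605777192941747811917290470865378020843212378846496704106672497080144022091566254088993397021487281174397731006296082910930455608708614450792345616164594392832988465204805539337756533074324795477789815828312453073382684502689552727152953628715885804297514072396588776077644389853973240348747800303544308761672369333351989323885500414875075729879085907859737152376604396275369825036975592356222648292751921420558168568465824311584475217991142007571945885272653455380112545084495098601821480036163549188973295573582819265564957663637838527015429249878289778196209430408400883802623959211276856306289803668061871255059229896328709844924626715589455561623210384480493529342647085453822181592821564466179447163406489919059632723358801590569957163421972150592327294981112708005806102743284926490200464456483323662657128026250693953769590192779739003549962856856137507971072129787479223508146600313507467921476163434622985570127342773597540717382295313968261202097540325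035047026030423132733840725296448599180709396136489483286183234121483552702477720001047832753527761561088676007471660024723530376844889886803807372119739655056470251352116151764271300515919334138600165804112071479139958335193245628510710367844019825034809630199479231451212048740892705716145002772137904051460624007374955460154782802642084020416504797739399372965185925132861348058963380300682448722642669966352469430320079118412826725838894358079335531532152651332894843240262285463296074050228862773470951704075453330783639102200065339632016801398256834893853224961061723287430918061241830002004669118526210830614696198881769305666645566082199299742793949397846845484332974219351995975571388206335509062340670617555370204877075222299547114147678312073916522583099519350919409778707394261452117211506403183077035847846275055723841768386050376531377528017923601257142817767207404000458658262666108911327691752943649479066304280422475488130889105580170606564963376388579256742720170375796188647584719345383528561617300909160613933264853996551001789977749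333414120964694213915217416807392435517597642733673355437369443742587922634575489306393968755548726135054223830075724765293335715219149919262120878834668532755463874375970611855212906822835780191564744845053096335454525184273499904598921832776481123405709763668120359687466030125723921122527403846069923855117523235308176853783406644437055478687389222153213990657789082955156702281860911658349871457606550595991107929956940272960718872614134702712545047203849782996153588332956681812343210947157759228665512423797806987113651391623692549018572007946886020302726340463432117806079615227533000106906107397255833679598179346440404871737160380568820911490921254994935107797346792817027871586672530161932292715838457574521801615961480053286891387615518101183304590266095607872965973994554768805138090657722447196949912994664484142443170031374107011818230070085926956667399712321351817053090709520782104704855322406621819944162231589868165439736884382666254732035037683163339154542955139308659997161126372251961866320338462731042438560808607529887686298621060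153467704582807964778512950378157984257198677634783081490344114447101603543532572264236148227009306716509077060463857717340708316578989815430575992476673608772626736796134338702867515240522720152827725812006660686688309358077991032628810738662611765603523797828438098644051855633506299715285650360550279344714961687832414243305268052221352951999864242262581374801679800044963064239711176562737786103317805002447788904933606615758316342635333079441389347541873125756789982283603782794910552435482799557817787838118933818217618226803858549425886577298544260444644608133568670587873800782183047396962117524944386450181493800472065846109847320236925071477817117125005669304266457851150873452289170198028278015314757016324358156305458732777736225847137578925549933209918469599268505139906557827199701489931297945802149800470892561601080067564407516328208338657408322308574671434402721014522940036024979752086276677304713182855064058656424731615912146775866067884333179558387346244292087862382128450358423193042581496457659988784813838392212892161769143903544599640402344137633375080970515061681945511329189182959517551617802397286400)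

noncomputable def rc44 : Nat := (nat_lit 39996567060434707824858338679775121726889902838732885689121608350069929227351270963993591733238260534466172990014129536731028654943626536225084683827998011535401304393608195355515606347747944561213073210847516794681926549348400533807206694072552267843933812125618894665464188559759348183696789971993929037031826343911302214978938272745717300557382906087297750986689354187610101297957641082546677093584295799752284435377203603866931099918543984878032239116353762319684615691756707756989756248502550051563038156802086057256920549424453771787919371786788015620434965515974792417390395714975034882602889157855430548037865894247863849115209977829897841273143841771821997834579188742322819175130206824152707214405708596066974944085603558076816742091341380467664067755932649640955323886247006469147341162364825467964962468202302034373867305549407413413042559834540065678713803714160203552512132468007030051403668700750268562037771805083667798347242886968364925729307657174110522869642280339026096233399153760364399327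507494269025554118046837747932411145964907727907275931512627296424498204176803298615879078948215961724136106765428551916710338489620980421122961927913625930419087285678826565227987327893220832637549052545066895839219775864025752652308271019573124454799509968914723379259820951258252564800288060620639049063116075751214440840311396277195520726110210643465675048344324993261958428968031566507446955464460330032020234893124008901230558872108975350214769604557373586622416443181597152233488738720966865728492293359099098786415766522809692928312866669934825128670547419803001788976252332302887032262677376616726198249288499385483240930850684414869231634943234301353093882737286305913661370663210520365399982760381000103945016552840679429351238675334793622256427129593668184830665701206292401692225819476546023610396273294533691929603775735115819290296047820465445781960289955723502431604085741440514159105018187696073822292422914521411789823272436294897105962765379103143960047204132668934088476383774619716600139497012692093440970089668430427288032479263707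162184841102575043372318244323668476866774578924253233821275820796068454583922619926785698373984092145379321701676759485054850550360693152071536642537634915282852079782879665564497058489597840551172460806313306869543943763505480233618444068705606554146641140599453526093123230063233300170494108044083433592471128960927689604862660043005551783545752509177515730159196028160454848358242606458209315261498127944385209429537741124219750742869461198698375908906449881589234213195987239075141904914082497975813543700668436588705107613805521844114998636572583820243345358312402567105957338300195368095308079776684913365863731099618147349684665834198610568305320749877152620530031755685537953897854058326542771419151499195362995792625148298728160001757527974173262498217487729193285612657311345896460241475762439958148601166009093175368111140068308681162744630909567305529081940245143257977674573708271139285435247815993317796490315497807525439451304743209285126007294176442632033069299069987060009990640473066907985649571946725827572273551503216398902839668761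216488889494031141019798402894646170078238249445166501822032491806479773754061299885992219494884532107462201399997357437806337848881107476275446166901069275796256652968178593140956427575968224239965943049133202879351127302779165003534649360193620372006822171186754729072052970566305680273907946863757844279984966284107870288805726962667031013025904294131191700672796283166499152959310161634915249174208244393226954210609863532988926063580649601410555585002880466700993640194575512692588680249022221869257398072033651410046689234166591888551066954650611503469926841954425681578293606292345155374434311654873073810406344461981825725901955621684330533297644137978590201654216036992053882487489736778378300926446171913814410230320291384473088165495549147981765023486048936538535916948479997707329077677415594012921432092806374471700235847361218081581829924843563263015631139295517083320029354918549405092090799521055461606063373581916681206178865762827881678367691874853079515759830178948373049750304791232882053238631404329061303105807642344916017799243009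513860506729888134953090666761481079906836489606228428032092031581653820131910298121489806688113381926945088270417379673460362621785999981586898667978490460116515997869247134418069723884266472391516696171969964287115304666700131510027580133477274967818812240041718508098197428819368114561843392378323920804113747951087860489997948981491177227203653567941833896273242630020709844011947685916752072325574912912658947312697493804732869821475885052817885467424674034238613168380612986997252645497976259014864541360063166544896864862015321609283435538332689192294497671265107936936217156052516698687478865128100899703830155761345742726265641706051972723433493371787157253069716768652867952368187039253934211158169165410912739860811346734718239788688736569594066730002640588858630596619302289040585942123518355294899057830031426036318718374343822028856412467931580454583722405531411594349178492866125402834074324188682180484819956425197802262032609868921347114086735515875179075374767658360784883811143306912396271677402345493791210790303379346427033666483386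689913327396631562479357064562569008068791043961052091018493231428455591860833236456862775447098201772474285174712002558574353332741530812504268586725849452239397297147070093187112711483259085742722122644452388115931505164214235039805791473253083555625079662492645017621803297615541078511728943150309476089095829874364208653259076968428554397104826827926402507422854355083270371885469954061278613778912547608126186158060260503618384041957497407829686629182353696223721856565492240891161659641224302903622417247592448408102523990869186853841904169336981489220617196956836251538042068915049186421369743116434218087847855482196541364875244790801264198838814298572840186453673543149670622960013197558071356118224938035923577087551500910374290283697685038418784222232674387423467010690269349034276433185135718682296045184840171500017275836946336316626157247448003001101248261152394083132511569381846069540123428229282180526503993100004609926526942882106695656078444487029816440296694185341550817024585156819495824106691629156062983600131630377826158267369502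928638504467311429854457560058110905132159192659755066837775161189515431193879441928020708460222520405642343388767679386994478498299594197470539697867490193731551966994406801289186085677369417723576552985599009348635831885294544537958160950408488977078754867585051050926805645537630385961503255444614227301808506346111055211544705050848442328534872966306412136137528466379607222219296289664565482373657658814733000952670738892821552458061647281245851539406111419006766884603571354638466180406196675868932845433612557208973766404824744064845583437338776267431484432518874704337356940675782719908210210278631870753468974019673570151716033278748628043520192084570963219747537541134646354440902453617923044701889033716646348192002335000337213141089099622252738685216282843746652339092069700453722012501983010542625672172217833656148383312405163601213767621602543737749246427960695745439055491171121931737379937078287799328819998193577330368093035860729198971598355521940562036148305940993090894051966573552748277244071913787214561915186936291150427137215018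216990989919732578307624408901465160278793926823680196643637755092050761933497162311463492002927392779591979558200731007617042061574809843623716377267703617704049091406522261518808521713084577159020551477383970285610805610617776602022517040126334089427880792678200649116014805702698456229888513454890709632965321047471481744432105935541747971375701575273885365089153124712699269846792980805829203703957761250618942253535581103067375253147867390216081142791891785117357458078972721318488919291709180403097030425679137285325830814534390346041172839103492632607531076943046585825839554739241766893465992621683677403566803110004016947759342217289292526993267644456630779084797558602189273309663885643227007092309483328636746831929725765164898314511865166785837920707195010327952603946805822802730292063435933433992110106359016984643312675193117013169947150824558054556610583918792851574962739025860859385425521444334010849845738703606184045003697723158588753272013860814668492942530795366472342651690225259296968124609637034478952036340264768939551407590046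814899283142482734627346753607851505319193883708301106186985918888870761057241334812108759430621789813764610942303453244732650085512548375718701297463151145308835208944316531777050670310952440836069815742001420288105053060081271789122339152232002122482419824098538681326454592766192522835615107579633471635650063613453486466231621846240987512317191690640136631430595140007805828375825026557787089357485822687568784941668536423355658389092397453043303701545772572786353548733529205063105469497369372301348388842326786148217635528719480732535344284457386351581642590151612901049714229260224879136450456139579181206707355653312169569899686849324805049854013217772085549430846878030637500558831202402757339519021555760246046844871104441515692557929507746650971153909315940726608775284300490891545655637407491808049852174455150128297680988005565477857314581901125395945681015462020348824660862448495501385884112324100058346471870716195758991133217149001653251416715853034849583112137686466885300485901496956684624996785578915746281956309211853260298615991120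930811766380963117016831566657201795073016285269615718558604510248745517334370102063004750827083405749824718605487680676313160150222926105207377019606254173880541304543319766124131017681740760962909761583278880876434935922438436476116072886594131530413502597933222239321411509953371973064561182021706254917834514706064837486179088501573474027765896615102257371909334957293332353199699920444973959481995710404485626921012890143368903621841699549455843877510649607347818948417435789448516056868103752175293233552903643596063424323122896811631647259008345646672634431745936968890776714816412802630014390296493493794039758808032584136402187996313628991276868106433030312337599410927742491424473217302036363519705220628466834651878510250183664245415838937335683919720595789031912997943052888808276445810893679928387265481453066640220483183744228271850098491911787178746733831873107865321333148842964544076152218669212823619176480954742620956856842259117723657194970687058120384765561284391470203093795561676325915435462399398251998862587606955807004839108340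205155468825622572188036128570743449727803198974600961228319995500595987074237946965407022381914639013544035516967850304003102577635110371722320949448290050452486440250270048468777211380494457793814528016826141097474772335841416696932055919818527679878605339536417822735421124277577762638849081576053480526807250708343024947542334352052812459685803353195862381371804367670868494915126611271745382328881715784341993304918106158439383089500554957471730411970302903452614944468890342196173111349149273583830580566404217474899778874512491832909460735283831734379373852163967157968187341928564415738923553187094990801098127491337550730096326316029338978315891477500848044724056521951134873634489718874801675177859607815730109135719408960291292481224746455207469804484807611838959939368139517206645735478667094839636568649069981705925000537724929097304133543011470218145165030030857873939583947483873018793003330026815263196723953437782612533242449757768226043896865243066052331582532756253074270437812214151436946836978753056948199410166473808192307630693885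844820967208896514034618159697239868096100864000130516262288414316242314475435211789863194405963537018120895965077946335604710747206967006827634074692298703403451410309718063430699877738948553126407827470600609322547882364536988367047450105074170676868630229924412180750474889271365831178592134794947611487933645546689104955655735181229771654428779081308347023299591245985950024767559357267252085151890916510486979634269286308779590921138409333217902191714152959886199796189594219860412654242882710326896095007976342021206040334557298534969140212352584074975996165977633616768807218936706202177020800282879708763292189101051256727052382843546731053730378193338022495638763414647670657622570392780899059492492265153292465312455379990782087995166661205608967190753951637802828963045357187593931960884387361709770001278944931596265173874338033665086368937125673142067450339377468691709532336385302073820762912504185055626393710551896229703550756917753666995102126754355741199609343531030272348467048256062804732984241996355989046454593232956604638081286449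119791236215874450677555025308145385451005920698899447704853730139469823115726869457143267202678469837933935666614137542578662100751049165604440330693532676657807432256942291410863090431361035695380069659832375819552786619769285384867818305510764034082448833120679774577934896562216251117307229113486416639042791282157339015194214650520205548708756419131709358929404574860506497106901905410432693238920007555267699212036208437407750383510832755691423572246345695847034676872713477096635458222794727232250355829648165374563200218873275549235478673152004947152524327621250750701060139398240104558630010406239611331404552116303803129758076604665910511931734861950755178780052314439224717153662735175605504238839259559082426573328705801780526048746765882622759910320140094334367404263632815803513331074237375126387052752517153949717862492554918462535168261612881451520257856134480545071512993450357304079788433453540893328217824154854469293024566081052172848923236888811182737657300200650197199343876859759040369363092348334313323089483209686486895999178543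912538631859890472607200071126866275855830421597795326525356870371459467981276859420128871868652010502466447302846485700288604410627014156025512111403636710848889549524345806863835352832815899845069184348130659839947346313187178982679440989280271662650572185097952175083210879824238964845076626034309716722639277543421626655723577466903491947195751530400929917202370217168429023761804837736395544379242204190830160289128640339767650258312818488162789704438320392894821305661966391150354796439991433134106676748607381310395791226631348248686799351094370359945651864380723113029744812702665116974557366201114752755443145147099714024604360221585752904805512260549063797876204340826626275659368648096490689700589151171426550030735580712885978718229676459984453805666772768008888757352956691906410461146926952418111621593856197137980400047269194480101577791675548068948030064588601836827957237851058399095520785695386122384781415866217237372130415011880577923884277695602134267699990531354128775565266934170990003203333121070875744530541063773979589376180521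331009096971955682055932419864126524780604153994235535843646405438377310080734337887784701977089631031989708743159066955867482958606638699036619670641666162770347270570962711925637928702118658316840382880204489026542723408357472201644540663608797538792002714191716385120501512333728450932276546360080973298377091238629658116429153527229080212969032015114401633165348696207533147165393175074260378419027742997907765844014510083133221358270829244161600509573380936782657971617141856976287910170549123588572251891457808815497355887275787979933420596395428022936595095216192741574230618961076893693145681463263826867049988503552859293747569188866652221200763506761864859223383083895353940686341210149024894338399457640600127558998967027458517488158050510476372259725658836487810834795805033017160903527089051757492749017541688953225519677007841878624371387873204334980246259634910726671753143332566861707582952686423191573224315883308621498298239501476364178983470622753421715867782184430591030578251458614300303987579239611791473464264293021567699454430625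188726503780305896810902044434155080153669308365740669905729742144814694354303198056413056808351402944669403139822337888230994104324992649229996911693219411211105267467964968662653371792732344201709746678002292526081845705356636293321202690708313626967305960664979765746833302006762872013537775982003182749269014886607909748931520232210266745640244980073906080564762443918051820415157238208040792660437631550767565109742267739439116629405415287712132234638192615368801054952493932245670661340171152474563035736291794045859439925296404626190783187580141249361437958047915818059038967728729319910606448186804609144210543879698663502063877102357741932492461247301187461212560470367503871745227724152233369590298643711915313895944380405514073245322524795067929851490600396726675952445713463522215950697134321179574923008933826492275669701508298359021691120287672622893669140617310524920787144656742228322466298684815322702505695763944583283483453722967820615344909257934700380378564935021657051455951779079949959594635806652058293619942433977676013788078426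832066070120329083502499235880694424640867847963813019431906014805464616211119797111873855397422773611514960947582173150958769762613619249512776913918280399194466681554389130126582835188423907859224110382319070797898998001905859123920089056548575858871144503307484872267768153209128257929129650104101693898686568109795825701773636707326990351113835207093415937558074233753022983298058602208900737262395775665757501963643221825386265190704200861559990179533524839972521268758748417926646336509738581813221996199840711785801706974041110823155382920882756434530947865038160499845642532605465310713543948859357191263320170523779913327062241639726129151474608725951544722787191968938384804001534133048084582088771626822385959608124315891339679213383374859142147373818684319610825384274433939052870989232730581021230810708817459392157054806204781302655404491548587208094459712502852318879907536747952978578052184524081199451147926575304785969325194830994192832100914585507140872507454685400533455616290084572608072296222155319947033967340866752965359172027662309719680956404954162939486182696069752596113558120203266654607549667475456)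

noncomputable def rc45 : Nat := (nat_lit 40020258776600293773276413632334676980448151025164886994409407167347056671366819539799416715597713051282251386729138194075230153649416012166681282211625451768272844828048479295599709092201132811352632264179248857303936649766692106354262585056204006207084948196306033167696527688607570282274611123290035201567499665510808433205779973672455299583707993771260367975703181412792120154809779118876099334440097980936386750635271822291466679860361869120266294118391900736528525299965602116133334172986020090773847516906997075260129288394707834988152798641844186968379872237466442119044634531842750862025825207163496404487824362886799671328606024705581427972909093232349047211100733567049532982427900888609796649792945362672129929412654603531748344557140882171432541120420785736659917713391555617565635071022022635275516681806909348609899002962131284949930314876240398336997043145093700881565291952595452602974899275405604096269133172702553077715464095781034591475976379609550551770264844150124867986092911433838102520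638548184378553994892089957516719389699925947382761577868640079286698289237136615133472970881008611506957527326961331923087023955227173772774852205435745839485531235572518925068708661898661336268370185089876940951198878077418913592552121546916608877351003910018021674978746612716920752764975990079243635553111476644442384823844962923772225571260397836796538791485582691983510649020493859403329983098991466431207401261017242269868796800561825880393255543534653857761307390943260048763870720810488382026205476041972014449263304442631545310974306880199955762452701540829403103441852896241345880121676246746882241931851131661426594586522402957636891924773888040038980013891310740698847779276573815952330043286982298191538553891652188481462124402576667490076959816711560019886102338356414521271062064598130680121375684759882897287254864411512692506844331957872575041981779376004235875965939265672452164059379461929164456426669975674413190404144641225273228290688924210136533376502352172637705453233494962486349330870320380839946425719401538398160208124920055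643269300822551685447724186673506056159134681097386251859186709649458468381795446273032340200194963463008003307034918212803225334707884403519934582372531195353556700356460293864156296216001441402280125279924916705568696243785012339781041684662056038690382956755838035751340212957223000169257831925319816296384018458763526153308502892961982501965019519574701020531236556862559746394229719499629840358281724816312922605097106014223016504671376147330882825253865157601335724408923153305052268661367153757904371908534110163783198481430675927836557817681297842122047849821123982657718190833734352538931203579831367880335242339740095711369984550225121953486135966762287031777679483696059849023081520675163384311032606892866668933599395390950175659713862790108230681641065468457697872565988273542033729488764353502889456789648465171077433438596492990294247465969505421043130961928855279185872095789913493786103030665351513836881404746767599981783277947196528805370701995575407367498710414536582565140948869497223159871385548401844128413536423223337801973288041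440553681954334881998639055572457029313095455972936571842867554284263026273476485372613144529841492458916328836429796494714464060554838739466253934465041717948012405777436390143346367394034789403453328445370276602675090573197118943660959324875948954154517316074559233879411213682523890449511130377850132523977733064756711180175138029482153454829564605008835747830756856561364740687848120381433904087986012905296989020228863236067133308257516962353567991574050342923470621542107513140533461650712349218225357283558785885742621814912987181894380152153057360037545824730714145135930195843740825386806875523913877086852674128870310969071349439878351119435456900485189466123114451393223997252511824943941307543530733212302233347411556886797822818995286510361747049935251067958525914136120644635434287698194093479316912691447708003233805568996360602106123577903001484575731488968732376601927604124226552499656870430103033830190920380272472857987174342060286491088246083973132720641632938163428981121332397596127504577978066788667220873835108307289120270508534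580393687541151193412878327509858652861217242025285571787796647623551520188767406500650620194721147062526559990153656978764588206244060881879507925984732911618091279063380110066010914766324562865485993982153201881456608486461945946169272673728803215586039528130623963201916058982830977252415832882283098902975908135187634798335321586968235261853913345623119180553018871339698502354509167427905689185922575469766319439512894429133478108831552800543967728044469611884814720462596874295838411012610305891828183974501836702645296898597515079594217247891115605244506661522382595845313256515863247698873948547313998877655599093870318182727944803669003626217735771657924728827530189253010361931578760926173316039491347527730537271103646534875123389997026101392541782816165846164044306861069467513077713973489478410792342833110155787371870398386072061096078349809901013451508216175686260257528188479803118292778993924376232638371812693697489729657883417142124931871398615864173686981433456966501559846458198084370991211465607010175337967229801471181406521064436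563938060463969857852104167241476077735284721877075689581662428772096240090755968235554237466388549480378559647007627748714869066834911156257160193753180887623180131211246353711664533798846242866385017518702940806368492293852673856269131312775852119257730197008504348604430673253133698781065901785090233931750812414327016282260401804255850865560251828521866053082578239131280496788041663800097545382654760064886337761307247990057253423054603749876201762447734626979764381763563791331267537411161961789341575771925926736823942465488586247132089538550028705916392667034363463457908450632862979350068791683393765091658240356294707592032107413929525574709860353703770678810376541401959988408189327487557389872194894987678017400825998526952608207943711822798430340181251916018321509705796809343109931274266975807320347914630083167342546268858514975648155651117314230076784836195664174687893611590044529976980722166700524120150017397234010112247665462340188816439192004996093329756679272660040807074244372652948462845558581156885294191828128440114995399362524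648322858732862208342283798721750333778413465661206507948862247423658143589810267714862215544974064433829178127580446747272612768557071780739553485081214357570760935732216805554228981639547303614411537772216170373227925587424573350248360284376242683368288034057326721922927735196213264094122802368137387751212794202636335151809726393294897466465033684063997667229202964917237680107425532837714475208678003757385454006228510842352744465010464773956325785838818609989936294665659753730599248275185742247091671320317562047333355854856256991455862668601947489368872436777254362345491343633183033746415297423098391162713013345777958530508210355097419401836377316254721101007730581004855970756981883187579673074333028926291397104375497622359827433601487668909844983331772303343900950179866440684058225137928280884358827493908865482736166892865413672865344059637906577445967021550181711623334836739042201590968319582177155949586638724320368108649059243647998515042191941906191169703671450510298794710936000168028617943755988375610759767980403216863946158697411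386892415769105932450161683709412779279047875502809554945620026518390638984888435241774059531920130411420925677004090818496166814010868660375979056605648434839772798508699495127180569495248316222951352488699350026050658485005713417427649022966707999077694644187799386092224858562584993388855576864350808976008444537598480362241344240511104959092033976650041396922189621319313411290393141441505248794457869370178055998105433803208077534274703366832838302167375197314091512135584624051386283991533571760767329711929810150805120343062064604255698175370227708067934434066653985759036499349653365909273141955978359684144877885423206179749357849982740174821673111503366544132964695585459474207068296263831798149705099287586715343268706078443638063395264414929115855642507715519398143832727976137300265576552527559721789990666501517539544804540337132090285353701596528357888231619500248938045162730394038176089840065540249922719007588764365728780996011262528576500141632815744185361581453851653263986021588918020161553201700249054813273470697092312758632961067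122665003284300910976866580172951389099002919495888882123759675620253518146762101608447025146965829866322094972979818968170397976012476470949921860560485821403651172138013612591393478547424988180854552661475290425831679575125589354359635762258892176278367050236181550228230108249085002935140043264222487609718167475884339545430100434734419491825773770261839777463604866501098485688445362975964269073122971996807735553362463205868566033008248559082973783972453384970318043897078021484718265987363787382578679299812522645706226277366171353599821237473753998206437162354651692173745252940430330559356568216216277424520172627799336912502101179660098055661899440050622505015198152747745562295563854656828808969167273823730805511959683033527841940668696627969473010081438251425140471650054195782138128591015846613140827782634100185019111726222309849267543455845042728872770983283503807668226756116251427623979741864285502919275961304980965402562302690776861218734816892536315609830084471831574262628344581059324408196061000351838252499086808627924272569304777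723712302324846577182395972952408762072041810826117557820808560837780617593257973746234909487620279612847486390199165609056115632621333451272507958685899097649262549384367801922579638508434110194759778310054691869596499313284814489842132473468881969665154050686338219232751019591669821315720690207366292516719836236855729010319844693132186614776935855731548205668600313685245591468840949950245349072650916132153786382848101243382904630604486809482418688645881932897511225671293929881649953548017261226702242671895846582390147988639745345930066459758484309409096547264883126894459562104955038730247188974043115079104240293511385135120929005152277458172919783272629016378479921852201471403632530382147293884313952388864518821176051006143978984192261721805350286917145372990595155834404195095547608745158952896371635537062554171958822673325589139326401678798443903958422028390996534035713821801119039682867172698836558893706927237427268999674425309341721509632077964898342583343328946687550782381216010309261926225365619270634752625726975646035074168641482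825553528275649993495768510110791462372285620730870235372482856911407343847972645743860237047263186940535757879034092993193325989674664797901363604662615763112177016713590171021350973881124984687387633923083127331456297083803811189415851609367807881138438585540339596721210424991326901581022183509028753307935539728778006051050180030018574597624153644719440558932769556107500535792858619673136236849920266457196706354319077860960221766687446167612523212131486601601948109873764511513522834278594563495747904917342412575637759230184106556684926472519710878053054237676492703626161543651656557484223069253182564099091238125790616893437861652850660542251078949351286318576473235695698707361478191172459804610169117986649839049682016863742769577619960942414816275562849556196188350234348899246088943385194156899306847307272961482370712522285962353267088477502457766949601687134618352950389368826567484743729997846474775209091844582703194526722056455493889530486596105536549193368753109221804209199641949541784872182454161892735561364669452936688648467492004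248937352248548439391030159440767281292569308024466017759443838432473593874444336578295898595177369133650556489535010654112828683803303051582016414834297951606250860219091023401598410813809915497597109837362506227487015257550443168788169627169514621731371190109491129614019392531946849081924279715476137470845377635859638546764555148116179491643643393654514337445254723940458321242385388073950831794914918419773297071026876951663992663919748107233444479680839909167907900328068499280888152300881241342235712662380122262795926540331452897083135541086356870358015871377149763079927566116911893138547125292526393235691269662822812632177718871085863459975735715013712743847477154822993258107440605511156069111664880707460859500840788552612203161683070725406505598503022147835542042828490823338291979111375947497407874083558118464955362499661055160536107594813836944845714366050861599963778462646663536081410898912307661610900225071824668167173483677561541313705581130589338858099362090871598470487941771542920536032396838654447765030607019631373841845770999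387903148080159556990500554015081223883457941625893739085304004291547985141909453713285894170343573885595123700386815346145845501222362810852816664569669207497470442094109813133501472223560681045134179069027586776094407155117309126848750136751331456236336857438181680870925374321576776913437073565002282683215394536645508129236565246910920516146256122288190759290074036101440194927937444052922144605772666178404822204908383159723554307678884096577414971680414247719981598875685465757562863345337581217969435357217942817130978824019688025577770850604345807583592759937328875357345374434044366263740538696547066698951701275656078416505598669403425287837745220304254916780395540714249972593477464984210833440557193872195843297364052361191506700192331641502795126990252647730182736769071107233741181173778334463487105940377760397460904956128305592868545226607631663890833772408319489976283862087590543321976235931114057068675189337827888666799934766985776328561415302950811322182334542766567794384996782036105648456363458763780755602278065779510105563222114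211260794189044284124933502421828081136897236780862519899890037075243123834319086682969028468552372306027260182088730501109288004107710892785288826811438995703237730706944320225655198246879224495994534630194681084339413023125953189477951082189499937926473347854039518369170412113978918404121796631960510707337066327012904880113943311432669774203203842271860286534453744157927005404198676176480732235304152365939824956000389732719306375626968065362665676644941923826221962625077423628027237192450513259495651187075248753390531292036191462820612695067670698121121079222635095152414062018993592801392866194271238174438808315612492621902591994656182564135888040697829867326625752340044671822123014013785288894632416773912016006553512359135667776963114346365370318695863134689984267197716295356567152086573192828360088238072566376454817483572059946216649528426237575429611960103266791853311243510300156335052202010527120358052554362093668042281912385091236322343290310107838497575524837282639835387445723816047463407645107478842293075403909797082579962077773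248737346564155045568600816002782257172003844546770620604849430882282457872892737615701139727772669665627844659546474498608041851076000880700995384738953251409613864576244062932527815562207058957141548300745131771257801685092912934940239170216105198990351653724055882896423448254288542918232485256347377433727440821377726674352008391985953713242619771448301114542143631308327707260675983217094769807688940750630930948834885132995778221222174435317317002609793959385006065060691043108996205397913759920193790777834380286900549192639687245969037548784757335566215724016857218811584086720020123787017013756354607737398477318470590088643495807726486272611438947008707334364869132859784044585698140270361955161202177198478201475173163494286167512202877468296444214713854680454255154465762743819861361668944593394538864611432185769356403778439135123057231146157824875290462587791380812780324226612888504025025355400227223237105783408514278546871286397362819330322555908683525330234598486583776474139658158457747312559704743354770382505685739117403075871625040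055359049637579071062050241595260342281160380124584543262488454747181366727679783919091126175143898950756482186818290535281814523510357201420447283279404072365964096957645052513552137915935550474809040638056559987431236706536757858543725187254026352584706109822928721495652606574064861559037082642409265670729125355940908529814646288723364262241326580631960051509868635022089452812361286299740304386325798454114474926664052958266530989097910514222919338026023966324762578808373101871242287890121238983187820425572067785140629885965858853480579027785460362610750979653416226006887982095403515613300802735551421144332014972558940303956021564980737347561950387002418907631432020218117162039116702514780217793369256204480907991769402102623624023715744491318327609865302576331255027511212354069080500116389011036462173909966238587141338425273504105214895393515828006659611617623392436053120253412629068264403033086344608790967126229744693007718857383860599103389516807221740186962502130736884019257188309690525970083114082094397852596568707913836725404891669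629505200065923525842831149572107740846453833457591351298517418729212412624522707226252323130263965348584266026948159831088262825653312261178384939818952222263642644715497447139579070546748828419003582615045880099054224634711132519187345592696673893206532216686448219498256435776707246840530291344918193826392348332766092803960033976242842877111108755363441486278808288758468379237649807650889457554136434250301571134361671939413504100319761954615386422646719926452837124130453235119079348796180716444913973475280264105733254813410595458378629861028836913079242022628822174414473189743041350867084185778882350634234581710614378191303565791175187569222052194572199785921505873302741517462433771663783854425575982643594526937391135640420497150835690892392028011083834662712834137274857028788687463539358505919884481876012285114994728188626087004967023981361685675273172916485517602775295406533529305351448100248464453581769573826526616756278420717316827619226865176943335253506904769670804701075110877683015571674105730937289302000436417859596521560505477291167456695920884647128752481572752119080514401010241502302031287110598656)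

noncomputable def rc46 : Nat := (nat_lit 40043639762294375883052861448385124564562074445848186498238267421628979924332582273339708548310163833255224922066175731931376070469115853999883248021288322840457776018726809662781725319410016068738956106687513102232793587720144013875440991112542168813526598643991862008418954093515642665468032780786625115155705543929910281151924217640760245723893324211341349069587194928708932005089462089994879038577738555917922515394838330524997216327586099988560152483452243539064013524282641454291067674126502522766936312948318170768705694811138188968220069036795608376771264173599498808653208285323318819620842159552726859517649936157447109254420310797899452511851350784838156238906147602517620957122071617716612538237932428912877152444198788609141350264864463633670667271427488326327451732308041926701150067788224254355855377535186502355822888077181543010601048381616724321745272586826020168427473713363106640909205376886681164703372123463505205840587290340747258366865010912357225398427514881473606762719841528840334213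144115977857429149367378123832259045758582320271741449428436588100552954523739064485925318173897121180840683432227051852081798713179626988188891364725148439900616755167014969944448994789185097565050885045040337591876551689872793867078585150185188022138373034792832360335162693963646149796053291679437089009092670003622879126096941690635705420369612909480679816040519160326221341714963548489018076546413268493503815151733249538860908967851060420398962024565901729317273091767970505516930932034944566562710001356744805238358462144173883846333787660993543267053586813092310159201711585482692305989889740269630411480091613911883799524339340119158021966908932959094947522568630232546831701428414308134736127730211970110291133044726001797143600507065989520781979307623525259536239401959093142167080442773775282501044447441272617701582318875200816241611407625419725510897163200166049825213399077388838457366264672633968968378394855203403308884493439039534753135883655895703407630303823585284357328938142759337417644201633071814465204818327206466714081570670875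153984055807460996442704920420029671902542298161375296367913761151941070590424015262949964353358332334504542931512269541443613487312323501035710351791653897450924139991094355149236666893653427087084942865900388225107006549738280092857308111074903377235294558194455594085318699457340411725096143641490166763769416929145265912657013088056562213768356503383983397921900326926724663488079055031320941641569005140550337893438033775800377099899258573291070608219734223504260106297730457352742866822571782250230295588148205519709653784688746205495855230847784457920551364537576437797959601044737583095046760536390634963613903526668527201975256750501890987015284685900715783386893567135608058431964578691966516379053559551002666653074999314128036431560277673855579986566653846373714843369019600171317415119656939022444422567383947563501321528061300294597398783432714831041947486933982533122362067184914752228451553902135841835948606946257743482185370149561048460308843583188507785376489319828412679685206852435171835805424856542458556461170051542098975152231991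394984759063146225496419679204842248081587974182111386437409974955296689256899269664299042485770846150183498918102482020394697597148893283230631328207357697216639244697898827431988646997313845049616792473392699538378848499825616844689043147275464678074624177357262315078200228170042374468313815435982228199111184656440104341822325239052274251012395056010537435808214096962297370846285757749437981454162332304547655641072960208200546964158896961123758076943724595781087506820134056295766814435850332912031877505838304820963495614407985103454403597691991655314407516526190377450419996281510078955688806203363133391523323298608130786309597231733396440555221067762184741792507248484898382396889552749351737935568874212037920231088263128189388413684250873643864970161420563828688803746208214199141891457614096152212657735183664463271387931652882095780151597968620193520261225358106763413423144114239645326840317918248107822594834722332373291705572186604869116903273412931424277283835750394500790501179519794169134571916642483650993664125112849391799578268698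757104360653010256819606074404433034438415534573827811714227275311556230806212204059217304544371107705074114838220761931027019709412192493806001643347173823168284779701762938366671939467051800419197422248877893050409846466987178961902248830888647274002360044721842405829131122057900347001283056548311196091605693007886111024270492752386008932357590443419122780419223309419755216913958952165131408236667930161151718159750358115317274221673172755295298734154275115758441646934135348101375836915719428086256582702129608631697829598576838097200798630558964318172375664166781677903344879243920681067512952003926545669146552586130450918243960515025213941077760870706668965478191371522399303985910081640420911137945346784314278952896880792243118463395716728098174469623283443890848089871890895558981105181571691081223962579978710445212383885789471294474458706564943157427443337260208158924542819972408080142473565730569036349130671379840829909090875729871150085455771631737839759354807129263325347048573967075664207985331270391588436462792054592781703615921521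188602606275636655068078248415051075935043266323846849227812855562832089143504057673956277538030296873734607275079350297314853875366527830036443160193182848822527056055070930765720208281272324178380719335468317312296094519043929829380545521729351654021134499476246800642359946383353465910063857599783528349070192559419766595304041212135799049531001189496181817843451623558935347564946656747262689531519205018221612839241296730729338740481332119316668379436444850837501140511538003798884985089677234839412790319733478937315992923259130103367151074321166388872860696549538905693284541623986233745938537917197865304003398795326517178390210888621637930448277378678245207686011366896804196508560075335251521889836341360230525414350262686158287167112121240264202178087076811603071270912920431080687277721235392332818115530986257525063193024067312202315334580466306223826180560381116773436668894571976197809062634451573624866428403974807182938151314166237368348899679275692100526842324621373406681772778122265937753787553266293236286694898826072913494429221217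936997253057876950930124407758319763750697212151468899613264819052139337621479110533074883889392783050735530968118360990351498552573039128540873096008851113986661443973393503156962427045303137041860262778555675570935912076527412633194275167426121998078060995932619310325894262253225042786227175349950576189192466354398066490246178410419694180663011358149292073113515607367355328137829549328895287220821643722961632855282637856205820251457011210198498138836790822355310174655099472861764017981476763086123495448344034552397457212115516724208521387595035201858882841126024019173813791966565150419786646377064818463658939836865488714992652827631444861938218530351734327331373449043001403387001106303446481133655926674330268150802651151978502165245716561386290221967560665585444005625960065119722009043991863092186595315722200045728318207886555483012772888370439705738752980378595413727918703167356197863575339269555219369842990674704081201811884152763420812560481131376269979771177907070981029672158335529319888650044611553754582941404251512422443321324432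753712000421202009233425115293029150386047385968136900898931353068577769686175047300931428038662175603357428727173409493987129179634879458620207525285984659724600859114781283940235514131475096743098026365470863444192432161650887309941383404779022196790200526901809266120060742573419816866029738665443023574033195878531418637842201902902730579937550860176427209840874302477725742167480373248039900467924031566629983512692391276579465179191537282308805791448135232095420589230845186654492641702811421634613986946085942636171577875321863877993662323847785480280221053046894020229567200671156133549234649181027228203601809113765435397010361378277291172674538919199336314015803937812570490438782414636217468320194884489795595108177471402466373546177918741709096291117351897438344282177326391960285197113579659562605348068129423672383998223674968796530262471394183489224998470494965340357278743932395981010062159860924529567695227950287174227093851314542084931629568405792399947964476676590909798662388757416992578209936913655051276605033050566271701281059173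811771004242347017990811974962077463335674409856406762924554854985294619654473254018014893040599066954243770108494249548766958597705918437191702153462551782857779429266635510232158724603333136537113115179604555234550750156150193127479273246386382067144416761634404441959047795052141127685522432739127203363786659194168192371252910317244097393882712324503097586011959206942329764475080300256850943489508079091481241804093944942682932386074725713434068928675199687076681716007763998313225850797864761521627427299652699355730069772620672539880726163787800363804300371501898422797662287715269263195360718940893162275970173564508204567973736913883616282871496070018962744598821288593907494677220149383759045125905694319102255875767570206748215048457721433847976752701364133186062544392040502732555091040017196036412028199074727359380688854962866162774490830273478968127164628990386593969967008297203854686317150556841731117389076156036241636537431113878276014118371679367329023444742482968038977361231042344776509994242917044402399855842482952455620050056461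246919495720365925282445131385557561469862466319500945923878297143693311828463431468406549557044727085308659774396166845997873535121288136524612124322307671840345916686192356464481163943809002756321875973166121408098614207054738622890539702899057787837814008774082114470920563215108102153489018460538318073967669615835327728514287260050044674399980072057420944996747998877413622536979272535316785652513584780252571323729421261677168137742587563411626016321674644804378789063838185180292708790327230926207427437278495377685841322224684381591591710314374267549475684380161964268970369277174273048230258999246413545422698520856538900550304750038771823494948484279094502947570706631033919961583768614176298159683042758947276794866607970846061715950649418054389193108402852149339567805064590615525990232323922979604274618409441803487837167001093816697280689365482053461106353030450961541818281648610034766464429927695995896502601361565890205208476353817214206716851049137040560483047287022693838721303760844430201967051956107186664518135025125211701005434821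352999440278946311514119736585640061562084922948770661739569010045027432017737350753250126979902947038694108232110825480117626518426409700118529708648277924098943746923472862925000150511674626539323676632122500364272302255462175855494621938393621600498147390738461997372349496435097507768106223806128461905945918218929875465793363348024714905821752609877532170028819329597957031683061468684774710360212328920871999288303890909918530175446638940252257635378775353833620416982379272104429227824468244024122047762667331622939863605290137087610574562845340709147883486032976884089309821538426114017952083553184305065468849084199160565571542895750489225632541220824946596633381909199247788341290457575885044574848944254540563468177396091133203808339261626373036838616039025165078638269291666833992736184649903967507854637635254360157855461233783186345436304857982912530886094960160366952107449883129195533349227610008063100473118844920332149212188304273135132201024324010283638789770693110910630624529927917358207590744637470332556529680500685764601160722635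618387964892987970889587705362832525737810736537036097467120332772104654716681272241906042432665358015036231643925221039673065987941339436783529880119090696136759209875795724253128234268309427241026185406656773924054596748394265301875317253919279883560972945507940681579364074057455753688241853493307479740585016229696995103390865132283463517070969853606856012764405621245817962039352512601945319083403855253204089778905110375436925275541264672912239339225777412418477327142663685037554364014012176488791362211231429169583290261473573016209125102414525059984188539440928312505641976479265718115646279378742621948713992017226590150846681344879252889515093385312328772085321071390118185100496399639822746563876973708047858205810695190671014332991036282685106561562043109876304741067375211442597666408842730972627824050161665958903517165760738414816427221605224505240623973123102095651179635428924105922147308650454072829715506628321432607004000300621637666605812709220891528773260703049633915442021723267073430084850989604500599964761352018255867347165636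176784932934641603965957080326718182471598638166532850933232192231198025408180532085740590919957714151356271348539839802822680687433771933596029864751988904438909978725875218865938884347859289720183064252636117596104790766570085978829032157666380738340704311239029266709813660676383594003952118218762627225949759612197957065652443657693240138667125721744346031577791946444391703830796520775485699474514755943520481566127536129084388603356803334574115889598722378326139398253590512747946199575843728736069926374923237834406818010360264216832555472628431971099864132831030606667850833713754410595679465167406896306258985813881381987047990810867833648047618479913346131349354234735186230991280060768196865605400481572305165466871993285297656001336202598874121409695217475535832125720957653824394687670386737680969763677194373921534567238549041702325103120823917817380461132963440253157134622343431926853619560429011053116574683008310794205465041965667544122764448922590076036839145989852003970127756280013575153952277020614116782087443731537948856927261141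095074584484387445384821168163022685171166353471219351317405052254319174263319406156401449655368401485905665382603829007403064539336335373111961865723221474449726788182728574653038824077346403441887616722792410958818187988187176084668720014977952157116611018845865509303671610376680944198570895392904264077321527019439467058230807192790132105472274565165637015607267801642526662607603084550475027441370671669779499715545183823831722337247252371560978970029539162289821048040362969788840916550432032390970787445967813322945217375800265687458601306848892181005377621644435011294749358755775393610212997620234392943577280465378502000347073619624744066699529552263500655115360194464920932562246295741731942824810294138951336829845613939775967199244144429187127506660771185252926583188671808084862673077876392116151409479680805199290581548569163069456073330186855138052238719540294491174305594424135054389913686213734200175101655875316718006836980160220015641091374541605122286185710606212577455834510565129631357536367980094585200636006914284493037061210130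122962430702123893529028832760743332971839482929407132084103755820373944899436133088398413866727509167415966147150601227358743600781453759318725934635862730652959107112864313000520266390559498025706855734326577407374798581849246393734213802971950802627139003741015556063855368643373563071138625494409427623893243302476488792607692735017770430527700534668315246945401617318826726786216699802281881823412864145641608071768068292955201485314816848415170598368023835205278962193480435276748110252333977253604575672323267052678631663689844494429075241135620348412471248848429776411562389944802174469278251453711372015584988816117485122179587282753504254228177394025191636755689906262662481483893857187397544673576678534156475385529743032797234240745853565191884207065173410637767949455770193858162161176763451185077609402297596420481723308049589498888380673693745326584360837730921049712599234388780604349282279090639716695994870409619530391916300465690390113914638652816049981034313911136187537244503279465399119456144474086677798550510470135304764361594990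629356572688096586866114160331452134806756548472054600087846061216324470778240680058563756888268596556975808483783801704843127584901269060601385815932656933910883651170262906377210957773824941092964511534688111000575033494633813219755890943546323665672614388937456735481842903916391272788471378746899761970664481374575118876217396703231937973170750246738044901677747490645731271419323361607113405561178516371601787962896674367910452235338990207344839939802109616555087785126527290635426847788033393228239977229046048772968204825339188562667360508747798135690041415054395969897035259965382481252920306925434839444707691371538446618872893776785646622487462589274620172987999540413208966921118059116271172635294217406053270712639048337652489089599105287646935163672235736659223358500683982928815502571802210985151114931497668338192736968455478138180476717597154192337102033580582137941566192838096396042875029165255632746694658817598521036560766220850228909799580997342920990925850788719029561117789134265462803616237286114317906221170332641472242128514771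558340086860870210451481492324001651080539024360333200615018242569365680788101386892034897548143809262418904817159636291783398958839579783008409384443452785505440044510658944769971133136129422042272022983760917549355907208894464555351336210814713648846922528719408813122311394815869190097748153315331897171876424645016663699792953775014446839015242946543462817404851583953124610207868425148505931868796415016743278850711286554348486685401832835331836868795648294992581933865353484631971669781229460628855810725408815221760025583053754968972234778562289846090799073020079851587539532289391717490565130249226872559516353225794774773556563282455881987959025760676351119352286302645999577643728804022805336036077754987383941797228537000748459105197962425758770790517200975438953137369060698888435554351327817906852932295639491340842702700003841643664671014447435679165689577421529186964576069109197853804240821959914950043675691630576255289212759481428463421499928354350357205176539681360763184812216596769369518692258597617633554279649837313948269847926826275462094029956283532883381263987408644589682838098288742460781163173642240)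

noncomputable def rc47 : Nat := (nat_lit 40066717160392222490991819022961598789116132259412605717105370126292309901668008060389228242493701779014718708897217766530358409434770525526923627638768473405409654642800106370468716909537344337894904549174895436877428667435753091598106871391279247455133737444806915603846139518409140257302030630177513250472498886667969382001225828248664755210241308787464545689474136292055154675019663524385708353350716958937772870480609789795341549568800098383725566695532786914576121193763706825304496901608185199634846575955898518934517028611814656946717460065255229252026137251094744508657567763258994212979031417740743325253533368852949934054283605583906214760061351511565508647624512152899445642450318629854939092200623359791549450451061044873066186537552065603502274173825449311457057448037797901168062671331199253143620704917715699883185284315697908175256646046093033846311734607635355767617520798138087011295954997545427812661065298520550765564870566361029368454981345662252045316612228596635272470478653580242852322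407018805274539083454192629067991145241288172472101968584313775012244103412185142532194619080700308264973309255048793298389943062101895922275053137742076014219479768785271162483855830402612374284067144292728546285003312033511873791988001745972930500397760572992964541446881918311526830634813965953160842384135318804314923788250368030610054554630082039206710125620239364473218442584915650707552911957340460743888525527438336114884200187583848268895364318281607730924371385402488251021409877804525050298459734397078506174919832898161645379142378086769957802335587084410272713916321786415241641550987870684595512163306252151408888421916676983923491095013193008779226659078810831460809799720867243637483723135667846958388715550420577345942337578197993157700718481488423214766870481167220770424732074448315748903357844815644135135848537603743015044642220815030286875190078089544713738111424388868713037741327579254313538070995448016009003717140566661632499681278615157946756539395602831205856057325620690449569123669398842843950246164558179425230586500280841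048672991723237806664062983554919372082379642170964821288310193722000135238545425468381513784903134837011018333653205126543095757535178882165579812875222272404399609839647502160735357761553378978693607316248978006976651744885379968821449572120629584492662418814793622333612656387956704818489050426240104992001388650951730533177309334087393153021559573048520951805474344339213070991183548650471202636748494663477846668939834838162678273421852893088568221435775877494916062002932002682658519554159992828456312775784340477327837225230243466963183803221080778221735412289711623370253448394728522525582050130405940680315666192296745765395073237318021732149269027567349941155880210555299794271527644731053908387116212582509701197536540848837351346280407845821995803407353491171309883529980622240471641815938403198919269009148180218673992001305824276314781226096877828808580679283473517001347049079315545544087407148675732041083482864154885016276872320950516302729913823764364325948145838268640686075207523805521577082171564967772147805936834494907689812503797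266258311798792755129844053351672656970045935806703174381351893136962213205079759874878982578797505324245330663839050279552451855992612617844751612808490436328472932906483033306947610095390551886410092860567163933780255063119867168273981487865368964767620604432983203404419243501903592368127078281103395779583407381674122783799819693602039807658445752240989852958304203472519086235597004679177988020438318422441420448234239951703830981445231255709115761689092665264515337491977367100106609650282833434052484432152025697111793042494907357448469844142375955310551339044050961125537311379726869180217670942804408312546202261249675799765096835164032192097876735537772048613128618772258282120746866426409435462406790035788552509401035262604504408697166153577612649109943766570688201453474836361388394435674660673834086496056176429237898104725977876888543351828415394124720252115177824757507881129644356031107628276358047401684077570002868053801089713600104717277443888387020131458407089324028871530455951048936905009366314567207272733558277134411642588526436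001624710692984972597385304554749968286783521969813351678323955036718545717406942363395868386738702388881975481915344735205455213077908798152444703295747135785927742028809488323108127612527696892397919595719814580577713233680588395661993110821251589434529546800400968761908769277124122092285345264111312775065647615261675805556344985331947447811688719003617324155870899366352855767423819555660441199962540960995022504044928733648387918401586270079312715305763398796037903468543111787203372130969437129950132600722773667850520993336193622929827876866659894048723131183325879494157766297607568653137143140102118602977225270850043867111556417250033469848816865116587227715214255124601677788831456857886618353675940115959791922379324432609889894717387224526176231782968631617693676590356719578778211043705827315020492767128490555806642047582635089403225602058911712016790220339613388981254265526198511842081935642085656681599104559145892005601619288496488954599312592519517076926361885018597255463091395977655141723227076767648173146636628566717176177852166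216265598788349438476840046855358137970548248222558106928811021356021494133578306912171542351701535653043181481317181055377876695855900868443914344099360919561246267839875668383551282810505868383118330637871392090713585329648304526696652948289524648258951933765015580761995507505768401209581134971548276198252457802172110009363162259301288448706075012758130507773026475404763866707648952732408731475241868200381895889296083813520753675923596569729732574603246805698976324050997709613145932903932171454391149523823283075857756980518098994427388057460842411392033371493425591421647486436244382258837424865013292844122638805882718850586122647018113047453782792936634186397552494193501153678147823284068783212489350906594775596762217593609330303863809524644243363781794309011093682769391134314125087402357377925821604693559755332317534862151610068835497352044709158433531550314745327859279706558515217213618463433067816278245623683689870659291677086464012412043135699639798711807374627070058385853737048116162329187712682253715929336334309671889411191444516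038384083479434665599112455391991606093960294408425153390420100613548424905110734821868611757959840109322232784750392540092130910600976133560417386937353313533023593906722010475381419668534574919484796293141238484608006672045600147922816112687161197158681907669095685469306420343338440531706184588049568776736248939194310270048607359112689055623229673594005622878661203881507088249816677150393444996171806381483488239571967759513761498578234998905466394968648415460210644650408793171456197524902200684163505798283886650743801656537750608021601290446161256774248427207337031336300552534422225039900877916508402918344889227437996164276291232711519798269352278089448473462779561491038560382709055303931410735361729016596092352821353383729795475660246902138405975204953830561586252057892750301568330111674767453148711156187890446636664577791483216969697761960882468421273057255163082394868671998811499835545180122748475035141265396212432980773684161900626435320297335396138838266327611254085089737162888925262118181320136076459527452855580568779822452066135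380875418603194132377056035329503586922578769918282167767241049671173588514335843113679753166076437094051407053590459122586009413519144347666463905313848036464576984423705186065971744148670813831717236292461194662344611545547093543602881121187001531548933284169527118475818871738253301395802592379996536673627977196352180911584611683714653191376510537423293496958350072562849534616075954464719337303745940164448885574546927051611541279511619600790469768281999074380413157429725108150220443967492737809127978566794898599575977850590209424678887275534335662967886540698561791837935831612606456540799388263438832125842603153321330522765416000029090574167113081101064381141442548265074763931655569650741993959244560763602950217331106681889059828387116015106434128770513707439565537022296150875785267478676314515617101753624185026361757328356011919330853602857172615375565923825984480586541071365259906089496623961727109062973694984896673874871339695718000435947541226094781335144807169460012914044273906387210783136220781680608753237650843409466772636146734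615591321198901154833599195093140042203147084802259973243952259141348588630394274429859638003765507558466424042373664249722718352325753165157883732441887546441160598529000300481523470006738441483738465989540157280272009724705669956049329826629094113700831327466777261224895590409537783985959483908561469030838740731058742777831278761545516487260830089883792376567082215086845403744379137905975059921119846889273304806105249153394999200308594472735667304124977765169317946409255327659768393862734270464691509160212656585286789096976817119509620468040178151585977542268853894061146573051683505067299047944046109170837768890799331145935474259499415035185363430914943466095108463392228576415057439973330047900536649303985129341690274600192495635613908718882993142389583574918221665276990857891734967206639180333361747480652891007052906960694900477085490105593872969119104314946334262811325819172896178646482745570781732453513413971305010306070448352071624894234062694136477385702679887270084468021023041351588625017979098081415461583970332932527173482786553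811973472609967210918263595537602398374248283990746575216591785082594789752296945191393245694535031873879962748129206419826053497780860251425408384872136172543352014119725176509414028240086653432805352844219542205686755532111380376502715325362006283748673584450031557331764785750231640730769972335192832015707091016125146503449614399685804221011364024289286997695934599729642548510341986882897532393045056488244245364332494156383874606176702817797478904363900256148828681243465016293665012171546328817240529273749557091775403698504859642506698119695279586720722030744554055729077553122197375780182561134870723761594884712864014728969145699434771052774955341879602879574566190846030547042378487443905285353568120072232808757847663740252285364805310059963685819296456803481869304237827383577260273638664699902928232998289399546636239745754827374996141014272680331488514222680113088215754844925971357453950509928719927317514168380749105560800153157758061465193392670936529313452463214522166442864473376692917464550591088228832467002990797214744334317414763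575730173305440093455010581262447827132921651827307311067136202766428246608938028434773070562709962752749247153699200492963526690537663904001887459554287306770489996571751336897501117115315558593710101023899994798016240315289535381571084472783961817909002530429816105882440734004671906444971989215776267972361003000270540034729223870051488958599922466627276975929698131899434113060212746162385767484837218966233315133533195377511360258770199975764157181866975000105551265155990867348859602587381111451758448370652749083870598532579574282084558308445804482634496785417454142735589992933558447670749047715432510284094373859307888862180680963023871890634311813163251300720807552210335439722624675020280577151422825615443859530680932732319444231432221652681184032982728965341461450880697304176249070676161363207808114428133160776855216811778096781387127602775586588394142396651285808760447082707751350001697743973288255225648925420752969454530632610583327389767686336392257127605376655816952714267554067026656173160377162248461587751081844922745940676542514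419120251267969275863204122898266217721419620596481096575140105401064230399378789254594904595250600523200246318332076694042670489495023738107538778496860078149105025485915113296365270623781069381876760263938896463258837425985829653187764891925803294896953999919101012045348752490266840395115639707877781505000044982219336468089737041127806389488927644401068010825188329077134135456605316589430560512585866264067463847945497967885457434820359978598570611029365054813825059044261018869366262186532724326683794637522381376316145846824338142960808323165750683109453418685965700791088955490532132388455252237806253914053995281757270365221069480537075016295379924264766549406746950887392636626083992867816076692264979172011744988989008291032606494219067394209698988368626084940487310843825310124575161619685453064523184806951646910245067543226396592442419564103457891875939296162084027275637884257723505609775483506194771229101013652616987383412934072838693045880307876026899822902246936224152765219109558605188065328435980112521722860788486107733367339938061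850840344752173892378309631303758785203503797799465588198170677313664748159180586887648890720266133814833031140706774968242663870716028514461288815233136439739899367594487161974382930151399629749409090694444310459294065405319725261865477177238446764087505530684071696124963951523384156729560861823533631353508695656325406973468104473523198873084219700346338523015865387919395854991885479016204438457763113529389162962097048918303039975497263032012195758425280734032274616646773715435330556342282306898035149838373851788536226333107311799573138259930321870014533604188330803181171607422042037537447592245203055126248570904381574608803617612181043496940643374940935159437379066715470897028836209661865435503555841516583426096703532148730749745304156799593999257460617236306852900738381560291440040474633512924751716971881996325516488117171015591291835270120898105418555766937401311332803364849722358122340638551660300452883649686241264091429990689832334027158527262436404905369771993654733811147885394626364533237660798958668001879718175150250811048861882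877944439112399237921561720561061479272678242299256663619025986865566497493737309187664320606614169574296898241968843850614219425501677986417577030608635752419629088237951001654972498361484142833956318129182166230394479708284213693626093530483674823725499828328239142781305883697720165319310004361562291287375765990187183745432291552290980849744294222733253281696411539338275321616749713009620021057078524463853783699290338146719321135205867059448291222707089798250916150546574543835171136717099036071023588252477224781114703001196967294956135116191701786471123916008210529239091713523553428905451032691423139718267319708610332576951348578297355222053274130722432413356618310979931694416416086410803685998832887304478362850576035733943852046347870687197865916354706682568035110733356303520473880460802110090619571337715363179899830202798020271467428393942530031669877065385266421337293564821675393988432271593087293485558684664851260579368386559905250482685687880051609927959748613511663081865442140904048413421958149369558356964701195319716884982612836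169237502879469626658483627815272794489747934142522799030153152615191005495132566384952243674278116047509396664956454426020983573047895611638740653932417619347885204407201442028132483475859895918501740410712687975112799573108078087325101295649281763404799008338713659104838702841944658162148426591291585517025560934825473187491195042507713464980341592074737312880809284395119910657270998708015197308514267139605179976611139474162416423023713528910052039386369040766844963051772326140258408736918250133787937294628273996959249471531636734335317439799336841390489688797533549915116158235322363879795067381808638933145500039789244393340020188362807456253610472989592674666150144431313230735261234492937256653752079350246475668036035986172791096847725477967239149503136367796684181173373650617914042827434340801359203863866862259588242891005293540065923659925148794517293555659341075379301874542063952197200556158227443384027524537963546449682058776905814785801715865534201905277794917150203517970070353568142634109573739446718821367535921021036897209138613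900541553422888386263291928038680650004112954337539351678104504049124471788048004567588166975883979232201276904834020892610646561720661502743758840048881808433988879365110101474658959868953319176885030297279698038478151682556518510933019984635547276392185684316105234920356532659959333665463761895562333453941605048054528968996184288271298626447215270988846342640540988925944492992588802893817869060569322865338159556035851141420530902041429500956235395259361751985290330537131879983941841232001501282268975833522310151183652600605895632808713762959249982180691867214874897222698564628414834965339458959021489248962041149123544332326585083529272820524438708863185638254384886906020390313976992602187046353695555284353846879483889412376043261237912663040072873230772508992141436758115814215592101514545684523292035141510865435113394973039171966358275914170157082880092471085108992216229347710466781816088400787469632689754788461371868678065076981066483492275688711326137151837241292684806609136323725159135706825385259182541330023880227128558557370841032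461336061805963104567842561639111613604633440536384861575551003135645707424692576805764429742596856292222650003755114821417795206242989116735966938663889586651393526267569541478717753618166300788920912538323372502862350895230047063272058413582238683095208011235391143599227230486779686269849224876259829416778053273603857979474283888649665451325777597504453268602530981128240702057258241575074281643571301319312309349363978400906587951785364969261091391130926990361343684431575219168972815979095919639878137283875844906691613074350942483282252102675175432056701475965379920890196170174124654358815395471148862425609212419199697132939544661608575409537611968355612326927995204748983212413470846873592997905800822415990214829618840264942853109412672233272281393446782362144015998482597599904862591698353552061495505782580927661326990527596752315151780468609564042170463073714894751704412495088075278648192811040788652096310323259209334815683271798024164851424338916665990399698475263040282652785374746140972060708856849912952193826588506232114139651069533820007388112039084963848576547484015039920280733226746679868998610707283968)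

noncomputable def rc48 : Nat := (nat_lit 40089497216657236869999040294030033645605751827864220481466314907310359756998303265205272807993848910478556133946125180514204358378102992980828242083778614555795027809855186214061045001033027383989486258204035892003509161555574257713172143312006895840230605022285380154575959466272346662754543324763178137094188270361647791206267368484759056065918775832590886412342028880164404621786549636235333603697379780707729143564687104272756574261686328327107003197529755832579980635374859960567780871686833714458788993012210014107926082732772199728508605416940958491967872850499151062654623317618648231926331118853518291212764376963382565906988440018802242698794439095810272593862861552125920155787891038469951098957532980197516198055958357979685491319627643349590358714261838291858412853285089382626408683879200531433000689708396763935805387513037055074493468259043872233025637963565974055774281388902413444157278858477061394624987055128203969561933912908748238876209533825690156124631667241389499481638082955579028052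587342656918383634412465631953719522668067944027690853365318427851631437136910796712262563202890919197736822400878563554024988253114937105623555470917312968500352319027715201451413871064225200849520414935755415851748468429750572472559524630881062665336589887679527589666327143804029814232869433360244128035223898555169949233223818450880880382973904622055429713940425591522839246406983454657860937254123313095385924154578528486678032869932355986532794375338850284446904458923740713244726208585396914907994995220766324484650341271716104993326208251733400226201583317528687986170655397707615273997040386000294924989901340584988972233571934981827069064877512535495422150476925768929523081168580088440646976848699979715425935979776954080943656367935891997040245939369190762261931652952968309378671027149234195781791906229143675965224462628737902325210905432378493218797704908132876364346213943462491810385282146282120800225387035134066096751933293127367825944776230343450224714419152042222140179382333288355740981535428941948994686456854054451447318343208116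991371311698860277311676862716598285069382771397697458767317213418650576597255020207787072439006453226577167256435158139093876777189318069107218612461061025251695235330908557866986241488371277877434513716420948256695480446531241125862032354151364728938778616034533399314252188532084901007019871534173252646815072690907005959502429991194397393615824135886587441384998120292049759128270404216880699078450240973229095345696228175658315124576411910939122815963065918338395384944672346760783446886224708254798675027366918195440169690292523576266422488583954415709801562300221652827232445139934689522621032359915926602498075802576528072934714482693936000729321287585274680743516812614022766256092735693135602543108889196368952944004794325517814450544105292399191083290006400359682207298071987795148447620657808385289970547188254493117259226128992958506017832063971105645543602850162228716219609360045668173885120403507762838281658368537676508266611073116216534706481196262790423109920200553989320026350409646742274679142759721019623894621558823537308616589786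517886738192721819412725568998559457909833586564462934792726146631870769776750586118925769422612106115808285276376206749578213510461552464953619232068777703082843304460255183237297081882698474974074691907917939462086926934688063380176929957578821364992115655882723885906640376612348861911326864418370108553526100571437579147783086911877833525337194052375338815998153684868394223467706184665217468485151665745644262534574298446715437547048825137780906534351667246693981978069431657664141102283485391379781946533151784596767746089131755046113433545947680207340043438193203897830899854568035836047832836902691714831257001400055780694096043513665995233069804344439095964584364888092313452861853140116436160338732126042006870126467103323386171860967485512645144022715592270065198598796320612795056392881723228143306395102052696133355230028059412006917753469005278797355381406719755201232754351956710535125673645183982675734945454651811668211006221777484832337140968387040056710618389775055459829525194069536580917182344740209890188028624374900346598635180399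702825893153800822263350725391343762858266162849342730727950366851282728728360631602624090938663918168430190036867918233313881621530337586382700016235068915221280437462863402213673702039372430565344321274668782772587903912030342386207398964072443702458038298411806178435276962854008261629460037149825024124199727782504063260277692352570464141431263945752343272849161715274477046195104780712203992532668417678349986076193282616894862118634190920781793977733801354930267808923450044925033369239849848119001758219698468604028847080234002529098359252006332044785528385313925271454978895267711157024817988302261683427286939321169421950402894792656111306291092085767619712172676986083401313241203461634140432277560811815052281153703022407775871740277907086845349430275860396588289850821547945994739620395843991789366419459176969446951002615888903805458160659357773377619384751716488742574874749173225208785671914128064343728328283768743596406440234343376612167104926515325973875226726664628520102934652135445015123484494764955663993017125152570463243974070694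571924316228477390618743499394055306265049287533547185998025103985475632948971331956791231494333566169743494720345473909306895107874729093327908447053145602384007388271954317517408657935666322168501880208253981432658784892460286480781902696155600693733747917515234227731549265927034339249521159042827941860057645910734957274042179739784016223069760851403410837280373017343156130993341125651357716291601990741986127916848954335858526500230159306658798025418078759549632584514339432282343483237196292097335027318525228192620772499057944249677941873590768119678285277151977791789155135845681767162067215329169378247604402145169559911382967043316822341815495733996071939450899700631093664440398797774225784634674631892587354774036473547363206682090908840417179453760456214799417713919560377770159643573394728688520728560152763541728802108725559733975025436414510310835705506472099490443921457178201817001730146635128506685666748474050548552340819375388808827463651475129845459100828603307258796374351429138697616574932560681185978555824635267463984558453022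429051591884195677872823158760816426715852303551735481720803583277732722926377489422557648970252527459665117946187608416264853584568347757197506317056706735459279527423807899584243247043575583534992102045867752719411296991385179473420663685791551348979652627425462502083148329781690073644725765575008450482697637561092672359404357641104470447260877225244255046805528934185129133927116249120224704974103216503311564462805047391454016817819128169334294652929081913332122181915123093980237608364727544081336959197594975037209491475740494258858229475064464483304749508198592602562658592213203529053912282479272234224099819095479321282959758217921795811176123591928376540113959642977610133317736550515992019992350309694803523323755150627448965477336357788184835533956241736766016642505899288550982862703320654628889634109167547742698373701970074914519713579771039332901085215127805446046613495825976274888287273619786880750208320827056621605764005121840107954670292464709898647394343668746428600393102897653444254027423345517376962751040412875663875252194626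017088063494497853693290479933673204148205387432618948856452676266532147360448010354618949911619446133785106529752672928630894306276510406349287733404967867802641218822655278742047130730797842163997100019173763151923288405151565803648626570616316773850748810155910373022352748586059181214515313630833802992891254583666459721351006642346556947336352212720697884226692666671328386471131384587364501673143080808321145523611888506915756807020643935470292960324794231746241156924942938732414497011210362135880296335754699045912083591862404809038708595018807824061685270807708560954267859103937464046438218343538648168066880840329187616986016675769810862547225649202286092390704388450397117033063143547789797512564078750866691474458236359214020791415658970582375515567496988454289944059025447710922809800444612954211545218108690366366446075041483696326470656313192069421587970157398937238753120608060566972846555052798674499571224052309753050630305145583363580437549520411154633327420856487377896727098498953860558189023695973386515000692158435777745561497392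526111854837913083125221434824030672453668451816837658915085196149134113731918841489886000110198386166140176555412146728311216551717668238367325631357411285755851005195188248134306755544943043014466568166870716154796642552639374045039470545680706618600559519605480199966010790894085274885457966112795546519026411056862787911436576677146153871583489183995747429424686708301135926362432175327177084200231556265400208674435807997469882898822888169351643538452511228370011438645024177983280920429329768700478087784842425961971704309381146202515274513857493229646466088215729788671116293366765982431453342299414535958574617480920218267299885646320223810962756612089905962601703295073468813808396279657922236339198022676349367396869731108479510112900017030014841869538079218499638680188204801929650936684797717452580082589442681342799860306418671140035565653100624725140308962684024185509440261810906344169960466794660537156572303020225867559961221404100410837420644313670078654874376068540160067175652383577565093146839587382496991788262738646133310273689047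950303229688211290407886450192667692987469169994874227527861016482105188864283791255860300652054119234727720076861728778414502690401451973188194084198751790975874295032272259784564731656976646349209596014704504596077234651324016211693892244886762125984759998762868071421833440897105318994996236234721665620736945056169912976173417486602451456219219372912351373729831004828947250014422872538527864085559948709851410755093584088851134941701906414536612438569778047025298581057150688968058417609155200855809884645521036720726274305032710950454899868890061995663883992762102808094864835626349665589462421631482901966027680273588968948993539990360113250299832148121007262981338241771795871621376984118379690564884374379606752853878620494475206331750008038548122562151777154153842466831738553820455350118954553772474237682325558859539382339015448161671827860687173182717932479425047023587185415481777623483654067952547695257457555305293963701282902473753092413490723436770860089772096591106226321539839436585347963817910743533785604491805083563591505151317450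758717401120503944619141642104652155715981955311039949476705159388050575184016510764902572317115536865556810321773534784865503971254138452579817146173823204893109447515005557213285934990517866891105311132853513533143245532617806008898919427888106073444412437053653362270344754168856852523875699542684843483379271665986858361194832839058538436047613109568112273018000031616312320386682117183473644068683709075142478947243912366820470057161654970516570078672648704863480786051085402023250389368448353097845663511300219290772046803175794011674824871036791331187483027228588821766885612072109532368288714267286832694419414845918044733756217898819305978862196870286313083423961652160345221066565520253642922522009537665383343206925420349217262368519508903362443513351476322496182283878121938255284167939753371987335617617251525764250842447462824252425920085835841599473072811834881609672208957070215219748947010687256391379339611409902848044601393486118169124041230449224137307127920458373244432756869851947930503931461102881206257499282848277567792401746626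447474670380957401714405702442962784357778187795600542604190117121255031668010118140271174043358920443884875719971688552119979252965046994070730565938032415771682860841911789373394925302474094643120436240937623200047612901109060320744073373624703202592310797982818722311025371530886020665289346829734937748188339401228582548668035218398708390057585170089423367600195587119142695438582308287593679728095351310250908748276646321696979091237589567417064756473324495160990645888183877725787330640636519440145139990866994140675050280463847810799093259325519313764208942325218493822359543449583967196083033937276396157022459204187446335062575945872086777211856078617993672517347234018960436443188984930061885651924501685335931118626932207651750565658171870270430949781104075055943696055804345836701833665855253966836368190357410048001049502917862937118756783064347323381745267550284697253871283374132205028969356859043774140465545225731914905753260073445787972231636908812670729208023870471782247564651539696536524272897447768901258070331509958596403492335194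132319120682167716591368631789730282545359738565760688189288633113950608973000286285300111242827351593852449612475917643846852659994739971040357305052250672235512009201148353021729282999881686044416270859163203276786009713697104812566147240238743765725648275227075899593169653264069681322691173520021408850444052333953684771172205342393334874881057821309909127693618349193925583065190751749901647123415860573778019540605609644628261528210706731582892625435940652255159036877594763334230190600601857639451988048331199315170483202237405422191408836144008401231844423773881689139501669051613434776152872341020198803206435347747227987768722578512482545316930350924336224629816384853366042080974156663311090219113170601484520082400361531872851056626833255348163402605886830314928919232734543592871264111020547880737504858584729324982876932700270975847507068488915109279761744666195647202479821139414267901250266130179045285358752469916093614761598154278725523057293217228348167074926413746225833132027177318057074614466274557885700757961721654060758022373223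253387389456484902033431659842369809957105394413869581102642250441779104547507688987342578230687784290889213854328169070567620483573002844725455405255864749755812930332346213604851247148877163625485963389221998425892252091110149223859957590464889028334025267259727885845409996010618803084925524846913516446293114643585105602535512413464395788952751757161186095620862909495009112541372799566034949506201972281609392863596959070442730410066513588904329585009280420347575037310555326812384224158051242612738445049403426069540459080778127207406550120838936118314870387034188496438112007833611320263147095408444466255035049017371206370164716070045909082709846204249103211491470599597465938133576552333023021199227572251615733374862950957709268795876580718382467514736885638320298811561956090530372056640569443155972537447998221711903243650263261835613351989722206433153407166780445601055317135708803296529355245552191723530126905818625298535233034747130614713179112108614470939293322578281404495349011271951670688718053464287827093009267670334796770119037154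312751088483255207128675804218244513743204436494325827187306162941712858196351284280794974517880250047740115994575603003249428821387559316893908234617807178592068554766838644290235395163445535837295735136514941954946614945519677940007547039368000943217070626891236301624405832328663176684240256216282504598148594834517616585395547755463472566483608115155276293020855814411918822579592522471426704301113891269615607368677617853549884641874733909750044006619435378806130324737581041923710734036941777438816525933368011113265325740336987190072150777372230713738447695749628865665021818409393069181121438946738508226211638628265335171606086598672348010202600534014422055690612486610446072664421485512927758383528237629795654702426785056898888411827185682653428807735205785402134169222701416321189033694886975641271481074661272292471259292746984240586236230656589245846107828095694321585246460464167440661602085472445220261419467875962492428001277992937258120338627104604266207912902556881179028016337641088963810569129057455058856722049742551133373388884846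102978768095325231247333930781728737516085746495030102091021726257868234458110783675088168517108877150904186748483494911750807560665340263727165389060295905266820926315061395533996023612589727227564815724794398161306431171058070153181512246149566498803761984399105013531465363287043677028516410890620199470963931371709443059565407564948807824711500652430814066277486827807482538164799307038753001759504841495661840491815553958409374095001075237607815024854391157607449529555374422828732282030025054334837856369017697630123335343712312451434878505620898024903278493424810585094611616087614248950944510579735600177672774627045156916786948704190788859491524341741303544618141174106142489249387104864682529845103089873961519019205047473950987061273326642795408848047684650087003335956653958701213036266269714605246419223690560998385127608964414169718435525266754748342033296707889968548362164222914187423745524456060744423668550278703914774209929397390931987308272373224662454466904439756356233437803261294880116544741870550464822830900344643325826960448168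612274795410346541964067639530947834470680564863101779333548607516251369086398002525714169313050485887143973051913744259857584779759920707142766611754744601283010966495907826212656445013198854034695914574019866925828367148138979045336622462489797516085459499220667019274150943262098084679695255444675203116168193699561395597775130571334455561117823093423957142682068523028464368117687801891553011698523045229276513234875804475552098158399310026443832668930299611342723543657617635434401312482766564486416343690970564562436984190825580780343258942632056899507795019785787444020786389575836640068131866393606723884747626789174229677183705582014280900694865280767987390117771292235652121594310490061984195644862632762100918152641813803446359039308886185864020114674799640223039045497293739662215296589831390425028354537213451560647276839973361322324361928281629277294871654683348494450315936689589654809789860290194336092873614767167201164995098913017929517397262369335214295200809224105255894427941249366165565126334298050004659364022391459400173860121913490480502626122925251790268861030834869118630689741892353016107491223666688)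

noncomputable def rc49 : Nat := (nat_lit 40111980042984206048927513486045264464125013488409527608054776801379796862402491564009832977175458892056327941800465870569917405384546568755361692345524564881986179674152959622165963782033818045930843860994551745226280308461896208326491008124851068996386652228725145019231329481679343261804718805246402061194977109862380923172600638046300801458043571554302340797887202103426207732045682651027707265907416330409620774202004095607907894516254444550498525718478004911181117232695034165925719063410590929590278196589192495831954868340025679108205381904960983881304961862047452652085998057511644224375880767881645599701478455115062062115536004451086026341396784653556955765575832147038837947353866186766324018239274088276445548958536606468394781040280278330243450067152135177564327736147124066404144198423651154150832366337689676920291581389644054268518987969654864775092188229050991888789238548564904712807280837061089002966187545783325553035117885363724180199196727045812891056824480929520986475116618694406170679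461090341110416493658546973656717128475878765797653675269314233409265566078872481302123487395995860829697760562943380717886547455132169919359984406142261456560424934571634418044949119833291827561240794692165005250906295327143899874865162394230187850790016759427427572259346235624747241497976926739758481766983248437886351921580456069002019298993181621740202506385870462654848881406573761184037133995103937856637018011392238578463231251634878064615640438576889951098343593174573387273921765349673545976253894435523004805898888525874869900849779230525853547234554636565379534673754527886124361748733752978048958323114299599040850710160742884186388804003502306040419247095890136664345426894828312003541878238114421643441430289670781303994911903832747792840380902184110437288552765199804794775939257750860466290010339611131183124382380380423377717783801959680371796366333380202669709523569091755497764475245962664193030571905874051764725530062804832329621791689691508744319969022042246270169576521558878003330089213282274778470037701966470262109911905901044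757637417501936333697748665577846235449628195920058164212400609075544814887185577151730555584451530416502726781562354570754886064042757069650094332889656445122856355290195240024685102847027591631154220307508144169530325601589533091936558236202956210013493900601040715728978389846027462114230131974069846103050028692723340802744842053590918168230693712135565527055298754310200133603814078233849847658883847524873336761005561407077020874955588423398189258140682449642533552275706189530352930666066263199626942419622817053693518425513509965301829090532330661674151843464761523283878182695794683009152012424274237022168805090856461285709135177720758256164080777748629323678025551844407590221362325894222531240270455314889270465424025568370180473983207663800663740515077679651793384716765407990836303060021982607507262111730234902482629432024523904644183782578252540546648832358417868424167279512302591794197125882191540932640833941929122485685423076173907523726028662885673052216270596226362340423233282710921399084794755439115115244517523313935921037718501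102205771129801995791238730574685873543971065962590620986957725855303663330291332395841774097540228274684930053364919317881437446450117200125950610190354747308875376262548649284090935436403461168775004880240379435195737172861944818784670815861011162463282341727187845866968668785391272683847851453698092495558750139698762147090495684756823156479292802922724638157306933624389776669892608003562278979030910133842761025842086890364343317055795627352065451892102247059190116396729180904906014844193050350082331008000401901757984482337937823295388680417725877789010876214853957197000423382564663883033477318908827010717723718183250757171158240337640568936625332940431168493884827052697237155048523655586949376520370095748654508716055642409316087008591725165899286645704396067617039053302586307259024193200600477043374292182050308420884905095481525720626839316857729397280457959364917765136016074220635097209333300282044368853341865007782019065825393954403430086694494415678457450979285445792129808633288471351909348532595059439397212672938985603660179610127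538024213152176398649612224941087149821446569009560993715054090597487589052765634340872420369713908933635060363292535521128482574548227695442864776864432127726807838210418637858217036485889736416694577094708930773948713454018509474936964852870467028209589988802851585286345916973439408992508105840507999276367616710131840096255397116998587830008752538664958416817760831180321376625428801623890455911367472710320847650114269922234120785553460416612134637815064781759342957106420604213970733303221723627200681211281998723259545517927903615568713787824419292076420556344264800762984018383078263705495229700680371881317637031251724734912134639806855403405151136033737014891679491113433274319841726756404660217544259510844083272083718693417904964789851982147628304422919619973496106377681721074767211247390953972913096261285568331859702092280068372105670438594949776142651402074115469491987455563148468261937099886425603876442804405731129926807752333018211640839490006820820689355639645889807545419859349925434912259414911393069988353235688241417513742832734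740686203032542725325167947873799511244470730141784358750819574826634123070721420645183412789735318125374727589402477638680704353338309435350253910895433191804578177257931896029277899770003779686553208693211805628917508318338766406042880868633771110992754042000700486843507608636442197164102832171565289723450298781700765362201182177635507009722167855353997543798169679493050173781593757504448287755823893676052903811241922387069507843512159569869238804154029028367021026103136883776050432704964620273036987129733921639095998273369894033534751138873631826963322436582890347198515571743247015092504754394817145148869549098089197498557151995562166945247085182607024937392134143561792107864747857790899508064669205440037215109652466611635152728302667111202528876257063704051847709406990652158126541417822763621408401034212682377363326083051233170299342814922005041407303377503304930546641502701655530401846553983823216251655200811546214358627961106807677937278004442748764685005098254101852414582841584962188813764574217556298361233613921426458978678126866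505999695830870614958385688214552519584884141385763959688556089882927253892393763995026276136987063004785657075417630571792887120452297502861950387336513724484278486094724933260384118648366218694546715173481871160952777497204125333698953841224175328641525139992507068329197662831029362839023906336012901563761942422139802073981278490285947978161968608173752541331951597151931219660568089465497178203396952072135237561354804702757215400305767080496728001026274100008753059298974928531722913821552495160691472233266926874513586216667895300289537563652258801986730537929558824957686399630238354850380779187099059034963805443461615615129522935560716437430805377403366093840291617837597959829296116016688102207578954080657542346211439043482116777119075099209948076312142760973573874734612942486025737775929965354721779091128520984817127249237299088854013968887720090239766326459761660579977896483588755207144778136922954581338755214806141347168905563671997518545094605048665998116303702596485763186073499742924525962968437769498769315847259558445047880968879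475233942295635809991902086410428629189738450076385935219654968992998228157861260881055933126858763684299260774546980563331946977686553324026875880761428117112983504907550284930503776495377328478636217331713024537667914901648937857892935219173936662853910825456523388036184612371134076434689974736082675760937925188022097621617524871290755717561973552741054636948123188884943524644035334273829126001803364328081070724410365532107131628116199270889706167937724392331178110093224365775180647170991952112110585814604026540715765905541209089705807577690600350719088840149369051856147299189116809220151063751207999025425501521297822507089033134366713303390014325636367044122441639692992248734527951628505771970243716378803232987944389008681967882676018410485999271084445089064946797150157771991826587254740907295888830157163097876716420502021361775181843276244586452415425651513164265654274897894803152802635392165685273521371325410244780240160371610119001231079814038161833143873765090890753325947253408299685451513171396426831101446836077073316713537284242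075266555866213943190411217040626912486458009732623537974794815023814314846973839328507323081127679741847759499354552699697998705861557675005533714945362404442142019302016273170759854643678141553636517869357906545185561996872190839018889673147948415746503506456685970499730651406223854086949789051677458660237861382786120506220055621721344712816551233040793973143702072653632020659379306163626637678020956979085214105282474523382833298128496163973745502136529052378630265387666535209250332061170697401823574086363042440876741625715490564333934832088333414401394508807444910232762065511646505363399732252677213595466781613838313805940265274104378208796768601987132316600781314813052921725310812986835291642354855205874304638682550597415598533384368708887861839981553795922863879849334981758184010535026240988862251113003984536279703668873867187158950097533136068019302398850836380082200297296285670379297314111816186943343997441477609375492246069769534165769470299044690512693597902683618057251558108065563050652410453769931388805065547390357595550391056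781600771085562687003050716238465955017823956574752541042057918391551660667385782056865692173775407555996279283566122732304593815890634210926746310157025928108741033044891223613470721451241659148052196219827612558737948262092588010053408385322204290826398498145698172332759352502747088570276908874061686162220133206925168948873165369805132395198800547936283264295188764772002079037402046176614817707211244553663806993549976293682001843221217073840648111882791092339539499576792988560232133876761238212941867134456837956383754070792206901992126811603061088394211565443100676650644727342957692889993290859217995902873796519051792278400617358659718931471486176148021217270349516890641444008684160646279972493739638448766118650366363131665321378913867858185347849303479872682738397440280044798548233235859364860070455484787342909903965100825046895156978255212276194720589654329755227199651727529015545674765219496986886606065201392110039772810045561793371894072716658995529990534878521300891636339297462714551786958824294954633216203281439168352484319713827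466208578159011144070476056417704297410518966579789138821839165458889351012627614591943658373327948386593788172636358643707293898180622736560088920750712509254861994051282647822275840081859468516945285610647173590003884804405839759675305056501694062266580175566329134370002867990005291150972798329267496840094528955887102065490310236067502781680181520623336471397367945319943488644379350672236269170376317522666512809984312910342212092974986137918629865839388802313390578833620667519947612098889903593852339806632320056263217380499597207336981123696856292132639284996709748322798965874167595458951418554620041376828322770759785506914315504265541298489072587142682496674656418337936970160553479448092851519711269417680220240583703548138349766074681773616605927311989222077126285278064881140995929529526629047511038581652087952258084787573243729101640583893149638528334538801966655091393370035882133508705034202174984518254777664777917974961586798910545214734745130308043237015995875837694677629024773265679008910494856049877526273060544600850860895985496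261645135523599002474236999155321545950618293060697259162181326327312457063207911746972644837083832941390649764327462018061073063870178437064242510694113469003460601179252182775637560439253438247701074348618371888589300924318328557206157499288691481714806529903240937565010231352939707437152514669162819549660239529206688888450750607401975532135236514660420331929382555902625617048851348558918945448496041507008639614152801065784324454258287842170819803552716529059243402631673304332172289632951848934240367894793218728615030090553449029536754361731232657821644134900524915615760179555645471905206475793170709592796675782159313439937441534167024562322556966001346006419888868276463021466555889000585797019168884749878755429832912200546563890765976483165931552589524284603052621962506562813945182603100241921024542871731023446079212154539556053707948694097238172302439910020125092203925862347209911430622621733146745188571051590995590245314964403099110380065044830671782922290408526779163344574975371258195873332003242937651904005383179575989169441538052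687185559996239002623535220124302040036006328902017347354317310898746786609111047585897553304102548301740546634402399198903545087471599160341868551390041866808262244589491397355682299969555018968495863651548005118806207794544976966310948890552602692135156470321994197294594903260610070903875956942167261565670198897128421356962449086365841022281852659236061779171066071090422378514044260987998876751185667610334883420122313190012704403502531083686604097615655185004570719657850576140471018976094894554707204811939465212982957448418899216698615025392126982290612986358493015351930260820055568735448659831207772625037453491879591395322894730759183560026277661217366006583979130179372041018643562607635183093627343374589707888761786562309833217874569991139763217564202776363118856922425589088254399941705275918201465921153075780450382437446216889878936370406025698264192953152678886515262839321608038293282831112577707349397204341660543552030245510129396933360757034936461176042839774291065420548913144767638592542874216220405820122289561887358446139989587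691327059697133299627270727791815888585780326573387774596440954873028344842007772472345505958607674653972402965097424182887505054386746974364409074917960098096039363456841652682648415482072713357039747488120222632942603341630599446306126147902669671558791586744902173496643064931807723181449709079552226146615285723811493478288279424490654568389357676352880977309498293027570694747573255313433611946135252309720251581742157470751588054889786849557398260004049854512422984868730570430219754217542303227172789921746637265438070098043506380597486445757774328136208750273175272327585836195458867442021044940290635001619579907393632007880960984848311070794802810053345050609185960068203182205975281102048236910740129937172343741595427475124298095626606803893381482753891493572247814918852156935209667266003461251679535589140094033025531607509098269958970794963667857427157930366617931962736209083607534418779598249698204853289497985417116141095074216264301217650700328398835564730439611561914824032151920907429227611965366162220944730170704293500965873646440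357226478459573447525158043076699006720371436337552663241808181010561871022940301648311676714727444732760083743361773907352126687939295545624684330043073336566528401168799904609539123550497467799797466034722048901506306545422076219863583853942344974199615010881324208946285153906715487315108520809848492071852032718636729767508312021890198061639744897515071402859519360715972428181864596752080457557439154594923122803715675157890207557773049217107738075652028922201431960810818808526836255431416257180646575644182164045342508900560907431131132757748035789501646110401491270094432788804234351919059117880184501935637766498637362412857213938591278785580247247275804566811053263671525399985558556725720461144526618940206902570013004889039236025859000760599099344550972988856248009269780650252909704812683306362656844779185951085102318566506111807394637336894731913451877952150573859458258793891983319765767528436382552356129948996484759768645246929660980811361024070350484482151181573637029680159585716445872789649142816790663484143435534092558994544568085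256313212404049063325556047785664955544585940749828068277467764225300798002555536876861339884263608730587369700166707848395900909119726884021768361903496959917885902756863072563955423461839042294713858683301834383049029386282143057075426521661686760275135584293383117716079959504232482433630654878969472314593171198320695255231408114124115532136296897977144021679874093252979518859217561854828294007998722932401293155246051640291375365594519664824456337897838741151511723534567093772806950063002028881025073659263910920061985893665047549200992978246861412471051467054655767225035546914530587983400843383662335556785735969588571524946681670159948632622786989382338592181931637493758634594899115675170980762286801455390952800005006281706793360859840908588934024295564334339651241141719079219117318249883448752282116232884959940631996035037896170683437033350562005322437928540019784428449173864544414813049490886829308199705139585237945322882590878077990689434968946832873857522561523770965138416858112738168382245577225810380733193697973614098739095706311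278536731356795699513531180775818691062614182707061911751149943076735279343074950794429998105548623734951038637273658932256252164037198320267536471699597142731670113975183131953057931587363372609934331046930173996956279381818346629301507008313827396135537862012527966829667417904286153342423425871602346799350408103206062880902056451616481316709830039274828388569884423301613758052850758320576082923114740033119586675103088518890804177431741668915113332611051997227259279194275302534039337917462764259133076639690300587215032481129341278637874351122352592025331458710136093869463153265259749546455063013211201336160522816101943959932061856903668179836926504687396525837133264484656340278604227916875437568119522061349257691899553474457144043704857565153720290849884257524629331329084345407393377420764598494455820215986853723770689009057516850291081012168642580403194598574337533543957088053604259078798929566321620184210563261739542681934870751203039398621709477817561936927936164704965679239251394990566872106948114219726874257833644339730995803703927406652004391997902011181355056388620989547512537917080828268470462828249088)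

noncomputable def rc50 : Nat := (nat_lit 40134167787373055615968753466758080722503515185014416464210390496678740178195981500479696644962330084015641484081731984105261223091339062956351951996573932717174135343026184945215361525301616351443851996618936107265309143555699907909406683456931369524766993818641989075237916772717637996795847826738623257604999170499679070086523400337689766997713151165342760736247995712369425237744854880781022846708432655352744793752337545620621066289048242524756107034465838824337138257910614754976258638987565669269225975724993231967184967315578143537286323285961247369477266347181939798670280383347759298419585646597069963855326525605069617643205537305624281879040806346727923967471285998146259640302109790506738442153429233073754888265182205783096918797615583482826938159118726620468252381914316457625308290694898964525858053880672142957735121760914044239270317523589005288333097912504672806679110068621686669684519522686986350320598917766536022906866144738916668064056225811083598619786197924526682990809451263266874153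425921716056284957094786277018961265809254229217987292264232544041966530479186412083685998217261850124035070690651230432160096363706758596956896157486451036337033252049071271067442870458364414059169208956202954992930449407752330709202812296762167048803063158329382523152638928566867809359111552045485607757364856495525740767920565330568997110853244089659473570202490187710035674092970633711592759683607857297467583913565295241451414081684359671234071632990489297780510289738456072453761965238212863998745558847968829852792972351414249380686303027961595933913211192446580768120841699046662001179596405152750640177393267628171547424470610707346830829824299390506444708936574128595268909271183628804358100124780212065086467974099916837021908294951128996174445538109716448040377822896510122031156754799697159506014132243183873504049155252189362167621869530684556762376647058424962395847455219069521190257377999811847929194006503500330335028533999680307483403535559430897127274051548425854647527076566821757132602028337743571644485110483249861088140403141575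956951165519944412571614756550133687964036278653215342541212384996247546479149268796946259109042388538150738262003383673582573075356612936736037713729265005858543097056756960609413505362682484255361099500000774610661437166583293110375612328724014233416322021319424907109479733555773378586908193511118015113001472550924320844804495654765152599692578123373218524788934994890402062221774112723913194067365757282326815100945904335742210088490463492939248406092089835778061926858394579296271330215792321415822411017619858675560280623634466336601250262601922461166022876779757563628541826297188617207618757662153987927096546003102843949694303136958176073955126087702287219608148368014634935742652238028371897949853496277527782034000718784025033115683416278612340981942070149488308022224426966679736971459469585346505270348557960753905326365750403800570577068836214968706369659857425321122621039763794072926448181951247856125199406211365605388887664746581698158248653646495684298117847018280203082492319830333137994412400781359240063274548351137379562461942470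603619554145009138586123084494801373338895950228324247118010759276563590394345330586747690131131776137709343239651846137839812980666698031843300227956998171625021736663351939944196462678801392942817088884533889693398545742142489548292322310088079011400263879538566013995650471692797619828695697598831042433564912281533296650769102450926346621133207448885626727245685735481503233744408960708453597521837504579094201017629638481565179346324519167866476325750597333474499533337699454796207033480979966375100041240906142777141291238655679361751151177397818016805745136719264621761301686882294386586988854555157800766883340643219906665960634596324792449004456389786436942372971255283667826783024500767537180605363727411316336987446155476150499027026141917660619903287554633027164932758864196862712773707966714933205040966070242195866947555604838827144705507250686874193982450034830453057603920029676857959621413638852233381394251269751368778481876125152903941403382142732299985363875760146171056132579623857612312538695661520009667890240770247329516437025200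596980598949263619035522685428024430452490825427437306378621672390558870339522569792219277460185904576571257806812161517246905337111556941873841129519327054842440465232336709772936982342277091772013922608928551446493285914658273726349602035959276637744701657971428277577581617204973143689238449378180953628986583134764086863906810617280682523004058596497390068224369841915801159314707492949117306832304100233410778870564761063104522235188149044555406432142959127961165290293140239056657562242704666836799839879994438690683067797830116864002795743953524357395091528876988794812610380449085953533765462720052004959318865534733380837070387725529956090451208356671101303254218549864732787849189815224284581373109334590920347022079825872076824769244920954721292811425006371288253837073094417247695579428260906025517910331909120509673693048056846568069323221622768000852806388293668445789677754334623696448757574261520790871180700023124494407690862575683437933368201645723219741603904872365217942806783963013511227287654962002664912185380745125465575062523701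671419881753779794235914815473060266259263599334080852984745570456964603081282300558421866864059296755841779573835221509313289645360693950701451656922939509527895904426192912097822663897171775132578331980016339474455915312248330290297970794536033739754946706962735682543793727169298195532734656960665709629227521684430600815300647961366405474267986351220073064794950102858828871312364303583990207359991312281288866176752914299613315543621700272457837681942446968014063304649366182312801360797105410954913218559829223733522299681579730513890134101419498015751265120775273592972583323200872663179406835190611750930824507655627931167743674622633308452062287670820660970208156856550128785792138433772152179464164107157783543840787201547859525453177327125532814375671620554259727368679287122005366423196512679323565439640828675952118913871109563129556065184489678546410774471332308530680312356432310029207667287696261500524083656128802509442720881529726540918194222192508862956945531858176971855707595123045042778904653096723165084363842477915507465025344805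469296568662326682595679294639600086282499086977109240317975179367527234216121827935164170902173334775939373200902110969039119838150638102315731046042558043837231875218220603888811772751226717755402402088800836276046149219962828906187323244824825988400272019069025213647642098727841251426352861968166261081893980927766796285694039611726424611908009390483412325347218367224796787019195930121618488659806259378382148610471495393364014217877751225949203565090416205766724071905312753979314683737051140993714915951991620432481964955047951599467991932620685250560100417327321418475162343565199479685184157036783858793093145183316991671310080186724118155774184967802888044761969990504249189894101678814302464286599387039040057888827658239144214399972605350535757030117949059165453674490964463672625943973464962922792345045715040088407208474084652456049188410607488960745714416334227742169001232322827591216575471984375614343412548225712538282409145294373635851306501127323999357442093199675902742231328691558518297634612068534245147703182732258660529945496975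384863478471973431748845475404085348609765157359968516886858042957341738002069567470169981073486020524676148973895598134151276838315795603242913209917258573847149037821445907526502010708377789979618056988007740836678012292338557472292050699202399395566641348002052178695264380889013415192364256753260795663572161720261686096831055958158069879160704227132812821470281734623846327073603613185620304915372668683704590184650216368089426633291463938217608262961761192962492539159666745791678811026916437673884046921465995914440886168275954800513580764124647266994907406938049343552509605456788340511341210645488318487695155209499190275771145225862202110513945539965663325868770806079013765507179706309906766918852600095404815752203952017972161313549285695703083587370777665559711635578326976503615328587416188264152181973734371603027797217505965103384253324702723330419699702050756844263278639183080017106263083441305440640164871556251755251687100077832869244151511499510933624482512169504180610388040578292546411588509783697944628617781519225245253964866166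820862413240284572155536904371612006675657228650547670382199202325286110269150985362155495367812619757391253115792335137764641236806913624437374918838181209355446131211910162539827167703326548035207972064895151178520718175500003219558811178965833284295640888682836667976937460850634170536986582395223430447666908977992266173899047907658333911529882440212032384936763000314715554915967598458057124967485304109660456659593936338008668204968916613391356375995233514127458166504752280992110173620551346565941178366765033315098028148056189927892714677437429714485767279348041709037418763314830397626979355039231793251242423714108478683635860108920170864710020049971925466635610823682329673177795855209894274365252466006601284518326865142990336795459265490264823285674314377138438576135769232959954201255113960322546735003281653045465652321344617770399530588337086099619422112486592944133010675544711103157877070622383500145614584882301339807374737352307290049818104850661023854748240189246046920547456270895567051945865391154437209825385647954425222000943709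450496846449709522089157489709632869142563616689170127632926541182961008793100935784107239818323332986297349409111589222621706535387604335051297182790069712724837908630232472531708454235921354603907245503793561885812784200374355163470408532884184047135820849937546079798293341451817653310972504496912075892996876952515988095806965521537663556528713368423624532603811705056728936641346215165069774957076052277469751555015823767412296143404401140657713037784363770822771395897712488032643219085544678209466351862711075055051539726890901311480793850547931686193044776994100987756425642358634478766139895617831775878263701975806800253301555627678084129068538734126808027445817593549378277987119260204754051643865053086280096273110405519307294218233950119964758667525754486085503312856433281541649624030276430183065314187936088556073088645807412921347975077425380084860792852321311240622697465787091046236958924262873791863810906059175419254384884489544613043484561177360598993665202856886392095608718019923212101400562260513689317385517108851363075142490934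854544766818723086331814099716059101899309658743427242570460008089185828275454641638837935282178376311040671950279725751530264522767141376245173098910871945137797768103962493819472588563584408587817353903933528037576218717787338818078554326530038283559670435451560608949412481215949177475080249269238622340044326707573560633402419837332137458318575536610877641694838428076038541002399089434281114345530213268690989679595795691662713003720955786893417374603060581378712884624678166637167004239881898667660677053036104539902889988022603017832911261736141898762146772564044047274466471246309608334008167509272235429416474580935567440715392077665965773771326577995902759441850514557107823331812098906292700519856070686475287338294998076027122674196661611026154935046237261166939837145762726426179701328761587052196586862990471822069988216384720761649746527340104246978139446846548131039223241459723842436254616227393127339138708900441563922056267730638138607500271498384813672020971480068667187928400023119584604137977315766423492899104581987142960583584668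658156965997225915917693551073064463455261164284597477750639258278245583098637393827025586602843580795567510027735139723181089341329158077849555542518057361928236971723744555679053070198523393369634318260266454553544933143961315777801968777042137969922832553914687626887988747064522921369631795497585618765952547834058225331786479437801061957529459289337951375049546909998440102209917980924825447238478000158632521505994201198609266287981190268604680216475868616755251858834308624518996529460882177017292270060800844391357776433857442378813655162177467250893224111281786286845704678709881742624919462527396720989303771392992444417808343511403413205322258034503243790224867876591847449274145970095476836198502643325198831287158622784701149611544202180842431849115968104204535792771019963417847712038476757077710538792372187854866359043199574150346109669365727980025501662152671051895554547106063357758210721830496436433711166763736477659068368264966657425498430243309689549833559321447033398412889453693515648798323228192307092217106918661876029949445373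225327606666658871388643187665594602190058918777228080277157668101080616568807174734839581847636301609131432699387435556817747411153887951958011210010701936170235583309500551949406296649056995512437190988329162794861593605706628587273347821686866159294721538333482420849934607163901822758729404507579010012447275045232228242884177021378364036692021663871543657671083628809942735515060566815181116605002862600574905138000669943820560495424719844330092691009497125229068296763437456817225578148843199179221268935613555981054182290805780886846275103709018851871520940011975606934072233800332980788296551249231278831171589291515203734214997463457819653762355298030341838057992498961964219006462135947957229611854588848369165597085205459855263050912370952167308212351238717750921241856169788857914008339934235166424361666999282732544392970476211628377784530162440194379683673982634555230066724868062061081353073854394691294411610541195335305421394906158647911372996929483700947096898921783137519899473623351285667333679797329621204195606232035935271540449708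864877720012854448646428870514824341915721243825174794833938845060314646924025509487496999142680851404400684419336867067968854120916213237061200141629153004288413114997437220605086279607147372175073467392906036404699803940983105215613939449825546399735302812829292249526069134767172092335784738917323348905662206393946866658967601436063879889423644589265193313333288815039277066105997025954854056155161924444952887382515247468504740573086114389570250608859093259190933347337675390754208567055651956009003588913277874576497745762250355946866727485061828735526289466710199503519587118181019357085128586104778683130680287230610867476977111719861032797145711335871355502043750215485023362470571541967603473853189694217267422224914285501559847186331135097818807094320355246641661609508616922561035433933431160883322770215939976670325775110584846141093172224664801254472445530651772119067963358267403774818825562317549406231284280592616039654675647618687584331817382075490079749664240964456812531222151709026996689926286466179734053805697730419192877410765443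696042214279325737864999507476351419719310867051783625946820834802424535269840551879325734071653975641988032000574545074343897492234332443267659016416287907339090893906753630863442806312745871712323888880201121828700513653023416121953503743981359309788149515122656223948336294828847358017800226487856573769404866625498772516499272067962525345899972413953991965733751182505575069062780824343825874493248708378693185321316928630793504446109340581969440786054401136373795230860489410969754873013428530829520713308549305324508274349705131967438621490124482036797320830491084919190821118319714444351733961048410534926746098788289133085623149432941324981079431410076185221040085981342810670958637058212241301913798693049754082413880992055733369260679290418299120093454910578031267665150438563812799178015488296096668329113676244907367410089930283380433486238924030172331847193934768904091113378386106316187696105245115630314103849151396679087871513906179404402911074106003301855554000525632928256963364511195964967638577861594982377473941252451872974172092676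472786249490144399994141024350003673890266574656617141001974712275234964892756878688635344626191683547901876488082238892682981658918409940185800652962721835575199838835104449863676834505847501383889378232983267756490215317718976038617923095637628865265588891923709146240813514125798000804784601376839911906435373761545913915101192762955810051546870598140755860072090567214328064819939942582929818296292157682977483805268233056473291111642073296209430296852064342989406074129655732867231336029865327678434076027938642192759229979847379809430874020736445405745516995198598737069087286535801949000069509188486886197992130283432352893490253212304777177995871126464353048783014963530192999059526726698529245991798088807928782263900540931584783327482459732963974597980162054660940182715883874156916263422465598737560066269455433131197952955058149999919224075184356456188385314661802174049085629203015794605980572754192695278367000639411651318041703371757283662870234294790944027675871047509463881023071168894914383254942289877551485079068747149284555537502956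604143163018211943814051427765614058277080945151851054631190861269001006090309356434185138277328800484308142589118559734637845553481781993385979792410978561221645688411176413621553787672791024414211240872539107679619689651945109947516525284333622064843456562942249027628562771109672981137461060674422467224672026729510173905967838330913869135050336749505446176066741363112664774433907637863016914054952041045994782996980260461194332431299342306713049544860644076187745712819938724637768495330873481404461889599166750251526095426482728611165998388058022280365953430396117253254527842016875431046715994456636044786731076783234555608363867571675215407115568817316992109234285152707670878142959674101729039395373908205277637936201952681106966610023148505175355136671139850259582534554220298232948202896547458229962680615072815195039872329645126965427316990748578564923167540663793609578612257035525911057968221375124556271642886529624695516260439187636679728615018834930210859275029411866169707589550106219053828415839814549910531137251865897879547088261907103874774168844472587794899901080247271002552402073490538601423724471123968)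

noncomputable def rc51 : Nat := (nat_lit 40156060283188987811952795861497393589415518555710334763860892879577866957156515379743034974636936594397502093085388870778508604508091672678607181757745985707340944518896002965226412799367082837951848456927781663358888089019082057450283246527648648626544827443158326603897672177555183566311578379106584996968097593995085959891692903725035390007801495660047067746980873437553068128645077636933508239193339962958181509361564017321090358328595925117661996253393358389316750138357629296482598484178701628889686926414197556929260397092941233570263568806998355839994983657024463702406401849261209135395748733122246294692914177691810415946618921208278255738533707831265529043825708002199102985339688224536957264992841656372715196266039894048496901551694594009581731667914340864043749276105142069639972429905378140880276947850273938258487751165537753428320590635258552589460794206173774289363209543911953571152445073191189358925670910841954659904451995818668478716252702779769478925974497696017925325251883484242801207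446228676858561202887229037497926955838008328333331696247857410416514772529332164745969291637745958154619361825673096856780672392524627763906923630241016674477181183464849528298023005251642812846279453792919177594153203241343104099341766934480499814402521606856165655174534725573919778099632040782198497700655698906122067516602620621744115572265267194978383880033303947245837765634789302248752363352330060861858565270797406666354748776260955919822131129755114613412276054600795233814477658910344438416551849306656292401898915894123679383037820828464833244445241943884324149388275617497674531080439118033706865814825616426114215744232232372316302817201137945617978914511022375232048460330255670386848963761201871901758602420874497057422177518766095170705819577439128637215815899739326165997351002967976254013443164806476165764535308694914642243950917894958646174365370560109014699892187135419183168060775960990899953353237854530942103647448368141080252397114561509354458744120907448169011237662225908064471018286634186711248274913295604166265346285776620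187445194284409527789305608328215311967018527155809895123930681763674311655900555014211159002304964400691858437897873256596959949681694487501653082802426127188830457783721989523015045201944980687224606856867382898122801402040631799559200365274805971976241525552389693800016435086170611400300135858410446536567906252480569371409710353664585499750373315954547013001223671324302905756018052024957879215124005122171902580028041483640480997983474410812631298758579525640236907849680383936900671797150032114906712781839391471040014022429023705675341203235918919267607107622457663320544001592304553506671894189717520867217147256070230458068032576313211471938902754891980195704672708306810734741342294385642918938832309142217161991612592244337459609177544375389588655291369908598540886620162951497039762339196107554262201635417058030809978648855713057159181484320726950958226371333623418742545330256813123218922186231619404223637685751757218769964184768972583792458956048827578921130659308418902903273210039386568791281742744529575419768288447872121759225058840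171013657840724804245750257169827116897519247251516302762879050331660670069286667792816885219325961589246195225396765869038743054400386843422760932954011354807920933632845378763354059640072184850102605920673701575071838211815543546640122910421816131480053058790170606798049981626201748443799960529952209549810595137511611371176488396184846414884308543034009457065532193789759927057945495085582015521655573326104501154054654173447168042243899582819866815529205385398307687387116509029780285559778083801331469037685073744475912829958571224831969105558328024701240069799239401758216622563697586132077699025207831794442983464763869565854602700318728810191270305060187905704826359135833473904793357052881115925303491915450513219113385132280949092882429143576110656561171453515034443199082138603455427748920959285608550491449258128523892486907798316318780776843724214707667497842131731198768847473946488467926536058015365382384247356764381454257590227506392707076968068545106655008757485786173105457278811627539733257596691728202315331911160605954988536651538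046762934327501730859679417442385883586149745178961481665951628736452591868769242652274139025509797168991379755108247555016785238137306232533938643022173918214248652504967469686056804084195561786648384745033941606753205144985969873377337564115587872009286342280949272452055005042212823914190716706584300360163191706300946897573337490319126205515663903801476927291458515377038635047443848791533359546511208902858586087263494405371178892555920421321597205952484956160147062679492268240693747766565573221706351946981333328756850615578532876761907745698686228935408517764938587667471297951358318588849820619404184252288190758942407990403061507252521181443484681553263608444402346849812898559200346169255803780937040091968408317065521328283186933311206334402732340611736446713523936026389990517712919609752703388512987402949675487393558485555952635605775976712823589665725369100748242067952110043813330595382510227510842678409865915035589264312873258573187251369487214778919080120544900984097401631143644083172039092834692927757100973909779534896691384466418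822685106667217681327542372800858430097800215930656227356486917798622403627341244913582422290343838827968594176077544879327228311020896990658931600093575528224135442465325677262688644106915018253373994515729361927493743822664217889356895452454768245855990050143565446487466315342379601637547033349179380871608959094307061001363349502537788216352624440157780989259385321977901595236716798795646986652542621021988885479994165842832932019828498227585461210983187908143646241252595409523887088512200293406741095990837390119110503255353429077067700313284369865834186808479824371439090275525772577068727923992983445842574382473544309759175608380700932195136958585631516015139271482056337183192258343044255741328141792679311075511905030724487978988985546165204303937769619913750135901426662577904179568868117108231442890380647308583135719936221586885147437880846136224462036248055806966671111342251903470844667759855447571420832722550312798088648513592082655216392320765397437449496931008252351141918951201036639470317342692324561738572736369763182967689325167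959967614884036017534742017940967148957882785254707087726432421971457446344134930814720381643669388841019443970377882202384633668452925756280847974828512932603167302718142606199187888335508480967290563160699540128339792725188763724136813606486608060172307017597000868147467861454430980341473070475387101968831858442093317890636084327928051991382142889578649168345153968597518949031045618985944213128320269722809995099787513310541513917804660668246854051511650750406648644285736090063422792518835251022122912043439682455548125626447028219413687586398746280193504426123761973590563497177415319173594534091680426588627119170636704292819382793380295804595108702200619746106727273806310465399031878196566885791073213702116026121733403217736413313118948433424282906915947622425384108345725233203325236303503110514865849294246965558716264121027865998214279535813483561988608399057783480300293812110491026355408895424515351934109221709912878460258542838508794074434346204472628810369934109918414774498124302410395409959279314128240204733205586042758261042420500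659233164142038099632525703741881824326303944403151835736899287495712025493155496940428867102909358434731438616363213581940566649288601685076709125997270064411982875864826400083057893630985200637587753284151122217854802018831600426400111413994017897737367964254535099052330906377953404674232371541718057094789270359198508606344728891040069487890137240419254782424436376025584252235620961013023139914885157002880188097727483033295800472854703850235302024664143696262451245846204217000625941601357208800072981066339876962215649856481507654522907430688821460521380963708788563707481894210116283799401187383200743456802294424178296336755454179516336878390398451642523221779831332679958000613166869640481852186114398901775877198668348124507990120128801015400709741291308630637625781386214655093841314830841344556100705103030417469062669244153624978046869177097764152034538031015359306098565909742254640729180244538039929843213121596835107976714220355439502180357935667323196446708371646546068237043639458198060789371749550385038441069065490207858786875718678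609147549308780456999013595085504312314138048633886138555090815418920432426127833876320092842986231993298357430802893466021473947804427345779449878753582690831915708854818983277729942098003873325607188642413852863639299043060730478592149028755398980147531485493014334507423530171916868901259691995201712766410884390001881831719447199991205991734894097349687630763678865895551908688098382066509748379307215946076062150749780767995969624955074386014682438025254612713442183528391904781928454135302152707354179354143485197210335371752393398488163336205724008734506982372436663981722737606251429836792804779489939177699928679712845481421715623510924976436322404204785204589211283388480055566667214458768241190321515735611291158429886637481248719385414126813809742745021576611010363807677056225168993441657051628718719055310954774118916918073506497613068531589423841461146316549942512101230400604533745895902996109933946267586444473281454861339222947909189207392050209017760141375092717061791433132737927731088868802875759293279475880531003710914471135359426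865494612582921623316475705289133463669952271248064651725077438689396356196842179556619796885434645934460986766610873145334281203339978542346763289276617796080774735421847646409692325337670332570100858660420795937940534521624057786187166434795305440429790400055624303189271637202753468104839877883296155567924395276313839384094201028273254599645883197524963434676769971104726353325933151623689436795287224015705970254248609155903936323043628735312686278417838079591078657577575495101902450504556433679123406671494993727865224050846002548399403490076700825546438309533765419086736751342051501757181935298236167464466279650696487277348849729747298625066275356110011057467620736887374649640840972096103442304232160670381841720612016623719420169098022813297285870252517144095394344425861078806355844752722358250650778691850870844512717309570813970029713482042698093344652358352800640580653482481299056615119779073944880244908338061748420238562579649466564466636790910320682617465887024676698102253536000020452598926662185236457877220575593053375508557253668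673972988317448266778874532398445611871104195165545912890784636665367517442776083086222966174620439078600865519809033549713472512131790676374064903551080482712327526412846362507343236342571308570793825144843241538306814195203993054083897707367902309771330142765252161804843486619755944662463832056690169847508386012799365349678343417194802926814210684508169286213118075066079475343341886245099865705212469633332806903539727667766920940391010983009336040808868034428758101063465029289247641714322181476200266170770496948287191829682598830944319278395237959838883846300490906855322467477439450472357462527091299429742171537094214132405751386405454327649669077140881993680133396356883550230605505539940445330246931537292398453691805865408203878609397630118986658777236609689722761246622428912543252795870840926444750100948234951700196737211136482899336412907926814492690724575218830116175699253158640644644335139829964070773724572062996647703367481028897455760457007375446237967824077605033735142220367604620270881954030213312101808890028680418882223351548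794486327445577230419002633446872887543894759195387986305799309186514079530311176518352365478568931970443534868412436690171443817534216903047198475094182423113698160797426800937372978858496547646611911306340466816053500830254974515307103002172063618843578674647937614060116966135394986378487704200191663452157594568874731661666519139846271250666530442959206956928580274059606317125126216985670114755413891169505163589151953370277334605436129206340604549722170975879462383519463858882279002103591611603847809646760888286673525731753682668875294943856862064793516549263193942283873664709548611046146254028547459511676354777652122438575332032669444250997342590098073246910977966029115815220441516418131908228895457449116804180502411758914021044598258733721700316233635979624505918604174519206705690824315987755606020084920744712296765105118571512996401039122353748599985011263335764314845950275518882497446086408426963312619334329191480234378740878007840711851927862165804996578314683789569152369707144299438467689065741407959468350160147149018080653363189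384956670663992829096285403061048657323697499160536407963629678141046874933331942879220080620504788986658453252729876692000614605340211007638759116342494793920612383153471398062749955848562551560815236831148973887330787136559200455167896497569137063529540395161770434277356025712205060394592405344237720500021422538871074569536457982495588624861140124795677760194281257969432718657214128511982057258966992015578096072749597766114679690353068486477166014232217634760642597376920007578340394848927893062658151150014435567884061054135279782644290519624041540709571284676827498321897490960682061029512245269752842798349881404276395604033852982066537334627397493691049065984180226364724333536666454899916897622165793744417302418433040903518277463122997251369745504937739097784905449571600357396156519209111559345301499858772485160356758861980307576076984955770643378890140334806175069240680508052874849374419454064187220279126476925693993315853918542017676604058199829204980821445645372313303543026807343766823988255326345311901866530644249511336856096959283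109631514046553700825984270248366836668919980317256018321681569097783564386153861916671122792489867377439981580396994328987404948722176043098825395468679975952663131516089549065164267278956615120061014302604074326753451913310468608649413477338555652391532013982717790778593685008454634923804929166844137813912201419698556524481219557947172056735593206071791397476201516297027566294655314751043989889476148522924522646822759395191484905449900509137617974456895625444000449430009063965167267159678886004322299898555600509883159180444220157058156712624517028525608742666043121854982189774138344960328654899058890753233919526889961958397483978398008061901067237398791830046539884761158450095566081215941007126954101705734076982688001741756136992441977072464361307490752310809022027217775830552308993551485412001345413149551452104337024454870473038787515981220637440411733803676288732057417883430689717238690803486858790128088040362593071936220464740467014959770309123245659166691702887467593853578348873075726154525683556421518095641830122214474424697244194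181325048801269377745807909749670867661448935613036295733046704035811516411368220346821307896365437740436782547057003161988019814561894638278784276754610053406447044693073706753183732037245502019298212356314502828261016341340041548343694490750749458030259688887750692799891324032752910865223341218222024771301440946529517610236039924290551298354936676978339738394433465670487795381848579334537975187039797521689232904714533979714235929760063547043061910064322223530194457782204598687482130267797423886179325752968994067362954870308155887666116406119268486190177719131103618022779063578439123338410718349120219971791233664275074939965476858711385548781326694849767946516376148972705573606573016505533498766743122158932536447331701017335449160302997183113032331189682175756943428935588891427475155548260525454073782225362725484659193441001326243084873736839142986563123108366030005049816394921204649177703059767061769685397047797966048194594344492809190176069530069226972880904951544356851732065763479003995830512502981245013606747517850762421609199873477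777205966185535376151501663181345972615718248790802342563605238809802479087120778663068395631039829499693040483350355088190414050982870193862484712815135077227303576626984672747142566702160088883631171641642427042207385495302032051866289754001302459262034167806389085266510749657772801287417987686931445112777051675868289883654913821919183073081919007022394676293566425461500812765174384224094774754657452362718656253641668965144229301420333538503160129157547214677057950880574484900190205007170171549819925467842663062263732902651662783521224515482001358195962609067117309891838905554024853782408273913238908739251277330703728762029228994886499923098141011794465931155333459479667686939526382163003799994319479026685994589386005296362881594067502790658207442850857187211275136493707093986816618129122804621946998569504680854685012196403212640231058786795798876783395064815854851479829418587266197283315034018678767411017612697292976484330608000894502454976107348400820924705885775644100196639230135947520806964720372568993921569338084728141424395123453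353257455850700133961361385992998194947446631792923369680365596476986661181948366165256498228065806334651418277790546337358386509232095115479148495903369255896474427517187417248231672434450724676471516232042992921675247382250533533343006665540373150003480183560900190669743899798430316560199625697327536653455439823000109479256210874823429318900534806726956867837893278049040489568271103157026157262959030255243357399441415560936385703282924355650801545995399672784206485434360805775650706214226657957060026233195400070371569069099874783477889714461688738996954034883928266024414703094843608574256097355930817543212738579907660193441456357614254739050231351690727553170605418666644040084538499429411782550352998065590329120632929630512123809049424913031751498955377342486110482046153819464173470624048173851285343277925134403354913705517692418768487266362891807308243302509985527632397448267218003639574002240763226072114217150054388417203598024977164875288400232821486447667085261493372756352615240848361495002413390643521569524873947250311349315948909596070206739964902246363512717658484907292974356815189815213086912762871808)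

noncomputable def rc52 : Nat := (nat_lit 40177661739458330018121693826878870712386548853429756475254761693683829355719080227807899440474812987243204314296748449568997935542946794663591047724957328468989302503987588625465746193259751323343307033935108640166607297172856247366048449121228378036929363522405834286134826374771556895816391950556640520724956533878504752186599391909057449885839964187593693622425104451301333366757644376136440490106711816628499434012082609151971596422452785300310714554060547418965901672220058244072825262939089487085802981727108138716781794541094807551466003747656104010539152160241546341240996682246567018177597745799254761624165459043809349793501964397170033794284519853698545842916932225234247527219460478291901617495051199361424290167811147882946883063013742515096039634842858364516716281486189281636526345567643381122957269651706850173149639916424157889892352765310346294907932753568943757968085126137324844708131516110518511606413528208852380879139312542961862252714364585834908467698042434713572131946731078616449814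386143452136546702472536573676192051224740943035094272308404153612421878002565139291275297542445740556858288883961763483828432586395273371032638678283726401723754043200689115714888710626336224779162172444837834445406326310350359424879362525875922681834609522451341959976573384930269671007592058099144624715350051559493528753673176282587522744798303474239044411225055848294405956835429463365159352421806725252408052173550442972119183323841557465558752611361701682871368833461850279745857222226742975669571735271072311205821230225335751170287455987966433921688438997646117013162183442056673625347072721344495913811107905039208906454938633421821252372933936871326103908217906038179031764332060641746046960998620764473925154712981534138546322239461995935313278016811647754005648911011195271241518695686376559329012441586970219963753693363511100637262384247066561750423868942982775577120518193558444973151714602580689018279448558771065986568293792658214015469949342090897592611668795545449620363746751049578064657106075262531244072497159327396281228072187533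211035054268100778315648541532080751347073098467418915407009179353834854696755725571006931292382817887986092760145626547984003384817364504660431494733220508477885119917238781339620700655719485343246838146491967975229126572786690630786987824100301130476003488648440168394146587323290293012835950417104145703678842552432739566170037286536427888911813174881543890292246571731915744405449638898556569438439422352222478626324940863992396409021791422888929659277108344938878813743996550724448510798319961218684931200026652809798670942082290606980515188079035539805036581356839463735731077288997832244550748643206698526713065251587020778446817634548242297169222350298588713726417720178679174031026642891745341704077775629910511848572768127869925774942501884781492156128057292557494325481225462019101414088168107399863603042090157725096578130485849512398302916673940810143675173364622567603652321125142912493342847574628623770340184863094146679266375735061716798765718020135253610357216665517293262492502992110933201442742050454745068855364913412290476457959110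849863761443987155345608253892159443071005369438033236995308540007889619776027857066253354740621470556907336575213859014666681939430880891153039243700133124922088564915705085118630628855642941448784586380054234813749933103921279630173693598019103539497536537991494361387850221593571967476803048702664006912979683870037348138974289867452809853496527335951925098813389769622402509285270941204601631551933527366964473004931475527885385274790984652175997012555841654677915876971746863269267104558061448026015039612224843654607640152366803296455458795824028327315292263825491372830415363036769501543368690905727721661479198201259461136194235347934910222163493073532341650579833648369182712827895096746615442330458436376598521200716086321530557903180955782107227657770397260079789831828498494720496630388963585232375998253879554177622098883296945172811530233575527791639621810452894236275852233651867968688212618003542758414884865829840737559583305344179226310580632380250705132197029742349632549819237423386977016126743753214023789691462137669656065397305604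822774366092326819400390162131383645735630393088447051473044904603075048542964267734332431421690059842114423573124212202421559972138430364284655642245709764883608375499647462439314777047347192951475577291370241763856626270894869559679809770857270796849136783793640289743463798303021988438954833482069051016283052283021514915482884105296806992385931417540156660782371608424303077084374027579697523320272101151739346204380365263994721152698392387406827632721706523876577239725162544438391890819943520763617975273044759125655945551441941631033082076137313241125352657020299064775637450330512476235250200797912702454441037751912563469418995945409179939903842247618734870071073149102174383807976592241040964397588013377476108255184332436359118580601224576502289606146769482847226701655010844651397842500768998345501323883978588578371143763227500665792861885078885089137791900897551714661893079187323365380098773512788344419348044481688250319036331096466079537881865769525083158765552111872547047846604797532608288225412520527534777799450674840418255611337352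840661405307844733458421183322782351262007192497190574637231906974175257506129655953626857650495316765385716325475350697566541279739201285722264536267023293182493838581137543847148386401316047379087081622504281372913799759711382443566705410328487461471988816890752072960510331826775519204846967458458096973159682750915900063544520504689675381413943166497092192839623422484775656915522817390273983598196965055962640648265339600664406548919738471223882633703316895289915887812546823155288497204319439414210550711961734671165088546016144677864018438159762289081199412781645985959637594157533836067350263229769303264104646907246156942850864102152797795629020553862866568470114779080378860494621066663489451523390483006618688122736723401012718552564639367975951044571723341439601385768936221559636872238479679500683757919928236991709111709510775106911707026946979416708496829394932399868656908956433470383276968688871755847746936587275566405161780810183757074993334419883850491812557417100812253710036840642684506505705456989730153581719239185620811447987488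953220207341996032391953021909372389060980429059188127622534390267620295779621447542631652503410998418279353700531794920623229692780214410733538530742842893766926598065310115136473566297151728472808845749809663957527542431965542150164127106368188876686104866299383280309351950438148850714342483908153533219327822786244985849447126406317297789010695051696207443624878179671720319162506295620233635226047076224328901370204953538840893651864284382684195954586449548807945038810990358384186372956750429816003666075789292201338847911916739381460212650456327781859296061055949698644851397895177175612821623245156808043831248699210479996089467577386559093349252460277117681837581086368347717781457204183974061656134022763180726731052088613140457366089852848825117181109400973398928258688668792743914960498679030282976155620009275246299926461245836730039210399767680968631077700665122262440422557266933279895607402779930165294961111410339016127857252688553610483227059233397755311107495735620337513138948523956776309732644962567724699679183012748674908403155536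739913713164143399454684554348043538959850092639350152428454561514254544805283753589113819246875594896968785551841994206834323555860941843705469939094703989055133973697960078092991023881849621133511644446798499699657967286264396188899356261704216658483685188003034248292183754383059664232510293852478612498013018384604566443980581021049837744375154007938371627672213672264158013416277226557592241977628566071356953676617919073039204961209525700349351191613777367407034630920736510320592802550763336192341874661477315359338489631560385226352052808645188320783485676186689514086028975275787441383652784955293376699548370512683982307344913041130661277594394656780180526460507754227151053752825770983553618690806622424485391185030438356371181840297090963945202124142726333666835792399829594219591236388315312678196921057946729971232988379125636667602951369703616887902792435976347406485408973662438703149211057753863247582808866150775078177622996306154021356777877066690268566953611691732279268166802291100799704781492842591761987332467267512126035161077136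237176601156340352414320122525715465825338901471780489652689450002204674563072605662743711832529500788398315121938861875450070600721485834143084121155271859647119852676294277322364335964449825146910069937286703426704725576024078625604987229548867154430251839274802381930373498369342442754207052856011239128287961863168027679238232956725024985582141272972124764305564257322098814763848284679828482289233746681157970144611313418363294287546678548036764292379311099732938356044827704623238204466545155919390711988223301453383884144986119605784850812091930737444490604536970448983368446936635784951785469821601189753902176599171133525865219047845157407200520003503677228939339089875456922067077499630850748114660962532234406543227415633527070246049932029304837048845760904176203392699171817075705848501783219384200036838219919096824535695376131893588152684869532161884080987287421947101835701205699096296109512996879041012404411150617864982285882623376676970157437025748816547552175338894164645673458142716853856198734949326646018950803045904622934385712623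321427698520681774263659247961733819778802287654269143859393345384050568627141804073527212770964089464044420509901483562036656831999916585123970748637197474979976354253064712540286091984643516910740409730802696954868428500870700698457252092857497339137695500318441092084252514686429543495319824889555704983792211726167549511079088601609314259838421819682018464502299235071284624236877275854262997297582505573906052021331468712534396646567765310420568970621737473398946425356015572027542160478081545037047215319875590297477432914050310793300717801395134347265230210699701816744568997858331182139141096617229920371264518707450569336381686204576236494849161211024574653878070654778598213073618850595916372731130845850091633142644244907326967849397924975349067705274035862905777526321860016835883601781626097138317610643356841389343485237113360804446709297314151828772894601943938568530079395320775600792205906983173096724890223244002375593339441242796514898519526016979351552041846905280544864834220890068024479883944455326176420818560637989261385974931945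280362921084196147810140283435170466512370555032983659256823628859985113676847637384519323523766063081654280917052253914153678415188215308644648974672983961185247834901740179810102600500908533217110468421831872826314271646727149470285621173166447687366584174268095000414814873650108337180044204756212079249191592753762601145796351539773850974337963198393537387080813844292630231201191389460235383828370642832735543187079401869687645795129646769432710945954677022178795226231975432512464060781427045378018075764752050029587632357087663310878481831678877219135265424845833482616456090574061599647360450609922388205292837302871178695563490184148551113537942037435161887868175995222958812739763909271785101052710449060568623480335885888417330261084210001455137275257903454698764181236411231382704904408479957359747029295933471086310611941077980842988667975441593451338869427075519056351341857613096691034388643130231755794025927339538792757201928242912764953100545574362894945327928055070049537895254044625191076328201386610319915625041480064359157213968077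608032590199291501442436450043271167435748646394369323097541591844286462278041727148937373483153969131650758479167045094466377806324364342329786218515592076455726969338841499278487384002501431085380083583267035438338185080403150460217357852810460463250669300058539124050323489780017930859831952368057680458527627931403291766548239809009924675915906586086119743739161240355576644649518573349230615115140641090060009576247805113299798513992536179534454894955858356201456935289125134956398662284380817294575570388229448946319184429035498357784309155197113457536041279283481133077857595858953664451102357835621211079375169292891139428709455083816036335341632404696847649002633104895485703642931655200568139565300549506481702552098903120064804085550626253139009553951790731612953452101390983312164547111046595083724131098216189853974456598736914971333135568873374547485725811541389764517180906093092344985337705020395985343368089393609265369549075383158075039654536231415537955526982184131852710913605752087699580961098558564498166395772588622282413904919206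546660717646971058987288679922258451529044261101669953671573510510815674936322197141632563097637040832221385302771633217843068500827176282929416873211708016029069071819219231414006840637750724146292748123510549125801814033571182282363334355415093846952345335710774713295937648328550762819547491267207933687242375008766079007407357983514602160280859857913881325664672731594199456289599775119533201297120630720093039239440695337991973455562296844605818714731337399612228626598245304743661215521266893758755832003351094642629265668402198018346156450858714444228556816285955781812161778870007207653600079069168141269667178226063655939654585467591856152483657791630926399852480336006078484158328956267759463144212577087314316939730730421323521452017094202269064654655087145513094038452939013178426959941177872864139607548432713368383408194364251569005518106578582026544937909365231592347351699604392730267853234980705519624527850048527265865882995500686278133661608540713637490102999727766593815440678292175000718803494503518784750064612772277183718588571476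908617728124167130520952992866318150507392476832477168970165605575481573288717922001604825724949364912182630040114141721986511033672500035839091712969950531901693476250486340846462596844230526934107001222987265328737032954435477824114293876483509289870650608478940037389198079576217957942789722120832292530761771466853730896465429414877691226216240120987368639290378810135706933449658953954358532253758755134118540152671654093643427648460556538479484096155306359957850819468844496224219608611740270810026040700525784459365080798737371496495416894316107246500257716329204794546658436155318263366802984483128924174041516852251341826888512768779986759637497030705568845705808459672673487261700564174613988451578049749538985041512657005427759903875042234756845987004987938980242961144503778943496704322342670933938202634213074231555308507310441522492982732093303138950620488303411408248130171126716040264892333839216564687694311580861685537194788704886510827771025804419864709620652543112396694473123258442972232333775647690095207641997156166696974967864337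562342023046389660078691882870622113205842918871818004456816196808557731783607045745869554520559183788288366840857091768494705237662489199053348972312191297950249551676895927420380010387322897754510754277685365741684148462362509905924742498823584890624064980725344371088492993245707088141674121905430365256265359919617275897664171440083640670248207207887180564018500538672761232830124924119652725651935521803836230426293767257879873877657064219873136550556381615525418244284289834167228857746701575607068726734230996346174250591318967105601741714604396274300583149347329336141304961319365810628343589880556615235176405847806427380168947681248013777388328977672677114907340684453975677863557209112042086156363512566227864550449022020275083548015780105422291841429063879120580385518152359680245672438891888442488453083011195460750100591893460532985433578601435612607496200371903870329149707249269081215191090422610851217598899683747687177628659841521407193503336669761749970954846615592995281877322242292023673242968098704240756970140610692826602103941377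305823789443357959330617485097088619166287291382760470356074222721210287785280481412463097950995132568565256404159941290100055885093681680753453728977798463453247850376171598465384928030654077819603640173399366269255778023776230141619400727583086561794667576303128058296748799656634310659882904150702595176148963598964275784979671416582699352564032504797349414242125636328502179900975071005102760671202037929544221593371333067587574604102679083513283026491494914489440066130786985271572182839672263141776900095293351483848533479916969377956188471297696294167485455787126896656709213556251525118113067678875554271263193582329065036688862451928508726099945749761187159995640664022267806399944365104569970605130043651273997299131413544824979738876680408533874397726730269301094731781709572339392777042086983289182297404836615202057764266165390007169354332050688296697447427325496405455369799351477647417019194249397013909390156287468335095435106234911528342465264553616580558954002975871437149442716085166022093623479024767777448984810171331278013704656260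951280258500035303859312567070165941807918101278889569702097942061065600679260414574039137946686433380640812038250423243840804094247006696087274555500198086732491492710137084789533259436002099926284040031927949218509197200666982788570488443909467035521705426148722556081961515980223953528658000843424495531744426476827807259159250757210587802499129906595937261480435189475646509824752558960281019221718413954840461326555468577568924007067799844869039203618618902467814252746585727530981411233368173417245533520396619853634644953618234996168153806518936898592345299812476280063763412851847039171382269630292403722544697202453480500013162169637712324904336672990950354787580107058785107415387793413093660963749815406701387335023251700650715003145893652713240932984170491079815084394082564868928177556128443071060958165037029295980014874873736326931028318712427001228630018208622447752255164340017975037336666709645758723955531826466190220924157793026672132440850738031679628049758387138357998203976002160052109246578293329437526178045676314041779312023079752168230495807418692886597222765317194846687676295075472035580008365817856)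

noncomputable def rc53 : Nat := (nat_lit 40198972816628583032153710433446200856505474358358471815183834552092466880072428306942733035403942584487384127177466640958199751003573997266226202396582411872435602093611037243787114503697604036848459316895034549781076267773397361619567711160200563517530369492050607222009203136786835152554187920248816437691914012811278527855870265346336621193887443602464054819341044733449001366109220672486966315009534896360624316533684124351711921774766514770869394916120947825394539784143931691137141465576349399384433556067257346858132982381123540889206075790091933089384773788417000350588961596300407369634712324059167454470342724995740354530030331778423724922275883204324687786335522235192703403148374848108462426497180625065636000366260819730506944059942780240133481316085717771303450344905362682678679343653331238791030990738431828678102663566680743253395383747729714137446706979071981228302818661999148911708826210316460794094294470361728115934711651412871367665420028688034286839173786624415622526886357653394731668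562542884568825017425736683196451034530549056432054512042225257957584581368422779823423095667677321444064835849176680848582158793654269863005828824063044850324502433419529428785405978094246468321341423761611703242456977500000637425908361435240376878536719403917723955386770715499198132382779924606459568422874796468143558931132688693809229826039765689677019746602033458210232400514805064452193116294467270438435579904807588856367259963180204217022765563245549271877637240004202880556456508069525151370490422631213818165805889650399332349960338515821306312585038609410533114922653679193435482740470758172073077863193396154606621146420907370823074921235400816395359444103473475883502418966136019728399928015355531739575355536707591500902314055860143767339501336028273036812897413068090474888775661757966413174746215584379166931211232339489702381288608508364772141770357516594008197958688017265135934795196682386413833938136322748283779667260665677180912960467339663750362839759681746250809852549529884987967310180583565565061470047454951818406971486033695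453457132018666274461634308850457854476066638756875430022323438310988682688794212282473610980327044120040693039340047617406697612346527534912547079532031570244301142732938092639237454266823545445167847515238043440319912227812504019102310081389838613383359287072682908892446636546307517959387839052642445378117661393645506046889086271234171534865153502148893654584536409218123708402995932432120719643168596313650805609919885763773726854551772061425226835724377380362676463977273028125907046222996667891748884022818285699739555975840173732324884077281125081282183672533150945379248198996507926868346367639769472408718399397819685683550004118823281897537002292844860014997124429692496204125242454283343210552494985149244449180083634761835994269811276505752570282590150593334146153584519617746352533610630182320730951534177513579587328780607787389891957586192010237890223481788713073637644936363665846232879381257637960878941290340724014951324327945374877922207243340842037823863449707224274088749525943929663362304483867144737388263468911374576950609621499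577826085101658664353847522032529003927629101153075048214816143338060690670592315963555764981167616786406237566842686160355027855234838102096721253235944316732925589808108900657556817041662578420694142217634949204710549621376270731101352516063389985809626843615372497313927789731529151694223815776610748663468433731346225744994783329726893919064414979589032116100200693478255093358702276234938428760700671872143460411419573160143861363522112024204638357626298802638546529007513589184588008058662711977226687539112199677937831231529331938141028666956531781595137225318095845349015221715382055538860499661276561635715200803252982581044426651512284823307200208503544183487580209729720288827444676997833646253068881630902430781355296861080055608302042804850131547113737426463163354701804357956510861169221833157483421374311998178231306635482016665885501299417809122493127464043285416738942522089170562654057027492336579279218662679136771192168340178171767747632715212973716264671574302964620327319280209683059485553125285363754738463289431548635999482117495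329594156422140369948516402788183570830442757075284205065929398339760602285826519614681205016895494624970781522353831790028402171599796530156435390881925102720888203611892117896897018736546117830879983696292147472856763648125921236016311242783181139376053669211536939632815607155078766741650076062351794754709299027020093231122580352748490311509196844609905479081881311800092432324185817040298149513108169623215566014355154361293564168224734600636391503099217644083940780809572728042125322793649936907351284699023523568895915722762767818676490662811509779972376909080383130883557856598915794198789497654297302501226615309632560706162240339087008186488423985837520014575556520302382051135183796721077226327734023172612137176265455644142466856130510855577059525010529308133695778052709382148285208271775044163615764642705524007476707258764672611742415330168893352388685600340108919907470093144221176448625505758046910986203888301879766591412157365046857809340146857837251489053179993633992523751902215041369981599350039149360610324759038352714863130430149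909351048548535591140142300558499816206835939204755466453777477865889843041023936356569573434745432123860854216107804318451362780085306459764729523026213823900704457759541790256306198046258505927940845850496324953890078890262374894195510753523751015338086963912218325421870880335757455433431002838657430926978249369848429789098457997505987293335853896252943209160387151337146893476701503137405740411489239568954883714133100686635279521414992069736625567139205915421689932321942236172112632225513153823038415464343380247060340133258387558072299266925162713044919403684235588981342128437398646469060427793958811663664831746750000858485102640475607484316804973897846226077721417624778281581083335673796064681038667075378196083776220676959187909739175516577618295884090450256073299701050646248235925025700560539255627796342090400938405260061958781843340394401464414861930645958383192682509986490694579136065751633913492559618739134394286880774815462761732582778248456634459784361296132829166722396704751358009487576505198463801152076391777578850222008474133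182530301122761484416108024915396633636379840930109911158390136063178757733799693079508526233944476845187741885987883939252438760790284932443605900028402219801759118898351013555084036445780378989825869574946655631164464696863277141401817645219560669670773828788621901176539498823078598945694038446906412796867659111409649887321895885542579581796047481122572906989782242784380879019465424947269082754568389706505050264070808807962430173993252492283648940326102531408959404854315219008299577827623800951272593265178185502435460025008005728457699795644461283406588479973655634145311958521776231222984271913683708325815343319917520394014055579974630205340678454768032343406833991252396909007790394925658833391781583165908813159695112155360223082629801189302466089991506532302834932554146309899284535666898144300246894860079063934899835289744241935969924459537550361661411769236485364501702082605347578292472365418365286590034251923965123428133479205464531481020142779991026696672556836845338364881058117711707371525084357330860824600560107681645787563052751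703999914768566875455860558538658592528079455443294971470724810830524917277275468065083455061312868256785596567209609268856754200111262488833482641897011820068411494372939117995875885179766391477737950236096093630079275346207943907036794609047640185652371980180462841571679279802176896280202730880535384083951478639579615619410002615488833471369829182387641885722066381939437392214188282795175362484861171502793066601713413125780190928999017882398472663877560874160371705382175952612599410150251256801616872651641980500720759502136053595262821517495001574473193352048722520178099117521212260844573868553590174959117834262189826333538189001800945673038910493179413657305363986234512259112963615255249012816078615847997409718655132691483642274079753462974977327472499241551224813826165630545017742427534782781222118337994049549615520437225193293169457282709143299485717940445945452945345778108296787780864774200416171878944063960537246897478235756986458303946327855819820140261033677336883487075609496567229896661790306854992599408446648723339314074929529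588697602324510032177921434290724486938535539198963986863166621831383917007073998234421161898506105443991306989899534151395155634935148234952595650992866075675243709154683246851461836734998402842183643391633855542278775220204250584871644819339498218453691295308330759466153553098801274419555684654664502966205077025536999636800570080813923158576142748948622369572249673823070033940968311487583786817814244541912642756487699645547864237965657906091959434718899196506963356274694156593254890047547116546877626617235659630619629587006530924283976309065086245154804155148918273878532562518850441953765906440369409649902102364258262693654708791406969009618349832436459332746528283130196988390740700803104608525847478815145404209173572114257662169110659309198378809981379024154456660575147653945319612642302018913896530257269596013053462689300871538506549739876684504596563186092471977086698863752939818710191854076500641304550565198765501502454595328102266809336042867172152613468246685643515046664646551032533935582373500602612666063900633335499729912061679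370621950444560040075815680593980453460348653183156280077147121782181237658979898882159641499264184249747098301909037407346230582695663382506903266787218208430996965906072637770656320198663711493447317287329352844119112222257615192900731354206492731324456282540107660210239366753319606864493173681712162808308097783785433779435561217274006475284164124498705816216888530680465688885261091688125699220775561660731639861677946783581845328515696846616048527817872602727861654871731505104643051699117580851404241675495321539841903990070141958273839446883799754772274727536354848786718712234540614093782443973911816412367633917662265113966787052890242566082288645664725131506855352536737971794720521301263588826394898789836714346749272800105548764219112903158972440125754243457988730733866443717739679862179235513695271696359654332579140774912993950135521910715811563883248598419055895042237808574070396466648381931837092802547625457088649043953662609400108091622516300976886222179937224386553345174329957377514615077858068293291844436936773028691078005361806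704682011138509736214031805204671071631917100858286048719810002836636313629231212063436356354636719849424111844356676846646149900639054754726839727445823326447805052827118538011595883604550660464296425962130881735926145451042787612314615823102069112527437079410072536810198518765313500977027606787050319066049744132237284602401920199355347403331996558836917140384895794379856171691339843559353157756006479740177254679249559515669848577873945808576218692181552110928743332441215925548075494129188568436236748745263881142093247399158468436109889558620047176224840094742162506849188084286148028222146627390595961629456441873630466958478765318446515775284755949174159560957746872812058952290247787843854915985855308775535003871127905997307974331407585335680313282958203540510812561362274551226400745010688057045740013731477677647744792289953840740633248547525654293425153145723759519447806732146175201461467207760212019367216471707808089991548507555744186046268272284497397148926342893852044094190497357511682198832110889017570966667867586359555543310852403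363164702353302292812035806312100077341049335799575196610364953750536226814276805371187376702296708168649074939473279895866381776957100778793319249344607114475848372874610017329951840240248050420853111816259002650418675194599347798200095488189994920903444646067457802797719924795011096472020124396250419140930133098534784441384633431701349326423924398261577068399133099485472504383828918757367154511728855530298764225407728917420376036568593228514762574504270087942228385557310252088637096917865415379594787831436038078767969487225500174649344178919764252225869691056017944373551774596712441567900703881576698674264693176227212450633319758938766929475465281528263708856827524938545467735996003962698130184690561807647579563442019962905888790695759330731090282557480904148023367132798193110611471055492321370411098650663878070411456598330908656293280608683632265751407081727108544565155527895041069587396463374544876499231629626696602102873254263534884266485048710557298499149463310008227152858185803406382067052464641050368170804427555978242092230592336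674240713300850834020048672830138112728146173795649641299528520870547199231426551994129218897108551266800232341395420676414399047150004416183020783768127738702751886336871457856504723091195572034729683002540577524699703147090570648687691822840752654623987341323825731789855062187694362436863038850130403292344456250043940093010689797692114324370251604526104185756866706013573994581019711159024435568753094559737260682252986025504839136293527892019768741392331988742688415185691576292903394462259958268212880138536517097311191789662709687817979827030807740711685308563202702823259005875737888644456094331372525040653635401498993253750214979210865805971107034075042457461858133945762393558396619782483507212940508457879859667299374573474063071104317102903594158782870384593586497050152729371070752922240876823892555919078897628364775652695084597509780795520977727731881274514093203341632240469003245048153046059546148663498187283630402356822705721579391227593388770568376404731984261888913376205049352093620570443523118416742144228776817522776147195067495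715669365735427422450146027908245098185613956100477328922208178049409765221341344452701142331009689743352120634883150565967354618516511293344005968559203602497898123354919192814957949763337869419519967616593173102501877882174426708871874881240696866629020769493632396432480160282849553705363818346641056530194406615602955008545953789443454417935525431527827109301195008131059103762920088728922410118358660655642569515156928166223859015762178755327961047082282139262604340170493434597834965220697120413506096389536598362126280371274434674315369564337894163929868208966126814192861386631678051500700331075538782155481898228922910033328899222776332299419010815885427186747831272732057994299385287209842104233350152500279185014950718096784550501578651210556482697167816559104132221057051702261873403576414272717104857859464181402467828954273925837002319111230401098366220302492038002844888362703868796526826118873460120488604200190265653678105823327460821815666364118485738322384950823119524109430119923987416378970281339909056353357964847389128528991028820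167200560046140833610091131050644701400604302972590525322144333609318280076537455381289226899436172596477570288216358687235294212781929259617890789367812435049268948194108318181789262746740877603083674845699178003011335694718645335088657847725723283210799996503691966345746378359391555145507425003857849716646278205307676764285333532890651269447623269469225491329727735193332452848492879493014441198200477414825086196287759888271040889510750135256306960375037479044214881541784624531883378576592236136562390365018006806025248824690938025425466247547153559185066491369547484581623477101084060449028665360477761696707954137161141283294433307738064000855033543589327043448229811689855810991356046553044554512134634104521243224767064454929550852399630924495806488239723728005842929816178269745272138608455719317282969290793369038712018200358558719662724738107831625715367869102408420469731349837643487949248555414874283925976196497516636974212954097891032618296308734005417539954185398604414717601220790994877850125623210298192672096344984364159602468233310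528462494691738206858770872654602678147653027167453388863006074550152962455047945614176735980240200895812554219935142754830246709995718340810455590472594588935310805889884819906088313826922072050866073416960677856103750070320274078968540534253751700135349342476946410655504989120318406662177119654835089726656378651934665988050398533490092562761352269866668671099452228546851939699845258151299092622482666523870064483167048637838217258257907568385630459264721933523817660142723109555198380642251441695561621764922841076806728769056227785182212770931886434803660607908789072569686815227105941252958737667908604867101417526835708505657223840185698562394888938478279227244035000603796878425361220454960058505212379156832558310596158444283011813506343262794328870838785309074561470443498396883870870405808372325787167944979646911474175084074284735944790443197600529048589250840961432729107783753730210012292621557311316692016171376429367824372034725481525326530396744482968259880776385675645400147457847119484656519999548600058152513992483537863010484465685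510014307548798870037301072957013289796560607006132093612817195616685126439279002004018968465769059433219989187435529089513268792183966415990672177591701087254747391262054707265539775076854768619023687305573601856472542539722808837011321675256377256629154803347940055924308912366385236709778193526511737137945437265914910083811158181269789178046937637740038886302498216084519781788150410256209141105143230913750369722615833883250461401647561355832720372368760619704909391417310954777438398753000007595483780080276861597765308954781013496890575956904777568866796691309530343242659376210925902787242321563639902404676298022838543572679098117581187461865808763279204096439223003191456658429260496888596401937506409790434388913069452300661703761740466266295580331055305120541367451187280608205111907424888638221617583500396463571870263043233432291844238790351415521538924863766697901510897969528308081237320270761706911939208885685812275279367491252636950910386435008738960757113835165313013415718515817674246895206913843278027595179260219236475515870467834584969519074433879179911985058504256025516328315344505501894527447795236864)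

noncomputable def rc54 : Nat := (nat_lit 40219994597199989291797114542023287495301081868443204568322264953624174848850727524065296675956083016202311638096817938637799782466213244344255447487087276952294453559288719543670322571249214224921899453219186453126866790776052249513252592237354515458035947710959629341462878242079064113897037429211539470274359453213648494062216724247226176995449253409694925023970094344815941478655550116037234670160044151031529854961960981634152911372262806058436832710565862223282171725512615001433427573161207716097880157438288118369596524960130394730880235149727114622424607208564859683558888871469072857026608879212667657373167858257143544899229435248718920349529838697053025733170482825184644058957956273658637140006279692793334474577369703636746699970700645775863945878626971586931754550712125836970645328581862799002112397030691409189975529289261962002931295132276787031678816909262065154657990971491293490063731811021128929069793842622537093508367614790886057646564185927544146805208344190463064246194858707473689690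466996037493837292778163036066062051961599567220519571971708262862058124525509475468707807671220272594463034069417564148300110255380116778180669131718870609322661441206863648678022368062898558516255273084456476679851047251401507593835761265560621147338330918164601444597410164643819333001912827744295620473391220625279016036969302977247663394862170728032262105063077498960969696596245607783887643274867757466670178667747439270504730589597308267389977910919689098479507445754665776313325848593436881052962345459748246482979896256074825440764672461761871446951347664326990383416421955532257953953167701484096440584160975643812557289953897357522127462221437378955159475300412196688115312544636740646169690444371258910779889634139320559016088148021091815971649346339864941964781569139424615049253796045611012073484217431540700960346645380312948352418861529243022709829507063043840524695307680044533071504423840725690935731978505059943750064719374466790039939899283835816537780124968425678462730278356045949759264999161818771900492632247093048528298885391089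204673351648976081737822603021934891098113867789780876619000888069857278228477746499109697321961561583058195920729165255626410689577629910260598107717639668360075315573675834240685020775401131254760289281072573814992303319380678087627727230838688998128347920083627990739243539416241200858902415002738223334035288240519568731960482202610004508914955002473830713376962405715707440839071356216956658305969331199876949789146460906655643768251917185695683669696288181857758025856412043846651835185402409668378307113791296366120692553130082574282754980906050977257443102345911095114979258094460484906922047151607109360733023568316612652642872568346915474058478443679048417310878392942126224042729217297204882982564499511219792952582723227600020786364487863421715397516661044620908199382139752958967515438294640596768450972408354501572894030215089247439900094857511914771601688261310299905284323240969853695548074553529798888389425152779845579697683303003219267394018452525158366372998193416592140173676911996407445641167416068549656914186384048711672034713652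601219598396593711300851454979168515172856485520099942590138286369963827865042273976500271778449339365968426930529801133900109576436619562060005948930826638955214682074293745005618587250705010828616949854822259122674225408004263814015638520078459375035765317285324676425419052694236381581188285210289728043828683999511238708966398378976861928492015750977232904233417046767702049557947916774603430631232064449416341530376334224515008623597888878531640570990994842433103562319766249287030200363872449639229999901897886498012994205224036997598065349045949140304285173733993157948755223509163595361549192850142634721118142653721438497376931971459794304029831374435919325367923551910925752336568461036876115878506859610020018680535710464445386088637859444211190005323786205870616673557848909150647188507309027098878946869171161134046762348308997632287010923012735913496425072340166441555140391352157460707015691757044060773038121610092351997529099808588911740916851979063929696189739525264692144660784808424864981172259087908705414764169636074337199439933943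497339726876828503604069137499755654201723343364783298789676102111675986310082375120639368206634114482383880194656496913528915502114862400621075331172279081635480681283910337723491358402125643970547769280593851669817384217759501278344559002618853581361753399189943592469474439493611969406710131380745883409098063312351540910834167041655362688661285963588550612632110302570080816210649999601761656564252032267306210976242201662638789319674840401020606092801904474345180628662548596631685846336583463485024739256307356372544291796381555186477284990801115707492785991275605103638399504811950752957766358726640152733286896898121256974170704406364564114127865692590521993997261068741146600565769746205258893501108553857231641792245547184374248904323734605466883949144870505381593348170339292148715320220719712265487939256953566164873663710628281322342683305957030619472277905614170039065066993036860757117181037655073463128439124095563027860937563476304374520426699454205058643356104074255094371562657504614249956733632957902618786069161760369338828595138174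583190389590823064231941670356198262806920052274543461493838219238103594700930962332671742501444036602773500862975352474957423854232802953003052448193902340388496757529595447955309808699058610405680269654135036852984119484537250493062999177358808641619138150594521021822011852609950379512564431486711142990836492918365941650035361482766259195884303542955489631500512608056016126928358559076183704451112983041845363231882021396287643064034919938764506276820646534727504066354704799338913109954469098232907251420826806167919758127059221847681357910769891290606523061966191321224977804998449175052547231298102224772897764014828293730895057748685728693029189454322222331124141808750518796925975974018997580228195509912641586625966001074112588344666060309382355771036485864392852177333012318838115295995522711232744871532297432031019203353247023906656148704366444307777216140330748909987724496855158746791355692739568807158774649000908339686604557750583951321127594552643762691898804178469645065142634662683886910176606262210330270098512913993033449593643785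419130382141413382979321502685096918517002287248265768909964555400648472724733773085879358486437378320078280137395415380678596832835815022573975655443228259509674330375880311632591861516411271940022425409301277842899019905392338095722004506732730153986453959310559845952331520400081956238446133858987869537180672542718796613615764775208867466968649051321798607900688114357824789805185844460515782978404440104909402213887994898269431309518612549704705597774435632893608720415661515688740844273215386065224904317459782693033409962755151039186314647085749774009427266921988181694968512782655868591888313739697040421376486275227371957310059401525722281030750094149494539781707644123474525957124334943810272259946821319531643223692823071745282301624149868349040853022699121637481687967764898500720206423229382153601933507074606912633090503663630941828469961118565431162738346443130975290427514819055805651681926619255624342529962075160293049819661095905647126605818440447729389196332633253439950473363676729600537249798748677000287546996866456362185305292218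200816336257649979942622782901074374928688270056315000519933310711311070785528914996925770196445020516201374704612028348221664797696697633507368855344200528618400600136565779774446932166423482099452344036755352360240822830756408953270170005317130020776366797193421276611416192108362181247122484735110152975817124571222985490374990662099842529364490786646090989604311556247511358396883455814496637900373864216713943470703368196358198848923376076846057625484046829139040791409801992303019806960213392069991052151904573414172031743060428449948379209573730875887838735185297367095430174454213928091921476040679398738566622079570904527812903975644918708648838458811596804083508335813631803786965730709453830949371661378208061351096374390492135534765162791388540749082911578284591981746201052651869951082644384995141172960722441987186701224434515194935294814949755770926655407674040850958230870407366238091116485090696841571022254956328583935577164770456116072565827212876683096717817599655586844094342725770949007745896272414466775017184133751740611048541383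258090967448722469037384475950880213415936597502590830002325220711683662356425130258294470681781116421366558017256636125687552279429623453526909073674012154662930912563031459604647489872673633159241649170664738345304069139216438626723052812291523526372626691918194412948858413343453463846520075131075649766355279891763888301926870568637330756148709776434357439325731161086033784312803232106596654617882107209684848478893831662114295312736979094372864678061998241827968163534359961239832812538491671789729216700294438644189262186025102623755835825841355369302971798594209826856897280809841555040199938841977219942714862663848067723927891097980503223957456677720952230046896006364337036346870844894380809464698464418053460114537811198255545631994836793112898264924813660543993142073650114897267715994171072941132017527506313642283639380989809202666609218111961678159750375912646614004224735200390419650552954425690093974604121608827555027970065910210457857669409297997853792978152374615148916941910236695679835591567470203132487932249789049120916213873563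912342112969451165426443024393194712489718947283676500075441847226245246747657862006632786026443119513550531428666968604752668380649799426265903694027290108207513834644077531385010637858619953902381328049275182877153755568505450089196200290318987078539844305220344564265653319659723095818558441992844406441582736638563876258953345786611053444807130940663309022806502210715746448788715043116809185029108847293349220054366419044447812292350763521541978574087813666370734708349326752491936528754565353262375114086802421291847248036514222264285729469206216557672617750241093471293984814763795447215048492387135740513274083188501962402480358889224437108261239131227344267401494188640667736303759822147099797298505233662694412216835593734129759966102177799154465846570707224908067544517687662426855749627015049045604417941469130554144210293571060471513011386566727189295917921158545131018361949820131874985617453141303795783269059484643824218685427913956941630490883252055166953890921231452236096198254026705162747985048091749506580807063633841960074510580475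066611793988808527274158148419186647563743325315875707210826960046640307967931645379061883182572752434338298199232933865146625212593679568489353366015957656163226504916638353264698525937770644062062159068277244687528025349223021643100462865147474520096853926686608965901067646851557082248685007856777907156328558345549721370342666670563554846936415573796441689042898854823113751649409358905682488326567212861140578949357026867472819629578151091361730861264103057831214298643496173035372757428872913812949069524734893057290076236164822376822415612392428307683647224000704959123385850757057499797332433912438390219731502580826287320538968405343076166554512379699210970731939724952814153204782979199075400080748621152166307149421618951984457007932983389829237714750966942493466209852947606051430118156654440503157698031779222829185287321980122515714300144932287045330767291958872600530188752248644021397841482295081020797772828702512457976942365481200504624776013119422361443071566272994829532751321958991093287969254660279746147286450007292285316557985972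052549454098159145072626306729012821018803717117489189871745199922078371753544964614579303008855660014585814461152203251944696555874040942700952792403119146322089605614450767510002922475898980726286032788294491861008228900378350841287572449896352180241824340818778513723409056748400550908210026698111653384859040858534635655323645303617821888378065307570532899528209472499212566472007019295565161555573968077803699819490719233481039778882283339280263946283630216985037877956642973649815844239796193714592261154857158861182901533433032232401975611485717033958695007982771500015103792986323084199367627027428828158648810144824950113993242135211696916693899518701522227259989869793491111540371007963573074368631880242943856856217443375305889943906694220982417647957498579582487152776430081562740174672363465739403798474747909239066170986724703074561284279937206349933807944010643373126380382152996424283603849969887118236924605418891895203701274724511352537627527369704383859793792232989258982855682740635541743969681592887804420519603218785936833114735160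462609537240943437575959044769028986246934395660062951144664396663835221275585981646563237946430334402739597841607756834657478239351255449668675461520211062914650365041654246937703639526454142669067882561626876224407756115775589079684563771585196066302436347459962552463859718426090501549068754201712579576658122316668154429220710211638424407006591458672265713457581626707802228329605081067557811846553396466088104446369198109188084688047531099334455771970627808954999232323679751444727224031440096344849189106603442290442234005772470715079204303802602229629956717445408098831001740696122993906823332554043248440927903583431061484375675814477636089876320582016855694915834295168651197421436100896701078175883487247315725325780155959752021962911662528747018486777962434426785567548455125023773804532800722576249689083067354055561840328247329526842208833065625073104176509209351795123626756923543885939893905765446490554697149439313185842732748727329769248544469822595132012707268663364057516241805423619645099758320620684270131859363472093552335568105469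351641226298055695721770179785438540629100658219693604403974700048371707996028329804500869271603570482030290766792632108318986196492535114264154444341633647417073151955489678303576656935597485039436724686473884014761443590030635330141012834885047896893217356184153219199653527656258387333477753655784637941969230940170503086551021049839410482196187346194700523699442132437511212811119622635047380732092936476168194266714641776202612021849582004604674698339870868240915552760000593845241890898198993502186885208226306690997126807343182619796545565728885120958808482502215110805192350972688646127077226116605337979596346250866800448384291292196023352587500857352052709541900141903966384558098481961510082567401420299572545626425273644397518881953625787457844605010853073764036500828914934024395769856115437832763971025829925521640666947498176016359117474314853365337996254518143538966464132787069772632702176679711364033857603486690486052250005978550450749655098589101382716374832841748172883477854765099805905627834126244213569150739730794148777972291916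768712305174433933896421188303459045363182232239835030466940702005665116570115633507579493453787286449724547546405627713720163548195299702579202621731502026732311537212043577748601690757482611971520648947786911420385248509396840800077056244795292917349627992715897149128519794889506777313278499832340676403670260148248244625193735908629008572559945074387264569395087447478988977700970540266487332610291483965902021749263303287080675971511550938725432726732880655046355164518647834825548114580221547994123935195665041970360795701899010125145754899476334523614248978613099855655670826596283993422147847111056512154633218888513912214803153114168597257715721026148083191643053358139251750459910115644856425398217185286606953928526548864603989461451188428351212745763086894645007312225606326754778903821787520237610558078002354985575387125004539831304457655965658592494965460412611753592936621752209211588021651809271921435251222122893960578143345485453441119629112764702655504728479548610184545396223899371279221437546176111874091253736716835753606841068899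303496567841127205243055584439910559613364706551960642032206217151258952719194027305397976072204512049517411415149467872635420103847554870687532272777605707513604268945437998752928001159941212291311564681828563323268124366148580258054756588426172562149828368494128690663549514725253444567266308110396377898942241975791858018488347191016064204236396486947113508450375533747764691426493459389563750993340387877890616187990615314146557857882723465784121975309679408888517504402670616829082934993198514514009695549609940968854050997209997194375208308383009184838477013109961503465941421777980672421236645363137592749926047103463318629477764075921819865786973404481787787937428146550253683071359600940077461527790255362375407224930210578941569202631938363176240155896290544093621285389001139384086106810355736630238306283545058143661465660907903995073767093577974362331042014247734959520540435162750644917229557841551678917839497278671892718014130581174772961794666668528240060297832861112999398810932616624879052599165711430246482954194196317132936125619177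347748665620460334035214585479311700576197533474584602907763827750836773620970033013818325407419920254256154510644856537611080895375153612139390750612597510703476546330944484812194176655596740331375311501411275540393022966250003101020957341855072000292741556152525555400068344986611515057607639081484862822074758580429874768510824422669294190624238481116304218533972865285432041525738136336829392991952730953084878777522701150473457356978394593298321090047592799346559199122066560338917668397316542134684975439604732860651167921395898230633459142839801573804938493770916027950626737568863542741213584893522408032970813558025685856300277253023370307920715052384050675307059608801327454708472366257792692731454676675970486558620368704423659741357182759658835334073525009784553396836024503073799221186345828199636117896524537416275382465933555969584497195197643634075913503593568528893505379515462693332205316868956032267732659151277176495911725822166985585637258453045714328080857610319067439175956280556084979230418199692002797173686808057516757081157244398836737105589952723433273446709560278838112191203924831787930014093148160)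

noncomputable def rc55 : Nat := (nat_lit 40240729062104054944172952240219237534164302232455515733335502275448210685262008451735298623814803232897409276050677925254555095486109602477690596848788440787757036808225679131343180149364651423477611789946389402170453271034155559528541392443225816095190709713919337216078908070303642416570525605090822592563533002698595181672530660085653368411386256529246661384879470432331133343276323859401526740530741093289421340903269359077397694106691803117634951822197953220691981941004522104204582617283338355273788626948087570236454817604283946644480101517984686258853145335251240475337279403295813175407188002640499391671136910836832227327096638633217254839387109987942615533503103531288133268006582744878487044998022999356141909173692939716954790999491969220585643610012476157612679150541301487570945624272311288841344842902339835761501930364903338682671681274906698057009692135793762667307276624130284597575372163367571515584139413793288855177410697137295328388408325131375280672508459932121898658454974655427146289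805418892775555070300706622469584085063280943015944444009018615153980811623391590455188019808574600559315675851089676177759696096688391571503330279373684037780731047793641113846029397918614184127787808154623887601921303010158202315342549538409313265385557812311021507249732815369451328192160069512204614493883832119229011981401348924869141629549774289389059338206788783291057063311371452353811231486073737347638419966813781862039786147192412370332501254935573865085787107138709363985326870006612093390705371891333003970044411684122312433845363430183601830462581031657880834982215008218921537544132271313577904077053684606398847674000101519143036941064476510398932772528624710418588040732990216784876492197383765965516884544575927232174173587601655711774464154867037547347999520448201021712952787114685806968627885956213203203841216138111529778800865654120476681098787026689162930456039166672146776184054848656760659414238334367625990361917530607773535773850452228496552814908334411995730161120831771856547839842535174770723717729447754428782967279167111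563383100155747431415876246125905132509489383309303720660950998560991106599691882828540755233510793143761771701029254494906227859864933390548259640530844819642206415594604559651584298059224481413227888068141120854537028019354013249318423820353021901335370751287569993768264447868174377876205204021313305663788477770973975662921087247529927480591144565469810677741041049709366590135561029319317713955099126147153526903089623970801612117418236761910255412626940081711354938346760324683428539571918306852027387637125855600471603894099179536742932169783250660406177703702435020493700808139932096333276479361264976276645576522572426075870785254589545283402059496539939698879316080135564215309702085788824271754381570894476619302354242337552575845344105204164297640869255401255200904597475427488412705278109836839980868954499487435538729882785027747049124356033367201761440121842417800004340616951550929100632070809377503371179944429974678169635759997761835212874918530939205228091032297055885877450174364384909242645747495747973904571361616732577557552315014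156612186986824126624776384403870114951840672115469030463107123920116101900364363522758441677535828723170781301682217574038341478346296783897366057944059512290778872262418145447686300921527010651315805018083854841137050825290651030365968288882606180177154011881730377009370792606560347502766973314554641792532412309119523035828719342563007989932070411284568525624707869760655904647732765485359982239709216482663763870386854915398091920185503299151535541449227824416429190161645180619576428930440892755621401984338603463660255893190075886853968354016177609394975269513085261797249883651924320003817717147534602534900618520315865460293125806585424362340889087945209887249681918743491880540226554960522283573248765822779707787648436505266400946790855376716315805512513331003946808673140296675827549310357722018978321209458929073152933546961032428517451397867083828632626879377148524433687161785021694539793339140262160749225777677370554710005463266929635484855392357631490174278845673033364259079717567373953581917851673849817283223334558470108331054791616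404499826151437304217686706408275246623954221668574993648481548606011666867730611326070849492928373282152730577026587542500647476683712979102809228450589016229300893953467671501206286621627549438140316262275599089210134675543345201777608719764164624703480695501299417605982108812968342966533212003216824495292070643777256255702195151637447691457163580761625571168478247459879189648101720092162542599763909028090454807399850476135828475522580845084871600959319370375305236886699395217406821156515600597481869350334894778759347997464124300717081732533501516651381214102512970817794078814036781703604500183067674881112486210570341412941365016047394847312853015914258090442609201145707876360840663658344243051788340545606007465013054794990097570805920964394457435586682344787138565052138843554036813093597787535606695192938697732128995589389426145126270432536238351051348454442222274923513424494350395025309009782822312950830448994675995534819465268265424467042441403529969114381574535068204500236777213861271289655667783298860129940987640855394279907720655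519110884548890787487894232160461807994273781333211008215819205435284456186424464659462278959421100972616103775523574847825588173142050171649247617863334447172320187389414651574570627044226874148060351730517957618742731634915522867064284109927285057170909624941864506048121359526345777434530326814006489430970871087163143311629383494414862309473257834781062903872234132449709003742050027906885721262280246336326867828480317737117234224853182298678392747968609613883080969039451020149539640067804478949538165869135928857659768123303395480777181198719739942368167749005075525684144347418433049908034560958657524467912163633252442560876970712062676994649078720251923418694998457172022066945713298555137086169044574774526589648995774641128181689336402630443100982080964639646172497779975687735874059503069992623823229863985213658569477166596009912787956730674185415528448703005041613742433103648595672442732327940387172763266963241934180489575701081217254962374100525562733000982305151752845511508998108435075921306336141662456223642309641177665648325475342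303064331572750611285549444550446712651006779654782044955385567612701265157597695857343626080383843846492154173280431901482025951230767424482620867060013690007908299118246900151386688761406792626646995484931157602720812736693772382585391728888959316016454003598993371833544922139596921902111316312217560620610717763522877763579812426055495909541604977731125937882792283436123197647952892188191783652542502818631497522427582295283001602654260388894081039393429673477760235603908145173053139507193117963134437587986345770159174918233758682054786028011414070612963234776009051134035468998792304211280291080304653161371504281318708901970578676786843723716055817480915115000100253741234011305175723821642038861903748895688848023906946290036427716354359551760181853350876314708979864887199391525379858363096428270696114751117774419981079319186669437175273396575954531110586617059113389399578387946625990156858782619386664299950451539964376620126342367805473750170467872027680751832674170664953081218685035226387990683995013059991482642741661405510643925229300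869039468562022430929443586553361089818938715160932271045793455463462173740421152914879066560243080805380944600689211532448223357448749390812021137918618956122622795800330923958499532428190279331166165427679929363476067496684338745000529911754636256502823220247461318699042568860558097099918095427015701829567337783974316053627578100179546250171881096154658958375675239837118639954271481316660942271818869708356565542161474894583737431972871378556217246585395011493814055931794778679028483162126672326309664990233576781967397790031188263541786112204067526713848472777368916392985155234580440550225536610650097809018368118868047542981015833156055441609274273508034608020584904712191329221967958443086998918790333365791191844911875431286790894311017969987767162988593580240418401559703643585175466675651554845587126314267256194493571033593394410101674555883311292370927255969337376244717934832744339866885115775268483973626589849281453813677798352120490359965204531540421763687791700739687441126566211333891637694755312359225177641157525864385592318235558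787290280844686737166768770057834638860273383910177059274589922860488674357577491558409741009843297120804694845897188476055482880501831649495544409992189844172402476364820024168826073782825819831253418225523367503182059530266723200556948517364249436496657349174974046831384057403207818259877151566488256629979416759120626147990145107574208402147309743076643331100309103539963569986522506199978511473378928211805822636726592633104623751409925199074152876545647322377465047793109572699707033112416102780772816838303699709516092761824445319742317643895248252338917197219564048273145543771156898184879917616998484869238876540503654870742480539950286127488911667836022749473576320296613373531153332503507790371932960495543767796642894629012734057434754378616769720619703053061016385005790522580429802872136938965639427173654861072716638671033595218766992976743609647972391974109367112142762298981271031030704970658359799431376050530714365635436379105760900125151887010381879063036864929975682330362876183980802193774636489501686792243965470706440330322257716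668221805915691600788047731273488355183262257220760441489735164311236405202953750054373943199137395812431293916510832805441519199781788245396093512449047433581935519374100103570025820948189068685868108309715000481093845199855609667944522546531311276307937053962869083686262007853302273529803127415534540805708607404271803879127254841771945503021500065580832127654209929903585177835511416112400537646845543345510837234842835967456289079750148481521437397183574094368415408009631842356900701306815444138284816410435164454585829333496006373708149360063707072702396634947373645220486666756512359106734526617261069271103306328133646703154432884605922446730947938833261386306052996597136035109188487479049471381407578163599928013609464203348644967109606601135322838530041704040960133650774232519385126420656664927916307730392781312175869758460188217204661522223592641194619411794793441463971997515201361097452941891423269291816328050951933356655598452127552033334863153376462146974070388280427972705039342502403128795891284653990743898187783536180756998651895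773555011749851068782102983772741059494097420605054786011607922200757459255462887286395393175408018355106353938378578937368040547853155661694247138123950469471907041712485348650183471253225928730784356415994409762293058188417195960986566551648990451305913601721092485625228022491119165578938283616542436760335823046752340485740520683856662377882628064545290378772598109496426343096926438581224633843542301238488042853157436553098184011955228170657533321503942920348328630774214983795431001794860881407248249313100239323405694372478352942736040715220232926735477039568372914590324517529349950996385431632362903932703245525013632129427186547172641190780751122629792360861520643770204919805682482819391172114091362010791708760594705012613773073100984903842671526519930613739689774279036136008646388379087079382902490073061144424821077736772539922054093334246627807741103080804915777194275248436861433323573326911102875871941039192428529418348233442422979439001075510190218888031210125012115560831286477726427808581175725942078912868848669140619733871427991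448199341311506980278945939307736644128607682993152213207525262300046849620677725509769794110010255073357844042970402261079699514693503751130813519323569515047011747833108158121969937689628685954349063556422807265825875588457914676273539068779079469292583196921675265538612800524224858644272395301142481578713195711170304416466450918153101452461445978882803447874911330486040988286141733059440419253644371756818460751254107334510482846337814793889050581854352693405136068845185405950642079856812238937667408541449543325188566233891290112376863341943909770547000573087658514997213971516999965684549745706861140840431945098281846535240074055308651702562109282567439140676027024777027114923037066883741503565102705962161177871582386170240836331526982738562235138364693342842188185771949086903905464774473770217164968094912425583563050212453594131856341511652738526071885890717054830704012190489802480813583564633417499211675619023424282364063258079808700557420309743235340410855209272763415630452472476613516007441837950762545458782284999453404528683126068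515391864771954684352925922168755101531299745033683623187049275731303547838411403208346186090481999630476296754893889061414025572592651409614626084626552767329356428147011205338425723685133792214079953136370549265490308838129834206104881212564121900921881725222078547312915874696294065563385976759050434350355115074218859006443706552707418058942051037454149886084197144409716911607361735140169060279731572466413755646271710327362558820633934546606366236646373728476953542012997013781537857770957580220450670387832998718622158817865296355066822221201140890278392739536789472001850652798352092626458964901760349467349056727276145959429645699896387970235373482016535111891727295320492465056992700932858137040716657243346421530523855778300370613619806377796298621943786045913729469673776632085909933067761410233801807516235196283777417396015195091692059055980603404692998703989593658694293670173872387824974794343409461637592214099029317331756264788657961458738431343874645560557667756497112265362276348627931449234243551514030646652832938663323811751513487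275029622624381225995112637452855030623074516672244524777883453706407543974013351181247770537143569594371344484109417913434442431139577486142553917710795210762728911078173702018229753316266584252169005282717260348344359813451746038822903433059542163980021404288557334212409162513316138052846956409404084032397271306385016345776325296122622371040960378955688554454420791696291472343724537494474134244547642196380001382819702429636719277518566473305613852542552533933823824388372738700772174186003417913888377942621616421896076704095079299319159291286069344690795149451405249416789515402612592913919036074513689900407778562759613999203864533696494387753623874047242832436316105680884740739829609223978882114102737965292042906350688990258142594702518223024974289062298014908690507293169145221159295866156174059594419225134320729535933317957695531914405346571655035242171780299353994605399265704388409112439920431251500609502015760978278168301292853726030053157181484376666673319074930730940097683552046325037762104262666349185463684753033697673813960675263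960680949330003143387500328326992650412955630265038277750413424593900164274210819506746910817563715545293331423464849193943405932618246260805845556845561558741806275231100943267918834347400625215867239261779192147486646105310354111832561048544395848583990669575205207149681933736701569497976559088832249044825653228365020318906652190962811533967959290581239333032449044849026771919999891322525686887263997500110603850006394560283330575048544892493578388248068229648226984176470918308385258314313822553754231742327434793423469094123442175372836388685997214004508654268230250251594009484545974638082797059531414797497357244919480116805086238826275202107796142115234388335472101701464839389495808473230513903868288149123979048174094664021650431455174323583050637690801036509221737452131614174413237289548406396245106710277894614127989235378279800951357650049999338582192395660639852668933571340795963792970385485164641225575339116507097467714442114291652689693122454614249621480726588533025624441914326749524889152512753737523079253968267755949374209627852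625483994828404157052395276832090603556562343779253761203285026613830020394849305972378006915268417786880226880510679112163993442527860092165720038053602908116880281991938979194639421349525628836801846434161055205590465422226600297560770648899820576213051352389600770910196685279585454748699782193421692765184704691680015645092444374107855377576279209627215345774065918849132079892950910529324394751248721792101209985696560257822050871053146308362534231352762263951554760434680925964350358488951028795304088964944331385232072862052324492363109385140454612073863269249298336134077618555942248887248500839203774429342100489095844487034988474017567427912979348144511712661739787193677212002579225642122797392706843625840102961158052350979886486441233067984990908555801555724234032919692368520415296854518360788631502630718099731868957682823683119504920242820626429499830262977306133874659863925502597297788071548244031118354180948527167588735043182158042530241318236400762697740994350814920929574453723185399478605135330018902351306271826956930903734782402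754853418575853100809093960331927122643063249283787194682336733388570172091652897034904649970689813705350861859312834122397406606153222989434175156165086576010213171088439104289748417668260086691466695282226526383298845441776251989333416697395567256182750022427753063580209946138234769807587330043858379419963494757913416425245488397959581416885646287905040590856840075991570271341966750371929381494189791990085264810854563760648311360162319626586762077489472433138837028204579244636612699207406548620315198099928368598314501905214068708025640863550380914790573755779390597548302792310291670040535725232229906148356112001896457101841583449260268182770211385376989641350694615221552375024945813387991793879215388314499259623900119891205586109573824163051985797880580840370186669463148967689469502344765831931475977696988204385505481588075533143478589648317750560022298963155678252451247871633635257952021213241344802150779065315247974883422837293197038477110866286267369407783226811507051334172893574539828297717683698455985986590686808337138374118523678164994040504543971159566307382545775918130582170402788921822564985992118272)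

noncomputable def rc56 : Nat := (nat_lit 40261181700349463697220988028230367195202799752053515385488497002647810717116982797696291784324995002828397823968235000442960655855322026025495681553745897070713403452401491739574209303250596066988021149101341876457891442473329475016700940751087100288663729842877091102859710661783989533870381452805061078803648114483379275286712517819004993751989187841484815754273746771653695334562000108851054881620905192254374583940430151734826168424670830062289160623726868397180496150656563647042634371906099387573983117644344133497451364692731189562236247595523048651944635153493294073034280969491161985531090233740828088298106746686320226501894164910988544976833318915718040983422206049154341879057089695926793261123090755220926695139282367759636865084653870388451565015252157013563350789196046824132643939166631138695569843800227496168159726506316694789826760274515941116808026394009242812344569200446855752854093713013427264306886393860566115819795485789643964662872508706049520164483875266810307564343576763375317895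284281482544838316186367184210600735309894374680419673518994840415213464852055261049626354920087571712743552283452464466206980651171568275065869127460693885041130311358667410532691423866422337411399409776367962980334367566990321205291217130412821497968440311820837632510049285066726340380790952283103348619702826287829271604299565358758316386395268732348518522489914031712073962517034630114491964604853469516996365345256120609685584868938521098447278420922436629524195036947269067344767186007488642309506777608089428085637358906922965170460983136258087557197636974261150778971916442442310225171603115913124516413272619073440374172229251371201544410884944748419825955226295358966003258230325517650222357232297228706525266436951717864063766634071216318845169304248047842907212982212990185754286952699839990342242930817238701275806081171712388557777582556822766728876443269227529659866575194520113151516590888635385733237036832160932320267490475530595427259741039861705728126085459115599469231463083433190568340564818113029059520514184536857440558849143109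075012341828911781464352822568609615210788584282896701834705622481400782707941301156466197924013107996544576933259652116321591798869666393186826008573632340778076488248585458693383787717070852977273601887719625768948840866433615748408904762473719892536854801143128642414877711937781066915814301854034581873073715144768759298631843418432488228780927724770803904523964876425856233504991325820032043799640266147027304739292396224821488842613105623592249642037347357767772900040559257220602320575359069136365915740718067350937271119822458217117098389873938327720443133610117345091475365204762539178727185717821019263287041004761147233108834558930391042270893755565918354813866473826127500997896005142802979483610768693452260188060036307980260306462231990234275619856744801343300882137378969362785564222860067667621563292826772878883809894433354488262488886826704329189508982454098043152966415019155198630888463000376309550289145345533266340467182323526699445520384810926043711303537542868636978212649021124011888638785818689179201787918583753325899643722898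371476452279083487517382748063647792059730029331801473441230677792086860022655996171986776579668958752017859343783624799197716993095828130357054795950114885818733405478610990383440240384533920383382653118580564141112495797580134477571629958233713302240886277319602073521371398264149732053892569035787782468563162421627781141557898889325749435774565604191302566747502107913032850524400473094010814274182560609107110300036945927221498382025314492834546526066148351738705522824286851275701170539614056070890138075790074879812124371214761160010538549303039947802186965057495180977628447212738705423910046599927294957096982021064714799166737537953601815041634534858556879709607694633100045637627043334236114278446960198895473965608992740110421174746660006307666898778434387575272345425660268310018148454400114995038390922338244739333503913387200809843141659453966776310095123465289020247206057973960263256874619872017534893060917711659267365598088037081254889446737639342811877729739610034187299781666362328974241190555467176351351504192206904883000143559640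272235451060789556184157803014643356814830354437826864764184519566041458757466736530044434246913514436948225267360738321897793156575976224327584062669919828415526355569774522935233116582261001336356417953373444318684201655227028442946537486949255928922297564887287900895569874074082115192332882422826378939758037259641169511197007768857019491554428995635351891179323478928392226641425826270810262543298473121091876295125252167856695050014578855341519839115926972032417758701169795481980676867441566108560023767655702330681930018399632834255312560161096216720230201981833417600113716540473567588390946912159771951908349100097868603704882869035180990590187144440492869625392158042832062235321574096295142989958754287404983055767472455610989864202792452654083722580250685909997253263719179119188866212244756534126663387866668494047046808678282573073310346385732400812696536730908480196965541388879086843174199373963706965790861303656212475186794267940097245508963309013219677725021129359765195952044839922625041204566916078339151010146162995798911758709361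493980891302949052460701992400376774541655068570949429548614813269031567233479881758999618901368942390196713370291788142571881375668033907636237520555420717484703740124312893451581169111689872076356864751845798048150616958539933787429470620538949908057931132227619336990023916374106564653947593144602996236523109356538605267886880192447634221481806687455942446423609226630683996795351837274870871474782033588433030115325284616791364407366411127368277971001995519376074791720485564785715084495138480304849124914388036506772224367880377739999650276315953961590875342867837741360978330224945627384581491128909567612645965942955228148710930286915980832984800429698638935304725021615756465210548916134067615282526228397275308759027107946487276210802957005266662172132037932427640147747716205228823099878211953695095329957094314883359297911127959197220679060320321635743907740328579530419991541767575061221209251236641721076438984953974786989038569080911647320525539683513678856184084453719237079186984669908478312816180821428415098299473385031418901845469901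549485827354686982643027294334585139275176511042608409311854169806934816144506597629496073611961335764201155261163721072050083388875180313398416273478509806122689578708928950749092887821849637149425081344849897005825154989253066768397907067348493463676373051189151336497253078396359649570269146718569881445601029472812508472186062801795796800740817794106166271152921334790975971353265106649083894539010392920744651067057778784436942009034827950548073442059855187658624957301142797090273084195541407344328313432218865628569776956626002662179104284511790912663084863595160549247791380263314794618738180852810506619986695983685334473054760963716763091726057010016313380900619574926672189789315695335884630104031147762972701100670939119980250283928893536127028869094186448420760057942903227869576590208069058867935333491985400348377048286620620195130684474577648857673345929024160405108584715024733236956779819827979988208092640407173447016389958833726745563023161888937722114569166480960320160883870233121534071259831923109422330460590945927547002175806586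890567090475624278020852321212869511369626365476407518371769699084940526405575928760840448039287121348715308962217227347489470286616601622795583319963797711320454179417323289268863678136856327907776115410852662123639585148258624133166332469132803044668798485847285933981468336662611253607925360388532236631473362764911543300549987909828710279053687597858392445587779157857839588676638667477640947129391049085119812240428160070341099746513942645523427168613363225813414502124959240249113413212830475265561742759524480417862549388743560911374091505817528218117224529461297965396449998479373369510194758455106994037520897107419436549066462291530314696272675448632718985381083429835390839434846499832693136222951462615209699168640732289839769513986196695312231427052913178782186298848838311678507287794267437416764820821192254565388593010694620328327868511991702605532530587626522606570583101842484760068031408899437342400339674316321024356750270500773689581774881918906051111339257474010283032118624329485712790419093993827731056825054356797051113516127397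270173309785945431206110951259307445504694972877888507519752766826708968257835463942562854238314954901939983746783716359424012602936427648046685564054355444490183773523951042318836320017312587422137560780145723503650020180888872343800153350420951560410438974451571342450989257355194945955796193854040195341290537505216650906593970094634202485818964057945821449043423785273220183470045312687225592480198894414640373267120713645514351996854405132208917219866738562260811595313930612210516065764320024549393365334367796945927551440983355008856420099101905260199555433582639837021342907084598876069060252841241160668851880181528598136640537690746796519838252368003011611599454197219290325458510434965542990548750612269325799464179348925441340810999691094262426039897531456311916635251331081356135154921633513921732683351131633549230975289657875118152014064959152246408925049043020268589880820936399398360190624819322667839299442260007510738378714023648007443946699692539114926655363893679926988983127906183387574364651923510509106235647827756774311961603970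337378958054437727000452785292228270145997341446215473174836097620508314302150394831645273411414132821727283659306619305488468362596693210675367688477294071515558831950789646011753791191417158950315054277920033328919491782364990808578296663843140660260076100656606493072384061154951724397741862165833099903560254228463004740604250820110782835637663776956621863763569216914093289460372511219363225391384473816892521041095384055087997470598940482363070819237004653235789695726397177258388269002044060202948651889361687262083698290565460625833268728776757947139995415069721470748220679072557349475442189610321351212012830353229224197603224303449098589689614753085541577793556800497388846818018026370371051883160732999351163035031154760632814529535493938459712861867947996052153286409777602194999895330890800418415860344463830894274080191431674164771333070070267414292033141764564911674338146317702443654962429968921006042712873636953542821121816721944010136097069091280388809856177359363297969074146076858913154128618095353216307773488965619235918490945102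574961785356433855436437064255736798656690386037149561451029942952431183105071684678501633314383222925102946431083885531055640612727969017478315741214930273000355733829599994906077734560698224099771697462508123103641115389361051798098286232065293527922987744736353635958482655245316632288741305116001400578888608306530134278762578283989526547745396280261134520875336720686305873442652117688080912969107173015265211658763851543160679641969755714262851774223348700548133125757136196920431842169725887659679743955130245460274679339015854494637196541164297408329727211309888440554850746299699488303236394847766289007707238937348951851187140374927200817715152261813271160919719133854899483235237629397918200821055083891965275870376336315429943233493795695708692348561498799873599364473881023078079796699841601752767288814135796874737041408724719253947519807149744655177347270125182287639097854194893871410162184034460988516414159119865049676653991596740357724669261996327960467076848907330318998098951871909022259971449578488159134530864781809127920876297948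815667012752828096504286158769394470872201123529984870361970008809553444109814971351999760220758726932087857687397457016965194096433687492717725955860294075299732464805971318435524589720409054417052931047025214341885711669172022953882623519196475038924714961453254008933622937479959066247921252570861219907596769172986479330198072541814219442744673907396921224539916515388388544861100364938502494145882211011674444823918813288591143821788612344202686539626651995116152498602228944390736249293575571059657306190567280744861052261028323605048314000108860712006723031173982867550002986203696627741736361233735864180202859936652104704776853249801856566606261693061217529488467811407995125848217285301497855005061977010926371365666292743004553526893078900026349126051371336639892300481183591689353060180027593341712416176257344382858660846730849696461048949191842947569349173512467785059336088405362270055398670810303937976336088134691489973847983328411235850008861420333472753002899392355637314458212591743874204709165650074017682014214590604869850511653003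246165851218530169413549412821206450284966019124447455601910381014673920190954545593035840466445469384382402178260374198915109061005679630031707516422655395367628307074751594160191085845306476459668687140964851186522851267170582000993970955377017438582232919188214923858584302159087088445246286839063610028958547490658642340703872155625400331415121600810147085971334528465581674603502200440246655232374204917546351721225394075142303980386147745275882866161337973278396060451852809210306996642647274068027474764317254971121995624889418171031579281538997772223267685926217208590191156175537359129043007449218836490883564612225989073543562779115614275756289703780312405943009493336975552983103729830169161525093669494789282673179517499043315291388218092134177513346622686241011264301474702999898975516580428187989121168758311883822141433151008642623001447614386939324711763378040607787898765018133876297728551254748498991229791109199299576157344704627872112563205622182472742029702919735806045419229189451272005156809142991286325466716842542217599743052667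019683105411483405908871311582310390135047656237407129581759483202573241803954070824359438769089028325235735984913415805092410785098029895451673425951890657055343004491512244562848217632928347744061265892565015490710778426449227566685368024761237303450277427287433008212373033006832504502655767076133811896709270632580743145516395119647830267983798143178859335636675144658898555535340920862475859220654727832506739092792915987641300795738755820576683520236094301929512541207527674486216929870639484259585178102287707197300499810652813619871530437736301613739379759930636297774033483380333562750974307955918436760549954285417435604296188213666504336506407819838263114220591043539713251264819928938050979147247753494719143722417541422334450908832284046177508297823525675812205139366366833761076020335210537269668581544245624684864777060537672505767954631965263010131092157942934632755175870906116638339844699165546220540990593762077128294240010704429667124858360687680715222157386045779542979183790386963231394454948652995983187397463526176419681693210136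655259372567270346651214711353269090872643598821823245111812308703518495406883795159813202218790239810137816610278297720892924287866303954591793369183693612073387660630846243962640678258146437663542599873785127868898357617014622823440173092666247775345656617298241372698096185437560831406727914525894033263520912116087428427754072061001191469264306921589696574409869906689121488444654034934259400192068272417819091847850001573358106008413227591510931711366123700680770917749992915174849085109323005549193282803814892315434999096476847692422725787021420011714091089276130866657523420044036522928616911895814088385142395544869240733700395183489171079052562184449906672164828466466160615389190871025142966381933042102758479461315213881412008423387834881918164922493961647992241179045381132725338773170376938589893071479852165318939062546069978535295364820796673238719003099655838571119116570297336359717984179514059632053114983416547606573602791917295672246194346598971916956508443010795241986181028905541141497689340671521061755887994246006658447011957283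286591847212774483151088744884853338609182311887982920575561171435311134339184257147305099088532929961890694073387940751871462088337985188008222089057554721303417909313149530951003748758382369703311600221425732914800852057319776127045896440994893711165887171929727247918658509101142602287187666644482634427323518275520381569269545362345120797934973065097729097606825372113465217221759938917704400251254607279451494268265719285763973504946608755971874032011709014104726345730783178174302986641350161377415801679298365000272807133148755328727401964520875760372965973072224031648682554421901004792187423322070656886125418466123452273318717835247254707307619804822818935211896066358051038103134772023382241787873590185325510538661804337798488614903910296673012765224029193009776307694716067336943923232337588539222601521726947514823615530174813246293337343456682022252996039067201134464522863013791517068917077498628127747883921651005975796888059160271217848933750456416412576673881837070874980786456206027096867031432275809468296123910723930582748952533248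818939624495537579361113471781302990495216120727033472249715482602115045900458285754312262094654195823328044044143614493776382485442682315987072243193580398422755519946880953462061824633293705050451296805022961284125186274967538246546845051957609868658902330094144976044038030702217138031340724676480436499237654552899961106826418087250093427093636225981339391287568018688849881993871717906850223685028670392304850976324548002066091217906787350120466463386712557505948097388074415702559444943241972600916497936829430379137866923748743844251266804798457315755650147290776307091663470517120996982648718967645365549214895667015779420239482450739891553304812314412897477104785101939785614960663797218556232758400396193465278219000691732885098263285130666205625440020503606110664481638916856924358832577795851756536268159455122571190226805811002606526248625369895879798872302499365837354693496989801962737284635913637312668457321813013815949745138843973751152741021435448481163463253838501949795299816484436090872029840246111136611344693702516509124706643212143149585273209345260969237715039533286746448757050422315455836409269583872)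

noncomputable def rc57 : Nat := (nat_lit 40281358717481617340869583007489534786997348528145810409706703357776558200797806064226015264405874207752603161968403786280288500246346380413848580371327080041485846204382519972523338588057874593927694574568799160569713791450544611861538867305561681546980010264993419420159234532396391517476740075271523684532826859342657833377239204378252330871292298837734308582221990344833776298499415588702006917887450422780575736285580119092733117305971085188537755904799810349580094425236341383467774903437864228538888216692733130536192162795281178734384679194163472760980675806781724231136938849600695588777894566953379091281146526874000877127448598708131197990434427300850665968287577860602848296090620131480177993298779793538167543264292823642608390359950856324437315134696967040445130766812048396432749327460459630739683959416554134966663485402739467757736065652297315752028837956733830285564456006413395121918783376614917146773150653571628199704919443822778827016868434219141006864982398175043464347394159131164806684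969845129655844589445777078883912506955361941296384364264348019323400319242219669680080828021695381094062513479927065755113733599790702662384118877086052401650868824130434914482149392269049395933170191017027367861646581215724863361660522600771487420536610934919520396309167161183536192633601836159775752065704217173048902714383569953385913020625838084816172651722299831346966970520980835017005082719689599264372370054959188375809835009876837840773916535851006950588556791932078590144916871835339300139373177787095199995105637126722253899288131410775119000179250546866175299913916004302252388177766712040792531988278361263756127290689203329189980253171893618827750343066428384495623021197642273694439243724014461049753230393470343217355139543100359895788114370046332962221014163040332247843207235881783627009986789009453419592742395429386847911970334409647697161596991511828840170097258153753316857728625849125270074296182236376751281122027372942622338610282641682472677455914919180384549053396304301210488132736189026512224702048982460598144117106096977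932318164649384277250218703429652703684030440235057809655112650640280359519507003316109326581362624122248769764003218291050599649672518691045004047133599276680348518362475350356824026885782532835965161444572383682207826990241274431054757010762221487774364990175339760416745128292487033457448254890986186259418874533979193100524023626487131711927270421793006586702310139835132380082892508736089411523707988783548243907173512086672282569259119869225926822868892584787068590111334827060365257859946261315094945631544541642929750805635614508796890024813634066723281082709226233572540910900280992913375095071368985869196258519843207564868192846266889857311173644829765145161809810501385719117407196195180761320789664339084187772402287945742701978033951955500407181412654130402819546759674400467475943433011928966942156286273407530514673582515557822600176493620535596937772251525623996746160007352408470432549554976412620184741899683153595881795294122878162115428278320836660099547243916506742874084938110899616722297504626589464372188873952088460986995489171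091013220184691715707593565779879543082305995792717079696826123369595545837331961897360366393129208693887452628355283766744812541333668283647270952682406241746735963341637113604830871898482863103814308080024594546263231682904315201679750024221485362758225151725266345709067147537612133423928391955503382666098512703538571779104553303327660652455126129797873985558984946166617332347537369541162966309300784191593233272941717516715122908432878199980256911421801585902069571832942814046214994104516372162965849413171829485773060977567939447543010207895548824023381064965644829298015836559012873909991004278648942797742470668503590967544116887222512339813213375999963514822708963060869869002323458060345219287526110481244023967520455703208281701853658140267810079246393357978924253320862954322627754671222173749398551567549368725537886787443728429906166196351909239416189555028294970202697321957320512278276715426801168177540546985743035116740989181533327160267395463456609419134811656644094082413566446212168273727560685016288104081835906663675536800703969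723794640423365493408239007954188863634280914744535295549031013307767553334190824253504181516996973579845111777546252598017232044352212969924786163863526711501507474587367679998711335547227333283991834929560940112870707184061553709654759249406460487794548358192652897076887176856208082481562587539073785272082104211480508470328904951947276780424448408021082700185854170691973059426761482524141527695389393163887568836072284785891966448397287276797239079888464611380280301167831315572054195731714463494614902388214432715264780671390256910763231640360989937875678323285448346353601755861800666920554217439808341144280832516938428519307127580080274953605320154735781388983041270078583542772502535907070830065294899864899660855422006168574924630414803478747048784551420054578811253071330806414736909574023849446184371822838218284208320131878417413758902744668789335521706648125204227480676630641821343678463187789531985530420123659369142862659462048338525843728594049552925889204680866863598012685939227098228289601130271315947245894998902167223713099293777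672273700580087663689943396449765510540343927560347105844028467928687020848581999172024148583499422313728723997281845611948854544628938546184206950979574037817297783478166082880121690436329471791686725277241391950697423461160929811863734157651948517461071859528237164964343199495192962921103727734717087876287615719824760400457549828101869495223114398814875125202147940747439721923408870120225535134590866901512189588800474446529294984423539184856222623147202834018074036519443139709230805441661239126905647068894283058659346662620816817148225800479061551298417527617523836987188757060634086106777650606465581908081758007241822580997160176199731940473240680887204589711480274381707811014460703699817865945230980539759409128412286084667265402850181769956479265293726191975956154158967053684619465532455192375450413717069262951588772754773578216318618797374241665997375929796755607004421177061082949732977971826321023933487788400671856163725265009650453134790975848647736994554378588546195608891087337068398692429680526095275846594055470880944611345893491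019349937273299366737971586914825794581178910529815338969289674718973880864715922332157666764226149209604349109908889695177942091400427011332650304372044847486543990031985041885073691293897031925515215089163808871334669179821878135353667854873946036522782791882623084119548272348129167093655811702010547256373876841699624743985490897413411218704743593940812415910391887081505757334318908346385767066115200214234467804069765170447272615239381156074152599069069838534326463354789645675634125542082171055545405301443883109538645676996129341980689244027613853546842913425387509496128157393511693296654669821882300881591191393910782704750171944091556378704164718544115364779662082595884374159427702830027901293328622689541303942046949044134903425111627884049206268273869379766571798218711914285871580522642937209406910928341474039935833211414788911591234524567709446249259823321076108567000837142376530425690909035880942531918646465691867226783800346593069000467521406786579795351720908377890186805753200681062987141826931516027117805360235638254910022986146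896458124915355564495905328327110901312156196157647093466805188080457816586562491168837387224837545827195537667846585987861280857041835578504172887235088476994381740688613755588569534807447272945506218343907502874380990325409212477335309316231883657861631578003358896902358476240010218716109820954099252901003835904818290960037882238341729372207336642996961636453571500698530815040225985423041272645117474379569005787771393420314715717982396016177762524327999867524769739160937562048910050132793508089728788279196822635995014891028758758545980958552154426132125786286560550859631641465668538182181410472641651761232642849519961434324380252881939299569065687433032121638843842827622279857506240256094703181463278414508321287530471197738204207880130802815768391746908265445868019908602778520139007601372610718203308654645767602408018214297009360666756495642265748049082593861335701551399615490247490257395476738738305294725525629500577007658801956265602836658757833672789404801328713430973001018121254343413132336293730836087541657071384450285054869020789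696777737359394084993434553242704384476410653318799421606275275434488772222734115752432278358609907393296623020340336645749126894599298686638340403279137493101748469809745018551284064183302491484798141288678925312151092559263303501291960844444841556261240517094268110947399315964520421210399420433763532170496758362060755370444066220713894675401802382568993634074593968420736612524067684071399114318376969548687994131918962075688173415531443918855322484389640659126623285265458934069665329628859866115000582389634996313434318410084248005720626640557300205461838961432264323307766710405801322148138224602356140650071425343600003058408373060391097282795206647725753297617843855885294983538089759461748039743697290225969204533937297851360042323804901803434378009636966275384977184645603089103210975024457763947701333194643719502401826385108882565776853551685578093538053056295272313514754917630795076370592357168892370547649587967660775268342488168706950664235287916152616120805731962005115620900465604241211767024910207946423692944409102844356045986365741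249326353252537883636597076817420709723507976334302702904222511167516193630011107997393374587327273476473813649438013443886642485212110597296577213504582847812586209039798383181364655867330727497929991142190835506874269123084689148109737252984069016494531744334998741419598710787788315626838568293700002460335178100599200733397006229941271087480369417895937581747739829136363038129606500424239093837316935295496591252564393696728892645351578539066362892321280152117193553695272754415012162384107413222186011396223795625858844295519426067459910135371396954119439389570167710949438986152094686058885429742067800421935281826511376680798433029025318964609763402655249477061788723260939372126800610739703867067974695492321564928719733035880042679093007236260025840271663129708081664654061959909793304364224898649889963470763405283224234585031408922159152885625929627634172241064868457616126698494665588844946830846015592130343639829837662454351942835851002891603678320306590159671711239722130111603687596953212204457135135760056395001487435107526747572543957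556088162266423005870617518831933247958496235116303687617802006676149277455111271393350873951557072536570034011550734632382930130466648660847771339947287736355673290981377122250111687661246954649780682830845001663531167656458858244948375963918403159511902059853809402537240791153444264165969905735216018157825172829732415327925447938664608919904891102128673914491402693383817745251501293374948593340872383738127723251121814195186855498639184619885771298506800071900352737117899776383190162067297974717273500426192078950037395416319972022881639075345005441399679853268297287807748601721657673995363589876820175761167263667969508986403620673609610347473168650382631888651424609870569007854253761882979268474820751895283800302140348636440560053678466526819507894811194827088305235030580824653739581794626935026003375277743585441705091963915108626596446302957312751474877449260057532783768304060125615202581075862597151121475853962213307417922159267082356262997256714350616349275530873837120624404608335262506414738239839302838776285094636679522645478383167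068008694338153769384516344275455525104503934281529101624573425796610229135306804441527052533131277610224118918117313219744891475872991874350908351801114622163170607869168446023674238032080898060932789503604349081792651242729307041583190883927924606773202361649325586848828478883300304263999828868952392979965619093447890681655410012811988896012234273558273122944870498212118552188430958602011336581087880432530524451845097908653003162692474708292997970927698367451070866084521592057593053554360994501723572744797043961108108954970418195690229621372892018981800879007901357423265466589961674586432696415693695733193273814449233240887678976454887602316990339173105957598137508100797859704114693773498011518941312126207345734808920334718969993191983903445806298006171786201514561683161625138658031480482413024563796841943200335283918002252119929109006460174244471092013505125448960741998302243184444277791231297249067229136796442518909787317494214023266908450973909678314040948098768326324464058300742983570572850041459057013961443106178252880453635625680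708712915792064247549215643913184846748956357630189217073392437672615898369084998616761382356747784014153162319205462601008145194278354803798591954324778128822121640653476242623817087707428570579848742737305717578521353469912868220411939123828611164300090882944723950583221440665034595366375708472080089733142582376389156335057601473032134429844778872590450165806141482080028652765207083297579139888618512000628344190077289976728956323212761012244061254535265576427235154142406846893578184168242951602622597616604766423954739658679392552556710305413678672747747875733171130109601494139889533893417840840916191786616034546930518817958656610759414799689231550403920892870059428730565833416570838743736140707168229545183477894327794574401592785352934187861393902524558261616764285498779971149309637645282280206307229059836495939693133710966964611768200195391558729134487746440972029886074731220421760623537741069093765197503047824822215383105344870994382137881557962238179973751301568899198524511377105998346627806620872042364370097653671931063768396641400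920810516367988839421103150941710014040173235159629626905303782583120393610851271484947448095869724155949257699135670175004875457318173652714420280065994729694441501414238454225449389922161304048465638785195207882559259263576049441924318358664482662956504917044086357344612582933637576954243432208351374989991068994556566889069371655974474356813465163556474144029740752817653170283362748638950737041160161491614756441256992564304547837319854175419705188982484075932139537841762783894908037955231859229404457709498350736816767389761290083346466978372087183880562789774989907224354231400812580543363156252739122754631081906214924707938327440686215032833127427664152114991840170334642567435562502235974775111520658863533377705739062237750773217647847216493486206873648135461910531020144171137442004075017278671075450208425626486820931818273438041126301358123438206402876258478771681610017087963571750484557899297848311274616200885580518590922528699209913720205755108499337348174308848683610805856553314465312083023582990974154055537159665311008421945785820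164107867837004912004505392690423402413944598816608442794301173139447819236529745455730688643738286216980475900312355630736293084096676101824617846573995162101744928014521806275532517211274248210576699485319981568954258768352011069761906329933206516051732917326821253793334248462533236324767409299306261788608468519126134010840932184610654034631284538157373354946503566155279670292790653777314445204417612125598145578532746728849047657870064400293859002501395084555049633920023862232123135317693089034023547788238829719124653123201702789157932300459524588132853242717651930228733296214769468158876917165055425745562276152751000666254827275788653550311644547801174432218000878939915970278182320701897354354974983210262068585598360324911731226182692718146868717820713035718861803550250554024908571675745968508423757354715188401386357327469902332488639273177024436814988114505985873246697313291950288065775416548505685942524862096251691800358565307915497022841610643425335210081757529091001143800702855118288268597608838703703227769917474151009065835825440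663518977886601182100728491003833996523443819915815383574037782727896314651219577815660079769459311973267624940187784901453439740902573054820103669149571963629181886869953279567985702605671055100134863090297827583314634788344833873795011719579846143925685880375314569303107243889207404860318747338081843583580960822597952292533160827080616904721088258276505716138430670683053845836978515446468646287058640172036305151554736621302678091461303315032924790440933933124736761093071368649170410652045988469314280782090900422233931873538415997845374716441707876864902092959614161017651580446301021106623429819993668286518900520506068551010160306134182670667367325538250006086820373684327845728808905270551813993179798293291210087834740087872224833667542531157781276423705102262383101352814497260409637611599079693979238674017199548944931878486491023865967776576245643827535933307534182957511500798419396009545393042862791208171959630389119052004068050953508541648378892941623387507904658417479887518905483261014490780284880257733841930804267131536404924874473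366587632853837386566836574532285694094864238861758711595582752370156766183839813016984340332937805378826105411076159057616447678108981263641029460388265085670286378150190109105399464062863691379621464812628530851878614859132857669221157435519794122167110755327341466944347600081708629506315837793307081735403118895355732418659289300868194603553163735042921875813846401284398399231183832313666982221594327918895266962405064690049415658034493042035999054903819504689418421146337418190990411521680996559057934899375113229398127305289839784999623605566049285142509309789954887906901279130534799783628610875400106944003732905742688774379054197699499314995727077245236695512057026980399133800258581500917352842276371980921231748335122442447357352984313312950555414243580089383784786798628020967184082140199898935301819754658706420378622408020357303802791585172515045795313869520993322267869957791298620569040761362430009437566232463898599759298558734948480584410702428556319752444921226273160669045082733305113087520126928549965093955003983898092884135706257663661130819531080206998340543175311373589411809232021590051004141705101312)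

end Vale.Agent.Lib.P154.PChain.BC.S10
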